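import Claimed.Agent.R286.L09.Defs

/-!
# Row 286 (S0533), unit L09 (LL Sec. 9 + 10), file CONTRACT: THE TOP NODES OF THE UNIT      (owner helper216; head of the unit helper60; prefix `l9`, `L9`)

EXIT of the chain level (THE CORE): `L9Inc 𝔹 F` (file `L09/Defs.lean`) = LL Prop. 4.1 = the fields `ac_*, int_*, inc_*` of `SkPath.Ok` for `l9Path` (ON ONE CHAIN), stop `4 L`.   ALL the nodes below carry the stop `4 L = 4 x^ε`.
This file types the nodes directly below it (DAG: `git show origin/helper60:notes/R286/LL09_DAG_60.md`):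

    L9Inc  <=  FIN (`l9_fin`, file `L09/Fin.lean`, LL Sec. 10 l.150-230; owner 216)
           <=  L9TRS + L9BndS   (size segment)                 TRS: 65 (+216);   BndS = HI (235) + W5 (235) + RED (282) + MAIN (242, 288, 274) + LC1 (60, 285) + CC (30)
             + L9TRD + L9BndD + L9Coarse   (strength sweep)    TRD: 65 (+216);   BndD = W5 + RED + MAIN + LC1 + CC;   Coarse = LL Lemma 8.8 part 1 (LL08: 228)
             + L9Switch   (the two multiplier sweeps)          LL Lemma 8.8 part 2 (LL08: 228)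
             + L9Mom   (E_γ Z^4, E_γ Z_g^2, measurability)     LL (D1), 08 l.1330 (LL08: 75)
             + L9Reg   (regularity in the path parameter)      LL03: 272 (clock values) + step form of (A1) (42: Exit/ClkPr)

VOCABULARY.   An INSTANCE `I : L9I` = (`F`, `𝔹`, test `s`, positions `Fs`, site count `m`).   At a path point `p : LlPt`:
* `I.P p : LlStp`              the fine path: the clocks `(b, h, K)` sampled at the positions `ghPs p.a (l9Fl Fs)` (`l9Fl`: at the mass `0` only `(0,1)`);   `I.js p` = the tilt stage;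
* `I.X en p : JtCtx`           THE jet context of LL02 (93: `llJs`, `L02/Defs`) of the ensemble `en` (`false` = untilted `none`, `true` = tilted `some js`).   The two contexts have the SAME signed sums, the same
                               `bC, hC, KC, qC, nuK`; they differ ONLY by the positive law `nu` and by the mask `msk` (so `J = h + b Q^* - K = b Δ + d` in both, LL after (A4));
* `X.dC t = h - K + b q`       (73, `L02/Contract2`) the field defect `d` at a pair which shares `t` revelations;   `X.cf n R τ = κ_K(τ) ∏_{i ∈ R} b ∏_{i ∉ R} d` = coefficient of `∏_{i ∈ R} Δ_i` in the degree `n` part of (E1);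
* `X.mon n R c`                `(2^n n!)⁻¹ (∑ c(τ) ν_τ[∏_{i ∈ R} Δ_i])_#`  per root;
* `l9O u e r c t = (u - e r) c(t) + c'(t)`    THE OPERATOR `O` on the coefficient of a monomial of degree `r` in `Δ`:  size path `(u, e) = (1, 1/6)`, direct path `(u, e) = (0, 0)`.
                               `O` acts on NUMBERS (decision D2 of 60): the coefficients are functions of the path parameter at a FIXED table `τ` (the masses of the chain do not move).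
* `I.OE1 pf u e J0 en t`       per-root expectation in the ensemble `en` of `O` applied to (E1), along the family `pf : ℝ → LlPt`;   `I.DOE1` = tilted minus untilted.
* `I.OF`, `I.DOF`              the same numbers in the frozen form of 73 (`frz`): this is what (A9) + size-increment (LL02: `L02RowDeriv`, `L02SizeIncr`) produce.   NODE E1X (exact identity, pure algebra +
                               differentiation of finite sums, 09 l.44-60): `I.DOF pf u e J0 t = I.DOE1 pf u e J0 t` (singleton cumulant against the linear counterterm; deterministic terms are common).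
* `I.dot pf t`                 `‖ḃ‖ + ‖ḣ‖ + ‖K̇‖ + ‖q̇‖` (mass integrals on the chain);   `I.Dif pf t` = the clock values of the chain are differentiable at `t`.
* `Mj : L9Mj`                  the parameter majorants `Z`, `Z_g` (LL (D1), 08 l.1330) as functions of (chain, path point, `m`): a PARAMETER of the contracts; the concrete one is defined by LL08 (75).

TEX[LL:prop:increment] TEX[LL:exp:lem-centered-count] TEX[LL:exp:prop-low-coefficients] (the last two are typed in the files of 30, 282, 242)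
-/

set_option autoImplicit false

namespace Claimed.Agent.R286

open MeasureTheory Set Filter
open scoped ENNReal Nat

noncomputable section

/-! ### 1. instances, fine paths, contexts -/

/-- an instance of Sec. 9 (everything but the path point) -/
structure L9I where
  F : LlFix
  𝔹 : LlBase
  s : ℝ
  Fs : Finset GhPos
  m : ℕ

namespace JtCtx
variable {S : Type} (X : JtCtx S)

/-- coefficient of `∏_{i ∈ R} Δ_i` in the degree `n` part of (E1), at the table `τ` on `2 n` labels -/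
def cf (n : ℕ) (R : Finset ℕ) (τ : JtTopo) : ℝ :=
  X.Kap (2 * n) 0 τ (Finset.range n) * (∏ i ∈ R, X.bC (τ (jtC 0 i) (jtD 0 i))) *
    ∏ i ∈ Finset.range n \ R, X.dC (τ (jtC 0 i) (jtD 0 i))

/-- per-root value of `(2^n n!)⁻¹ ∑ c(τ) ν_τ[∏_{i ∈ R} Δ_i]` -/
def mon (n : ℕ) (R : Finset ℕ) (c : JtTopo → ℝ) : ℝ :=
  ((2 : ℝ) ^ n * (n ! : ℝ))⁻¹ * X.sumK (2 * n - 1) 1 X.tau1 fun τ =>
    X.off 0 n τ * c τ * X.nu (2 * n) τ fun σ => ∏ i ∈ R, X.Dl τ σ (jtC 0 i) (jtD 0 i)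

/-- per-root value of `¼ ∑ c(τ) ν_τ[Δ^2]` -/
def sq (c : JtTopo → ℝ) : ℝ :=
  4⁻¹ * X.sumK 1 1 X.tau1 fun τ => X.off 0 1 τ * c τ * X.nu 2 τ fun σ => X.Dl τ σ 0 1 ^ 2

end JtCtx

/-- the operator `O` on the coefficient `c` of a monomial of degree `r` in `Δ` -/
def l9O (u e : ℝ) (r : ℕ) (c : ℝ → ℝ) (t : ℝ) : ℝ := (u - e * r) * c t + deriv c t

namespace L9I
variable (I : L9I)

/-- the chain at the path point `p` -/
def ps (p : LlPt) : List GhPos := ghPs p.a (l9Fl I.Fs)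

/-- the fine path -/
def P (p : LlPt) : LlStp := l9Stp p.a (p.b I.F I.𝔹) (p.h I.F I.𝔹) (p.K I.F I.𝔹) 0 0 0 (I.ps p)

/-- the tilt stage -/
def js (p : LlPt) : ℕ := l9Js I.s (I.ps p)

/-- the context of the ensemble `en` (`false`: untilted, `true`: tilted) -/
def X (en : Bool) (p : LlPt) : JtCtx (SkCfg I.m) := llJs I.m p.a (I.P p) (if en then some (I.js p) else none)

/-- the context of the untilted ensemble (source of the common coefficients) -/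
def X0 (p : LlPt) : JtCtx (SkCfg I.m) := I.X false p

/-- `ψ_{m'}(s)` at the point `p` -/
def psi (p : LlPt) (m' : ℕ) : ℝ := l9Psi I.F I.𝔹 I.s I.Fs p m'

/-- per-root expectation, in the ensemble `en`, of `O` applied to the pressure polynomial (E1) of degree `J0`, along the family `pf` -/
def OE1 (pf : ℝ → LlPt) (u e : ℝ) (J0 : ℕ) (en : Bool) (t : ℝ) : ℝ :=
  (∑ n ∈ Finset.Icc 2 J0, ∑ R ∈ (Finset.range n).powerset,
      (I.X en (pf t)).mon n R fun τ => l9O u e R.card (fun t' => (I.X0 (pf t')).cf n R τ) t)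
    - (I.X en (pf t)).sq fun τ => l9O u e 2 (fun t' => (I.X0 (pf t')).bC (τ 0 1)) t

/-- tilted minus untilted -/
def DOE1 (pf : ℝ → LlPt) (u e : ℝ) (J0 : ℕ) (t : ℝ) : ℝ := I.OE1 pf u e J0 true t - I.OE1 pf u e J0 false t

/-- the same number in the FROZEN form of 73 (`JtCtx.frz`, `L02/Contract2`): `u (ν[I])_# + (ν[𝒟 I])_#`, `I` = the pressure symbol (A6) through the degree `k`, `𝒟Δ = - e Δ` -/
def OF (pf : ℝ → LlPt) (u e : ℝ) (k : ℕ) (en : Bool) (t : ℝ) : ℝ :=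
  u * (I.X en (pf t)).presR k + deriv (fun t' => (I.X en (pf t)).frz (I.X en (pf t')) (Real.exp (-e * (t' - t))) k) t

/-- tilted minus untilted -/
def DOF (pf : ℝ → LlPt) (u e : ℝ) (k : ℕ) (t : ℝ) : ℝ := I.OF pf u e k true t - I.OF pf u e k false t

/-- the clock values of the chain are differentiable at `t` -/
def Dif (pf : ℝ → LlPt) (t : ℝ) : Prop :=
  ∀ j : ℕ, DifferentiableAt ℝ (fun t' => (I.X0 (pf t')).bC j) t ∧ DifferentiableAt ℝ (fun t' => (I.X0 (pf t')).hC j) t ∧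
    DifferentiableAt ℝ (fun t' => (I.X0 (pf t')).KC j) t

/-- the clock values of the chain are continuous along the family `pf` -/
def Cts {X : Type} [TopologicalSpace X] (pf : X → LlPt) : Prop :=
  ∀ j : ℕ, Continuous (fun z => (I.X0 (pf z)).bC j) ∧ Continuous (fun z => (I.X0 (pf z)).hC j) ∧ Continuous (fun z => (I.X0 (pf z)).KC j)

/-- the absolute mass integrals of the dotted clocks on the chain -/
def dot (pf : ℝ → LlPt) (t : ℝ) : ℝ :=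
  ∑ j ∈ Finset.range ((I.ps (pf t)).length + 1), skGap (pf t).a (llMat (I.P (pf t))) j *
    (|deriv (fun t' => (I.X0 (pf t')).bC j) t| + |deriv (fun t' => (I.X0 (pf t')).hC j) t| +
      |deriv (fun t' => (I.X0 (pf t')).KC j) t| + |deriv (fun t' => (I.X0 (pf t')).qC j) t|)

end L9I

/-- the parameter majorants `Z`, `Z_g` as functions of (data, chain, path point, site count) -/
structure L9Mj where
  Z : LlFix → LlBase → Finset GhPos → LlPt → ℕ → ℝ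
  Zg : LlFix → LlBase → Finset GhPos → LlPt → ℕ → ℝ

/-- the strength sweep in the parameter of the paper: `t = log λ`, `(χ_lin, χ_e) = (0,1)`      (`ll04Dir F N ell 0 γ τ = l9PtL N ell γ (l9T F N (ll04U 1 τ))`: `l9f_dir0_pt`) -/
def l9PtL (N : ℕ) (ell : ℝ) (γ : Fin (N + 1) → ℝ) (t : ℝ) : LlPt := ll04Pt N ell (Real.exp t) 0 1 false γ

/-- `t = log λ` at the parameter `τ` of the strength sweep -/
def l9T (F : LlFix) (N : ℕ) (τ : ℝ) : ℝ := (12 * (1 - τ) + F.pS * τ) * Real.log (skX N)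

/-- the smoothed size segment without the clamp of the parameter      (`ll04Siz F N Θ γ θ = l9PtS F N γ (ll04U Θ θ)` by `rfl`) -/
def l9PtS (F : LlFix) (N : ℕ) (γ : Fin (N + 1) → ℝ) (θ : ℝ) : LlPt := ll04Pt N (Real.exp (θ / 6)) (skX N ^ F.pS) 1 0 true γ

/-! ### 2. the shapes -/

/-- order of the constants of the POINTWISE nodes: saving, Laplace exponent, test, constants, dyad, chain.
`Φ c0 C N s L Fs`, `s = q x^(1+ε)`, `L = x^ε` -/
def L9Pw (Φ : ℝ → ℝ → ℕ → ℝ → ℝ → Finset GhPos → Prop) : Prop :=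
  ∃ c0 : ℝ, 0 < c0 ∧ ∃ ε0 : ℝ, 0 < ε0 ∧ ∀ ε : ℝ, 0 < ε → ε < ε0 → ∀ q : ℝ, 0 < q →
    ∃ (C : ℝ) (N0 : ℕ), ∀ N : ℕ, N0 ≤ N → ∀ᶠ Fs : Finset GhPos in atTop, Φ c0 C N (q * skX N ^ (1 + ε)) (skX N ^ ε) Fs

/-! ### 3. the size segment -/

/-- **TRS** (09 l.226-251, LL (A6)-(A9), Lemma size-increment): on the stop, the combination (I) is `O`(E1) up to `x^(5+c)`.   `J0` = the size Taylor degree.
TEX[LL:found:size-increment] TEX[LL:found:row-derivative] are its imports (LL02, 93). -/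
def L9TRS (𝔹 : LlBase) (J0 : ℕ) (F : LlFix) : Prop :=
  ∃ c0 : ℝ, 0 < c0 ∧ ∃ ε0 : ℝ, 0 < ε0 ∧ ∀ ε : ℝ, 0 < ε → ε < ε0 → ∀ q : ℝ, 0 < q → ∃ r0 : ℕ, ∀ r : ℕ, r0 ≤ r → ∀ c : ℕ → ℝ, SkStencil r c →
    ∃ (C : ℝ) (N0 : ℕ), ∀ N : ℕ, N0 ≤ N → ∀ᶠ Fs : Finset GhPos in atTop,
    ∀ m : ℕ, N ≤ 2 * m → m + r ≤ 3 * N → ∀ (γ : Fin (N + 1) → ℝ) (θ : ℝ), θ ∈ Ioo (0 : ℝ) (Real.log 2) →
      (⟨F, 𝔹, q * skX N ^ (1 + ε), Fs, m⟩ : L9I).Dif (l9PtS F N γ) θ →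
      (∀ j ∈ Finset.range (r + 1),
        q * skX N ^ (1 + ε) * ((m + j : ℕ) : ℝ) * (⟨F, 𝔹, q * skX N ^ (1 + ε), Fs, m⟩ : L9I).psi (l9PtS F N γ θ) (m + j) ≤ 4 * skX N ^ ε) →
      |deriv (fun t => (⟨F, 𝔹, q * skX N ^ (1 + ε), Fs, m⟩ : L9I).psi (l9PtS F N γ t) m) θ
          + ∑ j ∈ Finset.range (r + 1), c j * (((m + j : ℕ) : ℝ) * (⟨F, 𝔹, q * skX N ^ (1 + ε), Fs, m⟩ : L9I).psi (l9PtS F N γ θ) (m + j))
          - (⟨F, 𝔹, q * skX N ^ (1 + ε), Fs, m⟩ : L9I).DOE1 (l9PtS F N γ) 1 (1 / 6) J0 θ|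
        ≤ C * skX N ^ (5 + c0) * (1 + (⟨F, 𝔹, q * skX N ^ (1 + ε), Fs, m⟩ : L9I).dot (l9PtS F N γ) θ)

/-- **BndS** (09 l.331-395 high masses, l.396-492 + Prop. 9.2 + Lemma 9.1 low masses): the bound of `O`(E1) on the size segment, before the average over `γ` -/
def L9BndS (𝔹 : LlBase) (Mj : L9Mj) (J0 : ℕ) (F : LlFix) : Prop :=
  L9Pw fun c0 C N s L Fs =>
    ∀ m : ℕ, N ≤ 2 * m → m ≤ 3 * N → ∀ (γ : Fin (N + 1) → ℝ) (θ : ℝ), θ ∈ Ioo (0 : ℝ) (Real.log 2) →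
      (⟨F, 𝔹, s, Fs, m⟩ : L9I).Dif (l9PtS F N γ) θ →
      s * (m : ℝ) * (⟨F, 𝔹, s, Fs, m⟩ : L9I).psi (l9PtS F N γ θ) m ≤ 4 * L →
      |(⟨F, 𝔹, s, Fs, m⟩ : L9I).DOE1 (l9PtS F N γ) 1 (1 / 6) J0 θ|
        ≤ C * skX N ^ (5 + c0) * (Mj.Z F 𝔹 Fs (l9PtS F N γ θ) m ^ 4 + Mj.Zg F 𝔹 Fs (l9PtS F N γ θ) m * Mj.Z F 𝔹 Fs (l9PtS F N γ θ) m ^ 2)
            * (1 + (⟨F, 𝔹, s, Fs, m⟩ : L9I).dot (l9PtS F N γ) θ)

/-! ### 4. the strength sweep -/

/-- the OPEN range of `t = log λ` in (P1)      (v5, request of 65, ruling of 60: the nodes contain two-sided derivatives; no admissible neighbourhood at the end points; FIN uses almost every parameter only) -/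
def l9LamRg (F : LlFix) (N : ℕ) : Set ℝ := Ioo (12 * Real.log (skX N)) (F.pS * Real.log (skX N))

/-- **TRD** (09 l.252-330): on the stop and on `Y = U Z ≤ x^κ`, `∂_{log λ} ψ_m` is `O`(E1) up to `x^(5+c) Z^4`.   `J0` = the direct Taylor degree. -/
def L9TRD (𝔹 : LlBase) (Mj : L9Mj) (κ : ℝ) (J0 : ℕ) (F : LlFix) : Prop :=
  L9Pw fun c0 C N s L Fs =>
    ∀ m : ℕ, N ≤ 2 * m → m ≤ 3 * N → ∀ ell : ℝ, ell ∈ Icc (1 : ℝ) ((2 : ℝ) ^ (1 / 6 : ℝ)) → ∀ (γ : Fin (N + 1) → ℝ) (t : ℝ), t ∈ l9LamRg F N →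
      (⟨F, 𝔹, s, Fs, m⟩ : L9I).Dif (l9PtL N ell γ) t →
      s * (m : ℝ) * (⟨F, 𝔹, s, Fs, m⟩ : L9I).psi (l9PtL N ell γ t) m ≤ 4 * L →
      (l9PtL N ell γ t).U F * Mj.Z F 𝔹 Fs (l9PtL N ell γ t) m ≤ skX N ^ κ →
      |deriv (fun t' => (⟨F, 𝔹, s, Fs, m⟩ : L9I).psi (l9PtL N ell γ t') m) t - (⟨F, 𝔹, s, Fs, m⟩ : L9I).DOE1 (l9PtL N ell γ) 0 0 J0 t|
        ≤ C * skX N ^ (5 + c0) * Mj.Z F 𝔹 Fs (l9PtL N ell γ t) m ^ 4

/-- **BndD** (09 l.396-492 + Prop. 9.2 + Lemma 9.1): the bound of `O`(E1) on the strength sweep, on `Y ≤ x^κ` -/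
def L9BndD (𝔹 : LlBase) (Mj : L9Mj) (κ : ℝ) (J0 : ℕ) (F : LlFix) : Prop :=
  L9Pw fun c0 C N s L Fs =>
    ∀ m : ℕ, N ≤ 2 * m → m ≤ 3 * N → ∀ ell : ℝ, ell ∈ Icc (1 : ℝ) ((2 : ℝ) ^ (1 / 6 : ℝ)) → ∀ (γ : Fin (N + 1) → ℝ) (t : ℝ), t ∈ l9LamRg F N →
      (⟨F, 𝔹, s, Fs, m⟩ : L9I).Dif (l9PtL N ell γ) t →
      s * (m : ℝ) * (⟨F, 𝔹, s, Fs, m⟩ : L9I).psi (l9PtL N ell γ t) m ≤ 4 * L →
      (l9PtL N ell γ t).U F * Mj.Z F 𝔹 Fs (l9PtL N ell γ t) m ≤ skX N ^ κ →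
      |(⟨F, 𝔹, s, Fs, m⟩ : L9I).DOE1 (l9PtL N ell γ) 0 0 J0 t| ≤ C * skX N ^ (5 + c0) * Mj.Z F 𝔹 Fs (l9PtL N ell γ t) m ^ 4

open Classical in
/-- **Coarse** (LL Lemma 8.8, first part): the contribution of `Y > x^κ` to the strength sweep.   Written, like `L9Switch`, on the segment `ll04Dir F N ell 0` itself (parameter `τ ∈ [0,1]`; the integral of the speed
does not see the parametrisation;   chain rule `τ ↔ t = log λ`: `l9f_dir0_pt`, `l9f_dir0_deriv` in `L09/Fin.lean`) -/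
def L9Coarse (𝔹 : LlBase) (Mj : L9Mj) (κ : ℝ) (F : LlFix) : Prop :=
  L9Pw fun c0 C N s L Fs =>
    ∀ m : ℕ, N ≤ 2 * m → m ≤ 3 * N → ∀ ell : ℝ, ell ∈ Icc (1 : ℝ) ((2 : ℝ) ^ (1 / 6 : ℝ)) →
      ∫⁻ z : (Fin (N + 1) → ℝ) × ℝ, (if s * (m : ℝ) * (⟨F, 𝔹, s, Fs, m⟩ : L9I).psi (ll04Dir F N ell 0 z.1 z.2) m ≤ 4 * L ∧
            skX N ^ κ < (ll04Dir F N ell 0 z.1 z.2).U F * Mj.Z F 𝔹 Fs (ll04Dir F N ell 0 z.1 z.2) m
          then ENNReal.ofReal |deriv (fun t' => (⟨F, 𝔹, s, Fs, m⟩ : L9I).psi (ll04Dir F N ell 0 z.1 t') m) z.2| else 0)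
        ∂((ll04Mu N).prod (volume.restrict (Icc (0 : ℝ) 1))) ≤ ENNReal.ofReal (C * skX N ^ (5 + c0))

/-! ### 5. the multiplier sweeps -/

open Classical in
/-- **Switch** (LL Lemma 8.8, second part): the two multiplier sweeps `i = 1, 2` -/
def L9Switch (𝔹 : LlBase) (F : LlFix) : Prop :=
  L9Pw fun c0 C N s L Fs =>
    ∀ m : ℕ, N ≤ 2 * m → m ≤ 3 * N → ∀ ell : ℝ, ell ∈ Icc (1 : ℝ) ((2 : ℝ) ^ (1 / 6 : ℝ)) → ∀ i : Fin 3, i ≠ 0 →
      ∫⁻ z : (Fin (N + 1) → ℝ) × ℝ, (if s * (m : ℝ) * (⟨F, 𝔹, s, Fs, m⟩ : L9I).psi (ll04Dir F N ell i z.1 z.2) m ≤ 4 * L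
          then ENNReal.ofReal |deriv (fun t' => (⟨F, 𝔹, s, Fs, m⟩ : L9I).psi (ll04Dir F N ell i z.1 t') m) z.2| else 0)
        ∂((ll04Mu N).prod (volume.restrict (Icc (0 : ℝ) 1))) ≤ ENNReal.ofReal (C * skX N ^ (5 + c0))

/-! ### 6. the majorants -/

/-- **Mom** (LL (D1): `1 ≤ Z`, `E_γ Z^4 ≲_∘ 1`;   08 l.1330: `1 ≤ Z_g`, `E_γ Z_g^2 ≲ 1`), at every fixed path parameter and site count; joint measurability.
Written on the CLAMPED segments `ll04Dir F N ell 0`, `ll04Siz F N (log 2)` of 258 (remark of 246: outside the ranges the points are not `LlPt.Ok`, nothing is known there). -/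
def L9Mom (𝔹 : LlBase) (Mj : L9Mj) (F : LlFix) : Prop :=
  ∀ δ : ℝ, 0 < δ → ∃ (C : ℝ) (N0 : ℕ), ∀ N : ℕ, N0 ≤ N → ∀ᶠ Fs : Finset GhPos in atTop, ∀ m : ℕ, N ≤ 2 * m → m ≤ 3 * N →
    (∀ ell : ℝ, ell ∈ Icc (1 : ℝ) ((2 : ℝ) ^ (1 / 6 : ℝ)) →
      Measurable (fun z : (Fin (N + 1) → ℝ) × ℝ => Mj.Z F 𝔹 Fs (ll04Dir F N ell 0 z.1 z.2) m) ∧
      ∀ τ ∈ Icc (0 : ℝ) 1, (∀ γ, 1 ≤ Mj.Z F 𝔹 Fs (ll04Dir F N ell 0 γ τ) m) ∧
        ∫⁻ γ, ENNReal.ofReal (Mj.Z F 𝔹 Fs (ll04Dir F N ell 0 γ τ) m ^ 4) ∂ll04Mu N ≤ ENNReal.ofReal (C * skX N ^ (-δ))) ∧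
    Measurable (fun z : (Fin (N + 1) → ℝ) × ℝ => Mj.Z F 𝔹 Fs (ll04Siz F N (Real.log 2) z.1 z.2) m) ∧
    Measurable (fun z : (Fin (N + 1) → ℝ) × ℝ => Mj.Zg F 𝔹 Fs (ll04Siz F N (Real.log 2) z.1 z.2) m) ∧
    ∀ θ ∈ Icc (0 : ℝ) (Real.log 2),
      (∀ γ, 1 ≤ Mj.Z F 𝔹 Fs (ll04Siz F N (Real.log 2) γ θ) m ∧ 1 ≤ Mj.Zg F 𝔹 Fs (ll04Siz F N (Real.log 2) γ θ) m) ∧
      ∫⁻ γ, ENNReal.ofReal (Mj.Z F 𝔹 Fs (ll04Siz F N (Real.log 2) γ θ) m ^ 4) ∂ll04Mu N ≤ ENNReal.ofReal (C * skX N ^ (-δ)) ∧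
      ∫⁻ γ, ENNReal.ofReal (Mj.Zg F 𝔹 Fs (ll04Siz F N (Real.log 2) γ θ) m ^ 2) ∂ll04Mu N ≤ ENNReal.ofReal (C * skX N ^ (-δ))

/-! ### 7. regularity in the path parameter -/

/-- **Reg**: what FIN uses of the dependence on `(γ, path parameter)` on a fixed chain.   v5 = THE WEAKEST FORM; everything on the CLAMPED segments of 258 (all the points are `LlPt.Ok`).
(a) joint continuity of `ψ` and of the clock values of the chain (only for measurability);  (b) absolute continuity of `ψ` in the path parameter;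
(c) FOR EACH `γ`, almost every parameter is a point of differentiability of all the clock values of the chain (strength sweep and size segment; FIN does the Fubini step: no structure in `γ` is asked);
(d) size segment: an integrable envelope `w` (independent of `γ`, `m`), of subpower size, of the dotted norms at the points of differentiability (03 l.469-490, (P2b)).
No bound of the speed of `ψ` is asked. -/
def L9Reg (𝔹 : LlBase) (F : LlFix) : Prop :=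
  ∀ δ : ℝ, 0 < δ → ∀ q ε : ℝ, 0 < q → 0 < ε → ∃ (C : ℝ) (N0 : ℕ), ∀ N : ℕ, N0 ≤ N → ∀ᶠ Fs : Finset GhPos in atTop,
    (∀ m : ℕ, N ≤ 2 * m → m ≤ 3 * N →
      (∀ ell : ℝ, ell ∈ Icc (1 : ℝ) ((2 : ℝ) ^ (1 / 6 : ℝ)) →
        (∀ i : Fin 3, Continuous fun z : (Fin (N + 1) → ℝ) × ℝ => (⟨F, 𝔹, q * skX N ^ (1 + ε), Fs, m⟩ : L9I).psi (ll04Dir F N ell i z.1 z.2) m) ∧
        (∀ (i : Fin 3) (γ : Fin (N + 1) → ℝ),
          AbsolutelyContinuousOnInterval (fun τ => (⟨F, 𝔹, q * skX N ^ (1 + ε), Fs, m⟩ : L9I).psi (ll04Dir F N ell i γ τ) m) 0 1) ∧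
        (⟨F, 𝔹, q * skX N ^ (1 + ε), Fs, m⟩ : L9I).Cts (fun z : (Fin (N + 1) → ℝ) × ℝ => ll04Dir F N ell 0 z.1 z.2) ∧
        (∀ γ : Fin (N + 1) → ℝ, ∀ᵐ τ : ℝ, τ ∈ Icc (0 : ℝ) 1 → (⟨F, 𝔹, q * skX N ^ (1 + ε), Fs, m⟩ : L9I).Dif (ll04Dir F N ell 0 γ) τ)) ∧
      (Continuous fun z : (Fin (N + 1) → ℝ) × ℝ => (⟨F, 𝔹, q * skX N ^ (1 + ε), Fs, m⟩ : L9I).psi (ll04Siz F N (Real.log 2) z.1 z.2) m) ∧
      (∀ γ : Fin (N + 1) → ℝ,
        AbsolutelyContinuousOnInterval (fun θ => (⟨F, 𝔹, q * skX N ^ (1 + ε), Fs, m⟩ : L9I).psi (ll04Siz F N (Real.log 2) γ θ) m) 0 (Real.log 2)) ∧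
      (⟨F, 𝔹, q * skX N ^ (1 + ε), Fs, m⟩ : L9I).Cts (fun z : (Fin (N + 1) → ℝ) × ℝ => ll04Siz F N (Real.log 2) z.1 z.2) ∧
      (∀ γ : Fin (N + 1) → ℝ, ∀ᵐ θ : ℝ, θ ∈ Icc (0 : ℝ) (Real.log 2) →
        (⟨F, 𝔹, q * skX N ^ (1 + ε), Fs, m⟩ : L9I).Dif (ll04Siz F N (Real.log 2) γ) θ)) ∧
    ∃ w : ℝ → ℝ, IntegrableOn w (Icc (0 : ℝ) (Real.log 2)) ∧ ∫ θ in Icc (0 : ℝ) (Real.log 2), w θ ≤ C * skX N ^ (-δ) ∧
      ∀ᵐ θ : ℝ, θ ∈ Icc (0 : ℝ) (Real.log 2) → ∀ (γ : Fin (N + 1) → ℝ) (m : ℕ), N ≤ 2 * m → m ≤ 3 * N →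
        (⟨F, 𝔹, q * skX N ^ (1 + ε), Fs, m⟩ : L9I).Dif (l9PtS F N γ) θ →
        |1 + (⟨F, 𝔹, q * skX N ^ (1 + ε), Fs, m⟩ : L9I).dot (l9PtS F N γ) θ| ≤ w θ

end

/-! ### 8. FIN: `l9_fin` (all the nodes above ⟹ `L9Inc 𝔹 F`) is stated and PROVED in `L09/Fin.lean` -/

theorem l9_contract_eqns_cite : True := by
  have := @JtCtx.cf.eq_1
  have := @JtCtx.mon.eq_1
  have := @JtCtx.sq.eq_1
  have := @l9O.eq_1
  have := @L9I.ps.eq_1
  have := @L9I.P.eq_1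
  have := @L9I.js.eq_1
  have := @L9I.X.eq_1
  have := @L9I.X0.eq_1
  have := @L9I.psi.eq_1
  have := @L9I.OE1.eq_1
  have := @L9I.DOE1.eq_1
  have := @L9I.OF.eq_1
  have := @L9I.DOF.eq_1
  have := @L9I.Dif.eq_1
  have := @L9I.Cts.eq_1
  have := @L9I.dot.eq_1
  have := @l9PtL.eq_1
  have := @l9T.eq_1
  have := @l9PtS.eq_1
  have := @L9Pw.eq_1
  have := @L9TRS.eq_1
  have := @L9BndS.eq_1
  have := @l9LamRg.eq_1
  have := @L9TRD.eq_1
  have := @L9BndD.eq_1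
  have := @L9Coarse.eq_1
  have := @L9Switch.eq_1
  have := @L9Mom.eq_1
  have := @L9Reg.eq_1
  trivial

end Claimed.Agent.R286
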