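import Claimed.Agent.R286.L09.HiInst
import Claimed.Agent.R286.Defs.L9Pre

/-!
# Row 286 (S0533), LL Sec. 9, node HI, TOP: `L9BndSg (l9RgHi x^(a_2))` FROM THE SUPPLIES IN THE SHAPE `L9SbS`      (owner helper235; head of the unit helper60; prefix `l9hi`, `L9hi`)

TEX[LL:exp:high-table] 09-expansion.tex l.366-395 ("Here is the resulting power count ..").      Point level (compiled): `L09/HiInst.lean` (`l9hi_point`).
SUPPLIES (shape `L9SbS` of 282, `L09/RedC.lean`: for every loss `δ > 0` and tilt `(ε, q)`: `∃ C N0, ∀ N ≥ N0, ∀ᶠ Fs`, all the points of the size segment on the stop, `A = C x^(-δ)`):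
* `L9hiNumS`  [124 `L09/HiSup.lean` + 297 (D16, conclusion 2)]   `Q.HiNumA`: `1 ≤ Zc`, ONE envelope `sig` with `Q.HiNum` and `Q.HiLS` at
      `V_i = x^(a_i)`, `D_i = A x^(3 - C_H a_i) Zc²`, `PhiH = min 2 (A x^(2 + b_H) (Zc² + Z_g))`, `sg = A x^(a_1)`, `E1 = A Y²`, `B = A x³ λ^(-C_L) Z² + x^K`;
* `L9hiCoS`   [113 `L09/HiCo.lean` + 69 (Dots)]   `Q.HiCoB`: multipliers `gK, gb` with `Q.HiMul .. (A (1 + dot))`, `Q.HiCoA .. CG = A`;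
* `L9hiDifS`  [73, 65, 239]   `Q.HiDif`;
* `L9cAdmS`   (282's contract; 216 / 77).
POWER COUNT (`l9hi_pow`): `W ≤ 6 A³ x^(5 + 2 c0) (Z⁴ + Z_g Z²)` with `2 c0 ≤ b_H - C_L p_*`, `1 - 2 C_H a_1`, `b_H - C_H a_1`, `a_1 - C_H a_2 - p_* s_*` (the five rows of the table; rows 4 and 5 coincide here).
EXIT: `l9hi_bndS`; at the exponents of `par`: `l9hi_par` (cited by `exit_l9_hiS`, `L09/BndExit.lean`).
-/

set_option autoImplicit false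

namespace Claimed.Agent.R286

open scoped BigOperators Nat
open Filter

noncomputable section

namespace L9Q

variable (Q : L9Q) (Mj : L9Mj)

/-- the majorant `Z_g` -/
def Zg : ℝ := Mj.Zg Q.I.F Q.I.𝔹 Q.I.Fs Q.p Q.I.m
/-- `‖ḃ‖ + ‖ḣ‖ + ‖K̇‖ + ‖q̇‖` at the point -/
def dt : ℝ := Q.I.dot Q.pf Q.t

/-- the numbers of LL 08 at the loss `A` -/
def HiNumA (J0 : ℕ) (a1 a2 bH CH CL K A : ℝ) : Prop :=
  1 ≤ Q.Zc Mj ∧ ∃ sig : ℕ → ℝ,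
    Q.HiNum sig (Q.x ^ a1) (Q.x ^ a2) (A * (Q.x ^ (3 - CH * a1) * Q.Zc Mj ^ 2)) (A * (Q.x ^ (3 - CH * a2) * Q.Zc Mj ^ 2))
      (min 2 (A * (Q.x ^ (2 + bH) * (Q.Zc Mj ^ 2 + Q.Zg Mj)))) (A * Q.x ^ a1) (A * Q.Y Mj ^ 2) ∧
    Q.HiLS (Q.x ^ a1) sig J0 (A * (Q.x ^ 3 * Q.lam ^ (-CL) * Q.Z Mj ^ 2) + Q.x ^ K)

/-- the scalar coefficients at the loss `A` -/
def HiCoB (J0 : ℕ) (a1 a2 A : ℝ) : Prop :=
  ∃ gK gb : ℕ → ℝ, Q.HiMul (Q.x ^ a1) gK gb (A * (1 + Q.dt)) ∧ Q.HiCoA (Q.x ^ a1) (Q.x ^ a2) J0 A gK gb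

end L9Q

/-- LL 08 (+ LL 03) for node HI -/
def L9hiNumS (𝔹 : LlBase) (Mj : L9Mj) (F : LlFix) (J0 : ℕ) (a1 a2 bH CH CL : ℝ) : Prop :=
  ∀ K : ℝ, L9SbS 𝔹 F fun A Q => Q.HiNumA Mj J0 a1 a2 bH CH CL K A
/-- the scalar coefficients for node HI -/
def L9hiCoS (𝔹 : LlBase) (F : LlFix) (J0 : ℕ) (a1 a2 : ℝ) : Prop := L9SbS 𝔹 F fun A Q => Q.HiCoB J0 a1 a2 A
/-- differentiability -/
def L9hiDifS (𝔹 : LlBase) (F : LlFix) : Prop := L9SbS 𝔹 F fun _ Q => Q.HiDif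

end

/-! ## 1. monotonicity in the loss -/

/-- PLAN: fieldwise; `pair`: `L9htP` with `st1 : .. ≤ D1 ^ 2 = |D1| ^ 2 ≤ D1' ^ 2` (`sq_abs`, `pow_le_pow_left₀`), same for `st2`; the other fields are upper bounds (`le_trans`). -/
theorem L9Q.HiNum.mono {Q : L9Q} {sig : ℕ → ℝ} {V1 V2 D1 D2 PhiH sg E1 D1' D2' PhiH' sg' E1' : ℝ} (h : Q.HiNum sig V1 V2 D1 D2 PhiH sg E1)
    (h1 : |D1| ≤ D1') (h2 : |D2| ≤ D2') (h3 : PhiH ≤ PhiH') (h4 : sg ≤ sg') (h5 : E1 ≤ E1') : Q.HiNum sig V1 V2 D1' D2' PhiH' sg' E1' := by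
  have s1 : D1 ^ 2 ≤ D1' ^ 2 := by
    rw [← sq_abs D1]
    exact pow_le_pow_left₀ (abs_nonneg _) h1 2
  have s2 : D2 ^ 2 ≤ D2' ^ 2 := by
    rw [← sq_abs D2]
    exact pow_le_pow_left₀ (abs_nonneg _) h2 2
  exact
    { pair :=
        { hN := h.pair.hN
          pos := h.pair.pos
          bdd := h.pair.bdd
          st1 := fun e t ht hv => (h.pair.st1 e t ht hv).trans s1
          st2 := fun e t ht hv => (h.pair.st2 e t ht hv).trans s2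
          low := h.pair.low }
      sig0 := h.sig0
      sigsg := fun k hk => (h.sigsg k hk).trans h4
      env1 := h.env1.trans h5
      f_hi := fun v hv hm => (h.f_hi v hv hm).trans h3
      d_hi := fun v hv hm => (h.d_hi v hv hm).trans h3
      dd_hi := by
        obtain ⟨ex, e0, e1, e2⟩ := h.dd_hi
        exact ⟨ex, e0, fun v hv hm => (e1 v hv hm).trans (by linarith), e2.trans s1⟩
      f_lo := h.f_lo
      d_lo := h.d_lo }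

/-- PLAN: `unfold L9Q.HiLS L9hiLS`; the conclusion `≤ L0 * (G * B) ≤ L0 * (G * B')`: `0 ≤ L0` is a hypothesis, `0 ≤ G` from `0 ≤ l9htNm ms N g ≤ G` (`l9ht_nm_nonneg (Q.isMs hAdm)`). -/
theorem L9Q.HiLS.mono {Q : L9Q} {δm : ℝ} (hAdm : Q.Adm δm) {V1 B B' : ℝ} {eb : ℕ → ℝ} {J0 : ℕ} (h : Q.HiLS V1 eb J0 B) (hB : B ≤ B') : Q.HiLS V1 eb J0 B' := by
  intro n hn hnJ
  have key : ∀ r, L9hiLS Q.X Q.N Q.ms Q.Sf eb V1 n r B → L9hiLS Q.X Q.N Q.ms Q.Sf eb V1 n r B' := by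
    intro r hr A Lo cs ds g G L0 w a1 a2 a3 a4 a5 a6 hL0 hg hgG hnm a7 a8
    refine (hr A Lo cs ds g G L0 w a1 a2 a3 a4 a5 a6 hL0 hg hgG hnm a7 a8).trans ?_
    have hG : 0 ≤ G := (l9ht_nm_nonneg (Q.isMs hAdm) hg).trans hnm
    exact mul_le_mul_of_nonneg_left (mul_le_mul_of_nonneg_left hB hG) hL0
  exact ⟨key _ (h n hn hnJ).1, key _ (h n hn hnJ).2⟩

theorem L9Q.HiMul.mono {Q : L9Q} {V1 Gm Gm' : ℝ} {gK gb : ℕ → ℝ} (h : Q.HiMul V1 gK gb Gm) (hG : Gm ≤ Gm') : Q.HiMul V1 gK gb Gm' :=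
  ⟨h.K_nn, h.b_nn, fun k hk => (h.K_low k hk).trans hG, fun k hk => (h.b_low k hk).trans hG, h.K_int.trans hG, h.b_int.trans hG⟩

/-- PLAN: fieldwise; `0 ≤ l9htMl` (`l9ht_ml_nonneg`, `hM.K_nn`, `hM.b_nn`), `0 ≤ Q.ms _` (`(Q.isMs hAdm).nonneg`), `0 ≤ 1 + gb v`; `mul_le_mul_of_nonneg_right/left`. -/
theorem L9Q.HiCoA.mono {Q : L9Q} {δm : ℝ} (hAdm : Q.Adm δm) {V1 V2 CG CG' Gm : ℝ} {gK gb : ℕ → ℝ} {J0 : ℕ} (hM : Q.HiMul V1 gK gb Gm)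
    (h : Q.HiCoA V1 V2 J0 CG gK gb) (hC : CG ≤ CG') : Q.HiCoA V1 V2 J0 CG' gK gb := by
  have hml : ∀ n τ, 0 ≤ l9htMl Q.ms Q.N n gK gb τ := fun n τ => l9ht_ml_nonneg _ _ _ hM.K_nn hM.b_nn τ
  have hms : ∀ k, 0 ≤ Q.ms k := (Q.isMs hAdm).nonneg
  have key : ∀ n G, Q.HiCo V1 V2 n G CG gK gb → Q.HiCo V1 V2 n G CG' gK gb := fun n G hG =>
    ⟨fun τ hτ => (hG.maj τ hτ).trans (mul_le_mul_of_nonneg_right hC (hml n τ)),
      fun τ hτ i hi h1 h2 => (hG.par τ hτ i hi h1 h2).trans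
        (mul_le_mul_of_nonneg_left (mul_le_mul_of_nonneg_right hC (hml n τ)) (hms _))⟩
  exact ⟨fun n h2 hJ R hR => key _ _ (h.g0 n h2 hJ R hR), fun n h2 hJ R hR => key _ _ (h.g1 n h2 hJ R hR),
    fun v hv => (h.sq v hv).trans (mul_le_mul_of_nonneg_right hC (by have := hM.b_nn v; linarith)),
    fun n h2 hJ R hR τ hτ => (h.g1c n h2 hJ R hR τ hτ).trans hC⟩

/-- PLAN: `HiNum.mono` + `HiLS.mono`; `|A * c| ≤ A' * c` for `c ≥ 0` (`abs_mul`, `abs_of_nonneg`), `min_le_min_left`; `c ≥ 0`: `Real.rpow_nonneg`, `sq_nonneg`, `hZg`. -/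
theorem L9Q.HiNumA.mono {Q : L9Q} {Mj : L9Mj} {δm : ℝ} (hAdm : Q.Adm δm) {J0 : ℕ} {a1 a2 bH CH CL K A A' : ℝ} (h : Q.HiNumA Mj J0 a1 a2 bH CH CL K A)
    (hA : |A| ≤ A') (hx : 0 ≤ Q.x) (hl : 0 ≤ Q.lam) (hZg : 0 ≤ Q.Zg Mj) : Q.HiNumA Mj J0 a1 a2 bH CH CL K A' := by
  obtain ⟨hZc, sig, hN, hLS⟩ := h
  have hA' : A ≤ A' := (le_abs_self A).trans hA
  have hab : ∀ c : ℝ, 0 ≤ c → |A * c| ≤ A' * c := fun c hc => by
    rw [abs_mul, abs_of_nonneg hc]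
    exact mul_le_mul_of_nonneg_right hA hc
  have hle : ∀ c : ℝ, 0 ≤ c → A * c ≤ A' * c := fun c hc => mul_le_mul_of_nonneg_right hA' hc
  have hp : ∀ e : ℝ, 0 ≤ Q.x ^ e := fun e => Real.rpow_nonneg hx e
  refine ⟨hZc, sig, hN.mono (hab _ (mul_nonneg (hp _) (sq_nonneg _))) (hab _ (mul_nonneg (hp _) (sq_nonneg _)))
    (min_le_min_left _ (hle _ (mul_nonneg (hp _) (add_nonneg (sq_nonneg _) hZg)))) (hle _ (hp _)) (hle _ (sq_nonneg _)),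
    hLS.mono hAdm ?_⟩
  have := hle (Q.x ^ 3 * Q.lam ^ (-CL) * Q.Z Mj ^ 2) (mul_nonneg (mul_nonneg (pow_nonneg hx 3) (Real.rpow_nonneg hl _)) (sq_nonneg _))
  linarith

theorem L9Q.HiCoB.mono {Q : L9Q} {δm : ℝ} (hAdm : Q.Adm δm) {J0 : ℕ} {a1 a2 A A' : ℝ} (h : Q.HiCoB J0 a1 a2 A) (hA : A ≤ A') (hd : 0 ≤ Q.dt) :
    Q.HiCoB J0 a1 a2 A' := by
  obtain ⟨gK, gb, h1, h2⟩ := h
  exact ⟨gK, gb, h1.mono (mul_le_mul_of_nonneg_right hA (by linarith)), h2.mono hAdm h1 hA⟩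

/-! ## 2. the power count -/

/-- **POWER COUNT of the H table** (pure `rpow`).
PLAN.   `λ^(-C_L) = x^(-(C_L p))`, `U² ≤ x^(2 - p s)` (`Real.rpow_mul`, `Real.rpow_add`, `Real.rpow_natCast`); `min 2 P ≤ P`; `Zc^k ≤ Z^k`; `1 ≤ Z`; `x^e ≤ x^(5 + 2 c0)` for `e ≥ 5 + 2 c0` (`Real.rpow_le_rpow_of_exponent_ge`).
 (REPAIR 195: `g0 : 2 c0 ≤ b_H` added: the term `P x^K` of row 3 needs it; false without it for `C_L p < 0`, `C_H a_1 < 0`; the consumer derives it from `0 ≤ C_H`, `A x^(a_1) ≤ 1`.)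
 row 3: `P B ≤ A² x^(5 + b_H - C_L p) (Z² + Z_g) Z² + A x^(2 + b_H + K) (Z² + Z_g)`, `(Z² + Z_g) ≤ (Z² + Z_g) Z²`, `K ≥ 3`;      row 1: `D1² = A² x^(6 - 2 C_H a_1) Zc⁴`;      row 2: `D1 P ≤ A² x^(5 + b_H - C_H a_1) Zc² (Z² + Z_g)`;
 rows 4, 5: `D2 (V1 + sg) E1 ≤ A x^(3 - C_H a_2) Zc² * 2 A x^(a_1) * A x^(2 - p s) Zc²`.      Sum `≤ (2 + 1 + 1 + 2) A³ x^(5 + 2 c0) (Z⁴ + Z_g Z²)`. -/
theorem l9hi_pow {x A Z Zc Zg U lam a1 a2 bH CH CL K pS sS c0 : ℝ} (hx : 0 < x) (hx1 : x ≤ 1) (hA : 1 ≤ A) (hZc : 1 ≤ Zc) (hZ : Zc ≤ Z) (hZg : 0 ≤ Zg)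
    (hU0 : 0 ≤ U) (hU : U ≤ x * lam ^ (-(sS / 2))) (hlam : lam = x ^ pS) (hK : 3 ≤ K) (hbH : 0 ≤ bH) (g0 : 2 * c0 ≤ bH)
    (g1 : 2 * c0 ≤ bH - CL * pS) (g2 : 2 * c0 ≤ 1 - 2 * CH * a1) (g3 : 2 * c0 ≤ bH - CH * a1) (g4 : 2 * c0 ≤ a1 - CH * a2 - pS * sS) :
    l9hiW (x ^ a1) (A * (x ^ (3 - CH * a1) * Zc ^ 2)) (A * (x ^ (3 - CH * a2) * Zc ^ 2)) (min 2 (A * (x ^ (2 + bH) * (Zc ^ 2 + Zg)))) (A * x ^ a1)
        (A * (U * Zc) ^ 2) (A * (x ^ 3 * lam ^ (-CL) * Z ^ 2) + x ^ K)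
      ≤ 6 * A ^ 3 * x ^ (5 + 2 * c0) * (Z ^ 4 + Zg * Z ^ 2) := by
  have hA0 : 0 < A := by linarith
  have hZ1 : 1 ≤ Z := hZc.trans hZ
  have hZc0 : 0 ≤ Zc := by linarith
  have hZ0 : 0 ≤ Z := by linarith
  have hp : ∀ e : ℝ, 0 < x ^ e := fun e => Real.rpow_pos_of_pos hx e
  have hmono : ∀ {e : ℝ}, 5 + 2 * c0 ≤ e → x ^ e ≤ x ^ (5 + 2 * c0) := fun h => Real.rpow_le_rpow_of_exponent_ge hx hx1 h
  have hT0 : 0 < x ^ (5 + 2 * c0) := hp _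
  have hZc2 : Zc ^ 2 ≤ Z ^ 2 := pow_le_pow_left₀ hZc0 hZ 2
  have hZ2 : 1 ≤ Z ^ 2 := one_le_pow₀ hZ1
  have hS0 : 0 ≤ Z ^ 2 + Zg := by positivity
  have hW : Z ^ 4 + Zg * Z ^ 2 = (Z ^ 2 + Zg) * Z ^ 2 := by ring
  have hSc : Zc ^ 2 + Zg ≤ Z ^ 2 + Zg := by linarith
  have hSc0 : 0 ≤ Zc ^ 2 + Zg := by positivity
  have hSW : Z ^ 2 + Zg ≤ (Z ^ 2 + Zg) * Z ^ 2 := le_mul_of_one_le_right hS0 hZ2
  have hZc4 : Zc ^ 2 * Zc ^ 2 ≤ (Z ^ 2 + Zg) * Z ^ 2 := mul_le_mul (by linarith) hZc2 (by positivity) hS0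
  have h3 : x ^ (3 : ℝ) = x ^ 3 := by
    rw [show (3 : ℝ) = ((3 : ℕ) : ℝ) by norm_num, Real.rpow_natCast]
  have hl1 : lam ^ (-CL) = x ^ (-(CL * pS)) := by
    rw [hlam, ← Real.rpow_mul hx.le]
    congr 1
    ring
  have hl2 : (lam ^ (-(sS / 2))) ^ 2 = x ^ (-(pS * sS)) := by
    rw [hlam, ← Real.rpow_mul hx.le, ← Real.rpow_natCast, ← Real.rpow_mul hx.le]
    congr 1
    push_cast
    ring
  have hU2 : U ^ 2 ≤ x ^ (2 - pS * sS) := by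
    calc U ^ 2 ≤ (x * lam ^ (-(sS / 2))) ^ 2 := pow_le_pow_left₀ hU0 hU 2
      _ = x ^ (2 : ℝ) * x ^ (-(pS * sS)) := by rw [mul_pow, hl2, Real.rpow_two]
      _ = x ^ (2 - pS * sS) := by rw [← Real.rpow_add hx, ← sub_eq_add_neg]
  have hP0 : 0 ≤ A * (x ^ (2 + bH) * (Zc ^ 2 + Zg)) := mul_nonneg hA0.le (mul_nonneg (hp _).le hSc0)
  have hPh0 : 0 ≤ min 2 (A * (x ^ (2 + bH) * (Zc ^ 2 + Zg))) := le_min (by norm_num) hP0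
  have hPh : min 2 (A * (x ^ (2 + bH) * (Zc ^ 2 + Zg))) ≤ A * (x ^ (2 + bH) * (Zc ^ 2 + Zg)) := min_le_right _ _
  rw [hW]
  unfold l9hiW
  generalize min 2 (A * (x ^ (2 + bH) * (Zc ^ 2 + Zg))) = Ph at hPh0 hPh
  have r3 : Ph * (A * (x ^ 3 * lam ^ (-CL) * Z ^ 2) + x ^ K) ≤ (A ^ 2 + A) * x ^ (5 + 2 * c0) * ((Z ^ 2 + Zg) * Z ^ 2) := by
    have hB0 : 0 ≤ A * (x ^ 3 * lam ^ (-CL) * Z ^ 2) + x ^ K := by
      rw [hl1]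
      have := hp (-(CL * pS))
      have := hp K
      positivity
    refine (mul_le_mul_of_nonneg_right hPh hB0).trans ?_
    have t1 : A * (x ^ (2 + bH) * (Zc ^ 2 + Zg)) * (A * (x ^ 3 * lam ^ (-CL) * Z ^ 2)) ≤ A ^ 2 * x ^ (5 + 2 * c0) * ((Z ^ 2 + Zg) * Z ^ 2) := by
      have e0 : x ^ (5 + bH - CL * pS) = x ^ (2 + bH) * x ^ 3 * x ^ (-(CL * pS)) := by
        rw [← h3, ← Real.rpow_add hx, ← Real.rpow_add hx]
        congr 1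
        ring
      have e : A * (x ^ (2 + bH) * (Zc ^ 2 + Zg)) * (A * (x ^ 3 * lam ^ (-CL) * Z ^ 2))
          = A ^ 2 * x ^ (5 + bH - CL * pS) * ((Zc ^ 2 + Zg) * Z ^ 2) := by
        rw [e0, hl1]
        ring
      rw [e]
      exact mul_le_mul (mul_le_mul_of_nonneg_left (hmono (by linarith)) (by positivity))
        (mul_le_mul_of_nonneg_right hSc (by positivity)) (by positivity) (by positivity)
    have t2 : A * (x ^ (2 + bH) * (Zc ^ 2 + Zg)) * x ^ K ≤ A * x ^ (5 + 2 * c0) * ((Z ^ 2 + Zg) * Z ^ 2) := by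
      have e : A * (x ^ (2 + bH) * (Zc ^ 2 + Zg)) * x ^ K = A * x ^ (2 + bH + K) * (Zc ^ 2 + Zg) := by
        rw [Real.rpow_add hx (2 + bH) K]
        ring
      rw [e]
      exact mul_le_mul (mul_le_mul_of_nonneg_left (hmono (by linarith)) hA0.le) (hSc.trans hSW) hSc0 (by positivity)
    calc A * (x ^ (2 + bH) * (Zc ^ 2 + Zg)) * (A * (x ^ 3 * lam ^ (-CL) * Z ^ 2) + x ^ K)
        = A * (x ^ (2 + bH) * (Zc ^ 2 + Zg)) * (A * (x ^ 3 * lam ^ (-CL) * Z ^ 2)) + A * (x ^ (2 + bH) * (Zc ^ 2 + Zg)) * x ^ K := by ring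
      _ ≤ A ^ 2 * x ^ (5 + 2 * c0) * ((Z ^ 2 + Zg) * Z ^ 2) + A * x ^ (5 + 2 * c0) * ((Z ^ 2 + Zg) * Z ^ 2) := add_le_add t1 t2
      _ = (A ^ 2 + A) * x ^ (5 + 2 * c0) * ((Z ^ 2 + Zg) * Z ^ 2) := by ring
  have r1 : (A * (x ^ (3 - CH * a1) * Zc ^ 2)) ^ 2 ≤ A ^ 2 * x ^ (5 + 2 * c0) * ((Z ^ 2 + Zg) * Z ^ 2) := by
    have e0 : x ^ (6 - 2 * CH * a1) = x ^ (3 - CH * a1) * x ^ (3 - CH * a1) := by
      rw [← Real.rpow_add hx]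
      congr 1
      ring
    have e : (A * (x ^ (3 - CH * a1) * Zc ^ 2)) ^ 2 = A ^ 2 * x ^ (6 - 2 * CH * a1) * (Zc ^ 2 * Zc ^ 2) := by
      rw [e0]
      ring
    rw [e]
    exact mul_le_mul (mul_le_mul_of_nonneg_left (hmono (by linarith)) (by positivity)) hZc4 (by positivity) (by positivity)
  have r2 : A * (x ^ (3 - CH * a1) * Zc ^ 2) * Ph ≤ A ^ 2 * x ^ (5 + 2 * c0) * ((Z ^ 2 + Zg) * Z ^ 2) := by
    have hD0 : 0 ≤ A * (x ^ (3 - CH * a1) * Zc ^ 2) := mul_nonneg hA0.le (mul_nonneg (hp _).le (sq_nonneg _))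
    refine (mul_le_mul_of_nonneg_left hPh hD0).trans ?_
    have e0 : x ^ (5 + bH - CH * a1) = x ^ (3 - CH * a1) * x ^ (2 + bH) := by
      rw [← Real.rpow_add hx]
      congr 1
      ring
    have e : A * (x ^ (3 - CH * a1) * Zc ^ 2) * (A * (x ^ (2 + bH) * (Zc ^ 2 + Zg)))
        = A ^ 2 * x ^ (5 + bH - CH * a1) * ((Zc ^ 2 + Zg) * Zc ^ 2) := by
      rw [e0]
      ring
    rw [e]
    exact mul_le_mul (mul_le_mul_of_nonneg_left (hmono (by linarith)) (by positivity))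
      (mul_le_mul hSc hZc2 (by positivity) hS0) (by positivity) (by positivity)
  have r4 : A * (x ^ (3 - CH * a2) * Zc ^ 2) * ((x ^ a1 + A * x ^ a1) * (A * (U * Zc) ^ 2))
      ≤ 2 * A ^ 3 * x ^ (5 + 2 * c0) * ((Z ^ 2 + Zg) * Z ^ 2) := by
    have e0 : x ^ (5 + a1 - CH * a2 - pS * sS) = x ^ (3 - CH * a2) * x ^ a1 * x ^ (2 - pS * sS) := by
      rw [← Real.rpow_add hx, ← Real.rpow_add hx]
      congr 1
      ring
    have hq : 0 ≤ x ^ (3 - CH * a2) * x ^ a1 := mul_nonneg (hp _).le (hp _).le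
    calc A * (x ^ (3 - CH * a2) * Zc ^ 2) * ((x ^ a1 + A * x ^ a1) * (A * (U * Zc) ^ 2))
        = (A ^ 2 * (1 + A)) * (x ^ (3 - CH * a2) * x ^ a1 * U ^ 2) * (Zc ^ 2 * Zc ^ 2) := by ring
      _ ≤ (A ^ 2 * (2 * A)) * (x ^ (3 - CH * a2) * x ^ a1 * x ^ (2 - pS * sS)) * ((Z ^ 2 + Zg) * Z ^ 2) :=
          mul_le_mul (mul_le_mul (mul_le_mul_of_nonneg_left (by linarith) (by positivity)) (mul_le_mul_of_nonneg_left hU2 hq)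
            (mul_nonneg hq (sq_nonneg _)) (by positivity)) hZc4 (by positivity)
            (mul_nonneg (by positivity) (mul_nonneg hq (hp _).le))
      _ = 2 * A ^ 3 * x ^ (5 + a1 - CH * a2 - pS * sS) * ((Z ^ 2 + Zg) * Z ^ 2) := by
          rw [e0]
          ring
      _ ≤ 2 * A ^ 3 * x ^ (5 + 2 * c0) * ((Z ^ 2 + Zg) * Z ^ 2) :=
          mul_le_mul_of_nonneg_right (mul_le_mul_of_nonneg_left (hmono (by linarith)) (by positivity)) (by positivity)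
  have hTW : 0 ≤ x ^ (5 + 2 * c0) * ((Z ^ 2 + Zg) * Z ^ 2) := by positivity
  have hA2 : A ^ 2 ≤ A ^ 3 := pow_le_pow_right₀ hA (by norm_num)
  have hA1 : A ≤ A ^ 3 := by
    calc A = A ^ 1 := (pow_one A).symm
      _ ≤ A ^ 3 := pow_le_pow_right₀ hA (by norm_num)
  have hsum : (A ^ 2 + A) + A ^ 2 + A ^ 2 + 2 * A ^ 3 ≤ 6 * A ^ 3 := by linarith
  calc Ph * (A * (x ^ 3 * lam ^ (-CL) * Z ^ 2) + x ^ K) + (A * (x ^ (3 - CH * a1) * Zc ^ 2)) ^ 2 + A * (x ^ (3 - CH * a1) * Zc ^ 2) * Ph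
        + A * (x ^ (3 - CH * a2) * Zc ^ 2) * ((x ^ a1 + A * x ^ a1) * (A * (U * Zc) ^ 2))
      ≤ (A ^ 2 + A) * x ^ (5 + 2 * c0) * ((Z ^ 2 + Zg) * Z ^ 2) + A ^ 2 * x ^ (5 + 2 * c0) * ((Z ^ 2 + Zg) * Z ^ 2)
        + A ^ 2 * x ^ (5 + 2 * c0) * ((Z ^ 2 + Zg) * Z ^ 2) + 2 * A ^ 3 * x ^ (5 + 2 * c0) * ((Z ^ 2 + Zg) * Z ^ 2) := by linarith
    _ = ((A ^ 2 + A) + A ^ 2 + A ^ 2 + 2 * A ^ 3) * (x ^ (5 + 2 * c0) * ((Z ^ 2 + Zg) * Z ^ 2)) := by ring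
    _ ≤ 6 * A ^ 3 * (x ^ (5 + 2 * c0) * ((Z ^ 2 + Zg) * Z ^ 2)) := mul_le_mul_of_nonneg_right hsum hTW
    _ = 6 * A ^ 3 * x ^ (5 + 2 * c0) * ((Z ^ 2 + Zg) * Z ^ 2) := by ring

/-- **NODE HI AT ONE POINT OF THE SIZE SEGMENT**, power count done -/
theorem l9hi_point_num (Q : L9Q) (Mj : L9Mj) {δm : ℝ} (hAdm : Q.Adm δm) (hD : Q.HiDif) {J0 : ℕ} {a1 a2 bH CH CL K A c0 : ℝ}
    (hsm : Q.p.sm = true) (hlam : Q.lam = Q.x ^ Q.I.F.pS) (hx : 0 < Q.x) (hx1 : Q.x ≤ 1) (hA : 5 ≤ A) (hsg : A * Q.x ^ a1 ≤ 1) (hd : 0 ≤ Q.dt) (hZg : 0 ≤ Q.Zg Mj)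
    (ha21 : a2 ≤ a1) (hCH : 0 ≤ CH) (hK : 3 ≤ K) (hbH : 0 ≤ bH)
    (g1 : 2 * c0 ≤ bH - CL * Q.I.F.pS) (g2 : 2 * c0 ≤ 1 - 2 * CH * a1) (g3 : 2 * c0 ≤ bH - CH * a1) (g4 : 2 * c0 ≤ a1 - CH * a2 - Q.I.F.pS * Q.I.F.sS)
    (hNum : Q.HiNumA Mj J0 a1 a2 bH CH CL K A) (hCo : Q.HiCoB J0 a1 a2 A) :
    |Q.DOEg (l9RgHi (Q.x ^ a2)) J0| ≤ l9hiKK J0 * (6 * A ^ 5) * Q.x ^ (5 + 2 * c0) * ((Q.Z Mj ^ 4 + Q.Zg Mj * Q.Z Mj ^ 2) * (1 + Q.dt)) := by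
  obtain ⟨hZc, sig, hN, hLS⟩ := hNum
  obtain ⟨gK, gb, hM, hC⟩ := hCo
  have hA0 : 0 ≤ A := by linarith
  have ha4 : Q.p.a = 4 := by unfold LlPt.a; rw [if_pos hsm]
  have hZ : Q.Zc Mj ≤ Q.Z Mj := by unfold L9Q.Zc; rw [if_pos hsm]; exact min_le_left _ _
  have hU0 : 0 ≤ Q.U := by
    unfold L9Q.U LlPt.U
    exact le_min zero_le_one (mul_nonneg hx.le (Real.rpow_nonneg (by rw [show Q.p.lam = Q.lam from rfl, hlam]; exact Real.rpow_nonneg hx.le _) _))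
  have hU : Q.U ≤ Q.x * Q.lam ^ (-(Q.I.F.sS / 2)) := min_le_right _ _
  have hp : ∀ e : ℝ, 0 ≤ Q.x ^ e := fun e => Real.rpow_nonneg hx.le e
  have hS : Q.HiSide (Q.x ^ a1) (Q.x ^ a2) (A * (Q.x ^ (3 - CH * a1) * Q.Zc Mj ^ 2)) (A * (Q.x ^ (3 - CH * a2) * Q.Zc Mj ^ 2))
      (min 2 (A * (Q.x ^ (2 + bH) * (Q.Zc Mj ^ 2 + Q.Zg Mj)))) (A * Q.x ^ a1) (A * Q.Y Mj ^ 2) (A * (1 + Q.dt)) A
      (A * (Q.x ^ 3 * Q.lam ^ (-CL) * Q.Z Mj ^ 2) + Q.x ^ K) :=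
    { a_le := by rw [ha4]
      Gm1 := by rw [ha4]; nlinarith
      V0 := hp _
      V12 := Real.rpow_le_rpow_of_exponent_ge hx hx1 ha21
      sg0 := mul_nonneg hA0 (hp _)
      sg1 := hsg
      E0 := by positivity
      D1_0 := mul_nonneg hA0 (mul_nonneg (hp _) (sq_nonneg _))
      D2_0 := mul_nonneg hA0 (mul_nonneg (hp _) (sq_nonneg _))
      D21 := by
        refine mul_le_mul_of_nonneg_left (mul_le_mul_of_nonneg_right ?_ (sq_nonneg _)) hA0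
        exact Real.rpow_le_rpow_of_exponent_ge hx hx1 (by nlinarith)
      Phi0 := le_min (by norm_num) (mul_nonneg hA0 (mul_nonneg (hp _) (by positivity)))
      Phi1 := min_le_left _ _
      CG0 := hA0
      B0 := by
        have : 0 ≤ Q.lam ^ (-CL) := Real.rpow_nonneg (by rw [hlam]; exact hp _) _
        have := hp 3; have := hp K
        positivity }
  have ha1 : 0 ≤ a1 := by
    by_contra hcon
    have h1 : 1 ≤ Q.x ^ a1 := Real.one_le_rpow_of_pos_of_le_one_of_nonpos hx hx1 (not_le.1 hcon).le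
    nlinarith
  have g0 : 2 * c0 ≤ bH := by
    have := mul_nonneg hCH ha1
    linarith
  have h1 := l9hi_point Q hAdm hD hS hN hM hC hLS
  have h2 := l9hi_pow (Z := Q.Z Mj) (Zc := Q.Zc Mj) (Zg := Q.Zg Mj) (U := Q.U) (CL := CL) (K := K) hx hx1 (by linarith : (1 : ℝ) ≤ A) hZc hZ hZg hU0 hU hlam hK hbH g0 g1 g2 g3 g4
  have h3 : 0 ≤ l9hiKK J0 * (A * (A * (1 + Q.dt))) := mul_nonneg (l9hi_KK_nonneg J0) (by positivity)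
  calc _ ≤ _ := h1
    _ ≤ l9hiKK J0 * (A * (A * (1 + Q.dt))) * (6 * A ^ 3 * Q.x ^ (5 + 2 * c0) * (Q.Z Mj ^ 4 + Q.Zg Mj * Q.Z Mj ^ 2)) := mul_le_mul_of_nonneg_left h2 h3
    _ = _ := by ring

/-! ## 3. the exit -/

/-- PLAN: `skX N = (N : ℝ) ^ (-(1/6))`; `skX N ^ κ = (N : ℝ) ^ (-(κ / 6))` (`Real.rpow_mul`); `tendsto_rpow_neg_atTop` composed with `tendsto_natCast_atTop_atTop`, times the constant `C`: tends to `0`; `Filter.Tendsto.eventually_le_const`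
(or `eventually_lt`), `Filter.eventually_atTop`; take the max with `1`. -/
theorem l9hi_N0 (C κ : ℝ) (hκ : 0 < κ) : ∃ N0 : ℕ, ∀ N : ℕ, N0 ≤ N → 1 ≤ N ∧ C * skX N ^ κ ≤ 1 := by
  refine ⟨max 1 ⌈(|C| + 1) ^ (6 / κ)⌉₊, fun N hN => ?_⟩
  have hN1 : 1 ≤ N := (le_max_left _ _).trans hN
  have hNr : (|C| + 1) ^ (6 / κ) ≤ (N : ℝ) := (Nat.le_ceil _).trans (by exact_mod_cast (le_max_right _ _).trans hN)
  have hN0 : (0 : ℝ) < N := by exact_mod_cast (by omega : 0 < N)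
  have hC1 : 0 < |C| + 1 := by positivity
  have h1 : |C| + 1 ≤ (N : ℝ) ^ (κ / 6) := by
    calc |C| + 1 = ((|C| + 1) ^ (6 / κ)) ^ (κ / 6) := by
          rw [← Real.rpow_mul hC1.le, show 6 / κ * (κ / 6) = 1 by field_simp, Real.rpow_one]
      _ ≤ (N : ℝ) ^ (κ / 6) := Real.rpow_le_rpow (by positivity) hNr (by positivity)
  have e : skX N ^ κ = ((N : ℝ) ^ (κ / 6))⁻¹ := by
    unfold skX
    rw [← Real.rpow_mul hN0.le, ← Real.rpow_neg hN0.le]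
    congr 1
    ring
  refine ⟨hN1, ?_⟩
  have hp : 0 < (N : ℝ) ^ (κ / 6) := Real.rpow_pos_of_pos hN0 _
  rw [e, ← div_eq_mul_inv, div_le_one hp]
  linarith [le_abs_self C]

/-- **NODE HI** (LL 09 l.327-395): the terms of the size segment with a base pair at mass `≥ V_2 = x^(a_2)` -/
theorem l9hi_bndS (𝔹 : LlBase) (Mj : L9Mj) (J0 : ℕ) (F : LlFix) {a1 a2 bH CH CL c0 : ℝ} (hc0 : 0 < c0) (hca : c0 ≤ a1) (ha21 : a2 ≤ a1) (hCH : 0 ≤ CH)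
    (hbH : 0 ≤ bH) (g1 : 2 * c0 ≤ bH - CL * F.pS) (g2 : 2 * c0 ≤ 1 - 2 * CH * a1) (g3 : 2 * c0 ≤ bH - CH * a1) (g4 : 2 * c0 ≤ a1 - CH * a2 - F.pS * F.sS)
    (hNum : L9hiNumS 𝔹 Mj F J0 a1 a2 bH CH CL) (hCo : L9hiCoS 𝔹 F J0 a1 a2) (hDif : L9hiDifS 𝔹 F) (hAdm : L9cAdmS 𝔹 F)
    (hZg : ∀ Fs p m, 0 ≤ Mj.Zg F 𝔹 Fs p m) :
    L9BndSg 𝔹 Mj J0 F fun x => l9RgHi (x ^ a2) := by
  refine ⟨c0, hc0, 1, one_pos, fun ε hε _ q hq => ?_⟩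
  have hδ : 0 < c0 / 5 := by positivity
  obtain ⟨C1, N1, H1⟩ := hNum 3 (c0 / 5) hδ ε hε q hq
  obtain ⟨C2, N2, H2⟩ := hCo (c0 / 5) hδ ε hε q hq
  obtain ⟨C3, N3, H3⟩ := hDif (c0 / 5) hδ ε hε q hq
  obtain ⟨C4, N4, H4⟩ := hAdm 1 (c0 / 5) hδ ε hε q hq
  set C : ℝ := 5 + |C1| + |C2| with hC
  obtain ⟨N5, H5⟩ := l9hi_N0 C (a1 - c0 / 5) (by linarith)
  refine ⟨l9hiKK J0 * (6 * C ^ 5), max N1 (max N2 (max N3 (max N4 N5))), fun N hN => ?_⟩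
  have n1 : N1 ≤ N := (le_max_left _ _).trans hN
  have n2 : N2 ≤ N := ((le_max_left _ _).trans (le_max_right _ _)).trans hN
  have n3 : N3 ≤ N := (((le_max_left _ _).trans (le_max_right _ _)).trans (le_max_right _ _)).trans hN
  have n4 : N4 ≤ N := ((((le_max_left _ _).trans (le_max_right _ _)).trans (le_max_right _ _)).trans (le_max_right _ _)).trans hN
  have n5 : N5 ≤ N := ((((le_max_right _ _).trans (le_max_right _ _)).trans (le_max_right _ _)).trans (le_max_right _ _)).trans hN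
  obtain ⟨hN1, hsg⟩ := H5 N n5
  have hx : 0 < skX N := l9b_skX_pos hN1
  have hx1 : skX N ≤ 1 := l9b_skX_le_one hN1
  have hxδ : 1 ≤ skX N ^ (-(c0 / 5)) := Real.one_le_rpow_of_pos_of_le_one_of_nonpos hx hx1 (by linarith)
  filter_upwards [H1 N n1, H2 N n2, H3 N n3, H4 N n4] with Fs k1 k2 k3 k4
  intro m γ θ hy
  set Q : L9Q := l9QS F 𝔹 (q * skX N ^ (1 + ε)) Fs m N γ θ with hQ
  obtain ⟨hA4, hd⟩ := k4 m γ θ hy
  have hC0 : 0 ≤ C := by rw [hC]; positivity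
  have a1' : |C1 * skX N ^ (-(c0 / 5))| ≤ C * skX N ^ (-(c0 / 5)) := by
    rw [abs_mul, abs_of_nonneg (by linarith : 0 ≤ skX N ^ (-(c0 / 5)))]
    exact mul_le_mul_of_nonneg_right (by rw [hC]; linarith [abs_nonneg C2]) (by linarith)
  have a2' : C2 * skX N ^ (-(c0 / 5)) ≤ C * skX N ^ (-(c0 / 5)) :=
    mul_le_mul_of_nonneg_right (by rw [hC]; linarith [abs_nonneg C1, le_abs_self C2]) (by linarith)
  have hA5 : 5 ≤ C * skX N ^ (-(c0 / 5)) := by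
    have : 5 ≤ C := by rw [hC]; linarith [abs_nonneg C1, abs_nonneg C2]
    nlinarith
  have hsg' : C * skX N ^ (-(c0 / 5)) * Q.x ^ a1 ≤ 1 := by
    have e : skX N ^ (-(c0 / 5)) * skX N ^ a1 = skX N ^ (a1 - c0 / 5) := by rw [← Real.rpow_add hx]; congr 1; ring
    calc C * skX N ^ (-(c0 / 5)) * Q.x ^ a1 = C * (skX N ^ (-(c0 / 5)) * skX N ^ a1) := by rw [mul_assoc]; rfl
      _ = C * skX N ^ (a1 - c0 / 5) := by rw [e]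
      _ ≤ 1 := hsg
  have hl0 : 0 ≤ Q.lam := Real.rpow_nonneg hx.le _
  have h := l9hi_point_num Q Mj (c0 := c0) hA4 (k3 m γ θ hy) rfl rfl hx hx1 hA5 hsg' hd (hZg _ _ _) ha21 hCH le_rfl hbH g1 g2 g3 g4
    ((k1 m γ θ hy).mono hA4 a1' hx.le hl0 (hZg _ _ _)) ((k2 m γ θ hy).mono hA4 a2' hd)
  refine h.trans (le_of_eq ?_)
  have e5 : (C * skX N ^ (-(c0 / 5))) ^ 5 * skX N ^ (5 + 2 * c0) = C ^ 5 * skX N ^ (5 + c0) := by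
    rw [mul_pow, ← Real.rpow_natCast (skX N ^ (-(c0 / 5))) 5, ← Real.rpow_mul hx.le, mul_assoc, ← Real.rpow_add hx]
    congr 2
    push_cast
    ring
  calc l9hiKK J0 * (6 * (C * skX N ^ (-(c0 / 5))) ^ 5) * Q.x ^ (5 + 2 * c0) * ((Q.Z Mj ^ 4 + Q.Zg Mj * Q.Z Mj ^ 2) * (1 + Q.dt))
      = l9hiKK J0 * 6 * ((C * skX N ^ (-(c0 / 5))) ^ 5 * skX N ^ (5 + 2 * c0)) * ((Q.Z Mj ^ 4 + Q.Zg Mj * Q.Z Mj ^ 2) * (1 + Q.dt)) := by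
        rw [show Q.x = skX N from rfl]; ring
    _ = l9hiKK J0 * (6 * C ^ 5) * skX N ^ (5 + c0) * l9WS F 𝔹 Mj N (q * skX N ^ (1 + ε)) Fs m γ θ := by
        rw [e5, show l9WS F 𝔹 Mj N (q * skX N ^ (1 + ε)) Fs m γ θ = (Q.Z Mj ^ 4 + Q.Zg Mj * Q.Z Mj ^ 2) * (1 + Q.dt) from rfl]; ring

/-- **NODE HI at the exponents of `par`**: the hierarchy `p_* ≪ a_2 ≪ a_1 ≪ b_H` of `LLParD` gives the four gaps with `c0 = a_1 / 4` -/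
theorem l9hi_par (F0 : LlFix) (par : LLPar)
    (hNum : L9hiNumS llBase (l9qMj par) (l9qF F0 par) par.kPr par.a1 par.a2 par.bH par.CH par.CL) (hCo : L9hiCoS llBase (l9qF F0 par) par.kPr par.a1 par.a2)
    (hDif : L9hiDifS llBase (l9qF F0 par)) (hAdm : L9cAdmS llBase (l9qF F0 par)) :
    L9BndSg llBase (l9qMj par) par.kPr (l9qF F0 par) fun x => l9RgHi (x ^ par.a2) := by
  have h1 := par.a1_le
  have h2 := par.a2_le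
  have h3 := par.pStar_le_a2
  have h4 := par.CH_ge
  have h5 := par.CL_ge
  have h6 := par.a1_pos
  have h7 := par.a2_pos
  have h8 := par.pStar_pos
  have h9 := par.bH_pos
  have h10 := par.bH_le
  have h11 := par.a0_le_dStar
  have hd : llDStar = 1 / 10000 := rfl
  have hs0 : 0 < par.sStar := by have := (l9q_expOk par).s_lo; linarith
  have hs1 : par.sStar ≤ 1 := by have := (l9q_expOk par).s_hi; linarith
  have e1 : par.CH * par.a1 ≤ par.bH / 100 := by nlinarith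
  have e2 : par.CH * par.a2 ≤ par.a1 / 100 := by nlinarith
  have e3 : par.CL * par.pStar ≤ par.a2 / 100 := by nlinarith
  have e4 : par.a1 ≤ par.bH / 100 := by nlinarith
  have e5 : par.a2 ≤ par.a1 / 100 := by nlinarith
  have e6 : par.pStar ≤ par.a2 / 100 := by nlinarith
  have e7 : par.pStar * par.sStar ≤ par.pStar := by nlinarith
  refine l9hi_bndS llBase (l9qMj par) par.kPr (l9qF F0 par) (c0 := par.a1 / 4) (by positivity) (by linarith) (by linarith) (by linarith) h9.le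
    ?_ ?_ ?_ ?_ hNum hCo hDif hAdm (fun Fs p m => le_trans zero_le_one (le_max_left _ _))
  · show 2 * (par.a1 / 4) ≤ par.bH - par.CL * par.pStar
    linarith
  · linarith
  · linarith
  · show 2 * (par.a1 / 4) ≤ par.a1 - par.CH * par.a2 - par.pStar * par.sStar
    linarith

theorem l9hi_top_eqns_cite : True := by
  have := @L9Q.Zg.eq_1; have := @L9Q.dt.eq_1; have := @L9Q.HiNumA.eq_1; have := @L9Q.HiCoB.eq_1; have := @L9hiNumS.eq_1; have := @L9hiCoS.eq_1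
  have := @L9hiDifS.eq_1
  trivial

end Claimed.Agent.R286
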