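import Claimed.Agent.R286.LL04.Defs
import Claimed.Agent.R286.L02.Defs

/-!
# Row 286 (S0533), unit L09 (LL Sec. 9 + 10), file DEFS: THE PATH OF NUMBERS ON ONE CHAIN      (owner helper216; head of the unit helper60; prefix `l9`, `L9`)

`l9Path` = the path `ll04Path` of 258 (same points `ll04Dir`, `ll04Siz`, same law `ll04Mu` of `γ`) with the pressures computed **ON ONE FINITE CHAIN** of positions (`Defs/Clk`).
It is the object INSIDE the unit L09 (ruling of 60, 02:56Z); the passage chain → path is `L09/Lsc.lean` (60, 260).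

* `l9Stp a b h K .. ps`   the fine LL path (`LlStp`, 136) which reveals the clocks `b, h` and the scalar reference clock `K` at the positions `ps`;
* `l9Js s ps`             the TILT STAGE: the last stage of the chain at a position `≤ (s, 1)`;
* `l9PsiC m a b h K s ps` `ψ_m(s) = f_m(b 1_{v ≥ s}, h) - f_m(b, h)` (LL (A4)) on the chain `ps`, in the vocabulary of LL02 (93, `L02/Defs`): `llPsi llMv m a js P`.   BOTH ensembles
                          live on the same stages, hence on the same masses (common signed weights).   (`K` is idle in `ψ`; it is carried because the jets `llJs` live on the same `P`.)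
* `l9PsiT m a b h s ps`   the same number written with the tilted CLOCK `b 1_{v ≥ s}` sampled on the chain (its `ghLim` is the path number);   equal to `l9PsiC` as soon as `(0,1), (s,1) ∈ ps`
                          (merging of equal masses, empty stages).
* `l9Path F 𝔹 N N' s Fs`  the `SkPath`; `Fs : Finset GhPos` = the positions; the chain of a segment with terminal mass `a` is `ghPs a (l9Fl Fs)` (`l9Fl`: at the mass `0` only `(0,1)`).
* `L9Ev Φ`                THE SHAPE: order of the constants of `SkIncr`, then "for all sufficiently fine chains".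
* `L9IncF`                the fields `ac_dir, ac_siz, int_dir, inc_dir, int_siz, inc_siz` of `SkPath.Ok`;   `L9Env` the envelope form of `inc_siz` (258).
* `L9Inc 𝔹 F`             **THE CORE** = EXIT of the chain level: `L9IncF` for `l9Path`, with the stop `4 L` (`= 3 (4/3 L)`: the passage to the path loses a margin in the stop).

WHY ONE CHAIN: on a fixed chain the pressure is a smooth function of finitely many clock values, so `deriv` in the path parameter is a finite-dimensional chain rule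
(LL (A1), (A9) at the STEP level); no derivative has to be passed to the limit.
-/

set_option autoImplicit false

namespace Claimed.Agent.R286

open MeasureTheory Set Filter
open scoped ENNReal

noncomputable section

/-- the matrix clock of the tilted ensemble: `b 1_{v ≥ s}` -/
def l9Tb (s : ℝ) (b : ℝ → ℝ) : ℝ → ℝ := fun v => if s ≤ v then b v else 0

/-- the fine LL path which reveals the clocks `b, h, K` at the positions of the list -/
def l9Stp (a : ℝ) (b h K : ℝ → ℝ) : ℝ → ℝ → ℝ → List GhPos → LlStp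
  | _, _, _, [] => []
  | b0, h0, K0, p :: ps =>
      ⟨p.u, ghAt a b p - b0, ghAt a h p - h0, ghAt a K p - K0⟩ :: l9Stp a b h K (ghAt a b p) (ghAt a h p) (ghAt a K p) ps

/-- the tilt stage of the chain `ps`: the last stage at a position `≤ (s, 1)` -/
def l9Js (s : ℝ) (ps : List GhPos) : ℕ := ghIdx ps ((ghPosA s : GhPos) : WithTop GhPos) - 1

/-- `ψ_m(s)` on the chain `ps` -/
def l9PsiC (m : ℕ) (a : ℝ) (b h K : ℝ → ℝ) (s : ℝ) (ps : List GhPos) : ℝ :=
  llPsi llMv m a (l9Js s ps) (l9Stp a b h K 0 0 0 ps)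

/-- `ψ_m(s)` on the chain `ps`, written with the tilted clock -/
def l9PsiT (m : ℕ) (a : ℝ) (b h : ℝ → ℝ) (s : ℝ) (ps : List GhPos) : ℝ :=
  skPr m a (skCStp a (l9Tb s b) h 0 0 ps) - skPr m a (skCStp a b h 0 0 ps)

open Classical in
/-- the positions IN USE: at the mass `0` only the position `(0,1)` after the jump (alarm of 22, 189: a chain which splits the initial jump `b(0+)` over several stages of mass `0` violates the
hypotheses of (A4), `LlTiltA4.db0`; nothing needs the split at `0`).   `ghGrid a k` and `ghPosA s` survive: `l9_fl_grid`, `l9_fl_posA`. -/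
def l9Fl (Fs : Finset GhPos) : Finset GhPos := Fs.filter fun q => q.u = 0 → q.lam = 1

/-- `ψ_m(s)` at the path point `p`, on the chain of the positions in use of `Fs` -/
def l9Psi (F : LlFix) (𝔹 : LlBase) (s : ℝ) (Fs : Finset GhPos) (p : LlPt) (m : ℕ) : ℝ :=
  l9PsiC m p.a (p.b F 𝔹) (p.h F 𝔹) (p.K F 𝔹) s (ghPs p.a (l9Fl Fs))

/-- **the numbers of one dyad comparison on one chain** -/
def l9Path (F : LlFix) (𝔹 : LlBase) (N N' : ℕ) (s : ℝ) (Fs : Finset GhPos) : SkPath where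
  k := N + 1
  μ := ll04Mu N
  dir := fun e i γ τ m => l9Psi F 𝔹 s Fs (ll04Dir F N (ll04Ell N N' e) i γ τ) m
  siz := fun γ θ m => l9Psi F 𝔹 s Fs (ll04Siz F N (Real.log ((N' : ℝ) / N)) γ θ) m

/-- **the shape of the chain-level contracts**: the order of the constants of `SkIncr`, then all sufficiently fine chains.
`Φ P N N' s L r c C c0` = a group of fields of `SkPath.Ok`. -/
def L9Ev (F : LlFix) (𝔹 : LlBase) (Φ : SkPath → ℕ → ℕ → ℝ → ℝ → ℕ → (ℕ → ℝ) → ℝ → ℝ → Prop) : Prop :=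
  ∃ c0 : ℝ, 0 < c0 ∧ ∃ ε0 : ℝ, 0 < ε0 ∧ ∀ ε : ℝ, 0 < ε → ε < ε0 → ∀ q : ℝ, 0 < q → ∃ r0 : ℕ, ∀ r : ℕ, r0 ≤ r → ∀ c : ℕ → ℝ, SkStencil r c →
    ∃ (C : ℝ) (N0 : ℕ), ∀ N : ℕ, N0 ≤ N → ∀ N' : ℕ, N ≤ N' → N' ≤ 2 * N →
      ∀ᶠ Fs : Finset GhPos in atTop,
        Φ (l9Path F 𝔹 N N' (q * skX N ^ (1 + ε)) Fs) N N' (q * skX N ^ (1 + ε)) (skX N ^ ε) r c C c0

/-- the fields of `SkPath.Ok` which are LL Prop. 4.1, with the absolute continuity which gives them a meaning -/
structure L9IncF (P : SkPath) (N N' : ℕ) (s L : ℝ) (r : ℕ) (c : ℕ → ℝ) (C c0 : ℝ) : Prop where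
  ac_dir : ∀ e i γ m, N ≤ 2 * m → m ≤ 3 * N → AbsolutelyContinuousOnInterval (fun τ => P.dir e i γ τ m) 0 1
  ac_siz : ∀ γ m, N ≤ 2 * m → m ≤ 3 * N → AbsolutelyContinuousOnInterval (fun θ => P.siz γ θ m) 0 (Real.log (N' / N))
  int_dir : ∀ e i m, N ≤ 2 * m → m ≤ 3 * N → Integrable (P.aD s L e i m) (P.μ.prod (volume.restrict (Icc (0 : ℝ) 1)))
  inc_dir : ∀ e i m, N ≤ 2 * m → m ≤ 3 * N → ∫ p, P.aD s L e i m p ∂(P.μ.prod (volume.restrict (Icc (0 : ℝ) 1))) ≤ C * skX N ^ (5 + c0)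
  int_siz : ∀ m, N ≤ 2 * m → m + r ≤ 3 * N → Integrable (P.aS s L r c m) (P.μ.prod (volume.restrict (Icc (0 : ℝ) (Real.log (N' / N)))))
  inc_siz : ∀ W : ℕ → ℝ → ℝ, (∀ m, Continuous (W m)) → (∀ m θ, 0 ≤ W m θ) → (∀ θ, ∑ m ∈ Finset.range (3 * N + 1), W m θ ≤ 1) →
    (∀ m θ, W m θ ≠ 0 → N ≤ 2 * m ∧ m + r ≤ 3 * N) →
    ∫ p, ∑ m ∈ Finset.range (3 * N + 1), W m p.2 * P.aS s L r c m p ∂(P.μ.prod (volume.restrict (Icc (0 : ℝ) (Real.log (N' / N))))) ≤ C * skX N ^ (5 + c0)

/-- part 2 of LL Prop. 4.1 in the ENVELOPE form of 258 (LL 10 l.173-202: "uniform in `m` before integrating `θ`");   `ll04e_main` (LL04/AsmEnv): envelope ⟹ `inc_siz` -/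
def L9Env (P : SkPath) (N N' : ℕ) (s L : ℝ) (r : ℕ) (c : ℕ → ℝ) (C c0 : ℝ) : Prop :=
  ∃ e : ℝ → ℝ, IntegrableOn e (Icc (0 : ℝ) (Real.log (N' / N))) ∧ ∫ θ in Icc (0 : ℝ) (Real.log (N' / N)), e θ ≤ C * skX N ^ (5 + c0) ∧
    ∀ᵐ θ : ℝ, θ ∈ Icc (0 : ℝ) (Real.log (N' / N)) → ∀ m, N ≤ 2 * m → m + r ≤ 3 * N → ∫ γ, P.aS s L r c m (γ, θ) ∂P.μ ≤ e θ

/-- **THE CORE: LL Prop. 4.1 on one chain**, for the exponents and cut-offs `F`, with the stop `4 L` -/
def L9Inc (𝔹 : LlBase) (F : LlFix) : Prop := L9Ev F 𝔹 fun P N N' s L r c C c0 => L9IncF P N N' s (4 / 3 * L) r c C c0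

end

theorem l9_fl_mem {Fs : Finset GhPos} {q : GhPos} : q ∈ l9Fl Fs ↔ q ∈ Fs ∧ (q.u = 0 → q.lam = 1) := by
  classical
  unfold l9Fl
  rw [Finset.mem_filter]

theorem l9_fl_posA {Fs : Finset GhPos} {u : ℝ} (h : ghPosA u ∈ Fs) : ghPosA u ∈ l9Fl Fs :=
  l9_fl_mem.2 ⟨h, fun _ => rfl⟩

theorem l9_fl_grid {Fs : Finset GhPos} {a : ℝ} {k : ℕ} (h : ghGrid a k ⊆ Fs) : ghGrid a k ⊆ l9Fl Fs := by
  intro q hq
  refine l9_fl_mem.2 ⟨h hq, fun _ => ?_⟩
  unfold ghGrid at hq
  obtain ⟨i, _, rfl⟩ := Finset.mem_image.1 hq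
  rfl

theorem l9_fl_subset (Fs : Finset GhPos) : l9Fl Fs ⊆ Fs := fun _ hq => (l9_fl_mem.1 hq).1

theorem l9_defs_eqns_cite : True := by
  have := @l9Tb.eq_1
  have := @l9Stp.eq_1
  have := @l9Stp.eq_2
  have := @l9Stp.eq_def
  have := @l9Stp.induct
  have := @l9Js.eq_1
  have := @l9PsiC.eq_1
  have := @l9PsiT.eq_1
  have := @l9Fl.eq_1
  have := @l9Psi.eq_1
  have := @l9Path.eq_1
  have := @L9Ev.eq_1
  have := @L9Env.eq_1
  have := @L9Inc.eq_1
  trivial

end Claimed.Agent.R286
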