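import Mathlib

/-!
# Row 286 (S0533), unit L09, file LSC: FROM ONE CHAIN TO THE PATH      (typed by helper60; OWNER of the proofs helper260; prefix `l9s_`)      Mathlib only.      **0 sorry (260, 04:25Z)**: `l9s_dir` is the case `r = 0, c = 0, m = 1` of `l9s_siz`; grid = `N+1` equal cells, drift by the left endpoint rule.

WHY.   The deep core of LL Prop. 4.1 is proved ON ONE FINITE CHAIN (`l9Path`, 216: derivative in the path parameter = finite dimensional chain rule), for all sufficiently fine chains, with the stop `4 L`.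
The Hub wants it for the PATH numbers (`ll04Path`, 258), with the stop `3 L`.   Only VALUES converge (uniformly: `|ψ^chain - ψ| ≤ mesh * (b(a) + h(a))`).   The stopped integrals of the speed are
LOWER SEMICONTINUOUS under uniform convergence of the values, if the stop is relaxed.   No derivative is passed to the limit.

PROOF of `l9s_dir` (elementary; no variation theory).   `B ≥ 0` (integral of a nonnegative function).   If the integrand `A` of the conclusion is not integrable its integral is `0`.   Otherwise work with `∫⁻`.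
 For `k` with `κ K 2^-k ≤ L/2`, `t_j = j 2^-k`, `I_j = [t_j, t_(j+1))`:      `G_k(γ,τ) = 2^k |ψ γ t_(j+1) - ψ γ t_j| 1{κ ψ γ t_j ≤ 3 L + L/4 …}` for `τ ∈ I_j`      (measurable by `hm`).
 (1) on the event of the indicator `κ ψ γ ≤ 3.5 L + …` on all of `I_j` (`hLip`), so for `φ` with `κ δ ≤ L/4`: `κ φ γ ≤ 4 L` on `I_j`, and `|φ γ t_(j+1) - φ γ t_j| = |∫_{I_j} deriv| ≤ ∫_{I_j} (stopped speed of φ)` (FTC for
     absolutely continuous functions);   hence `∫∫ G_k ≤ B + 2^(k+1) δ` for every small `δ`, i.e. `∫∫ G_k ≤ B`   (Fubini for the integrable stopped speed of `φ`; no measurability of `φ` in `γ` is needed: the inequality is pointwise in `γ`).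
 (2) `A ≤ liminf_k G_k` at every `(γ, τ)`, `τ ∈ (0,1)`: if `ψ γ` is not differentiable at `τ`, `A = 0`;   otherwise the straddling difference quotients converge to the derivative, and if `κ ψ γ τ ≤ 3 L` the indicator is `1` for large `k`.
 (3) Fatou (`lintegral_liminf_le`).
`l9s_siz`: the same for `Φ_m(θ) = ψ_m(θ) + ∫_0^θ g_m`, `g_m = ∑_j c_j (m+j) ψ_(m+j)` (continuous), weights: `inf_{I_j} W_m` in `G_k`;   here non-differentiability points are NOT harmless (`deriv = 0`, `A = |g|`): use that a Lipschitz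
function is differentiable almost everywhere (`LipschitzWith.ae_differentiableAt` after a clamp, or `AbsolutelyContinuousOnInterval`).
-/

set_option autoImplicit false

namespace Claimed.Agent.R286

open MeasureTheory Set Filter Topology
open scoped ENNReal

open Classical in
/-- stopped speed of a family `ψ γ τ`: test `κ ψ ≤ A` -/
noncomputable def l9sD {Ω : Type} (ψ : Ω → ℝ → ℝ) (κ A : ℝ) (p : Ω × ℝ) : ℝ :=
  if κ * ψ p.1 p.2 ≤ A then |deriv (ψ p.1) p.2| else 0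

open Classical in
/-- stopped combination (I) of a family `ψ γ θ m`: test `s (m+j) ψ_(m+j) ≤ A`, `j ≤ r` -/
noncomputable def l9sS {Ω : Type} (ψ : Ω → ℝ → ℕ → ℝ) (s A : ℝ) (r : ℕ) (c : ℕ → ℝ) (m : ℕ) (p : Ω × ℝ) : ℝ :=
  if ∀ j ∈ Finset.range (r + 1), s * ((m + j : ℕ) : ℝ) * ψ p.1 p.2 (m + j) ≤ A then
    |deriv (fun θ => ψ p.1 θ m) p.2 + ∑ j ∈ Finset.range (r + 1), c j * (((m + j : ℕ) : ℝ) * ψ p.1 p.2 (m + j))| else 0

theorem l9s_eqns_cite : True := by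
  have := @l9sD.eq_1
  have := @l9sS.eq_1
  trivial

/-! ## kit A: one real variable -/

/-- straddling difference quotients converge to the derivative -/
theorem l9s_straddle {f : ℝ → ℝ} {f' θ : ℝ} (hf : HasDerivAt f f' θ) (α β : ℕ → ℝ) (hα : ∀ N, α N ≤ θ) (hβ : ∀ N, θ ≤ β N)
    (hαβ : ∀ N, α N < β N) (hαl : Tendsto α atTop (𝓝 θ)) (hβl : Tendsto β atTop (𝓝 θ)) :
    Tendsto (fun N => (f (β N) - f (α N)) / (β N - α N)) atTop (𝓝 f') := by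
  rw [Metric.tendsto_atTop]
  intro ε hε
  have ho := (hasDerivAt_iff_isLittleO.1 hf).def (half_pos hε)
  have h1 := hαl.eventually ho
  have h2 := hβl.eventually ho
  obtain ⟨N0, hN0⟩ := eventually_atTop.1 (h1.and h2)
  refine ⟨N0, fun N hN => ?_⟩
  obtain ⟨ha, hb⟩ := hN0 N hN
  have hpos : 0 < β N - α N := sub_pos.2 (hαβ N)
  simp only [smul_eq_mul, Real.norm_eq_abs] at ha hb
  rw [abs_of_nonpos (sub_nonpos.2 (hα N))] at ha
  rw [abs_of_nonneg (sub_nonneg.2 (hβ N))] at hb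
  rw [Real.dist_eq]
  have e1 : (f (β N) - f (α N)) / (β N - α N) - f'
      = ((f (β N) - f θ - (β N - θ) * f') - (f (α N) - f θ - (α N - θ) * f')) / (β N - α N) := by
    field_simp
    ring
  rw [e1, abs_div, abs_of_pos hpos, div_lt_iff₀ hpos]
  have h3 := abs_sub (f (β N) - f θ - (β N - θ) * f') (f (α N) - f θ - (α N - θ) * f')
  nlinarith

/-- the infimum of a continuous function over shrinking intervals -/
theorem l9s_inf_tendsto {W : ℝ → ℝ} (hW : Continuous W) {θ : ℝ} (α β : ℕ → ℝ) (hα : ∀ N, α N ≤ θ) (hβ : ∀ N, θ ≤ β N)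
    (hαl : Tendsto α atTop (𝓝 θ)) (hβl : Tendsto β atTop (𝓝 θ)) :
    Tendsto (fun N => sInf (W '' Icc (α N) (β N))) atTop (𝓝 (W θ)) := by
  have hex : ∀ N, ∃ x ∈ Icc (α N) (β N), sInf (W '' Icc (α N) (β N)) = W x := fun N =>
    isCompact_Icc.exists_sInf_image_eq ⟨θ, hα N, hβ N⟩ hW.continuousOn
  choose x hx hxe using hex
  have hxl : Tendsto x atTop (𝓝 θ) :=
    tendsto_of_tendsto_of_tendsto_of_le_of_le hαl hβl (fun N => (hx N).1) (fun N => (hx N).2)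
  have := (hW.tendsto θ).comp hxl
  refine this.congr fun N => ?_
  exact (hxe N).symm

/-- mesh -/
noncomputable def l9sH (Θ : ℝ) (N : ℕ) : ℝ := Θ / ((N : ℝ) + 1)

/-- grid points -/
noncomputable def l9sT (Θ : ℝ) (N i : ℕ) : ℝ := (i : ℝ) * l9sH Θ N

theorem l9s_H_pos {Θ : ℝ} (hΘ : 0 < Θ) (N : ℕ) : 0 < l9sH Θ N := by
  unfold l9sH
  positivity

theorem l9s_T_succ (Θ : ℝ) (N i : ℕ) : l9sT Θ N (i + 1) = l9sT Θ N i + l9sH Θ N := by
  unfold l9sT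
  push_cast
  ring

theorem l9s_T_zero (Θ : ℝ) (N : ℕ) : l9sT Θ N 0 = 0 := by
  simp [l9sT]

theorem l9s_T_top (Θ : ℝ) (N : ℕ) : l9sT Θ N (N + 1) = Θ := by
  unfold l9sT l9sH
  have : ((N : ℝ) + 1) ≠ 0 := by positivity
  push_cast
  field_simp

theorem l9s_T_mono {Θ : ℝ} (hΘ : 0 < Θ) (N : ℕ) : Monotone (l9sT Θ N) := by
  intro i j hij
  unfold l9sT
  exact mul_le_mul_of_nonneg_right (by exact_mod_cast hij) (l9s_H_pos hΘ N).le

theorem l9s_T_mem {Θ : ℝ} (hΘ : 0 < Θ) (N i : ℕ) (hi : i ≤ N + 1) : l9sT Θ N i ∈ Icc (0 : ℝ) Θ := by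
  constructor
  · exact (l9s_T_zero Θ N).symm.le.trans (l9s_T_mono hΘ N (Nat.zero_le i))
  · exact (l9s_T_mono hΘ N hi).trans_eq (l9s_T_top Θ N)

theorem l9s_H_tendsto (Θ : ℝ) : Tendsto (l9sH Θ) atTop (𝓝 0) := by
  have h := (tendsto_one_div_add_atTop_nhds_zero_nat (𝕜 := ℝ)).const_mul Θ
  rw [mul_zero] at h
  refine h.congr fun N => ?_
  unfold l9sH
  ring

/-- every point of `(0, Θ]` lies in a cell -/
theorem l9s_grid_exists {Θ : ℝ} (hΘ : 0 < Θ) (N : ℕ) {θ : ℝ} (hθ : θ ∈ Ioc (0 : ℝ) Θ) :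
    ∃ i, i < N + 1 ∧ θ ∈ Ioc (l9sT Θ N i) (l9sT Θ N (i + 1)) := by
  have hH := l9s_H_pos hΘ N
  set x : ℝ := θ / l9sH Θ N with hx
  have hx0 : 0 < x := div_pos hθ.1 hH
  have hxN : x ≤ ((N + 1 : ℕ) : ℝ) := by
    rw [hx, div_le_iff₀ hH]
    have := l9s_T_top Θ N
    unfold l9sT at this
    rw [this]
    exact hθ.2
  have hc1 : 1 ≤ ⌈x⌉₊ := Nat.one_le_iff_ne_zero.2 (by
    intro h0
    rw [Nat.ceil_eq_zero] at h0
    linarith)
  have hc2 : ⌈x⌉₊ ≤ N + 1 := Nat.ceil_le.2 hxN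
  refine ⟨⌈x⌉₊ - 1, by omega, ?_, ?_⟩
  · unfold l9sT
    have h1 : ((⌈x⌉₊ - 1 : ℕ) : ℝ) < x := by
      have := Nat.ceil_lt_add_one hx0.le
      rw [Nat.cast_sub hc1]
      push_cast
      linarith
    calc ((⌈x⌉₊ - 1 : ℕ) : ℝ) * l9sH Θ N < x * l9sH Θ N := mul_lt_mul_of_pos_right h1 hH
      _ = θ := by rw [hx]; field_simp
  · have e : ⌈x⌉₊ - 1 + 1 = ⌈x⌉₊ := by omega
    rw [e]
    unfold l9sT
    calc θ = x * l9sH Θ N := by rw [hx]; field_simp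
      _ ≤ (⌈x⌉₊ : ℝ) * l9sH Θ N := mul_le_mul_of_nonneg_right (Nat.le_ceil x) hH.le

/-- the cells are disjoint and contained in `[0, Θ]` -/
theorem l9s_sum_cells {Θ : ℝ} (hΘ : 0 < Θ) (N : ℕ) (f : ℝ → ℝ≥0∞) :
    ∑ i ∈ Finset.range (N + 1), ∫⁻ θ in Ioc (l9sT Θ N i) (l9sT Θ N (i + 1)), f θ ≤ ∫⁻ θ in Icc (0 : ℝ) Θ, f θ := by
  have hd : Set.PairwiseDisjoint (↑(Finset.range (N + 1))) (fun i => Ioc (l9sT Θ N i) (l9sT Θ N (i + 1))) := by
    intro i _ j _ hij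
    exact (l9s_T_mono hΘ N).pairwise_disjoint_on_Ioc_succ hij
  rw [← lintegral_biUnion_finset hd (fun _ _ => measurableSet_Ioc)]
  refine lintegral_mono_set ?_
  intro θ hθ
  simp only [mem_iUnion, Finset.mem_range] at hθ
  obtain ⟨i, hi, h1, h2⟩ := hθ
  exact ⟨(l9s_T_mem hΘ N i (by omega)).1.trans h1.le, h2.trans (l9s_T_mem hΘ N (i + 1) (by omega)).2⟩

/-- FTC for an absolutely continuous function plus a continuous drift, in `∫⁻` form -/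
theorem l9s_ftc_le {φ g : ℝ → ℝ} {α β : ℝ} (hαβ : α ≤ β) (hφ : AbsolutelyContinuousOnInterval φ α β) (hg : ContinuousOn g (Icc α β)) :
    ENNReal.ofReal |φ β - φ α + ∫ σ in α..β, g σ| ≤ ∫⁻ σ in Ioc α β, ENNReal.ofReal |deriv φ σ + g σ| := by
  have hgi : IntervalIntegrable g volume α β := (by rwa [uIcc_of_le hαβ] : ContinuousOn g (uIcc α β)).intervalIntegrable
  have hdi : IntervalIntegrable (deriv φ) volume α β := hφ.intervalIntegrable_deriv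
  have hsum : IntervalIntegrable (fun σ => deriv φ σ + g σ) volume α β := hdi.add hgi
  have e1 : φ β - φ α + ∫ σ in α..β, g σ = ∫ σ in α..β, (deriv φ σ + g σ) := by
    rw [intervalIntegral.integral_add hdi hgi, hφ.integral_deriv_eq_sub]
  rw [e1]
  have h2 : |∫ σ in α..β, (deriv φ σ + g σ)| ≤ ∫ σ in α..β, |deriv φ σ + g σ| :=
    intervalIntegral.abs_integral_le_integral_abs hαβ
  refine (ENNReal.ofReal_le_ofReal h2).trans ?_
  rw [intervalIntegral.integral_of_le hαβ]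
  rw [ofReal_integral_eq_lintegral_ofReal]
  · exact ((intervalIntegrable_iff_integrableOn_Ioc_of_le hαβ).1 hsum).abs
  · exact Eventually.of_forall fun σ => abs_nonneg _

/-! ## kit B: one parameter `γ` -/

/-- the drift `g_m` -/
noncomputable def l9sG {Ω : Type} (ψ : Ω → ℝ → ℕ → ℝ) (r : ℕ) (c : ℕ → ℝ) (m : ℕ) (γ : Ω) (θ : ℝ) : ℝ :=
  ∑ j ∈ Finset.range (r + 1), c j * (((m + j : ℕ) : ℝ) * ψ γ θ (m + j))

/-- the stop -/
def l9sP {Ω : Type} (ψ : Ω → ℝ → ℕ → ℝ) (s A : ℝ) (r m : ℕ) (γ : Ω) (θ : ℝ) : Prop :=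
  ∀ j ∈ Finset.range (r + 1), s * ((m + j : ℕ) : ℝ) * ψ γ θ (m + j) ≤ A

theorem l9s_S_pos {Ω : Type} (ψ : Ω → ℝ → ℕ → ℝ) (s A : ℝ) (r : ℕ) (c : ℕ → ℝ) (m : ℕ) (γ : Ω) (θ : ℝ) (h : l9sP ψ s A r m γ θ) :
    l9sS ψ s A r c m (γ, θ) = |deriv (fun θ' => ψ γ θ' m) θ + l9sG ψ r c m γ θ| := if_pos h

theorem l9s_S_neg {Ω : Type} (ψ : Ω → ℝ → ℕ → ℝ) (s A : ℝ) (r : ℕ) (c : ℕ → ℝ) (m : ℕ) (γ : Ω) (θ : ℝ) (h : ¬ l9sP ψ s A r m γ θ) :
    l9sS ψ s A r c m (γ, θ) = 0 := if_neg h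

theorem l9s_S_nonneg {Ω : Type} (ψ : Ω → ℝ → ℕ → ℝ) (s A : ℝ) (r : ℕ) (c : ℕ → ℝ) (m : ℕ) (p : Ω × ℝ) : 0 ≤ l9sS ψ s A r c m p := by
  unfold l9sS
  split_ifs
  · exact abs_nonneg _
  · exact le_rfl

theorem l9s_G_sub_le {Ω : Type} (ψ ψ' : Ω → ℝ → ℕ → ℝ) (r : ℕ) (c : ℕ → ℝ) (m : ℕ) (γ : Ω) (θ θ' e Cg : ℝ) (he : 0 ≤ e)
    (hCg : ∑ j ∈ Finset.range (r + 1), |c j| * ((m + j : ℕ) : ℝ) ≤ Cg)
    (h : ∀ j ∈ Finset.range (r + 1), |ψ γ θ (m + j) - ψ' γ θ' (m + j)| ≤ e) :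
    |l9sG ψ r c m γ θ - l9sG ψ' r c m γ θ'| ≤ Cg * e := by
  unfold l9sG
  rw [← Finset.sum_sub_distrib]
  refine (Finset.abs_sum_le_sum_abs _ _).trans ?_
  refine le_trans ?_ (mul_le_mul_of_nonneg_right hCg he)
  rw [Finset.sum_mul]
  refine Finset.sum_le_sum fun j hj => ?_
  have e1 : c j * (((m + j : ℕ) : ℝ) * ψ γ θ (m + j)) - c j * (((m + j : ℕ) : ℝ) * ψ' γ θ' (m + j))
      = c j * ((m + j : ℕ) : ℝ) * (ψ γ θ (m + j) - ψ' γ θ' (m + j)) := by ring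
  rw [e1, abs_mul, abs_mul, Nat.abs_cast]
  exact mul_le_mul_of_nonneg_left (h j hj) (by positivity)

open Classical in
/-- contribution of the cell `i` and of the site count `m` -/
noncomputable def l9sA {Ω : Type} (ψ : Ω → ℝ → ℕ → ℝ) (W : ℕ → ℝ → ℝ) (s L Θ : ℝ) (r : ℕ) (c : ℕ → ℝ) (N m i : ℕ) (γ : Ω) : ℝ :=
  sInf (W m '' Icc (l9sT Θ N i) (l9sT Θ N (i + 1))) *
    (if l9sP ψ s (13 / 4 * L) r m γ (l9sT Θ N i) then
      |ψ γ (l9sT Θ N (i + 1)) m - ψ γ (l9sT Θ N i) m + l9sH Θ N * l9sG ψ r c m γ (l9sT Θ N i)| else 0)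

theorem l9s_cell {Ω : Type} (ψ φ : Ω → ℝ → ℕ → ℝ) (s L K Θ δ Cw Cg : ℝ) (r n : ℕ) (c : ℕ → ℝ) (W : ℕ → ℝ → ℝ) (γ : Ω) (N m i : ℕ)
    (hs : 0 ≤ s) (hΘ : 0 < Θ) (hK : 0 ≤ K) (hδ : 0 < δ) (hi : i < N + 1) (hmn : m < n)
    (hLip : ∀ j ∈ Finset.range (r + 1), ∀ θ ∈ Icc (0 : ℝ) Θ, ∀ θ' ∈ Icc (0 : ℝ) Θ, |ψ γ θ (m + j) - ψ γ θ' (m + j)| ≤ K * |θ - θ'|)
    (hW0 : ∀ θ, 0 ≤ W m θ) (hWb : ∀ θ ∈ Icc (0 : ℝ) Θ, W m θ ≤ Cw)
    (hCg : ∑ j ∈ Finset.range (r + 1), |c j| * ((m + j : ℕ) : ℝ) ≤ Cg)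
    (hcl : ∀ j ∈ Finset.range (r + 1), ∀ θ ∈ Icc (0 : ℝ) Θ, |φ γ θ (m + j) - ψ γ θ (m + j)| ≤ δ)
    (hac : ∀ j ∈ Finset.range (r + 1), AbsolutelyContinuousOnInterval (fun θ => φ γ θ (m + j)) 0 Θ)
    (hN : s * ((n + r : ℕ) : ℝ) * (K * l9sH Θ N) ≤ L / 4) (hδs : s * ((n + r : ℕ) : ℝ) * δ ≤ L / 2) :
    ENNReal.ofReal (l9sA ψ W s L Θ r c N m i γ) ≤
      (∫⁻ θ in Ioc (l9sT Θ N i) (l9sT Θ N (i + 1)), ENNReal.ofReal (W m θ * l9sS φ s (4 * L) r c m (γ, θ)))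
        + ENNReal.ofReal (Cw * (2 * δ + l9sH Θ N * (Cg * (K * l9sH Θ N + δ)))) := by
  have hH := l9s_H_pos hΘ N
  have hβα : l9sT Θ N (i + 1) = l9sT Θ N i + l9sH Θ N := l9s_T_succ Θ N i
  have hαm : l9sT Θ N i ∈ Icc (0 : ℝ) Θ := l9s_T_mem hΘ N i (by omega)
  have hβm : l9sT Θ N (i + 1) ∈ Icc (0 : ℝ) Θ := l9s_T_mem hΘ N (i + 1) (by omega)
  unfold l9sA
  generalize l9sT Θ N (i + 1) = β at *
  generalize l9sT Θ N i = α at *
  generalize l9sH Θ N = h at *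
  have hαβ : α ≤ β := by linarith
  have hsub : Icc α β ⊆ Icc (0 : ℝ) Θ := Icc_subset_Icc hαm.1 hβm.2
  have hbdd : BddBelow (W m '' Icc α β) := ⟨0, by rintro _ ⟨x, -, rfl⟩; exact hW0 x⟩
  have hw0 : 0 ≤ sInf (W m '' Icc α β) :=
    le_csInf ⟨_, mem_image_of_mem _ (left_mem_Icc.2 hαβ)⟩ (by rintro _ ⟨x, -, rfl⟩; exact hW0 x)
  have hwle : ∀ θ ∈ Icc α β, sInf (W m '' Icc α β) ≤ W m θ := fun θ hθ => csInf_le hbdd (mem_image_of_mem _ hθ)
  have hwC : sInf (W m '' Icc α β) ≤ Cw := (hwle α (left_mem_Icc.2 hαβ)).trans (hWb α hαm)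
  generalize sInf (W m '' Icc α β) = w at *
  by_cases hP : l9sP ψ s (13 / 4 * L) r m γ α
  · rw [if_pos hP]
    have hCg0 : 0 ≤ Cg := le_trans (Finset.sum_nonneg fun j _ => by positivity) hCg
    have stop4 : ∀ θ ∈ Icc α β, l9sP φ s (4 * L) r m γ θ := by
      intro θ hθ j hj
      have h1 := hP j hj
      have h2 := hLip j hj θ (hsub hθ) α hαm
      have h3 := hcl j hj θ (hsub hθ)
      have h4 : |θ - α| ≤ h := by
        rw [abs_of_nonneg (sub_nonneg.2 hθ.1)]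
        linarith [hθ.2]
      have hmj : ((m + j : ℕ) : ℝ) ≤ ((n + r : ℕ) : ℝ) := by
        have := Finset.mem_range.1 hj
        exact_mod_cast (by omega : m + j ≤ n + r)
      have hq0 : 0 ≤ s * ((m + j : ℕ) : ℝ) := by positivity
      have hq1 : s * ((m + j : ℕ) : ℝ) ≤ s * ((n + r : ℕ) : ℝ) := mul_le_mul_of_nonneg_left hmj hs
      have h5 : φ γ θ (m + j) ≤ ψ γ α (m + j) + K * h + δ := by
        have a1 := (abs_le.1 h2).2
        have a2 := (abs_le.1 h3).2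
        have a3 := mul_le_mul_of_nonneg_left h4 hK
        linarith
      have h6 : s * ((m + j : ℕ) : ℝ) * (K * h) ≤ s * ((n + r : ℕ) : ℝ) * (K * h) :=
        mul_le_mul_of_nonneg_right hq1 (by positivity)
      have h7 : s * ((m + j : ℕ) : ℝ) * δ ≤ s * ((n + r : ℕ) : ℝ) * δ := mul_le_mul_of_nonneg_right hq1 hδ.le
      calc s * ((m + j : ℕ) : ℝ) * φ γ θ (m + j) ≤ s * ((m + j : ℕ) : ℝ) * (ψ γ α (m + j) + K * h + δ) :=
            mul_le_mul_of_nonneg_left h5 hq0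
        _ = s * ((m + j : ℕ) : ℝ) * ψ γ α (m + j) + s * ((m + j : ℕ) : ℝ) * (K * h) + s * ((m + j : ℕ) : ℝ) * δ := by ring
        _ ≤ 4 * L := by linarith
    have hgc : ContinuousOn (fun θ => l9sG φ r c m γ θ) (Icc α β) := by
      unfold l9sG
      refine continuousOn_finsetSum _ fun j hj => ?_
      have h1 := (hac j hj).continuousOn
      rw [uIcc_of_le hΘ.le] at h1
      exact continuousOn_const.mul (continuousOn_const.mul (h1.mono hsub))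
    have hacm : AbsolutelyContinuousOnInterval (fun θ => φ γ θ m) α β := by
      have h1 : AbsolutelyContinuousOnInterval (fun θ => φ γ θ m) 0 Θ := hac 0 (by simp)
      refine h1.mono ?_
      rw [uIcc_of_le hαβ, uIcc_of_le hΘ.le]
      exact hsub
    have ftc := l9s_ftc_le hαβ hacm hgc
    have hgi : IntervalIntegrable (fun θ => l9sG φ r c m γ θ) volume α β :=
      (by rwa [uIcc_of_le hαβ] : ContinuousOn (fun θ => l9sG φ r c m γ θ) (uIcc α β)).intervalIntegrable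
    have hdr : |h * l9sG ψ r c m γ α - ∫ σ in α..β, l9sG φ r c m γ σ| ≤ h * (Cg * (K * h + δ)) := by
      have e1 : h * l9sG ψ r c m γ α - ∫ σ in α..β, l9sG φ r c m γ σ
          = ∫ σ in α..β, (l9sG ψ r c m γ α - l9sG φ r c m γ σ) := by
        rw [intervalIntegral.integral_sub intervalIntegrable_const hgi, intervalIntegral.integral_const, smul_eq_mul]
        congr 2
        linarith
      rw [e1]
      have h1 := intervalIntegral.norm_integral_le_of_norm_le_const (a := α) (b := β) (C := Cg * (K * h + δ))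
        (f := fun σ => l9sG ψ r c m γ α - l9sG φ r c m γ σ) (by
          intro σ hσ
          rw [uIoc_of_le hαβ] at hσ
          have hσ' : σ ∈ Icc α β := ⟨hσ.1.le, hσ.2⟩
          rw [Real.norm_eq_abs]
          refine l9s_G_sub_le ψ φ r c m γ α σ (K * h + δ) Cg (by positivity) hCg fun j hj => ?_
          have h2 := hLip j hj α hαm σ (hsub hσ')
          have h3 := hcl j hj σ (hsub hσ')
          have h4 : |α - σ| ≤ h := by
            rw [abs_sub_comm, abs_of_nonneg (sub_nonneg.2 hσ'.1)]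
            linarith [hσ'.2]
          have a3 := mul_le_mul_of_nonneg_left h4 hK
          have e2 : ψ γ α (m + j) - φ γ σ (m + j) = (ψ γ α (m + j) - ψ γ σ (m + j)) - (φ γ σ (m + j) - ψ γ σ (m + j)) := by ring
          rw [e2]
          refine (abs_sub _ _).trans ?_
          linarith)
      rw [Real.norm_eq_abs] at h1
      have e3 : |β - α| = h := by
        rw [abs_of_nonneg (sub_nonneg.2 hαβ)]
        linarith
      rw [e3] at h1
      linarith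
    have key : |ψ γ β m - ψ γ α m + h * l9sG ψ r c m γ α|
        ≤ |φ γ β m - φ γ α m + ∫ σ in α..β, l9sG φ r c m γ σ| + (2 * δ + h * (Cg * (K * h + δ))) := by
      have b1 : |φ γ β m - ψ γ β m| ≤ δ := hcl 0 (by simp) β hβm
      have b2 : |φ γ α m - ψ γ α m| ≤ δ := hcl 0 (by simp) α hαm
      have e4 : ψ γ β m - ψ γ α m + h * l9sG ψ r c m γ α
          = (φ γ β m - φ γ α m + ∫ σ in α..β, l9sG φ r c m γ σ)
            + ((φ γ α m - ψ γ α m) - (φ γ β m - ψ γ β m) + (h * l9sG ψ r c m γ α - ∫ σ in α..β, l9sG φ r c m γ σ)) := by ring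
      rw [e4]
      refine (abs_add_le _ _).trans ?_
      have b3 := abs_add_le ((φ γ α m - ψ γ α m) - (φ γ β m - ψ γ β m)) (h * l9sG ψ r c m γ α - ∫ σ in α..β, l9sG φ r c m γ σ)
      have b4 := abs_sub (φ γ α m - ψ γ α m) (φ γ β m - ψ γ β m)
      linarith
    have hE0 : 0 ≤ 2 * δ + h * (Cg * (K * h + δ)) := by positivity
    calc ENNReal.ofReal (w * |ψ γ β m - ψ γ α m + h * l9sG ψ r c m γ α|)
        ≤ ENNReal.ofReal (w * |φ γ β m - φ γ α m + ∫ σ in α..β, l9sG φ r c m γ σ| + Cw * (2 * δ + h * (Cg * (K * h + δ)))) := by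
          refine ENNReal.ofReal_le_ofReal ?_
          have c1 := mul_le_mul_of_nonneg_left key hw0
          have c2 := mul_le_mul_of_nonneg_right hwC hE0
          linarith
      _ ≤ ENNReal.ofReal (w * |φ γ β m - φ γ α m + ∫ σ in α..β, l9sG φ r c m γ σ|)
            + ENNReal.ofReal (Cw * (2 * δ + h * (Cg * (K * h + δ)))) := ENNReal.ofReal_add_le
      _ ≤ _ := by
          refine add_le_add ?_ le_rfl
          rw [ENNReal.ofReal_mul hw0]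
          refine (mul_le_mul_right ftc _).trans ?_
          rw [← lintegral_const_mul' _ _ ENNReal.ofReal_ne_top]
          refine setLIntegral_mono' measurableSet_Ioc fun σ hσ => ?_
          have hσ' : σ ∈ Icc α β := ⟨hσ.1.le, hσ.2⟩
          rw [l9s_S_pos φ s (4 * L) r c m γ σ (stop4 σ hσ'), ← ENNReal.ofReal_mul hw0]
          exact ENNReal.ofReal_le_ofReal (mul_le_mul_of_nonneg_right (hwle σ hσ') (abs_nonneg _))
  · rw [if_neg hP, mul_zero, ENNReal.ofReal_zero]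
    exact zero_le

theorem l9s_A_nonneg {Ω : Type} (ψ : Ω → ℝ → ℕ → ℝ) (W : ℕ → ℝ → ℝ) (s L Θ : ℝ) (r : ℕ) (c : ℕ → ℝ) (N m i : ℕ) (γ : Ω)
    (hW0 : ∀ θ, 0 ≤ W m θ) : 0 ≤ l9sA ψ W s L Θ r c N m i γ := by
  unfold l9sA
  refine mul_nonneg (Real.sInf_nonneg (by rintro _ ⟨x, -, rfl⟩; exact hW0 x)) ?_
  split_ifs
  · exact abs_nonneg _
  · exact le_rfl

/-- the Riemann sum of the stopped, weighted increments on the grid `N` -/
noncomputable def l9sTot {Ω : Type} (ψ : Ω → ℝ → ℕ → ℝ) (W : ℕ → ℝ → ℝ) (s L Θ : ℝ) (r : ℕ) (c : ℕ → ℝ) (M : Finset ℕ) (N : ℕ) (γ : Ω) : ℝ≥0∞ :=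
  ∑ i ∈ Finset.range (N + 1), ENNReal.ofReal (∑ m ∈ M, l9sA ψ W s L Θ r c N m i γ)

/-- `∫⁻` is superadditive (no measurability) -/
theorem l9s_sum_lintegral_le {α ι : Type} [MeasurableSpace α] (μ : Measure α) (M : Finset ι) (f : ι → α → ℝ≥0∞) :
    ∑ m ∈ M, ∫⁻ a, f m a ∂μ ≤ ∫⁻ a, ∑ m ∈ M, f m a ∂μ := by
  classical
  induction M using Finset.induction_on with
  | empty => simp
  | insert a M ha ih =>
    simp only [Finset.sum_insert ha]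
    exact (add_le_add le_rfl ih).trans (le_lintegral_add _ _)

theorem l9s_upper {Ω : Type} (ψ φ : Ω → ℝ → ℕ → ℝ) (s L K Θ δ Cw Cg : ℝ) (r n : ℕ) (c : ℕ → ℝ) (W : ℕ → ℝ → ℝ) (M : Finset ℕ) (γ : Ω) (N : ℕ)
    (hs : 0 ≤ s) (hΘ : 0 < Θ) (hK : 0 ≤ K) (hδ : 0 < δ) (hMn : ∀ m ∈ M, m < n)
    (hLip : ∀ m ∈ M, ∀ j ∈ Finset.range (r + 1), ∀ θ ∈ Icc (0 : ℝ) Θ, ∀ θ' ∈ Icc (0 : ℝ) Θ, |ψ γ θ (m + j) - ψ γ θ' (m + j)| ≤ K * |θ - θ'|)
    (hW0 : ∀ m θ, 0 ≤ W m θ) (hWb : ∀ m ∈ M, ∀ θ ∈ Icc (0 : ℝ) Θ, W m θ ≤ Cw)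
    (hCg : ∀ m ∈ M, ∑ j ∈ Finset.range (r + 1), |c j| * ((m + j : ℕ) : ℝ) ≤ Cg)
    (hcl : ∀ m ∈ M, ∀ j ∈ Finset.range (r + 1), ∀ θ ∈ Icc (0 : ℝ) Θ, |φ γ θ (m + j) - ψ γ θ (m + j)| ≤ δ)
    (hac : ∀ m ∈ M, ∀ j ∈ Finset.range (r + 1), AbsolutelyContinuousOnInterval (fun θ => φ γ θ (m + j)) 0 Θ)
    (hN : s * ((n + r : ℕ) : ℝ) * (K * l9sH Θ N) ≤ L / 4) (hδs : s * ((n + r : ℕ) : ℝ) * δ ≤ L / 2) :
    l9sTot ψ W s L Θ r c M N γ ≤
      (∫⁻ θ in Icc (0 : ℝ) Θ, ENNReal.ofReal (∑ m ∈ M, W m θ * l9sS φ s (4 * L) r c m (γ, θ)))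
        + ENNReal.ofReal (((N + 1 : ℕ) : ℝ) * ((M.card : ℝ) * (Cw * (2 * δ + l9sH Θ N * (Cg * (K * l9sH Θ N + δ)))))) := by
  unfold l9sTot
  set e : ℝ := Cw * (2 * δ + l9sH Θ N * (Cg * (K * l9sH Θ N + δ))) with he
  have h1 : ∀ i ∈ Finset.range (N + 1), ENNReal.ofReal (∑ m ∈ M, l9sA ψ W s L Θ r c N m i γ)
      ≤ (∫⁻ θ in Ioc (l9sT Θ N i) (l9sT Θ N (i + 1)), ENNReal.ofReal (∑ m ∈ M, W m θ * l9sS φ s (4 * L) r c m (γ, θ)))
        + (M.card : ℝ≥0∞) * ENNReal.ofReal e := by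
    intro i hi
    rw [ENNReal.ofReal_sum_of_nonneg fun m _ => l9s_A_nonneg ψ W s L Θ r c N m i γ (hW0 m)]
    have h2 : ∑ m ∈ M, ENNReal.ofReal (l9sA ψ W s L Θ r c N m i γ)
        ≤ ∑ m ∈ M, ((∫⁻ θ in Ioc (l9sT Θ N i) (l9sT Θ N (i + 1)), ENNReal.ofReal (W m θ * l9sS φ s (4 * L) r c m (γ, θ)))
          + ENNReal.ofReal e) :=
      Finset.sum_le_sum fun m hm => l9s_cell ψ φ s L K Θ δ Cw Cg r n c W γ N m i hs hΘ hK hδ (Finset.mem_range.1 hi) (hMn m hm)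
        (hLip m hm) (hW0 m) (hWb m hm) (hCg m hm) (hcl m hm) (hac m hm) hN hδs
    refine h2.trans ?_
    rw [Finset.sum_add_distrib, Finset.sum_const, nsmul_eq_mul]
    refine add_le_add ?_ le_rfl
    refine (l9s_sum_lintegral_le _ M _).trans ?_
    refine le_of_eq ?_
    refine lintegral_congr fun θ => ?_
    rw [ENNReal.ofReal_sum_of_nonneg fun m _ => mul_nonneg (hW0 m θ) (l9s_S_nonneg φ s (4 * L) r c m (γ, θ))]
  refine (Finset.sum_le_sum h1).trans ?_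
  rw [Finset.sum_add_distrib, Finset.sum_const, nsmul_eq_mul, Finset.card_range]
  refine add_le_add (l9s_sum_cells hΘ N _) ?_
  rw [ENNReal.ofReal_mul (Nat.cast_nonneg _), ENNReal.ofReal_mul (Nat.cast_nonneg _), ENNReal.ofReal_natCast, ENNReal.ofReal_natCast]

theorem l9s_ev_small (s L K Θ : ℝ) (q : ℝ) (hL : 0 < L) : ∀ᶠ N in atTop, s * q * (K * l9sH Θ N) ≤ L / 4 := by
  have h := ((l9s_H_tendsto Θ).const_mul K).const_mul (s * q)
  rw [mul_zero, mul_zero] at h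
  exact h.eventually_le_const (by positivity)

theorem l9s_Tot_measurable {Ω : Type} [MeasurableSpace Ω] (ψ : Ω → ℝ → ℕ → ℝ) (W : ℕ → ℝ → ℝ) (s L Θ : ℝ) (r : ℕ) (c : ℕ → ℝ) (M : Finset ℕ) (N : ℕ)
    (hm : ∀ θ, ∀ m ∈ M, ∀ j ∈ Finset.range (r + 1), Measurable fun γ => ψ γ θ (m + j)) :
    Measurable fun γ => l9sTot ψ W s L Θ r c M N γ := by
  unfold l9sTot
  refine Finset.measurable_sum _ fun i _ => ?_
  refine ENNReal.measurable_ofReal.comp ?_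
  refine Finset.measurable_sum _ fun m hmM => ?_
  unfold l9sA
  refine measurable_const.mul ?_
  have hm0 : ∀ θ, Measurable fun γ => ψ γ θ m := fun θ => hm θ m hmM 0 (by simp)
  refine Measurable.ite ?_ ?_ measurable_const
  · have e1 : {γ | l9sP ψ s (13 / 4 * L) r m γ (l9sT Θ N i)}
        = ⋂ j ∈ Finset.range (r + 1), {γ | s * ((m + j : ℕ) : ℝ) * ψ γ (l9sT Θ N i) (m + j) ≤ 13 / 4 * L} := by
      ext γ
      simp only [l9sP, Set.mem_ofPred_eq, mem_iInter]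
    rw [e1]
    refine Finset.measurableSet_biInter _ fun j hj => ?_
    exact measurableSet_le (measurable_const.mul (hm _ m hmM j hj)) measurable_const
  · refine Measurable.abs ?_
    refine ((hm0 _).sub (hm0 _)).add (measurable_const.mul ?_)
    unfold l9sG
    exact Finset.measurable_sum _ fun j hj => measurable_const.mul (measurable_const.mul (hm _ m hmM j hj))

theorem l9s_pointwise {Ω : Type} (ψ : Ω → ℝ → ℕ → ℝ) (s L K Θ : ℝ) (r n : ℕ) (c : ℕ → ℝ) (W : ℕ → ℝ → ℝ) (M : Finset ℕ) (γ : Ω)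
    (hs : 0 ≤ s) (hL : 0 < L) (hΘ : 0 < Θ) (hK : 0 ≤ K) (hMn : ∀ m ∈ M, m < n)
    (hLip : ∀ m ∈ M, ∀ j ∈ Finset.range (r + 1), ∀ θ ∈ Icc (0 : ℝ) Θ, ∀ θ' ∈ Icc (0 : ℝ) Θ, |ψ γ θ (m + j) - ψ γ θ' (m + j)| ≤ K * |θ - θ'|)
    (hWc : ∀ m, Continuous (W m)) (hW0 : ∀ m θ, 0 ≤ W m θ)
    (θ : ℝ) (hθ : θ ∈ Ioo (0 : ℝ) Θ) (hd : ∀ m ∈ M, DifferentiableAt ℝ (fun θ' => ψ γ θ' m) θ)
    (iN : ℕ → ℕ) (hiN : ∀ N, iN N < N + 1 ∧ θ ∈ Ioc (l9sT Θ N (iN N)) (l9sT Θ N (iN N + 1))) :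
    ENNReal.ofReal (∑ m ∈ M, W m θ * l9sS ψ s (3 * L) r c m (γ, θ))
      ≤ liminf (fun N => ENNReal.ofReal ((∑ m ∈ M, l9sA ψ W s L Θ r c N m (iN N) γ) / l9sH Θ N)) atTop := by
  classical
  have hθm : θ ∈ Icc (0 : ℝ) Θ := ⟨hθ.1.le, hθ.2.le⟩
  set α : ℕ → ℝ := fun N => l9sT Θ N (iN N) with hα
  set β : ℕ → ℝ := fun N => l9sT Θ N (iN N + 1) with hβ
  have hβα : ∀ N, β N = α N + l9sH Θ N := fun N => l9s_T_succ Θ N (iN N)
  have hH : ∀ N, 0 < l9sH Θ N := l9s_H_pos hΘ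
  have hαθ : ∀ N, α N ≤ θ := fun N => (hiN N).2.1.le
  have hθβ : ∀ N, θ ≤ β N := fun N => (hiN N).2.2
  have hαβ : ∀ N, α N < β N := fun N => by rw [hβα]; linarith [hH N]
  have hαm : ∀ N, α N ∈ Icc (0 : ℝ) Θ := fun N => l9s_T_mem hΘ N (iN N) (by have := (hiN N).1; omega)
  have hHl := l9s_H_tendsto Θ
  have hαl : Tendsto α atTop (𝓝 θ) := by
    have h1 : Tendsto (fun N => θ - l9sH Θ N) atTop (𝓝 θ) := by
      have := (tendsto_const_nhds (x := θ)).sub hHl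
      rwa [sub_zero] at this
    exact tendsto_of_tendsto_of_tendsto_of_le_of_le h1 tendsto_const_nhds
      (fun N => by have := hθβ N; rw [hβα] at this; linarith) hαθ
  have hβl : Tendsto β atTop (𝓝 θ) := by
    have h1 : Tendsto (fun N => θ + l9sH Θ N) atTop (𝓝 θ) := by
      have := (tendsto_const_nhds (x := θ)).add hHl
      rwa [add_zero] at this
    exact tendsto_of_tendsto_of_tendsto_of_le_of_le tendsto_const_nhds h1 hθβ
      (fun N => by rw [hβα]; linarith [hαθ N])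
  -- the comparison sequence
  set X : ℕ → ℕ → ℝ := fun m N => sInf (W m '' Icc (α N) (β N)) *
    (if l9sP ψ s (3 * L) r m γ θ then |(ψ γ (β N) m - ψ γ (α N) m) / (β N - α N) + l9sG ψ r c m γ (α N)| else 0) with hX
  have hXl : ∀ m ∈ M, Tendsto (X m) atTop (𝓝 (W m θ * l9sS ψ s (3 * L) r c m (γ, θ))) := by
    intro m hm
    have hw := l9s_inf_tendsto (hWc m) α β hαθ hθβ hαl hβl
    by_cases hP : l9sP ψ s (3 * L) r m γ θ
    · rw [l9s_S_pos ψ s (3 * L) r c m γ θ hP]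
      simp only [hX, if_pos hP]
      refine hw.mul (Tendsto.abs ?_)
      refine (l9s_straddle (hd m hm).hasDerivAt α β hαθ hθβ hαβ hαl hβl).add ?_
      unfold l9sG
      refine tendsto_finsetSum _ fun j hj => ?_
      refine Tendsto.const_mul _ (Tendsto.const_mul _ ?_)
      rw [tendsto_iff_dist_tendsto_zero]
      have h0 : Tendsto (fun N => K * |α N - θ|) atTop (𝓝 0) := by
        have h1 : Tendsto (fun N => α N - θ) atTop (𝓝 0) := by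
          have := hαl.sub (tendsto_const_nhds (x := θ))
          rwa [sub_self] at this
        have := (h1.abs).const_mul K
        rwa [abs_zero, mul_zero] at this
      refine squeeze_zero (fun N => dist_nonneg) (fun N => ?_) h0
      rw [Real.dist_eq]
      exact hLip m hm j hj (α N) (hαm N) θ hθm
    · rw [l9s_S_neg ψ s (3 * L) r c m γ θ hP]
      simp only [hX, if_neg hP, mul_zero]
      exact tendsto_const_nhds
  have hsum : Tendsto (fun N => ∑ m ∈ M, X m N) atTop (𝓝 (∑ m ∈ M, W m θ * l9sS ψ s (3 * L) r c m (γ, θ))) :=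
    tendsto_finsetSum _ hXl
  have hle : ∀ᶠ N in atTop, ∑ m ∈ M, X m N ≤ (∑ m ∈ M, l9sA ψ W s L Θ r c N m (iN N) γ) / l9sH Θ N := by
    filter_upwards [l9s_ev_small s L K Θ ((n + r : ℕ) : ℝ) hL] with N hN
    rw [Finset.sum_div]
    refine Finset.sum_le_sum fun m hm => ?_
    by_cases hP : l9sP ψ s (3 * L) r m γ θ
    · have hPg : l9sP ψ s (13 / 4 * L) r m γ (α N) := by
        intro j hj
        have h1 := hP j hj
        have h2 := hLip m hm j hj (α N) (hαm N) θ hθm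
        have h4 : |α N - θ| ≤ l9sH Θ N := by
          rw [abs_sub_comm, abs_of_nonneg (sub_nonneg.2 (hαθ N))]
          have := hθβ N
          rw [hβα] at this
          linarith
        have hmj : ((m + j : ℕ) : ℝ) ≤ ((n + r : ℕ) : ℝ) := by
          have := Finset.mem_range.1 hj
          have := hMn m hm
          exact_mod_cast (by omega : m + j ≤ n + r)
        have hq0 : 0 ≤ s * ((m + j : ℕ) : ℝ) := by positivity
        have hq1 : s * ((m + j : ℕ) : ℝ) ≤ s * ((n + r : ℕ) : ℝ) := mul_le_mul_of_nonneg_left hmj hs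
        have h5 : ψ γ (α N) (m + j) ≤ ψ γ θ (m + j) + K * l9sH Θ N := by
          have a1 := (abs_le.1 h2).2
          have a3 := mul_le_mul_of_nonneg_left h4 hK
          linarith
        have h6 : s * ((m + j : ℕ) : ℝ) * (K * l9sH Θ N) ≤ s * ((n + r : ℕ) : ℝ) * (K * l9sH Θ N) :=
          mul_le_mul_of_nonneg_right hq1 (mul_nonneg hK (hH N).le)
        calc s * ((m + j : ℕ) : ℝ) * ψ γ (α N) (m + j) ≤ s * ((m + j : ℕ) : ℝ) * (ψ γ θ (m + j) + K * l9sH Θ N) :=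
              mul_le_mul_of_nonneg_left h5 hq0
          _ = s * ((m + j : ℕ) : ℝ) * ψ γ θ (m + j) + s * ((m + j : ℕ) : ℝ) * (K * l9sH Θ N) := by ring
          _ ≤ 13 / 4 * L := by linarith
      refine le_of_eq ?_
      simp only [hX, if_pos hP]
      unfold l9sA
      rw [if_pos hPg, mul_div_assoc]
      congr 1
      rw [← abs_of_pos (hH N), ← abs_div, abs_of_pos (hH N)]
      congr 1
      have e1 : β N - α N = l9sH Θ N := by rw [hβα]; ring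
      rw [e1]
      have := (hH N).ne'
      field_simp
      rfl
    · simp only [hX, if_neg hP, mul_zero]
      exact div_nonneg (l9s_A_nonneg ψ W s L Θ r c N m (iN N) γ (hW0 m)) (hH N).le
  rw [← (ENNReal.tendsto_ofReal hsum).liminf_eq]
  exact liminf_le_liminf (hle.mono fun N h => ENNReal.ofReal_le_ofReal h)

theorem l9s_lower {Ω : Type} (ψ : Ω → ℝ → ℕ → ℝ) (s L K Θ : ℝ) (r n : ℕ) (c : ℕ → ℝ) (W : ℕ → ℝ → ℝ) (M : Finset ℕ) (γ : Ω)
    (hs : 0 ≤ s) (hL : 0 < L) (hΘ : 0 < Θ) (hK : 0 ≤ K) (hMn : ∀ m ∈ M, m < n)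
    (hLip : ∀ m ∈ M, ∀ j ∈ Finset.range (r + 1), ∀ θ ∈ Icc (0 : ℝ) Θ, ∀ θ' ∈ Icc (0 : ℝ) Θ, |ψ γ θ (m + j) - ψ γ θ' (m + j)| ≤ K * |θ - θ'|)
    (hWc : ∀ m, Continuous (W m)) (hW0 : ∀ m θ, 0 ≤ W m θ) :
    ∫⁻ θ in Icc (0 : ℝ) Θ, ENNReal.ofReal (∑ m ∈ M, W m θ * l9sS ψ s (3 * L) r c m (γ, θ))
      ≤ liminf (fun N => l9sTot ψ W s L Θ r c M N γ) atTop := by
  set G : ℕ → ℝ → ℝ≥0∞ := fun N θ => ∑ i ∈ Finset.range (N + 1),
    (Ioc (l9sT Θ N i) (l9sT Θ N (i + 1))).indicator (fun _ => ENNReal.ofReal ((∑ m ∈ M, l9sA ψ W s L Θ r c N m i γ) / l9sH Θ N)) θ with hG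
  have hGm : ∀ N, Measurable (G N) := fun N =>
    Finset.measurable_sum _ fun i _ => measurable_const.indicator measurableSet_Ioc
  have hGint : ∀ N, ∫⁻ θ in Icc (0 : ℝ) Θ, G N θ ≤ l9sTot ψ W s L Θ r c M N γ := by
    intro N
    refine (setLIntegral_le_lintegral _ _).trans ?_
    simp only [hG]
    rw [lintegral_finsetSum _ fun i _ => measurable_const.indicator measurableSet_Ioc]
    unfold l9sTot
    refine Finset.sum_le_sum fun i _ => ?_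
    rw [lintegral_indicator_const measurableSet_Ioc, Real.volume_Ioc, l9s_T_succ, add_sub_cancel_left,
      ← ENNReal.ofReal_mul (div_nonneg (Finset.sum_nonneg fun m _ => l9s_A_nonneg ψ W s L Θ r c N m i γ (hW0 m)) (l9s_H_pos hΘ N).le),
      div_mul_cancel₀ _ (l9s_H_pos hΘ N).ne']
  have hpt : ∀ᵐ θ ∂(volume.restrict (Icc (0 : ℝ) Θ)),
      ENNReal.ofReal (∑ m ∈ M, W m θ * l9sS ψ s (3 * L) r c m (γ, θ)) ≤ liminf (fun N => G N θ) atTop := by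
    rw [← Measure.restrict_congr_set Ioo_ae_eq_Icc, ae_restrict_iff' measurableSet_Ioo]
    have hdiff : ∀ᵐ θ : ℝ, ∀ m ∈ M, θ ∈ uIcc (0 : ℝ) Θ → DifferentiableAt ℝ (fun θ' => ψ γ θ' m) θ := by
      rw [eventually_all_finset]
      intro m hm
      have hl : LipschitzOnWith (Real.toNNReal K) (fun θ' => ψ γ θ' m) (uIcc (0 : ℝ) Θ) := by
        refine LipschitzOnWith.of_dist_le_mul fun x hx y hy => ?_
        rw [uIcc_of_le hΘ.le] at hx hy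
        rw [Real.dist_eq, Real.dist_eq, Real.coe_toNNReal K hK]
        exact hLip m hm 0 (by simp) x hx y hy
      exact hl.absolutelyContinuousOnInterval.ae_differentiableAt
    filter_upwards [hdiff] with θ hd hθ
    have hθu : θ ∈ uIcc (0 : ℝ) Θ := by
      rw [uIcc_of_le hΘ.le]
      exact ⟨hθ.1.le, hθ.2.le⟩
    have hex : ∀ N, ∃ i, i < N + 1 ∧ θ ∈ Ioc (l9sT Θ N i) (l9sT Θ N (i + 1)) := fun N =>
      l9s_grid_exists hΘ N ⟨hθ.1, hθ.2.le⟩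
    choose iN hiN using hex
    refine (l9s_pointwise ψ s L K Θ r n c W M γ hs hL hΘ hK hMn hLip hWc hW0 θ hθ (fun m hm => hd m hm hθu) iN hiN).trans ?_
    refine liminf_le_liminf (Eventually.of_forall fun N => ?_)
    simp only [hG]
    have h1 := Finset.single_le_sum (f := fun i => (Ioc (l9sT Θ N i) (l9sT Θ N (i + 1))).indicator
      (fun _ => ENNReal.ofReal ((∑ m ∈ M, l9sA ψ W s L Θ r c N m i γ) / l9sH Θ N)) θ) (fun i _ => zero_le)
      (Finset.mem_range.2 (hiN N).1)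
    refine le_trans (le_of_eq ?_) h1
    rw [indicator_of_mem (hiN N).2]
  calc ∫⁻ θ in Icc (0 : ℝ) Θ, ENNReal.ofReal (∑ m ∈ M, W m θ * l9sS ψ s (3 * L) r c m (γ, θ))
      ≤ ∫⁻ θ in Icc (0 : ℝ) Θ, liminf (fun N => G N θ) atTop := lintegral_mono_ae hpt
    _ ≤ liminf (fun N => ∫⁻ θ in Icc (0 : ℝ) Θ, G N θ) atTop := lintegral_liminf_le hGm
    _ ≤ _ := liminf_le_liminf (Eventually.of_forall hGint)

theorem l9s_kit_eqns_cite : True := by
  have := @l9sH.eq_1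
  have := @l9sT.eq_1
  have := @l9sG.eq_1
  have := @l9sP.eq_1
  have := @l9sA.eq_1
  have := @l9sTot.eq_1
  trivial

theorem l9s_core {Ω : Type} [MeasurableSpace Ω] (μ : Measure Ω) [IsProbabilityMeasure μ] (ψ : Ω → ℝ → ℕ → ℝ) (s L B K Θ : ℝ) (r n : ℕ) (c : ℕ → ℝ) (M : Finset ℕ)
    (hs : 0 ≤ s) (hL : 0 < L) (hΘ : 0 < Θ) (hK : 0 ≤ K) (hMn : ∀ m ∈ M, m < n)
    (hm : ∀ θ, ∀ m ∈ M, ∀ j ∈ Finset.range (r + 1), Measurable fun γ => ψ γ θ (m + j))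
    (hLip : ∀ γ, ∀ m ∈ M, ∀ j ∈ Finset.range (r + 1), ∀ θ ∈ Icc (0 : ℝ) Θ, ∀ θ' ∈ Icc (0 : ℝ) Θ, |ψ γ θ (m + j) - ψ γ θ' (m + j)| ≤ K * |θ - θ'|)
    (W : ℕ → ℝ → ℝ) (hWc : ∀ m, Continuous (W m)) (hW0 : ∀ m θ, 0 ≤ W m θ)
    (happ : ∀ δ : ℝ, 0 < δ → ∃ φ : Ω → ℝ → ℕ → ℝ,
      (∀ γ, ∀ m ∈ M, ∀ j ∈ Finset.range (r + 1), ∀ θ ∈ Icc (0 : ℝ) Θ, |φ γ θ (m + j) - ψ γ θ (m + j)| ≤ δ) ∧
      (∀ γ, ∀ m ∈ M, ∀ j ∈ Finset.range (r + 1), AbsolutelyContinuousOnInterval (fun θ => φ γ θ (m + j)) 0 Θ) ∧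
      (∀ m ∈ M, Integrable (l9sS φ s (4 * L) r c m) (μ.prod (volume.restrict (Icc (0 : ℝ) Θ)))) ∧
      ∫ p, ∑ m ∈ M, W m p.2 * l9sS φ s (4 * L) r c m p ∂(μ.prod (volume.restrict (Icc (0 : ℝ) Θ))) ≤ B) :
    ∫ p, ∑ m ∈ M, W m p.2 * l9sS ψ s (3 * L) r c m p ∂(μ.prod (volume.restrict (Icc (0 : ℝ) Θ))) ≤ B := by
  classical
  have hB : 0 ≤ B := by
    obtain ⟨φ, -, -, -, h4⟩ := happ 1 one_pos
    exact le_trans (integral_nonneg fun p => Finset.sum_nonneg fun m _ => mul_nonneg (hW0 m p.2) (l9s_S_nonneg φ s (4 * L) r c m p)) h4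
  by_cases hint : Integrable (fun p : Ω × ℝ => ∑ m ∈ M, W m p.2 * l9sS ψ s (3 * L) r c m p) (μ.prod (volume.restrict (Icc (0 : ℝ) Θ)))
  swap
  · rw [integral_undef hint]
    exact hB
  -- constants
  obtain ⟨Cw, hCw⟩ : ∃ Cw : ℝ, ∀ m ∈ M, ∀ θ ∈ Icc (0 : ℝ) Θ, W m θ ≤ Cw := by
    have h1 : ∀ m, ∃ C, ∀ θ ∈ Icc (0 : ℝ) Θ, ‖W m θ‖ ≤ C := fun m =>
      isCompact_Icc.exists_bound_of_continuousOn (hWc m).continuousOn
    choose Cm hCm using h1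
    have hCm0 : ∀ m, 0 ≤ Cm m := fun m => (norm_nonneg _).trans (hCm m 0 ⟨le_rfl, hΘ.le⟩)
    refine ⟨∑ m ∈ M, Cm m, fun m hmM θ hθ => ?_⟩
    exact ((le_abs_self _).trans (hCm m θ hθ)).trans (Finset.single_le_sum (f := Cm) (fun i _ => hCm0 i) hmM)
  obtain ⟨Cg, hCg⟩ : ∃ Cg : ℝ, ∀ m ∈ M, ∑ j ∈ Finset.range (r + 1), |c j| * ((m + j : ℕ) : ℝ) ≤ Cg :=
    ⟨∑ m ∈ M, ∑ j ∈ Finset.range (r + 1), |c j| * ((m + j : ℕ) : ℝ), fun m hmM =>
      Finset.single_le_sum (f := fun m => ∑ j ∈ Finset.range (r + 1), |c j| * ((m + j : ℕ) : ℝ))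
        (fun i _ => Finset.sum_nonneg fun j _ => by positivity) hmM⟩
  set err : ℕ → ℝ → ℝ := fun N δ =>
    ((N + 1 : ℕ) : ℝ) * ((M.card : ℝ) * (Cw * (2 * δ + l9sH Θ N * (Cg * (K * l9sH Θ N + δ))))) with herr
  -- the bound on one grid
  have hgrid : ∀ N : ℕ, s * ((n + r : ℕ) : ℝ) * (K * l9sH Θ N) ≤ L / 4 → ∀ δ : ℝ, 0 < δ → s * ((n + r : ℕ) : ℝ) * δ ≤ L / 2 →
      ∫⁻ γ, l9sTot ψ W s L Θ r c M N γ ∂μ ≤ ENNReal.ofReal B + ENNReal.ofReal (err N δ) := by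
    intro N hN δ hδ hδs
    obtain ⟨φ, h1, h2, h3, h4⟩ := happ δ hδ
    have hFint : Integrable (fun p : Ω × ℝ => ∑ m ∈ M, W m p.2 * l9sS φ s (4 * L) r c m p) (μ.prod (volume.restrict (Icc (0 : ℝ) Θ))) := by
      refine integrable_finsetSum _ fun m hmM => ?_
      refine Integrable.bdd_mul (c := Cw) (h3 m hmM) ((hWc m).measurable.comp measurable_snd).aestronglyMeasurable ?_
      have hq : ∀ᵐ θ ∂(volume.restrict (Icc (0 : ℝ) Θ)), ‖W m θ‖ ≤ Cw := by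
        filter_upwards [ae_restrict_mem measurableSet_Icc] with θ hθ
        rw [Real.norm_eq_abs, abs_of_nonneg (hW0 m θ)]
        exact hCw m hmM θ hθ
      exact (Measure.quasiMeasurePreserving_snd (μ := μ) (ν := volume.restrict (Icc (0 : ℝ) Θ))).ae hq
    have hF0 : ∀ p : Ω × ℝ, 0 ≤ ∑ m ∈ M, W m p.2 * l9sS φ s (4 * L) r c m p := fun p =>
      Finset.sum_nonneg fun m _ => mul_nonneg (hW0 m p.2) (l9s_S_nonneg φ s (4 * L) r c m p)
    calc ∫⁻ γ, l9sTot ψ W s L Θ r c M N γ ∂μ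
        ≤ ∫⁻ γ, ((∫⁻ θ in Icc (0 : ℝ) Θ, ENNReal.ofReal (∑ m ∈ M, W m θ * l9sS φ s (4 * L) r c m (γ, θ)))
            + ENNReal.ofReal (err N δ)) ∂μ :=
          lintegral_mono fun γ => l9s_upper ψ φ s L K Θ δ Cw Cg r n c W M γ N hs hΘ hK hδ hMn (hLip γ) hW0 hCw hCg (h1 γ) (h2 γ) hN hδs
      _ = (∫⁻ γ, (∫⁻ θ in Icc (0 : ℝ) Θ, ENNReal.ofReal (∑ m ∈ M, W m θ * l9sS φ s (4 * L) r c m (γ, θ))) ∂μ)
            + ENNReal.ofReal (err N δ) := by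
          rw [lintegral_add_right _ measurable_const, lintegral_const, measure_univ, mul_one]
      _ = ENNReal.ofReal (∫ p, ∑ m ∈ M, W m p.2 * l9sS φ s (4 * L) r c m p ∂(μ.prod (volume.restrict (Icc (0 : ℝ) Θ))))
            + ENNReal.ofReal (err N δ) := by
          rw [ofReal_integral_eq_lintegral_ofReal hFint (Eventually.of_forall hF0),
            lintegral_prod _ hFint.aestronglyMeasurable.aemeasurable.ennreal_ofReal]
      _ ≤ _ := add_le_add (ENNReal.ofReal_le_ofReal h4) le_rfl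
  -- the errors are small
  have herr0 : Tendsto (fun N => err N 0) atTop (𝓝 0) := by
    have h1 := (l9s_H_tendsto Θ).const_mul ((M.card : ℝ) * Cw * Θ * Cg * K)
    rw [mul_zero] at h1
    refine h1.congr fun N => ?_
    simp only [herr]
    unfold l9sH
    have : ((N : ℝ) + 1) ≠ 0 := by positivity
    push_cast
    field_simp
    ring
  have hlim : liminf (fun N => ∫⁻ γ, l9sTot ψ W s L Θ r c M N γ ∂μ) atTop ≤ ENNReal.ofReal B := by
    refine ENNReal.le_of_forall_pos_le_add fun ε hε _ => ?_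
    refine liminf_le_of_frequently_le' (Eventually.frequently ?_)
    have hε' : (0 : ℝ) < ε := by exact_mod_cast hε
    filter_upwards [l9s_ev_small s L K Θ ((n + r : ℕ) : ℝ) hL, herr0.eventually_lt_const hε'] with N hN hN2
    have hc : Continuous (err N) := by
      simp only [herr]
      fun_prop
    have a1 : ∀ᶠ δ in 𝓝[>] (0 : ℝ), err N δ < ε :=
      ((hc.tendsto 0).mono_left nhdsWithin_le_nhds).eventually_lt_const hN2
    have a2 : ∀ᶠ δ in 𝓝[>] (0 : ℝ), s * ((n + r : ℕ) : ℝ) * δ ≤ L / 2 := by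
      have hc2 : Continuous fun δ : ℝ => s * ((n + r : ℕ) : ℝ) * δ := by fun_prop
      have := (hc2.tendsto 0).mono_left (nhdsWithin_le_nhds (s := Ioi (0 : ℝ)))
      rw [mul_zero] at this
      exact this.eventually_le_const (by positivity)
    have a3 : ∀ᶠ δ in 𝓝[>] (0 : ℝ), 0 < δ := self_mem_nhdsWithin
    obtain ⟨δ, b1, b2, b3⟩ := (a1.and (a2.and a3)).exists
    refine (hgrid N hN δ b3 b2).trans (add_le_add le_rfl ?_)
    rw [← ENNReal.ofReal_coe_nnreal]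
    exact ENNReal.ofReal_le_ofReal b1.le
  have hA0 : ∀ p : Ω × ℝ, 0 ≤ ∑ m ∈ M, W m p.2 * l9sS ψ s (3 * L) r c m p := fun p =>
    Finset.sum_nonneg fun m _ => mul_nonneg (hW0 m p.2) (l9s_S_nonneg ψ s (3 * L) r c m p)
  rw [integral_eq_lintegral_of_nonneg_ae (Eventually.of_forall hA0) hint.aestronglyMeasurable]
  refine ENNReal.toReal_le_of_le_ofReal hB ?_
  rw [lintegral_prod _ hint.aestronglyMeasurable.aemeasurable.ennreal_ofReal]
  calc ∫⁻ γ, (∫⁻ θ in Icc (0 : ℝ) Θ, ENNReal.ofReal (∑ m ∈ M, W m θ * l9sS ψ s (3 * L) r c m (γ, θ))) ∂μ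
      ≤ ∫⁻ γ, liminf (fun N => l9sTot ψ W s L Θ r c M N γ) atTop ∂μ :=
        lintegral_mono fun γ => l9s_lower ψ s L K Θ r n c W M γ hs hL hΘ hK hMn (hLip γ) hWc hW0
    _ ≤ liminf (fun N => ∫⁻ γ, l9sTot ψ W s L Θ r c M N γ ∂μ) atTop :=
        lintegral_liminf_le fun N => l9s_Tot_measurable ψ W s L Θ r c M N hm
    _ ≤ _ := hlim

/-- **LSC, size segment**, weighted form (`n` bounds the site counts in play, `Θ` = length of the segment, `S` = the site counts at which the numbers are controlled). -/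
theorem l9s_siz {Ω : Type} [MeasurableSpace Ω] (μ : Measure Ω) [IsProbabilityMeasure μ] (ψ : Ω → ℝ → ℕ → ℝ) (s L B K Θ : ℝ) (r n : ℕ) (c : ℕ → ℝ) (S : Set ℕ)
    (hs : 0 ≤ s) (hL : 0 < L) (hΘ : 0 ≤ Θ) (hm : ∀ θ, ∀ m ∈ S, Measurable fun γ => ψ γ θ m)
    (hLip : ∀ γ, ∀ m ∈ S, ∀ θ ∈ Icc (0 : ℝ) Θ, ∀ θ' ∈ Icc (0 : ℝ) Θ, |ψ γ θ m - ψ γ θ' m| ≤ K * |θ - θ'|)
    (W : ℕ → ℝ → ℝ) (hWc : ∀ m, Continuous (W m)) (hW0 : ∀ m θ, 0 ≤ W m θ)
    (hWS : ∀ m θ, W m θ ≠ 0 → ∀ j ∈ Finset.range (r + 1), m + j ∈ S)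
    (happ : ∀ δ : ℝ, 0 < δ → ∃ φ : Ω → ℝ → ℕ → ℝ, (∀ γ, ∀ m ∈ S, ∀ θ ∈ Icc (0 : ℝ) Θ, |φ γ θ m - ψ γ θ m| ≤ δ) ∧
      (∀ γ, ∀ m ∈ S, AbsolutelyContinuousOnInterval (fun θ => φ γ θ m) 0 Θ) ∧
      (∀ m, (∀ j ∈ Finset.range (r + 1), m + j ∈ S) → Integrable (l9sS φ s (4 * L) r c m) (μ.prod (volume.restrict (Icc (0 : ℝ) Θ)))) ∧
      ∫ p, ∑ m ∈ Finset.range n, W m p.2 * l9sS φ s (4 * L) r c m p ∂(μ.prod (volume.restrict (Icc (0 : ℝ) Θ))) ≤ B) :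
    ∫ p, ∑ m ∈ Finset.range n, W m p.2 * l9sS ψ s (3 * L) r c m p ∂(μ.prod (volume.restrict (Icc (0 : ℝ) Θ))) ≤ B := by
  classical
  rcases hΘ.eq_or_lt with hΘ0 | hΘ
  · obtain ⟨φ, -, -, -, h4⟩ := happ 1 one_pos
    have hz : (volume : Measure ℝ).restrict (Icc (0 : ℝ) Θ) = 0 := by
      rw [← hΘ0, Icc_self, Measure.restrict_eq_zero]
      simp
    rw [hz, Measure.prod_zero, integral_zero_measure] at h4 ⊢
    exact h4
  set M : Finset ℕ := (Finset.range n).filter (fun m => ∀ j ∈ Finset.range (r + 1), m + j ∈ S) with hM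
  have hsum : ∀ (X : ℕ → ℝ) (θ : ℝ), ∑ m ∈ Finset.range n, W m θ * X m = ∑ m ∈ M, W m θ * X m := by
    intro X θ
    rw [hM, Finset.sum_filter_of_ne]
    intro m _ hne
    exact hWS m θ (left_ne_zero_of_mul hne)
  have hMS : ∀ m ∈ M, ∀ j ∈ Finset.range (r + 1), m + j ∈ S := fun m hmM => (Finset.mem_filter.1 hmM).2
  simp only [hsum] at happ ⊢
  refine l9s_core μ ψ s L B |K| Θ r n c M hs hL hΘ (abs_nonneg K) (fun m hmM => Finset.mem_range.1 (Finset.mem_filter.1 hmM).1)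
    (fun θ m hmM j hj => hm θ _ (hMS m hmM j hj))
    (fun γ m hmM j hj θ hθ θ' hθ' => (hLip γ _ (hMS m hmM j hj) θ hθ θ' hθ').trans
      (mul_le_mul_of_nonneg_right (le_abs_self K) (abs_nonneg _))) W hWc hW0 ?_
  intro δ hδ
  obtain ⟨φ, h1, h2, h3, h4⟩ := happ δ hδ
  exact ⟨φ, fun γ m hmM j hj => h1 γ _ (hMS m hmM j hj), fun γ m hmM j hj => h2 γ _ (hMS m hmM j hj),
    fun m hmM => h3 m (hMS m hmM), h4⟩

/-- **LSC, direct segments.** -/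
theorem l9s_dir {Ω : Type} [MeasurableSpace Ω] (μ : Measure Ω) [IsProbabilityMeasure μ] (ψ : Ω → ℝ → ℝ) (κ L B K : ℝ)
    (hκ : 0 ≤ κ) (hL : 0 < L) (hm : ∀ τ, Measurable fun γ => ψ γ τ)
    (hLip : ∀ γ, ∀ τ ∈ Icc (0 : ℝ) 1, ∀ τ' ∈ Icc (0 : ℝ) 1, |ψ γ τ - ψ γ τ'| ≤ K * |τ - τ'|)
    (happ : ∀ δ : ℝ, 0 < δ → ∃ φ : Ω → ℝ → ℝ, (∀ γ, ∀ τ ∈ Icc (0 : ℝ) 1, |φ γ τ - ψ γ τ| ≤ δ) ∧
      (∀ γ, AbsolutelyContinuousOnInterval (φ γ) 0 1) ∧
      Integrable (l9sD φ κ (4 * L)) (μ.prod (volume.restrict (Icc (0 : ℝ) 1))) ∧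
      ∫ p, l9sD φ κ (4 * L) p ∂(μ.prod (volume.restrict (Icc (0 : ℝ) 1))) ≤ B) :
    ∫ p, l9sD ψ κ (3 * L) p ∂(μ.prod (volume.restrict (Icc (0 : ℝ) 1))) ≤ B := by
  classical
  -- `l9sD` is the case `r = 0`, `c = 0`, `m = 1` of `l9sS`
  have hDS : ∀ (χ : Ω → ℝ → ℝ) (A : ℝ), l9sS (fun γ θ _ => χ γ θ) κ A 0 (fun _ => 0) 1 = l9sD χ κ A := by
    intro χ A
    funext p
    unfold l9sS l9sD
    simp
  have hsum : ∀ (χ : Ω → ℝ → ℝ) (A : ℝ) (p : Ω × ℝ),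
      ∑ m ∈ Finset.range 2, (fun (m : ℕ) (_ : ℝ) => if m = 1 then (1 : ℝ) else 0) m p.2 * l9sS (fun γ θ _ => χ γ θ) κ A 0 (fun _ => 0) m p
        = l9sD χ κ A p := by
    intro χ A p
    rw [Finset.sum_range_succ, Finset.sum_range_one, hDS]
    simp
  have key := l9s_siz μ (fun γ θ _ => ψ γ θ) κ L B K 1 0 2 (fun _ => 0) {1} hκ hL zero_le_one (fun θ _ _ => hm θ)
    (fun γ _ _ => hLip γ) (fun (m : ℕ) (_ : ℝ) => if m = 1 then (1 : ℝ) else 0) (fun m => continuous_const)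
    (fun m _ => by split_ifs <;> norm_num) (by
      intro m _ hne j hj
      have hm1 : m = 1 := by
        by_contra hcon
        exact hne (if_neg hcon)
      have hj0 : j = 0 := by simpa using hj
      simp [hm1, hj0]) (by
      intro δ hδ
      obtain ⟨φ, h1, h2, h3, h4⟩ := happ δ hδ
      refine ⟨fun γ θ _ => φ γ θ, fun γ _ _ => h1 γ, fun γ _ _ => h2 γ, ?_, ?_⟩
      · intro m hmS
        have hm1 : m = 1 := by simpa using hmS 0 (by simp)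
        rw [hm1, hDS]
        exact h3
      · simp only [hsum]
        exact h4)
  simp only [hsum] at key
  exact key

end Claimed.Agent.R286
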