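import Claimed.Agent.R286.L09.Defs
import Claimed.Agent.R286.L09.Lsc
import Claimed.Agent.R286.LL04.Asm
import Claimed.Agent.R286.LL04.AsmSw
import Claimed.Agent.R286.LL.PathsBase
import Claimed.Agent.R286.Exit.ClkPr
import Claimed.Agent.R286.Exit.ClkLim

/-!
# Row 286 (S0533), unit L09, file IncGlue: FROM THE CORE ON ONE CHAIN TO `Ll04Inc`      (owner helper60; leaves CLOSE: proved by helper220; prefix `l9g_`)

    Ll04Inc llBase F   <=   L9Inc llBase F (THE CORE, 216: `l9_fin`)  +  Ll04Clk, Ll04A1 (Lipschitz at the path level, `ll04a_seg` of 258)  +  LSC (`L09/Lsc`, 260)  +  CLOSE (below, 77)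

CLOSE.   `l9g_close`   : the pressure on a chain which contains the dyadic grid `ghGrid a k` is within `a 2^-k (b(a)/4 + h(a)/2)` of the pressure of the clocks.   UNIFORM in the clocks: only monotonicity is used.
            PROOF: `P := skCStp a b h 0 0 ps` is admissible (`sk_stp_chain_adm`), `skPr n a P = skCPr n a (skClkB P) (skClkH P)` (`exit_clk_step_pr`), then `exit_clk_pr_lip`, and for a monotone clock
            `∫_0^a |b - skClkB P| ≤ ∑_i (u_(i+1) - u_i) (b(u_(i+1)) - b(u_i +)) ≤ a 2^-k b(a)`   (between two grid masses the step clock lies between `b(u_i +)` and `b(v)`).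
         `l9g_psiC_eq` : the two forms of `ψ` on a chain agree if `(s,1)` is a position of the chain: the two tilted step paths have the same step clocks (`sk_stp_pr_clk`).
-/

set_option autoImplicit false

namespace Claimed.Agent.R286

open MeasureTheory Set Filter

/-- the clock of a chain at the mass `u` = the value at the last position of mass `≤ u` -/
theorem l9g_clk_at {a : ℝ} (ha : 0 ≤ a) {b : ℝ → ℝ} (h : ℝ → ℝ) (hb : GhClk1 a b) {ps : List GhPos} (hs : ps.Pairwise (· ≤ ·))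
    (hok : ∀ p ∈ ps, p.Ok a) {u : ℝ} {p0 : GhPos} (hp0 : p0 ∈ ps) (hp0u : p0.u ≤ u) (hmax : ∀ p ∈ ps, p.u ≤ u → p ≤ p0) :
    skClkB (skCStp a b h 0 0 ps) u = ghAt a b p0 := by
  rw [sk_stp_chain_clkB ha h hb u (ghAt a b p0) ps 0 0 hs hok ?_ (Or.inl ⟨p0, hp0, hp0u, rfl⟩), sub_zero]
  intro p hp hpu
  exact ⟨gh_os_at_nonneg ha hb (hok p hp).2.2.1, gh_os_at_mono ha hb (hok p hp).2.2.2 (hok p0 hp0).2.2.1 (hmax p hp hpu)⟩

/-- the last position of mass `≤ u` -/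
theorem l9g_last {ps : List GhPos} {u : ℝ} (h : ∃ p ∈ ps, p.u ≤ u) :
    ∃ p0 ∈ ps, p0.u ≤ u ∧ ∀ p ∈ ps, p.u ≤ u → p ≤ p0 := by
  classical
  obtain ⟨q, hq, hqu⟩ := h
  obtain ⟨p0, hp0, hmax⟩ := Finset.exists_max_image (ps.toFinset.filter fun p => p.u ≤ u) id ⟨q, by simp [hq, hqu]⟩
  rw [Finset.mem_filter, List.mem_toFinset] at hp0
  exact ⟨p0, hp0.1, hp0.2, fun p hp hpu => hmax p (by simp [hp, hpu])⟩

/-- a function squeezed by a monotone function on the cells of the dyadic grid is `L¹` close to it -/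
theorem l9g_mono_step {a : ℝ} (ha : 0 < a) (k : ℕ) {f g : ℝ → ℝ} (hf : MonotoneOn f (Icc 0 a)) (hgi : IntervalIntegrable g volume 0 a)
    (hg : ∀ i : ℕ, i < 2 ^ k → ∀ u ∈ Ioo (a * (i : ℝ) / 2 ^ k) (a * ((i + 1 : ℕ) : ℝ) / 2 ^ k),
      f (a * (i : ℝ) / 2 ^ k) ≤ g u ∧ g u ≤ f (a * ((i + 1 : ℕ) : ℝ) / 2 ^ k)) :
    ∫ u in (0 : ℝ)..a, |g u - f u| ≤ a / 2 ^ k * (f a - f 0) := by
  obtain ⟨t, ht⟩ : ∃ t : ℕ → ℝ, ∀ i, t i = a * (i : ℝ) / 2 ^ k := ⟨_, fun _ => rfl⟩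
  have h2 : (0 : ℝ) < 2 ^ k := by positivity
  have ht0 : t 0 = 0 := by rw [ht]; simp
  have htn : t (2 ^ k) = a := by rw [ht]; push_cast; field_simp
  have htm : Monotone t := fun i j hij => by
    rw [ht, ht]
    have : (i : ℝ) ≤ j := by exact_mod_cast hij
    gcongr
  have htI : ∀ i, i ≤ 2 ^ k → t i ∈ Icc 0 a := fun i hi => ⟨ht0 ▸ htm (Nat.zero_le i), htn ▸ htm hi⟩
  have hstep : ∀ i, t (i + 1) - t i = a / 2 ^ k := fun i => by rw [ht, ht]; push_cast; field_simp; ring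
  have hfi : IntervalIntegrable f volume 0 a := MonotoneOn.intervalIntegrable (by rwa [uIcc_of_le ha.le])
  have hI : IntervalIntegrable (fun u => |g u - f u|) volume 0 a := (hgi.sub hfi).abs
  have hsub : ∀ i < 2 ^ k, IntervalIntegrable (fun u => |g u - f u|) volume (t i) (t (i + 1)) := fun i hi => by
    refine hI.mono_set ?_
    rw [uIcc_of_le (htm (Nat.le_succ i)), uIcc_of_le ha.le]
    exact Icc_subset_Icc (htI i hi.le).1 (htI (i + 1) hi).2
  have hsum := intervalIntegral.sum_integral_adjacent_intervals hsub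
  rw [ht0, htn] at hsum
  rw [← hsum]
  have hle : ∀ i ∈ Finset.range (2 ^ k), ∫ u in t i..t (i + 1), |g u - f u| ≤ a / 2 ^ k * (f (t (i + 1)) - f (t i)) := by
    intro i hi
    have hi' := Finset.mem_range.1 hi
    have h1 := intervalIntegral.integral_mono_on_of_le_Ioo (htm (Nat.le_succ i)) (hsub i hi')
      (intervalIntegrable_const (c := f (t (i + 1)) - f (t i))) fun u hu => by
        have hu' : u ∈ Icc 0 a := ⟨(htI i hi'.le).1.trans hu.1.le, hu.2.le.trans (htI (i + 1) hi').2⟩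
        have g1 := hg i hi' u (by rw [← ht, ← ht]; exact hu)
        rw [← ht, ← ht] at g1
        have f1 := hf (htI i hi'.le) hu' hu.1.le
        have f2 := hf hu' (htI (i + 1) hi') hu.2.le
        rw [abs_le]
        constructor <;> linarith [g1.1, g1.2]
    rw [intervalIntegral.integral_const, hstep, smul_eq_mul] at h1
    exact h1
  calc _ ≤ ∑ i ∈ Finset.range (2 ^ k), a / 2 ^ k * (f (t (i + 1)) - f (t i)) := Finset.sum_le_sum hle
    _ = a / 2 ^ k * (f a - f 0) := by rw [← Finset.mul_sum, Finset.sum_range_sub (fun i => f (t i)), ht0, htn]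

theorem l9g_clamp_eq {a : ℝ} (c : ℝ → ℝ) {v : ℝ} (hv : v ∈ Icc (0 : ℝ) a) : ghClamp a c v = c v := by
  unfold ghClamp
  rw [if_neg (not_lt.2 hv.1), min_eq_left hv.2]

theorem l9g_posA_u (v : ℝ) : (ghPosA v).u = v := rfl

/-- the step clock of a chain through the dyadic grid is `L¹` close to the clock -/
theorem l9g_clk_l1 {a : ℝ} (ha : 0 < a) {b h : ℝ → ℝ} (hb : GhClk1 a b) (hh : GhClk1 a h) (k : ℕ) {Fs : Finset GhPos} (hFs : ghGrid a k ⊆ Fs) :
    ∫ u in (0 : ℝ)..a, |skClkB (skCStp a b h 0 0 (ghPs a Fs)) u - b u| ≤ a / 2 ^ k * b a := by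
  have hok : ∀ p ∈ ghPs a Fs, p.Ok a := fun p hp => (gh_os_ps_mem.1 hp).2
  have hP : SkAdm a (skCStp a b h 0 0 (ghPs a Fs)) := sk_stp_chain_adm ha.le hb hh _ 0 0 (gh_os_ps_pairwise a Fs) hok
    (fun p hp => gh_os_at_nonneg ha.le hb (hok p hp).2.2.1) (fun p hp => gh_os_at_nonneg ha.le hh (hok p hp).2.2.1)
  have hmono := (sk_stp_clk_mono _ fun e he => (hP.2 e he).2.2).1
  have hcm := gh_os_clamp_mono ha.le hb
  have h2 : (0 : ℝ) < 2 ^ k := by positivity
  have key := l9g_mono_step ha k hb.1 (hmono.intervalIntegrable (μ := volume) (a := 0) (b := a)) fun i hi u hu => by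
    have hi1 : ((i + 1 : ℕ) : ℝ) ≤ 2 ^ k := by exact_mod_cast hi
    have hi0 : (i : ℝ) ≤ 2 ^ k := by
      have : (i : ℝ) ≤ ((i + 1 : ℕ) : ℝ) := by push_cast; linarith
      linarith
    have t0 : a * (i : ℝ) / 2 ^ k ∈ Icc (0 : ℝ) a := ⟨by positivity, by rw [div_le_iff₀ h2]; exact mul_le_mul_of_nonneg_left hi0 ha.le⟩
    have t1 : a * ((i + 1 : ℕ) : ℝ) / 2 ^ k ∈ Icc (0 : ℝ) a :=
      ⟨by positivity, by rw [div_le_iff₀ h2]; exact mul_le_mul_of_nonneg_left hi1 ha.le⟩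
    have hmem : ghPosA (a * (i : ℝ) / 2 ^ k) ∈ ghPs a Fs := by
      refine gh_os_ps_mem.2 ⟨hFs ?_, gh_os_posA_ok t0.1 t0.2⟩
      unfold ghGrid
      exact Finset.mem_image.2 ⟨i, Finset.mem_range.2 (by omega), rfl⟩
    obtain ⟨p0, hp0, hp0u, hmax⟩ := l9g_last ⟨_, hmem, (l9g_posA_u _).le.trans hu.1.le⟩
    rw [l9g_clk_at ha.le h hb (gh_os_ps_pairwise a Fs) hok hp0 hp0u hmax]
    constructor
    · calc b (a * (i : ℝ) / 2 ^ k) = ghClamp a b (a * (i : ℝ) / 2 ^ k) := (l9g_clamp_eq b t0).symm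
        _ ≤ Function.rightLim (ghClamp a b) (a * (i : ℝ) / 2 ^ k) := hcm.le_rightLim le_rfl
        _ = ghAt a b (ghPosA (a * (i : ℝ) / 2 ^ k)) := (gh_os_at_posA a b _).symm
        _ ≤ ghAt a b p0 := gh_os_at_mono ha.le hb (hok _ hmem).2.2.2 (hok p0 hp0).2.2.1
            (hmax _ hmem ((l9g_posA_u _).le.trans hu.1.le))
    · calc ghAt a b p0 ≤ Function.rightLim (ghClamp a b) p0.u := gh_os_at_le_right ha.le hb (hok p0 hp0).2.2.2
        _ ≤ ghClamp a b (a * ((i + 1 : ℕ) : ℝ) / 2 ^ k) := hcm.rightLim_le (lt_of_le_of_lt hp0u hu.2)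
        _ = b (a * ((i + 1 : ℕ) : ℝ) / 2 ^ k) := l9g_clamp_eq b t1
  refine key.trans (mul_le_mul_of_nonneg_left ?_ (by positivity))
  linarith [hb.2]

/-- **CLOSE-1** (proved by helper220) -/
theorem l9g_close {n : ℕ} (hn : 0 < n) {a : ℝ} (ha : 0 < a) {b h : ℝ → ℝ} (hb : GhClk1 a b) (hh : GhClk1 a h) (k : ℕ)
    {Fs : Finset GhPos} (hFs : ghGrid a k ⊆ Fs) :
    |skPr n a (skCStp a b h 0 0 (ghPs a Fs)) - skCPr n a b h| ≤ a / 2 ^ k * (b a / 4 + h a / 2) := by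
  have hok : ∀ p ∈ ghPs a Fs, p.Ok a := fun p hp => (gh_os_ps_mem.1 hp).2
  have hP : SkAdm a (skCStp a b h 0 0 (ghPs a Fs)) := sk_stp_chain_adm ha.le hb hh _ 0 0 (gh_os_ps_pairwise a Fs) hok
    (fun p hp => gh_os_at_nonneg ha.le hb (hok p hp).2.2.1) (fun p hp => gh_os_at_nonneg ha.le hh (hok p hp).2.2.1)
  have e2 := exit_clk_pr_lip hn ha (sk_stp_clk1 hP) ⟨hb, hh⟩
  rw [(sk_stp_pr n ha hP).1] at e2
  have e3 := l9g_clk_l1 ha hb hh k hFs
  have e4 := l9g_clk_l1 ha hh hb k hFs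
  have e5 : (fun u => |skClkH (skCStp a b h 0 0 (ghPs a Fs)) u - h u|) = fun u => |skClkB (skCStp a h b 0 0 (ghPs a Fs)) u - h u| := by
    funext u
    rw [sk_stp_chain_swap]
  rw [e5] at e2
  refine e2.trans ?_
  have : a / 2 ^ k * (b a / 4 + h a / 2) = 1 / 4 * (a / 2 ^ k * b a) + 1 / 2 * (a / 2 ^ k * h a) := by ring
  rw [this]
  linarith


/-! ### CLOSE-2 -/

theorem l9g_mat (a : ℝ) (b h K : ℝ → ℝ) : ∀ (ps : List GhPos) (b0 h0 K0 : ℝ),
    llMat (l9Stp a b h K b0 h0 K0 ps) = skCStp a b h b0 h0 ps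
  | [], _, _, _ => rfl
  | p :: ps, b0, h0, K0 => by
      have ih := l9g_mat a b h K ps (ghAt a b p) (ghAt a h p) (ghAt a K p)
      rw [l9Stp, skCStp, ← ih]
      rfl

theorem l9g_stp_mem (a : ℝ) (b h K : ℝ → ℝ) : ∀ (ps : List GhPos) (b0 h0 K0 : ℝ) (e : LlInc),
    e ∈ l9Stp a b h K b0 h0 K0 ps → ∃ p ∈ ps, e.m = p.u
  | [], _, _, _, e, he => by simp [l9Stp] at he
  | p :: ps, b0, h0, K0, e, he => by
      rw [l9Stp] at he
      rcases List.mem_cons.1 he with rfl | he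
      · exact ⟨p, List.mem_cons_self, rfl⟩
      · obtain ⟨p', hp', hm⟩ := l9g_stp_mem a b h K ps _ _ _ e he
        exact ⟨p', List.mem_cons_of_mem _ hp', hm⟩

theorem l9g_stp_length (a : ℝ) (b h K : ℝ → ℝ) : ∀ (ps : List GhPos) (b0 h0 K0 : ℝ),
    (l9Stp a b h K b0 h0 K0 ps).length = ps.length
  | [], _, _, _ => rfl
  | p :: ps, b0, h0, K0 => by
      rw [l9Stp, List.length_cons, List.length_cons, l9g_stp_length a b h K ps]

theorem l9g_stp_append (a : ℝ) (b h K : ℝ → ℝ) : ∀ (X : List GhPos) (b0 h0 K0 : ℝ), ∃ b1 h1 K1 : ℝ, ∀ Y : List GhPos,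
    l9Stp a b h K b0 h0 K0 (X ++ Y) = l9Stp a b h K b0 h0 K0 X ++ l9Stp a b h K b1 h1 K1 Y
  | [], b0, h0, K0 => ⟨b0, h0, K0, fun _ => rfl⟩
  | p :: X, b0, h0, K0 => by
      obtain ⟨b1, h1, K1, H⟩ := l9g_stp_append a b h K X (ghAt a b p) (ghAt a h p) (ghAt a K p)
      refine ⟨b1, h1, K1, fun Y => ?_⟩
      rw [List.cons_append, l9Stp, l9Stp, H Y, List.cons_append]

/-- the tilted path on the same stages, split at the tilt stage -/
theorem l9g_mvAt_split (A B : LlStp) (e : LlInc) :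
    llMvAt A.length (A ++ e :: B)
      = (A.map fun x => (⟨x.m, 0, x.dh⟩ : SkInc)) ++ ⟨e.m, skTotB (llMat A) + e.db, e.dh⟩ :: llMat B := by
  unfold llMvAt
  rw [List.mapIdx_append, List.mapIdx_cons]
  congr 1
  · apply List.ext_getElem (by simp)
    intro i h1 h2
    have hi : i < A.length := by simpa using h1
    simp [hi]
  · congr 1
    · simp [skCumB, skTotB, llMat]
    · apply List.ext_getElem (by simp [llMat])
      intro i h1 h2
      simp [llMat]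

theorem l9g_clkB_append (X Y : SkStp) (u : ℝ) : skClkB (X ++ Y) u = skClkB X u + skClkB Y u := by simp [skClkB]
theorem l9g_clkH_append (X Y : SkStp) (u : ℝ) : skClkH (X ++ Y) u = skClkH X u + skClkH Y u := by simp [skClkH]

theorem l9g_clkB_zero (u : ℝ) : ∀ A : LlStp, skClkB (A.map fun x => (⟨x.m, 0, x.dh⟩ : SkInc)) u = 0
  | [] => by simp [skClkB]
  | x :: A => by
      rw [List.map_cons, sk_stp_clkB_cons, l9g_clkB_zero u A]
      simp

theorem l9g_clkH_zero (u : ℝ) : ∀ A : LlStp, skClkH (A.map fun x => (⟨x.m, 0, x.dh⟩ : SkInc)) u = skClkH (llMat A) u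
  | [] => rfl
  | x :: A => by
      have e : llMat (x :: A) = ⟨x.m, x.db, x.dh⟩ :: llMat A := rfl
      rw [List.map_cons, sk_stp_clkH_cons, l9g_clkH_zero u A, e, sk_stp_clkH_cons]

theorem l9g_mat_append (A B : LlStp) : llMat (A ++ B) = llMat A ++ llMat B := by simp [llMat]

/-- the clocks of the tilted path on the same stages -/
theorem l9g_mvAt_clk (A B : LlStp) (e : LlInc) (hA : ∀ x ∈ A, x.m ≤ e.m) (hB : ∀ x ∈ B, e.m ≤ x.m) (u : ℝ) :
    skClkB (llMvAt A.length (A ++ e :: B)) u = (if e.m ≤ u then skClkB (llMat (A ++ e :: B)) u else 0) ∧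
    skClkH (llMvAt A.length (A ++ e :: B)) u = skClkH (llMat (A ++ e :: B)) u := by
  have e0 : llMat (e :: B) = ⟨e.m, e.db, e.dh⟩ :: llMat B := rfl
  rw [l9g_mvAt_split, l9g_clkB_append, l9g_clkH_append, l9g_clkB_zero, l9g_clkH_zero, sk_stp_clkB_cons, sk_stp_clkH_cons,
    l9g_mat_append, l9g_clkB_append, l9g_clkH_append, e0, sk_stp_clkB_cons, sk_stp_clkH_cons]
  refine ⟨?_, rfl⟩
  by_cases hu : e.m ≤ u
  · have h1 := (sk_stp_clk_above (llMat A) u fun x hx => by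
      obtain ⟨y, hy, rfl⟩ := List.mem_map.1 hx
      exact (hA y hy).trans hu).1
    simp only [if_pos hu]
    rw [h1]
    ring
  · have h1 := (sk_stp_clk_below (llMat B) u fun x hx => by
      obtain ⟨y, hy, rfl⟩ := List.mem_map.1 hx
      exact lt_of_lt_of_le (not_le.1 hu) (hB y hy)).1
    simp only [if_neg hu]
    rw [h1]
    ring

theorem l9g_mvAt_adm {a : ℝ} (A B : LlStp) (e : LlInc) (h : SkAdm a (llMat (A ++ e :: B))) :
    SkAdm a (llMvAt A.length (A ++ e :: B)) := by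
  have hm : (llMvAt A.length (A ++ e :: B)).map SkInc.m = (llMat (A ++ e :: B)).map SkInc.m := by
    rw [l9g_mvAt_split]
    simp [llMat]
  have hA : ∀ y ∈ A, (⟨y.m, y.db, y.dh⟩ : SkInc) ∈ llMat (A ++ e :: B) := fun y hy =>
    List.mem_map.2 ⟨y, List.mem_append_left _ hy, rfl⟩
  have he : (⟨e.m, e.db, e.dh⟩ : SkInc) ∈ llMat (A ++ e :: B) :=
    List.mem_map.2 ⟨e, List.mem_append_right _ List.mem_cons_self, rfl⟩
  refine ⟨?_, fun x hx => ?_⟩
  · have h1 := h.1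
    rw [← List.pairwise_map (f := SkInc.m) (R := fun x y => x ≤ y)] at h1 ⊢
    rw [hm]
    exact h1
  · rw [l9g_mvAt_split] at hx
    rcases List.mem_append.1 hx with hx | hx
    · obtain ⟨y, hy, rfl⟩ := List.mem_map.1 hx
      have := h.2 _ (hA y hy)
      exact ⟨this.1, this.2.1, le_rfl, this.2.2.2⟩
    · rcases List.mem_cons.1 hx with rfl | hx
      · have := h.2 _ he
        refine ⟨this.1, this.2.1, add_nonneg ?_ this.2.2.1, this.2.2.2⟩
        unfold skTotB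
        refine List.sum_nonneg fun r hr => ?_
        obtain ⟨z, hz, rfl⟩ := List.mem_map.1 hr
        obtain ⟨y, hy, rfl⟩ := List.mem_map.1 hz
        exact (h.2 _ (hA y hy)).2.2.1
      · obtain ⟨y, hy, rfl⟩ := List.mem_map.1 hx
        exact h.2 _ (List.mem_map.2 ⟨y, List.mem_append_right _ (List.mem_cons_of_mem _ hy), rfl⟩)

theorem l9g_clkH_indep (a : ℝ) (b b' h : ℝ → ℝ) (u : ℝ) : ∀ (ps : List GhPos) (b0 b0' h0 : ℝ),
    skClkH (skCStp a b h b0 h0 ps) u = skClkH (skCStp a b' h b0' h0 ps) u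
  | [], _, _, _ => rfl
  | p :: ps, b0, b0', h0 => by
      rw [skCStp, skCStp, sk_stp_clkH_cons, sk_stp_clkH_cons, l9g_clkH_indep a b b' h u ps]

/-- the tilted clock, clamped -/
theorem l9g_clamp_tilt {a s : ℝ} (hsa : s ≤ a) (b : ℝ → ℝ) (u : ℝ) :
    ghClamp a (l9Tb s b) u = if s ≤ u then ghClamp a b u else 0 := by
  unfold ghClamp l9Tb
  by_cases h0 : u < 0
  · rw [if_pos h0, if_pos h0]
    simp
  · rw [if_neg h0, if_neg h0]
    by_cases h1 : s ≤ u
    · rw [if_pos h1, if_pos (le_min h1 hsa)]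
    · rw [if_neg h1, if_neg]
      intro h2
      exact h1 (h2.trans (min_le_left _ _))

/-- below the tilt mass the tilted clock has revealed nothing -/
theorem l9g_at_tilt_lo {a s : ℝ} (hsa : s ≤ a) (b : ℝ → ℝ) {p : GhPos} (h : p.u < s) : ghAt a (l9Tb s b) p = 0 := by
  have hev : ∀ᶠ u in nhds p.u, ghClamp a (l9Tb s b) u = 0 := by
    filter_upwards [Iio_mem_nhds h] with u hu
    rw [l9g_clamp_tilt hsa, if_neg (not_le.2 hu)]
  have h1 : Function.leftLim (ghClamp a (l9Tb s b)) p.u = 0 :=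
    leftLim_eq_of_tendsto (tendsto_const_nhds.congr' ((hev.filter_mono nhdsWithin_le_nhds).mono fun _ h => h.symm))
  have h2 : Function.rightLim (ghClamp a (l9Tb s b)) p.u = 0 :=
    rightLim_eq_of_tendsto (tendsto_const_nhds.congr' ((hev.filter_mono nhdsWithin_le_nhds).mono fun _ h => h.symm))
  unfold ghAt
  rw [h1, h2]
  ring

/-- from the position `(s,1)` on, the tilted clock is the clock -/
theorem l9g_at_tilt_hi {a s : ℝ} (hs : 0 < s) (hsa : s ≤ a) {b : ℝ → ℝ} (hb : GhClk1 a b) {p : GhPos} (hp : p.lam ≤ 1)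
    (h : ghPosA s ≤ p) : ghAt a (l9Tb s b) p = ghAt a b p := by
  have ha : 0 ≤ a := hs.le.trans hsa
  have hm := gh_os_clamp_mono ha hb
  have hsu : s ≤ p.u := sk_stp_pos_u_le h
  have h2 : Function.rightLim (ghClamp a (l9Tb s b)) p.u = Function.rightLim (ghClamp a b) p.u := by
    refine rightLim_eq_of_tendsto ((hm.tendsto_rightLim p.u).congr' ?_)
    filter_upwards [self_mem_nhdsWithin] with u hu
    rw [l9g_clamp_tilt hsa, if_pos (hsu.trans (le_of_lt hu))]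
  rcases (gh_os_pos_le_iff _ _).1 h with h3 | ⟨h3, h4⟩
  · have h3' : s < p.u := h3
    have h1 : Function.leftLim (ghClamp a (l9Tb s b)) p.u = Function.leftLim (ghClamp a b) p.u := by
      refine leftLim_eq_of_tendsto ((hm.tendsto_leftLim p.u).congr' ?_)
      filter_upwards [Ioo_mem_nhdsLT h3'] with u hu
      rw [l9g_clamp_tilt hsa, if_pos hu.1.le]
    unfold ghAt
    rw [h1, h2]
  · have h4' : p.lam = 1 := le_antisymm hp h4
    unfold ghAt
    rw [h2, h4']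
    ring

/-- **CLOSE-2** (proved by helper220) -/
theorem l9g_psiC_eq {m : ℕ} (hm : 0 < m) {a s : ℝ} (hs : 0 < s) (hsa : s ≤ a) {b h : ℝ → ℝ} (K : ℝ → ℝ) (hb : GhClk1 a b) (hh : GhClk1 a h)
    {Fs : Finset GhPos} (h1 : ghPosA s ∈ Fs) :
    l9PsiC m a b h K s (ghPs a Fs) = l9PsiT m a b h s (ghPs a Fs) := by
  have ha : 0 < a := hs.trans_le hsa
  have hc : GhClk1 a (l9Tb s b) := ll04l_tilt_adm hb s
  have hok : ∀ p ∈ ghPs a Fs, p.Ok a := fun p hp => (gh_os_ps_mem.1 hp).2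
  have hle := gh_os_ps_pairwise a Fs
  have hlt := gh_os_ps_lt a Fs
  have hmem : ghPosA s ∈ ghPs a Fs := gh_os_ps_mem.2 ⟨h1, gh_os_posA_ok hs.le hsa⟩
  have admB : SkAdm a (skCStp a b h 0 0 (ghPs a Fs)) := sk_stp_chain_adm ha.le hb hh _ 0 0 hle hok
    (fun p hp => gh_os_at_nonneg ha.le hb (hok p hp).2.2.1) (fun p hp => gh_os_at_nonneg ha.le hh (hok p hp).2.2.1)
  have admC : SkAdm a (skCStp a (l9Tb s b) h 0 0 (ghPs a Fs)) := sk_stp_chain_adm ha.le hc hh _ 0 0 hle hok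
    (fun p hp => gh_os_at_nonneg ha.le hc (hok p hp).2.2.1) (fun p hp => gh_os_at_nonneg ha.le hh (hok p hp).2.2.1)
  obtain ⟨X, Y, hXY⟩ := List.append_of_mem hmem
  rw [hXY] at hlt
  obtain ⟨-, hsY, hXsY⟩ := List.pairwise_append.1 hlt
  have hXlt : ∀ p ∈ X, p < ghPosA s := fun p hp => hXsY p hp _ List.mem_cons_self
  have hYgt : ∀ p ∈ Y, ghPosA s < p := (List.pairwise_cons.1 hsY).1
  have hjs : l9Js s (ghPs a Fs) = X.length := by
    rw [hXY]
    unfold l9Js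
    rw [gh_rm_idx_eq]
    have f1 : X.filter (fun x : GhPos => decide ((x : WithTop GhPos) ≤ ((ghPosA s : GhPos) : WithTop GhPos))) = X :=
      List.filter_eq_self.2 fun p hp => decide_eq_true (WithTop.coe_le_coe.2 (hXlt p hp).le)
    have f2 : Y.filter (fun x : GhPos => decide ((x : WithTop GhPos) ≤ ((ghPosA s : GhPos) : WithTop GhPos))) = [] :=
      List.filter_eq_nil_iff.2 fun p hp hpp => absurd (WithTop.coe_le_coe.1 (of_decide_eq_true hpp)) (not_le.2 (hYgt p hp))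
    rw [List.filter_append, f1, List.filter_cons_of_pos (by simp), f2]
    simp
  obtain ⟨b1, h1', K1, H⟩ := l9g_stp_append a b h K X 0 0 0
  obtain ⟨A, hA⟩ : ∃ A, A = l9Stp a b h K 0 0 0 X := ⟨_, rfl⟩
  obtain ⟨B, hB⟩ : ∃ B, B = l9Stp a b h K (ghAt a b (ghPosA s)) (ghAt a h (ghPosA s)) (ghAt a K (ghPosA s)) Y := ⟨_, rfl⟩
  obtain ⟨e, he⟩ : ∃ e : LlInc, e = ⟨(ghPosA s).u, ghAt a b (ghPosA s) - b1, ghAt a h (ghPosA s) - h1', ghAt a K (ghPosA s) - K1⟩ := ⟨_, rfl⟩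
  have hP : l9Stp a b h K 0 0 0 (ghPs a Fs) = A ++ e :: B := by rw [hXY, H, l9Stp, hA, hB, he]
  have hAl : A.length = X.length := by rw [hA, l9g_stp_length]
  have hem : e.m = s := by rw [he]; rfl
  have hAm : ∀ x ∈ A, x.m ≤ e.m := fun x hx => by
    rw [hA] at hx
    obtain ⟨p, hp, hpm⟩ := l9g_stp_mem a b h K X _ _ _ x hx
    rw [hpm, hem]
    exact sk_stp_pos_u_le (hXlt p hp).le
  have hBm : ∀ x ∈ B, e.m ≤ x.m := fun x hx => by
    rw [hB] at hx
    obtain ⟨p, hp, hpm⟩ := l9g_stp_mem a b h K Y _ _ _ x hx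
    rw [hpm, hem]
    exact sk_stp_pos_u_le (hYgt p hp).le
  have hmat : llMat (A ++ e :: B) = skCStp a b h 0 0 (ghPs a Fs) := by rw [← hP, l9g_mat]
  have admT : SkAdm a (llMvAt A.length (A ++ e :: B)) := l9g_mvAt_adm A B e (by rw [hmat]; exact admB)
  have key : skPr m a (llMvAt A.length (A ++ e :: B)) = skPr m a (skCStp a (l9Tb s b) h 0 0 (ghPs a Fs)) := by
    refine sk_stp_pr_clk m ha admT admC ?_ ?_
    · funext u
      rw [(l9g_mvAt_clk A B e hAm hBm u).1, hmat, hem]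
      by_cases hu : s ≤ u
      · rw [if_pos hu]
        obtain ⟨p0, hp0, hp0u, hmax⟩ := l9g_last ⟨_, hmem, (l9g_posA_u s).le.trans hu⟩
        rw [l9g_clk_at ha.le h hb hle hok hp0 hp0u hmax, l9g_clk_at ha.le h hc hle hok hp0 hp0u hmax,
          l9g_at_tilt_hi hs hsa hb (hok p0 hp0).2.2.2 (hmax _ hmem ((l9g_posA_u s).le.trans hu))]
      · rw [if_neg hu, sk_stp_chain_clkB ha.le h hc u 0 _ 0 0 hle hok ?_ (Or.inr rfl), sub_zero]
        intro p _ hpu
        rw [l9g_at_tilt_lo hsa b (lt_of_le_of_lt hpu (not_le.1 hu))]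
        exact ⟨le_rfl, le_rfl⟩
    · funext u
      rw [(l9g_mvAt_clk A B e hAm hBm u).2, hmat]
      exact l9g_clkH_indep a b (l9Tb s b) h u _ 0 0 0
  unfold l9PsiC l9PsiT llPsi
  rw [hjs, hP, ← hAl]
  show skPr m a (llMvAt A.length (A ++ e :: B)) - skPr m a (llMat (A ++ e :: B)) = _
  rw [key, hmat]


/-- `ψ` on a fine chain is close to `ψ` of the clocks, uniformly in the clocks -/
theorem l9g_close_psi {m : ℕ} (hm : 0 < m) {a s : ℝ} (hs : 0 < s) (hsa : s ≤ a) {b h : ℝ → ℝ} (K : ℝ → ℝ) (hb : GhClk1 a b) (hh : GhClk1 a h) (k : ℕ)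
    {Fs : Finset GhPos} (hFs : ghGrid a k ⊆ Fs) (h1 : ghPosA s ∈ Fs) :
    |l9PsiC m a b h K s (ghPs a Fs) - llBase.psi m a b h s| ≤ a / 2 ^ k * (b a + h a) := by
  have ha : 0 < a := hs.trans_le hsa
  rw [l9g_psiC_eq hm hs hsa K hb hh h1]
  have e1 := l9g_close hm ha (ll04l_tilt_adm hb s) hh k hFs
  have e2 := l9g_close hm ha hb hh k hFs
  have hba : (0 : ℝ) ≤ b a := ll04l_nonneg hb ⟨ha.le, le_rfl⟩
  have hha : (0 : ℝ) ≤ h a := ll04l_nonneg hh ⟨ha.le, le_rfl⟩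
  have hk : (0 : ℝ) ≤ a / 2 ^ k := by positivity
  simp only [if_pos hsa] at e1
  unfold l9PsiT l9Tb LlBase.psi
  rw [llBase_f hm ha (ll04l_tilt_adm hb s) hh, llBase_f hm ha hb hh]
  show |skPr m a (skCStp a (fun v => if s ≤ v then b v else 0) h 0 0 (ghPs a Fs)) - skPr m a (skCStp a b h 0 0 (ghPs a Fs))
      - (skCPr m a (fun v => if s ≤ v then b v else 0) h - skCPr m a b h)| ≤ _
  have e3 := abs_le.1 e1
  have e4 := abs_le.1 e2
  have e5 : a / 2 ^ k * (b a / 4 + h a / 2) + a / 2 ^ k * (b a / 4 + h a / 2) ≤ a / 2 ^ k * (b a + h a) := by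
    have : b a / 4 + h a / 2 + (b a / 4 + h a / 2) ≤ b a + h a := by linarith
    calc _ = a / 2 ^ k * (b a / 4 + h a / 2 + (b a / 4 + h a / 2)) := by ring
      _ ≤ _ := mul_le_mul_of_nonneg_left this hk
  rw [abs_le]
  constructor <;> linarith [e3.1, e3.2, e4.1, e4.2]

/-- closeness at a physical point -/
theorem l9g_pt (F : LlFix) (p : LlPt) {s M : ℝ} (hs : 0 < s) (hsa : s ≤ p.a) (ha4 : p.a ≤ 4) (hb : GhClk1 p.a (p.b F llBase)) (hh : GhClk1 p.a (p.h F llBase))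
    (hbd : p.b F llBase p.a + p.h F llBase p.a ≤ M) (k : ℕ) {Fs : Finset GhPos} (hFs : ghGrid p.a k ⊆ Fs) (h1 : ghPosA s ∈ Fs) {m : ℕ} (hm : 0 < m) :
    |l9Psi F llBase s Fs p m - p.psi F llBase m s| ≤ 4 / 2 ^ k * M := by
  have h := l9g_close_psi hm hs hsa (p.K F llBase) hb hh k (l9_fl_grid hFs) (l9_fl_posA h1)
  have ha : 0 < p.a := hs.trans_le hsa
  have h0 : 0 ≤ p.b F llBase p.a + p.h F llBase p.a :=
    add_nonneg (ll04l_nonneg hb ⟨ha.le, le_rfl⟩) (ll04l_nonneg hh ⟨ha.le, le_rfl⟩)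
  unfold l9Psi LlPt.psi
  refine h.trans ?_
  have h2 : p.a / 2 ^ k ≤ 4 / 2 ^ k := div_le_div_of_nonneg_right ha4 (by positivity)
  exact mul_le_mul h2 hbd h0 (by positivity)

/-- a power of two beats any constant -/
theorem l9g_pow (M δ : ℝ) (hδ : 0 < δ) : ∃ k : ℕ, 4 / 2 ^ k * M ≤ δ := by
  obtain ⟨k, hk⟩ := pow_unbounded_of_one_lt (4 * |M| / δ) (one_lt_two : (1 : ℝ) < 2)
  refine ⟨k, ?_⟩
  have h2 : (0 : ℝ) < 2 ^ k := by positivity
  rw [div_lt_iff₀ hδ] at hk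
  rw [div_mul_eq_mul_div, div_le_iff₀ h2]
  nlinarith [le_abs_self M]

/-- the stopped speed of `Top/Path` in the vocabulary of `L09/Lsc` -/
theorem l9g_aD (P : SkPath) (s L A : ℝ) (e : Fin 2) (i : Fin 3) (m : ℕ) (h : 3 * L = A) :
    P.aD s L e i m = l9sD (fun γ τ => P.dir e i γ τ m) (s * m) A := by
  funext p
  simp only [SkPath.aD, l9sD, h]

theorem l9g_aS (P : SkPath) (s L A : ℝ) (r : ℕ) (c : ℕ → ℝ) (m : ℕ) (h : 3 * L = A) :
    P.aS s L r c m = l9sS (fun γ θ m => P.siz γ θ m) s A r c m := by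
  funext p
  unfold SkPath.aS l9sS
  rw [h]

/-- **GLUE**: the core on one chain gives LL Prop. 4.1 for the path numbers -/
theorem l9g_inc (F : LlFix) (hClk : Ll04Clk llBase F) (hA1 : Ll04A1 llBase) (hCore : L9Inc llBase F) : Ll04Inc llBase F := by
  obtain ⟨c0, hc0, ε0, hε0, H⟩ := hCore
  obtain ⟨C3, N3, hCk⟩ := hClk
  refine ⟨c0, hc0, ε0, hε0, fun ε hε hεε q hq => ?_⟩
  obtain ⟨r0, H⟩ := H ε hε hεε q hq
  refine ⟨r0, fun r hr c hc => ?_⟩
  obtain ⟨C, N1, H⟩ := H r hr c hc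
  obtain ⟨N8, hN8⟩ := sk_nm_small (K := q) (δ := ε) (η := 1 / 2) hε (by norm_num)
  refine ⟨C, max (max N1 N3) (max N8 1), fun N hN N' hNN hN2 => ?_⟩
  have hNa : N1 ≤ N := ((le_max_left _ _).trans (le_max_left _ _)).trans hN
  have hNc : N3 ≤ N := ((le_max_right _ _).trans (le_max_left _ _)).trans hN
  have hNg : N8 ≤ N := ((le_max_left _ _).trans (le_max_right _ _)).trans hN
  have hN1 : 1 ≤ N := ((le_max_right _ _).trans (le_max_right _ _)).trans hN
  have hx0 : 0 < skX N := sk_nm_x_pos hN1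
  have hx1 : skX N ≤ 1 := sk_nm_x_le_one hN1
  have hcore := H N hNa N' hNN hN2
  obtain ⟨s, hs⟩ : ∃ s : ℝ, s = q * skX N ^ (1 + ε) := ⟨_, rfl⟩
  obtain ⟨L, hLd⟩ : ∃ L : ℝ, L = skX N ^ ε := ⟨_, rfl⟩
  have hL : 0 < L := by rw [hLd]; positivity
  have hs0 : 0 < s := by rw [hs]; positivity
  have hsx' : s = q * skX N ^ ε * skX N := by rw [hs, add_comm, Real.rpow_add hx0, Real.rpow_one]; ring
  have hs1 : s < 1 := by
    have := hN8 N hNg
    rw [hsx']
    nlinarith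
  rw [← hs, ← hLd] at hcore ⊢
  have hell := fun e => ll04w_ell hN1 hNN hN2 e
  have hell0 : ∀ e, 0 < ll04Ell N N' e := fun e => lt_of_lt_of_le one_pos (hell e).1
  have hell4 : ∀ e, ll04Ell N N' e ≤ 4 := fun e => (hell e).2.trans (by
    calc (2 : ℝ) ^ (1 / 6 : ℝ) ≤ (2 : ℝ) ^ (1 : ℝ) := Real.rpow_le_rpow_of_exponent_le (by norm_num) (by norm_num)
      _ ≤ 4 := by norm_num)
  have hΘ := ll04w_theta hN1 hNN hN2
  have segD := fun e i => (hCk N hNc).1 _ (hell e) i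
  have segS := (hCk N hNc).2 _ hΘ
  have lipD := fun (e : Fin 2) (i : Fin 3) (m : ℕ) (hm : 1 ≤ m) => ll04a_seg llBase F hA1 (segD e i) (hell0 e) (fun γ t => ll04a_dir_a F N _ i γ t) hm s
  have lipS := fun (m : ℕ) (hm : 1 ≤ m) => ll04a_seg llBase F hA1 segS (a := 4) (by norm_num) (fun γ t => ll04a_siz_a F N _ γ t) hm s
  have kitD := fun (e : Fin 2) (i : Fin 3) (m : ℕ) (hm : 1 ≤ m) => ll04l_kit _ _ (lipD e i m hm)
  have kitS := fun (m : ℕ) (hm : 1 ≤ m) => ll04l_kit _ _ (lipS m hm)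
  have hprob := ll04a_prob N
  -- closeness
  have hclose : ∀ δ : ℝ, 0 < δ → ∀ᶠ Fs : Finset GhPos in atTop,
      (∀ e i γ τ m, 1 ≤ m → |(l9Path F llBase N N' s Fs).dir e i γ τ m - (ll04Path llBase F N N' s).dir e i γ τ m| ≤ δ) ∧
      (∀ γ θ m, 1 ≤ m → |(l9Path F llBase N N' s Fs).siz γ θ m - (ll04Path llBase F N N' s).siz γ θ m| ≤ δ) := by
    intro δ hδ
    obtain ⟨k, hk⟩ := l9g_pow (C3 * skX N ^ (-(1 / 8 : ℝ))) δ hδ
    filter_upwards [eventually_ge_atTop (ghGrid (ll04Ell N N' 0) k ∪ ghGrid (ll04Ell N N' 1) k ∪ ghGrid 4 k ∪ {ghPosA s})] with Fs hFs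
    have hFs' : ghGrid (ll04Ell N N' 0) k ∪ ghGrid (ll04Ell N N' 1) k ∪ ghGrid 4 k ∪ {ghPosA s} ⊆ Fs := hFs
    have g4 : ghGrid 4 k ⊆ Fs := fun x hx => hFs' (by simp [hx])
    have gs : ghPosA s ∈ Fs := hFs' (by simp)
    have ge : ∀ e : Fin 2, ghGrid (ll04Ell N N' e) k ⊆ Fs := by
      intro e x hx
      apply hFs'
      fin_cases e
      · simp only [Finset.mem_union]; exact Or.inl (Or.inl (Or.inl hx))
      · simp only [Finset.mem_union]; exact Or.inl (Or.inl (Or.inr hx))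
    refine ⟨fun e i γ τ m hm => ?_, fun γ θ m hm => ?_⟩
    · have ea := ll04a_dir_a F N (ll04Ell N N' e) i γ τ
      refine (l9g_pt F (ll04Dir F N (ll04Ell N N' e) i γ τ) hs0 (by rw [ea]; exact hs1.le.trans (hell e).1) (by rw [ea]; exact hell4 e)
        ((segD e i).adm_b γ τ) ((segD e i).adm_h γ τ) ((segD e i).bd γ τ) k (by rw [ea]; exact ge e) gs hm).trans hk
    · have ea := ll04a_siz_a F N (Real.log ((N' : ℝ) / N)) γ θ
      refine (l9g_pt F (ll04Siz F N (Real.log ((N' : ℝ) / N)) γ θ) hs0 (by rw [ea]; linarith) (by rw [ea])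
        (segS.adm_b γ θ) (segS.adm_h γ θ) (segS.bd γ θ) k (by rw [ea]; exact g4) gs hm).trans hk
  have h34 : (3 : ℝ) * (4 / 3 * L) = 4 * L := by ring
  refine ⟨fun e i m h1 h2 => ?_, fun W hWc hW0 hW1 hWs => ?_⟩
  · have hm1 : 1 ≤ m := by omega
    have key := l9s_dir (ll04Mu N) (fun γ τ => (ll04Path llBase F N N' s).dir e i γ τ m) (s * m) L (C * skX N ^ (5 + c0)) (C3 * skX N ^ (-(1 / 8 : ℝ)))
      (by positivity) hL
      (fun τ => ((kitD e i m hm1).1.comp (Continuous.prodMk continuous_id continuous_const)).measurable)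
      (fun γ τ _ τ' _ => by
        have := lipD e i m hm1 γ γ τ τ'
        rw [dist_self, add_zero] at this
        exact this)
      (fun δ hδ => by
        obtain ⟨Fs, hF, hc⟩ := (hcore.and (hclose δ hδ)).exists
        refine ⟨fun γ τ => (l9Path F llBase N N' s Fs).dir e i γ τ m, fun γ τ _ => hc.1 e i γ τ m hm1, fun γ => hF.ac_dir e i γ m h1 h2, ?_, ?_⟩
        · have := hF.int_dir e i m h1 h2
          rw [l9g_aD _ _ _ _ _ _ _ h34] at this
          exact this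
        · have := hF.inc_dir e i m h1 h2
          rw [l9g_aD _ _ _ _ _ _ _ h34] at this
          exact this)
    rw [l9g_aD _ _ _ _ _ _ _ rfl]
    exact key
  · have key := l9s_siz (ll04Mu N) (fun γ θ m => (ll04Path llBase F N N' s).siz γ θ m) s L (C * skX N ^ (5 + c0)) (C3 * skX N ^ (-(1 / 8 : ℝ)))
      (Real.log ((N' : ℝ) / N)) r (3 * N + 1) c {m | N ≤ 2 * m ∧ m ≤ 3 * N} hs0.le hL hΘ.1
      (fun θ m hm => ((kitS m (by have := hm.1; omega)).1.comp (Continuous.prodMk continuous_id continuous_const)).measurable)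
      (fun γ m hm θ _ θ' _ => by
        have := lipS m (by have := hm.1; omega) γ γ θ θ'
        rw [dist_self, add_zero] at this
        exact this)
      W hWc hW0
      (fun m θ hW j hj => by
        have := hWs m θ hW
        have hj' := Finset.mem_range.1 hj
        exact ⟨by omega, by omega⟩)
      (fun δ hδ => by
        obtain ⟨Fs, hF, hc⟩ := (hcore.and (hclose δ hδ)).exists
        refine ⟨fun γ θ m => (l9Path F llBase N N' s Fs).siz γ θ m, fun γ m hm θ _ => hc.2 γ θ m (by have := hm.1; omega),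
          fun γ m hm => hF.ac_siz γ m hm.1 hm.2, fun m hm => ?_, ?_⟩
        · have a0 := hm 0 (by simp)
          have ar := hm r (by simp)
          have := hF.int_siz m (by simpa using a0.1) ar.2
          rw [l9g_aS _ _ _ _ _ _ _ h34] at this
          exact this
        · have := hF.inc_siz W hWc hW0 hW1 hWs
          simp only [l9g_aS _ _ _ _ _ _ _ h34] at this
          exact this)
    simp only [l9g_aS _ _ _ _ _ _ _ rfl]
    exact key

end Claimed.Agent.R286
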