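import Mathlib

/-!
# Row 286 (S0533), LL Sec. 9, node GRID, file FD: FINITE DIFFERENCES AT A FIXED STEP      (owner helper263; head of the unit helper60; prefix `l9f`, `L9f`)

WHY.   Sec. 9 runs on ONE chain (decision D1 of 60: the masses do not move with the path parameter, only the clock VALUES do).   The scaling relations (E6), `b∘ χ² = 1`, the Lipschitz
hypotheses of model 2 of `L14Calc` (242) hold on the chain only up to grid errors, which are small in `C⁰` of the path parameter but NOT in `C¹` (the sampled profile is a saw-tooth which moves with `θ`).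
THE TRICK: fix a step `h = h(N)` BEFORE the chain.   On the chain, for a.e. parameter `t`,
    (M)   `|f (t + h) - f t - h f'(t)| ≤ h η`,   `η = C_N (h + mesh) + C e^{-cM}`      (files `L09/GridEng`, `L09/GridK`, `L09/GridM`),
so that `O f = ρ f + f'` is, up to `η`, the FINITE DIFFERENCE operator `l9fO ρ h (f t, f (t+h)) = ρ f(t) + (f(t+h) - f(t))/h`: ONLY VALUES at the two parameters `t, t + h`.
THE STEP IS SIGNED (`h ≠ 0`, sizes `|h|`): near the upper end of the parameter interval take `h < 0`, so that `t + h` stays in the range where LL 03 holds.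
K8 of 242 is then used in MODEL 2 for the PAIR (grid model at `t`, grid model at `t + h`) with `δ = |h|` FIXED (size path), `δ = λ |e^h - 1|` (direct path, `t = log λ`).
Its hypotheses at the scale `h` follow from `C⁰` closeness `≤ h²` of the grid numbers to the continuum numbers + exact scaling of the continuum (owner helper120, `L09/GridE6`).

CONTENTS (Mathlib only, NO sorry).
* §1 `l9fN δ` = the norm of model 2 on `𝕂 = ℝ × ℝ`: `max |x| |x'| + |x - x'| / δ`; `l9fRe`; the fields `nrm_*` of `L14Calc` (for 288: `L09/Mod2`).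
* §2 `l9fO ρ h` the finite difference operator; `l9f_bridge`: (M) ⟹ `|ρ f + f' - l9fO ..| ≤ η`.
* §3 `L9fM K e h n w X`: the pair `X` is a monomial of degree `n` and scaling weight `w` (`X.2 ≈ e^{w h} X.1`) = finite difference form of `L9oM` of 274 (`L09/OStar`); `L9fM.kill`.
* §4 `L9fE6` = (E6) at the step `h`; THE TABLE `tab_21 .. tab_4` for the monomials `mono1, mono2` of `L09/StmM`.      TEX[LL:exp:prop-low-coefficients] ("The coefficients canceled by size rescaling")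
* §5 `l9f_size`, `l9f_direct`: K8 (pair form) ⟹ bound of `l9fO`;   `l9f_size_O`, `l9f_direct_O`: the same for `ρ f + f'`.
* §6 `l9f_e4`: the glue of (E4): (M) for the grouped coefficient + LC1 at `t` and at `t + h` + SKW + §5 ⟹ `|∑ w (ρ c + c')| ≤ (C_W E + η) Vol`.
-/

set_option autoImplicit false

namespace Claimed.Agent.R286

noncomputable section

/-! ## 1. the norm of model 2 -/

/-- norm of a PAIR of numbers (the same number at two references), at the distance `δ` -/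
def l9fN (δ : ℝ) (X : ℝ × ℝ) : ℝ := max |X.1| |X.2| + |X.1 - X.2| / δ

/-- real numbers (masses) as pairs -/
def l9fRe : ℝ →+* ℝ × ℝ := RingHom.prod (RingHom.id ℝ) (RingHom.id ℝ)

/-- the operator `ρ + ∂` in finite difference form, step `h` -/
def l9fO (ρ h : ℝ) (X : ℝ × ℝ) : ℝ := ρ * X.1 + (X.2 - X.1) / h

end

theorem l9f_fd_eqns_cite : True := by
  have := @l9fN.eq_1
  have := @l9fRe.eq_1
  have := @l9fO.eq_1
  trivial

@[simp] theorem l9fRe_fst (r : ℝ) : (l9fRe r).1 = r := rfl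
@[simp] theorem l9fRe_snd (r : ℝ) : (l9fRe r).2 = r := rfl

theorem l9fN_nonneg {δ : ℝ} (hδ : 0 ≤ δ) (X : ℝ × ℝ) : 0 ≤ l9fN δ X := by
  unfold l9fN
  have h1 : 0 ≤ max |X.1| |X.2| := le_max_of_le_left (abs_nonneg _)
  have h2 : 0 ≤ |X.1 - X.2| / δ := div_nonneg (abs_nonneg _) hδ
  linarith

theorem l9f_max_le {δ : ℝ} (hδ : 0 ≤ δ) (X : ℝ × ℝ) : max |X.1| |X.2| ≤ l9fN δ X := by
  unfold l9fN
  have h2 : 0 ≤ |X.1 - X.2| / δ := div_nonneg (abs_nonneg _) hδ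
  linarith

theorem l9f_fst_le {δ : ℝ} (hδ : 0 ≤ δ) (X : ℝ × ℝ) : |X.1| ≤ l9fN δ X := (le_max_left _ _).trans (l9f_max_le hδ X)

theorem l9f_snd_le {δ : ℝ} (hδ : 0 ≤ δ) (X : ℝ × ℝ) : |X.2| ≤ l9fN δ X := (le_max_right _ _).trans (l9f_max_le hδ X)

theorem l9f_quo_le (δ : ℝ) (X : ℝ × ℝ) : |X.1 - X.2| / δ ≤ l9fN δ X := by
  unfold l9fN
  have h1 : 0 ≤ max |X.1| |X.2| := le_max_of_le_left (abs_nonneg _)
  linarith

theorem l9f_dif_le {δ : ℝ} (hδ : 0 < δ) (X : ℝ × ℝ) : |X.2 - X.1| ≤ δ * l9fN δ X := by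
  have h := l9f_quo_le δ X
  rw [div_le_iff₀ hδ] at h
  rw [abs_sub_comm]
  linarith

/-- how to bound the norm -/
theorem l9fN_le {δ A D : ℝ} (hδ : 0 < δ) {X : ℝ × ℝ} (h1 : |X.1| ≤ A) (h2 : |X.2| ≤ A) (h3 : |X.1 - X.2| ≤ δ * D) : l9fN δ X ≤ A + D := by
  unfold l9fN
  have h4 : |X.1 - X.2| / δ ≤ D := by rw [div_le_iff₀ hδ]; linarith
  exact add_le_add (max_le h1 h2) h4

theorem l9fN_add {δ : ℝ} (hδ : 0 ≤ δ) (X Y : ℝ × ℝ) : l9fN δ (X + Y) ≤ l9fN δ X + l9fN δ Y := by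
  unfold l9fN
  have h1 : max |(X + Y).1| |(X + Y).2| ≤ max |X.1| |X.2| + max |Y.1| |Y.2| := by
    refine max_le ?_ ?_
    · exact (abs_add_le _ _).trans (add_le_add (le_max_left _ _) (le_max_left _ _))
    · exact (abs_add_le _ _).trans (add_le_add (le_max_right _ _) (le_max_right _ _))
  have h2 : |(X + Y).1 - (X + Y).2| / δ ≤ |X.1 - X.2| / δ + |Y.1 - Y.2| / δ := by
    rw [← add_div]
    refine div_le_div_of_nonneg_right ?_ hδ
    have : (X + Y).1 - (X + Y).2 = (X.1 - X.2) + (Y.1 - Y.2) := by simp only [Prod.fst_add, Prod.snd_add]; ring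
    rw [this]
    exact abs_add_le _ _
  linarith

theorem l9fN_mul {δ : ℝ} (hδ : 0 ≤ δ) (X Y : ℝ × ℝ) : l9fN δ (X * Y) ≤ l9fN δ X * l9fN δ Y := by
  unfold l9fN
  set a := max |X.1| |X.2| with ha
  set b := max |Y.1| |Y.2| with hb
  have ha0 : 0 ≤ a := le_max_of_le_left (abs_nonneg _)
  have hb0 : 0 ≤ b := le_max_of_le_left (abs_nonneg _)
  have hx1 : |X.1| ≤ a := le_max_left _ _
  have hx2 : |X.2| ≤ a := le_max_right _ _
  have hy1 : |Y.1| ≤ b := le_max_left _ _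
  have hy2 : |Y.2| ≤ b := le_max_right _ _
  have h1 : max |(X * Y).1| |(X * Y).2| ≤ a * b := by
    refine max_le ?_ ?_
    · rw [Prod.fst_mul, abs_mul]; exact mul_le_mul hx1 hy1 (abs_nonneg _) ha0
    · rw [Prod.snd_mul, abs_mul]; exact mul_le_mul hx2 hy2 (abs_nonneg _) ha0
  have h2 : |(X * Y).1 - (X * Y).2| ≤ a * |Y.1 - Y.2| + |X.1 - X.2| * b := by
    have : (X * Y).1 - (X * Y).2 = X.1 * (Y.1 - Y.2) + (X.1 - X.2) * Y.2 := by
      simp only [Prod.fst_mul, Prod.snd_mul]; ring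
    rw [this]
    refine (abs_add_le _ _).trans (add_le_add ?_ ?_)
    · rw [abs_mul]; exact mul_le_mul_of_nonneg_right hx1 (abs_nonneg _)
    · rw [abs_mul]; exact mul_le_mul_of_nonneg_left hy2 (abs_nonneg _)
  have h3 : |(X * Y).1 - (X * Y).2| / δ ≤ a * (|Y.1 - Y.2| / δ) + (|X.1 - X.2| / δ) * b := by
    have := div_le_div_of_nonneg_right h2 hδ
    refine this.trans (le_of_eq ?_)
    ring
  have h4 : 0 ≤ (|X.1 - X.2| / δ) * (|Y.1 - Y.2| / δ) :=
    mul_nonneg (div_nonneg (abs_nonneg _) hδ) (div_nonneg (abs_nonneg _) hδ)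
  nlinarith

theorem l9fN_re (δ r : ℝ) : l9fN δ (l9fRe r) = |r| := by
  unfold l9fN
  simp

theorem l9fN_neg (δ : ℝ) (X : ℝ × ℝ) : l9fN δ (-X) = l9fN δ X := by
  unfold l9fN
  have : (-X).1 - (-X).2 = -(X.1 - X.2) := by simp only [Prod.fst_neg, Prod.snd_neg]; ring
  rw [this, abs_neg, Prod.fst_neg, Prod.snd_neg, abs_neg, abs_neg]

theorem l9fN_sub {δ : ℝ} (hδ : 0 ≤ δ) (X Y : ℝ × ℝ) : l9fN δ (X - Y) ≤ l9fN δ X + l9fN δ Y := by
  rw [sub_eq_add_neg, ← l9fN_neg δ Y]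
  exact l9fN_add hδ X (-Y)

/-! ## 2. the finite difference operator -/

theorem l9fO_add (ρ h : ℝ) (X Y : ℝ × ℝ) : l9fO ρ h (X + Y) = l9fO ρ h X + l9fO ρ h Y := by
  unfold l9fO
  simp only [Prod.fst_add, Prod.snd_add]
  ring

theorem l9fO_sub (ρ h : ℝ) (X Y : ℝ × ℝ) : l9fO ρ h (X - Y) = l9fO ρ h X - l9fO ρ h Y := by
  unfold l9fO
  simp only [Prod.fst_sub, Prod.snd_sub]
  ring

theorem l9fO_re_mul (ρ h a : ℝ) (X : ℝ × ℝ) : l9fO ρ h (l9fRe a * X) = a * l9fO ρ h X := by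
  unfold l9fO
  simp only [Prod.fst_mul, Prod.snd_mul, l9fRe_fst, l9fRe_snd]
  ring

/-- the operator is bounded by the norm -/
theorem l9fO_le {δ h : ℝ} (hδ : 0 < δ) (hh : h ≠ 0) (ρ : ℝ) (X : ℝ × ℝ) : |l9fO ρ h X| ≤ (|ρ| + δ / |h|) * l9fN δ X := by
  unfold l9fO
  have hp : 0 < |h| := abs_pos.2 hh
  have h1 : |ρ * X.1| ≤ |ρ| * l9fN δ X := by
    rw [abs_mul]; exact mul_le_mul_of_nonneg_left (l9f_fst_le hδ.le X) (abs_nonneg _)
  have h2 : |(X.2 - X.1) / h| ≤ δ / |h| * l9fN δ X := by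
    rw [abs_div, div_le_iff₀ hp]
    have := l9f_dif_le hδ X
    have e : δ / |h| * l9fN δ X * |h| = δ * l9fN δ X := by field_simp
    rw [e]; exact this
  calc |ρ * X.1 + (X.2 - X.1) / h| ≤ |ρ * X.1| + |(X.2 - X.1) / h| := abs_add_le _ _
    _ ≤ |ρ| * l9fN δ X + δ / |h| * l9fN δ X := add_le_add h1 h2
    _ = (|ρ| + δ / |h|) * l9fN δ X := by ring

/-- **(M) ⟹ the operator `ρ + ∂` is the finite difference operator up to `η`** -/
theorem l9f_bridge {f : ℝ → ℝ} {t h η f' : ℝ} (hh : h ≠ 0) (hM : |f (t + h) - f t - h * f'| ≤ |h| * η) (ρ : ℝ) :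
    |ρ * f t + f' - l9fO ρ h (f t, f (t + h))| ≤ η := by
  unfold l9fO
  have hp : 0 < |h| := abs_pos.2 hh
  have e : ρ * f t + f' - (ρ * f t + (f (t + h) - f t) / h) = -((f (t + h) - f t - h * f') / h) := by
    field_simp
    ring
  rw [e, abs_neg, abs_div, div_le_iff₀ hp]
  linarith

/-! ## 3. monomials -/

/-- the pair `X` is a monomial of degree `n` and scaling weight `w` in letters of size `≤ K` whose scaling defects at the step `h` are `≤ K² e |h|` -/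
structure L9fM (K e h : ℝ) (n : ℕ) (w : ℝ) (X : ℝ × ℝ) : Prop where
  v1 : |X.1| ≤ K ^ n
  v2 : |X.2| ≤ K ^ n
  v3 : Real.exp (w * h) * |X.1| ≤ K ^ n
  dfc : |X.2 - Real.exp (w * h) * X.1| ≤ n * K ^ (n + 1) * (e * |h|)

namespace L9fM

variable {K e h w w' : ℝ} {n m : ℕ} {X Y : ℝ × ℝ}

theorem mul (hX : L9fM K e h n w X) (hY : L9fM K e h m w' Y) : L9fM K e h (n + m) (w + w') (X * Y) := by
  have hKn : 0 ≤ K ^ n := (abs_nonneg _).trans hX.v1
  have hKm : 0 ≤ K ^ m := (abs_nonneg _).trans hY.v1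
  refine ⟨?_, ?_, ?_, ?_⟩
  · rw [Prod.fst_mul, abs_mul, pow_add]
    exact mul_le_mul hX.v1 hY.v1 (abs_nonneg _) hKn
  · rw [Prod.snd_mul, abs_mul, pow_add]
    exact mul_le_mul hX.v2 hY.v2 (abs_nonneg _) hKn
  · rw [Prod.fst_mul, abs_mul, pow_add, add_mul, Real.exp_add]
    have : Real.exp (w * h) * Real.exp (w' * h) * (|X.1| * |Y.1|) = (Real.exp (w * h) * |X.1|) * (Real.exp (w' * h) * |Y.1|) := by ring
    rw [this]
    exact mul_le_mul hX.v3 hY.v3 (mul_nonneg (Real.exp_pos _).le (abs_nonneg _)) hKn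
  · have e1 : (X * Y).2 - Real.exp ((w + w') * h) * (X * Y).1
        = X.2 * (Y.2 - Real.exp (w' * h) * Y.1) + (Real.exp (w' * h) * Y.1) * (X.2 - Real.exp (w * h) * X.1) := by
      rw [add_mul, Real.exp_add]
      simp only [Prod.fst_mul, Prod.snd_mul]
      ring
    rw [e1]
    have h1 : |X.2 * (Y.2 - Real.exp (w' * h) * Y.1)| ≤ K ^ n * (m * K ^ (m + 1) * (e * |h|)) := by
      rw [abs_mul]
      exact mul_le_mul hX.v2 hY.dfc (abs_nonneg _) hKn
    have h2 : |(Real.exp (w' * h) * Y.1) * (X.2 - Real.exp (w * h) * X.1)| ≤ K ^ m * (n * K ^ (n + 1) * (e * |h|)) := by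
      rw [abs_mul, abs_mul, abs_of_pos (Real.exp_pos _)]
      exact mul_le_mul hY.v3 hX.dfc (abs_nonneg _) hKm
    refine (abs_add_le _ _).trans ((add_le_add h1 h2).trans (le_of_eq ?_))
    push_cast
    ring

theorem one : L9fM K e h 0 0 (1 : ℝ × ℝ) := by
  refine ⟨?_, ?_, ?_, ?_⟩ <;> simp

theorem pow (hX : L9fM K e h n w X) (p : ℕ) : L9fM K e h (p * n) (p * w) (X ^ p) := by
  induction p with
  | zero => simpa using (one : L9fM K e h 0 0 (1 : ℝ × ℝ))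
  | succ p ih =>
    have := ih.mul hX
    rw [pow_succ]
    have e1 : (p + 1) * n = p * n + n := by ring
    have e2 : ((p + 1 : ℕ) : ℝ) * w = p * w + w := by push_cast; ring
    rw [e1, e2]
    exact this

theorem cast {n' : ℕ} {w'' : ℝ} (hX : L9fM K e h n w X) (hn : n = n') (hw : w = w'') : L9fM K e h n' w'' X := by
  subst hn; subst hw; exact hX

/-- a letter -/
theorem letter (hK : 1 ≤ K) (he : 0 ≤ e) (h1 : |X.1| ≤ K) (h2 : |X.2| ≤ K) (h3 : Real.exp (w * h) * |X.1| ≤ K)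
    (h4 : |X.2 - Real.exp (w * h) * X.1| ≤ e * |h|) : L9fM K e h 1 w X := by
  refine ⟨by simpa using h1, by simpa using h2, by simpa using h3, ?_⟩
  have : e * |h| ≤ K ^ 2 * (e * |h|) := le_mul_of_one_le_left (mul_nonneg he (abs_nonneg _)) (one_le_pow₀ hK)
  simpa using h4.trans this

/-- the inverse of a letter -/
theorem letter_inv {U : ℝ × ℝ} (hU : U * X = 1) (h1 : |U.1| ≤ K) (h2 : |U.2| ≤ K) (h3 : Real.exp (-w * h) * |U.1| ≤ K)
    (h4 : |X.2 - Real.exp (w * h) * X.1| ≤ e * |h|) : L9fM K e h 1 (-w) U := by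
  refine ⟨by simpa using h1, by simpa using h2, by simpa using h3, ?_⟩
  have hf : U.1 * X.1 = 1 := by simpa using congrArg Prod.fst hU
  have hs : U.2 * X.2 = 1 := by simpa using congrArg Prod.snd hU
  have hee : Real.exp (-w * h) * Real.exp (w * h) = 1 := by rw [← Real.exp_add]; simp
  have e1 : U.2 - Real.exp (-w * h) * U.1 = -((Real.exp (-w * h) * U.1) * U.2 * (X.2 - Real.exp (w * h) * X.1)) := by
    have : (Real.exp (-w * h) * U.1) * U.2 * (X.2 - Real.exp (w * h) * X.1)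
        = Real.exp (-w * h) * U.1 * (U.2 * X.2) - (Real.exp (-w * h) * Real.exp (w * h)) * U.2 * (U.1 * X.1) := by ring
    rw [this, hf, hs, hee]
    ring
  have hK0 : 0 ≤ K := (abs_nonneg _).trans h1
  rw [e1, abs_neg, abs_mul, abs_mul, abs_mul, abs_of_pos (Real.exp_pos _)]
  have h5 : Real.exp (-w * h) * |U.1| * |U.2| ≤ K * K := mul_le_mul h3 h2 (abs_nonneg _) hK0
  have h6 := mul_le_mul h5 h4 (abs_nonneg _) (mul_nonneg hK0 hK0)
  refine h6.trans (le_of_eq ?_)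
  push_cast
  ring

/-- **the finite difference operator of the matching weight kills the monomial** -/
theorem kill (hX : L9fM K e h n w X) (hh : h ≠ 0) (hw : |w * h| ≤ 1) {ρ : ℝ} (hρ : w = -ρ) :
    |l9fO ρ h X| ≤ n * K ^ (n + 1) * e + K ^ n * w ^ 2 * |h| := by
  unfold l9fO
  have hp : 0 < |h| := abs_pos.2 hh
  have e1 : ρ * X.1 + (X.2 - X.1) / h
      = ((X.2 - Real.exp (w * h) * X.1) + (Real.exp (w * h) - 1 - w * h) * X.1) / h := by
    rw [show ρ = -w by rw [hρ]; ring]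
    field_simp
    ring
  rw [e1, abs_div, div_le_iff₀ hp]
  have h1 := Real.abs_exp_sub_one_sub_id_le hw
  have h2 : |(Real.exp (w * h) - 1 - w * h) * X.1| ≤ (w * h) ^ 2 * K ^ n := by
    rw [abs_mul]
    exact mul_le_mul h1 hX.v1 (abs_nonneg _) (sq_nonneg _)
  refine (abs_add_le _ _).trans ((add_le_add hX.dfc h2).trans (le_of_eq ?_))
  have h3 : (w * h) ^ 2 = w ^ 2 * (|h| * |h|) := by rw [abs_mul_abs_self]; ring
  rw [h3]
  ring

/-- norm of a monomial at the distance `|h|` -/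
theorem nrm_le (hX : L9fM K e h n w X) (hh : h ≠ 0) (hw : |w * h| ≤ 1) :
    l9fN |h| X ≤ K ^ n + (n * K ^ (n + 1) * e + 2 * |w| * K ^ n) := by
  have hp : 0 < |h| := abs_pos.2 hh
  refine l9fN_le hp hX.v1 hX.v2 ?_
  have e1 : X.1 - X.2 = -(X.2 - Real.exp (w * h) * X.1) - (Real.exp (w * h) - 1) * X.1 := by ring
  have h1 : |Real.exp (w * h) - 1| ≤ 2 * |w * h| := Real.abs_exp_sub_one_le hw
  have h2 : |(Real.exp (w * h) - 1) * X.1| ≤ 2 * |w * h| * K ^ n := by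
    rw [abs_mul]
    exact mul_le_mul h1 hX.v1 (abs_nonneg _) (by positivity)
  rw [e1]
  refine (abs_sub _ _).trans ?_
  rw [abs_neg]
  refine (add_le_add hX.dfc h2).trans (le_of_eq ?_)
  rw [abs_mul]
  ring

end L9fM

/-! ## 4. (E6) at the step `h` and the table -/

/-- the scalar jets on a size path at the two parameters `θ, θ + h` ((E6) = S8 at the step `h`): `χ ~ ℓ`, `g ~ ℓ³`, `k0 ~ ℓ⁻³`, `b∘ χ² = 1`, up to `e |h|`.
INSTANCE: the pair of grid models (owner helper120, `L09/GridE6`); `e = C e^{-cM} + 4 sl0 / |h|`, `sl0` = `C⁰` distance of the grid jets to the continuum jets. -/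
structure L9fE6 (K e h : ℝ) (χ bo g k : ℝ × ℝ) : Prop where
  hK : 1 ≤ K
  he : 0 ≤ e
  hh : h ≠ 0
  hh1 : |h| ≤ 1
  inv : bo * χ ^ 2 = 1
  bχ : |χ.1| ≤ K ∧ |χ.2| ≤ K
  bb : |bo.1| ≤ K ∧ |bo.2| ≤ K
  bg : |g.1| ≤ K ∧ |g.2| ≤ K
  bk : |k.1| ≤ K ∧ |k.2| ≤ K
  dχ : |χ.2 - Real.exp (1 / 6 * h) * χ.1| ≤ e * |h|
  dg : |g.2 - Real.exp (1 / 2 * h) * g.1| ≤ e * |h|
  dk : |k.2 - Real.exp (-(1 / 2) * h) * k.1| ≤ e * |h|

theorem l9f_exp_le_two {w h : ℝ} (hw : |w| ≤ 1 / 2) (hh1 : |h| ≤ 1) : Real.exp (w * h) ≤ 2 := by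
  have h1 : w * h ≤ 1 / 2 := by
    have h0 : |w * h| ≤ 1 / 2 * 1 := by
      rw [abs_mul]; exact mul_le_mul hw hh1 (abs_nonneg _) (by norm_num)
    linarith [le_abs_self (w * h)]
  have h2 : Real.exp (w * h) ≤ Real.exp (1 / 2) := Real.exp_le_exp.2 h1
  have h3 : Real.exp (1 / 2 : ℝ) ≤ 2 := by
    have h4 : Real.exp (1 / 2 : ℝ) ^ 2 = Real.exp 1 := by rw [← Real.exp_nat_mul]; norm_num
    have h5 := Real.exp_one_lt_d9
    have h6 := (Real.exp_pos (1 / 2 : ℝ)).le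
    nlinarith
  exact h2.trans h3

namespace L9fE6

variable {K e h : ℝ} {χ bo g k : ℝ × ℝ}

theorem two (H : L9fE6 K e h χ bo g k) : 1 ≤ 2 * K := by linarith [H.hK]

theorem aux (H : L9fE6 K e h χ bo g k) {w x : ℝ} (hw : |w| ≤ 1 / 2) (hx : |x| ≤ K) : Real.exp (w * h) * |x| ≤ 2 * K :=
  mul_le_mul (l9f_exp_le_two hw H.hh1) hx (abs_nonneg _) (by norm_num)

theorem up (H : L9fE6 K e h χ bo g k) {x : ℝ} (hx : |x| ≤ K) : |x| ≤ 2 * K := by linarith [H.hK]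

theorem mχ (H : L9fE6 K e h χ bo g k) : L9fM (2 * K) e h 1 (1 / 6) χ :=
  L9fM.letter H.two H.he (H.up H.bχ.1) (H.up H.bχ.2) (H.aux (by rw [abs_le]; constructor <;> norm_num) H.bχ.1) H.dχ

theorem mg (H : L9fE6 K e h χ bo g k) : L9fM (2 * K) e h 1 (1 / 2) g :=
  L9fM.letter H.two H.he (H.up H.bg.1) (H.up H.bg.2) (H.aux (by rw [abs_le]; constructor <;> norm_num) H.bg.1) H.dg

theorem mk0 (H : L9fE6 K e h χ bo g k) : L9fM (2 * K) e h 1 (-(1 / 2)) k :=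
  L9fM.letter H.two H.he (H.up H.bk.1) (H.up H.bk.2) (H.aux (by rw [abs_le]; constructor <;> norm_num) H.bk.1) H.dk

/-- `b∘ = u²`, `u = b∘ χ` the inverse of `χ` -/
theorem mb (H : L9fE6 K e h χ bo g k) : L9fM (2 * K) e h 2 (-(1 / 3)) bo := by
  have hK0 : 0 ≤ K := by linarith [H.hK]
  have hu : (bo * χ) * χ = 1 := by rw [mul_assoc, ← sq]; exact H.inv
  have hb : bo = (bo * χ) ^ 2 := by
    calc bo = bo * 1 := (mul_one _).symm
      _ = bo * (bo * χ ^ 2) := by rw [H.inv]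
      _ = (bo * χ) ^ 2 := by ring
  -- size of `u`: `u² = b∘`
  have hs : ∀ x : ℝ, x ^ 2 ≤ K → |x| ≤ K := by
    intro x hx
    have h1 : |x| ^ 2 ≤ K := by rwa [sq_abs]
    nlinarith [abs_nonneg x, H.hK]
  have h1 : |(bo * χ).1| ≤ K := by
    apply hs
    have : (bo * χ).1 ^ 2 = bo.1 := by
      have := congrArg Prod.fst hb
      simpa using this.symm
    rw [this]
    exact (le_abs_self _).trans H.bb.1
  have h2 : |(bo * χ).2| ≤ K := by
    apply hs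
    have : (bo * χ).2 ^ 2 = bo.2 := by
      have := congrArg Prod.snd hb
      simpa using this.symm
    rw [this]
    exact (le_abs_self _).trans H.bb.2
  have hm : L9fM (2 * K) e h 1 (-(1 / 6)) (bo * χ) :=
    L9fM.letter_inv hu (H.up h1) (H.up h2) (H.aux (by rw [abs_le]; constructor <;> norm_num) h1) H.dχ
  rw [hb]
  exact (hm.pow 2).cast (by norm_num) (by norm_num)

/-- `j = 2`, `mono1`: `b∘² χ³ k0 ~ ℓ⁻⁴` -/
theorem tab_21 (H : L9fE6 K e h χ bo g k) : L9fM (2 * K) e h 8 (-(1 - 2 / 6)) (bo ^ 2 * χ ^ 3 * k) :=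
  (((H.mb.pow 2).mul (H.mχ.pow 3)).mul H.mk0).cast (by norm_num) (by norm_num)

/-- `j = 2`, `mono2`: `b∘² g² k0² ~ ℓ⁻⁴` -/
theorem tab_22 (H : L9fE6 K e h χ bo g k) : L9fM (2 * K) e h 8 (-(1 - 2 / 6)) (bo ^ 2 * g ^ 2 * k ^ 2) :=
  (((H.mb.pow 2).mul (H.mg.pow 2)).mul (H.mk0.pow 2)).cast (by norm_num) (by norm_num)

/-- `j = 3`, `mono1`: `b∘³ χ³ ~ ℓ⁻³` -/
theorem tab_31 (H : L9fE6 K e h χ bo g k) : L9fM (2 * K) e h 9 (-(1 - 3 / 6)) (bo ^ 3 * χ ^ 3) :=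
  ((H.mb.pow 3).mul (H.mχ.pow 3)).cast (by norm_num) (by norm_num)

/-- `j = 3`, `mono2`: `b∘³ g² k0 ~ ℓ⁻³` -/
theorem tab_32 (H : L9fE6 K e h χ bo g k) : L9fM (2 * K) e h 9 (-(1 - 3 / 6)) (bo ^ 3 * g ^ 2 * k) :=
  (((H.mb.pow 3).mul (H.mg.pow 2)).mul H.mk0).cast (by norm_num) (by norm_num)

/-- `j = 4`, `mono1`: `b∘⁴ g² ~ ℓ⁻²` -/
theorem tab_4 (H : L9fE6 K e h χ bo g k) : L9fM (2 * K) e h 10 (-(1 - 4 / 6)) (bo ^ 4 * g ^ 2) :=
  ((H.mb.pow 4).mul (H.mg.pow 2)).cast (by norm_num) (by norm_num)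

end L9fE6

/-- the zero pair is a monomial of every degree and weight (`mono2 4 = 0`) -/
theorem L9fM.zero {K e : ℝ} (hK : 0 ≤ K) (he : 0 ≤ e) (h : ℝ) (n : ℕ) (w : ℝ) : L9fM K e h n w (0 : ℝ × ℝ) := by
  refine ⟨?_, ?_, ?_, ?_⟩
  · simpa using pow_nonneg hK n
  · simpa using pow_nonneg hK n
  · simpa using pow_nonneg hK n
  · simp only [Prod.snd_zero, Prod.fst_zero, mul_zero, sub_zero, abs_zero]
    positivity

/-! ## 5. from K8 (pair form) to the operator -/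

/-- **size path**: main monomials of the matching weight + remainder small in the norm of model 2 at `δ = |h|` -/
theorem l9f_size {K e h E a a' ρ : ℝ} {n1 n2 : ℕ} {X M1 M2 : ℝ × ℝ} (hh : h ≠ 0) (hh1 : |h| ≤ 1) (hρ : |ρ| ≤ 1)
    (h1 : L9fM K e h n1 (-ρ) M1) (h2 : L9fM K e h n2 (-ρ) M2)
    (hR : l9fN |h| (X - (l9fRe a * M1 + l9fRe a' * M2)) ≤ E) :
    |l9fO ρ h X| ≤ 2 * E + |a| * (n1 * K ^ (n1 + 1) * e + K ^ n1 * ρ ^ 2 * |h|)
      + |a'| * (n2 * K ^ (n2 + 1) * e + K ^ n2 * ρ ^ 2 * |h|) := by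
  have hp : 0 < |h| := abs_pos.2 hh
  have hw : |-ρ * h| ≤ 1 := by
    rw [abs_mul, abs_neg]
    calc |ρ| * |h| ≤ 1 * 1 := mul_le_mul hρ hh1 hp.le zero_le_one
      _ = 1 := one_mul 1
  have k1 := h1.kill hh hw (ρ := ρ) rfl
  have k2 := h2.kill hh hw (ρ := ρ) rfl
  have e1 : l9fO ρ h X = l9fO ρ h (X - (l9fRe a * M1 + l9fRe a' * M2)) + (a * l9fO ρ h M1 + a' * l9fO ρ h M2) := by
    rw [l9fO_sub, l9fO_add, l9fO_re_mul, l9fO_re_mul]; ring
  have k0 : |l9fO ρ h (X - (l9fRe a * M1 + l9fRe a' * M2))| ≤ 2 * E := by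
    refine (l9fO_le hp hh ρ _).trans ?_
    rw [div_self hp.ne']
    have hN := l9fN_nonneg hp.le (X - (l9fRe a * M1 + l9fRe a' * M2))
    nlinarith [abs_nonneg ρ]
  have k1' : |a * l9fO ρ h M1| ≤ |a| * (n1 * K ^ (n1 + 1) * e + K ^ n1 * ρ ^ 2 * |h|) := by
    rw [abs_mul]
    refine mul_le_mul_of_nonneg_left (k1.trans (le_of_eq ?_)) (abs_nonneg _)
    ring
  have k2' : |a' * l9fO ρ h M2| ≤ |a'| * (n2 * K ^ (n2 + 1) * e + K ^ n2 * ρ ^ 2 * |h|) := by
    rw [abs_mul]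
    refine mul_le_mul_of_nonneg_left (k2.trans (le_of_eq ?_)) (abs_nonneg _)
    ring
  rw [e1]
  calc _ ≤ |l9fO ρ h (X - (l9fRe a * M1 + l9fRe a' * M2))| + |a * l9fO ρ h M1 + a' * l9fO ρ h M2| := abs_add_le _ _
    _ ≤ |l9fO ρ h (X - (l9fRe a * M1 + l9fRe a' * M2))| + (|a * l9fO ρ h M1| + |a' * l9fO ρ h M2|) :=
        add_le_add le_rfl (abs_add_le _ _)
    _ ≤ _ := by linarith

/-- **direct path** (`t = log λ`, `δ = λ |e^h - 1|` = distance of the two strengths): nothing is killed, the factor `δ / |h| ≈ λ` is the gain -/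
theorem l9f_direct {δ h E a a' A : ℝ} {X M1 M2 : ℝ × ℝ} (hδ : 0 < δ) (hh : h ≠ 0)
    (h1 : l9fN δ M1 ≤ A) (h2 : l9fN δ M2 ≤ A) (hR : l9fN δ (X - (l9fRe a * M1 + l9fRe a' * M2)) ≤ E) :
    |l9fO 0 h X| ≤ δ / |h| * (E + (|a| + |a'|) * A) := by
  have hp : 0 < |h| := abs_pos.2 hh
  have hX : l9fN δ X ≤ E + (|a| + |a'|) * A := by
    have e1 : X = (X - (l9fRe a * M1 + l9fRe a' * M2)) + (l9fRe a * M1 + l9fRe a' * M2) := by ring
    have k1 : l9fN δ (l9fRe a * M1) ≤ |a| * A := by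
      refine (l9fN_mul hδ.le _ _).trans ?_
      rw [l9fN_re]
      exact mul_le_mul_of_nonneg_left h1 (abs_nonneg _)
    have k2 : l9fN δ (l9fRe a' * M2) ≤ |a'| * A := by
      refine (l9fN_mul hδ.le _ _).trans ?_
      rw [l9fN_re]
      exact mul_le_mul_of_nonneg_left h2 (abs_nonneg _)
    have k3 := l9fN_add hδ.le (X - (l9fRe a * M1 + l9fRe a' * M2)) (l9fRe a * M1 + l9fRe a' * M2)
    have k4 := l9fN_add hδ.le (l9fRe a * M1) (l9fRe a' * M2)
    rw [← e1] at k3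
    linarith
  have := l9fO_le hδ hh 0 X
  rw [abs_zero, zero_add] at this
  exact this.trans (mul_le_mul_of_nonneg_left hX (div_pos hδ hp).le)

/-- size path, for the true operator -/
theorem l9f_size_O {f : ℝ → ℝ} {t f' η K e h E a a' ρ : ℝ} {n1 n2 : ℕ} {M1 M2 : ℝ × ℝ} (hh : h ≠ 0) (hh1 : |h| ≤ 1) (hρ : |ρ| ≤ 1)
    (hM : |f (t + h) - f t - h * f'| ≤ |h| * η)
    (h1 : L9fM K e h n1 (-ρ) M1) (h2 : L9fM K e h n2 (-ρ) M2)
    (hR : l9fN |h| ((f t, f (t + h)) - (l9fRe a * M1 + l9fRe a' * M2)) ≤ E) :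
    |ρ * f t + f'| ≤ η + 2 * E + |a| * (n1 * K ^ (n1 + 1) * e + K ^ n1 * ρ ^ 2 * |h|)
      + |a'| * (n2 * K ^ (n2 + 1) * e + K ^ n2 * ρ ^ 2 * |h|) := by
  have k1 := l9f_bridge hh hM ρ
  have k2 := l9f_size hh hh1 hρ h1 h2 hR
  have k3 : |ρ * f t + f'| ≤ |ρ * f t + f' - l9fO ρ h (f t, f (t + h))| + |l9fO ρ h (f t, f (t + h))| := by
    have := abs_add_le (ρ * f t + f' - l9fO ρ h (f t, f (t + h))) (l9fO ρ h (f t, f (t + h)))
    simpa using this
  linarith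

/-- direct path, for the true operator -/
theorem l9f_direct_O {f : ℝ → ℝ} {t f' η δ h E a a' A : ℝ} {M1 M2 : ℝ × ℝ} (hδ : 0 < δ) (hh : h ≠ 0)
    (hM : |f (t + h) - f t - h * f'| ≤ |h| * η)
    (h1 : l9fN δ M1 ≤ A) (h2 : l9fN δ M2 ≤ A) (hR : l9fN δ ((f t, f (t + h)) - (l9fRe a * M1 + l9fRe a' * M2)) ≤ E) :
    |f'| ≤ η + δ / |h| * (E + (|a| + |a'|) * A) := by
  have k1 := l9f_bridge hh hM 0
  have k2 := l9f_direct hδ hh h1 h2 hR
  have k3 : |0 * f t + f'| ≤ |0 * f t + f' - l9fO 0 h (f t, f (t + h))| + |l9fO 0 h (f t, f (t + h))| := by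
    have := abs_add_le (0 * f t + f' - l9fO 0 h (f t, f (t + h))) (l9fO 0 h (f t, f (t + h)))
    simpa using this
  rw [zero_mul, zero_add] at k3
  rw [zero_mul, zero_add] at k1
  linarith

/-! ## 6. the glue of (E4) -/

/-- **(E4) from values at `t` and `t + h`**.   `T` = the tables over one skeleton, `w` = their signed weights, `c τ` = the coefficient as a function of the path parameter.
`hM` = (M) for the grouped coefficient (`L09/GridM`);   `hLC` = LC1 (60, 285) at the two parameters: grouped coefficient `= W * X`, `W` = weight of the skeleton (independent of the parameter);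
`hW` = SKW;   `hX` = §5. -/
theorem l9f_e4 {ι : Type} (T : Finset ι) (w : ι → ℝ) (c : ι → ℝ → ℝ) (c' : ι → ℝ) (X : ℝ → ℝ) {t h ρ W CW Vol η E : ℝ} (hh : h ≠ 0)
    (hCW : 0 ≤ CW) (hVol : 0 ≤ Vol)
    (hM : |∑ τ ∈ T, w τ * (c τ (t + h) - c τ t - h * c' τ)| ≤ |h| * (η * Vol))
    (hLC0 : ∑ τ ∈ T, w τ * c τ t = W * X t) (hLC1 : ∑ τ ∈ T, w τ * c τ (t + h) = W * X (t + h))
    (hW : |W| ≤ CW * Vol) (hX : |l9fO ρ h (X t, X (t + h))| ≤ E) :
    |∑ τ ∈ T, w τ * (ρ * c τ t + c' τ)| ≤ (CW * E + η) * Vol := by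
  set f : ℝ → ℝ := fun s => ∑ τ ∈ T, w τ * c τ s with hf
  set f' : ℝ := ∑ τ ∈ T, w τ * c' τ with hf'
  have e0 : ∑ τ ∈ T, w τ * (c τ (t + h) - c τ t - h * c' τ) = f (t + h) - f t - h * f' := by
    simp only [hf, hf', Finset.mul_sum, ← Finset.sum_sub_distrib]
    exact Finset.sum_congr rfl fun τ _ => by ring
  have e1 : ∑ τ ∈ T, w τ * (ρ * c τ t + c' τ) = ρ * f t + f' := by
    simp only [hf, hf', Finset.mul_sum, ← Finset.sum_add_distrib]
    exact Finset.sum_congr rfl fun τ _ => by ring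
  rw [e0] at hM
  have k1 := l9f_bridge hh hM ρ
  have e2 : l9fO ρ h (f t, f (t + h)) = W * l9fO ρ h (X t, X (t + h)) := by
    have a0 : f t = W * X t := hLC0
    have a1 : f (t + h) = W * X (t + h) := hLC1
    unfold l9fO
    simp only [a0, a1]
    ring
  have k2 : |l9fO ρ h (f t, f (t + h))| ≤ CW * Vol * E := by
    rw [e2, abs_mul]
    exact mul_le_mul hW hX (abs_nonneg _) (mul_nonneg hCW hVol)
  rw [e1]
  have k3 : |ρ * f t + f'| ≤ |ρ * f t + f' - l9fO ρ h (f t, f (t + h))| + |l9fO ρ h (f t, f (t + h))| := by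
    have := abs_add_le (ρ * f t + f' - l9fO ρ h (f t, f (t + h))) (l9fO ρ h (f t, f (t + h)))
    simpa using this
  calc _ ≤ η * Vol + CW * Vol * E := k3.trans (add_le_add k1 k2)
    _ = (CW * E + η) * Vol := by ring

end Claimed.Agent.R286
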