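/-
Row 286 (S0533), package L14.      OWNER: helper242.
MORPHISMS of low-mass calculi and the EXTRACTION of the two references from a pair model.

* `L14Hom L L'` : ring homomorphisms `𝕂 → 𝕂'`, `𝓕 → 𝓕'` which commute with `re cst ev D T g kap bo`.
  Every quantity of the package is natural: `st sig Psi W Elow mom coef chi gg k0 mono1 mono2 l14X`.
* `L14Pair L2 La Lb δ` : `L2` is a pair model over the two real models `La`, `Lb` at distance `δ`: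
  `|x_a|, |x_b| ≤ nrm x`, `|x_a - x_b| ≤ δ nrm x`.
* `l14_pair_extract` : a uniform bound `l14ON L2 x A` gives `|x_a|, |x_b| ≤ C A`, `|x_a - x_b| ≤ C δ A`.
* `l14_K8_pair` : K8 read on the two references: with `R = X - (ma mono1 + mb mono2)` (real numbers),
  `|R_a|, |R_b| ≤ C A`, `|R_a - R_b| ≤ C δ A`, `A = c^(7-j) + ε c^(4-j)`  (this is `R = O_*(A)` of LL 09 in Lipschitz / finite difference form).
-/
import Claimed.Agent.R286.L09.StmM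

set_option autoImplicit false

namespace Claimed.Agent.R286

/-- morphism of low-mass calculi. -/
structure L14Hom {bd bd' : L14Bd} {𝕂 𝓕 𝕂' 𝓕' : Type} [CommRing 𝕂] [CommRing 𝓕] [CommRing 𝕂'] [CommRing 𝓕']
    (L : L14Calc bd 𝕂 𝓕) (L' : L14Calc bd' 𝕂' 𝓕') where
  hK : 𝕂 →+* 𝕂'
  hF : 𝓕 →+* 𝓕'
  re : ∀ r, hK (L.re r) = L'.re r
  cst : ∀ x, hF (L.cst x) = L'.cst (hK x)
  ev : ∀ φ, hK (L.ev φ) = L'.ev (hF φ)
  D : ∀ φ, hF (L.D φ) = L'.D (hF φ)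
  T : ∀ u v φ, hF (L.T u v φ) = L'.T u v (hF φ)
  g : ∀ j u, 1 ≤ j → hF (L.g j u) = L'.g j u
  kap : ∀ u, hK (L.kap u) = L'.kap u
  bo : hK L.bo = L'.bo

namespace L14Hom

variable {bd bd' : L14Bd} {𝕂 𝓕 𝕂' 𝓕' : Type} [CommRing 𝕂] [CommRing 𝓕] [CommRing 𝕂'] [CommRing 𝓕']
  {L : L14Calc bd 𝕂 𝓕} {L' : L14Calc bd' 𝕂' 𝓕'} (p : L14Hom L L')

theorem chi : p.hK L.chi = L'.chi := by
  unfold L14Calc.chi; rw [p.ev, p.g 2 0 (by norm_num)]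

theorem gg : p.hK L.gg = L'.gg := by
  unfold L14Calc.gg; rw [p.ev, p.g 4 0 (by norm_num)]

theorem k0 : p.hK L.k0 = L'.k0 := p.kap 0

theorem st (c : ℝ) (k : ℕ) (u : ℝ) : p.hF (L.st c k u) = L'.st c k u := by
  induction k with
  | zero => exact p.g 1 u le_rfl
  | succ k ih =>
    rw [L14Calc.st, L14Calc.st, map_add, map_mul, map_mul, p.D, ih, p.cst, p.re, p.g 1 u le_rfl]

theorem sig (c : ℝ) (k : ℕ) : p.hF (L.sig c k) = L'.sig c k := by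
  cases k with
  | zero => exact map_one _
  | succ k => rw [L14Calc.sig, L14Calc.sig, map_mul, p.cst, p.re, p.st]

theorem Psi {D : ℕ} (c : ℝ) (φ : Fin D → 𝓕) (s : L14Sk D) :
    p.hF (s.Psi L c φ) = s.Psi L' c (fun A => p.hF (φ A)) := by
  induction s with
  | leaf A => rfl
  | fork v l r ihl ihr => rw [L14Sk.Psi, L14Sk.Psi, map_mul, p.T, p.T, ihl, ihr]

theorem W {D : ℕ} (c : ℝ) (φ : Fin D → 𝓕) (s : L14Sk D) (u : ℝ) :
    p.hF (s.W L c φ u) = s.W L' c (fun A => p.hF (φ A)) u := by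
  rw [L14Sk.W, L14Sk.W, p.T, p.Psi]

theorem Elow {D : ℕ} (c : ℝ) (φ : Fin D → 𝓕) (s : L14Sk D) :
    p.hK (s.Elow L c φ) = s.Elow L' c (fun A => p.hF (φ A)) := by
  rw [L14Sk.Elow, L14Sk.Elow, p.ev, p.W]

theorem mom {j D : ℕ} (Γ : L14Gr j D) (c : ℝ) (s : L14Sk D) (P : Finset (Fin j)) :
    p.hK (Γ.mom L c s P) = Γ.mom L' c s P := by
  rw [L14Gr.mom, L14Gr.mom, p.Elow]
  congr 1
  funext A
  exact p.sig c _

theorem coef {j D : ℕ} (Γ : L14Gr j D) (c : ℝ) (s : L14Sk D) :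
    p.hK (Γ.coef L c s) = Γ.coef L' c s := by
  rw [L14Gr.coef, L14Gr.coef, map_sum]
  refine Finset.sum_congr rfl (fun π _ => ?_)
  rw [map_mul, p.re, map_prod]
  congr 1
  exact Finset.prod_congr rfl (fun P _ => p.mom Γ c s P)

theorem mono1 (j : ℕ) : p.hK (L.mono1 j) = L'.mono1 j := by
  unfold L14Calc.mono1
  split_ifs <;> simp only [map_mul, map_pow, p.bo, p.chi, p.gg, p.k0]

theorem mono2 (j : ℕ) : p.hK (L.mono2 j) = L'.mono2 j := by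
  unfold L14Calc.mono2
  split_ifs <;> simp only [map_mul, map_pow, map_zero, p.bo, p.gg, p.k0]

theorem X {j D : ℕ} (Γ : L14Gr j D) (c : ℝ) (s : L14Sk D) (b : Fin j → 𝕂) (bc : 𝕂) :
    p.hK (l14X L Γ c s b bc) = l14X L' Γ c s (fun i => p.hK (b i)) (p.hK bc) := by
  unfold l14X
  rw [map_sub, map_mul, map_prod, p.coef]
  congr 1
  split_ifs
  · rw [map_mul, p.re]
  · exact map_zero _

end L14Hom

/-- the remainder of K8: `X - (ma mono1 + mb mono2)`. -/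
noncomputable def l14R {bd : L14Bd} {𝕂 𝓕 : Type} [CommRing 𝕂] [CommRing 𝓕] {j D : ℕ}
    (L : L14Calc bd 𝕂 𝓕) (Γ : L14Gr j D) (c : ℝ) (s : L14Sk D) (b : Fin j → 𝕂) (bc : 𝕂) : 𝕂 :=
  l14X L Γ c s b bc - (L.re (Γ.ma c s) * L.mono1 j + L.re (Γ.mb c s) * L.mono2 j)

theorem l14_hom_eqns_cite : True := by
  have := @l14R.eq_1
  trivial

theorem L14Hom.R {bd bd' : L14Bd} {𝕂 𝓕 𝕂' 𝓕' : Type} [CommRing 𝕂] [CommRing 𝓕] [CommRing 𝕂'] [CommRing 𝓕']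
    {L : L14Calc bd 𝕂 𝓕} {L' : L14Calc bd' 𝕂' 𝓕'} (p : L14Hom L L') {j D : ℕ} (Γ : L14Gr j D) (c : ℝ)
    (s : L14Sk D) (b : Fin j → 𝕂) (bc : 𝕂) :
    p.hK (l14R L Γ c s b bc) = l14R L' Γ c s (fun i => p.hK (b i)) (p.hK bc) := by
  unfold l14R
  rw [map_sub, map_add, map_mul, map_mul, p.X, p.re, p.re, p.mono1, p.mono2]

/-- `L2` is a pair model over the real models `La`, `Lb` at distance `δ`. -/
structure L14Pair {bd bda bdb : L14Bd} {𝕂 𝓕 𝓕a 𝓕b : Type} [CommRing 𝕂] [CommRing 𝓕] [CommRing 𝓕a] [CommRing 𝓕b]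
    (L2 : L14Calc bd 𝕂 𝓕) (La : L14Calc bda ℝ 𝓕a) (Lb : L14Calc bdb ℝ 𝓕b) (δ : ℝ) where
  pa : L14Hom L2 La
  pb : L14Hom L2 Lb
  abs_a : ∀ x, |pa.hK x| ≤ L2.nrm x
  abs_b : ∀ x, |pb.hK x| ≤ L2.nrm x
  abs_sub : ∀ x, |pa.hK x - pb.hK x| ≤ δ * L2.nrm x
  del_nonneg : 0 ≤ δ

section pair

variable {bd bda bdb : L14Bd} {𝕂 𝓕 𝓕a 𝓕b : Type} [CommRing 𝕂] [CommRing 𝓕] [CommRing 𝓕a] [CommRing 𝓕b]
  {ι : Type} {L2 : ι → L14Calc bd 𝕂 𝓕} {La : ι → L14Calc bda ℝ 𝓕a} {Lb : ι → L14Calc bdb ℝ 𝓕b} {δ : ι → ℝ}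

/-- extraction of the two references from a uniform bound in the pair model. -/
theorem l14_pair_extract (P : ∀ i, L14Pair (L2 i) (La i) (Lb i) (δ i)) {x : ι → 𝕂} {A : ι → ℝ}
    (h : l14ON L2 x A) :
    ∃ C : ℝ, 0 ≤ C ∧ ∀ i, |(P i).pa.hK (x i)| ≤ C * A i ∧ |(P i).pb.hK (x i)| ≤ C * A i ∧
      |(P i).pa.hK (x i) - (P i).pb.hK (x i)| ≤ C * (δ i * A i) := by
  obtain ⟨C, hC, hB⟩ := h
  refine ⟨C, hC, fun i => ⟨le_trans ((P i).abs_a _) (hB i), le_trans ((P i).abs_b _) (hB i), ?_⟩⟩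
  refine le_trans ((P i).abs_sub _) ?_
  have := mul_le_mul_of_nonneg_left (hB i) (P i).del_nonneg
  linarith [mul_left_comm (δ i) C (A i)]

/-- **K8 on the two references.** -/
theorem l14_K8_pair (h8 : l14_K8) {j D : ℕ} (hj2 : 2 ≤ j) (hj4 : j ≤ 4)
    (P : ∀ i, L14Pair (L2 i) (La i) (Lb i) (δ i)) {Γ : ι → L14Gr j D} {c ε : ι → ℝ} {s : ι → L14Sk D}
    {b : ι → Fin j → 𝕂} {bc : ι → 𝕂} (H : L14Hyp L2 Γ c ε s b bc) :
    ∃ C : ℝ, 0 ≤ C ∧ ∀ i,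
      |l14R (La i) (Γ i) (c i) (s i) (fun e => (P i).pa.hK (b i e)) ((P i).pa.hK (bc i))|
        ≤ C * (c i ^ (7 - j) + ε i * c i ^ (4 - j)) ∧
      |l14R (Lb i) (Γ i) (c i) (s i) (fun e => (P i).pb.hK (b i e)) ((P i).pb.hK (bc i))|
        ≤ C * (c i ^ (7 - j) + ε i * c i ^ (4 - j)) ∧
      |l14R (La i) (Γ i) (c i) (s i) (fun e => (P i).pa.hK (b i e)) ((P i).pa.hK (bc i))
          - l14R (Lb i) (Γ i) (c i) (s i) (fun e => (P i).pb.hK (b i e)) ((P i).pb.hK (bc i))|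
        ≤ C * (δ i * (c i ^ (7 - j) + ε i * c i ^ (4 - j))) := by
  have h := h8 bd 𝕂 𝓕 ι j D L2 Γ c ε s b bc hj2 hj4 H
  obtain ⟨C, hC, hB⟩ := l14_pair_extract P (x := fun i => l14R (L2 i) (Γ i) (c i) (s i) (b i) (bc i)) h
  refine ⟨C, hC, fun i => ?_⟩
  have := hB i
  simp only [L14Hom.R] at this
  exact this

/-- **K8r on the two references** (`j = 2`, distinct designated forks, earlier mass `h'`). -/
theorem l14_K8r_pair (h8 : l14_K8r) {D : ℕ}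
    (P : ∀ i, L14Pair (L2 i) (La i) (Lb i) (δ i)) {Γ : ι → L14Gr 2 D} {c ε h' : ι → ℝ} {s : ι → L14Sk D}
    {b : ι → Fin 2 → 𝕂} {bc : ι → 𝕂} (H : L14Hyp L2 Γ c ε s b bc)
    (hd : ∀ i, (Γ i).Dist (c i) (s i))
    (hh : ∀ i, h' i = min ((Γ i).vs (c i) (s i) 0) ((Γ i).vs (c i) (s i) 1)) :
    ∃ C : ℝ, 0 ≤ C ∧ ∀ i,
      |l14R (La i) (Γ i) (c i) (s i) (fun e => (P i).pa.hK (b i e)) ((P i).pa.hK (bc i))|
        ≤ C * (c i ^ 4 * h' i + ε i * (c i * h' i)) ∧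
      |l14R (Lb i) (Γ i) (c i) (s i) (fun e => (P i).pb.hK (b i e)) ((P i).pb.hK (bc i))|
        ≤ C * (c i ^ 4 * h' i + ε i * (c i * h' i)) ∧
      |l14R (La i) (Γ i) (c i) (s i) (fun e => (P i).pa.hK (b i e)) ((P i).pa.hK (bc i))
          - l14R (Lb i) (Γ i) (c i) (s i) (fun e => (P i).pb.hK (b i e)) ((P i).pb.hK (bc i))|
        ≤ C * (δ i * (c i ^ 4 * h' i + ε i * (c i * h' i))) := by
  have h := h8 bd 𝕂 𝓕 ι D L2 Γ c ε h' s b bc H hd hh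
  obtain ⟨C, hC, hB⟩ := l14_pair_extract P (x := fun i => l14R (L2 i) (Γ i) (c i) (s i) (b i) (bc i)) h
  refine ⟨C, hC, fun i => ?_⟩
  have := hB i
  simp only [L14Hom.R] at this
  exact this

/-- crude bound of (E5) on the two references (terms with a defect factor). -/
theorem l14_K8d_pair (h8 : l14_K8d) {j D : ℕ} (hj : 1 ≤ j)
    (P : ∀ i, L14Pair (L2 i) (La i) (Lb i) (δ i)) {Γ : ι → L14Gr j D} {c : ι → ℝ} {s : ι → L14Sk D}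
    (hc0 : ∀ i, 0 < c i) (hc : ∀ i, c i ≤ bd.c0) (hs : ∀ i, (s i).Ok (c i))
    (hl : ∀ i, (s i).labels = Finset.univ) :
    ∃ C : ℝ, 0 ≤ C ∧ ∀ i,
      |(Γ i).coef (La i) (c i) (s i)| ≤ C * c i ^ 2 ∧ |(Γ i).coef (Lb i) (c i) (s i)| ≤ C * c i ^ 2 ∧
      |(Γ i).coef (La i) (c i) (s i) - (Γ i).coef (Lb i) (c i) (s i)| ≤ C * (δ i * c i ^ 2) := by
  have h := h8 bd 𝕂 𝓕 ι j D L2 Γ c s hj hc0 hc hs hl
  obtain ⟨C, hC, hB⟩ := l14_pair_extract P h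
  refine ⟨C, hC, fun i => ?_⟩
  have := hB i
  simp only [L14Hom.coef] at this
  exact this

/-- the same, refined. -/
theorem l14_K8dr_pair (h8 : l14_K8dr) {D : ℕ}
    (P : ∀ i, L14Pair (L2 i) (La i) (Lb i) (δ i)) {Γ : ι → L14Gr 2 D} {c : ι → ℝ} {s : ι → L14Sk D}
    (hc0 : ∀ i, 0 < c i) (hc : ∀ i, c i ≤ bd.c0) (hs : ∀ i, (s i).Ok (c i))
    (hl : ∀ i, (s i).labels = Finset.univ) (hd : ∀ i, (Γ i).Dist (c i) (s i)) :
    ∃ C : ℝ, 0 ≤ C ∧ ∀ i,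
      |(Γ i).coef (La i) (c i) (s i)|
        ≤ C * (c i ^ 3 * min ((Γ i).vs (c i) (s i) 0) ((Γ i).vs (c i) (s i) 1)) ∧
      |(Γ i).coef (Lb i) (c i) (s i)|
        ≤ C * (c i ^ 3 * min ((Γ i).vs (c i) (s i) 0) ((Γ i).vs (c i) (s i) 1)) ∧
      |(Γ i).coef (La i) (c i) (s i) - (Γ i).coef (Lb i) (c i) (s i)|
        ≤ C * (δ i * (c i ^ 3 * min ((Γ i).vs (c i) (s i) 0) ((Γ i).vs (c i) (s i) 1))) := by
  have h := h8 bd 𝕂 𝓕 ι D L2 Γ c s hc0 hc hs hl hd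
  obtain ⟨C, hC, hB⟩ := l14_pair_extract P h
  refine ⟨C, hC, fun i => ?_⟩
  have := hB i
  simp only [L14Hom.coef] at this
  exact this

end pair

/-! ### formal operations on morphisms and pairs -/

section formal

variable {bd bd' bd'' : L14Bd} {𝕂 𝓕 𝕂' 𝓕' 𝕂'' 𝓕'' : Type} [CommRing 𝕂] [CommRing 𝓕] [CommRing 𝕂'] [CommRing 𝓕']
  [CommRing 𝕂''] [CommRing 𝓕'']

/-- the identity morphism. -/
def L14Hom.idH (L : L14Calc bd 𝕂 𝓕) : L14Hom L L where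
  hK := RingHom.id 𝕂
  hF := RingHom.id 𝓕
  re := fun _ => rfl
  cst := fun _ => rfl
  ev := fun _ => rfl
  D := fun _ => rfl
  T := fun _ _ _ => rfl
  g := fun _ _ _ => rfl
  kap := fun _ => rfl
  bo := rfl

/-- composition of morphisms. -/
def L14Hom.compH {L : L14Calc bd 𝕂 𝓕} {L' : L14Calc bd' 𝕂' 𝓕'} {L'' : L14Calc bd'' 𝕂'' 𝓕''}
    (q : L14Hom L' L'') (p : L14Hom L L') : L14Hom L L'' where
  hK := q.hK.comp p.hK
  hF := q.hF.comp p.hF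
  re := fun r => by rw [RingHom.comp_apply, p.re, q.re]
  cst := fun x => by rw [RingHom.comp_apply, p.cst, q.cst, RingHom.comp_apply]
  ev := fun φ => by rw [RingHom.comp_apply, p.ev, q.ev, RingHom.comp_apply]
  D := fun φ => by rw [RingHom.comp_apply, p.D, q.D, RingHom.comp_apply]
  T := fun u v φ => by rw [RingHom.comp_apply, p.T, q.T, RingHom.comp_apply]
  g := fun j u hj => by rw [RingHom.comp_apply, p.g j u hj, q.g j u hj]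
  kap := fun u => by rw [RingHom.comp_apply, p.kap, q.kap]
  bo := by rw [RingHom.comp_apply, p.bo, q.bo]

/-- exchange of the two references. -/
def L14Pair.swap {bda bdb : L14Bd} {𝓕a 𝓕b : Type} [CommRing 𝓕a] [CommRing 𝓕b] {L2 : L14Calc bd 𝕂 𝓕}
    {La : L14Calc bda ℝ 𝓕a} {Lb : L14Calc bdb ℝ 𝓕b} {δ : ℝ} (P : L14Pair L2 La Lb δ) :
    L14Pair L2 Lb La δ where
  pa := P.pb
  pb := P.pa
  abs_a := P.abs_b
  abs_b := P.abs_a
  abs_sub := fun x => by rw [abs_sub_comm]; exact P.abs_sub x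
  del_nonneg := P.del_nonneg

/-- a pair at distance `δ` is a pair at every larger distance. -/
def L14Pair.mono {bda bdb : L14Bd} {𝓕a 𝓕b : Type} [CommRing 𝓕a] [CommRing 𝓕b] {L2 : L14Calc bd 𝕂 𝓕}
    {La : L14Calc bda ℝ 𝓕a} {Lb : L14Calc bdb ℝ 𝓕b} {δ δ' : ℝ} (P : L14Pair L2 La Lb δ) (h : δ ≤ δ') :
    L14Pair L2 La Lb δ' where
  pa := P.pa
  pb := P.pb
  abs_a := P.abs_a
  abs_b := P.abs_b
  abs_sub := fun x => le_trans (P.abs_sub x) (mul_le_mul_of_nonneg_right h (le_trans (abs_nonneg _) (P.abs_a x)))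
  del_nonneg := le_trans P.del_nonneg h

theorem l14_hom2_eqns_cite : True := by
  have := @L14Hom.idH.eq_1; have := @L14Hom.compH.eq_1; have := @L14Pair.swap.eq_1
  have := @L14Pair.mono.eq_1
  trivial

end formal

end Claimed.Agent.R286
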