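import Claimed.Agent.R286.L09.Mod1
import Claimed.Agent.R286.L09.Hom

/-!
# Row 286 (S0533), LL 09, MODEL 2 of `L14Calc` (TWO scalar references at distance `δ`)      OWNER helper288

`𝕂 = ℝ × ℝ`, `nrm (x,x') = max |x| |x'| + |x - x'| / δ`;   `𝓕 = L9mF × L9mF`;
`B k K (φ,φ') := ScN (k+2) K φ ∧ ScN (k+2) K φ' ∧ ScN k (δ K) (φ - φ'(σ ·))`   (NO weights: the TWIST `σ`, `|σ - 1| ≤ C δ`, compares `φ(z)` with
`φ'(σ z)`; size paths `σ = ℓ/ℓ'`, direct paths `σ = 1`; numbers `ev` do not see `σ`).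
Hypotheses: `Ok` of the two references (same `c0 eps Cn`, same drift mass `mu`) + `L9mClose` (clock speeds and first jets are `C δ` close).
`T φ - S_σ T' φ' = T (φ - S_σ φ') + ∫ T_{u,r} [(L_r S_σ - S_σ L'_r) T'_{r,v} φ'] dr` (Dynkin formula of the first reference).
EXIT: `l9mMod2 : L14Calc (l9mBd2 ..) (ℝ × ℝ) (L9mF × L9mF)`, `l9mPair : L14Pair l9mMod2 (l9mMod1 hR) (l9mMod1 hR') δ`.
-/

set_option autoImplicit false

namespace Claimed.Agent.R286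

open MeasureTheory Set

/-! ## A. numbers -/

/-- the norm of a pair of numbers -/
noncomputable def l9mNrm2 (δ : ℝ) (x : ℝ × ℝ) : ℝ := max |x.1| |x.2| + |x.1 - x.2| / δ

theorem l9mNrm2_nonneg {δ : ℝ} (hδ : 0 < δ) (x : ℝ × ℝ) : 0 ≤ l9mNrm2 δ x :=
  add_nonneg (le_max_of_le_left (abs_nonneg _)) (div_nonneg (abs_nonneg _) hδ.le)

theorem l9mNrm2_fst {δ : ℝ} (hδ : 0 < δ) (x : ℝ × ℝ) : |x.1| ≤ l9mNrm2 δ x :=
  (le_max_left _ _).trans (le_add_of_nonneg_right (div_nonneg (abs_nonneg _) hδ.le))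

theorem l9mNrm2_snd {δ : ℝ} (hδ : 0 < δ) (x : ℝ × ℝ) : |x.2| ≤ l9mNrm2 δ x :=
  (le_max_right _ _).trans (le_add_of_nonneg_right (div_nonneg (abs_nonneg _) hδ.le))

theorem l9mNrm2_sub {δ : ℝ} (hδ : 0 < δ) (x : ℝ × ℝ) : |x.1 - x.2| ≤ δ * l9mNrm2 δ x := by
  have h1 : |x.1 - x.2| / δ ≤ l9mNrm2 δ x := le_add_of_nonneg_left (le_max_of_le_left (abs_nonneg _))
  rw [div_le_iff₀ hδ] at h1
  linarith

theorem l9mNrm2_le {δ A B : ℝ} (hδ : 0 < δ) {x : ℝ × ℝ} (h1 : |x.1| ≤ A) (h2 : |x.2| ≤ A) (h3 : |x.1 - x.2| ≤ δ * B) :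
    l9mNrm2 δ x ≤ A + B := by
  refine add_le_add (max_le h1 h2) ?_
  rw [div_le_iff₀ hδ]
  linarith

theorem l9mNrm2_add {δ : ℝ} (hδ : 0 < δ) (x y : ℝ × ℝ) : l9mNrm2 δ (x + y) ≤ l9mNrm2 δ x + l9mNrm2 δ y := by
  unfold l9mNrm2
  have h1 : max |(x + y).1| |(x + y).2| ≤ max |x.1| |x.2| + max |y.1| |y.2| :=
    max_le ((abs_add_le _ _).trans (add_le_add (le_max_left _ _) (le_max_left _ _)))
      ((abs_add_le _ _).trans (add_le_add (le_max_right _ _) (le_max_right _ _)))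
  have h2 : |(x + y).1 - (x + y).2| / δ ≤ |x.1 - x.2| / δ + |y.1 - y.2| / δ := by
    rw [← add_div]
    refine div_le_div_of_nonneg_right ?_ hδ.le
    have : (x + y).1 - (x + y).2 = (x.1 - x.2) + (y.1 - y.2) := by simp only [Prod.fst_add, Prod.snd_add]; ring
    rw [this]
    exact abs_add_le _ _
  linarith

theorem l9mNrm2_mul {δ : ℝ} (hδ : 0 < δ) (x y : ℝ × ℝ) : l9mNrm2 δ (x * y) ≤ l9mNrm2 δ x * l9mNrm2 δ y := by
  unfold l9mNrm2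
  set X := max |x.1| |x.2|
  set Y := max |y.1| |y.2|
  have hX : 0 ≤ X := le_max_of_le_left (abs_nonneg _)
  have hY : 0 ≤ Y := le_max_of_le_left (abs_nonneg _)
  have h1 : max |(x * y).1| |(x * y).2| ≤ X * Y := by
    refine max_le ?_ ?_
    · rw [Prod.fst_mul, abs_mul]
      exact mul_le_mul (le_max_left _ _) (le_max_left _ _) (abs_nonneg _) hX
    · rw [Prod.snd_mul, abs_mul]
      exact mul_le_mul (le_max_right _ _) (le_max_right _ _) (abs_nonneg _) hX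
  have h2 : |(x * y).1 - (x * y).2| ≤ X * |y.1 - y.2| + |x.1 - x.2| * Y := by
    have e : (x * y).1 - (x * y).2 = x.1 * (y.1 - y.2) + (x.1 - x.2) * y.2 := by
      simp only [Prod.fst_mul, Prod.snd_mul]; ring
    rw [e]
    refine (abs_add_le _ _).trans (add_le_add ?_ ?_)
    · rw [abs_mul]
      exact mul_le_mul_of_nonneg_right (le_max_left _ _) (abs_nonneg _)
    · rw [abs_mul]
      exact mul_le_mul_of_nonneg_left (le_max_right _ _) (abs_nonneg _)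
  have h3 : |(x * y).1 - (x * y).2| / δ ≤ X * (|y.1 - y.2| / δ) + (|x.1 - x.2| / δ) * Y := by
    rw [div_le_iff₀ hδ]
    have : (X * (|y.1 - y.2| / δ) + (|x.1 - x.2| / δ) * Y) * δ = X * |y.1 - y.2| + |x.1 - x.2| * Y := by
      field_simp
    rw [this]
    exact h2
  have h4 : 0 ≤ (|x.1 - x.2| / δ) * (|y.1 - y.2| / δ) :=
    mul_nonneg (div_nonneg (abs_nonneg _) hδ.le) (div_nonneg (abs_nonneg _) hδ.le)
  nlinarith

theorem l9mNrm2_re (δ r : ℝ) : l9mNrm2 δ (r, r) ≤ |r| := by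
  simp [l9mNrm2]

/-! ## B. the graded bound of pairs -/

/-- the graded bound of model 2 -/
def l9mB2 (δ σ : ℝ) (k : ℕ) (K : ℝ) (φ : L9mF × L9mF) : Prop :=
  ScN (k + 2) K φ.1.1 ∧ ScN (k + 2) K φ.2.1 ∧ ScN k (δ * K) (φ.1 - l9mDil σ φ.2).1

/-- dilation with `|σ| ≤ 2` -/
theorem l9m_N_dil2 {n : ℕ} {M σ : ℝ} (hσ : |σ| ≤ 2) {φ : L9mF} (h : ScN n M φ.1) : ScN n (M * 2 ^ n) (l9mDil σ φ).1 := by
  refine (l9m_N_dil h σ).weaken (mul_le_mul_of_nonneg_left ?_ h.nonneg)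
  exact pow_le_pow_left₀ (le_max_of_le_left zero_le_one) (max_le one_le_two hσ) n

section B2

variable {δ σ : ℝ}

theorem l9mB2_nonneg {k : ℕ} {K : ℝ} {φ : L9mF × L9mF} (h : l9mB2 δ σ k K φ) : 0 ≤ K := h.1.nonneg

theorem l9mB2_mono (hδ : 0 < δ) {k : ℕ} {K K' : ℝ} {φ : L9mF × L9mF} (hK : K ≤ K') (h : l9mB2 δ σ k K φ) :
    l9mB2 δ σ k K' φ :=
  ⟨h.1.weaken hK, h.2.1.weaken hK, h.2.2.weaken (mul_le_mul_of_nonneg_left hK hδ.le)⟩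

theorem l9mB2_down {k : ℕ} {K : ℝ} {φ : L9mF × L9mF} (h : l9mB2 δ σ (k + 1) K φ) : l9mB2 δ σ k K φ :=
  ⟨h.1.of_succ, h.2.1.of_succ, h.2.2.of_succ⟩

theorem l9mB2_add {k : ℕ} {K K' : ℝ} {φ ψ : L9mF × L9mF} (h : l9mB2 δ σ k K φ) (h' : l9mB2 δ σ k K' ψ) :
    l9mB2 δ σ k (K + K') (φ + ψ) := by
  refine ⟨h.1.add h'.1, h.2.1.add h'.2.1, ?_⟩
  have e : (φ + ψ).1 - l9mDil σ (φ + ψ).2 = (φ.1 - l9mDil σ φ.2) + (ψ.1 - l9mDil σ ψ.2) := by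
    rw [Prod.fst_add, Prod.snd_add, map_add]; ring
  rw [e, mul_add]
  exact h.2.2.add h'.2.2

theorem l9mB2_mul (hδ : 0 < δ) (hσ : |σ| ≤ 2) {k : ℕ} {K K' : ℝ} {φ ψ : L9mF × L9mF} (h : l9mB2 δ σ k K φ)
    (h' : l9mB2 δ σ k K' ψ) : l9mB2 δ σ k ((2 ^ (k + 2) + 2 ^ k * (1 + 2 ^ k)) * (K * K')) (φ * ψ) := by
  have hKK : 0 ≤ K * K' := mul_nonneg h.1.nonneg h'.1.nonneg
  have hle : (2 : ℝ) ^ (k + 2) * (K * K') ≤ (2 ^ (k + 2) + 2 ^ k * (1 + 2 ^ k)) * (K * K') :=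
    mul_le_mul_of_nonneg_right (le_add_of_nonneg_right (by positivity)) hKK
  refine ⟨(h.1.mul h'.1).weaken hle, (h.2.1.mul h'.2.1).weaken hle, ?_⟩
  have e : (φ * ψ).1 - l9mDil σ (φ * ψ).2
      = (φ.1 - l9mDil σ φ.2) * ψ.1 + l9mDil σ φ.2 * (ψ.1 - l9mDil σ ψ.2) := by
    rw [Prod.fst_mul, Prod.snd_mul, map_mul]; ring
  rw [e]
  have h1 := h.2.2.mul (h'.1.mono (Nat.le_add_right k 2))
  have h2 := (l9m_N_dil2 hσ (h.2.1.mono (Nat.le_add_right k 2))).mul h'.2.2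
  refine (h1.add h2).weaken ?_
  have h3 : 0 ≤ δ * (2 ^ (k + 2) * (K * K')) := mul_nonneg hδ.le (mul_nonneg (by positivity) hKK)
  linarith [h3, show δ * ((2 ^ (k + 2) + 2 ^ k * (1 + 2 ^ k)) * (K * K')) = δ * (2 ^ (k + 2) * (K * K'))
    + (2 ^ k * (δ * K * K') + 2 ^ k * (K * 2 ^ k * (δ * K'))) by ring]

theorem l9mB2_cst (hδ : 0 < δ) (k : ℕ) (x : ℝ × ℝ) :
    l9mB2 δ σ k (l9mNrm2 δ x) (l9mCst x.1, l9mCst x.2) := by
  refine ⟨(ScN.const (k + 2) x.1).weaken (l9mNrm2_fst hδ x), (ScN.const (k + 2) x.2).weaken (l9mNrm2_snd hδ x), ?_⟩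
  exact (ScN.const k (x.1 - x.2)).weaken (l9mNrm2_sub hδ x)

theorem l9m_D_twist (φ φ' : L9mF) : l9mD φ - l9mDil σ (l9mD φ')
    = l9mD (φ - l9mDil σ φ') + l9mCst (σ - 1) * l9mDil σ (l9mD φ') := by
  have e : φ - l9mDil σ φ' = φ + l9mCst (-1) * l9mDil σ φ' := by
    have : l9mCst (-1) = -1 := by rw [map_neg, map_one]
    rw [this]; ring
  have e1 : l9mCst (-1) = -1 := by rw [map_neg, map_one]
  rw [e, l9mD_add, l9mD_mul, l9mD_cst, l9mD_dil, e1, map_sub, map_one]; ring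

theorem l9mB2_D (hσ : |σ| ≤ 2) {c : ℝ} (hc : 0 ≤ c) (hσ1 : |σ - 1| ≤ c * δ) {k : ℕ} {K : ℝ} {φ : L9mF × L9mF}
    (h : l9mB2 δ σ (k + 1) K φ) : l9mB2 δ σ k ((1 + c * 2 ^ k) * K) (l9mD φ.1, l9mD φ.2) := by
  have hK := h.1.nonneg
  have hle : K ≤ (1 + c * 2 ^ k) * K :=
    le_mul_of_one_le_left hK (le_add_of_nonneg_right (mul_nonneg hc (by positivity)))
  refine ⟨h.1.der.weaken hle, h.2.1.der.weaken hle, ?_⟩
  show ScN k _ (l9mD φ.1 - l9mDil σ (l9mD φ.2)).1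
  rw [l9m_D_twist]
  have h1 : ScN k (δ * K) (l9mD (φ.1 - l9mDil σ φ.2)).1 := h.2.2.der
  have h2 : ScN k (K * 2 ^ k) (l9mDil σ (l9mD φ.2)).1 :=
    l9m_N_dil2 hσ (φ := l9mD φ.2) (h.2.1.der.mono (Nat.le_add_right k 2))
  refine (h1.add (h2.const_mul (σ - 1))).weaken ?_
  have h3 : |σ - 1| * (K * 2 ^ k) ≤ c * δ * (K * 2 ^ k) :=
    mul_le_mul_of_nonneg_right hσ1 (mul_nonneg hK (by positivity))
  linarith [h3, show δ * ((1 + c * 2 ^ k) * K) = δ * K + c * δ * (K * 2 ^ k) by ring]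

theorem l9mB2_ev (hδ : 0 < δ) {K : ℝ} {φ : L9mF × L9mF} (h : l9mB2 δ σ 0 K φ) :
    l9mNrm2 δ (l9mEv φ.1, l9mEv φ.2) ≤ 2 * K := by
  have h3 := h.2.2.bd 0
  have e : (φ.1 - l9mDil σ φ.2).1 0 = l9mEv φ.1 - l9mEv φ.2 := by
    simp
  rw [e] at h3
  have := l9mNrm2_le hδ (x := (l9mEv φ.1, l9mEv φ.2)) (h.1.bd 0) (h.2.1.bd 0) h3
  linarith

end B2

/-! ## C. closeness of two references -/

/-- the two references are `δ` close (after the twist `σ`) -/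
structure L9mClose (R R' : L9mRef) (c0 eps δ σ : ℝ) (Cn : ℕ → ℝ) : Prop where
  del_pos : 0 < δ
  sig_le : |σ| ≤ 2
  sig : |σ - 1| ≤ Cn 0 * δ
  mu_eq : ∀ u, R'.mu u = R.mu u
  kap : ∀ u, 0 ≤ u → u ≤ c0 → |R.kap u - R'.kap u| ≤ Cn 0 * δ
  kap_lip : ∀ u, 0 ≤ u → u ≤ c0 → |(R.kap u - R.kap 0) - (R'.kap u - R'.kap 0)| ≤ δ * (Cn 0 * (u + eps))
  g1 : ∀ n u, 0 ≤ u → u ≤ c0 → ScN n (δ * Cn (n + 1)) (R.g 1 u - l9mDil σ (R'.g 1 u)).1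

theorem L9mRef.Ok.T_sub {R : L9mRef} {c0 eps : ℝ} {Cn : ℕ → ℝ} (hR : R.Ok c0 eps Cn) (u v : ℝ) (φ ψ : L9mF) :
    R.T u v (φ - ψ) = R.T u v φ - R.T u v ψ := by
  have e1 : l9mCst (-1) = -1 := by rw [map_neg, map_one]
  have e : φ - ψ = φ + l9mCst (-1) * ψ := by rw [e1]; ring
  rw [e, hR.T_add, hR.T_cst_mul, e1]; ring

section close

variable {R R' : L9mRef} {c0 eps δ σ : ℝ} {Cn : ℕ → ℝ}

/-- all the jets are close -/
theorem L9mClose.g (hC : L9mClose R R' c0 eps δ σ Cn) (hR : R.Ok c0 eps Cn) (hR' : R'.Ok c0 eps Cn) {j : ℕ} (hj : 1 ≤ j) :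
    ∀ (k : ℕ) (u : ℝ), 0 ≤ u → u ≤ c0 →
      ScN k (δ * (j * (2 ^ (j + k) * (Cn 0 * Cn (j + k))))) (R.g j u - l9mDil σ (R'.g j u)).1 := by
  induction j, hj using Nat.le_induction with
  | base =>
    intro k u h0 h1
    refine (hC.g1 k u h0 h1).weaken (mul_le_mul_of_nonneg_left ?_ hC.del_pos.le)
    rw [Nat.add_comm 1 k, Nat.cast_one, one_mul]
    have h2 : (1 : ℝ) ≤ 2 ^ (k + 1) := one_le_pow₀ one_le_two
    have h3 : Cn (k + 1) ≤ Cn 0 * Cn (k + 1) := le_mul_of_one_le_left (hR.Cn_pos _).le (hR.Cn_ge 0)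
    exact h3.trans (le_mul_of_one_le_left (mul_nonneg (hR.Cn_pos _).le (hR.Cn_pos _).le) h2)
  | succ j hj ih =>
    intro k u h0 h1
    rw [← hR.g_D j u hj, ← hR'.g_D j u hj, l9m_D_twist]
    have i1 := (ih (k + 1) u h0 h1).der
    have e : j + (k + 1) = j + 1 + k := by omega
    rw [e] at i1
    have i2 : ScN k (Cn (j + 1 + k) * 2 ^ k) (l9mDil σ (l9mD (R'.g j u))).1 := by
      rw [hR'.g_D j u hj]
      exact l9m_N_dil2 hC.sig_le (hR'.g_N (j + 1) k u (by omega) h0 h1)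
    refine (ScN.add (φ := (l9mD (R.g j u - l9mDil σ (R'.g j u))).1) i1 (i2.const_mul (σ - 1))).weaken ?_
    have hp : 0 ≤ Cn (j + 1 + k) := (hR.Cn_pos _).le
    have h2 : |σ - 1| * (Cn (j + 1 + k) * 2 ^ k) ≤ Cn 0 * δ * (Cn (j + 1 + k) * 2 ^ k) :=
      mul_le_mul_of_nonneg_right hC.sig (mul_nonneg hp (by positivity))
    have h3 : (2 : ℝ) ^ k ≤ 2 ^ (j + 1 + k) := pow_le_pow_right₀ one_le_two (by omega)
    have h4 : Cn 0 * δ * (Cn (j + 1 + k) * 2 ^ k) ≤ Cn 0 * δ * (Cn (j + 1 + k) * 2 ^ (j + 1 + k)) :=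
      mul_le_mul_of_nonneg_left (mul_le_mul_of_nonneg_left h3 hp) (mul_nonneg (hR.Cn_pos 0).le hC.del_pos.le)
    push_cast
    linarith [h2, h4, show δ * ((j + 1) * (2 ^ (j + 1 + k) * (Cn 0 * Cn (j + 1 + k))))
      = δ * (j * (2 ^ (j + 1 + k) * (Cn 0 * Cn (j + 1 + k)))) + Cn 0 * δ * (Cn (j + 1 + k) * 2 ^ (j + 1 + k)) by ring]

/-- the commutator of the generators with the twist -/
theorem l9m_L_twist (R R' : L9mRef) (σ r : ℝ) (hmu : R'.mu r = R.mu r) (w : L9mF) :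
    R.L r (l9mDil σ w) - l9mDil σ (R'.L r w) =
      l9mCst (1 / 2 * (R.kap r * σ ^ 2 - R'.kap r)) * l9mDil σ (l9mD (l9mD w))
      + l9mCst (R.mu r) * ((l9mCst (R.kap r * σ) * (R.g 1 r - l9mDil σ (R'.g 1 r))
          + l9mCst (R.kap r * σ - R'.kap r) * l9mDil σ (R'.g 1 r)) * l9mDil σ (l9mD w)) := by
  simp only [L9mRef.L, l9mD_dil, l9mD_mul, l9mD_cst, map_mul, map_add, map_sub, map_pow, l9mDil_cst, hmu]
  ring

/-- constant of the commutator -/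
noncomputable def l9mHc (Cn : ℕ → ℝ) (k : ℕ) : ℝ :=
  2 * Cn 0 ^ 2 * (Cn (k + 2) * 2 ^ k)
    + 2 * (2 ^ k * ((2 * Cn 0 * Cn (k + 1) + 2 * Cn 0 ^ 2 * (Cn (k + 1) * 2 ^ k)) * (Cn (k + 2) * 2 ^ k)))

theorem l9mHc_nonneg (hR : R.Ok c0 eps Cn) (k : ℕ) : 0 ≤ l9mHc Cn k := by
  have h0 := (hR.Cn_pos 0).le
  have h1 := (hR.Cn_pos (k + 1)).le
  have h2 := (hR.Cn_pos (k + 2)).le
  unfold l9mHc
  positivity

theorem l9m_L_twist_N (hC : L9mClose R R' c0 eps δ σ Cn) (hR : R.Ok c0 eps Cn) (hR' : R'.Ok c0 eps Cn) {k : ℕ} {W r : ℝ}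
    {w : L9mF} (h0 : 0 ≤ r) (h1 : r ≤ c0) (hw : ScN (k + 2) W w.1) :
    ScN k (δ * (2 * Cn 0 ^ 2 * (W * 2 ^ k)
      + 2 * (2 ^ k * ((2 * Cn 0 * Cn (k + 1) + 2 * Cn 0 ^ 2 * (Cn (k + 1) * 2 ^ k)) * (W * 2 ^ k)))))
      (R.L r (l9mDil σ w) - l9mDil σ (R'.L r w)).1 := by
  rw [l9m_L_twist R R' σ r (hC.mu_eq r)]
  have hδ := hC.del_pos
  have hc1 := hR.Cn_ge 0
  have hc0 : 0 ≤ Cn 0 := (hR.Cn_pos 0).le
  have hW : 0 ≤ W := hw.nonneg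
  have hk := hR.kap_bd r h0 h1
  have hkk := hC.kap r h0 h1
  have hs := hC.sig
  have hs2 := hC.sig_le
  have hcd : Cn 0 * δ ≤ Cn 0 ^ 2 * δ := by
    have : Cn 0 ≤ Cn 0 ^ 2 := by nlinarith
    exact mul_le_mul_of_nonneg_right this hδ.le
  -- scalars
  have s3 : |R.kap r * σ - R'.kap r| ≤ 2 * Cn 0 ^ 2 * δ := by
    have e : R.kap r * σ - R'.kap r = R.kap r * (σ - 1) + (R.kap r - R'.kap r) := by ring
    rw [e]
    refine (abs_add_le _ _).trans ?_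
    rw [abs_mul]
    have : |R.kap r| * |σ - 1| ≤ Cn 0 * (Cn 0 * δ) := mul_le_mul hk hs (abs_nonneg _) hc0
    nlinarith
  have s2 : |R.kap r * σ| ≤ 2 * Cn 0 := by
    rw [abs_mul]
    have : |R.kap r| * |σ| ≤ Cn 0 * 2 := mul_le_mul hk hs2 (abs_nonneg _) hc0
    linarith
  have s1 : |1 / 2 * (R.kap r * σ ^ 2 - R'.kap r)| ≤ 2 * Cn 0 ^ 2 * δ := by
    have e : R.kap r * σ ^ 2 - R'.kap r = R.kap r * σ * (σ - 1) + (R.kap r * σ - R'.kap r) := by ring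
    rw [abs_mul, e]
    have h3 : |R.kap r * σ * (σ - 1)| ≤ 2 * Cn 0 * (Cn 0 * δ) := by
      rw [abs_mul]
      exact mul_le_mul s2 hs (abs_nonneg _) (by positivity)
    have h4 := abs_add_le (R.kap r * σ * (σ - 1)) (R.kap r * σ - R'.kap r)
    have h5 : |(1 / 2 : ℝ)| = 1 / 2 := abs_of_pos (by norm_num)
    rw [h5]
    nlinarith
  have s4 : |R.mu r| ≤ 2 := by
    have a1 := hR.mu_ge r h0 h1
    have a2 := hR.mu_le r h0 h1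
    rw [abs_of_nonneg (h0.trans a1)]
    linarith [hR.c0_le, hR.eps_le]
  -- norms
  have n1 : ScN k (W * 2 ^ k) (l9mDil σ (l9mD (l9mD w))).1 := l9m_N_dil2 hs2 (φ := l9mD (l9mD w)) hw.der.der
  have n2 : ScN k (W * 2 ^ k) (l9mDil σ (l9mD w)).1 := l9m_N_dil2 hs2 (φ := l9mD w) hw.der.of_succ
  have n3 := hC.g1 k r h0 h1
  have n4 : ScN k (Cn (k + 1) * 2 ^ k) (l9mDil σ (R'.g 1 r)).1 := by
    have := l9m_N_dil2 hs2 (hR'.g_N 1 k r le_rfl h0 h1)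
    rwa [Nat.add_comm 1 k] at this
  have hck : 0 ≤ Cn (k + 1) := (hR.Cn_pos _).le
  have E : ScN k (δ * (2 * Cn 0 * Cn (k + 1) + 2 * Cn 0 ^ 2 * (Cn (k + 1) * 2 ^ k)))
      (l9mCst (R.kap r * σ) * (R.g 1 r - l9mDil σ (R'.g 1 r))
          + l9mCst (R.kap r * σ - R'.kap r) * l9mDil σ (R'.g 1 r)).1 := by
    refine ((n3.const_mul (R.kap r * σ)).add (n4.const_mul (R.kap r * σ - R'.kap r))).weaken ?_
    have a1 : |R.kap r * σ| * (δ * Cn (k + 1)) ≤ 2 * Cn 0 * (δ * Cn (k + 1)) :=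
      mul_le_mul_of_nonneg_right s2 (mul_nonneg hδ.le hck)
    have a2 : |R.kap r * σ - R'.kap r| * (Cn (k + 1) * 2 ^ k) ≤ 2 * Cn 0 ^ 2 * δ * (Cn (k + 1) * 2 ^ k) :=
      mul_le_mul_of_nonneg_right s3 (mul_nonneg hck (by positivity))
    linarith [a1, a2, show δ * (2 * Cn 0 * Cn (k + 1) + 2 * Cn 0 ^ 2 * (Cn (k + 1) * 2 ^ k))
      = 2 * Cn 0 * (δ * Cn (k + 1)) + 2 * Cn 0 ^ 2 * δ * (Cn (k + 1) * 2 ^ k) by ring]
  have P := (E.mul n2).const_mul (R.mu r)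
  refine ((n1.const_mul (1 / 2 * (R.kap r * σ ^ 2 - R'.kap r))).add P).weaken ?_
  have a1 : |1 / 2 * (R.kap r * σ ^ 2 - R'.kap r)| * (W * 2 ^ k) ≤ 2 * Cn 0 ^ 2 * δ * (W * 2 ^ k) :=
    mul_le_mul_of_nonneg_right s1 (mul_nonneg hW (by positivity))
  have a2 : |R.mu r| * (2 ^ k * (δ * (2 * Cn 0 * Cn (k + 1) + 2 * Cn 0 ^ 2 * (Cn (k + 1) * 2 ^ k)) * (W * 2 ^ k)))
      ≤ 2 * (2 ^ k * (δ * (2 * Cn 0 * Cn (k + 1) + 2 * Cn 0 ^ 2 * (Cn (k + 1) * 2 ^ k)) * (W * 2 ^ k))) :=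
    mul_le_mul_of_nonneg_right s4 (by positivity)
  refine (add_le_add a1 a2).trans (le_of_eq ?_)
  ring

/-- `T S_σ - S_σ T'` by the Dynkin formula of the first reference -/
theorem l9m_T_twist (hC : L9mClose R R' c0 eps δ σ Cn) (hR : R.Ok c0 eps Cn) (hR' : R'.Ok c0 eps Cn) {k : ℕ} {K u v : ℝ}
    {ψ : L9mF} (h0 : 0 ≤ u) (huv : u ≤ v) (hv : v ≤ c0) (hψ : ScN (k + 2) K ψ.1) :
    ScN k (δ * (Cn k * (l9mHc Cn k * K))) (R.T u v (l9mDil σ ψ) - l9mDil σ (R'.T u v ψ)).1 := by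
  have hK : 0 ≤ K := hψ.nonneg
  have hδ := hC.del_pos
  -- the test function
  have G : R.Gen c0 u v (fun r => l9mDil σ (R'.T r v ψ))
      (fun r => R.L r (l9mDil σ (R'.T r v ψ)) - l9mDil σ (R'.L r (R'.T r v ψ))) :=
    L9mRef.gen_of h0 huv hv (((hR'.reg_back v ψ (h0.trans huv) hv).subset h0 le_rfl).dil σ) (fun _ => rfl) fun r =>
      congrArg Subtype.val (show R.L r (l9mDil σ (R'.T r v ψ)) - l9mDil σ (R'.L r (R'.T r v ψ))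
          - R.L r (l9mDil σ (R'.T r v ψ)) = l9mDil σ (- R'.L r (R'.T r v ψ)) by
        rw [map_neg]; ring)
  have hN := hR.dynN (n := k) (K := δ * (l9mHc Cn k * K)) G (fun r hur hrv => by
    have hw := hR'.T_N (k + 2) K ψ r v (h0.trans hur) hrv hv hψ
    refine (l9m_L_twist_N hC hR hR' (h0.trans hur) (hrv.trans hv) hw).weaken (le_of_eq ?_)
    unfold l9mHc
    ring)
  simp only [hR'.T_refl] at hN
  refine hN.weaken ?_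
  have h1 : 0 ≤ Cn k * (δ * (l9mHc Cn k * K)) :=
    mul_nonneg (hR.Cn_pos k).le (mul_nonneg hδ.le (mul_nonneg (l9mHc_nonneg hR k) hK))
  have h2 : v - u ≤ 1 := by linarith [hR.c0_le]
  calc (v - u) * (Cn k * (δ * (l9mHc Cn k * K))) ≤ 1 * (Cn k * (δ * (l9mHc Cn k * K))) :=
        mul_le_mul_of_nonneg_right h2 h1
    _ = δ * (Cn k * (l9mHc Cn k * K)) := by ring

/-- constant of `T_B` -/
noncomputable def l9mTc (Cn : ℕ → ℝ) (k : ℕ) : ℝ := Cn (k + 2) + Cn k * (1 + l9mHc Cn k)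

theorem l9mTc_nonneg (hR : R.Ok c0 eps Cn) (k : ℕ) : 0 ≤ l9mTc Cn k :=
  add_nonneg (hR.Cn_pos _).le (mul_nonneg (hR.Cn_pos _).le (add_nonneg zero_le_one (l9mHc_nonneg hR k)))

theorem l9m_T_B2 (hC : L9mClose R R' c0 eps δ σ Cn) (hR : R.Ok c0 eps Cn) (hR' : R'.Ok c0 eps Cn) {k : ℕ} {K u v : ℝ}
    {φ : L9mF × L9mF} (h0 : 0 ≤ u) (huv : u ≤ v) (hv : v ≤ c0) (h : l9mB2 δ σ k K φ) :
    l9mB2 δ σ k (l9mTc Cn k * K) (R.T u v φ.1, R'.T u v φ.2) := by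
  have hK : 0 ≤ K := h.1.nonneg
  have hδ := hC.del_pos
  have hH := l9mHc_nonneg hR k
  have hle : Cn (k + 2) * K ≤ l9mTc Cn k * K :=
    mul_le_mul_of_nonneg_right (le_add_of_nonneg_right
      (mul_nonneg (hR.Cn_pos _).le (add_nonneg zero_le_one hH))) hK
  refine ⟨(hR.T_N (k + 2) K φ.1 u v h0 huv hv h.1).weaken hle, (hR'.T_N (k + 2) K φ.2 u v h0 huv hv h.2.1).weaken hle, ?_⟩
  show ScN k _ (R.T u v φ.1 - l9mDil σ (R'.T u v φ.2)).1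
  have e : R.T u v φ.1 - l9mDil σ (R'.T u v φ.2)
      = R.T u v (φ.1 - l9mDil σ φ.2) + (R.T u v (l9mDil σ φ.2) - l9mDil σ (R'.T u v φ.2)) := by
    rw [hR.T_sub]; ring
  rw [e]
  refine ((hR.T_N k _ _ u v h0 huv hv h.2.2).add (l9m_T_twist hC hR hR' h0 huv hv h.2.1)).weaken ?_
  have h3 : 0 ≤ δ * (Cn (k + 2) * K) := mul_nonneg hδ.le (mul_nonneg (hR.Cn_pos _).le hK)
  unfold l9mTc
  linarith [h3, show δ * ((Cn (k + 2) + Cn k * (1 + l9mHc Cn k)) * K)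
    = δ * (Cn (k + 2) * K) + (Cn k * (δ * K) + δ * (Cn k * (l9mHc Cn k * K))) by ring]

/-- constant of `g_B` -/
noncomputable def l9mGc (Cn : ℕ → ℝ) (n : ℕ) : ℝ := Cn (n + 2) + n * (2 ^ n * (Cn 0 * Cn n))

theorem l9m_g_B2 (hC : L9mClose R R' c0 eps δ σ Cn) (hR : R.Ok c0 eps Cn) (hR' : R'.Ok c0 eps Cn) {j : ℕ} (hj : 1 ≤ j)
    (k : ℕ) {u : ℝ} (h0 : 0 ≤ u) (h1 : u ≤ c0) : l9mB2 δ σ k (l9mGc Cn (j + k)) (R.g j u, R'.g j u) := by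
  have hp : 0 ≤ ((j + k : ℕ) : ℝ) * (2 ^ (j + k) * (Cn 0 * Cn (j + k))) :=
    mul_nonneg (Nat.cast_nonneg _) (mul_nonneg (by positivity) (mul_nonneg (hR.Cn_pos _).le (hR.Cn_pos _).le))
  have hle : Cn (j + (k + 2)) ≤ l9mGc Cn (j + k) := by
    unfold l9mGc
    rw [show j + (k + 2) = j + k + 2 by omega]
    linarith
  refine ⟨(hR.g_N j (k + 2) u hj h0 h1).weaken hle, (hR'.g_N j (k + 2) u hj h0 h1).weaken hle, ?_⟩
  refine (hC.g hR hR' hj k u h0 h1).weaken (mul_le_mul_of_nonneg_left ?_ hC.del_pos.le)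
  unfold l9mGc
  have h2 : (j : ℝ) ≤ ((j + k : ℕ) : ℝ) := by exact_mod_cast Nat.le_add_right j k
  have h3 : (j : ℝ) * (2 ^ (j + k) * (Cn 0 * Cn (j + k))) ≤ ((j + k : ℕ) : ℝ) * (2 ^ (j + k) * (Cn 0 * Cn (j + k))) :=
    mul_le_mul_of_nonneg_right h2 (mul_nonneg (by positivity) (mul_nonneg (hR.Cn_pos _).le (hR.Cn_pos _).le))
  linarith [(hR.Cn_pos (j + k + 2)).le]

/-- `b∘` of the pair -/
theorem l9m_bo2 (hC : L9mClose R R' c0 eps δ σ Cn) (hR : R.Ok c0 eps Cn) (hR' : R'.Ok c0 eps Cn) :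
    l9mNrm2 δ ((((R.g 2 0).1 0) ^ 2)⁻¹, (((R'.g 2 0).1 0) ^ 2)⁻¹) ≤ Cn 0 + 16 * Cn 0 ^ 3 * Cn 2 ^ 2 := by
  have hδ := hC.del_pos
  set x := (R.g 2 0).1 0 with hx
  set y := (R'.g 2 0).1 0 with hy
  have hc0 := hR.Cn_pos 0
  have hc2 := hR.Cn_pos 2
  have pos : ∀ t : ℝ, 1 ≤ Cn 0 * t ^ 2 → 0 < t ^ 2 ∧ (t ^ 2)⁻¹ ≤ Cn 0 := by
    intro t ht
    have h2 : 0 < t ^ 2 := by
      rcases (sq_nonneg t).lt_or_eq with h0 | h0
      · exact h0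
      · rw [← h0] at ht
        norm_num at ht
    refine ⟨h2, ?_⟩
    rw [inv_le_iff_one_le_mul₀ h2]
    linarith [mul_comm (Cn 0) (t ^ 2)]
  obtain ⟨px, bx⟩ := pos x hR.chi
  obtain ⟨py, by'⟩ := pos y hR'.chi
  have hxy : |x - y| ≤ δ * (8 * (Cn 0 * Cn 2)) := by
    have := (hC.g hR hR' (j := 2) (by norm_num) 0 0 le_rfl hR.c0_pos.le).bd 0
    have e : (R.g 2 0 - l9mDil σ (R'.g 2 0)).1 0 = x - y := by simp [hx, hy]
    rw [e] at this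
    refine this.trans (le_of_eq ?_)
    simp only [Nat.add_zero, Nat.cast_ofNat]
    ring
  have hxb : |x| ≤ Cn 2 := (hR.g_N 2 0 0 (by norm_num) le_rfl hR.c0_pos.le).bd 0
  have hyb : |y| ≤ Cn 2 := (hR'.g_N 2 0 0 (by norm_num) le_rfl hR.c0_pos.le).bd 0
  refine l9mNrm2_le hδ (by rw [abs_of_pos (inv_pos.2 px)]; exact bx) (by rw [abs_of_pos (inv_pos.2 py)]; exact by') ?_
  show |(x ^ 2)⁻¹ - (y ^ 2)⁻¹| ≤ _
  have e : (x ^ 2)⁻¹ - (y ^ 2)⁻¹ = (y - x) * (y + x) * ((x ^ 2)⁻¹ * (y ^ 2)⁻¹) := by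
    have e1 : x ^ 2 * (x ^ 2)⁻¹ = 1 := mul_inv_cancel₀ px.ne'
    have e2 : y ^ 2 * (y ^ 2)⁻¹ = 1 := mul_inv_cancel₀ py.ne'
    linear_combination (-(x ^ 2)⁻¹) * e2 + ((y ^ 2)⁻¹) * e1
  rw [e, abs_mul, abs_mul, abs_mul, abs_of_pos (inv_pos.2 px), abs_of_pos (inv_pos.2 py)]
  have h1 : |y - x| ≤ δ * (8 * (Cn 0 * Cn 2)) := by rw [abs_sub_comm]; exact hxy
  have h2 : |y + x| ≤ 2 * Cn 2 := (abs_add_le _ _).trans (by linarith)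
  have h3 : (x ^ 2)⁻¹ * (y ^ 2)⁻¹ ≤ Cn 0 * Cn 0 := mul_le_mul bx by' (inv_pos.2 py).le hc0.le
  have h4 : |y - x| * |y + x| ≤ δ * (8 * (Cn 0 * Cn 2)) * (2 * Cn 2) :=
    mul_le_mul h1 h2 (abs_nonneg _) (by positivity)
  calc |y - x| * |y + x| * ((x ^ 2)⁻¹ * (y ^ 2)⁻¹) ≤ δ * (8 * (Cn 0 * Cn 2)) * (2 * Cn 2) * (Cn 0 * Cn 0) :=
        mul_le_mul h4 h3 (mul_nonneg (inv_pos.2 px).le (inv_pos.2 py).le) (by positivity)
    _ = δ * (16 * Cn 0 ^ 3 * Cn 2 ^ 2) := by ring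

/-- Dynkin formula of the pair, graded bound -/
theorem l9m_dynB2 (hC : L9mClose R R' c0 eps δ σ Cn) (hR : R.Ok c0 eps Cn) (hR' : R'.Ok c0 eps Cn) {k : ℕ} {K a b : ℝ}
    {f h f' h' : ℝ → L9mF} (G : R.Gen c0 a b f h) (G' : R'.Gen c0 a b f' h')
    (hK : ∀ r, a ≤ r → r ≤ b → l9mB2 δ σ k K (h r, h' r)) :
    l9mB2 δ σ k (l9mTc Cn k * ((b - a) * K)) (R.T a b (f b) - f a, R'.T a b (f' b) - f' a) := by
  have hab := G.2.1
  have hK0 : 0 ≤ K := (hK a le_rfl hab).1.nonneg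
  have hle : (b - a) * (Cn (k + 2) * K) ≤ l9mTc Cn k * ((b - a) * K) := by
    have h1 : Cn (k + 2) ≤ l9mTc Cn k := le_add_of_nonneg_right
      (mul_nonneg (hR.Cn_pos _).le (add_nonneg zero_le_one (l9mHc_nonneg hR k)))
    calc (b - a) * (Cn (k + 2) * K) = Cn (k + 2) * ((b - a) * K) := by ring
      _ ≤ l9mTc Cn k * ((b - a) * K) := mul_le_mul_of_nonneg_right h1 (mul_nonneg (sub_nonneg.2 hab) hK0)
  refine ⟨(hR.dynN G fun r h1 h2 => (hK r h1 h2).1).weaken hle,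
    (hR'.dynN G' fun r h1 h2 => (hK r h1 h2).2.1).weaken hle, ?_⟩
  show ScN k _ ((R.T a b (f b) - f a) - l9mDil σ (R'.T a b (f' b) - f' a)).1
  have e : ((R.T a b (f b) - f a) - l9mDil σ (R'.T a b (f' b) - f' a)).1
      = fun z => ∫ r in a..b, ((R.T a r (h r)).1 z - (R'.T a r (h' r)).1 (σ * z)) := by
    funext z
    rw [intervalIntegral.integral_sub ((hR.dyn_tp G 0).intervalIntegrable hab z)
      ((hR'.dyn_tp G' 0).intervalIntegrable hab (σ * z)), ← hR.dyn a b f h G z, ← hR'.dyn a b f' h' G' (σ * z)]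
    rfl
  rw [e]
  refine (l9m_tint_N hab ((hR.dyn_tp G k).sub ((hR'.dyn_tp G' k).dil σ)) (M := δ * (l9mTc Cn k * K)) fun r hr =>
    (l9m_T_B2 hC hR hR' G.1 hr.1.le (hr.2.le.trans G.2.2.1) (hK r hr.1.le hr.2.le)).2.2).weaken (le_of_eq ?_)
  ring

/-- Dynkin formula of the pair at the root -/
theorem l9m_dynE2 (hC : L9mClose R R' c0 eps δ σ Cn) (hR : R.Ok c0 eps Cn) (hR' : R'.Ok c0 eps Cn) {K b : ℝ}
    {f h f' h' : ℝ → L9mF} (G : R.Gen c0 0 b f h) (G' : R'.Gen c0 0 b f' h')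
    (hK : ∀ r, 0 ≤ r → r ≤ b → l9mNrm2 δ (l9mEv (R.T 0 r (h r)), l9mEv (R'.T 0 r (h' r))) ≤ K) :
    l9mNrm2 δ (l9mEv (R.T 0 b (f b)) - l9mEv (f 0), l9mEv (R'.T 0 b (f' b)) - l9mEv (f' 0)) ≤ 2 * (b * K) := by
  have hδ := hC.del_pos
  have hb := G.2.1
  have e1 : l9mEv (R.T 0 b (f b)) - l9mEv (f 0) = ∫ r in (0:ℝ)..b, (R.T 0 r (h r)).1 0 := hR.dyn 0 b f h G 0
  have e2 : l9mEv (R'.T 0 b (f' b)) - l9mEv (f' 0) = ∫ r in (0:ℝ)..b, (R'.T 0 r (h' r)).1 0 := hR'.dyn 0 b f' h' G' 0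
  rw [e1, e2]
  have b1 : |∫ r in (0:ℝ)..b, (R.T 0 r (h r)).1 0| ≤ (b - 0) * K :=
    l9m_tint_bd hb fun r hr => (l9mNrm2_fst hδ _).trans (hK r hr.1.le hr.2.le)
  have b2 : |∫ r in (0:ℝ)..b, (R'.T 0 r (h' r)).1 0| ≤ (b - 0) * K :=
    l9m_tint_bd hb fun r hr => (l9mNrm2_snd hδ _).trans (hK r hr.1.le hr.2.le)
  have b3 : |(∫ r in (0:ℝ)..b, (R.T 0 r (h r)).1 0) - ∫ r in (0:ℝ)..b, (R'.T 0 r (h' r)).1 0| ≤ (b - 0) * (δ * K) := by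
    rw [← intervalIntegral.integral_sub ((hR.dyn_tp G 0).intervalIntegrable hb 0)
      ((hR'.dyn_tp G' 0).intervalIntegrable hb 0)]
    exact l9m_tint_bd hb fun r hr => (l9mNrm2_sub hδ (l9mEv (R.T 0 r (h r)), l9mEv (R'.T 0 r (h' r)))).trans
      (mul_le_mul_of_nonneg_left (hK r hr.1.le hr.2.le) hδ.le)
  have := l9mNrm2_le hδ (x := (∫ r in (0:ℝ)..b, (R.T 0 r (h r)).1 0, ∫ r in (0:ℝ)..b, (R'.T 0 r (h' r)).1 0))
    (A := b * K) (B := b * K) (by simpa using b1) (by simpa using b2) (by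
      refine b3.trans (le_of_eq ?_)
      ring)
  linarith

end close

/-! ## D. the constants and the model -/

/-- the constants of level `i` of model 2 -/
noncomputable def l9mC2 (Cn : ℕ → ℝ) (i : ℕ) : ℝ :=
  (2 ^ (i + 2) + 2 ^ i * (1 + 2 ^ i)) + (1 + Cn 0 * 2 ^ i) + l9mGc Cn i + l9mTc Cn i
    + (2 + 2 * Cn 0 + (Cn 0 + 16 * Cn 0 ^ 3 * Cn 2 ^ 2))

section consts

variable {R : L9mRef} {c0 eps : ℝ} {Cn : ℕ → ℝ}

theorem l9mGc_nonneg (hR : R.Ok c0 eps Cn) (n : ℕ) : 0 ≤ l9mGc Cn n :=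
  add_nonneg (hR.Cn_pos _).le (mul_nonneg (Nat.cast_nonneg _)
    (mul_nonneg (by positivity) (mul_nonneg (hR.Cn_pos _).le (hR.Cn_pos _).le)))

theorem l9mC2_parts (hR : R.Ok c0 eps Cn) (i : ℕ) :
    0 ≤ l9mC2 Cn i ∧ 2 ^ (i + 2) + 2 ^ i * (1 + 2 ^ i) ≤ l9mC2 Cn i ∧ 1 + Cn 0 * 2 ^ i ≤ l9mC2 Cn i ∧
      l9mGc Cn i ≤ l9mC2 Cn i ∧ l9mTc Cn i ≤ l9mC2 Cn i ∧ 2 ≤ l9mC2 Cn i ∧ 2 * Cn 0 ≤ l9mC2 Cn i ∧
      Cn 0 + 16 * Cn 0 ^ 3 * Cn 2 ^ 2 ≤ l9mC2 Cn i := by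
  have h0 := (hR.Cn_pos 0).le
  have h2 := (hR.Cn_pos 2).le
  have a1 : (0 : ℝ) ≤ 2 ^ (i + 2) + 2 ^ i * (1 + 2 ^ i) := by positivity
  have a2 : 0 ≤ 1 + Cn 0 * 2 ^ i := by positivity
  have a3 := l9mGc_nonneg hR i
  have a4 := l9mTc_nonneg hR i
  have a5 : 0 ≤ Cn 0 + 16 * Cn 0 ^ 3 * Cn 2 ^ 2 := by positivity
  unfold l9mC2
  refine ⟨?_, ?_, ?_, ?_, ?_, ?_, ?_, ?_⟩ <;> linarith

/-- constants of model 2 -/
noncomputable def l9mBd2 (hR : R.Ok c0 eps Cn) : L14Bd where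
  c0 := c0
  C := fun n => 1 + ∑ i ∈ Finset.range (n + 1), l9mC2 Cn i
  c0_pos := hR.c0_pos
  c0_le := hR.c0_le
  C_ge := fun n => le_add_of_nonneg_right (Finset.sum_nonneg fun i _ => (l9mC2_parts hR i).1)
  C_mono := fun m n hmn => by
    have : ∑ i ∈ Finset.range (m + 1), l9mC2 Cn i ≤ ∑ i ∈ Finset.range (n + 1), l9mC2 Cn i :=
      Finset.sum_le_sum_of_subset_of_nonneg (Finset.range_subset_range.2 (by omega))
        fun i _ _ => (l9mC2_parts hR i).1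
    show 1 + ∑ i ∈ Finset.range (m + 1), l9mC2 Cn i ≤ 1 + ∑ i ∈ Finset.range (n + 1), l9mC2 Cn i
    linarith

theorem l9mBd2_le (hR : R.Ok c0 eps Cn) (n : ℕ) : l9mC2 Cn n ≤ (l9mBd2 hR).C n := by
  have h1 : l9mC2 Cn n ≤ ∑ i ∈ Finset.range (n + 1), l9mC2 Cn i :=
    Finset.single_le_sum (f := fun i => l9mC2 Cn i) (fun i _ => (l9mC2_parts hR i).1) (Finset.mem_range.2 (by omega))
  show l9mC2 Cn n ≤ 1 + ∑ i ∈ Finset.range (n + 1), l9mC2 Cn i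
  linarith

end consts

/-- **MODEL 2** -/
noncomputable def l9mMod2 {R R' : L9mRef} {c0 eps δ σ : ℝ} {Cn : ℕ → ℝ} (hR : R.Ok c0 eps Cn) (hR' : R'.Ok c0 eps Cn)
    (hC : L9mClose R R' c0 eps δ σ Cn) : L14Calc (l9mBd2 hR) (ℝ × ℝ) (L9mF × L9mF) where
  re := RingHom.prod (RingHom.id ℝ) (RingHom.id ℝ)
  cst := RingHom.prodMap l9mCst l9mCst
  nrm := l9mNrm2 δ
  nrm_nonneg := l9mNrm2_nonneg hC.del_pos
  nrm_add := l9mNrm2_add hC.del_pos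
  nrm_mul := l9mNrm2_mul hC.del_pos
  nrm_re := l9mNrm2_re δ
  B := l9mB2 δ σ
  B_nonneg := l9mB2_nonneg
  B_mono := l9mB2_mono hC.del_pos
  B_down := l9mB2_down
  B_add := l9mB2_add
  B_mul := fun {k K K' φ ψ} h h' => l9mB2_mono hC.del_pos
    (mul_le_mul_of_nonneg_right ((l9mC2_parts hR k).2.1.trans (l9mBd2_le hR k))
      (mul_nonneg (l9mB2_nonneg h) (l9mB2_nonneg h'))) (l9mB2_mul hC.del_pos hC.sig_le h h')
  B_cst := l9mB2_cst hC.del_pos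
  D := fun φ => (l9mD φ.1, l9mD φ.2)
  D_add := fun φ ψ => Prod.ext (l9mD_add φ.1 ψ.1) (l9mD_add φ.2 ψ.2)
  D_mul := fun φ ψ => Prod.ext (l9mD_mul φ.1 ψ.1) (l9mD_mul φ.2 ψ.2)
  D_cst := fun x => Prod.ext (l9mD_cst x.1) (l9mD_cst x.2)
  B_D := fun {k K φ} h => l9mB2_mono hC.del_pos
    (mul_le_mul_of_nonneg_right ((l9mC2_parts hR k).2.2.1.trans (l9mBd2_le hR k)) (l9mB2_nonneg h))
    (l9mB2_D hC.sig_le (hR.Cn_pos 0).le hC.sig h)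
  ev := RingHom.prodMap l9mEv l9mEv
  ev_cst := fun _ => rfl
  ev_B := fun {K φ} h => (l9mB2_ev hC.del_pos h).trans
    (mul_le_mul_of_nonneg_right ((l9mC2_parts hR 0).2.2.2.2.2.1.trans (l9mBd2_le hR 0)) (l9mB2_nonneg h))
  sg := RingHom.prodMap l9mSg l9mSg
  sg_cst := fun _ => rfl
  ev_sg := fun φ => Prod.ext (l9mEv_sg φ.1) (l9mEv_sg φ.2)
  sg_D := fun φ => Prod.ext (l9mSg_D φ.1) (l9mSg_D φ.2)
  eps := eps
  eps_nonneg := hR.eps_nonneg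
  eps_le := hR.eps_le
  mu := R.mu
  mu_ge := hR.mu_ge
  mu_le := hR.mu_le
  kap := fun u => (R.kap u, R'.kap u)
  kap_bd := fun u h0 h1 => by
    have := l9mNrm2_le hC.del_pos (x := (R.kap u, R'.kap u)) (hR.kap_bd u h0 h1) (hR'.kap_bd u h0 h1)
      (B := Cn 0) (by linarith [hC.kap u h0 h1, mul_comm (Cn 0) δ])
    exact (this.trans (by linarith)).trans ((l9mC2_parts hR 0).2.2.2.2.2.2.1.trans (l9mBd2_le hR 0))
  kap_lip := fun u h0 h1 => by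
    have := l9mNrm2_le hC.del_pos (x := (R.kap u, R'.kap u) - (R.kap 0, R'.kap 0)) (hR.kap_lip u h0 h1)
      (hR'.kap_lip u h0 h1) (hC.kap_lip u h0 h1)
    refine this.trans ?_
    have h2 := mul_le_mul_of_nonneg_right ((l9mC2_parts hR 0).2.2.2.2.2.2.1.trans (l9mBd2_le hR 0))
      (add_nonneg h0 hR.eps_nonneg)
    linarith
  g := fun j u => (R.g j u, R'.g j u)
  g_D := fun j u hj => Prod.ext (hR.g_D j u hj) (hR'.g_D j u hj)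
  g_B := fun j k u hj h0 h1 => l9mB2_mono hC.del_pos ((l9mC2_parts hR (j + k)).2.2.2.1.trans (l9mBd2_le hR (j + k)))
    (l9m_g_B2 hC hR hR' hj k h0 h1)
  g_sg := fun j u => Prod.ext (hR.g_sg j u) (hR'.g_sg j u)
  bo := ((((R.g 2 0).1 0) ^ 2)⁻¹, (((R'.g 2 0).1 0) ^ 2)⁻¹)
  bo_mul := Prod.ext (l9mMod1 hR).bo_mul (l9mMod1 hR').bo_mul
  bo_bd := (l9m_bo2 hC hR hR').trans ((l9mC2_parts hR 0).2.2.2.2.2.2.2.trans (l9mBd2_le hR 0))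
  T := fun u v φ => (R.T u v φ.1, R'.T u v φ.2)
  T_add := fun u v φ ψ => Prod.ext (hR.T_add u v φ.1 ψ.1) (hR'.T_add u v φ.2 ψ.2)
  T_cst_mul := fun u v x φ => Prod.ext (hR.T_cst_mul u v x.1 φ.1) (hR'.T_cst_mul u v x.2 φ.2)
  T_one := fun u v => Prod.ext (hR.T_one u v) (hR'.T_one u v)
  T_refl := fun u φ => Prod.ext (hR.T_refl u φ.1) (hR'.T_refl u φ.2)
  T_comp := fun u v w φ h0 h1 h2 h3 => Prod.ext (hR.T_comp u v w φ.1 h0 h1 h2 h3) (hR'.T_comp u v w φ.2 h0 h1 h2 h3)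
  T_B := fun {k K φ} u v h0 h1 h2 h => l9mB2_mono hC.del_pos
    (mul_le_mul_of_nonneg_right ((l9mC2_parts hR k).2.2.2.2.1.trans (l9mBd2_le hR k)) (l9mB2_nonneg h))
    (l9m_T_B2 hC hR hR' h0 h1 h2 h)
  T_sg := fun u v φ => Prod.ext (hR.T_sg u v φ.1) (hR'.T_sg u v φ.2)
  Gen := fun a b f h => R.Gen c0 a b (fun u => (f u).1) (fun u => (h u).1) ∧
    R'.Gen c0 a b (fun u => (f u).2) (fun u => (h u).2)
  gen_sub := fun H h1 h2 h3 => ⟨H.1.sub h1 h2 h3, H.2.sub h1 h2 h3⟩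
  gen_add := fun H H' => ⟨H.1.add H'.1, H.2.add H'.2⟩
  gen_mul := fun H H' => ⟨H.1.mul H'.1, H.2.mul H'.2⟩
  gen_cst := fun _ _ x h0 h1 h2 => ⟨L9mRef.gen_cst x.1 h0 h1 h2, L9mRef.gen_cst x.2 h0 h1 h2⟩
  gen_time := fun _ _ h0 h1 h2 => ⟨L9mRef.gen_time h0 h1 h2, L9mRef.gen_time h0 h1 h2⟩
  gen_g1 := fun _ _ h0 h1 h2 => ⟨hR.gen_g1 h0 h1 h2, hR'.gen_g1 h0 h1 h2⟩
  gen_D := fun H => ⟨H.1.D (fun u => hR.g_D 1 u le_rfl), by
    have := H.2.D (fun u => hR'.g_D 1 u le_rfl)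
    simp only [hC.mu_eq] at this
    exact this⟩
  gen_back := fun _ _ φ h0 h1 h2 => ⟨hR.gen_back φ.1 h0 h1 h2, hR'.gen_back φ.2 h0 h1 h2⟩
  dynB := fun {k K a b f h} _ hab _ H hK => l9mB2_mono hC.del_pos
    (mul_le_mul_of_nonneg_right ((l9mC2_parts hR k).2.2.2.2.1.trans (l9mBd2_le hR k))
      (mul_nonneg (sub_nonneg.2 hab) (l9mB2_nonneg (hK a le_rfl hab))))
    (l9m_dynB2 hC hR hR' H.1 H.2 hK)
  dynE := fun {K b f h} hb _ H hK => (l9m_dynE2 hC hR hR' H.1 H.2 hK).trans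
    (mul_le_mul_of_nonneg_right ((l9mC2_parts hR 0).2.2.2.2.2.1.trans (l9mBd2_le hR 0))
      (mul_nonneg hb ((l9mNrm2_nonneg hC.del_pos _).trans (hK 0 le_rfl hb))))

/-- **EXIT**: the pair model over the two models 1 -/
noncomputable def l9mPair {R R' : L9mRef} {c0 eps δ σ : ℝ} {Cn : ℕ → ℝ} (hR : R.Ok c0 eps Cn) (hR' : R'.Ok c0 eps Cn)
    (hC : L9mClose R R' c0 eps δ σ Cn) : L14Pair (l9mMod2 hR hR' hC) (l9mMod1 hR) (l9mMod1 hR') δ where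
  pa :=
    { hK := RingHom.fst ℝ ℝ
      hF := RingHom.fst L9mF L9mF
      re := fun _ => rfl
      cst := fun _ => rfl
      ev := fun _ => rfl
      D := fun _ => rfl
      T := fun _ _ _ => rfl
      g := fun _ _ _ => rfl
      kap := fun _ => rfl
      bo := rfl }
  pb :=
    { hK := RingHom.snd ℝ ℝ
      hF := RingHom.snd L9mF L9mF
      re := fun _ => rfl
      cst := fun _ => rfl
      ev := fun _ => rfl
      D := fun _ => rfl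
      T := fun _ _ _ => rfl
      g := fun _ _ _ => rfl
      kap := fun _ => rfl
      bo := rfl }
  abs_a := l9mNrm2_fst hC.del_pos
  abs_b := l9mNrm2_snd hC.del_pos
  abs_sub := l9mNrm2_sub hC.del_pos
  del_nonneg := hC.del_pos.le

end Claimed.Agent.R286
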