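import Claimed.Agent.R286.L09.PhysK
import Claimed.Agent.R286.L09.Mod2
import Claimed.Agent.R286.L09.Contract
import Claimed.Agent.R286.Sc.LinkClk
import Claimed.Agent.R286.Sc.LscV

/-!
# Row 286 (S0533), LL 09, PHYSICAL LAYER of INST[L14Calc], CLOCK PART, file 3: THE REFERENCE OF A CHAIN AT A PATH POINT      (owner helper47; prefix `l9ph`, `L9ph`)

`I : L9I`, `p : LlPt`.   `I.pi p = slkPi (llSc (I.P p))` the scalar step profile of the chain (masses of the positions, increments of `K`);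
`I.ref p : L9mRef` = 288's filled step model `l9mSc` with terminal function `scLC p.a`, filled clock `l9phK`, speed `l9phKp (p.k0 ..)`, drift mass `l9phMu`.
* `l9ph_at_eq`     below `v2` the clock has no jump: `ghAt a K q = K q.u`;
* `l9ph_pi_samp`   the profile samples `K`;   `l9ph_net` : a chain which contains `ghGrid 4 k` is a `4/2^k`-net;
* EXIT `l9ph_ref_hyp` : `L9mScHyp` at every path point, GIVEN the field `chi` (120);   `l9ph_ref_ok` : `(I.ref p).Ok c0 eps Cn`;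
* EXIT `l9ph_ref_close` : `L9mClose` for two path points with the same terminal mass, GIVEN `σ` and the field `g1` (288, 120).
TEX[LL:exp:prop-low-coefficients]
-/

set_option autoImplicit false

namespace Claimed.Agent.R286

open MeasureTheory Set Filter Topology

/-! ## 1. no jump below `v2` -/

theorem l9ph_clamp_cont {a : ℝ} {K : ℝ → ℝ} {k0 c C v2 : ℝ} (hK : L9phK2 K k0 c C v2) (hc : 0 ≤ c) (hva : v2 ≤ a) {u : ℝ}
    (h0 : 0 ≤ u) (hu : u < v2) : ContinuousAt (ghClamp a K) u := by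
  have hval : ∀ v, 0 ≤ v → v ≤ v2 → ghClamp a K v = K v := fun v h0 h1 => slc_clamp_eq K h0 (h1.trans hva)
  have hC : 0 ≤ C := hK.k0_nn.trans hK.k0_le
  have hmono : ∀ v v', 0 ≤ v → v ≤ v' → v' ≤ v2 → 0 ≤ K v' - K v := fun v v' h0 h1 h2 =>
    (mul_nonneg hc (sub_nonneg.2 h1)).trans (hK.lo v v' h0 h1 h2)
  have hb : ∀ᶠ v in 𝓝 u, ‖ghClamp a K v - ghClamp a K u‖ ≤ C * |v - u| := by
    filter_upwards [Iio_mem_nhds hu] with v hv
    rw [Real.norm_eq_abs, hval u h0 hu.le]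
    rcases lt_or_ge v 0 with hv0 | hv0
    · have e : ghClamp a K v = 0 := by unfold ghClamp; rw [if_pos hv0]
      have h1 := hK.hi 0 u le_rfl h0 hu.le
      have h2 := hmono 0 u le_rfl h0 hu.le
      rw [hK.zero, sub_zero] at h1 h2
      rw [e, zero_sub, abs_neg, abs_of_nonneg h2, abs_of_neg (by linarith : v - u < 0)]
      nlinarith
    · rw [hval v hv0 (le_of_lt hv)]
      rcases le_total v u with c1 | c1
      · rw [abs_sub_comm, abs_sub_comm v, abs_of_nonneg (hmono v u hv0 c1 hu.le), abs_of_nonneg (by linarith)]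
        exact hK.hi v u hv0 c1 hu.le
      · rw [abs_of_nonneg (hmono u v h0 c1 (le_of_lt hv)), abs_of_nonneg (by linarith)]
        exact hK.hi u v h0 c1 (le_of_lt hv)
  have ht : Tendsto (fun v => C * |v - u|) (𝓝 u) (𝓝 0) := by
    have : Continuous fun v : ℝ => C * |v - u| := by fun_prop
    simpa using this.tendsto u
  exact tendsto_sub_nhds_zero_iff.1 (squeeze_zero_norm' hb ht)

theorem l9ph_at_eq {a : ℝ} {K : ℝ → ℝ} {k0 c C v2 : ℝ} (hK : L9phK2 K k0 c C v2) (hc : 0 ≤ c) (hva : v2 ≤ a) {q : GhPos}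
    (h0 : 0 ≤ q.u) (hu : q.u < v2) : ghAt a K q = K q.u := by
  have hcont := l9ph_clamp_cont hK hc hva h0 hu
  unfold ghAt
  rw [hcont.continuousWithinAt.leftLim_eq, hcont.continuousWithinAt.rightLim_eq, sub_self, mul_zero, add_zero]
  exact slc_clamp_eq K h0 (hu.le.trans hva)

/-! ## 2. the scalar profile of a chain -/

/-- the scalar profile of the chain `ps` (`c` = clock already revealed) -/
noncomputable def l9phPi (a : ℝ) (K : ℝ → ℝ) : ℝ → List GhPos → List (ℝ × ℝ)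
  | _, [] => []
  | c, p :: ps => (p.u, ghAt a K p - c) :: l9phPi a K (ghAt a K p) ps

theorem l9ph_pi_eq (a : ℝ) (b h K : ℝ → ℝ) : ∀ (ps : List GhPos) (b0 h0 c : ℝ),
    slkPi (llSc (l9Stp a b h K b0 h0 c ps)) = l9phPi a K c ps
  | [], _, _, _ => rfl
  | p :: ps, b0, h0, c => by
      have ih := l9ph_pi_eq a b h K ps (ghAt a b p) (ghAt a h p) (ghAt a K p)
      simp only [slkPi, llSc, l9Stp, l9phPi, List.map_cons] at ih ⊢
      rw [ih]

theorem l9ph_pi_fst (a : ℝ) (K : ℝ → ℝ) : ∀ (ps : List GhPos) (c : ℝ), (l9phPi a K c ps).map Prod.fst = ps.map GhPos.u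
  | [], _ => rfl
  | p :: ps, c => by simp only [l9phPi, List.map_cons, l9ph_pi_fst a K ps]

/-- **the profile of a chain samples the clock** -/
theorem l9ph_pi_samp {a : ℝ} (ha : 0 ≤ a) {K : ℝ → ℝ} (hK : GhClk1 a K) {v1 : ℝ}
    (hat : ∀ q : GhPos, q.Ok a → q.u ≤ v1 → ghAt a K q = K q.u) :
    ∀ (ps : List GhPos) (lo c : ℝ), ps.Pairwise (· ≤ ·) → (∀ q ∈ ps, q.Ok a) → (∀ q ∈ ps, lo ≤ q.u) → (∀ q ∈ ps, c ≤ ghAt a K q) →
      (lo ≤ v1 → c = K lo) → L9phSamp K v1 lo (l9phPi a K c ps)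
  | [], _, _, _, _, _, _, _ => trivial
  | p :: ps, lo, c, h1, h2, h3, h4, h5 => by
      rw [List.pairwise_cons] at h1
      have hp := h2 p List.mem_cons_self
      refine ⟨h3 p List.mem_cons_self, sub_nonneg.2 (h4 p List.mem_cons_self), fun hc => ?_, ?_⟩
      · show ghAt a K p - c = K p.u - K lo
        rw [hat p hp hc, h5 ((h3 p List.mem_cons_self).trans hc)]
      · exact l9ph_pi_samp ha hK hat ps p.u (ghAt a K p) h1.2 (fun q hq => h2 q (List.mem_cons_of_mem _ hq))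
          (fun q hq => slc_u_le (h1.1 q hq))
          (fun q hq => gh_os_at_mono ha hK hp.2.2.2 (h2 q (List.mem_cons_of_mem _ hq)).2.2.1 (h1.1 q hq))
          (fun hc => hat p hp hc)

theorem l9ph_pi_adm {a : ℝ} (ha : 0 ≤ a) {K : ℝ → ℝ} (hK : GhClk1 a K) :
    ∀ (ps : List GhPos) (c : ℝ), ps.Pairwise (· ≤ ·) → (∀ q ∈ ps, q.Ok a) → (∀ q ∈ ps, c ≤ ghAt a K q) → ScAdm a (l9phPi a K c ps)
  | [], _, _, _, _ => fun _ hq => absurd hq List.not_mem_nil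
  | p :: ps, c, h1, h2, h4 => by
      rw [List.pairwise_cons] at h1
      have hp := h2 p List.mem_cons_self
      intro q hq
      rcases List.mem_cons.1 hq with rfl | hq
      · exact ⟨hp.1, hp.2.1, sub_nonneg.2 (h4 p List.mem_cons_self)⟩
      · exact l9ph_pi_adm ha hK ps _ h1.2 (fun q hq => h2 q (List.mem_cons_of_mem _ hq))
          (fun q hq => gh_os_at_mono ha hK hp.2.2.2 (h2 q (List.mem_cons_of_mem _ hq)).2.2.1 (h1.1 q hq)) q hq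

/-- a chain which contains the dyadic masses of `[0,4]` of rank `k` is a net -/
theorem l9ph_net {a c0 eps : ℝ} {k : ℕ} {Fs : Finset GhPos} (hF : ghGrid 4 k ⊆ Fs) (hk : 4 / 2 ^ k ≤ eps) (hca : c0 + eps ≤ a)
    (ha4 : a ≤ 4) : L9phNet ((ghPs a Fs).map GhPos.u) c0 eps := by
  intro u h0 hu
  have hpow : (0 : ℝ) < 2 ^ k := by positivity
  set i : ℕ := ⌈u * 2 ^ k / 4⌉₊ with hi
  have h1 : u * 2 ^ k / 4 ≤ i := Nat.le_ceil _
  have h2 : (i : ℝ) < u * 2 ^ k / 4 + 1 := Nat.ceil_lt_add_one (by positivity)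
  have hm1 : u ≤ 4 * i / 2 ^ k := by
    rw [le_div_iff₀ hpow]; linarith
  have hm2 : 4 * (i : ℝ) / 2 ^ k ≤ u + eps := by
    have : 4 * (i : ℝ) / 2 ^ k ≤ u + 4 / 2 ^ k := by
      rw [div_le_iff₀ hpow, add_mul, div_mul_cancel₀ _ hpow.ne']; linarith
    linarith
  have hma : 4 * (i : ℝ) / 2 ^ k ≤ a := by linarith
  have hi2 : i ≤ 2 ^ k := by
    have : 4 * (i : ℝ) / 2 ^ k ≤ 4 := hma.trans ha4
    rw [div_le_iff₀ hpow] at this
    have h3 : (i : ℝ) ≤ 2 ^ k := by linarith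
    exact_mod_cast h3
  refine ⟨4 * i / 2 ^ k, ?_, hm1, hm2⟩
  refine List.mem_map.2 ⟨ghPosA (4 * i / 2 ^ k), gh_os_ps_mem.2 ⟨hF ?_, gh_os_posA_ok (h0.trans hm1) hma⟩, slc_posA_u _⟩
  unfold ghGrid
  exact Finset.mem_image.2 ⟨i, Finset.mem_range.2 (by omega), rfl⟩

/-! ## 3. the reference of a chain at a path point -/

theorem L9phK2.mono {K : ℝ → ℝ} {k0 c C v2 v1 : ℝ} (h : L9phK2 K k0 c C v2) (hv : v1 ≤ v2) : L9phK2 K k0 c C v1 :=
  ⟨h.zero, h.k0_nn, h.k0_le, fun v v' h0 h1 h2 => h.lo v v' h0 h1 (h2.trans hv), fun v v' h0 h1 h2 => h.hi v v' h0 h1 (h2.trans hv),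
    fun v v' h0 h1 h2 => h.two v v' h0 h1 (h2.trans hv)⟩

theorem L9phK2P.mono {K K' : ℝ → ℝ} {k0 k0' C v2 v1 δ : ℝ} (h : L9phK2P K K' k0 k0' C v2 δ) (hv : v1 ≤ v2) :
    L9phK2P K K' k0 k0' C v1 δ :=
  ⟨h.dk0, fun v v' h0 h1 h2 => h.one v v' h0 h1 (h2.trans hv), fun v v' h0 h1 h2 => h.two v v' h0 h1 (h2.trans hv)⟩

namespace L9I
variable (I : L9I)

/-- the scalar step profile of the chain at the point `p` -/
noncomputable def pi (p : LlPt) : List (ℝ × ℝ) := slkPi (llSc (I.P p))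

/-- the filled clock, the speed, the drift mass of the chain at the point `p` -/
noncomputable def fK (p : LlPt) : ℝ → ℝ := l9phK (I.pi p) 0
noncomputable def fKap (p : LlPt) : ℝ → ℝ := l9phKp (p.k0 I.F I.𝔹) (I.pi p)
noncomputable def fMu (p : LlPt) : ℝ → ℝ := l9phMu ((I.pi p).map Prod.fst)

/-- **the reference of the chain at the point `p`** -/
noncomputable def ref (p : LlPt) : L9mRef := l9mSc (scLC p.a) (slk_LC_BI p.a) (I.pi p) (I.fK p) (I.fKap p) (I.fMu p)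

end L9I

theorem l9ph_I_pi (I : L9I) (p : LlPt) : I.pi p = l9phPi p.a (p.K I.F I.𝔹) 0 (ghPs p.a (l9Fl I.Fs)) :=
  l9ph_pi_eq p.a _ _ _ _ 0 0 0

theorem l9ph_I_fst (I : L9I) (p : LlPt) : (I.pi p).map Prod.fst = (ghPs p.a (l9Fl I.Fs)).map GhPos.u := by
  rw [l9ph_I_pi, l9ph_pi_fst]

theorem l9ph_a_mem {p : LlPt} {F : LlFix} (hp : p.Ok F) : 1 ≤ p.a ∧ p.a ≤ 4 := by
  unfold LlPt.a
  split_ifs
  · norm_num
  · exact ⟨hp.ell1, (lkk_ell_le_two hp).trans (by norm_num)⟩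

/-- the chain at one point samples the clock below `v1 < v2 ≤ 1` -/
theorem l9ph_I_samp (I : L9I) {p : LlPt} {c C v2 v1 : ℝ} (hp : p.Ok I.F) (hK : L9phK2 (p.K I.F I.𝔹) (p.k0 I.F I.𝔹) c C v2) (hc : 0 ≤ c)
    (hclk : GhClk1 p.a (p.K I.F I.𝔹)) (hv2 : v2 ≤ 1) (hv1 : v1 < v2) : L9phSamp (p.K I.F I.𝔹) v1 0 (I.pi p) := by
  have ha := l9ph_a_mem hp
  have ha0 : 0 ≤ p.a := by linarith
  rw [l9ph_I_pi]
  refine l9ph_pi_samp ha0 hclk (fun q hq hu => l9ph_at_eq hK hc (hv2.trans ha.1) hq.1 (lt_of_le_of_lt hu hv1)) _ 0 0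
    (gh_os_ps_pairwise _ _) (fun q hq => (gh_os_ps_mem.1 hq).2) (fun q hq => (gh_os_ps_mem.1 hq).2.1)
    (fun q hq => gh_os_at_nonneg ha0 hclk (gh_os_ps_mem.1 hq).2.2.2.1) (fun _ => hK.zero.symm)

theorem l9ph_I_adm (I : L9I) {p : LlPt} (hp : p.Ok I.F) (hclk : GhClk1 p.a (p.K I.F I.𝔹)) : ScAdm 4 (I.pi p) := by
  have ha := l9ph_a_mem hp
  have ha0 : 0 ≤ p.a := by linarith
  have h := l9ph_pi_adm ha0 hclk (ghPs p.a (l9Fl I.Fs)) 0 (gh_os_ps_pairwise _ _) (fun q hq => (gh_os_ps_mem.1 hq).2)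
    (fun q hq => gh_os_at_nonneg ha0 hclk (gh_os_ps_mem.1 hq).2.2.2.1)
  rw [← l9ph_I_pi] at h
  exact fun q hq => ⟨(h q hq).1, (h q hq).2.1.trans ha.2, (h q hq).2.2⟩

/-- **`L9mScHyp` at one point** -/
theorem l9ph_point (I : L9I) {p : LlPt} {A : ℕ → ℝ} {c C C0 v2 c0 eps : ℝ} {k : ℕ} (hp : p.Ok I.F)
    (hA : ∀ n j, |j| ≤ (4 : ℝ) → j ≠ 0 → ScN n (A n) (deriv (scLC j)))
    (hK : L9phK2 (p.K I.F I.𝔹) (p.k0 I.F I.𝔹) c C v2) (hc : 0 ≤ c) (hclk : GhClk1 p.a (p.K I.F I.𝔹)) (hv2 : v2 ≤ 1)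
    (hc0 : 0 < c0) (he : 0 ≤ eps) (hec : eps ≤ c0) (hcv : 2 * c0 < v2) (hF : ghGrid 4 k ⊆ I.Fs) (hk : 4 / 2 ^ k ≤ eps)
    (hC : C ≤ C0) (hchi : 1 ≤ C0 * (scD 2 (scLC p.a) (I.pi p) 0 0) ^ 2) :
    L9mScHyp 4 A C0 (scLC p.a) (I.pi p) c0 eps (I.fK p) (I.fKap p) (I.fMu p) := by
  have ha := l9ph_a_mem hp
  have hs := l9ph_I_samp I hp hK hc hclk hv2 hcv
  have hK1 := hK.mono hcv.le
  have hce : c0 + eps ≤ 2 * c0 := by linarith
  have hn : L9phNet ((I.pi p).map Prod.fst) c0 eps := by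
    rw [l9ph_I_fst]
    exact l9ph_net (l9_fl_grid hF) hk (by linarith) ha.2
  have hC' : 0 ≤ C := hK.k0_nn.trans hK.k0_le
  refine ⟨fun z => by simp [scLC], fun n => hA n p.a (by rw [abs_of_nonneg (by linarith)]; exact ha.2) (by linarith),
    l9ph_I_adm I hp hclk, (L9phSamp.fill hs).inc, l9ph_clk (L9phSamp.fill hs) hc0.le (by linarith) _, hc0, by linarith, he, by linarith,
    l9ph_mu_ge' hn, l9ph_mu_le' hs hn, fun u h0 hu => (l9ph_kap_bd hK1 hc hs hn hce u h0 hu).trans hC,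
    fun u h0 hu => (l9ph_kap_lip hK1 hC' he hs hn hce u h0 hu).trans (mul_le_mul_of_nonneg_right hC (by linarith)), ?_⟩
  have e : I.fK p 0 = 0 := l9ph_K_at_lo _ 0 _ (L9phSamp.fill hs)
  rw [e]
  exact hchi

/-- **`L9mClose` at two points with the same terminal mass**, given the twist and the first jets -/
theorem l9ph_point2 (I : L9I) {p p' : LlPt} {c C v2 c0 eps δ σ : ℝ} {Cn : ℕ → ℝ} {k : ℕ} (hp : p.Ok I.F) (hp' : p'.Ok I.F)
    (haa : p'.a = p.a)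
    (hK : L9phK2 (p.K I.F I.𝔹) (p.k0 I.F I.𝔹) c C v2) (hK' : L9phK2 (p'.K I.F I.𝔹) (p'.k0 I.F I.𝔹) c C v2)
    (hP : L9phK2P (p.K I.F I.𝔹) (p'.K I.F I.𝔹) (p.k0 I.F I.𝔹) (p'.k0 I.F I.𝔹) C v2 δ) (hc : 0 ≤ c)
    (hclk : GhClk1 p.a (p.K I.F I.𝔹)) (hclk' : GhClk1 p'.a (p'.K I.F I.𝔹)) (hv2 : v2 ≤ 1)
    (he : 0 ≤ eps) (hec : eps ≤ c0) (hcv : 2 * c0 < v2) (hF : ghGrid 4 k ⊆ I.Fs) (hk : 4 / 2 ^ k ≤ eps)
    (hC : C ≤ Cn 0) (hδ : 0 < δ) (hσ2 : |σ| ≤ 2) (hσ : |σ - 1| ≤ Cn 0 * δ)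
    (hg : ∀ n u, 0 ≤ u → u ≤ c0 → ScN n (δ * Cn (n + 1)) ((I.ref p).g 1 u - l9mDil σ ((I.ref p').g 1 u)).1) :
    L9mClose (I.ref p) (I.ref p') c0 eps δ σ Cn := by
  have ha := l9ph_a_mem hp
  have hs := l9ph_I_samp I hp hK hc hclk hv2 hcv
  have hs' := l9ph_I_samp I hp' hK' hc hclk' hv2 hcv
  have hP1 := hP.mono hcv.le
  have hce : c0 + eps ≤ 2 * c0 := by linarith
  have hm : (I.pi p').map Prod.fst = (I.pi p).map Prod.fst := by rw [l9ph_I_fst, l9ph_I_fst, haa]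
  have hn : L9phNet ((I.pi p).map Prod.fst) c0 eps := by
    rw [l9ph_I_fst]
    exact l9ph_net (l9_fl_grid hF) hk (by linarith) ha.2
  have hC' : 0 ≤ C := hK.k0_nn.trans hK.k0_le
  refine ⟨hδ, hσ2, hσ, fun u => ?_, fun u h0 hu => ?_, fun u h0 hu => ?_, hg⟩
  · show l9phMu ((I.pi p').map Prod.fst) u = l9phMu ((I.pi p).map Prod.fst) u
    rw [hm]
  · exact (l9ph_pair_kap hP1 hs hs' hm hn hce u h0 hu).trans (mul_le_mul_of_nonneg_right hC hδ.le)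
  · refine (l9ph_pair_kap_lip hP1 (mul_nonneg hC' hδ.le) he hs hs' hm hn hce u h0 hu).trans ?_
    have : C * δ * (u + eps) ≤ Cn 0 * δ * (u + eps) :=
      mul_le_mul_of_nonneg_right (mul_le_mul_of_nonneg_right hC hδ.le) (by linarith)
    linarith

/-! ## 4. weakening -/

/-- the constants of a reference can be increased -/
theorem l9ph_ok_weaken {R : L9mRef} {c0 eps : ℝ} {Cn Cn' : ℕ → ℝ} (hR : R.Ok c0 eps Cn) (hle : ∀ n, Cn n ≤ Cn' n)
    (hmono : Monotone Cn') : R.Ok c0 eps Cn' :=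
  { hR with
    Cn_ge := fun n => (hR.Cn_ge n).trans (hle n)
    Cn_mono := hmono
    kap_bd := fun u h0 hu => (hR.kap_bd u h0 hu).trans (hle 0)
    kap_lip := fun u h0 hu => (hR.kap_lip u h0 hu).trans
      (mul_le_mul_of_nonneg_right (hle 0) (add_nonneg h0 hR.eps_nonneg))
    g_N := fun j n u hj h0 hu => (hR.g_N j n u hj h0 hu).weaken (hle _)
    chi := hR.chi.trans (mul_le_mul_of_nonneg_right (hle 0) (sq_nonneg _))
    T_N := fun n M φ u v h0 huv hv hφ => (hR.T_N n M φ u v h0 huv hv hφ).weaken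
      (mul_le_mul_of_nonneg_right (hle n) hφ.nonneg) }

/-! ## 5. dictionary -/

theorem l9ph_ref_kap0 (I : L9I) (p : LlPt) : (I.ref p).kap 0 = p.k0 I.F I.𝔹 := by
  show l9phKp (p.k0 I.F I.𝔹) (I.pi p) 0 = _
  rw [l9phKp, if_pos le_rfl]

/-- the speed at the label `0` scales exactly along the size segment -/
theorem l9ph_ref_kap0_scale (I : L9I) (p p' : LlPt) (h : ℝ) (hb : p'.bet = p.bet) (hl : p'.ell = Real.exp (h / 6) * p.ell) :
    (I.ref p').kap 0 = Real.exp (-h / 2) * (I.ref p).kap 0 := by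
  rw [l9ph_ref_kap0, l9ph_ref_kap0, l9ph_k0_scale p p' I.F I.𝔹 h hb hl]

theorem l9ph_ref_g (I : L9I) (p : LlPt) {j : ℕ} (hj : 1 ≤ j) (u : ℝ) :
    ((I.ref p).g j u).1 = scD j (scLC p.a) (I.pi p) (I.fK p u) := l9mSc_g_coe _ _ _ _ _ hj u

theorem l9ph_ref_T (I : L9I) (p : LlPt) (u v : ℝ) (φ : L9mF) :
    ((I.ref p).T u v φ).1 = scPt (scLC p.a) (I.pi p) (I.fK p u) (I.fK p v) φ.1 := rfl

theorem l9ph_ref_mu (I : L9I) (p : LlPt) (u : ℝ) : (I.ref p).mu u = l9phMu ((ghPs p.a (l9Fl I.Fs)).map GhPos.u) u := by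
  show l9phMu ((I.pi p).map Prod.fst) u = _
  rw [l9ph_I_fst]

/-- at the mass of a position of the chain the filled clock is the clock -/
theorem l9ph_fK_node (I : L9I) {p : LlPt} {c C v2 v1 : ℝ} (hp : p.Ok I.F) (hK : L9phK2 (p.K I.F I.𝔹) (p.k0 I.F I.𝔹) c C v2) (hc : 0 ≤ c)
    (hclk : GhClk1 p.a (p.K I.F I.𝔹)) (hv2 : v2 ≤ 1) (hv1 : v1 < v2) {q : GhPos} (hq : q ∈ I.ps p) (hu : q.u ≤ v1) :
    I.fK p q.u = p.K I.F I.𝔹 q.u := by
  have hs := l9ph_I_samp I hp hK hc hclk hv2 hv1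
  have h0 : 0 ≤ q.u := (gh_os_ps_mem.1 hq).2.1
  rcases h0.eq_or_lt with e | h0
  · rw [← e, hK.zero]; exact l9ph_K_at_lo _ 0 _ (L9phSamp.fill hs)
  · have hm : q.u ∈ (I.pi p).map Prod.fst := by
      rw [l9ph_I_fst]; exact List.mem_map_of_mem hq
    obtain ⟨r, hr, e⟩ := List.mem_map.1 hm
    have := l9ph_K_node (I.pi p) 0 q.u hs ⟨r, hr, e⟩ h0 hu
    rw [hK.zero, sub_zero] at this
    exact this

/-- at the `k`-th mass the filled clock is the cumulated duration of the first `k + 1` steps -/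
theorem l9ph_K_take {c1 : ℝ} : ∀ (π : List (ℝ × ℝ)) (lo : ℝ), L9phFill c1 lo π → ∀ (k : ℕ) (m : ℝ),
    (π.map Prod.fst)[k]? = some m → m ≤ c1 → l9phK π lo m = scLen (π.take (k + 1))
  | [], _, _, k, m, h, _ => by simp at h
  | p :: π, lo, h, 0, m, hk, hm => by
      have e : p.1 = m := by simpa using hk
      subst e
      rw [l9ph_K_cons_ge h le_rfl hm, l9ph_K_at_lo π p.1 c1 h.2.2.2]
      simp [scLen]
  | p :: π, lo, h, k + 1, m, hk, hm => by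
      have hk' : (π.map Prod.fst)[k]? = some m := by simpa using hk
      have hmem : m ∈ π.map Prod.fst := List.mem_of_getElem? hk'
      obtain ⟨q, hq, rfl⟩ := List.mem_map.1 hmem
      rw [l9ph_K_cons_ge h (L9phFill.ge h.2.2.2 q hq) hm, l9ph_K_take π p.1 h.2.2.2 k q.1 hk' hm]
      simp [scLen]

theorem l9ph_len_take (P : LlStp) (u : ℕ) : scLen ((slkPi (llSc P)).take u) = llCumK P u := by
  induction P generalizing u with
  | nil => simp [slkPi, llSc, scLen, llCumK]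
  | cons e P ih =>
    cases u with
    | zero => simp [scLen, llCumK]
    | succ u =>
      have := ih u
      simp only [slkPi, llSc, llCumK, List.map_cons, List.take_succ_cons, scLen, List.sum_cons] at this ⊢
      rw [this]

theorem l9ph_pi_fst' (P : LlStp) : (slkPi (llSc P)).map Prod.fst = P.map LlInc.m := by
  simp [slkPi, llSc, List.map_map, Function.comp_def]

/-- **the debt `hK` of KEY (219)**, generic form: the filled clock sends the incoming mass of the depth `u ≤ c` to the cumulative reference clock after `u` stages,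
as soon as the incoming mass of the cut is `≤ c1` -/
theorem l9ph_hK_gen {a c1 : ℝ} {P : LlStp} (h : L9phFill c1 0 (slkPi (llSc P))) {c : ℕ} (hc : c ≤ P.length)
    (hm : trPm (llMs a P) c ≤ c1) : ∀ u, u ≤ c → l9phK (slkPi (llSc P)) 0 (trPm (llMs a P) u) = llCumK P u := by
  intro u hu
  rcases Nat.eq_zero_or_pos u with rfl | hu0
  · rw [trPm, if_pos rfl, l9ph_K_at_lo _ 0 c1 h]
    simp [llCumK]
  have hget : ∀ k, k < P.length → (P.map LlInc.m)[k]? = some (llMs a P k) := by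
    intro k hk
    have hk' : k < (P.map LlInc.m).length := by simpa using hk
    unfold llMs
    rw [List.getElem?_eq_getElem hk']
    rfl
  have hc0 : 0 < c := lt_of_lt_of_le hu0 hu
  have e1 : trPm (llMs a P) u = llMs a P (u - 1) := by rw [trPm, if_neg (by omega)]
  have e2 : trPm (llMs a P) c = llMs a P (c - 1) := by rw [trPm, if_neg (by omega)]
  have g1 := hget (u - 1) (by omega)
  have g2 := hget (c - 1) (by omega)
  -- the masses are nondecreasing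
  have hinc : (P.map LlInc.m).Pairwise (· ≤ ·) := by
    rw [← l9ph_pi_fst']; exact (List.pairwise_map).2 h.inc
  have hle : llMs a P (u - 1) ≤ llMs a P (c - 1) := by
    rcases Nat.eq_or_lt_of_le (by omega : u - 1 ≤ c - 1) with e | hlt
    · rw [e]
    · have hk1 : u - 1 < (P.map LlInc.m).length := by simp; omega
      have hk2 : c - 1 < (P.map LlInc.m).length := by simp; omega
      have := List.pairwise_iff_getElem.1 hinc (u - 1) (c - 1) hk1 hk2 hlt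
      rw [List.getElem?_eq_getElem hk1, Option.some.injEq] at g1
      rw [List.getElem?_eq_getElem hk2, Option.some.injEq] at g2
      rw [← g1, ← g2]; exact this
  rw [e1, l9ph_K_take _ 0 h (u - 1) _ (by rw [l9ph_pi_fst']; exact g1) (by rw [e2] at hm; exact hle.trans hm), l9ph_len_take]
  congr 1
  omega

/-- **the debt `hK` of KEY (219)** at a path point -/
theorem l9ph_hK (I : L9I) {p : LlPt} {c C v2 v1 : ℝ} (hp : p.Ok I.F) (hK : L9phK2 (p.K I.F I.𝔹) (p.k0 I.F I.𝔹) c C v2) (hc : 0 ≤ c)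
    (hclk : GhClk1 p.a (p.K I.F I.𝔹)) (hv2 : v2 ≤ 1) (hv1 : v1 < v2) {d : ℕ} (hd : d ≤ (I.P p).length)
    (hm : trPm (llMs p.a (I.P p)) d ≤ v1) : ∀ u, u ≤ d → I.fK p (trPm (llMs p.a (I.P p)) u) = llCumK (I.P p) u :=
  l9ph_hK_gen (L9phSamp.fill (l9ph_I_samp I hp hK hc hclk hv2 hv1)) hd hm

/-! ## 6. the exit -/

/-- **EXIT of the clock part of the physical layer.**   HYPOTHESES = the P-list only (`LlDirProf` = `LlSec3.dirProf`; NO smallness of `z_0`);   `C, c0` on `𝔹, F`;   `Cn` on `C0` only;   `N0` on `𝔹, F`.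
GIVEN `chi` (lower bound of `G_zz(0,0)` on the chain: 120) every path point has its reference;
GIVEN the twist `σ` and the closeness of the first jets (288, 120) two path points with the same terminal mass are `δ` close;
the debt `hK` of KEY (219) holds at every cut whose incoming mass is `≤ 2 c0`. -/
theorem l9ph_main (𝔹 : LlBase) (F : LlFix) (hb : LlBaseProfile 𝔹 F.T) (hF : F.Ok) (hDP : LlDirProf 𝔹 F) :
    ∃ C c0 : ℝ, 1 ≤ C ∧ 0 < c0 ∧ c0 ≤ 1 ∧ ∀ C0 : ℝ, C ≤ C0 →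
      ∃ Cn : ℕ → ℝ, C0 ≤ Cn 0 ∧ ∃ N0 : ℕ, ∀ eps : ℝ, 0 < eps → eps ≤ c0 → ∀ᶠ Fs : Finset GhPos in atTop, ∀ (s : ℝ) (m : ℕ),
        (∀ p : LlPt, p.Ok F → N0 ≤ p.N → 1 ≤ C0 * (scD 2 (scLC p.a) ((⟨F, 𝔹, s, Fs, m⟩ : L9I).pi p) 0 0) ^ 2 →
          ((⟨F, 𝔹, s, Fs, m⟩ : L9I).ref p).Ok c0 eps Cn) ∧
        (∀ p p' : LlPt, p.Ok F → p'.Ok F → N0 ≤ p.N → N0 ≤ p'.N → p'.a = p.a → ∀ δ σ : ℝ, 0 < δ →
          |p.ell - p'.ell| + |p.bet - p'.bet| ≤ δ → |σ| ≤ 2 → |σ - 1| ≤ Cn 0 * δ →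
          (∀ n u, 0 ≤ u → u ≤ c0 → ScN n (δ * Cn (n + 1))
            (((⟨F, 𝔹, s, Fs, m⟩ : L9I).ref p).g 1 u - l9mDil σ (((⟨F, 𝔹, s, Fs, m⟩ : L9I).ref p').g 1 u)).1) →
          L9mClose ((⟨F, 𝔹, s, Fs, m⟩ : L9I).ref p) ((⟨F, 𝔹, s, Fs, m⟩ : L9I).ref p') c0 eps δ σ Cn) ∧
        (∀ p : LlPt, p.Ok F → N0 ≤ p.N → ∀ d : ℕ, d ≤ ((⟨F, 𝔹, s, Fs, m⟩ : L9I).P p).length →
          trPm (llMs p.a ((⟨F, 𝔹, s, Fs, m⟩ : L9I).P p)) d ≤ 2 * c0 → ∀ u, u ≤ d →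
          (⟨F, 𝔹, s, Fs, m⟩ : L9I).fK p (trPm (llMs p.a ((⟨F, 𝔹, s, Fs, m⟩ : L9I).P p)) u) = llCumK ((⟨F, 𝔹, s, Fs, m⟩ : L9I).P p) u) := by
  choose A hA0 hA using fun n => lsi_LC_N n 4
  obtain ⟨c, C, v2, hc, hC, hv2, N0, h4, h5⟩ := l9ph_K2_core 𝔹 F hb hF hDP
  set w := min v2 1 with hw
  have hw0 : 0 < w := lt_min hv2 one_pos
  have hw1 : w ≤ 1 := min_le_right _ _
  have hwv : w ≤ v2 := min_le_left _ _
  refine ⟨C, w / 4, hC, by linarith, by linarith, fun C0 hC0 => ?_⟩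
  obtain ⟨Cn, hCn⟩ := l9m_sc_ok (a := 4) (by norm_num) hA0 (hC.trans hC0)
  have hC00 : 0 ≤ C0 := by linarith
  have hpt : ∀ (eps : ℝ) (k : ℕ) (Fs : Finset GhPos) (s : ℝ) (m : ℕ) (p : LlPt), 0 < eps → eps ≤ w / 4 → 4 / 2 ^ k ≤ eps →
      ghGrid 4 k ⊆ Fs → p.Ok F → N0 ≤ p.N → 1 ≤ C0 * (scD 2 (scLC p.a) ((⟨F, 𝔹, s, Fs, m⟩ : L9I).pi p) 0 0) ^ 2 →
      ((⟨F, 𝔹, s, Fs, m⟩ : L9I).ref p).Ok (w / 4) eps Cn := by
    intro eps k Fs s m p he hec hk hFs hp hN hchi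
    exact hCn _ (slk_LC_BI p.a) _ _ _ _ _ _ (l9ph_point ⟨F, 𝔹, s, Fs, m⟩ hp hA ((h4 p hp hN).1.mono hwv) hc.le (h4 p hp hN).2.1 hw1
      (by linarith : 0 < w / 4) he.le hec (by linarith) hFs hk hC0 hchi)
  have hpr : ∀ (Cn' : ℕ → ℝ), C0 ≤ Cn' 0 → ∀ (eps : ℝ) (k : ℕ) (Fs : Finset GhPos) (s : ℝ) (m : ℕ) (p p' : LlPt), 0 < eps →
      eps ≤ w / 4 → 4 / 2 ^ k ≤ eps → ghGrid 4 k ⊆ Fs → p.Ok F → p'.Ok F → N0 ≤ p.N → N0 ≤ p'.N → p'.a = p.a → ∀ δ σ : ℝ, 0 < δ →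
      |p.ell - p'.ell| + |p.bet - p'.bet| ≤ δ → |σ| ≤ 2 → |σ - 1| ≤ Cn' 0 * δ →
      (∀ n u, 0 ≤ u → u ≤ w / 4 → ScN n (δ * Cn' (n + 1))
        (((⟨F, 𝔹, s, Fs, m⟩ : L9I).ref p).g 1 u - l9mDil σ (((⟨F, 𝔹, s, Fs, m⟩ : L9I).ref p').g 1 u)).1) →
      L9mClose ((⟨F, 𝔹, s, Fs, m⟩ : L9I).ref p) ((⟨F, 𝔹, s, Fs, m⟩ : L9I).ref p') (w / 4) eps δ σ Cn' := by
    intro Cn' hCn' eps k Fs s m p p' he hec hk hFs hp hp' hN hN' haa δ σ hδ hd hσ2 hσ hg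
    exact l9ph_point2 ⟨F, 𝔹, s, Fs, m⟩ hp hp' haa ((h4 p hp hN).1.mono hwv) ((h4 p' hp' hN').1.mono hwv)
      ((h5 p p' hp hp' hN hN' δ hd).mono hwv) hc.le (h4 p hp hN).2.1 (h4 p' hp' hN').2.1 hw1 he.le hec (by linarith) hFs hk
      (hC0.trans hCn') hδ hσ2 hσ hg
  have hhK : ∀ (Fs : Finset GhPos) (s : ℝ) (m : ℕ) (p : LlPt), p.Ok F → N0 ≤ p.N → ∀ d : ℕ, d ≤ ((⟨F, 𝔹, s, Fs, m⟩ : L9I).P p).length →
      trPm (llMs p.a ((⟨F, 𝔹, s, Fs, m⟩ : L9I).P p)) d ≤ 2 * (w / 4) → ∀ u, u ≤ d →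
      (⟨F, 𝔹, s, Fs, m⟩ : L9I).fK p (trPm (llMs p.a ((⟨F, 𝔹, s, Fs, m⟩ : L9I).P p)) u) = llCumK ((⟨F, 𝔹, s, Fs, m⟩ : L9I).P p) u := by
    intro Fs s m p hp hN d hd hm
    exact l9ph_hK ⟨F, 𝔹, s, Fs, m⟩ hp ((h4 p hp hN).1.mono hwv) hc.le (h4 p hp hN).2.1 hw1 (by linarith : 2 * (w / 4) < w) hd hm
  -- a monotone majorant of `Cn` which dominates `C0`
  by_cases hex : ∃ (R : L9mRef) (c0 eps : ℝ), R.Ok c0 eps Cn
  swap
  · -- no reference at all: the first statement is empty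
    refine ⟨fun _ => C0, le_rfl, N0, fun eps he hec => ?_⟩
    obtain ⟨k, hk⟩ := slc_pow_small (C := 4) he
    filter_upwards [eventually_ge_atTop (ghGrid 4 k)] with Fs hFs s m
    exact ⟨fun p hp hN hchi => absurd ⟨_, _, _, hpt eps k Fs s m p he hec hk.le hFs hp hN hchi⟩ hex,
      fun p p' => hpr (fun _ => C0) le_rfl eps k Fs s m p p' he hec hk.le hFs, hhK Fs s m⟩
  obtain ⟨R0, a0, e0, hR0⟩ := hex
  have hmono : Monotone fun n => Cn n + C0 := fun a b hab => add_le_add_left (hR0.Cn_mono hab) _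
  have h00 : C0 ≤ Cn 0 + C0 := by have := hR0.Cn_ge 0; linarith
  refine ⟨fun n => Cn n + C0, h00, N0, fun eps he hec => ?_⟩
  obtain ⟨k, hk⟩ := slc_pow_small (C := 4) he
  filter_upwards [eventually_ge_atTop (ghGrid 4 k)] with Fs hFs s m
  exact ⟨fun p hp hN hchi => l9ph_ok_weaken (hpt eps k Fs s m p he hec hk.le hFs hp hN hchi) (fun n => by linarith) hmono,
    fun p p' => hpr (fun n => Cn n + C0) h00 eps k Fs s m p p' he hec hk.le hFs, hhK Fs s m⟩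

theorem l9ph_physI_eqns_cite : True := by
  have := @l9phPi.eq_1
  have := @l9phPi.eq_2
  have := @L9I.pi.eq_1
  have := @L9I.fK.eq_1
  have := @L9I.fKap.eq_1
  have := @L9I.fMu.eq_1
  have := @L9I.ref.eq_1
  trivial

end Claimed.Agent.R286
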