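import Claimed.Agent.R286.Sc.LinkClk
import Claimed.Agent.R286.Sc.LscV
import Claimed.Agent.R286.LL.PathsDerA
import Claimed.Agent.R286.LL.PathsBase
import Claimed.Agent.R286.LL.PathsKit281
import Claimed.Agent.R286.L09.Defs
import Claimed.Agent.R286.L09.PhysI
import Claimed.Agent.R286.L09.GridFD

/-!
# Row 286 (S0533), LL Sec. 9, node GRID, file E6: GRID / CONTINUUM LINK OF THE SCALAR REFERENCE      (owner helper120; head of the unit helper60; prefix `l9v`, `L9v`)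

The scalar reference of a chain (step profile `slkPi (llSc P)`, terminal datum `scLC a`, physical variables: masses `v`, clock `K(v) = l⁻² A⁻¹(v / l)`) against the continuum model `llMod`
at the normalised profile `A = p.Aprof`.      NO sorry.      CONSUMERS: LL09 (`L9fE6`, `L14E6`, field `chi` of `L9mScHyp`, `L9mClose`), LL08 (`q_left`, `q_link` of `L8In.Fine`).
* §A  EXACT DILATION, step level.   `l9vFn l f = l⁻¹ f (l ·)`, `l9vDil l π = [(l m, d / l²)]`:   `l9v_V, l9v_P, l9v_Vt, l9v_Al, l9v_Pt, l9v_D, l9v_Ex, l9v_Gam, l9v_M2, l9v_LC` (pure algebra, no regularity).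
* §A2 EXACT DILATION of general profiles and of `llMod`.   `l9vPr l A = l A (l² ·)`:   `l9v_Va, l9v_aD, l9v_Pa`;  `l9v_mod_V, l9v_mod_D, l9v_mod_E, l9v_mod_Gam, l9v_mod_Gam1`:
      the PHYSICAL objects `p.V, p.Gam, p.Gam1` of `LL/PathsDefs` ARE the objects of `llMod` at the profile `l9vPr ℓ Aprof` with the terminal mass `a = ℓ j`.
* §B  `L9vNet a δ ps`: the masses of the chain are a `δ`-net of `[0,a]`;  `l9v_net_ps`: ONE finite set `Fs ⊇ ghGrid J k` serves ALL the terminal masses `a ≤ J`;  `l9v_sup`: `|scAl (chain) - scAlK a K| ≤ 2 δ`, any clock.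
* §C  `l9v_alK`: the mass profile of the clock `K(v) = l⁻² A⁻¹(v / l)` is `l9vPr l A`.
* §D  a step profile inside `llMod`: `l9v_step_V, _D, _E, _Gam, _Gam1`.
* §E  `l9v_close J R`: two profiles, same terminal mass `j ∈ [1,J]`, equal after `R`, `η`-close before: jets of the orders `1..4`, `Γ`, `Γ'` are `C(J,R) η`-close.
* §F  `l9v_chain J τ`: ONE chain (`L9vNet a δ ps`), ONE clock `K` (`K a ≤ τ`), fine path `l9Stp a b h K 0 0 0 ps`: jets, `scGam`, `scM2` at every time of the chain against `llMod` at the mass profile of the clock: `≤ C(J,τ) δ`.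
* §G  THE POINTS OF THE LL PATHS.   `l9vA p F` physical profile, `l9vP p F ps` fine path (`= I.P p`), `l9vPi p F ps` its scalar profile;  `l9v_pt_V, l9v_pt_Gam, l9v_pt_Gam1`;
      `L9vV p F ps η` = (V): fields `jet` (orders `1..4`, all times, all `z`), `gam`, `gam1`, `q` (**Q-LINK**: `|llQs p.a P k - p.Gam (llCumK P k)| ≤ η`);
      `l9v_pt τ` (one point, one chain, `C = C(τ)`);   **`l9v_ev`**: at fixed `N`, eventually in `Fs`, UNIFORMLY in the point (hypothesis `LpqProf` = `lce_unif_prof` of 253).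
      fields `pos`, `cut` (`llCumK P k` is a time of the reference), `L9vV.g` (`Γ'` at the cuts = `g_left` of LL 08), `l9v_pi_map` (`slkPi (llSc P) = pkPi P`).
* §H  THE NUMBERS.   `l9v_V0` (physical jets at `(0,0)` = rescaled normalised jets), **`l9v_e6`** ((E6) on two chains from `RegT.jet` + (V)), **`l9v_chi`** (`1 ≤ 4 C G_zz(0,0)²` from (P2) + (V)).
* §I  THE FORMS OF THE CONSUMERS.   `l9v_I_pi` (`I.pi p = l9vPi ..` by `rfl`, `𝔹 = llBase`), `l9v_fK0`, `l9v_ref_jet`, `l9v_mod1_chi, _gg, _k0, _bo_le`;   `l9v_e6_I` (fields `chi`, `gg` of `L14E6`),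
      **`l9v_chi_ev`** (hypothesis `chi` of `l9ph_main`, `C0 = 4 C`), **`l9v_fE6`** (INSTANCE of `L9fE6`, `e = 3 η / |h| + 2 C e^{-cM}`).
-/

set_option autoImplicit false

namespace Claimed.Agent.R286

open MeasureTheory ProbabilityTheory Filter Topology Set


/-! ## A. exact dilation, step level -/

/-- dilation of a function of the field: `f ↦ l⁻¹ f (l ·)` -/
noncomputable def l9vFn (l : ℝ) (f : ℝ → ℝ) : ℝ → ℝ := fun z => l⁻¹ * f (l * z)

/-- dilation of a step profile: masses `× l`, variances `/ l²` -/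
noncomputable def l9vDil (l : ℝ) (π : List (ℝ × ℝ)) : List (ℝ × ℝ) := π.map fun p => (l * p.1, p.2 / l ^ 2)

theorem l9v_dil_eqns_cite : True := by
  have := @l9vFn.eq_1
  have := @l9vDil.eq_1
  trivial

section dil

variable {l : ℝ}

theorem l9v_heat (hl : 0 < l) (s : ℝ) (f : ℝ → ℝ) (x : ℝ) :
    scHeat (s / l ^ 2) (fun y => f (l * y)) x = scHeat s f (l * x) := by
  unfold scHeat
  congr 1
  funext g
  rw [Real.sqrt_div' _ (sq_nonneg l), Real.sqrt_sq hl.le]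
  field_simp

theorem l9v_W (hl : 0 < l) (m s : ℝ) (G : ℝ → ℝ) (x : ℝ) :
    scW (l * m) (s / l ^ 2) (l9vFn l G) x = scW m s G (l * x) := by
  unfold scW
  rw [← l9v_heat hl s (fun y => Real.exp (m * G y)) x]
  congr 1
  funext y
  unfold l9vFn
  congr 1
  field_simp

theorem l9v_step (hl : 0 < l) (m s : ℝ) (G : ℝ → ℝ) :
    scStep (l * m) (s / l ^ 2) (l9vFn l G) = l9vFn l (scStep m s G) := by
  funext x
  by_cases hm : m = 0
  · have h0 : l * m = 0 := by rw [hm, mul_zero]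
    simp only [scStep, l9vFn, if_pos h0, if_pos hm]
    rw [← l9v_heat hl s G x]
    exact congrFun (sc_heat_const_mul l⁻¹ (s / l ^ 2) (fun y => G (l * y))) x
  · have h0 : l * m ≠ 0 := mul_ne_zero hl.ne' hm
    have e := l9v_W hl m s G x
    simp only [scStep, if_neg h0]
    rw [e]
    simp only [l9vFn, scStep, if_neg hm]
    rw [mul_inv]
    ring

theorem l9v_tr (hl : 0 < l) (m s : ℝ) (G φ : ℝ → ℝ) (x : ℝ) :
    scTr (l * m) (s / l ^ 2) (l9vFn l G) (fun y => φ (l * y)) x = scTr m s G φ (l * x) := by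
  unfold scTr
  rw [l9v_W hl, ← l9v_heat hl s (fun y => φ y * Real.exp (m * G y)) x]
  congr 2
  funext y
  unfold l9vFn
  congr 2
  field_simp

theorem l9v_V (hl : 0 < l) (F : ℝ → ℝ) : ∀ π : List (ℝ × ℝ), scV (l9vFn l F) (l9vDil l π) = l9vFn l (scV F π)
  | [] => rfl
  | p :: π => by
      show scStep (l * p.1) (p.2 / l ^ 2) (scV (l9vFn l F) (l9vDil l π)) = _
      rw [l9v_V hl F π, l9v_step hl]
      rfl

theorem l9v_P (hl : 0 < l) (F φ : ℝ → ℝ) : ∀ π : List (ℝ × ℝ),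
    scP (l9vFn l F) (l9vDil l π) (fun y => φ (l * y)) = fun x => scP F π φ (l * x)
  | [] => rfl
  | p :: π => by
      funext x
      show scTr (l * p.1) (p.2 / l ^ 2) (scV (l9vFn l F) (l9vDil l π))
        (scP (l9vFn l F) (l9vDil l π) fun y => φ (l * y)) x = _
      rw [l9v_V hl, l9v_P hl F φ π, l9v_tr hl]
      rfl

theorem l9v_len (l : ℝ) : ∀ π : List (ℝ × ℝ), scLen (l9vDil l π) = scLen π / l ^ 2
  | [] => by simp [l9vDil, scLen]
  | p :: π => by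
      show p.2 / l ^ 2 + scLen (l9vDil l π) = (p.2 + scLen π) / l ^ 2
      rw [l9v_len l π, add_div]

theorem l9v_Vt (hl : 0 < l) (F : ℝ → ℝ) : ∀ (π : List (ℝ × ℝ)) (t : ℝ),
    scVt (l9vFn l F) (l9vDil l π) (t / l ^ 2) = l9vFn l (scVt F π t)
  | [], _ => rfl
  | p :: π, t => by
      have h2 : 0 < l ^ 2 := by positivity
      show (if p.2 / l ^ 2 ≤ t / l ^ 2 then scVt (l9vFn l F) (l9vDil l π) (t / l ^ 2 - p.2 / l ^ 2)
        else scStep (l * p.1) (p.2 / l ^ 2 - t / l ^ 2) (scV (l9vFn l F) (l9vDil l π))) = _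
      have hc : p.2 / l ^ 2 ≤ t / l ^ 2 ↔ p.2 ≤ t := div_le_div_iff_of_pos_right h2
      by_cases h : p.2 ≤ t
      · rw [if_pos (hc.2 h), ← sub_div, l9v_Vt hl F π]
        simp only [scVt, if_pos h]
      · rw [if_neg (fun h' => h (hc.1 h')), ← sub_div, l9v_V hl, l9v_step hl]
        simp only [scVt, if_neg h]

theorem l9v_Al (hl : 0 < l) : ∀ (π : List (ℝ × ℝ)) (t : ℝ), scAl (l9vDil l π) (t / l ^ 2) = l * scAl π t
  | [], _ => by simp [l9vDil, scAl]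
  | p :: π, t => by
      have h2 : 0 < l ^ 2 := by positivity
      show (if p.2 / l ^ 2 ≤ t / l ^ 2 then scAl (l9vDil l π) (t / l ^ 2 - p.2 / l ^ 2) else l * p.1) = _
      have hc : p.2 / l ^ 2 ≤ t / l ^ 2 ↔ p.2 ≤ t := div_le_div_iff_of_pos_right h2
      by_cases h : p.2 ≤ t
      · rw [if_pos (hc.2 h), ← sub_div, l9v_Al hl π]
        simp only [scAl, if_pos h]
      · rw [if_neg (fun h' => h (hc.1 h'))]
        simp only [scAl, if_neg h]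

theorem l9v_Pt (hl : 0 < l) (F φ : ℝ → ℝ) : ∀ (π : List (ℝ × ℝ)) (s t : ℝ),
    scPt (l9vFn l F) (l9vDil l π) (s / l ^ 2) (t / l ^ 2) (fun y => φ (l * y)) = fun x => scPt F π s t φ (l * x)
  | [], _, _ => rfl
  | p :: π, s, t => by
      have h2 : 0 < l ^ 2 := by positivity
      funext x
      show (if p.2 / l ^ 2 ≤ s / l ^ 2 then
          scPt (l9vFn l F) (l9vDil l π) (s / l ^ 2 - p.2 / l ^ 2) (t / l ^ 2 - p.2 / l ^ 2) (fun y => φ (l * y))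
        else if t / l ^ 2 ≤ p.2 / l ^ 2 then
          scTr (l * p.1) (t / l ^ 2 - s / l ^ 2)
            (scStep (l * p.1) (p.2 / l ^ 2 - t / l ^ 2) (scV (l9vFn l F) (l9vDil l π))) (fun y => φ (l * y))
        else scTr (l * p.1) (p.2 / l ^ 2 - s / l ^ 2) (scV (l9vFn l F) (l9vDil l π))
          (scPt (l9vFn l F) (l9vDil l π) 0 (t / l ^ 2 - p.2 / l ^ 2) (fun y => φ (l * y)))) x = _
      have e0 : (0 : ℝ) = 0 / l ^ 2 := by simp
      have hc : p.2 / l ^ 2 ≤ s / l ^ 2 ↔ p.2 ≤ s := div_le_div_iff_of_pos_right h2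
      have hc' : t / l ^ 2 ≤ p.2 / l ^ 2 ↔ t ≤ p.2 := div_le_div_iff_of_pos_right h2
      by_cases h : p.2 ≤ s
      · rw [if_pos (hc.2 h), ← sub_div, ← sub_div, l9v_Pt hl F φ π]
        simp only [scPt, if_pos h]
      · rw [if_neg (fun h' => h (hc.1 h'))]
        by_cases h1 : t ≤ p.2
        · rw [if_pos (hc'.2 h1), ← sub_div, ← sub_div, l9v_V hl, l9v_step hl, l9v_tr hl]
          simp only [scPt, if_neg h, if_pos h1]
        · rw [if_neg (fun h' => h1 (hc'.1 h')), ← sub_div, ← sub_div, l9v_V hl]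
          conv_lhs => rw [e0, l9v_Pt hl F φ π]
          rw [l9v_tr hl]
          simp only [scPt, if_neg h, if_neg h1]

/-- iterated derivatives of a dilated function (no regularity needed) -/
theorem l9v_iter (l : ℝ) (k : ℕ) : ∀ (c : ℝ) (f : ℝ → ℝ),
    deriv^[k] (fun z => c * f (l * z)) = fun z => l ^ k * c * deriv^[k] f (l * z) := by
  induction k with
  | zero => intro c f; funext z; simp
  | succ k ih =>
    intro c f
    rw [Function.iterate_succ_apply]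
    have e : deriv (fun z => c * f (l * z)) = fun z => (c * l) * deriv f (l * z) := by
      funext z
      rw [deriv_const_mul_field, deriv_comp_mul_left]
      simp only [smul_eq_mul]
      ring
    rw [e, ih (c * l) (deriv f)]
    funext z
    rw [Function.iterate_succ_apply]
    ring

theorem l9v_D (hl : 0 < l) (k : ℕ) (F : ℝ → ℝ) (π : List (ℝ × ℝ)) (t z : ℝ) :
    scD k (l9vFn l F) (l9vDil l π) (t / l ^ 2) z = l ^ k * l⁻¹ * scD k F π t (l * z) := by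
  unfold scD
  rw [l9v_Vt hl]
  exact congrFun (l9v_iter l k l⁻¹ (scVt F π t)) z

theorem l9v_Ex (hl : 0 < l) (F φ : ℝ → ℝ) (π : List (ℝ × ℝ)) (t : ℝ) :
    scEx (l9vFn l F) (l9vDil l π) (t / l ^ 2) (fun y => φ (l * y)) = scEx F π t φ := by
  unfold scEx
  have e0 : (0 : ℝ) = 0 / l ^ 2 := by simp
  conv_lhs => rw [e0, l9v_Pt hl F φ π]
  simp

theorem l9v_Gam (hl : 0 < l) (F : ℝ → ℝ) (π : List (ℝ × ℝ)) (t : ℝ) :
    scGam (l9vFn l F) (l9vDil l π) (t / l ^ 2) = scGam F π t := by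
  unfold scGam
  rw [← l9v_Ex hl F (fun z => scD 1 F π t z ^ 2) π t]
  congr 1
  funext z
  rw [l9v_D hl]
  congr 1
  field_simp

theorem l9v_M2 (hl : 0 < l) (F : ℝ → ℝ) (π : List (ℝ × ℝ)) (t : ℝ) :
    scM2 (l9vFn l F) (l9vDil l π) (t / l ^ 2) = l ^ 2 * scM2 F π t := by
  unfold scM2
  rw [← l9v_Ex hl F (fun z => scD 2 F π t z ^ 2) π t]
  unfold scEx
  rw [← congrFun (sc_Pt_const_mul _ _ _ _ _ (l ^ 2)) 0]
  congr 1
  funext z
  rw [l9v_D hl]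
  field_simp

theorem l9v_LC (l j : ℝ) : scLC (l * j) = l9vFn l (scLC j) := by
  funext z
  unfold scLC l9vFn
  rw [mul_inv, mul_assoc, mul_assoc]
  congr 4
  ring

theorem l9v_dil_dil (hl : 0 < l) (π : List (ℝ × ℝ)) : l9vDil l (l9vDil l⁻¹ π) = π := by
  unfold l9vDil
  rw [List.map_map]
  conv_rhs => rw [← List.map_id π]
  apply List.map_congr_left
  intro p _
  ext
  · simp only [Function.comp, id]; field_simp
  · simp only [Function.comp, id]; field_simp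

theorem l9v_adm (hl : 0 < l) {a : ℝ} {π : List (ℝ × ℝ)} (h : ScAdm a π) : ScAdm (l * a) (l9vDil l π) := by
  intro q hq
  obtain ⟨p, hp, rfl⟩ := List.mem_map.1 hq
  obtain ⟨h1, h2, h3⟩ := h p hp
  exact ⟨mul_nonneg hl.le h1, mul_le_mul_of_nonneg_left h2 hl.le, div_nonneg h3 (sq_nonneg l)⟩

theorem l9v_inc (hl : 0 < l) {π : List (ℝ × ℝ)} (h : ScInc π) : ScInc (l9vDil l π) := by
  unfold ScInc l9vDil
  rw [List.pairwise_map]
  exact h.imp fun h => mul_le_mul_of_nonneg_left h hl.le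

end dil


/-! ## A2. exact dilation, general profiles and the model `llMod` -/

/-- dilation of a mass profile (function of the variance time) -/
noncomputable def l9vPr (l : ℝ) (α : ℝ → ℝ) : ℝ → ℝ := fun r => l * α (l ^ 2 * r)

theorem l9v_pr_eqns_cite : True := by
  have := @l9vPr.eq_1
  trivial

section dil2

variable {l : ℝ}

theorem l9v_dy (hl : 0 < l) (α : ℝ → ℝ) (τ : ℝ) (n : ℕ) : scDy (l9vPr l α) (τ / l ^ 2) n = l9vDil l (scDy α τ n) := by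
  unfold scDy l9vDil l9vPr
  rw [List.map_map]
  apply List.map_congr_left
  intro k _
  simp only [Function.comp]
  ext
  · simp only
    congr 2
    field_simp
  · simp only
    field_simp

theorem l9v_coef (hl : 0 < l) {a τ : ℝ} {α : ℝ → ℝ} (hα : ScCoef a τ α) : ScCoef (l * a) (τ / l ^ 2) (l9vPr l α) := by
  have h2 : 0 < l ^ 2 := by positivity
  have hm : ∀ t ∈ Icc 0 (τ / l ^ 2), l ^ 2 * t ∈ Icc 0 τ := by
    intro t ht
    refine ⟨mul_nonneg h2.le ht.1, ?_⟩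
    have := ht.2
    rw [le_div_iff₀ h2] at this
    linarith
  refine ⟨fun x hx y hy hxy => ?_, fun t ht => ?_⟩
  · exact mul_le_mul_of_nonneg_left (hα.1 (hm x hx) (hm y hy) (mul_le_mul_of_nonneg_left hxy h2.le)) hl.le
  · obtain ⟨h0, h1⟩ := hα.2 _ (hm t ht)
    exact ⟨mul_nonneg hl.le h0, mul_le_mul_of_nonneg_left h1 hl.le⟩

theorem l9v_Va (hl : 0 < l) {F : ℝ → ℝ} (hF : ScBI F) {a τ : ℝ} {α : ℝ → ℝ} (hτ : 0 ≤ τ) (hα : ScCoef a τ α) {t : ℝ}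
    (ht : 0 ≤ t) : scVa (l9vFn l F) (l9vPr l α) (τ / l ^ 2) (t / l ^ 2) = l9vFn l (scVa F α τ t) := by
  funext z
  unfold scVa
  refine Tendsto.limUnder_eq ?_
  have h1 := (scg_dy_tendsto hF hτ hα 0 ht (l * z)).const_mul l⁻¹
  refine h1.congr fun n => ?_
  rw [l9v_dy hl, l9v_Vt hl]
  rfl

theorem l9v_aD (hl : 0 < l) {F : ℝ → ℝ} (hF : ScBI F) {a τ : ℝ} {α : ℝ → ℝ} (hτ : 0 ≤ τ) (hα : ScCoef a τ α) {t : ℝ}
    (ht : 0 ≤ t) (k : ℕ) (z : ℝ) :
    scaD k (l9vFn l F) (l9vPr l α) (τ / l ^ 2) (t / l ^ 2) z = l ^ k * l⁻¹ * scaD k F α τ t (l * z) := by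
  unfold scaD
  rw [l9v_Va hl hF hτ hα ht]
  exact congrFun (l9v_iter l k l⁻¹ (scVa F α τ t)) z

theorem l9v_Pa (hl : 0 < l) {F : ℝ → ℝ} (hF : ScBI F) {a τ : ℝ} {α : ℝ → ℝ} (hτ : 0 ≤ τ) (hα : ScCoef a τ α)
    {ψ : ℝ → ℝ} {M : ℝ} (hψ : ScN 2 M ψ) {s t : ℝ} (hs : 0 ≤ s) (hst : s ≤ t) (ht : t ≤ τ) (x : ℝ) :
    scPa (l9vFn l F) (l9vPr l α) (τ / l ^ 2) (s / l ^ 2) (t / l ^ 2) (fun y => ψ (l * y)) x = scPa F α τ s t ψ (l * x) := by
  unfold scPa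
  refine Tendsto.limUnder_eq ?_
  have h1 := sgp_P_tendsto_bd hF hτ hα hψ hs hst ht (l * x)
  refine h1.congr fun n => ?_
  rw [l9v_dy hl, l9v_Pt hl]

theorem l9v_prof (hl : 0 < l) {j Ξ : ℝ} {A : ℝ → ℝ} (hA : LscProf j Ξ A) : LscProf (l * j) (Ξ / l ^ 2) (l9vPr l A) := by
  have h2 : 0 < l ^ 2 := by positivity
  refine ⟨fun x hx y hy hxy => ?_, ?_, fun ξ hξ => ?_, div_nonneg hA.Xi0 h2.le⟩
  · exact mul_le_mul_of_nonneg_left (hA.mono (mem_Ici.2 (mul_nonneg h2.le hx)) (mem_Ici.2 (mul_nonneg h2.le hy))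
      (mul_le_mul_of_nonneg_left hxy h2.le)) hl.le
  · unfold l9vPr
    rw [mul_zero]
    exact mul_nonneg hl.le hA.nonneg
  · unfold l9vPr
    rw [hA.top]
    rw [div_le_iff₀ h2] at hξ
    linarith

/-- **exact dilation of the continuation of `llMod`** -/
theorem l9v_mod_V (hl : 0 < l) {j Ξ : ℝ} {A : ℝ → ℝ} (hj : 0 < j) (hA : LscProf j Ξ A) {r : ℝ} (hr : 0 ≤ r) :
    llMod.V (l9vPr l A) (l * j) r = l9vFn l (llMod.V A j (l ^ 2 * r)) := by
  have h2 : 0 < l ^ 2 := by positivity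
  set R : ℝ := max Ξ (l ^ 2 * r) with hR
  have hR0 : 0 ≤ R := hA.Xi0.trans (le_max_left _ _)
  have e1 := (llMod_id A j Ξ R hj hA (le_max_left _ _)).1 (l ^ 2 * r) ⟨mul_nonneg h2.le hr, le_max_right _ _⟩
  have hr' : r = l ^ 2 * r / l ^ 2 := by field_simp
  have e2 := (llMod_id (l9vPr l A) (l * j) (Ξ / l ^ 2) (R / l ^ 2) (mul_pos hl hj) (l9v_prof hl hA)
    (div_le_div_of_nonneg_right (le_max_left _ _) h2.le)).1 r
    ⟨hr, by rw [le_div_iff₀ h2]; linarith [le_max_right Ξ (l ^ 2 * r)]⟩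
  rw [e1, e2]
  funext z
  rw [l9v_LC]
  conv_lhs => rw [hr', l9v_Va hl (sc_LC_BI j) hR0 (hA.coef R) (mul_nonneg h2.le hr)]
  unfold l9vFn
  field_simp

theorem l9v_mod_D (hl : 0 < l) {j Ξ : ℝ} {A : ℝ → ℝ} (hj : 0 < j) (hA : LscProf j Ξ A) {r : ℝ} (hr : 0 ≤ r) (k : ℕ) (z : ℝ) :
    llMod.D k (l9vPr l A) (l * j) r z = l ^ k * l⁻¹ * llMod.D k A j (l ^ 2 * r) (l * z) := by
  unfold LscMod.D
  rw [l9v_mod_V hl hj hA hr]
  exact congrFun (l9v_iter l k l⁻¹ _) z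

/-- **exact dilation of the law of the planted field** (bounded `C²` tests) -/
theorem l9v_mod_E (hl : 0 < l) {j Ξ : ℝ} {A : ℝ → ℝ} (hj : 0 < j) (hA : LscProf j Ξ A) {r : ℝ} (hr : 0 ≤ r)
    {ψ : ℝ → ℝ} {M : ℝ} (hψ : ScN 2 M ψ) :
    llMod.E (l9vPr l A) (l * j) r (fun y => ψ (l * y)) = llMod.E A j (l ^ 2 * r) ψ := by
  have h2 : 0 < l ^ 2 := by positivity
  set R : ℝ := max Ξ (l ^ 2 * r) with hR
  have hR0 : 0 ≤ R := hA.Xi0.trans (le_max_left _ _)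
  have hE : ScE 0 ψ := hψ.scE.mono (Nat.zero_le 2)
  have hE' : ScE 0 (fun y => ψ (l * y)) := by
    refine ⟨hE.1.comp (by fun_prop), ScG.of_bdd (C := M) fun z => hψ.bd _⟩
  have e1 := (llMod_id A j Ξ R hj hA (le_max_left _ _)).2 0 (l ^ 2 * r) le_rfl (mul_nonneg h2.le hr) (le_max_right _ _) ψ hE
  have hr' : r = l ^ 2 * r / l ^ 2 := by field_simp
  have e2 := (llMod_id (l9vPr l A) (l * j) (Ξ / l ^ 2) (R / l ^ 2) (mul_pos hl hj) (l9v_prof hl hA)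
    (div_le_div_of_nonneg_right (le_max_left _ _) h2.le)).2 0 r le_rfl hr
    (by rw [le_div_iff₀ h2]; linarith [le_max_right Ξ (l ^ 2 * r)]) _ hE'
  unfold LscMod.E
  rw [e1, e2, l9v_LC]
  have e0 : (0 : ℝ) = 0 / l ^ 2 := by simp
  conv_lhs => rw [hr']
  conv_lhs => enter [4]; rw [e0]
  rw [l9v_Pa hl (sc_LC_BI j) hR0 (hA.coef R) hψ le_rfl (mul_nonneg h2.le hr) (le_max_right _ _)]
  simp

end dil2


/-! ## A3. `Γ`, `Γ'` of `llMod` under the dilation -/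

/-- the jets of `llMod` as elements of the classes `ScN` (orders `1, 2`; three more derivatives), uniformly -/
theorem l9v_D_N (J : ℝ) : ∃ B : ℝ, 0 ≤ B ∧ ∀ (A : ℝ → ℝ) (j Ξ : ℝ), 1 ≤ j → j ≤ J → LscProf j Ξ A → ∀ ξ, 0 ≤ ξ →
    ∀ i, 1 ≤ i → i ≤ 2 → ScN 3 B (llMod.D i A j ξ) := by
  obtain ⟨B, hB0, hB⟩ := LscMod.lsd_bd5 llMod_ok J
  refine ⟨B, hB0, fun A j Ξ h1 hJ hA ξ hξ i hi1 hi2 => ?_⟩
  have hj : 0 < j := zero_lt_one.trans_le h1
  exact scg_N_of_tower 3 (j := fun k => llMod.D (i + k) A j ξ)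
    (fun k x => LscMod.lsd_D_hasDerivAt llMod_ok hj hA hξ (i + k) x)
    (fun k hk z => hB A j Ξ h1 hJ hA (i + k) (by omega) (by omega) ξ hξ z)

theorem l9v_sq_N {n : ℕ} {B : ℝ} {u : ℝ → ℝ} (h : ScN n B u) : ScN n (2 ^ n * (B * B)) (fun z => u z ^ 2) := by
  refine (congrArg (ScN n (2 ^ n * (B * B))) ?_).mp (h.mul h)
  funext z
  ring

section dil3

variable {l : ℝ}

theorem l9v_mod_Gam (hl : 0 < l) {j Ξ : ℝ} {A : ℝ → ℝ} (hj : 1 ≤ j) (hA : LscProf j Ξ A) {r : ℝ} (hr : 0 ≤ r) :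
    llMod.Gam (l9vPr l A) (l * j) r = llMod.Gam A j (l ^ 2 * r) := by
  have hj0 : 0 < j := zero_lt_one.trans_le hj
  obtain ⟨B, -, hB⟩ := l9v_D_N j
  have hN := l9v_sq_N ((hB A j Ξ hj le_rfl hA (l ^ 2 * r) (by positivity) 1 le_rfl (by norm_num)).mono (by norm_num : 2 ≤ 3))
  unfold LscMod.Gam
  rw [← l9v_mod_E hl hj0 hA hr hN]
  congr 1
  funext y
  rw [l9v_mod_D hl hj0 hA hr]
  congr 1
  field_simp

theorem l9v_mod_Gam1 (hl : 0 < l) {j Ξ : ℝ} {A : ℝ → ℝ} (hj : 1 ≤ j) (hA : LscProf j Ξ A) {r : ℝ} (hr : 0 ≤ r) :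
    llMod.Gam1 (l9vPr l A) (l * j) r = l ^ 2 * llMod.Gam1 A j (l ^ 2 * r) := by
  have hj0 : 0 < j := zero_lt_one.trans_le hj
  obtain ⟨B, -, hB⟩ := l9v_D_N j
  have hN := l9v_sq_N ((hB A j Ξ hj le_rfl hA (l ^ 2 * r) (by positivity) 2 (by norm_num) le_rfl).mono (by norm_num : 2 ≤ 3))
  unfold LscMod.Gam1
  rw [← l9v_mod_E hl hj0 hA hr hN]
  have hE' : ScE 0 (fun y => llMod.D 2 A j (l ^ 2 * r) (l * y) ^ 2) :=
    ⟨hN.continuous.comp (by fun_prop), ScG.of_bdd (C := 2 ^ 2 * (B * B)) fun z => hN.bd _⟩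
  unfold LscMod.E
  rw [← llMod_ok.P_smul (mul_pos hl hj0) (l9v_prof hl hA) le_rfl hr (l ^ 2) hE' 0]
  congr 1
  funext y
  rw [l9v_mod_D hl hj0 hA hr]
  field_simp

end dil3

/-! ## B. the mass profile of a chain whose masses form a `δ`-net -/

/-- the chain is sorted, valid, and its masses (after their jumps) are a `δ`-net of `[0,a]` from below -/
structure L9vNet (a δ : ℝ) (ps : List GhPos) : Prop where
  lt : ps.Pairwise (· < ·)
  ok : ∀ x ∈ ps, x.Ok a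
  net : ∀ g, 0 ≤ g → g ≤ a → ∃ g', 0 ≤ g' ∧ g - δ ≤ g' ∧ g' ≤ g ∧ ghPosA g' ∈ ps

theorem L9vNet.ch {a δ τ : ℝ} (ha : 0 ≤ a) (hτ : 0 ≤ τ) {K : ℝ → ℝ} (hK : GhClk1 a K) {ps : List GhPos} (h : L9vNet a δ ps) :
    SlcCh a τ K 0 ps :=
  ⟨h.lt.imp fun h => h.le, h.ok, fun x hx => gh_os_at_nonneg ha hK (h.ok x hx).2.2.1, hτ⟩

/-- ONE finite set of positions serves all the terminal masses `a ≤ J` -/
theorem l9v_net_ps {J : ℝ} (hJ : 0 < J) (k : ℕ) {Fs : Finset GhPos} (hF : ghGrid J k ≤ Fs) {a : ℝ} (haJ : a ≤ J) :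
    L9vNet a (J / 2 ^ k) (ghPs a Fs) := by
  refine ⟨gh_os_ps_lt a Fs, fun x hx => (gh_os_ps_mem.1 hx).2, fun g h0 h1 => ?_⟩
  have h2 : (0 : ℝ) < 2 ^ k := by positivity
  set i : ℕ := ⌊g * 2 ^ k / J⌋₊ with hi
  have hx0 : 0 ≤ g * 2 ^ k / J := by positivity
  have hi1 : (i : ℝ) ≤ g * 2 ^ k / J := Nat.floor_le hx0
  have hi2 : g * 2 ^ k / J < i + 1 := Nat.lt_floor_add_one _
  have e1 : J * i / 2 ^ k ≤ g := by
    rw [div_le_iff₀ h2]
    rw [le_div_iff₀ hJ] at hi1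
    linarith
  have e2 : g - J / 2 ^ k ≤ J * i / 2 ^ k := by
    rw [div_lt_iff₀ hJ] at hi2
    rw [sub_le_iff_le_add, ← add_div, le_div_iff₀ h2]
    nlinarith
  have hik : i ≤ 2 ^ k := by
    have : (i : ℝ) ≤ 2 ^ k := by
      refine hi1.trans ?_
      rw [div_le_iff₀ hJ]
      nlinarith [h1.trans haJ]
    exact_mod_cast this
  refine ⟨J * i / 2 ^ k, by positivity, e2, e1, gh_os_ps_mem.2 ⟨hF ?_, gh_os_posA_ok (by positivity) (e1.trans h1)⟩⟩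
  unfold ghGrid
  exact Finset.mem_image.2 ⟨i, Finset.mem_range.2 (by omega), rfl⟩

/-- **sup-norm closeness** of the mass profile of the chain to the mass profile of the clock: only the net of the masses matters -/
theorem l9v_sup {a τ δ : ℝ} (ha : 0 ≤ a) (hτ : 0 ≤ τ) (hδ : 0 < δ) {K : ℝ → ℝ} (hK : GhClk1 a K) (hKτ : K a ≤ τ)
    {ps : List GhPos} (h : L9vNet a δ ps) {r : ℝ} (hr : r < τ) :
    |scAl (slcPi a τ K 0 ps) r - scAlK a K r| ≤ 2 * δ := by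
  have h1 := slc_al_ge ha hK hr ps 0 h.ok
  have h2 := fun q hq => slc_al_le a τ K r ps 0 (h.lt.imp fun h => h.le) q hq
  rw [sub_zero] at h1 h2
  have h3 : scAl (slcPi a τ K 0 ps) r ≤ a := (sc_Al_mem ha (slc_adm ha hK hKτ ps 0 (h.ch ha hτ hK)) r).2
  have h0 := slc_alK_nonneg a K r
  have h4 : scAl (slcPi a τ K 0 ps) r ≤ scAlK a K r + 2 * δ := by
    by_cases hc : a ≤ scAlK a K r + 2 * δ
    · exact h3.trans hc
    · push Not at hc
      obtain ⟨g', hg0, hg1, hg2, hg⟩ := h.net (scAlK a K r + 2 * δ) (by positivity) hc.le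
      have hlt : r < ghAt a K (ghPosA g') := by
        by_contra hcon
        push Not at hcon
        have := slc_alK_ge ha hK hg0 (hg2.trans hc.le) hcon
        linarith
      have := h2 _ hg hlt
      rw [slc_posA_u] at this
      linarith
  rw [abs_le]
  constructor <;> linarith

/-! ## C. the mass profile of the clock `K(v) = l⁻² A⁻¹(v / l)` is the dilated profile -/

theorem l9v_alK {A : ℝ → ℝ} {Ξ j l : ℝ} (hA : LpqProf A Ξ j) (hl : 0 < l) {r : ℝ} (hr : 0 ≤ r) :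
    scAlK (l * j) (fun v => (l ^ 2)⁻¹ * llInv A (v / l)) r = l9vPr l A r := by
  have h2 : 0 < l ^ 2 := by positivity
  have hmem := hA.mem_Icc (l ^ 2 * r) (by positivity)
  have hset : {v : ℝ | v ∈ Ioo 0 (l * j) ∧ (l ^ 2)⁻¹ * llInv A (v / l) ≤ r} = Ioo 0 (l * j) ∩ Iic (l * A (l ^ 2 * r)) := by
    ext v
    simp only [Set.mem_ofPred_eq, mem_inter_iff, mem_Iic]
    refine and_congr_right fun hv => ?_
    have hvj : v / l ≤ j := by
      rw [div_le_iff₀ hl]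
      linarith [hv.2]
    rw [inv_mul_le_iff₀ h2, lpq_galois hA _ _ hvj (by positivity), div_le_iff₀ hl, mul_comm]
  unfold scAlK l9vPr
  rw [hset]
  have hle : l * A (l ^ 2 * r) ≤ l * j := mul_le_mul_of_nonneg_left hmem.2 hl.le
  have h0 : 0 ≤ l * A (l ^ 2 * r) := mul_nonneg hl.le hmem.1
  rcases eq_or_lt_of_le hle with he | hlt
  · have : Ioo 0 (l * j) ∩ Iic (l * A (l ^ 2 * r)) = Ioo 0 (l * j) := by
      rw [he]
      exact inter_eq_left.2 fun v hv => hv.2.le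
    rw [this, Real.volume_Ioo, sub_zero, ENNReal.toReal_ofReal (he ▸ h0), he]
  · have : Ioo 0 (l * j) ∩ Iic (l * A (l ^ 2 * r)) = Ioc 0 (l * A (l ^ 2 * r)) := by
      ext v
      simp only [mem_inter_iff, mem_Ioo, mem_Iic, mem_Ioc]
      constructor
      · rintro ⟨⟨a1, _⟩, a3⟩; exact ⟨a1, a3⟩
      · rintro ⟨a1, a3⟩; exact ⟨⟨a1, a3.trans_lt hlt⟩, a3⟩
    rw [this, Real.volume_Ioc, sub_zero, ENNReal.toReal_ofReal h0]


/-! ## D. a step profile inside `llMod` -/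

section stepmod

variable {a τ : ℝ} {α : ℝ → ℝ} {π : List (ℝ × ℝ)}

theorem l9v_step_V (ha : 0 < a) (hα : LscProf a τ α) (hπ : ScAdm a π) (hi : ScInc π) (hlen : scLen π = τ)
    (he : ∀ r ∈ Ico 0 τ, α r = scAl π r) {r : ℝ} (hr : r ∈ Icc 0 τ) :
    llMod.V α a r = fun z => scVt (scLC a) π r z - a * τ / 2 := by
  rw [(llMod_id α a τ τ ha hα le_rfl).1 r hr, scg_step (sc_LC_BI a) (hα.coef τ) hπ hi hlen he hr.1]

theorem l9v_iter_sub_const (f : ℝ → ℝ) (c : ℝ) (k : ℕ) : deriv^[k + 1] (fun z => f z - c) = deriv^[k + 1] f := by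
  rw [Function.iterate_succ_apply, Function.iterate_succ_apply]
  congr 1
  funext z
  exact deriv_sub_const _

theorem l9v_step_D (ha : 0 < a) (hα : LscProf a τ α) (hπ : ScAdm a π) (hi : ScInc π) (hlen : scLen π = τ)
    (he : ∀ r ∈ Ico 0 τ, α r = scAl π r) {r : ℝ} (hr : r ∈ Icc 0 τ) (k : ℕ) :
    llMod.D (k + 1) α a r = scD (k + 1) (scLC a) π r := by
  unfold LscMod.D scD
  rw [l9v_step_V ha hα hπ hi hlen he hr, l9v_iter_sub_const]

theorem l9v_step_E (ha : 0 < a) (hα : LscProf a τ α) (hπ : ScAdm a π) (hi : ScInc π) (hlen : scLen π = τ)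
    (he : ∀ r ∈ Ico 0 τ, α r = scAl π r) {r : ℝ} (hr : r ∈ Icc 0 τ) {ψ : ℝ → ℝ} {M : ℝ} (hψ : ScN 2 M ψ) :
    llMod.E α a r ψ = scEx (scLC a) π r ψ := by
  unfold LscMod.E scEx
  rw [(llMod_id α a τ τ ha hα le_rfl).2 0 r le_rfl hr.1 hr.2 ψ (hψ.scE.mono (Nat.zero_le 2))]
  exact slc_P_step (sc_LC_BI a) hα.Xi0 (hα.coef τ) hπ hi hlen he hψ le_rfl hr.1 hr.2 0

theorem l9v_step_Gam (ha : 1 ≤ a) (hα : LscProf a τ α) (hπ : ScAdm a π) (hi : ScInc π) (hlen : scLen π = τ)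
    (he : ∀ r ∈ Ico 0 τ, α r = scAl π r) {r : ℝ} (hr : r ∈ Icc 0 τ) : llMod.Gam α a r = scGam (scLC a) π r := by
  have ha0 : 0 < a := zero_lt_one.trans_le ha
  obtain ⟨B, -, hB⟩ := l9v_D_N a
  have hN := l9v_sq_N ((hB α a τ ha le_rfl hα r hr.1 1 le_rfl (by norm_num)).mono (by norm_num : 2 ≤ 3))
  unfold LscMod.Gam scGam
  rw [l9v_step_E ha0 hα hπ hi hlen he hr hN, l9v_step_D ha0 hα hπ hi hlen he hr 0]

theorem l9v_step_Gam1 (ha : 1 ≤ a) (hα : LscProf a τ α) (hπ : ScAdm a π) (hi : ScInc π) (hlen : scLen π = τ)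
    (he : ∀ r ∈ Ico 0 τ, α r = scAl π r) {r : ℝ} (hr : r ∈ Icc 0 τ) : llMod.Gam1 α a r = scM2 (scLC a) π r := by
  have ha0 : 0 < a := zero_lt_one.trans_le ha
  obtain ⟨B, -, hB⟩ := l9v_D_N a
  have hN := l9v_sq_N ((hB α a τ ha le_rfl hα r hr.1 2 (by norm_num) le_rfl).mono (by norm_num : 2 ≤ 3))
  unfold LscMod.Gam1 scM2
  rw [l9v_step_E ha0 hα hπ hi hlen he hr hN, l9v_step_D ha0 hα hπ hi hlen he hr 1]

end stepmod

/-! ## E. closeness in `llMod`: sup norm of the profiles on a window -/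

theorem l9v_P_close {A : ℝ → ℝ} {j Ξ : ℝ} (hj : 0 < j) (hA : LscProf j Ξ A) {s t : ℝ} (h0 : 0 ≤ s) (hst : s ≤ t) {φ ψ : ℝ → ℝ}
    (hφ : ScE 0 φ) (hψ : ScE 0 ψ) {c : ℝ} (h : ∀ y, |φ y - ψ y| ≤ c) (z : ℝ) :
    |llMod.P A j s t φ z - llMod.P A j s t ψ z| ≤ c := by
  have e : φ = fun y => ψ y + (φ y - ψ y) := by funext y; ring
  have h1 := llMod_ok.P_add hj hA h0 hst hψ (hφ.sub hψ) z
  rw [← e] at h1
  rw [h1, add_sub_cancel_left]
  exact LscMod.lsd_P_abs_le llMod_ok hj hA h0 hst (hφ.sub hψ) h z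

theorem l9v_D_parity {A : ℝ → ℝ} {j Ξ : ℝ} (hj : 0 < j) (hA : LscProf j Ξ A) {ξ : ℝ} (hξ : 0 ≤ ξ) (k : ℕ) (z : ℝ) :
    llMod.D k A j ξ (-z) = (-1) ^ k * llMod.D k A j ξ z := by
  have e : llMod.V A j ξ = fun z => 1 * llMod.V A j ξ (-1 * z) := by
    funext z
    rw [one_mul, neg_one_mul, llMod_ok.V_even hj hA ξ hξ]
  have h := congrFun (l9v_iter (-1) k 1 (llMod.V A j ξ)) z
  rw [← e] at h
  unfold LscMod.D
  rw [h, neg_one_mul, mul_one, ← mul_assoc, ← pow_add, ← two_mul, pow_mul]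
  simp

theorem l9v_int_le {A A' : ℝ → ℝ} {R η ξ : ℝ} (hR : 0 ≤ R) (hη : 0 ≤ η) (hξ : 0 ≤ ξ) (hAA : ∀ x, R ≤ x → A' x = A x)
    (hc : ∀ x ∈ Ico 0 R, |A' x - A x| ≤ η) : ∫ r in Ioi ξ, |A' r - A r| ≤ η * R := by
  have h1 : ∀ r ∈ Ioi ξ, |A' r - A r| ≤ (Ioc 0 R).indicator (fun _ => η) r := by
    intro r hr
    have hr0 : 0 < r := lt_of_le_of_lt hξ hr
    by_cases h : r < R
    · have hm : r ∈ Ioc 0 R := ⟨hr0, h.le⟩
      rw [indicator_of_mem hm]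
      exact hc r ⟨hr0.le, h⟩
    · rw [hAA r (not_lt.1 h), sub_self, abs_zero]
      exact indicator_nonneg (fun _ _ => hη) r
  have hgi : Integrable ((Ioc 0 R).indicator fun _ : ℝ => η) (volume.restrict (Ioi ξ)) := by
    apply Integrable.restrict
    rw [integrable_indicator_iff measurableSet_Ioc]
    exact integrableOn_const (by simp) 
  calc ∫ r in Ioi ξ, |A' r - A r| ≤ ∫ r in Ioi ξ, (Ioc 0 R).indicator (fun _ => η) r :=
        integral_mono_of_nonneg (Eventually.of_forall fun _ => abs_nonneg _) hgi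
          ((ae_restrict_iff' measurableSet_Ioi).2 (Eventually.of_forall h1))
    _ ≤ ∫ r, (Ioc 0 R).indicator (fun _ => η) r :=
        setIntegral_le_integral ((integrable_indicator_iff measurableSet_Ioc).2 (integrableOn_const (by simp)))
          (Eventually.of_forall fun r => indicator_nonneg (fun _ _ => hη) r)
    _ = η * R := by
        rw [integral_indicator measurableSet_Ioc, setIntegral_const]
        simp [Measure.real, hR]
        ring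

/-- **(V), abstract form**: two profiles with the same terminal mass which coincide after `R` and are `η`-close before: jets of the orders `1..4`, `Γ`, `Γ'`.
The constant depends only on the bound `J` of the terminal mass and on the window `R`. -/
theorem l9v_close (J R : ℝ) (hR : 0 ≤ R) : ∃ C : ℝ, 0 ≤ C ∧ ∀ (A A' : ℝ → ℝ) (j Ξ Ξ' η : ℝ), 1 ≤ j → j ≤ J → LscProf j Ξ A →
    LscProf j Ξ' A' → 0 ≤ η → (∀ x, R ≤ x → A' x = A x) → (∀ x ∈ Ico 0 R, |A' x - A x| ≤ η) →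
      (∀ ξ, 0 ≤ ξ → ∀ k, 1 ≤ k → k ≤ 4 → ∀ z, |llMod.D k A' j ξ z - llMod.D k A j ξ z| ≤ C * η) ∧
      (∀ ξ ∈ Icc 0 R, |llMod.Gam A' j ξ - llMod.Gam A j ξ| ≤ C * η ∧ |llMod.Gam1 A' j ξ - llMod.Gam1 A j ξ| ≤ C * η) := by
  obtain ⟨C1, hC10, hC1⟩ := LscMod.lsd_dlip_win llMod_ok J R
  obtain ⟨B, hB0, hB⟩ := l9v_D_N J
  obtain ⟨CG, hCG⟩ := llMod_ok.P_grad J 2
  set K2 : ℝ := 2 ^ 3 * (B * B) with hK2
  have hK20 : 0 ≤ K2 := by positivity
  set Γ : ℝ := |CG| * K2 with hΓd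
  have hΓ0 : 0 ≤ Γ := by positivity
  set C2 : ℝ := 2 * Γ * Real.exp (4 * |J| * B * R) * (R * ((B + |J| * (C1 * R)) * R)) + 2 * B * (C1 * R) with hC2
  have hC20 : 0 ≤ C2 := by positivity
  refine ⟨C1 * R + C2, by positivity, ?_⟩
  intro A A' j Ξ Ξ' η h1 hJ hA hA' hη hAA hc
  have hj : 0 < j := zero_lt_one.trans_le h1
  have hJ' : j ≤ |J| := hJ.trans (le_abs_self J)
  have hjet : ∀ ξ, 0 ≤ ξ → ∀ k, 1 ≤ k → k ≤ 4 → ∀ z, |llMod.D k A' j ξ z - llMod.D k A j ξ z| ≤ C1 * R * η := by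
    intro ξ hξ k hk1 hk4 z
    refine (hC1 A A' j Ξ Ξ' h1 hJ hA hA' hAA ξ hξ k hk1 hk4 z).trans ?_
    calc C1 * ∫ r in Ioi ξ, |A' r - A r| ≤ C1 * (η * R) := mul_le_mul_of_nonneg_left (l9v_int_le hR hη hξ hAA hc) hC10
      _ = C1 * R * η := by ring
  have hlaw : ∀ ξ ∈ Icc 0 R, ∀ i, 1 ≤ i → i ≤ 2 →
      |llMod.E A' j ξ (fun y => llMod.D i A' j ξ y ^ 2) - llMod.E A j ξ (fun y => llMod.D i A j ξ y ^ 2)| ≤ C2 * η := by
    intro ξ hξ i hi1 hi2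
    have hN' := hB A' j Ξ' h1 hJ hA' ξ hξ.1 i hi1 hi2
    have hN := hB A j Ξ h1 hJ hA ξ hξ.1 i hi1 hi2
    have hψN := l9v_sq_N hN'
    have hφN := l9v_sq_N hN
    have hψe : ∀ z, llMod.D i A' j ξ (-z) ^ 2 = llMod.D i A' j ξ z ^ 2 := by
      intro z
      rw [l9v_D_parity hj hA' hξ.1, mul_pow, ← pow_mul, mul_comm i 2, pow_mul]
      simp
    -- the law
    have t1 : |llMod.E A' j ξ (fun y => llMod.D i A' j ξ y ^ 2) - llMod.E A j ξ (fun y => llMod.D i A' j ξ y ^ 2)|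
        ≤ 2 * Γ * Real.exp (4 * |J| * B * ξ) * ∫ _r in (0 : ℝ)..ξ, (B * η + |J| * (C1 * R * η)) * R := by
      refine LscMod.lsd_llip llMod_ok hj hj hA' hA hψN.scBd hψe (a := |J|) (B := B) (Γ := Γ) hJ' hξ.1
        (fun r hr z => (hB A' j Ξ' h1 hJ hA' r hr.1 2 (by norm_num) le_rfl).bd z) ?_
        (D := fun _ => C1 * R * η) (fun r hr y => hjet r hr.1.le 2 (by norm_num) (by norm_num) y) ?_ (by simp)
      · intro r hr y
        have := hCG A j Ξ h1 hJ hA r ξ hr.1 hr.2 _ K2 (hψN.mono (by norm_num : 2 ≤ 3)).scBd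
          (fun k hk y => hψN.iter (by omega) y) y
        exact this.trans (mul_le_mul_of_nonneg_right (le_abs_self _) hK20)
      · intro r hr
        have hrR : r ≤ R := hr.2.le.trans hξ.2
        have hr' : r ∈ Ico 0 R := ⟨hr.1.le, hr.2.trans_le hξ.2⟩
        have a1 : B * |A' r - A r| ≤ B * η := mul_le_mul_of_nonneg_left (hc r hr') hB0
        have a2 : A r * (C1 * R * η) ≤ |J| * (C1 * R * η) :=
          mul_le_mul_of_nonneg_right ((LscMod.lsd_A_mem hA hr.1.le).2.trans hJ') (by positivity)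
        have a3 : 0 ≤ B * |A' r - A r| + A r * (C1 * R * η) :=
          add_nonneg (mul_nonneg hB0 (abs_nonneg _)) (mul_nonneg (LscMod.lsd_A_mem hA hr.1.le).1 (by positivity))
        exact mul_le_mul (add_le_add a1 a2) hrR hr.1.le (a3.trans (add_le_add a1 a2))
    -- the test
    have t2 : |llMod.E A j ξ (fun y => llMod.D i A' j ξ y ^ 2) - llMod.E A j ξ (fun y => llMod.D i A j ξ y ^ 2)|
        ≤ 2 * B * (C1 * R * η) := by
      refine l9v_P_close hj hA le_rfl hξ.1 (hψN.scE.mono (Nat.zero_le 3)) (hφN.scE.mono (Nat.zero_le 3)) (fun y => ?_) 0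
      have e : llMod.D i A' j ξ y ^ 2 - llMod.D i A j ξ y ^ 2
          = (llMod.D i A' j ξ y + llMod.D i A j ξ y) * (llMod.D i A' j ξ y - llMod.D i A j ξ y) := by ring
      rw [e, abs_mul]
      refine mul_le_mul ((abs_add_le _ _).trans ?_) (hjet ξ hξ.1 i hi1 (by omega) y) (abs_nonneg _) (by positivity)
      linarith [hN'.bd y, hN.bd y]
    have hexp : Real.exp (4 * |J| * B * ξ) ≤ Real.exp (4 * |J| * B * R) :=
      Real.exp_le_exp.2 (mul_le_mul_of_nonneg_left hξ.2 (by positivity))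
    have hint : ∫ _r in (0 : ℝ)..ξ, (B * η + |J| * (C1 * R * η)) * R ≤ R * ((B + |J| * (C1 * R)) * R) * η := by
      rw [intervalIntegral.integral_const, sub_zero, smul_eq_mul]
      have : 0 ≤ (B * η + |J| * (C1 * R * η)) * R := by positivity
      calc ξ * ((B * η + |J| * (C1 * R * η)) * R) ≤ R * ((B * η + |J| * (C1 * R * η)) * R) :=
            mul_le_mul_of_nonneg_right hξ.2 this
        _ = _ := by ring
    have t1' : |llMod.E A' j ξ (fun y => llMod.D i A' j ξ y ^ 2) - llMod.E A j ξ (fun y => llMod.D i A' j ξ y ^ 2)|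
        ≤ 2 * Γ * Real.exp (4 * |J| * B * R) * (R * ((B + |J| * (C1 * R)) * R) * η) := by
      refine t1.trans (mul_le_mul (mul_le_mul_of_nonneg_left hexp (by positivity)) hint ?_ (by positivity))
      rw [intervalIntegral.integral_const, sub_zero, smul_eq_mul]
      have := hξ.1
      positivity
    calc _ ≤ |llMod.E A' j ξ (fun y => llMod.D i A' j ξ y ^ 2) - llMod.E A j ξ (fun y => llMod.D i A' j ξ y ^ 2)|
          + |llMod.E A j ξ (fun y => llMod.D i A' j ξ y ^ 2) - llMod.E A j ξ (fun y => llMod.D i A j ξ y ^ 2)| :=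
          abs_sub_le _ _ _
      _ ≤ 2 * Γ * Real.exp (4 * |J| * B * R) * (R * ((B + |J| * (C1 * R)) * R) * η) + 2 * B * (C1 * R * η) := add_le_add t1' t2
      _ = C2 * η := by rw [hC2]; ring
  have hle1 : C1 * R * η ≤ (C1 * R + C2) * η := by nlinarith [mul_nonneg hC20 hη]
  have hle2 : C2 * η ≤ (C1 * R + C2) * η := by nlinarith [mul_nonneg (mul_nonneg hC10 hR) hη]
  refine ⟨fun ξ hξ k hk1 hk4 z => (hjet ξ hξ k hk1 hk4 z).trans hle1, fun ξ hξ => ⟨?_, ?_⟩⟩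
  · exact (hlaw ξ hξ 1 le_rfl (by norm_num)).trans hle2
  · exact (hlaw ξ hξ 2 (by norm_num) le_rfl).trans hle2


/-! ## F. one chain, one clock -/

/-- the scalar profile of the fine LL path of a chain is the profile of the chain of `Defs/Clk.lean` -/
theorem l9v_pi_stp (a : ℝ) (b h K : ℝ → ℝ) : ∀ (ps : List GhPos) (b0 h0 c : ℝ),
    slkPi (llSc (l9Stp a b h K b0 h0 c ps)) = slkPi (skCStp a b K b0 c ps)
  | [], _, _, _ => rfl
  | p :: ps, b0, h0, c => by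
      show (p.u, ghAt a K p - c) :: slkPi (llSc (l9Stp a b h K (ghAt a b p) (ghAt a h p) (ghAt a K p) ps))
        = (p.u, ghAt a K p - c) :: slkPi (skCStp a b K (ghAt a b p) (ghAt a K p) ps)
      rw [l9v_pi_stp a b h K ps]

/-- the step coefficient of the completed chain is a profile of `llMod` -/
theorem l9v_al_prof {a τ : ℝ} (ha : 0 ≤ a) {K : ℝ → ℝ} (hK : GhClk1 a K) (hKτ : K a ≤ τ) {ps : List GhPos}
    (h : SlcCh a τ K 0 ps) : LscProf a τ (slcAl a τ K ps) := by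
  have hc := slc_al_coef ha hK hKτ h
  have hτ : 0 ≤ τ := h.2.2.2
  have htop : ∀ x, τ ≤ x → slcAl a τ K ps x = a := fun x hx => by unfold slcAl; rw [if_neg (not_lt.2 hx)]
  refine ⟨fun x hx y hy hxy => ?_, (hc.2 0 ⟨le_rfl, hτ⟩).1, htop, hτ⟩
  rcases le_total y τ with hy' | hy'
  · exact hc.1 ⟨hx, hxy.trans hy'⟩ ⟨hy, hy'⟩ hxy
  · rw [htop y hy']
    rcases le_total x τ with hx' | hx'
    · exact (hc.2 x ⟨hx, hx'⟩).2
    · rw [htop x hx']

theorem l9v_ann_M2 {a : ℝ} (ha : a ≠ 0) {d : ℝ} (hd : 0 ≤ d) (π : List (ℝ × ℝ)) {t : ℝ} (h0 : 0 ≤ t) (ht : t ≤ scLen π) :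
    scM2 (scLC a) (π ++ [(a, d)]) t = scM2 (scLC a) π t := by
  unfold scM2
  rw [sc_ann_Ex ha hd π ht, sc_ann_D ha hd 1 π h0 ht]

/-- **(V) on one chain, for one clock**: jets of the orders `1..4`, `Γ`, `Γ'` of the scalar reference of the chain against `llMod` at the mass profile of the clock.
`C` depends only on the bound `J` of the terminal mass and on the horizon `τ`. -/
theorem l9v_chain (J τ : ℝ) (hτ : 0 ≤ τ) : ∃ C : ℝ, 0 ≤ C ∧ ∀ (a δ : ℝ) (K A : ℝ → ℝ) (ps : List GhPos) (b h : ℝ → ℝ),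
    1 ≤ a → a ≤ J → 0 < δ → GhClk1 a K → K a ≤ τ → L9vNet a δ ps → LscProf a τ A → (∀ r ∈ Ico 0 τ, A r = scAlK a K r) →
    ∀ t ∈ Icc 0 (scLen (slkPi (llSc (l9Stp a b h K 0 0 0 ps)))),
      (∀ k, 1 ≤ k → k ≤ 4 → ∀ z, |scD k (scLC a) (slkPi (llSc (l9Stp a b h K 0 0 0 ps))) t z - llMod.D k A a t z| ≤ C * δ) ∧
      |scGam (scLC a) (slkPi (llSc (l9Stp a b h K 0 0 0 ps))) t - llMod.Gam A a t| ≤ C * δ ∧
      |scM2 (scLC a) (slkPi (llSc (l9Stp a b h K 0 0 0 ps))) t - llMod.Gam1 A a t| ≤ C * δ := by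
  obtain ⟨C, hC0, hC⟩ := l9v_close J τ hτ
  refine ⟨C * 2, by positivity, ?_⟩
  intro a δ K A ps b h h1 hJ hδ hK hKτ hnet hA hAK t ht
  have ha0 : 0 < a := zero_lt_one.trans_le h1
  have hch := hnet.ch ha0.le hτ hK (τ := τ)
  rw [l9v_pi_stp] at ht ⊢
  set π := slkPi (skCStp a b K 0 0 ps) with hπ
  have hpe : slcPi a τ K 0 ps = π ++ [(a, τ - 0 - scLen π)] := slc_pi_eq a τ b K ps 0 0
  have hle : scLen π ≤ τ - 0 := slc_stp_len_le ha0.le hK hKτ b ps 0 0 hch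
  have hd : 0 ≤ τ - 0 - scLen π := by linarith
  have hadm := slc_adm ha0.le hK hKτ ps 0 hch
  have hinc := slc_inc ha0.le hK hKτ ps 0 hch
  have hlen : scLen (slcPi a τ K 0 ps) = τ := by rw [slc_len, sub_zero]
  have hg := l9v_al_prof ha0.le hK hKτ hch
  have hge : ∀ r ∈ Ico 0 τ, slcAl a τ K ps r = scAl (slcPi a τ K 0 ps) r := fun r hr => by unfold slcAl; rw [if_pos hr.2]
  have htτ : t ∈ Icc 0 τ := ⟨ht.1, by linarith [ht.2]⟩
  obtain ⟨c1, c2⟩ := hC A (slcAl a τ K ps) a τ τ (2 * δ) h1 hJ hA hg (by positivity)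
    (fun x hx => by rw [hA.top x hx]; unfold slcAl; rw [if_neg (not_lt.2 hx)])
    (fun x hx => by rw [hge x hx, hAK x hx]; exact l9v_sup ha0.le hτ hδ hK hKτ hnet hx.2)
  have e : C * (2 * δ) = C * 2 * δ := by ring
  rw [e] at c1 c2
  refine ⟨fun k hk1 hk4 z => ?_, ?_, ?_⟩
  · obtain ⟨k', rfl⟩ : ∃ k', k = k' + 1 := ⟨k - 1, by omega⟩
    have := c1 t ht.1 (k' + 1) hk1 hk4 z
    rwa [l9v_step_D ha0 hg hadm hinc hlen hge htτ k', hpe, sc_ann_D ha0.ne' hd k' π ht.1 ht.2] at this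
  · have := (c2 t htτ).1
    rwa [l9v_step_Gam h1 hg hadm hinc hlen hge htτ, hpe, sc_ann_Gam ha0.ne' hd π ht.1 ht.2] at this
  · have := (c2 t htτ).2
    rwa [l9v_step_Gam1 h1 hg hadm hinc hlen hge htτ, hpe, l9v_ann_M2 ha0.ne' hd π ht.1 ht.2] at this


/-! ## G. the points of the LL paths -/

/-- the PHYSICAL mass profile (variance time `t`) of the scalar reference at the point `p` -/
noncomputable def l9vA (p : LlPt) (F : LlFix) : ℝ → ℝ := l9vPr p.ell (p.Aprof F llBase)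

/-- the fine path of the chain `ps` at the point `p` -/
noncomputable def l9vP (p : LlPt) (F : LlFix) (ps : List GhPos) : LlStp :=
  l9Stp p.a (p.b F llBase) (p.h F llBase) (p.K F llBase) 0 0 0 ps

/-- the scalar step profile of the chain `ps` at the point `p` -/
noncomputable def l9vPi (p : LlPt) (F : LlFix) (ps : List GhPos) : List (ℝ × ℝ) := slkPi (llSc (l9vP p F ps))

theorem l9v_pt_eqns_cite : True := by
  have := @l9vA.eq_1
  have := @l9vP.eq_1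
  have := @l9vPi.eq_1
  trivial

theorem LpqProf.lsc {A : ℝ → ℝ} {Ξ j : ℝ} (h : LpqProf A Ξ j) : LscProf j Ξ A := ⟨h.mono, h.nn, h.top, h.tau⟩

theorem LscProf.later {A : ℝ → ℝ} {Ξ Ξ' j : ℝ} (h : LscProf j Ξ A) (hΞ : Ξ ≤ Ξ') : LscProf j Ξ' A :=
  ⟨h.mono, h.nonneg, fun ξ hξ => h.top ξ (hΞ.trans hξ), h.Xi0.trans hΞ⟩

section pt

variable {p : LlPt} {F : LlFix}

theorem l9v_a_eq (hl : 0 < p.ell) : p.ell * (p.a / p.ell) = p.a := by field_simp

theorem l9v_j_eq (hl : 0 < p.ell) : p.a / p.ell = p.j := by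
  unfold LlPt.a LlPt.j
  split_ifs
  · rfl
  · exact div_self hl.ne'

theorem l9v_pt_V (hl : 0 < p.ell) {Ξ : ℝ} (hj : 0 < p.a / p.ell) (hA : LpqProf (p.Aprof F llBase) Ξ (p.a / p.ell)) {t : ℝ} (ht : 0 ≤ t) :
    p.V F llBase t = llMod.V (l9vA p F) p.a t := by
  have e := l9v_mod_V hl hj hA.lsc ht
  rw [l9v_a_eq hl] at e
  unfold l9vA
  rw [e, l9v_j_eq hl]
  rfl

theorem l9v_pt_Gam (hl : 0 < p.ell) {Ξ : ℝ} (hj : 1 ≤ p.a / p.ell) (hA : LpqProf (p.Aprof F llBase) Ξ (p.a / p.ell)) {t : ℝ} (ht : 0 ≤ t) :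
    p.Gam F llBase t = llMod.Gam (l9vA p F) p.a t := by
  have e := l9v_mod_Gam hl hj hA.lsc ht
  rw [l9v_a_eq hl] at e
  unfold l9vA
  rw [e, l9v_j_eq hl]
  rfl

theorem l9v_pt_Gam1 (hl : 0 < p.ell) {Ξ : ℝ} (hj : 1 ≤ p.a / p.ell) (hA : LpqProf (p.Aprof F llBase) Ξ (p.a / p.ell)) {t : ℝ} (ht : 0 ≤ t) :
    p.Gam1 F llBase t = llMod.Gam1 (l9vA p F) p.a t := by
  have e := l9v_mod_Gam1 hl hj hA.lsc ht
  rw [l9v_a_eq hl] at e
  unfold l9vA
  rw [e, l9v_j_eq hl]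
  rfl

theorem l9v_pt_clk (hl : 0 < p.ell) {Ξ : ℝ} (hA : LpqProf (p.Aprof F llBase) Ξ (p.a / p.ell)) : GhClk1 p.a (p.K F llBase) := by
  have hi : 0 ≤ (p.ell ^ 2)⁻¹ := by positivity
  refine ⟨fun v _ w hw hvw => ?_, mul_nonneg hi (lpq_inv_nonneg _ _)⟩
  exact mul_le_mul_of_nonneg_left (lpq_inv_mono hA _ _ (div_le_div_of_nonneg_right hvw hl.le)
    (div_le_div_of_nonneg_right hw.2 hl.le)) hi

theorem l9v_pt_top (hl : 1 ≤ p.ell) {Ξ : ℝ} (hA : LpqProf (p.Aprof F llBase) Ξ (p.a / p.ell)) : p.K F llBase p.a ≤ Ξ := by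
  have h1 : llInv (p.Aprof F llBase) (p.a / p.ell) ≤ Ξ := lpq_inv_le_tau hA _ le_rfl
  have h0 := lpq_inv_nonneg (p.Aprof F llBase) (p.a / p.ell)
  have h2 : (p.ell ^ 2)⁻¹ ≤ 1 := inv_le_one_of_one_le₀ (one_le_pow₀ hl)
  calc p.K F llBase p.a = (p.ell ^ 2)⁻¹ * llInv (p.Aprof F llBase) (p.a / p.ell) := rfl
    _ ≤ 1 * llInv (p.Aprof F llBase) (p.a / p.ell) := mul_le_mul_of_nonneg_right h2 h0
    _ ≤ Ξ := by linarith

theorem l9v_pt_prof (hl : 1 ≤ p.ell) {Ξ τ : ℝ} (hA : LpqProf (p.Aprof F llBase) Ξ (p.a / p.ell)) (hΞ : Ξ ≤ τ) :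
    LscProf p.a τ (l9vA p F) := by
  have hl0 : 0 < p.ell := zero_lt_one.trans_le hl
  have e := l9v_prof hl0 hA.lsc
  rw [l9v_a_eq hl0] at e
  refine e.later ((div_le_self hA.tau (one_le_pow₀ hl)).trans hΞ)

theorem l9v_pt_alK (hl : 0 < p.ell) {Ξ : ℝ} (hA : LpqProf (p.Aprof F llBase) Ξ (p.a / p.ell)) {r : ℝ} (hr : 0 ≤ r) :
    l9vA p F r = scAlK p.a (p.K F llBase) r := by
  have e := l9v_alK hA hl hr
  rw [l9v_a_eq hl] at e
  exact e.symm

end pt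

/-- **(V) at the point `p` on the chain `ps`**, closeness `η` -/
structure L9vV (p : LlPt) (F : LlFix) (ps : List GhPos) (η : ℝ) : Prop where
  jet : ∀ t ∈ Icc 0 (scLen (l9vPi p F ps)), ∀ k, 1 ≤ k → k ≤ 4 → ∀ z,
    |scD k (scLC p.a) (l9vPi p F ps) t z - deriv^[k] (p.V F llBase t) z| ≤ η
  gam : ∀ t ∈ Icc 0 (scLen (l9vPi p F ps)), |scGam (scLC p.a) (l9vPi p F ps) t - p.Gam F llBase t| ≤ η
  gam1 : ∀ t ∈ Icc 0 (scLen (l9vPi p F ps)), |scM2 (scLC p.a) (l9vPi p F ps) t - p.Gam1 F llBase t| ≤ η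
  /-- the reference overlap of the chain (Q-LINK) -/
  q : ∀ k ≤ (l9vP p F ps).length, |llQs p.a (l9vP p F ps) k - p.Gam F llBase (llCumK (l9vP p F ps) k)| ≤ η
  pos : ScPos (l9vPi p F ps)
  /-- the cuts of the chain are times of the scalar reference -/
  cut : ∀ k, llCumK (l9vP p F ps) k ∈ Icc 0 (scLen (l9vPi p F ps))

theorem l9v_cumK (P : LlStp) (k : ℕ) : llCumK P k = scLen ((slkPi (llSc P)).take k) := by
  rw [← slk_Pi_take]
  show _ = slkT (llSc P) k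
  rw [slk_T_eq]
  simp [skCumH, llCumK, llSc, List.map_take]
  rfl

/-- **(V) at one point, one chain**.   `C` depends only on the horizon `τ` -/
theorem l9v_pt (τ : ℝ) (hτ : 0 ≤ τ) : ∃ C : ℝ, 0 ≤ C ∧ ∀ (p : LlPt) (F : LlFix) (Ξ δ : ℝ) (ps : List GhPos), 1 ≤ p.ell → 1 ≤ p.a / p.ell → p.a ≤ 4 →
    LpqProf (p.Aprof F llBase) Ξ (p.a / p.ell) → Ξ ≤ τ → 0 < δ → L9vNet p.a δ ps → L9vV p F ps (C * δ) := by
  obtain ⟨C, hC0, hC⟩ := l9v_chain 4 τ hτ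
  refine ⟨C, hC0, fun p F Ξ δ ps hl hj ha4 hA hΞ hδ hnet => ?_⟩
  have hl0 : 0 < p.ell := zero_lt_one.trans_le hl
  have ha1 : 1 ≤ p.a := by
    rw [← l9v_a_eq hl0]
    nlinarith
  have ha0 : 0 < p.a := zero_lt_one.trans_le ha1
  have hK := l9v_pt_clk (F := F) hl0 hA
  have hKτ := (l9v_pt_top (F := F) hl hA).trans hΞ
  have key := hC p.a δ (p.K F llBase) (l9vA p F) ps (p.b F llBase) (p.h F llBase) ha1 ha4 hδ hK hKτ hnet
    (l9v_pt_prof hl hA hΞ) (fun r hr => l9v_pt_alK hl0 hA hr.1)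
  have hgam : ∀ t ∈ Icc 0 (scLen (l9vPi p F ps)), |scGam (scLC p.a) (l9vPi p F ps) t - p.Gam F llBase t| ≤ C * δ := by
    intro t ht
    rw [l9v_pt_Gam hl0 hj hA ht.1]
    exact (key t ht).2.1
  have hpos : ScPos (l9vPi p F ps) := by
    unfold l9vPi l9vP
    rw [l9v_pi_stp]
    exact slk_pos (slc_dh_nonneg ha0.le hK hKτ _ ps 0 0 (hnet.ch ha0.le hτ hK))
  have hcut : ∀ k, llCumK (l9vP p F ps) k ∈ Icc 0 (scLen (l9vPi p F ps)) := by
    intro k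
    rw [l9v_cumK]
    exact ⟨sc_len_nonneg (slk_pos_take hpos k), slc_len_take_le hpos k⟩
  refine ⟨fun t ht k hk1 hk4 z => ?_, hgam, fun t ht => ?_, fun k hk => ?_, hpos, hcut⟩
  · rw [l9v_pt_V hl0 (zero_lt_one.trans_le hj) hA ht.1]
    exact (key t ht).1 k hk1 hk4 z
  · rw [l9v_pt_Gam1 hl0 hj hA ht.1]
    exact (key t ht).2.2
  · have hdK : ∀ e ∈ l9vP p F ps, 0 ≤ e.dK := by
      intro e he
      have : (e.m, e.dK) ∈ l9vPi p F ps := by
        unfold l9vPi slkPi llSc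
        rw [List.map_map]
        exact List.mem_map.2 ⟨e, he, rfl⟩
      exact hpos _ this
    rw [slk_llQs ha0.ne' hdK hk]
    exact hgam _ (hcut k)

/-- `p.M` depends on `p.N` only -/
theorem l9v_M_congr {p p' : LlPt} (h : p.N = p'.N) : p.M = p'.M := by
  unfold LlPt.M LlPt.x
  rw [h]

theorem l9v_pt_rg {p : LlPt} {F : LlFix} (hp : p.Ok F) : 1 ≤ p.a / p.ell ∧ p.a ≤ 4 := by
  have h1 := hp.ell1
  have hl0 : 0 < p.ell := zero_lt_one.trans_le h1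
  have h2 : p.ell ≤ 2 := by
    have h3 : p.ell ≤ (2 : ℝ) ^ (1 / 6 : ℝ) := hp.ell2
    have h4 : (2 : ℝ) ^ (1 / 6 : ℝ) ≤ (2 : ℝ) ^ (1 : ℝ) := Real.rpow_le_rpow_of_exponent_le (by norm_num) (by norm_num)
    rw [Real.rpow_one] at h4
    linarith
  unfold LlPt.a
  split_ifs
  · exact ⟨by rw [le_div_iff₀ hl0]; linarith, le_rfl⟩
  · exact ⟨by rw [div_self hl0.ne'], by linarith⟩

/-- **(V), EVENTUAL FORM**: at fixed `N`, for all sufficiently fine chains, UNIFORMLY in the point (all `ℓ, λ, γ, χ`, direct or smoothed) -/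
theorem l9v_ev (F : LlFix) (N : ℕ) {η : ℝ} (hη : 0 < η) : ∀ᶠ Fs : Finset GhPos in atTop, ∀ p : LlPt, p.N = N → p.Ok F →
    LpqProf (p.Aprof F llBase) (if p.sm then p.M else llBase.xiS F.T) (p.a / p.ell) → L9vV p F (ghPs p.a Fs) η := by
  set p0 : LlPt := ⟨N, 1, 1, 0, fun _ => 0, 0, 0, false⟩ with hp0
  set τ : ℝ := max 0 (max p0.M (llBase.xiS F.T)) with hτd
  obtain ⟨C, hC0, hC⟩ := l9v_pt τ (le_max_left _ _)
  obtain ⟨k, hk⟩ := slc_pow_small (C := C * 4) hη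
  filter_upwards [eventually_ge_atTop (ghGrid 4 k)] with Fs hFs p hN hp hA
  obtain ⟨hj, ha4⟩ := l9v_pt_rg hp
  have hΞ : (if p.sm then p.M else llBase.xiS F.T) ≤ τ := by
    split_ifs
    · rw [l9v_M_congr (p' := p0) hN]
      exact (le_max_left _ _).trans (le_max_right _ _)
    · exact (le_max_right _ _).trans (le_max_right _ _)
  have h := hC p F _ (4 / 2 ^ k) (ghPs p.a Fs) hp.ell1 hj ha4 hA hΞ (by positivity) (l9v_net_ps (by norm_num) k hFs ha4)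
  have hle : C * (4 / 2 ^ k) ≤ η := by
    have : C * (4 / 2 ^ k) = C * 4 / 2 ^ k := by ring
    rw [this]
    exact hk.le
  exact ⟨fun t ht k h1 h4 z => (h.jet t ht k h1 h4 z).trans hle, fun t ht => (h.gam t ht).trans hle,
    fun t ht => (h.gam1 t ht).trans hle, fun k hk => (h.q k hk).trans hle, h.pos, h.cut⟩

/-- **(V), EVENTUAL FORM on the chains IN USE** (Contract v5: `L9I.ps p = ghPs p.a (l9Fl I.Fs)`) -/
theorem l9v_evF (F : LlFix) (N : ℕ) {η : ℝ} (hη : 0 < η) : ∀ᶠ Fs : Finset GhPos in atTop, ∀ p : LlPt, p.N = N → p.Ok F →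
    LpqProf (p.Aprof F llBase) (if p.sm then p.M else llBase.xiS F.T) (p.a / p.ell) → L9vV p F (ghPs p.a (l9Fl Fs)) η := by
  set p0 : LlPt := ⟨N, 1, 1, 0, fun _ => 0, 0, 0, false⟩ with hp0
  set τ : ℝ := max 0 (max p0.M (llBase.xiS F.T)) with hτd
  obtain ⟨C, hC0, hC⟩ := l9v_pt τ (le_max_left _ _)
  obtain ⟨k, hk⟩ := slc_pow_small (C := C * 4) hη
  filter_upwards [eventually_ge_atTop (ghGrid 4 k)] with Fs hFs p hN hp hA
  obtain ⟨hj, ha4⟩ := l9v_pt_rg hp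
  have hΞ : (if p.sm then p.M else llBase.xiS F.T) ≤ τ := by
    split_ifs
    · rw [l9v_M_congr (p' := p0) hN]
      exact (le_max_left _ _).trans (le_max_right _ _)
    · exact (le_max_right _ _).trans (le_max_right _ _)
  have h := hC p F _ (4 / 2 ^ k) (ghPs p.a (l9Fl Fs)) hp.ell1 hj ha4 hA hΞ (by positivity) (l9v_net_ps (by norm_num) k (l9_fl_grid hFs) ha4)
  have hle : C * (4 / 2 ^ k) ≤ η := by
    have : C * (4 / 2 ^ k) = C * 4 / 2 ^ k := by ring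
    rw [this]
    exact hk.le
  exact ⟨fun t ht k h1 h4 z => (h.jet t ht k h1 h4 z).trans hle, fun t ht => (h.gam t ht).trans hle,
    fun t ht => (h.gam1 t ht).trans hle, fun k hk => (h.q k hk).trans hle, h.pos, h.cut⟩

/-! ## H. the numbers of (E6): `χ`, `g`, `b∘` on a chain -/

/-- the scalar step profile of a fine path (`= pkPi P` of `Inv/PairDefs`) -/
theorem l9v_pi_map (P : LlStp) : slkPi (llSc P) = P.map fun e => (e.m, e.dK) := by
  unfold slkPi llSc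
  rw [List.map_map]
  rfl

section nums

variable {p : LlPt} {F : LlFix} {ps : List GhPos} {η : ℝ}

/-- `Γ'` at the cuts of the chain (`g_left` of LL 08: `pkX2 p.a P k = scM2 (scLC p.a) (pkPi P) (llCumK P k)`) -/
theorem L9vV.g (h : L9vV p F ps η) (k : ℕ) :
    |scM2 (scLC p.a) (l9vPi p F ps) (llCumK (l9vP p F ps) k) - p.Gam1 F llBase (llCumK (l9vP p F ps) k)| ≤ η :=
  h.gam1 _ (h.cut k)

theorem L9vV.zero_mem (h : L9vV p F ps η) : (0 : ℝ) ∈ Icc 0 (scLen (l9vPi p F ps)) := ⟨le_rfl, sc_len_nonneg h.pos⟩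

theorem L9vV.eta_nonneg (h : L9vV p F ps η) : 0 ≤ η := (abs_nonneg _).trans (h.gam 0 h.zero_mem)

/-- the physical jets at `(0,0)` are the rescaled normalised jets -/
theorem l9v_V0 (p : LlPt) (F : LlFix) (r : ℕ) :
    deriv^[r] (p.V F llBase 0) 0 = p.ell ^ r * p.ell⁻¹ * iteratedDeriv r (llBase.scV (p.Aprof F llBase) p.j 0) 0 := by
  have e : p.V F llBase 0 = fun z => p.ell⁻¹ * llBase.scV (p.Aprof F llBase) p.j 0 (p.ell * z) := by
    funext z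
    unfold LlPt.V
    rw [mul_zero]
  rw [e, l9v_iter, iteratedDeriv_eq_iterate]
  show p.ell ^ r * p.ell⁻¹ * deriv^[r] (llBase.scV (p.Aprof F llBase) p.j 0) (p.ell * 0) = _
  rw [mul_zero]

theorem l9v_exp_pow (θ : ℝ) (r : ℕ) : Real.exp (θ / 6) ^ r * (Real.exp (θ / 6))⁻¹ = Real.exp (((r : ℝ) - 1) / 6 * θ) := by
  rw [← Real.exp_nat_mul, ← Real.exp_neg, ← Real.exp_add]
  congr 1
  ring

end nums

/-- **(E6) on two chains**, order `r ≤ 4` (`r = 2`: `χ`, weight `1/6`; `r = 4`: `g`, weight `1/2`) -/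
theorem l9v_e6 {p : LlPt} {F : LlFix} {c C v0 ξ0 θ θ' η : ℝ} {R0 : ℕ} {ps ps' : List GhPos}
    (hreg : p.RegT F llBase c C v0 ξ0 R0 θ θ') (hV : L9vV (p.wTh θ) F ps η) (hV' : L9vV (p.wTh θ') F ps' η)
    {r : ℕ} (h1 : 1 ≤ r) (h4 : r ≤ 4) (hR : r ≤ R0) :
    |scD r (scLC (p.wTh θ').a) (l9vPi (p.wTh θ') F ps') 0 0
        - Real.exp (((r : ℝ) - 1) / 6 * (θ' - θ)) * scD r (scLC (p.wTh θ).a) (l9vPi (p.wTh θ) F ps) 0 0|
      ≤ (1 + Real.exp (((r : ℝ) - 1) / 6 * (θ' - θ))) * η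
        + Real.exp (((r : ℝ) - 1) / 6 * θ') * (C * Real.exp (-c * p.M) * |θ' - θ|) := by
  have a1 := hV.jet 0 hV.zero_mem r h1 h4 0
  have a2 := hV'.jet 0 hV'.zero_mem r h1 h4 0
  have a3 := hreg.jet r h1 hR
  rw [l9v_V0] at a1 a2
  have e1 : (p.wTh θ).ell = Real.exp (θ / 6) := rfl
  have e2 : (p.wTh θ').ell = Real.exp (θ' / 6) := rfl
  rw [e1, l9v_exp_pow] at a1
  rw [e2, l9v_exp_pow] at a2
  set X := scD r (scLC (p.wTh θ).a) (l9vPi (p.wTh θ) F ps) 0 0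
  set X' := scD r (scLC (p.wTh θ').a) (l9vPi (p.wTh θ') F ps') 0 0
  set v := iteratedDeriv r (llBase.scV ((p.wTh θ).Aprof F llBase) (p.wTh θ).j 0) 0
  set v' := iteratedDeriv r (llBase.scV ((p.wTh θ').Aprof F llBase) (p.wTh θ').j 0) 0
  set w : ℝ := ((r : ℝ) - 1) / 6
  have ee : Real.exp (w * (θ' - θ)) * Real.exp (w * θ) = Real.exp (w * θ') := by
    rw [← Real.exp_add]
    congr 1
    ring
  have key : X' - Real.exp (w * (θ' - θ)) * X
      = (X' - Real.exp (w * θ') * v') + Real.exp (w * θ') * (v' - v) - Real.exp (w * (θ' - θ)) * (X - Real.exp (w * θ) * v) := by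
    rw [← ee]
    ring
  rw [key]
  have b1 : |Real.exp (w * θ') * (v' - v)| ≤ Real.exp (w * θ') * (C * Real.exp (-c * p.M) * |θ' - θ|) := by
    rw [abs_mul, abs_of_pos (Real.exp_pos _)]
    exact mul_le_mul_of_nonneg_left a3 (Real.exp_pos _).le
  have b2 : |Real.exp (w * (θ' - θ)) * (X - Real.exp (w * θ) * v)| ≤ Real.exp (w * (θ' - θ)) * η := by
    rw [abs_mul, abs_of_pos (Real.exp_pos _)]
    exact mul_le_mul_of_nonneg_left a1 (Real.exp_pos _).le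
  calc _ ≤ |X' - Real.exp (w * θ') * v' + Real.exp (w * θ') * (v' - v)| + |Real.exp (w * (θ' - θ)) * (X - Real.exp (w * θ) * v)| :=
        abs_sub _ _
    _ ≤ |X' - Real.exp (w * θ') * v'| + |Real.exp (w * θ') * (v' - v)| + |Real.exp (w * (θ' - θ)) * (X - Real.exp (w * θ) * v)| := by
        gcongr
        exact abs_add_le _ _
    _ ≤ η + Real.exp (w * θ') * (C * Real.exp (-c * p.M) * |θ' - θ|) + Real.exp (w * (θ' - θ)) * η := by
        gcongr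
    _ = _ := by ring

/-- **the field `chi`**: lower bound of `G_zz(0,0)²` on a chain -/
theorem l9v_chi {p : LlPt} {F : LlFix} {c C v0 η : ℝ} {ps : List GhPos} (hc : 0 < c) (href : p.Ref F llBase c C v0)
    (hV : L9vV p F ps η) (hη : 4 * C * η ^ 2 ≤ 1) : 1 ≤ 4 * C * (scD 2 (scLC p.a) (l9vPi p F ps) 0 0) ^ 2 := by
  have a1 := hV.jet 0 hV.zero_mem 2 (by norm_num) (by norm_num) 0
  have a2 := href.v2
  rw [iteratedDeriv_eq_iterate] at a2
  have hb0 : 0 < p.b0 F llBase := hc.trans_le href.b0_lo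
  have hC : 0 < C := hb0.trans_le href.b0_hi
  have hG : p.Gam1 F llBase 0 * p.b0 F llBase = 1 := by
    have hne : p.Gam1 F llBase 0 ≠ 0 := by
      intro h0
      unfold LlPt.b0 at hb0
      rw [h0] at hb0
      simp at hb0
    unfold LlPt.b0
    field_simp
  set X := scD 2 (scLC p.a) (l9vPi p F ps) 0 0
  set v := deriv^[2] (fun z => p.V F llBase 0 z) 0
  have a1' : |X - v| ≤ η := a1
  have hv : 1 ≤ C * v ^ 2 := by
    rw [a2, ← hG]
    have : 0 ≤ p.Gam1 F llBase 0 := by rw [← a2]; positivity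
    nlinarith [href.b0_hi]
  have hd : (X - v) ^ 2 ≤ η ^ 2 := by
    rw [← sq_abs (X - v)]
    exact pow_le_pow_left₀ (abs_nonneg _) a1' 2
  have h2 : v ^ 2 ≤ 2 * X ^ 2 + 2 * (X - v) ^ 2 := by nlinarith [sq_nonneg (2 * X - v)]
  nlinarith

/-! ## I. the forms of `L09/PhysI` (47), `L09/Main` (`L14E6`, 242), `L09/GridFD` (`L9fE6`, 263) -/

theorem l9v_I_pi (F : LlFix) (s : ℝ) (Fs : Finset GhPos) (m : ℕ) (p : LlPt) :
    (⟨F, llBase, s, Fs, m⟩ : L9I).pi p = l9vPi p F (ghPs p.a (l9Fl Fs)) := rfl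

/-- the filled clock starts at `0` -/
theorem l9v_fK0 (I : L9I) (p : LlPt) : I.fK p 0 = 0 := by
  have hm : ∀ q ∈ I.pi p, 0 ≤ q.1 := by
    intro q hq
    have : q.1 ∈ (I.pi p).map Prod.fst := List.mem_map_of_mem hq
    rw [l9ph_I_fst] at this
    obtain ⟨g, hg, e⟩ := List.mem_map.1 this
    rw [← e]
    exact (gh_os_ps_mem.1 hg).2.1
  unfold L9I.fK
  cases h : I.pi p with
  | nil => rfl
  | cons q π =>
    rw [l9phK, if_pos (hm q (by rw [h]; exact List.mem_cons_self)), sub_self, mul_zero]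

theorem l9v_ref_jet (I : L9I) (p : LlPt) {j : ℕ} (hj : 1 ≤ j) : ((I.ref p).g j 0).1 0 = scD j (scLC p.a) (I.pi p) 0 0 := by
  rw [l9ph_ref_g I p hj, l9v_fK0]

section mod1

variable {I : L9I} {p : LlPt} {c0 eps : ℝ} {Cn : ℕ → ℝ}

theorem l9v_mod1_chi (hR : (I.ref p).Ok c0 eps Cn) : (l9mMod1 hR).chi = scD 2 (scLC p.a) (I.pi p) 0 0 :=
  l9v_ref_jet I p (j := 2) (by norm_num)

theorem l9v_mod1_gg (hR : (I.ref p).Ok c0 eps Cn) : (l9mMod1 hR).gg = scD 4 (scLC p.a) (I.pi p) 0 0 :=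
  l9v_ref_jet I p (j := 4) (by norm_num)

theorem l9v_mod1_k0 (hR : (I.ref p).Ok c0 eps Cn) : (l9mMod1 hR).k0 = p.k0 I.F I.𝔹 := l9ph_ref_kap0 I p

end mod1

theorem l9v_exp_le_two {w h : ℝ} (hw0 : 0 ≤ w) (hw : w ≤ 1 / 2) (hh1 : h ≤ 1) : Real.exp (w * h) ≤ 2 := by
  have h1 : w * h ≤ 1 / 2 := by nlinarith
  have h2 : Real.exp (w * h) ≤ Real.exp (1 / 2) := Real.exp_le_exp.2 h1
  have h3 : Real.exp (1 / 2 : ℝ) ≤ 2 := by
    have h4 : Real.exp (1 / 2 : ℝ) ^ 2 = Real.exp 1 := by rw [← Real.exp_nat_mul]; norm_num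
    have h5 := Real.exp_one_lt_d9
    have h6 := (Real.exp_pos (1 / 2 : ℝ)).le
    nlinarith
  exact h2.trans h3

/-- **(E6), the two relations of `L14E6` / `L9fE6` which see the jets**, at the signed step `h`, on one chain `Fs`:
`η` = closeness (V) of the chain, `C e^{-cM}` = the rescaling bound of `RegT` -/
theorem l9v_e6_I {F : LlFix} {s : ℝ} {Fs : Finset GhPos} {m : ℕ} {p : LlPt} {c C v0 ξ0 θ h η : ℝ} {R0 : ℕ} (hR0 : 4 ≤ R0) (hC : 0 ≤ C)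
    (hreg : p.RegT F llBase c C v0 ξ0 R0 θ (θ + h)) (hV : L9vV (p.wTh θ) F (ghPs (p.wTh θ).a (l9Fl Fs)) η)
    (hV' : L9vV (p.wTh (θ + h)) F (ghPs (p.wTh (θ + h)).a (l9Fl Fs)) η) (hh : h ≤ 1) (hθ : θ + h ≤ 1) :
    |scD 2 (scLC (p.wTh (θ + h)).a) ((⟨F, llBase, s, Fs, m⟩ : L9I).pi (p.wTh (θ + h))) 0 0
        - Real.exp (1 / 6 * h) * scD 2 (scLC (p.wTh θ).a) ((⟨F, llBase, s, Fs, m⟩ : L9I).pi (p.wTh θ)) 0 0|
      ≤ 3 * η + 2 * (C * Real.exp (-c * p.M)) * |h| ∧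
    |scD 4 (scLC (p.wTh (θ + h)).a) ((⟨F, llBase, s, Fs, m⟩ : L9I).pi (p.wTh (θ + h))) 0 0
        - Real.exp (1 / 2 * h) * scD 4 (scLC (p.wTh θ).a) ((⟨F, llBase, s, Fs, m⟩ : L9I).pi (p.wTh θ)) 0 0|
      ≤ 3 * η + 2 * (C * Real.exp (-c * p.M)) * |h| := by
  have hη := hV.eta_nonneg
  have hB : 0 ≤ C * Real.exp (-c * p.M) * |h| := by positivity
  have gen : ∀ (r : ℕ) (w : ℝ), 1 ≤ r → r ≤ 4 → ((r : ℝ) - 1) / 6 = w → 0 ≤ w → w ≤ 1 / 2 →
      |scD r (scLC (p.wTh (θ + h)).a) (l9vPi (p.wTh (θ + h)) F (ghPs (p.wTh (θ + h)).a (l9Fl Fs))) 0 0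
        - Real.exp (w * h) * scD r (scLC (p.wTh θ).a) (l9vPi (p.wTh θ) F (ghPs (p.wTh θ).a (l9Fl Fs))) 0 0|
      ≤ 3 * η + 2 * (C * Real.exp (-c * p.M)) * |h| := by
    intro r w h1 h4 hw hw0 hw1
    have key := l9v_e6 hreg hV hV' h1 h4 (h4.trans hR0)
    rw [hw, add_sub_cancel_left] at key
    refine key.trans ?_
    have e1 := l9v_exp_le_two hw0 hw1 hh
    have e2 := l9v_exp_le_two hw0 hw1 hθ
    nlinarith [mul_le_mul_of_nonneg_right e1 hη, mul_le_mul_of_nonneg_right e2 hB]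
  exact ⟨gen 2 (1 / 6) (by norm_num) (by norm_num) (by norm_num) (by norm_num) (by norm_num),
    gen 4 (1 / 2) (by norm_num) (by norm_num) (by norm_num) (by norm_num) (by norm_num)⟩

/-- **the field `chi` of `l9ph_main` (47), EVENTUAL FORM** at fixed `N`: `C0 = 4 C`, `C` = the constant of (P2) -/
theorem l9v_chi_ev (F : LlFix) (N : ℕ) {c C v0 : ℝ} (hc : 0 < c) : ∀ᶠ Fs : Finset GhPos in atTop, ∀ (s : ℝ) (m : ℕ) (p : LlPt),
    p.N = N → p.Ok F → LpqProf (p.Aprof F llBase) (if p.sm then p.M else llBase.xiS F.T) (p.a / p.ell) → p.Ref F llBase c C v0 →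
      1 ≤ 4 * C * (scD 2 (scLC p.a) ((⟨F, llBase, s, Fs, m⟩ : L9I).pi p) 0 0) ^ 2 := by
  have hη : (0 : ℝ) < 1 / (2 * (|C| + 1)) := by positivity
  filter_upwards [l9v_evF F N hη] with Fs hFs s m p hN hp hA href
  refine l9v_chi hc href (hFs p hN hp hA) ?_
  have h1 : C ≤ |C| := le_abs_self C
  have h0 := abs_nonneg C
  have e : 4 * C * (1 / (2 * (|C| + 1))) ^ 2 = C / (|C| + 1) ^ 2 := by
    field_simp
    ring
  rw [e, div_le_one (by positivity)]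
  nlinarith

theorem l9v_mod1_bo_le {R : L9mRef} {c0 eps : ℝ} {Cn : ℕ → ℝ} (hR : R.Ok c0 eps Cn) : |(l9mMod1 hR).bo| ≤ Cn 0 := by
  have h1 := hR.chi
  have h2 : 0 < ((R.g 2 0).1 0) ^ 2 := by
    rcases (sq_nonneg ((R.g 2 0).1 0)).lt_or_eq with h0 | h0
    · exact h0
    · rw [← h0] at h1
      norm_num at h1
  show |(((R.g 2 0).1 0) ^ 2)⁻¹| ≤ _
  rw [abs_of_pos (inv_pos.2 h2), inv_le_iff_one_le_mul₀ h2]
  linarith [h1, mul_comm (Cn 0) (((R.g 2 0).1 0) ^ 2)]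

/-- **INSTANCE of `L9fE6`** (263, `L09/GridFD`): the pair of grid models at `θ, θ + h` on one chain;   `e = 3 η / |h| + 2 C e^{-cM}` -/
theorem l9v_fE6 {F : LlFix} {s : ℝ} {Fs : Finset GhPos} {m : ℕ} {p : LlPt} {c C v0 ξ0 θ h η c0 eps : ℝ} {R0 : ℕ} {Cn : ℕ → ℝ}
    (hR0 : 4 ≤ R0) (hC : 0 ≤ C) (hreg : p.RegT F llBase c C v0 ξ0 R0 θ (θ + h))
    (hV : L9vV (p.wTh θ) F (ghPs (p.wTh θ).a (l9Fl Fs)) η) (hV' : L9vV (p.wTh (θ + h)) F (ghPs (p.wTh (θ + h)).a (l9Fl Fs)) η)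
    (hh0 : h ≠ 0) (hh : |h| ≤ 1) (hθ : θ + h ≤ 1)
    (hR : ((⟨F, llBase, s, Fs, m⟩ : L9I).ref (p.wTh θ)).Ok c0 eps Cn)
    (hR' : ((⟨F, llBase, s, Fs, m⟩ : L9I).ref (p.wTh (θ + h))).Ok c0 eps Cn) :
    L9fE6 (Cn 4) (3 * η / |h| + 2 * (C * Real.exp (-c * p.M))) h
      ((l9mMod1 hR).chi, (l9mMod1 hR').chi) ((l9mMod1 hR).bo, (l9mMod1 hR').bo) ((l9mMod1 hR).gg, (l9mMod1 hR').gg)
      ((l9mMod1 hR).k0, (l9mMod1 hR').k0) := by
  have hη := hV.eta_nonneg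
  have hp : 0 < |h| := abs_pos.2 hh0
  obtain ⟨e1, e2⟩ := l9v_e6_I (s := s) (m := m) hR0 hC hreg hV hV' ((le_abs_self h).trans hh) hθ
  have ee : (3 * η / |h| + 2 * (C * Real.exp (-c * p.M))) * |h| = 3 * η + 2 * (C * Real.exp (-c * p.M)) * |h| := by
    field_simp
  have bj : ∀ {q : LlPt} (hQ : ((⟨F, llBase, s, Fs, m⟩ : L9I).ref q).Ok c0 eps Cn) (j : ℕ), 1 ≤ j → j ≤ 4 →
      |(((⟨F, llBase, s, Fs, m⟩ : L9I).ref q).g j 0).1 0| ≤ Cn 4 := fun hQ j h1 h4 =>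
    ((hQ.g_N j 0 0 h1 le_rfl hQ.c0_pos.le).bd 0).trans (hQ.Cn_mono (by omega))
  have bk : ∀ {q : LlPt} (hQ : ((⟨F, llBase, s, Fs, m⟩ : L9I).ref q).Ok c0 eps Cn), |(l9mMod1 hQ).k0| ≤ Cn 4 := fun hQ =>
    (hQ.kap_bd 0 le_rfl hQ.c0_pos.le).trans (hQ.Cn_mono (Nat.zero_le 4))
  refine ⟨hR.Cn_ge 4, by positivity, hh0, hh, Prod.ext (l9mMod1 hR).bo_mul (l9mMod1 hR').bo_mul,
    ⟨bj hR 2 (by norm_num) (by norm_num), bj hR' 2 (by norm_num) (by norm_num)⟩, ⟨(l9v_mod1_bo_le hR).trans (hR.Cn_mono (Nat.zero_le 4)), (l9v_mod1_bo_le hR').trans (hR.Cn_mono (Nat.zero_le 4))⟩,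
    ⟨bj hR 4 (by norm_num) (by norm_num), bj hR' 4 (by norm_num) (by norm_num)⟩, ⟨bk hR, bk hR'⟩, ?_, ?_, ?_⟩
  · rw [ee]
    show |(l9mMod1 hR').chi - Real.exp (1 / 6 * h) * (l9mMod1 hR).chi| ≤ _
    rw [l9v_mod1_chi, l9v_mod1_chi]
    exact e1
  · rw [ee]
    show |(l9mMod1 hR').gg - Real.exp (1 / 2 * h) * (l9mMod1 hR).gg| ≤ _
    rw [l9v_mod1_gg, l9v_mod1_gg]
    exact e2
  · show |(l9mMod1 hR').k0 - Real.exp (-(1 / 2) * h) * (l9mMod1 hR).k0| ≤ _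
    have e3 : (l9mMod1 hR').k0 = Real.exp (-h / 2) * (l9mMod1 hR).k0 :=
      l9ph_ref_kap0_scale _ (p.wTh θ) (p.wTh (θ + h)) h rfl (by
        show Real.exp ((θ + h) / 6) = Real.exp (h / 6) * Real.exp (θ / 6)
        rw [← Real.exp_add]
        congr 1
        ring)
    have e4 : -(1 / 2) * h = -h / 2 := by ring
    rw [e3, e4, sub_self, abs_zero]
    positivity

end Claimed.Agent.R286
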