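import Claimed.Agent.R286.L09.ChD
import Claimed.Agent.R286.L09.Contract
import Claimed.Agent.R286.Brg.Step

/-!
# Row 286 (S0533), unit L09, file ChDPsi : `deriv ψ` = THE FORMULA, ON ONE CHAIN, in the vocabulary of LL02 / L09      (owner helper151; prefix `l9d_`)      no sorry

Consequences of `L09/ChD.lean` (theorems A, B, C) for `ψ = llPsi llMv n a js P` (two ensembles on the SAME stages), for `l9PsiC` (clocks sampled on a chain) and for `L9I.psi` (`L09/Contract.lean`).
* tilted ensemble: `l9d_mv_cumB` (`skCumB (llMvAt js P) j = if j ≤ js then 0 else skCumB (llMat P) j`), `l9d_mv_cumH`, `l9d_mv_adm`, `l9d_mv_m`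
* `l9dPsiDot n a js P β η`   THE FORMULA;   `l9d_psiDot_eq`: it is `-1/4 ∑ gap_j (B^s_j 1_{j > js} - B^0_j) β_j - 1/2 ∑ gap_j (S^s_j - S^0_j) η_j`;   `l9d_psiDot_abs`: `≤ 2 l9dN1`
* `l9d_llPsi_hasDerivAt`, `l9d_llPsi_continuous`, `l9d_llPsi_ac`            fine paths `P : · → LlStp` with fixed masses
* chains: `l9d_stp_mat`, `l9d_stp_m`, `l9d_chain_cum`, `l9d_chain_cum_cases`, `l9d_stp_cumK`, `l9d_chain_adm`;   `l9d_psiC_continuous`, `l9d_psiC_ac`  (hypotheses = clock VALUES `ghAt a (b x) p`, `p ∈ ps`)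
* `L9I`: **`l9d_I_hasDerivAt`** (at every point of `I.Dif`), `l9d_I_deriv_le` (`|deriv ψ| ≤ I.dot`, item (c) of `L9Reg`), `l9d_I_dif` (item (b)), `l9d_I_continuous` (item (a)), `l9d_I_ac` (`ac_dir`, `ac_siz`)
WHAT IS LEFT for `L9Reg` (LL03): admissibility `GhClk1` of the physical clocks, and regularity in (γ, parameter) of the finitely many VALUES `ghAt a (p.b ..) q`, `ghAt a (p.h ..) q`, `ghAt a (p.K ..) q`.
-/

set_option autoImplicit false
set_option linter.unusedSectionVars false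

namespace Claimed.Agent.R286

open MeasureTheory Set Filter Topology

section ll
variable {n : ℕ}

theorem l9d_mat_length (P : LlStp) : (llMat P).length = P.length := by simp [llMat]

theorem l9d_mv_length (js : ℕ) (P : LlStp) : (llMvAt js P).length = P.length := by simp [llMvAt]

theorem l9d_mat_m (P : LlStp) : (llMat P).map SkInc.m = P.map LlInc.m := by
  unfold llMat
  rw [List.map_map]
  rfl

theorem l9d_mv_getElem (js : ℕ) (P : LlStp) (l : ℕ) (h : l < P.length) :
    (llMvAt js P)[l]'(by rw [l9d_mv_length]; exact h)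
      = ⟨P[l].m, if l < js then 0 else if l = js then skCumB (llMat P) (js + 1) else P[l].db, P[l].dh⟩ := by
  simp [llMvAt]

theorem l9d_mat_getElem (P : LlStp) (l : ℕ) (h : l < P.length) :
    (llMat P)[l]'(by rw [l9d_mat_length]; exact h) = ⟨P[l].m, P[l].db, P[l].dh⟩ := by
  simp [llMat]

theorem l9d_mv_m (js : ℕ) (P : LlStp) : (llMvAt js P).map SkInc.m = P.map LlInc.m := by
  refine List.ext_getElem (by simp [l9d_mv_length]) fun i h1 h2 => ?_
  have h : i < P.length := by simpa using h2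
  rw [List.getElem_map, List.getElem_map, l9d_mv_getElem js P i h]

theorem l9d_mv_dh (js : ℕ) (P : LlStp) : (llMvAt js P).map SkInc.dh = (llMat P).map SkInc.dh := by
  refine List.ext_getElem (by simp [l9d_mv_length, l9d_mat_length]) fun i h1 h2 => ?_
  have h : i < P.length := by simpa [l9d_mat_length] using h2
  rw [List.getElem_map, List.getElem_map, l9d_mv_getElem js P i h, l9d_mat_getElem P i h]

theorem l9d_mv_cumH (js : ℕ) (P : LlStp) (j : ℕ) : skCumH (llMvAt js P) j = skCumH (llMat P) j := by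
  unfold skCumH
  rw [List.map_take, List.map_take, l9d_mv_dh]

theorem l9d_cum_zero (Q : SkStp) : skCumB Q 0 = 0 ∧ skCumH Q 0 = 0 := by simp [skCumB, skCumH]

/-- the cumulative matrix clock of the tilted ensemble on the same stages -/
theorem l9d_mv_cumB (js : ℕ) (P : LlStp) : ∀ j, j ≤ P.length →
    skCumB (llMvAt js P) j = if j ≤ js then 0 else skCumB (llMat P) j
  | 0, _ => by simp [(l9d_cum_zero _).1]
  | j + 1, hj => by
      have h : j < P.length := hj
      have ih := l9d_mv_cumB js P j h.le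
      have e1 := l9d_cumB_succ (llMvAt js P) j (by rw [l9d_mv_length]; exact h)
      have e2 := l9d_cumB_succ (llMat P) j (by rw [l9d_mat_length]; exact h)
      rw [l9d_mv_getElem js P j h] at e1
      rw [l9d_mat_getElem P j h] at e2
      simp only at e1 e2
      rcases lt_trichotomy j js with hlt | heq | hgt
      · rw [if_pos hlt, ih, if_pos hlt.le] at e1
        rw [if_pos (by omega : j + 1 ≤ js)]
        linarith
      · subst heq
        rw [if_neg (lt_irrefl _), if_pos rfl, ih, if_pos le_rfl] at e1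
        rw [if_neg (by omega : ¬ j + 1 ≤ j)]
        linarith
      · rw [if_neg (by omega), if_neg (by omega), ih, if_neg (by omega)] at e1
        rw [if_neg (by omega : ¬ j + 1 ≤ js)]
        linarith

theorem l9d_cumB_nonneg {a : ℝ} {Q : SkStp} (hQ : SkAdm a Q) (j : ℕ) : 0 ≤ skCumB Q j := by
  unfold skCumB
  refine List.sum_nonneg fun x hx => ?_
  obtain ⟨e, he, rfl⟩ := List.mem_map.1 hx
  exact (hQ.2 e (List.mem_of_mem_take he)).2.2.1

/-- the tilted path is admissible -/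
theorem l9d_mv_adm {a : ℝ} {P : LlStp} (hP : SkAdm a (llMat P)) (js : ℕ) : SkAdm a (llMvAt js P) := by
  refine ⟨?_, fun e he => ?_⟩
  · have h1 : ((llMat P).map SkInc.m).Pairwise (· ≤ ·) := List.pairwise_map.2 hP.1
    rw [l9d_mat_m, ← l9d_mv_m js P] at h1
    exact List.pairwise_map.1 h1
  · obtain ⟨l, hl, rfl⟩ := List.getElem_of_mem he
    have h : l < P.length := by rwa [l9d_mv_length] at hl
    have hm := hP.2 _ (List.getElem_mem (by rw [l9d_mat_length]; exact h : l < (llMat P).length))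
    rw [l9d_mat_getElem P l h] at hm
    rw [l9d_mv_getElem js P l h]
    refine ⟨hm.1, hm.2.1, ?_, hm.2.2.2⟩
    show 0 ≤ if l < js then 0 else if l = js then skCumB (llMat P) (js + 1) else P[l].db
    split_ifs
    · exact le_rfl
    · exact l9d_cumB_nonneg hP _
    · exact hm.2.2.1

theorem l9d_gap_congr (a : ℝ) {P Q : SkStp} (h : P.map SkInc.m = Q.map SkInc.m) (j : ℕ) : skGap a P j = skGap a Q j := by
  unfold skGap skMs
  rw [h]

/-- **THE FORMULA for the speed of `ψ`** on one chain (LL (A1) for the two ensembles on the same stages);  `β j, η j` = speeds of the UNTILTED cumulative clocks `bC j`, `hC j` -/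
noncomputable def l9dPsiDot (n : ℕ) (a : ℝ) (js : ℕ) (P : LlStp) (β η : ℕ → ℝ) : ℝ :=
  l9dA1 n a (llMvAt js P) 0 (fun j => if j ≤ js then 0 else β j) η - l9dA1 n a (llMat P) 0 β η

/-- the formula in the form `-1/4 ∫ (B^s 1_{v ≥ s} - B^0) ḃ - 1/2 ∫ (S^s - S^0) ḣ` -/
theorem l9d_psiDot_eq (a : ℝ) (js : ℕ) (P : LlStp) (β η : ℕ → ℝ) :
    l9dPsiDot n a js P β η
      = -(1 / 4) * ∑ j ∈ Finset.range (P.length + 1), skGap a (llMat P) j *
            ((if j ≤ js then 0 else obB n a (llMvAt js P) 0 j) - obB n a (llMat P) 0 j) * β j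
        - (1 / 2) * ∑ j ∈ Finset.range (P.length + 1), skGap a (llMat P) j *
            (obS n a (llMvAt js P) 0 j - obS n a (llMat P) 0 j) * η j := by
  unfold l9dPsiDot l9dA1
  rw [l9d_mv_length, l9d_mat_length]
  have hg : ∀ j, skGap a (llMvAt js P) j = skGap a (llMat P) j := fun j =>
    l9d_gap_congr a (by rw [l9d_mv_m, l9d_mat_m]) j
  simp only [hg]
  have e1 : ∑ j ∈ Finset.range (P.length + 1), skGap a (llMat P) j *
      ((if j ≤ js then 0 else obB n a (llMvAt js P) 0 j) - obB n a (llMat P) 0 j) * β j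
      = ∑ j ∈ Finset.range (P.length + 1), skGap a (llMat P) j * obB n a (llMvAt js P) 0 j * (if j ≤ js then 0 else β j)
        - ∑ j ∈ Finset.range (P.length + 1), skGap a (llMat P) j * obB n a (llMat P) 0 j * β j := by
    rw [← Finset.sum_sub_distrib]
    refine Finset.sum_congr rfl fun j _ => ?_
    split_ifs <;> ring
  have e2 : ∑ j ∈ Finset.range (P.length + 1), skGap a (llMat P) j *
      (obS n a (llMvAt js P) 0 j - obS n a (llMat P) 0 j) * η j
      = ∑ j ∈ Finset.range (P.length + 1), skGap a (llMat P) j * obS n a (llMvAt js P) 0 j * η j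
        - ∑ j ∈ Finset.range (P.length + 1), skGap a (llMat P) j * obS n a (llMat P) 0 j * η j := by
    rw [← Finset.sum_sub_distrib]
    refine Finset.sum_congr rfl fun j _ => ?_
    ring
  rw [e1, e2]
  ring

theorem l9d_llPsi_eq (a : ℝ) (js : ℕ) (P : LlStp) :
    llPsi llMv n a js P = skPrS n a (llMvAt js P) 0 - skPrS n a (llMat P) 0 := rfl

/-- **`deriv ψ` = THE FORMULA**, on one chain -/
theorem l9d_llPsi_hasDerivAt (hn : 0 < n) {a : ℝ} (ha : 0 < a) (P : ℝ → LlStp) (js : ℕ) {t0 : ℝ}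
    (hadm : ∀ᶠ t in 𝓝 t0, SkAdm a (llMat (P t))) (hm : ∀ᶠ t in 𝓝 t0, (P t).map LlInc.m = (P t0).map LlInc.m)
    {β η : ℕ → ℝ}
    (hβ : ∀ j ≤ (P t0).length, HasDerivAt (fun t => skCumB (llMat (P t)) j) (β j) t0)
    (hη : ∀ j ≤ (P t0).length, HasDerivAt (fun t => skCumH (llMat (P t)) j) (η j) t0) :
    HasDerivAt (fun t => llPsi llMv n a js (P t)) (l9dPsiDot n a js (P t0) β η) t0 := by
  have hlen : ∀ᶠ t in 𝓝 t0, (P t).length = (P t0).length := hm.mono fun t ht => by
    have := congrArg List.length ht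
    simpa using this
  have h0 := l9d_hasDerivAt hn ha (fun t => llMat (P t)) hadm
    (hm.mono fun t ht => by simp only [l9d_mat_m, ht]) 0
    (β := β) (η := η) (fun j hj => hβ j (by rwa [l9d_mat_length] at hj)) (fun j hj => hη j (by rwa [l9d_mat_length] at hj))
  have h1 := l9d_hasDerivAt hn ha (fun t => llMvAt js (P t)) (hadm.mono fun t ht => l9d_mv_adm ht js)
    (hm.mono fun t ht => by simp only [l9d_mv_m, ht]) 0
    (β := fun j => if j ≤ js then 0 else β j) (η := η)
    (fun j hj => by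
      rw [l9d_mv_length] at hj
      have hev : (fun t => skCumB (llMvAt js (P t)) j) =ᶠ[𝓝 t0] fun t => if j ≤ js then 0 else skCumB (llMat (P t)) j :=
        hlen.mono fun t ht => l9d_mv_cumB js (P t) j (by rw [ht]; exact hj)
      refine HasDerivAt.congr_of_eventuallyEq ?_ hev
      by_cases hjs : j ≤ js
      · simp only [if_pos hjs]
        exact hasDerivAt_const _ _
      · simp only [if_neg hjs]
        exact hβ j hj)
    (fun j hj => by
      rw [l9d_mv_length] at hj
      simp only [l9d_mv_cumH]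
      exact hη j hj)
  exact h1.sub h0

/-- crude bound of the speed of `ψ` -/
theorem l9d_psiDot_abs (hn : 0 < n) {a : ℝ} (ha : 0 < a) {P : LlStp} (hP : SkAdm a (llMat P)) (js : ℕ) (β η : ℕ → ℝ) :
    |l9dPsiDot n a js P β η| ≤ 2 * l9dN1 a (llMat P) β η := by
  have h1 := l9d_A1_abs hn ha (l9d_mv_adm hP js) 0 (fun j => if j ≤ js then 0 else β j) η
  have h0 := l9d_A1_abs hn ha hP 0 β η
  have h2 : l9dN1 a (llMvAt js P) (fun j => if j ≤ js then 0 else β j) η ≤ l9dN1 a (llMat P) β η := by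
    unfold l9dN1
    rw [l9d_mv_length, l9d_mat_length]
    have hg : ∀ j, skGap a (llMvAt js P) j = skGap a (llMat P) j := fun j =>
      l9d_gap_congr a (by rw [l9d_mv_m, l9d_mat_m]) j
    simp only [hg]
    have hs : ∑ j ∈ Finset.range (P.length + 1), skGap a (llMat P) j * |if j ≤ js then 0 else β j|
        ≤ ∑ j ∈ Finset.range (P.length + 1), skGap a (llMat P) j * |β j| :=
      Finset.sum_le_sum fun j _ => mul_le_mul_of_nonneg_left (by split_ifs <;> simp) (pin_gap_nonneg ha _ hP j)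
    linarith
  unfold l9dPsiDot
  calc |l9dA1 n a (llMvAt js P) 0 (fun j => if j ≤ js then 0 else β j) η - l9dA1 n a (llMat P) 0 β η|
      ≤ |l9dA1 n a (llMvAt js P) 0 (fun j => if j ≤ js then 0 else β j) η| + |l9dA1 n a (llMat P) 0 β η| := abs_sub _ _
    _ ≤ 2 * l9dN1 a (llMat P) β η := by linarith

/-- continuity of `ψ` on one chain in a parameter -/
theorem l9d_llPsi_continuous (hn : 0 < n) {a : ℝ} (ha : 0 < a) {X : Type} [TopologicalSpace X] (P : X → LlStp) (js : ℕ)
    (hadm : ∀ x, SkAdm a (llMat (P x))) (hm : ∀ x y, (P x).map LlInc.m = (P y).map LlInc.m)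
    (hB : ∀ j, Continuous fun x => skCumB (llMat (P x)) j) (hH : ∀ j, Continuous fun x => skCumH (llMat (P x)) j) :
    Continuous fun x => llPsi llMv n a js (P x) := by
  have h0 := l9d_continuous hn ha (fun x => llMat (P x)) hadm (fun x y => by simp only [l9d_mat_m, hm x y]) 0 hB hH
  have hB' : ∀ j, Continuous fun x => skCumB (llMvAt js (P x)) j := by
    intro j
    rcases isEmpty_or_nonempty X with hX | ⟨⟨x0⟩⟩
    · exact continuous_of_const fun x _ => (hX.false x).elim
    have hlen : ∀ x, (P x).length = (P x0).length := fun x => by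
      have := congrArg List.length (hm x x0)
      simpa using this
    by_cases hj : j ≤ (P x0).length
    · have : (fun x => skCumB (llMvAt js (P x)) j) = fun x => if j ≤ js then 0 else skCumB (llMat (P x)) j := by
        funext x
        exact l9d_mv_cumB js (P x) j (by rw [hlen x]; exact hj)
      rw [this]
      by_cases hjs : j ≤ js
      · simp only [if_pos hjs]
        exact continuous_const
      · simp only [if_neg hjs]
        exact hB j
    · -- beyond the end the cumulative clock is the one at the end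
      have : (fun x => skCumB (llMvAt js (P x)) j)
          = fun x => if (P x0).length ≤ js then 0 else skCumB (llMat (P x)) (P x0).length := by
        funext x
        rw [← l9d_mv_cumB js (P x) (P x0).length (by rw [hlen x])]
        unfold skCumB
        rw [List.take_of_length_le (by rw [l9d_mv_length, hlen x]; omega),
          List.take_of_length_le (by rw [l9d_mv_length, hlen x])]
      rw [this]
      by_cases hjs : (P x0).length ≤ js
      · simp only [if_pos hjs]
        exact continuous_const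
      · simp only [if_neg hjs]
        exact hB _
  have h1 := l9d_continuous hn ha (fun x => llMvAt js (P x)) (fun x => l9d_mv_adm (hadm x) js)
    (fun x y => by simp only [l9d_mv_m, hm x y]) 0 hB' (fun j => by simpa only [l9d_mv_cumH] using hH j)
  exact h1.sub h0

/-- absolute continuity of `ψ` on one chain -/
theorem l9d_llPsi_ac (hn : 0 < n) {a : ℝ} (ha : 0 < a) (P : ℝ → LlStp) (js : ℕ) {t0 t1 : ℝ}
    (hadm : ∀ t ∈ uIcc t0 t1, SkAdm a (llMat (P t))) (hm : ∀ t ∈ uIcc t0 t1, (P t).map LlInc.m = (P t0).map LlInc.m)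
    (hB : ∀ j ≤ (P t0).length, AbsolutelyContinuousOnInterval (fun t => skCumB (llMat (P t)) j) t0 t1)
    (hH : ∀ j ≤ (P t0).length, AbsolutelyContinuousOnInterval (fun t => skCumH (llMat (P t)) j) t0 t1) :
    AbsolutelyContinuousOnInterval (fun t => llPsi llMv n a js (P t)) t0 t1 := by
  have h0 := l9d_ac hn ha (fun t => llMat (P t)) hadm (fun t ht => by simp only [l9d_mat_m, hm t ht]) 0
    (fun j hj => hB j (by rwa [l9d_mat_length] at hj)) (fun j hj => hH j (by rwa [l9d_mat_length] at hj))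
  have hlen : ∀ t ∈ uIcc t0 t1, (P t).length = (P t0).length := fun t ht => by
    have := congrArg List.length (hm t ht)
    simpa using this
  have h1 := l9d_ac hn ha (fun t => llMvAt js (P t)) (fun t ht => l9d_mv_adm (hadm t ht) js)
    (fun t ht => by simp only [l9d_mv_m, hm t ht]) 0
    (fun j hj => by
      rw [l9d_mv_length] at hj
      refine l9d_ac_of_le {()} (fun _ => 1) (fun _ t => skCumB (llMat (P t)) j) (fun _ _ => hB j hj) fun x hx y hy => ?_
      rw [l9d_mv_cumB js (P x) j (by rw [hlen x hx]; exact hj), l9d_mv_cumB js (P y) j (by rw [hlen y hy]; exact hj)]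
      simp only [Finset.sum_singleton, one_mul]
      split_ifs
      · simp
      · exact le_rfl)
    (fun j hj => by
      rw [l9d_mv_length] at hj
      simpa only [l9d_mv_cumH] using hH j hj)
  exact h1.fun_sub h0

end ll

/-! ### the chains of a pair of clocks -/
section chain
variable {n : ℕ}

theorem l9d_stp_mat (a : ℝ) (b h K : ℝ → ℝ) : ∀ (ps : List GhPos) (b0 h0 K0 : ℝ),
    llMat (l9Stp a b h K b0 h0 K0 ps) = skCStp a b h b0 h0 ps
  | [], _, _, _ => rfl
  | p :: ps, b0, h0, K0 => by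
      rw [l9Stp, skCStp]
      show _ :: llMat (l9Stp a b h K (ghAt a b p) (ghAt a h p) (ghAt a K p) ps) = _
      rw [l9d_stp_mat a b h K ps]

theorem l9d_stp_m (a : ℝ) (b h K : ℝ → ℝ) : ∀ (ps : List GhPos) (b0 h0 K0 : ℝ),
    (l9Stp a b h K b0 h0 K0 ps).map LlInc.m = ps.map GhPos.u
  | [], _, _, _ => rfl
  | p :: ps, b0, h0, K0 => by
      rw [l9Stp, List.map_cons, List.map_cons, l9d_stp_m a b h K ps]

theorem l9d_stp_length (a : ℝ) (b h K : ℝ → ℝ) (ps : List GhPos) (b0 h0 K0 : ℝ) :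
    (l9Stp a b h K b0 h0 K0 ps).length = ps.length := by
  have := congrArg List.length (l9d_stp_m a b h K ps b0 h0 K0)
  simpa using this

theorem l9d_cum_cons (e : SkInc) (Q : SkStp) (j : ℕ) :
    skCumB (e :: Q) (j + 1) = e.db + skCumB Q j ∧ skCumH (e :: Q) (j + 1) = e.dh + skCumH Q j := by
  simp [skCumB, skCumH]

/-- the cumulative clocks of a chain are the clock values at its positions -/
theorem l9d_chain_cum (a : ℝ) (b h : ℝ → ℝ) : ∀ (ps : List GhPos) (b0 h0 : ℝ) (j : ℕ) (hj : j < ps.length),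
    skCumB (skCStp a b h b0 h0 ps) (j + 1) = ghAt a b ps[j] - b0 ∧ skCumH (skCStp a b h b0 h0 ps) (j + 1) = ghAt a h ps[j] - h0
  | [], _, _, _, hj => absurd hj (by simp)
  | p :: ps, b0, h0, 0, _ => by
      rw [skCStp, (l9d_cum_cons _ _ 0).1, (l9d_cum_cons _ _ 0).2, (l9d_cum_zero _).1, (l9d_cum_zero _).2]
      simp
  | p :: ps, b0, h0, j + 1, hj => by
      have hj' : j < ps.length := by simpa using hj
      have ih := l9d_chain_cum a b h ps (ghAt a b p) (ghAt a h p) j hj'
      rw [skCStp, (l9d_cum_cons _ _ (j + 1)).1, (l9d_cum_cons _ _ (j + 1)).2, ih.1, ih.2]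
      simp

theorem l9d_chain_adm {a : ℝ} (ha : 0 ≤ a) {b h : ℝ → ℝ} (hb : GhClk1 a b) (hh : GhClk1 a h) {ps : List GhPos}
    (hs : ps.Pairwise (· ≤ ·)) (hok : ∀ p ∈ ps, p.Ok a) : SkAdm a (skCStp a b h 0 0 ps) :=
  sk_stp_chain_adm ha hb hh ps 0 0 hs hok (fun p hp => gh_os_at_nonneg ha hb (hok p hp).2.2.1)
    (fun p hp => gh_os_at_nonneg ha hh (hok p hp).2.2.1)

theorem l9d_chain_length (a : ℝ) (b h : ℝ → ℝ) : ∀ (ps : List GhPos) (b0 h0 : ℝ), (skCStp a b h b0 h0 ps).length = ps.length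
  | [], _, _ => rfl
  | p :: ps, b0, h0 => by
      rw [skCStp, List.length_cons, List.length_cons, l9d_chain_length a b h ps]

/-- every cumulative clock of a chain is `0` or the value of the clock at a position of the chain (the SAME position for all clocks) -/
theorem l9d_chain_cum_cases (a : ℝ) (ps : List GhPos) (j : ℕ) :
    (∀ b h : ℝ → ℝ, skCumB (skCStp a b h 0 0 ps) j = 0 ∧ skCumH (skCStp a b h 0 0 ps) j = 0) ∨
    ∃ p ∈ ps, ∀ b h : ℝ → ℝ, skCumB (skCStp a b h 0 0 ps) j = ghAt a b p ∧ skCumH (skCStp a b h 0 0 ps) j = ghAt a h p := by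
  rcases j with _ | j
  · exact Or.inl fun b h => l9d_cum_zero _
  by_cases hj : j < ps.length
  · refine Or.inr ⟨ps[j], List.getElem_mem _, fun b h => ?_⟩
    have := l9d_chain_cum a b h ps 0 0 j hj
    simpa using this
  · rcases Nat.eq_zero_or_pos ps.length with h0 | h0
    · have : ps = [] := List.length_eq_zero_iff.1 h0
      subst this
      exact Or.inl fun b h => by simp [skCStp, skCumB, skCumH]
    · obtain ⟨k, hk⟩ : ∃ k, ps.length = k + 1 := ⟨ps.length - 1, by omega⟩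
      refine Or.inr ⟨ps[k]'(by omega), List.getElem_mem _, fun b h => ?_⟩
      have := l9d_chain_cum a b h ps 0 0 k (by omega)
      have hl := l9d_chain_length a b h ps 0 0
      have e : (skCStp a b h 0 0 ps).take (j + 1) = (skCStp a b h 0 0 ps).take (k + 1) := by
        rw [List.take_of_length_le (by omega), List.take_of_length_le (by omega)]
      constructor
      · have h1 : skCumB (skCStp a b h 0 0 ps) (j + 1) = skCumB (skCStp a b h 0 0 ps) (k + 1) := by
          unfold skCumB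
          rw [e]
        rw [h1, this.1, sub_zero]
      · have h1 : skCumH (skCStp a b h 0 0 ps) (j + 1) = skCumH (skCStp a b h 0 0 ps) (k + 1) := by
          unfold skCumH
          rw [e]
        rw [h1, this.2, sub_zero]

theorem l9d_psiC_eq (m : ℕ) (a : ℝ) (b h K : ℝ → ℝ) (s : ℝ) (ps : List GhPos) :
    l9PsiC m a b h K s ps = llPsi llMv m a (l9Js s ps) (l9Stp a b h K 0 0 0 ps) := rfl

/-- joint continuity of `ψ` on one chain: it is enough that the clock VALUES at the positions of the chain are continuous -/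
theorem l9d_psiC_continuous {m : ℕ} (hm : 0 < m) {a : ℝ} (ha : 0 < a) {X : Type} [TopologicalSpace X] (b h K : X → ℝ → ℝ) (s : ℝ)
    {ps : List GhPos} (hs : ps.Pairwise (· ≤ ·)) (hok : ∀ p ∈ ps, p.Ok a)
    (hb : ∀ x, GhClk1 a (b x)) (hh : ∀ x, GhClk1 a (h x))
    (cb : ∀ p ∈ ps, Continuous fun x => ghAt a (b x) p) (ch : ∀ p ∈ ps, Continuous fun x => ghAt a (h x) p) :
    Continuous fun x => l9PsiC m a (b x) (h x) (K x) s ps := by
  simp only [l9d_psiC_eq]
  refine l9d_llPsi_continuous hm ha (fun x => l9Stp a (b x) (h x) (K x) 0 0 0 ps) (l9Js s ps) (fun x => ?_) (fun x y => ?_)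
    (fun j => ?_) (fun j => ?_)
  · rw [l9d_stp_mat]
    exact l9d_chain_adm ha.le (hb x) (hh x) hs hok
  · rw [l9d_stp_m, l9d_stp_m]
  · simp only [l9d_stp_mat]
    rcases l9d_chain_cum_cases a ps j with h0 | ⟨p, hp, h1⟩
    · simp only [(h0 _ _).1]
      exact continuous_const
    · simp only [(h1 _ _).1]
      exact cb p hp
  · simp only [l9d_stp_mat]
    rcases l9d_chain_cum_cases a ps j with h0 | ⟨p, hp, h1⟩
    · simp only [(h0 _ _).2]
      exact continuous_const
    · simp only [(h1 _ _).2]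
      exact ch p hp

/-- absolute continuity of `ψ` on one chain: it is enough that the clock VALUES at the positions of the chain are absolutely continuous -/
theorem l9d_psiC_ac {m : ℕ} (hm : 0 < m) {a : ℝ} (ha : 0 < a) (b h K : ℝ → ℝ → ℝ) (s : ℝ)
    {ps : List GhPos} (hs : ps.Pairwise (· ≤ ·)) (hok : ∀ p ∈ ps, p.Ok a) {t0 t1 : ℝ}
    (hb : ∀ t ∈ uIcc t0 t1, GhClk1 a (b t)) (hh : ∀ t ∈ uIcc t0 t1, GhClk1 a (h t))
    (cb : ∀ p ∈ ps, AbsolutelyContinuousOnInterval (fun t => ghAt a (b t) p) t0 t1)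
    (ch : ∀ p ∈ ps, AbsolutelyContinuousOnInterval (fun t => ghAt a (h t) p) t0 t1) :
    AbsolutelyContinuousOnInterval (fun t => l9PsiC m a (b t) (h t) (K t) s ps) t0 t1 := by
  simp only [l9d_psiC_eq]
  have hc0 : AbsolutelyContinuousOnInterval (fun _ : ℝ => (0 : ℝ)) t0 t1 :=
    l9d_ac_of_le (∅ : Finset Unit) (fun _ => 0) (fun _ _ => 0) (fun _ h => absurd h (Finset.notMem_empty _)) (by simp)
  refine l9d_llPsi_ac hm ha (fun t => l9Stp a (b t) (h t) (K t) 0 0 0 ps) (l9Js s ps) (fun t ht => ?_) (fun t _ => ?_)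
    (fun j _ => ?_) (fun j _ => ?_)
  · rw [l9d_stp_mat]
    exact l9d_chain_adm ha.le (hb t ht) (hh t ht) hs hok
  · rw [l9d_stp_m, l9d_stp_m]
  · simp only [l9d_stp_mat]
    rcases l9d_chain_cum_cases a ps j with h0 | ⟨p, hp, h1⟩
    · simp only [(h0 _ _).1]
      exact hc0
    · simp only [(h1 _ _).1]
      exact cb p hp
  · simp only [l9d_stp_mat]
    rcases l9d_chain_cum_cases a ps j with h0 | ⟨p, hp, h1⟩
    · simp only [(h0 _ _).2]
      exact hc0
    · simp only [(h1 _ _).2]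
      exact ch p hp

end chain

/-! ### the vocabulary of `L09/Contract.lean` -/
section inst

theorem l9d_I_bC (I : L9I) (p : LlPt) (j : ℕ) : (I.X0 p).bC j = skCumB (llMat (I.P p)) j := rfl

theorem l9d_I_hC (I : L9I) (p : LlPt) (j : ℕ) : (I.X0 p).hC j = skCumH (llMat (I.P p)) j := rfl

theorem l9d_I_psi (I : L9I) (p : LlPt) (m' : ℕ) : I.psi p m' = llPsi llMv m' p.a (I.js p) (I.P p) := rfl

theorem l9d_I_length (I : L9I) (p : LlPt) : (I.P p).length = (I.ps p).length := l9d_stp_length _ _ _ _ _ _ _ _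

theorem l9d_I_adm (I : L9I) (p : LlPt) (ha : 0 ≤ p.a) (hb : GhClk1 p.a (p.b I.F I.𝔹)) (hh : GhClk1 p.a (p.h I.F I.𝔹)) :
    SkAdm p.a (llMat (I.P p)) := by
  unfold L9I.P
  rw [l9d_stp_mat]
  exact l9d_chain_adm ha hb hh (gh_os_ps_pairwise _ _) fun q hq => (gh_os_ps_mem.1 hq).2

/-- **`deriv ψ` = THE FORMULA** at every point where the clock values of the chain are differentiable (`I.Dif`).   The terminal mass does not move along the family. -/
theorem l9d_I_hasDerivAt (I : L9I) {m' : ℕ} (hm : 0 < m') (pf : ℝ → LlPt) {t0 : ℝ} (ha : 0 < (pf t0).a)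
    (hpa : ∀ t, (pf t).a = (pf t0).a)
    (hb : ∀ᶠ t in 𝓝 t0, GhClk1 (pf t).a ((pf t).b I.F I.𝔹)) (hh : ∀ᶠ t in 𝓝 t0, GhClk1 (pf t).a ((pf t).h I.F I.𝔹))
    (hD : I.Dif pf t0) :
    HasDerivAt (fun t => I.psi (pf t) m')
      (l9dPsiDot m' (pf t0).a (I.js (pf t0)) (I.P (pf t0)) (fun j => deriv (fun t => (I.X0 (pf t)).bC j) t0)
        (fun j => deriv (fun t => (I.X0 (pf t)).hC j) t0)) t0 := by
  have hjs : ∀ t, I.js (pf t) = I.js (pf t0) := fun t => by
    unfold L9I.js L9I.ps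
    rw [hpa t]
  have e : (fun t => I.psi (pf t) m') = fun t => llPsi llMv m' (pf t0).a (I.js (pf t0)) (I.P (pf t)) := by
    funext t
    rw [l9d_I_psi, hpa t, hjs t]
  rw [e]
  refine l9d_llPsi_hasDerivAt hm ha (fun t => I.P (pf t)) (I.js (pf t0)) ?_ ?_ (fun j _ => ?_) (fun j _ => ?_)
  · filter_upwards [hb, hh] with t h1 h2
    have := l9d_I_adm I (pf t) (by rw [hpa t]; exact ha.le) h1 h2
    rwa [hpa t] at this
  · refine Eventually.of_forall fun t => ?_
    unfold L9I.P L9I.ps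
    rw [l9d_stp_m, l9d_stp_m, hpa t]
  · exact (hD j).1.hasDerivAt
  · exact (hD j).2.1.hasDerivAt

/-- crude bound of the speed by the dotted norms: item (c) of `L9Reg` -/
theorem l9d_I_deriv_le (I : L9I) {m' : ℕ} (hm : 0 < m') (pf : ℝ → LlPt) {t0 : ℝ} (ha : 0 < (pf t0).a)
    (hpa : ∀ t, (pf t).a = (pf t0).a)
    (hb : ∀ᶠ t in 𝓝 t0, GhClk1 (pf t).a ((pf t).b I.F I.𝔹)) (hh : ∀ᶠ t in 𝓝 t0, GhClk1 (pf t).a ((pf t).h I.F I.𝔹))
    (hD : I.Dif pf t0) :
    |deriv (fun t => I.psi (pf t) m') t0| ≤ I.dot pf t0 := by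
  rw [(l9d_I_hasDerivAt I hm pf ha hpa hb hh hD).deriv]
  have hadm := l9d_I_adm I (pf t0) ha.le hb.self_of_nhds hh.self_of_nhds
  refine (l9d_psiDot_abs hm ha hadm _ _ _).trans ?_
  unfold l9dN1 L9I.dot
  rw [l9d_mat_length, l9d_I_length, mul_add, ← mul_assoc, ← mul_assoc, Finset.mul_sum, Finset.mul_sum,
    ← Finset.sum_add_distrib]
  refine Finset.sum_le_sum fun j _ => ?_
  have hg := pin_gap_nonneg ha _ hadm j
  have h1 := abs_nonneg (deriv (fun t => (I.X0 (pf t)).bC j) t0)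
  have h2 := abs_nonneg (deriv (fun t => (I.X0 (pf t)).hC j) t0)
  have h3 := abs_nonneg (deriv (fun t => (I.X0 (pf t)).KC j) t0)
  have h4 := abs_nonneg (deriv (fun t => (I.X0 (pf t)).qC j) t0)
  nlinarith [mul_nonneg hg h1, mul_nonneg hg h2, mul_nonneg hg h3, mul_nonneg hg h4]

theorem l9d_stp_dK (a : ℝ) (b h K : ℝ → ℝ) : ∀ (ps : List GhPos) (b0 h0 K0 : ℝ),
    (l9Stp a b h K b0 h0 K0 ps).map LlInc.dK = (skCStp a b K b0 K0 ps).map SkInc.dh
  | [], _, _, _ => rfl
  | p :: ps, b0, h0, K0 => by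
      rw [l9Stp, skCStp, List.map_cons, List.map_cons, l9d_stp_dK a b h K ps]

/-- the cumulative reference clock of a chain -/
theorem l9d_stp_cumK (a : ℝ) (b h K : ℝ → ℝ) (ps : List GhPos) (b0 h0 K0 : ℝ) (j : ℕ) :
    llCumK (l9Stp a b h K b0 h0 K0 ps) j = skCumH (skCStp a b K b0 K0 ps) j := by
  unfold llCumK skCumH
  rw [List.map_take, List.map_take, l9d_stp_dK]

theorem l9d_I_KC (I : L9I) (p : LlPt) (j : ℕ) : (I.X0 p).KC j = llCumK (I.P p) j := rfl

/-- `I.Dif` from the differentiability of the clock VALUES at the positions of the chain: item (b) of `L9Reg` -/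
theorem l9d_I_dif (I : L9I) (pf : ℝ → LlPt) {a0 t0 : ℝ} (hpa : ∀ t, (pf t).a = a0)
    (db : ∀ p ∈ ghPs a0 (l9Fl I.Fs), DifferentiableAt ℝ (fun t => ghAt a0 ((pf t).b I.F I.𝔹) p) t0)
    (dh : ∀ p ∈ ghPs a0 (l9Fl I.Fs), DifferentiableAt ℝ (fun t => ghAt a0 ((pf t).h I.F I.𝔹) p) t0)
    (dK : ∀ p ∈ ghPs a0 (l9Fl I.Fs), DifferentiableAt ℝ (fun t => ghAt a0 ((pf t).K I.F I.𝔹) p) t0) : I.Dif pf t0 := by
  intro j
  simp only [l9d_I_bC, l9d_I_hC, l9d_I_KC, L9I.P, L9I.ps, l9d_stp_mat, l9d_stp_cumK, hpa]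
  rcases l9d_chain_cum_cases a0 (ghPs a0 (l9Fl I.Fs)) j with h0 | ⟨p, hp, h1⟩
  · simp only [(h0 _ _).1, (h0 _ _).2]
    exact ⟨differentiableAt_const _, differentiableAt_const _, differentiableAt_const _⟩
  · simp only [(h1 _ _).1, (h1 _ _).2]
    exact ⟨db p hp, dh p hp, dK p hp⟩

/-- joint continuity: item (a) of `L9Reg` -/
theorem l9d_I_continuous (I : L9I) {m' : ℕ} (hm : 0 < m') {X : Type} [TopologicalSpace X] (pf : X → LlPt) {a0 : ℝ} (ha : 0 < a0)
    (hpa : ∀ x, (pf x).a = a0) (hb : ∀ x, GhClk1 a0 ((pf x).b I.F I.𝔹)) (hh : ∀ x, GhClk1 a0 ((pf x).h I.F I.𝔹))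
    (cb : ∀ p ∈ ghPs a0 (l9Fl I.Fs), Continuous fun x => ghAt a0 ((pf x).b I.F I.𝔹) p)
    (ch : ∀ p ∈ ghPs a0 (l9Fl I.Fs), Continuous fun x => ghAt a0 ((pf x).h I.F I.𝔹) p) :
    Continuous fun x => I.psi (pf x) m' := by
  have e : (fun x => I.psi (pf x) m')
      = fun x => l9PsiC m' a0 ((pf x).b I.F I.𝔹) ((pf x).h I.F I.𝔹) ((pf x).K I.F I.𝔹) I.s (ghPs a0 (l9Fl I.Fs)) := by
    funext x
    unfold L9I.psi l9Psi
    rw [hpa x]
  rw [e]
  exact l9d_psiC_continuous hm ha _ _ _ I.s (gh_os_ps_pairwise _ _) (fun q hq => (gh_os_ps_mem.1 hq).2) hb hh cb ch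

/-- absolute continuity: the fields `ac_dir`, `ac_siz` of `L9IncF` -/
theorem l9d_I_ac (I : L9I) {m' : ℕ} (hm : 0 < m') (pf : ℝ → LlPt) {a0 t0 t1 : ℝ} (ha : 0 < a0)
    (hpa : ∀ t, (pf t).a = a0) (hb : ∀ t ∈ uIcc t0 t1, GhClk1 a0 ((pf t).b I.F I.𝔹))
    (hh : ∀ t ∈ uIcc t0 t1, GhClk1 a0 ((pf t).h I.F I.𝔹))
    (cb : ∀ p ∈ ghPs a0 (l9Fl I.Fs), AbsolutelyContinuousOnInterval (fun t => ghAt a0 ((pf t).b I.F I.𝔹) p) t0 t1)
    (ch : ∀ p ∈ ghPs a0 (l9Fl I.Fs), AbsolutelyContinuousOnInterval (fun t => ghAt a0 ((pf t).h I.F I.𝔹) p) t0 t1) :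
    AbsolutelyContinuousOnInterval (fun t => I.psi (pf t) m') t0 t1 := by
  have e : (fun t => I.psi (pf t) m')
      = fun t => l9PsiC m' a0 ((pf t).b I.F I.𝔹) ((pf t).h I.F I.𝔹) ((pf t).K I.F I.𝔹) I.s (ghPs a0 (l9Fl I.Fs)) := by
    funext t
    unfold L9I.psi l9Psi
    rw [hpa t]
  rw [e]
  exact l9d_psiC_ac hm ha _ _ _ I.s (gh_os_ps_pairwise _ _) (fun q hq => (gh_os_ps_mem.1 hq).2) hb hh cb ch

end inst

theorem l9d_psi_eqns_cite : True := by
  have := @l9dPsiDot.eq_1
  trivial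

end Claimed.Agent.R286
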