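import Claimed.Agent.R286.Defs.Jet
import Claimed.Agent.R286.Top.Path

/-!
# Row 286 (S0533), LL sec. 9, nodes TRS / TRD (09-expansion.tex l.226-330), file L09/TrAbs : TAYLOR REMAINDERS, ABSTRACT LAYER      (owner helper65; prefix `l9t`, `L9t`)

0 sorry.  One instance (fixed `N`, `m`, path point, `γ`), step hierarchy.  Everything is stated for POSITIVE LINEAR FUNCTIONALS defined on ALL functions
(`L9tPos`): this is what `JtCtx.nu r τ` (finite spin space) and `JtCtx.absK k q τ0` (finite sums with absolute weights) are; no measurability, no integrability.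

1. `L9tPos Sp E`        positive linear functional, monotone w.r.t. the order on the support `Sp`;  `l9t_amgm`, `l9t_holder` (k-fold Hoelder, NO normalisation needed).
2. `l9tM A E s X om`    THE MAJORANT  `A[ om(τ) E_τ[ ∏_{i ∈ s} |X τ i| ] ]`  (absolute allocation measure, positive laws; LL 02 "A remainder with k insertions").
   `l9t_size`  (T1)     all insertions small in the moment of order `k` ((D11)):                 `≤ W sg^k`.
   `l9t_direct` (T3+T4) at most one insertion with envelope `≥ thr` ((D2), Hoelder) / two of them (Cauchy-Schwarz + (D8) + ONE-pair marginal of the allocation):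
                                                                                                  `≤ W Bd thr^(k-1) + Bd^(k-2) k CS E8`.
3. the same on a jet context: `L9tOk X Sp`, `l9tRemW X fac q e τ0 w k`, `l9t_rem_le`, `l9t_remW_size`, `l9t_remW_direct`.
4. `l9t_stencil`, `l9t_trs` : the stencil extracts the linear coefficient of the polynomial in `j` (LL Lemma "Finite increments in the number of sites"); glue of node TRS on numbers.
5. numerics: `l9t_num_contact` (`1/m ≤ 2 x^6`), `l9t_num_pow` (choice of the Taylor degree), `l9t_num_d8` (`λ x^(-C₀δ') z₁⁰ Y² Z² = x^(5-C₀δ') λ^((1-η)/2-s_*) Z⁴ ≤ x^(5+c) Z⁴`).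
-/

set_option autoImplicit false

namespace Claimed.Agent.R286

open scoped BigOperators

/-! ### 1. positive linear functionals -/

/-- a positive linear functional on ALL real functions on `Ω`, which sees only the points of `Sp` -/
structure L9tPos {Ω : Type*} (Sp : Ω → Prop) (E : (Ω → ℝ) → ℝ) : Prop where
  mono : ∀ f g : Ω → ℝ, (∀ ω, Sp ω → f ω ≤ g ω) → E f ≤ E g
  add : ∀ f g : Ω → ℝ, E (fun ω => f ω + g ω) = E f + E g
  smul : ∀ (c : ℝ) (f : Ω → ℝ), E (fun ω => c * f ω) = c * E f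

namespace L9tPos

variable {Ω : Type*} {Sp : Ω → Prop} {E : (Ω → ℝ) → ℝ}

theorem zero (h : L9tPos Sp E) : E (fun _ => 0) = 0 := by
  have := h.smul 0 (fun _ => 0)
  simpa using this

theorem nonneg (h : L9tPos Sp E) {f : Ω → ℝ} (hf : ∀ ω, Sp ω → 0 ≤ f ω) : 0 ≤ E f := by
  rw [← h.zero]
  exact h.mono _ _ hf

theorem congr (h : L9tPos Sp E) {f g : Ω → ℝ} (hfg : ∀ ω, Sp ω → f ω = g ω) : E f = E g :=
  le_antisymm (h.mono _ _ fun ω hω => (hfg ω hω).le) (h.mono _ _ fun ω hω => (hfg ω hω).ge)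

theorem mul_const (h : L9tPos Sp E) (f : Ω → ℝ) (c : ℝ) : E (fun ω => f ω * c) = E f * c := by
  have : (fun ω => f ω * c) = fun ω => c * f ω := by funext ω; ring
  rw [this, h.smul, mul_comm]

theorem sum (h : L9tPos Sp E) {ι : Type*} (s : Finset ι) (f : ι → Ω → ℝ) :
    E (fun ω => ∑ i ∈ s, f i ω) = ∑ i ∈ s, E (f i) := by
  classical
  induction s using Finset.induction_on with
  | empty => simpa using h.zero
  | insert a s ha ih =>
    simp only [Finset.sum_insert ha]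
    rw [h.add, ih]

theorem abs_le (h : L9tPos Sp E) (f : Ω → ℝ) : |E f| ≤ E (fun ω => |f ω|) := by
  rw [_root_.abs_le]
  constructor
  · have h1 : E (fun ω => (-1) * |f ω|) ≤ E f := h.mono _ _ fun ω _ => by
      have := neg_abs_le (f ω)
      linarith
    rw [h.smul] at h1
    linarith
  · exact h.mono _ _ fun ω _ => le_abs_self _

theorem const_le (h : L9tPos Sp E) (h1 : E (fun _ => 1) ≤ 1) {c : ℝ} (hc : 0 ≤ c) : E (fun _ => c) ≤ c := by
  have := h.smul c (fun _ => 1)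
  simp only [mul_one] at this
  rw [this]
  nlinarith

end L9tPos

/-- arithmetic-geometric mean inequality in the form `∏ y_i ≤ k⁻¹ ∑ y_i^k` -/
theorem l9t_amgm {ι : Type*} (s : Finset ι) (hs : s.Nonempty) (y : ι → ℝ) (hy : ∀ i ∈ s, 0 ≤ y i) :
    ∏ i ∈ s, y i ≤ (s.card : ℝ)⁻¹ * ∑ i ∈ s, y i ^ s.card := by
  have hk : s.card ≠ 0 := hs.card_pos.ne'
  have hk' : (s.card : ℝ) ≠ 0 := by exact_mod_cast hk
  have h := Real.geom_mean_le_arith_mean_weighted s (fun _ => (s.card : ℝ)⁻¹) (fun i => y i ^ s.card)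
    (fun _ _ => by positivity) (by rw [Finset.sum_const, nsmul_eq_mul]; field_simp)
    (fun i hi => pow_nonneg (hy i hi) _)
  have e : ∏ i ∈ s, (y i ^ s.card) ^ ((s.card : ℝ)⁻¹) = ∏ i ∈ s, y i :=
    Finset.prod_congr rfl fun i hi => Real.pow_rpow_inv_natCast (hy i hi) hk
  rw [e, ← Finset.mul_sum] at h
  exact h

/-- **k-fold Hoelder inequality** for a positive linear functional (no normalisation is needed: the exponents are `k, .., k`) -/
theorem l9t_holder {Ω ι : Type*} {Sp : Ω → Prop} {E : (Ω → ℝ) → ℝ} (hE : L9tPos Sp E)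
    (s : Finset ι) (hs : s.Nonempty) (X : ι → Ω → ℝ) (a : ι → ℝ) (ha : ∀ i ∈ s, 0 < a i)
    (hX : ∀ i ∈ s, E (fun ω => |X i ω| ^ s.card) ≤ a i ^ s.card) :
    E (fun ω => ∏ i ∈ s, |X i ω|) ≤ ∏ i ∈ s, a i := by
  have hk' : (0 : ℝ) < s.card := by exact_mod_cast hs.card_pos
  have hP : 0 < ∏ i ∈ s, a i := Finset.prod_pos ha
  have hpt : ∀ ω, ∏ i ∈ s, |X i ω|
      ≤ ((∏ i ∈ s, a i) * (s.card : ℝ)⁻¹) * ∑ i ∈ s, (a i ^ s.card)⁻¹ * |X i ω| ^ s.card := by
    intro ω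
    have h1 := l9t_amgm s hs (fun i => |X i ω| / a i) fun i hi => div_nonneg (abs_nonneg _) (ha i hi).le
    have e1 : ∏ i ∈ s, |X i ω| = (∏ i ∈ s, a i) * ∏ i ∈ s, (|X i ω| / a i) := by
      rw [← Finset.prod_mul_distrib]
      refine Finset.prod_congr rfl fun i hi => ?_
      have := (ha i hi).ne'
      field_simp
    have e2 : ∑ i ∈ s, (|X i ω| / a i) ^ s.card = ∑ i ∈ s, (a i ^ s.card)⁻¹ * |X i ω| ^ s.card :=
      Finset.sum_congr rfl fun i _ => by rw [div_pow, div_eq_mul_inv, mul_comm]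
    rw [e1, mul_assoc, ← e2]
    exact mul_le_mul_of_nonneg_left h1 hP.le
  calc E (fun ω => ∏ i ∈ s, |X i ω|)
      ≤ E (fun ω => ((∏ i ∈ s, a i) * (s.card : ℝ)⁻¹) *
          ∑ i ∈ s, (a i ^ s.card)⁻¹ * |X i ω| ^ s.card) := hE.mono _ _ fun ω _ => hpt ω
    _ = ((∏ i ∈ s, a i) * (s.card : ℝ)⁻¹) *
          ∑ i ∈ s, (a i ^ s.card)⁻¹ * E (fun ω => |X i ω| ^ s.card) := by
        rw [hE.smul, hE.sum]
        congr 1
        exact Finset.sum_congr rfl fun i _ => hE.smul _ _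
    _ ≤ ((∏ i ∈ s, a i) * (s.card : ℝ)⁻¹) * ∑ _i ∈ s, (1 : ℝ) := by
        refine mul_le_mul_of_nonneg_left (Finset.sum_le_sum fun i hi => ?_) (by positivity)
        have hp : 0 < a i ^ s.card := pow_pos (ha i hi) _
        rw [inv_mul_le_iff₀ hp, mul_one]
        exact hX i hi
    _ = ∏ i ∈ s, a i := by
        rw [Finset.sum_const, nsmul_eq_mul, mul_one, mul_assoc, inv_mul_cancel₀ hk'.ne', mul_one]

/-! ### 2. the majorant of a remainder with `k` insertions -/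

/-- `A[ om(τ) E_τ[ ∏_{i ∈ s} |X τ i| ] ]` : absolute allocation measure `A`, deterministic weight `om ≥ 0`, positive laws `E τ`, insertions `X τ i` -/
def l9tM {T Ω ι : Type*} (A : (T → ℝ) → ℝ) (E : T → (Ω → ℝ) → ℝ) (s : Finset ι) (X : T → ι → Ω → ℝ)
    (om : T → ℝ) : ℝ :=
  A fun τ => om τ * E τ fun ω => ∏ i ∈ s, |X τ i ω|

/-- standing hypotheses on a majorant -/
structure L9tMaj {T Ω : Type*} (Sp : T → Prop) (A : (T → ℝ) → ℝ) (E : T → (Ω → ℝ) → ℝ) (om : T → ℝ) : Prop where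
  A_pos : L9tPos Sp A
  E_pos : ∀ τ, Sp τ → L9tPos (fun _ => True) (E τ)
  om0 : ∀ τ, Sp τ → 0 ≤ om τ

/-- **T1** (09 l.228-236): every insertion is small in the moment of order `k = |s|` ((D11)); `W` = weighted total mass of the absolute allocation measure. -/
theorem l9t_size {T Ω ι : Type*} {Sp : T → Prop} {A : (T → ℝ) → ℝ} {E : T → (Ω → ℝ) → ℝ} {om : T → ℝ}
    (h : L9tMaj Sp A E om) (s : Finset ι) (hs : s.Nonempty) (X : T → ι → Ω → ℝ) {sg W : ℝ} (hsg : 0 < sg)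
    (hmom : ∀ τ, Sp τ → om τ ≠ 0 → ∀ i ∈ s, E τ (fun ω => |X τ i ω| ^ s.card) ≤ sg ^ s.card)
    (hW : A om ≤ W) : l9tM A E s X om ≤ W * sg ^ s.card := by
  unfold l9tM
  calc A (fun τ => om τ * E τ fun ω => ∏ i ∈ s, |X τ i ω|) ≤ A (fun τ => om τ * sg ^ s.card) := by
        refine h.A_pos.mono _ _ fun τ hτ => ?_
        by_cases h0 : om τ = 0
        · rw [h0, zero_mul, zero_mul]
        · refine mul_le_mul_of_nonneg_left ?_ (h.om0 τ hτ)
          have := l9t_holder (h.E_pos τ hτ) s hs (X τ) (fun _ => sg) (fun _ _ => hsg) (hmom τ hτ h0)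
          simpa using this
    _ = A om * sg ^ s.card := h.A_pos.mul_const _ _
    _ ≤ W * sg ^ s.card := mul_le_mul_of_nonneg_right hW (by positivity)

/-- the localised second moment: `D_v² 1{e(v) ≥ thr}` -/
noncomputable def l9tG (sig Dsq : ℕ → ℝ) (thr : ℝ) (t : ℕ) : ℝ := if thr ≤ sig t then Dsq t else 0

theorem l9tG_nonneg {sig Dsq : ℕ → ℝ} {thr : ℝ} (hD : ∀ t, 0 ≤ Dsq t) (t : ℕ) : 0 ≤ l9tG sig Dsq thr t := by
  unfold l9tG
  split_ifs
  · exact hD t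
  · exact le_rfl

/-- T3 + T4, pointwise in the topology -/
theorem l9t_direct_pt {Ω ι : Type*} [DecidableEq ι] {E : (Ω → ℝ) → ℝ} (hE : L9tPos (fun _ => True) E)
    (hone : E (fun _ => 1) ≤ 1) (s : Finset ι) (hk : 2 ≤ s.card) (X : ι → Ω → ℝ) (lv : ι → ℕ)
    {thr Bd : ℝ} {sig Dsq : ℕ → ℝ} (hthr : 0 < thr) (hBd : 0 < Bd) (hsig0 : ∀ t, 0 < sig t) (hDsq0 : ∀ t, 0 ≤ Dsq t)
    (hbd : ∀ i ∈ s, ∀ ω, |X i ω| ≤ Bd)
    (hmom : ∀ i ∈ s, sig (lv i) < thr → E (fun ω => |X i ω| ^ s.card) ≤ sig (lv i) ^ s.card)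
    (hD : ∀ i ∈ s, thr ≤ sig (lv i) → E (fun ω => X i ω ^ 2) ≤ Dsq (lv i)) :
    E (fun ω => ∏ i ∈ s, |X i ω|)
      ≤ Bd * thr ^ (s.card - 1) + Bd ^ (s.card - 2) * ∑ i ∈ s, l9tG sig Dsq thr (lv i) := by
  have hs : s.Nonempty := Finset.card_pos.mp (by omega)
  have hG0 := l9tG_nonneg (sig := sig) (thr := thr) hDsq0
  have hsum0 : 0 ≤ ∑ i ∈ s, l9tG sig Dsq thr (lv i) := Finset.sum_nonneg fun i _ => hG0 _
  by_cases hc : ∃ i0 ∈ s, ∀ i ∈ s, i ≠ i0 → sig (lv i) < thr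
  · -- at most one large envelope
    obtain ⟨i0, hi0, hsm⟩ := hc
    have h1 := l9t_holder hE s hs X (fun i => if i = i0 then Bd else sig (lv i))
      (fun i _ => by
        show 0 < if i = i0 then Bd else sig (lv i)
        split_ifs
        · exact hBd
        · exact hsig0 _)
      (fun i hi => by
        show E (fun ω => |X i ω| ^ s.card) ≤ (if i = i0 then Bd else sig (lv i)) ^ s.card
        split_ifs with hii
        · calc E (fun ω => |X i ω| ^ s.card) ≤ E (fun _ => Bd ^ s.card) :=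
                hE.mono _ _ fun ω _ => pow_le_pow_left₀ (abs_nonneg _) (hbd i hi ω) _
            _ ≤ Bd ^ s.card := hE.const_le hone (by positivity)
        · exact hmom i hi (hsm i hi hii))
    have h2 : ∏ i ∈ s, (if i = i0 then Bd else sig (lv i)) ≤ Bd * thr ^ (s.card - 1) := by
      rw [← Finset.mul_prod_erase s _ hi0, if_pos rfl]
      refine mul_le_mul_of_nonneg_left ?_ hBd.le
      calc ∏ i ∈ s.erase i0, (if i = i0 then Bd else sig (lv i)) ≤ ∏ _i ∈ s.erase i0, thr := by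
            refine Finset.prod_le_prod (fun i _ => ?_) fun i hi => ?_
            · split_ifs
              · exact hBd.le
              · exact (hsig0 _).le
            · rw [if_neg (Finset.ne_of_mem_erase hi)]
              exact (hsm i (Finset.mem_of_mem_erase hi) (Finset.ne_of_mem_erase hi)).le
        _ = thr ^ (s.card - 1) := by rw [Finset.prod_const, Finset.card_erase_of_mem hi0]
    have h3 : 0 ≤ Bd ^ (s.card - 2) * ∑ i ∈ s, l9tG sig Dsq thr (lv i) := by positivity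
    linarith
  · -- two large envelopes
    push Not at hc
    obtain ⟨j0, hj0⟩ := hs
    obtain ⟨i1, hi1, _, hb1⟩ := hc j0 hj0
    obtain ⟨i2, hi2, h21, hb2⟩ := hc i1 hi1
    have hi2' : i2 ∈ s.erase i1 := Finset.mem_erase.mpr ⟨h21, hi2⟩
    have hpt : ∀ ω, ∏ i ∈ s, |X i ω| ≤ Bd ^ (s.card - 2) * (X i1 ω ^ 2 + X i2 ω ^ 2) := by
      intro ω
      rw [← Finset.mul_prod_erase s _ hi1, ← Finset.mul_prod_erase (s.erase i1) _ hi2', ← mul_assoc, mul_comm]
      have hr : ∏ i ∈ (s.erase i1).erase i2, |X i ω| ≤ Bd ^ (s.card - 2) := by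
        calc ∏ i ∈ (s.erase i1).erase i2, |X i ω| ≤ ∏ _i ∈ (s.erase i1).erase i2, Bd :=
              Finset.prod_le_prod (fun i _ => abs_nonneg _) fun i hi =>
                hbd i (Finset.mem_of_mem_erase (Finset.mem_of_mem_erase hi)) ω
          _ = Bd ^ (s.card - 2) := by
              rw [Finset.prod_const, Finset.card_erase_of_mem hi2', Finset.card_erase_of_mem hi1]
              rfl
      have h12 : |X i1 ω| * |X i2 ω| ≤ X i1 ω ^ 2 + X i2 ω ^ 2 := by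
        rw [← sq_abs (X i1 ω), ← sq_abs (X i2 ω)]
        nlinarith [sq_nonneg (|X i1 ω| - |X i2 ω|), sq_nonneg (|X i1 ω|), sq_nonneg (|X i2 ω|)]
      exact mul_le_mul hr h12 (by positivity) (by positivity)
    have hGi : ∀ i ∈ s, thr ≤ sig (lv i) → E (fun ω => X i ω ^ 2) ≤ l9tG sig Dsq thr (lv i) := by
      intro i hi hb
      unfold l9tG
      rw [if_pos hb]
      exact hD i hi hb
    have h2 : l9tG sig Dsq thr (lv i1) + l9tG sig Dsq thr (lv i2) ≤ ∑ i ∈ s, l9tG sig Dsq thr (lv i) := by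
      rw [← Finset.add_sum_erase s _ hi1, ← Finset.add_sum_erase (s.erase i1) _ hi2', ← add_assoc]
      have : 0 ≤ ∑ i ∈ (s.erase i1).erase i2, l9tG sig Dsq thr (lv i) := Finset.sum_nonneg fun i _ => hG0 _
      linarith
    calc E (fun ω => ∏ i ∈ s, |X i ω|) ≤ E (fun ω => Bd ^ (s.card - 2) * (X i1 ω ^ 2 + X i2 ω ^ 2)) :=
          hE.mono _ _ fun ω _ => hpt ω
      _ = Bd ^ (s.card - 2) * (E (fun ω => X i1 ω ^ 2) + E (fun ω => X i2 ω ^ 2)) := by
          rw [hE.smul, hE.add]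
      _ ≤ Bd ^ (s.card - 2) * ∑ i ∈ s, l9tG sig Dsq thr (lv i) := by
          refine mul_le_mul_of_nonneg_left ?_ (by positivity)
          linarith [hGi i1 hi1 hb1, hGi i2 hi2 hb2]
      _ ≤ _ := by
          have : 0 ≤ Bd * thr ^ (s.card - 1) := by positivity
          linarith

/-- **T3 + T4** (09 l.255-290): the true Taylor remainder of a direct variation.   `sig` = envelope of an insertion (function of the split stage), `thr = x^δ'`,
`Dsq` = second moment of an insertion, `E8` = (D8), `W` = weighted total mass, `sm` = ONE-pair marginal of the weighted absolute allocation measure (both `O_∘(λ)`). -/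
theorem l9t_direct {T Ω ι : Type*} [DecidableEq ι] {Sp : T → Prop} {A : (T → ℝ) → ℝ} {E : T → (Ω → ℝ) → ℝ}
    {om : T → ℝ} (h : L9tMaj Sp A E om) (s : Finset ι) (hk : 2 ≤ s.card) (X : T → ι → Ω → ℝ) (lv : T → ι → ℕ)
    {thr Bd W CS E8 : ℝ} {sig Dsq mw : ℕ → ℝ} {K : Finset ℕ}
    (hthr : 0 < thr) (hBd : 0 < Bd) (hCS : 0 ≤ CS) (hsig0 : ∀ t, 0 < sig t) (hDsq0 : ∀ t, 0 ≤ Dsq t)
    (hone : ∀ τ, Sp τ → E τ (fun _ => 1) ≤ 1)
    (hbd : ∀ τ, Sp τ → om τ ≠ 0 → ∀ i ∈ s, ∀ ω, |X τ i ω| ≤ Bd)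
    (hmom : ∀ τ, Sp τ → om τ ≠ 0 → ∀ i ∈ s, sig (lv τ i) < thr →
      E τ (fun ω => |X τ i ω| ^ s.card) ≤ sig (lv τ i) ^ s.card)
    (hD : ∀ τ, Sp τ → om τ ≠ 0 → ∀ i ∈ s, thr ≤ sig (lv τ i) → E τ (fun ω => X τ i ω ^ 2) ≤ Dsq (lv τ i))
    (hW : A om ≤ W)
    (sm : ∀ i ∈ s, ∀ g : ℕ → ℝ, (∀ t, 0 ≤ g t) → A (fun τ => om τ * g (lv τ i)) ≤ CS * ∑ t ∈ K, mw t * g t)
    (hE8 : ∑ t ∈ K.filter (fun t => thr ≤ sig t), mw t * Dsq t ≤ E8) :
    l9tM A E s X om ≤ W * (Bd * thr ^ (s.card - 1)) + Bd ^ (s.card - 2) * (s.card * (CS * E8)) := by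
  have hG0 := l9tG_nonneg (sig := sig) (thr := thr) hDsq0
  have hGsum : ∑ t ∈ K, mw t * l9tG sig Dsq thr t ≤ E8 := by
    refine le_trans (le_of_eq ?_) hE8
    rw [Finset.sum_filter]
    refine Finset.sum_congr rfl fun t _ => ?_
    unfold l9tG
    split_ifs <;> simp
  unfold l9tM
  calc A (fun τ => om τ * E τ fun ω => ∏ i ∈ s, |X τ i ω|)
      ≤ A (fun τ => om τ * (Bd * thr ^ (s.card - 1))
          + Bd ^ (s.card - 2) * ∑ i ∈ s, om τ * l9tG sig Dsq thr (lv τ i)) := by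
        refine h.A_pos.mono _ _ fun τ hτ => ?_
        by_cases h0 : om τ = 0
        · simp [h0]
        · have := l9t_direct_pt (h.E_pos τ hτ) (hone τ hτ) s hk (X τ) (lv τ) hthr hBd hsig0 hDsq0
            (hbd τ hτ h0) (hmom τ hτ h0) (hD τ hτ h0)
          have h2 := mul_le_mul_of_nonneg_left this (h.om0 τ hτ)
          refine h2.trans (le_of_eq ?_)
          rw [Finset.mul_sum, Finset.mul_sum, mul_add, Finset.mul_sum]
          congr 1
          exact Finset.sum_congr rfl fun i _ => by ring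
    _ = A om * (Bd * thr ^ (s.card - 1))
          + Bd ^ (s.card - 2) * ∑ i ∈ s, A (fun τ => om τ * l9tG sig Dsq thr (lv τ i)) := by
        rw [h.A_pos.add, h.A_pos.mul_const, h.A_pos.smul, h.A_pos.sum]
    _ ≤ W * (Bd * thr ^ (s.card - 1)) + Bd ^ (s.card - 2) * ∑ _i ∈ s, CS * E8 := by
        have h1 : A om * (Bd * thr ^ (s.card - 1)) ≤ W * (Bd * thr ^ (s.card - 1)) :=
          mul_le_mul_of_nonneg_right hW (by positivity)
        have h2 : ∑ i ∈ s, A (fun τ => om τ * l9tG sig Dsq thr (lv τ i)) ≤ ∑ _i ∈ s, CS * E8 :=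
          Finset.sum_le_sum fun i hi => (sm i hi _ hG0).trans (mul_le_mul_of_nonneg_left hGsum hCS)
        have h3 := mul_le_mul_of_nonneg_left h2 (show 0 ≤ Bd ^ (s.card - 2) by positivity)
        linarith
    _ = _ := by rw [Finset.sum_const, nsmul_eq_mul]

/-! ### 3. the same on a jet context -/

/-- what the remainder estimates use of a jet context;   `Sp r τ` = "`τ` is the table of a tree on the labels `< r`" -/
structure L9tOk {S : Type} (X : JtCtx S) (Sp : ℕ → JtTopo → Prop) : Prop where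
  nu_pos : ∀ r τ, Sp r τ → L9tPos (fun _ => True) (X.nu r τ)
  nu_one : ∀ r τ, Sp r τ → X.nu r τ (fun _ => 1) = 1
  abs_pos : ∀ k q τ0, Sp q τ0 → L9tPos (Sp (q + k)) (X.absK k q τ0)

/-- **weighted majorant of a remainder**: `k` insertions `fac` on the pairs `0..k-1` over `q` old labels, `e` further labels (an added scalar pair),
deterministic weight `w τ ≥ 0` (topology coefficient x dotted clock at ONE split).   `fac = X.J` : (A7), (A9);   `fac = |Δ| + |J|` : size increments. -/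
noncomputable def l9tRemW {S : Type} (X : JtCtx S) (fac : JtTopo → (ℕ → S) → ℕ → ℕ → ℝ) (q e : ℕ) (τ0 : JtTopo)
    (w : JtTopo → ℝ) (k : ℕ) : ℝ :=
  X.absK (2 * k + e) q τ0 fun τ => (w τ * X.off q k τ) *
    X.nu (q + (2 * k + e)) τ fun σ => ∏ i ∈ Finset.range k, |fac τ σ (jtC q i) (jtD q i)|

theorem l9t_off_nonneg {S : Type} (X : JtCtx S) (q n : ℕ) (τ : JtTopo) : 0 ≤ X.off q n τ := by
  unfold JtCtx.off
  refine Finset.prod_nonneg fun i _ => ?_
  split_ifs <;> norm_num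

theorem l9t_off_le_one {S : Type} (X : JtCtx S) (q n : ℕ) (τ : JtTopo) : X.off q n τ ≤ 1 := by
  unfold JtCtx.off
  refine Finset.prod_le_one (fun i _ => ?_) fun i _ => ?_ <;> split_ifs <;> norm_num

theorem l9t_off_ne_zero {S : Type} {X : JtCtx S} {q n : ℕ} {τ : JtTopo} (h : X.off q n τ ≠ 0) {i : ℕ} (hi : i < n) :
    τ (jtC q i) (jtD q i) ≤ X.N := by
  unfold JtCtx.off at h
  rw [Finset.prod_ne_zero_iff] at h
  have := h i (Finset.mem_range.mpr hi)
  by_contra hc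
  rw [if_neg hc] at this
  exact this rfl

theorem l9t_maj_of_ok {S : Type} {X : JtCtx S} {Sp : ℕ → JtTopo → Prop} (hX : L9tOk X Sp) {q n k : ℕ} {τ0 : JtTopo}
    {w : JtTopo → ℝ} (hτ0 : Sp q τ0) (hw : ∀ τ, Sp (q + n) τ → 0 ≤ w τ) :
    L9tMaj (Sp (q + n)) (X.absK n q τ0) (fun τ => X.nu (q + n) τ) (fun τ => w τ * X.off q k τ) where
  A_pos := hX.abs_pos n q τ0 hτ0
  E_pos := fun τ hτ => hX.nu_pos _ τ hτ
  om0 := fun τ hτ => mul_nonneg (hw τ hτ) (l9t_off_nonneg X q k τ)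

/-- the un-weighted majorant `JtCtx.rem` of (A7) -/
theorem l9t_rem_le {S : Type} {X : JtCtx S} {Sp : ℕ → JtTopo → Prop} (hX : L9tOk X Sp) {q k : ℕ} {τ0 : JtTopo}
    (hτ0 : Sp q τ0) {P : (ℕ → S) → ℝ} {L : ℝ} (hP : ∀ σ, |P σ| ≤ L) :
    X.rem q τ0 P k ≤ L * l9tRemW X X.J q 0 τ0 (fun _ => 1) k := by
  unfold JtCtx.rem l9tRemW
  rw [← (hX.abs_pos (2 * k + 0) q τ0 hτ0).smul]
  refine (hX.abs_pos (2 * k) q τ0 hτ0).mono _ _ fun τ hτ => ?_
  have h1 : X.nu (q + 2 * k) τ (fun σ => |P σ| * |X.Jprod q k τ σ|)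
      ≤ L * X.nu (q + 2 * k) τ fun σ => ∏ i ∈ Finset.range k, |X.J τ σ (jtC q i) (jtD q i)| := by
    rw [← (hX.nu_pos _ τ hτ).smul]
    refine (hX.nu_pos _ τ hτ).mono _ _ fun σ _ => ?_
    unfold JtCtx.Jprod
    rw [Finset.abs_prod]
    exact mul_le_mul_of_nonneg_right (hP σ) (Finset.prod_nonneg fun i _ => abs_nonneg _)
  have h2 := mul_le_mul_of_nonneg_left h1 (l9t_off_nonneg X q k τ)
  refine h2.trans (le_of_eq ?_)
  show _ = L * ((1 * X.off q k τ) * X.nu (q + 2 * k) τ _)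
  ring

/-- **T1 on a jet context** -/
theorem l9t_remW_size {S : Type} {X : JtCtx S} {Sp : ℕ → JtTopo → Prop} (hX : L9tOk X Sp)
    (fac : JtTopo → (ℕ → S) → ℕ → ℕ → ℝ) {q e k : ℕ} {τ0 : JtTopo} {w : JtTopo → ℝ} (hτ0 : Sp q τ0) (hk : 0 < k)
    (hw : ∀ τ, Sp (q + (2 * k + e)) τ → 0 ≤ w τ) {sg W : ℝ} (hsg : 0 < sg)
    (hmom : ∀ τ, Sp (q + (2 * k + e)) τ → ∀ i < k, τ (jtC q i) (jtD q i) ≤ X.N →
      X.nu (q + (2 * k + e)) τ (fun σ => |fac τ σ (jtC q i) (jtD q i)| ^ k) ≤ sg ^ k)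
    (hW : X.absK (2 * k + e) q τ0 w ≤ W) :
    l9tRemW X fac q e τ0 w k ≤ W * sg ^ k := by
  have hM := l9t_maj_of_ok hX (k := k) hτ0 hw
  have := l9t_size hM (Finset.range k) (Finset.nonempty_range_iff.mpr hk.ne')
    (fun τ i σ => fac τ σ (jtC q i) (jtD q i)) (sg := sg) (W := W) hsg
    (fun τ hτ h0 i hi => by
      rw [Finset.card_range]
      exact hmom τ hτ i (Finset.mem_range.mp hi) (l9t_off_ne_zero (right_ne_zero_of_mul h0) (Finset.mem_range.mp hi)))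
    (le_trans (hM.A_pos.mono _ _ fun τ hτ => by
      have := mul_le_mul_of_nonneg_left (l9t_off_le_one X q k τ) (hw τ hτ)
      simpa using this) hW)
  rw [Finset.card_range] at this
  exact this

/-- **T3 + T4 on a jet context** -/
theorem l9t_remW_direct {S : Type} {X : JtCtx S} {Sp : ℕ → JtTopo → Prop} (hX : L9tOk X Sp)
    (fac : JtTopo → (ℕ → S) → ℕ → ℕ → ℝ) {q e k : ℕ} {τ0 : JtTopo} {w : JtTopo → ℝ} (hτ0 : Sp q τ0) (hk : 2 ≤ k)
    (hw : ∀ τ, Sp (q + (2 * k + e)) τ → 0 ≤ w τ)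
    {thr Bd W CS E8 : ℝ} {sig Dsq mw : ℕ → ℝ} {K : Finset ℕ}
    (hthr : 0 < thr) (hBd : 0 < Bd) (hCS : 0 ≤ CS) (hsig0 : ∀ t, 0 < sig t) (hDsq0 : ∀ t, 0 ≤ Dsq t)
    (hbd : ∀ τ, Sp (q + (2 * k + e)) τ → ∀ i < k, τ (jtC q i) (jtD q i) ≤ X.N → ∀ σ, |fac τ σ (jtC q i) (jtD q i)| ≤ Bd)
    (hmom : ∀ τ, Sp (q + (2 * k + e)) τ → ∀ i < k, τ (jtC q i) (jtD q i) ≤ X.N → sig (τ (jtC q i) (jtD q i)) < thr →
      X.nu (q + (2 * k + e)) τ (fun σ => |fac τ σ (jtC q i) (jtD q i)| ^ k) ≤ sig (τ (jtC q i) (jtD q i)) ^ k)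
    (hD : ∀ τ, Sp (q + (2 * k + e)) τ → ∀ i < k, τ (jtC q i) (jtD q i) ≤ X.N → thr ≤ sig (τ (jtC q i) (jtD q i)) →
      X.nu (q + (2 * k + e)) τ (fun σ => fac τ σ (jtC q i) (jtD q i) ^ 2) ≤ Dsq (τ (jtC q i) (jtD q i)))
    (hW : X.absK (2 * k + e) q τ0 w ≤ W)
    (sm : ∀ i < k, ∀ g : ℕ → ℝ, (∀ t, 0 ≤ g t) →
      X.absK (2 * k + e) q τ0 (fun τ => w τ * g (τ (jtC q i) (jtD q i))) ≤ CS * ∑ t ∈ K, mw t * g t)
    (hE8 : ∑ t ∈ K.filter (fun t => thr ≤ sig t), mw t * Dsq t ≤ E8) :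
    l9tRemW X fac q e τ0 w k ≤ W * (Bd * thr ^ (k - 1)) + Bd ^ (k - 2) * (k * (CS * E8)) := by
  have hM := l9t_maj_of_ok hX (k := k) hτ0 hw
  have hoff : ∀ τ, w τ * X.off q k τ ≠ 0 → ∀ i ∈ Finset.range k, τ (jtC q i) (jtD q i) ≤ X.N := fun τ h0 i hi =>
    l9t_off_ne_zero (right_ne_zero_of_mul h0) (Finset.mem_range.mp hi)
  have := l9t_direct hM (Finset.range k) (by rw [Finset.card_range]; exact hk)
    (fun τ i σ => fac τ σ (jtC q i) (jtD q i)) (fun τ i => τ (jtC q i) (jtD q i))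
    (thr := thr) (Bd := Bd) (W := W) (CS := CS) (E8 := E8) (sig := sig) (Dsq := Dsq) (mw := mw) (K := K)
    hthr hBd hCS hsig0 hDsq0 (fun τ hτ => (hX.nu_one _ τ hτ).le)
    (fun τ hτ h0 i hi => hbd τ hτ i (Finset.mem_range.mp hi) (hoff τ h0 i hi))
    (fun τ hτ h0 i hi hs => by
      rw [Finset.card_range]
      exact hmom τ hτ i (Finset.mem_range.mp hi) (hoff τ h0 i hi) hs)
    (fun τ hτ h0 i hi hs => hD τ hτ i (Finset.mem_range.mp hi) (hoff τ h0 i hi) hs)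
    (le_trans (hM.A_pos.mono _ _ fun τ hτ => by
      have := mul_le_mul_of_nonneg_left (l9t_off_le_one X q k τ) (hw τ hτ)
      simpa using this) hW)
    (fun i hi g hg => le_trans (hM.A_pos.mono _ _ fun τ hτ => by
      have h1 := mul_le_mul_of_nonneg_left (l9t_off_le_one X q k τ) (hw τ hτ)
      rw [mul_one] at h1
      exact mul_le_mul_of_nonneg_right h1 (hg _)) (sm i (Finset.mem_range.mp hi) g hg))
    hE8
  rw [Finset.card_range] at this
  exact this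

/-! ### 4. the stencil; glue of node TRS on numbers -/

/-- the stencil of order `r ≥ k` extracts the linear coefficient of a polynomial of degree `≤ k` in `j` -/
theorem l9t_stencil {r k : ℕ} {c : ℕ → ℝ} (hc : SkStencil r c) (hk1 : 1 ≤ k) (hk : k ≤ r) (a : ℕ → ℝ) (u0 : ℝ)
    (u Rem : ℕ → ℝ) (hu : ∀ j ≤ r, u j = u0 + ∑ l ∈ Finset.Icc 1 k, a l * (j : ℝ) ^ l + Rem j) :
    ∑ j ∈ Finset.range (r + 1), c j * u j = a 1 + ∑ j ∈ Finset.range (r + 1), c j * Rem j := by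
  set P : Polynomial ℝ := Polynomial.C u0 + ∑ l ∈ Finset.Icc 1 k, Polynomial.C (a l) * Polynomial.X ^ l with hP
  have hdeg : P.natDegree ≤ r := by
    refine (Polynomial.natDegree_add_le _ _).trans (max_le (by simp) ?_)
    refine Polynomial.natDegree_sum_le_of_forall_le _ _ fun l hl => ?_
    exact (Polynomial.natDegree_C_mul_X_pow_le _ _).trans ((Finset.mem_Icc.mp hl).2.trans hk)
  have hev : ∀ y : ℝ, P.eval y = u0 + ∑ l ∈ Finset.Icc 1 k, a l * y ^ l := by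
    intro y
    simp [hP, Polynomial.eval_finsetSum]
  have hder : P.derivative.eval 0 = a 1 := by
    rw [← Polynomial.coeff_zero_eq_eval_zero, Polynomial.coeff_derivative, hP, Polynomial.coeff_add,
      Polynomial.finsetSum_coeff]
    simp only [Polynomial.coeff_C_mul_X_pow]
    rw [Finset.sum_eq_single 1]
    · simp
    · intro l _ hl
      rw [if_neg (by omega)]
    · intro h
      exact absurd (Finset.mem_Icc.mpr ⟨le_rfl, hk1⟩) h
  have h := hc P hdeg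
  rw [hder] at h
  rw [← h, ← Finset.sum_add_distrib]
  refine Finset.sum_congr rfl fun j hj => ?_
  rw [hu j (by have := Finset.mem_range.mp hj; omega), hev]
  ring

/-- **node TRS, glue on numbers** (09 l.226-252 + l.28-38).   `psi n = ψ_n`, `psidot = ∂_θ ψ_m`;   `hSI` = LL Lemma "Finite increments in the number of sites";
`P1 - P0` = difference of the per-root expectations of (A6) (`JtCtx.presR`);   `hA9` = (A9) with `e = 1/6`, `DP1 - DP0` = difference of the per-root expectations of `𝒟 I`;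
so `(P1 - P0) + (DP1 - DP0)` = `d[(1 + ∂_θ) (E1)]`.   The left side is the combination (I) of `SkPath.aS`. -/
theorem l9t_trs {r k : ℕ} {c : ℕ → ℝ} (hc : SkStencil r c) (hk1 : 1 ≤ k) (hk : k ≤ r) (m : ℕ) (psi : ℕ → ℝ)
    (psidot : ℝ) (a RemS : ℕ → ℝ) (P1 P0 DP1 DP0 RemD : ℝ)
    (hSI : ∀ j ≤ r, ((m + j : ℕ) : ℝ) * psi (m + j) = m * psi m + ∑ l ∈ Finset.Icc 1 k, a l * (j : ℝ) ^ l + RemS j)
    (ha1 : a 1 = P1 - P0) (hA9 : psidot = DP1 - DP0 + RemD)
    {R : ℝ} (hRS : ∀ j ≤ r, |RemS j| ≤ R) (hRD : |RemD| ≤ R) :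
    |psidot + ∑ j ∈ Finset.range (r + 1), c j * (((m + j : ℕ) : ℝ) * psi (m + j)) - ((P1 - P0) + (DP1 - DP0))|
      ≤ (1 + ∑ j ∈ Finset.range (r + 1), |c j|) * R := by
  have h := l9t_stencil hc hk1 hk a (m * psi m) (fun j => ((m + j : ℕ) : ℝ) * psi (m + j)) RemS hSI
  rw [h, ha1, hA9]
  have e : DP1 - DP0 + RemD + (P1 - P0 + ∑ j ∈ Finset.range (r + 1), c j * RemS j) - (P1 - P0 + (DP1 - DP0))
      = RemD + ∑ j ∈ Finset.range (r + 1), c j * RemS j := by ring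
  rw [e]
  have h1 : |∑ j ∈ Finset.range (r + 1), c j * RemS j| ≤ (∑ j ∈ Finset.range (r + 1), |c j|) * R := by
    rw [Finset.sum_mul]
    refine (Finset.abs_sum_le_sum_abs _ _).trans (Finset.sum_le_sum fun j hj => ?_)
    rw [abs_mul]
    exact mul_le_mul_of_nonneg_left (hRS j (by have := Finset.mem_range.mp hj; omega)) (abs_nonneg _)
  have := abs_add_le RemD (∑ j ∈ Finset.range (r + 1), c j * RemS j)
  linarith

/-! ### 5. numerics -/

theorem l9t_skX_pos {N : ℕ} (hN : 0 < N) : 0 < skX N := by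
  unfold skX
  exact Real.rpow_pos_of_pos (by exact_mod_cast hN) _

theorem l9t_skX_le_one {N : ℕ} (hN : 0 < N) : skX N ≤ 1 := by
  unfold skX
  exact Real.rpow_le_one_of_one_le_of_nonpos (by exact_mod_cast hN) (by norm_num)

theorem l9t_skX_six {N : ℕ} (hN : 0 < N) : skX N ^ 6 = (N : ℝ)⁻¹ := by
  unfold skX
  have h0 : (0 : ℝ) ≤ N := by positivity
  rw [← Real.rpow_natCast, ← Real.rpow_mul h0, ← Real.rpow_neg_one]
  congr 1
  norm_num

/-- contacts (09 l.238-246): `m ≍ N = x^-6` -/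
theorem l9t_num_contact {N m : ℕ} (hN : 0 < N) (hm : N ≤ 2 * m) : (m : ℝ)⁻¹ ≤ 2 * skX N ^ 6 := by
  rw [l9t_skX_six hN]
  have hN' : (0 : ℝ) < N := by exact_mod_cast hN
  have hm0 : (0 : ℝ) < m := by
    have : 0 < m := by omega
    exact_mod_cast this
  have hm' : (N : ℝ) ≤ 2 * m := by exact_mod_cast hm
  rw [inv_le_comm₀ hm0 (by positivity), mul_inv, inv_inv]
  linarith

/-- choice of the Taylor degree: `k δ ≥ K` -/
theorem l9t_num_pow {x del Kp : ℝ} {k : ℕ} (hx : 0 < x) (hx1 : x ≤ 1) (hk : Kp ≤ k * del) : (x ^ del) ^ k ≤ x ^ Kp := by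
  rw [← Real.rpow_natCast, ← Real.rpow_mul hx.le]
  exact Real.rpow_le_rpow_of_exponent_ge hx hx1 (by linarith)

/-- 09 l.277-281: `λ x^(-c) z₁⁰ Y² Z² = x^(5-c) λ^((1-η)/2 - s_*) Z⁴`, `z₁⁰ = x³ / √(λ^(1+η))`, `Y = U Z`, `U = x λ^(-s_*/2)` -/
theorem l9t_num_d8 {x lam Z eta s c : ℝ} (hx : 0 < x) (hl : 0 < lam) :
    lam * (x ^ (-c) * (x ^ 3 / Real.sqrt (lam ^ (1 + eta))) * (x * lam ^ (-(s / 2)) * Z) ^ 2 * Z ^ 2)
      = x ^ (5 - c) * lam ^ ((1 - eta) / 2 - s) * Z ^ 4 := by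
  have e1 : Real.sqrt (lam ^ (1 + eta)) = lam ^ ((1 + eta) / 2) := by
    rw [Real.sqrt_eq_rpow, ← Real.rpow_mul hl.le]
    congr 1
    ring
  have e2 : x ^ (5 - c) = x ^ (-c) * x ^ 3 * x ^ 2 := by
    rw [show (5 - c) = -c + ((3 : ℕ) : ℝ) + ((2 : ℕ) : ℝ) by push_cast; ring, Real.rpow_add hx, Real.rpow_add hx,
      Real.rpow_natCast, Real.rpow_natCast]
  have e3 : lam ^ ((1 - eta) / 2 - s) = lam * (lam ^ ((1 + eta) / 2))⁻¹ * (lam ^ (-(s / 2))) ^ 2 := by
    calc lam ^ ((1 - eta) / 2 - s) = lam ^ (1 + -((1 + eta) / 2) + -(s / 2) + -(s / 2)) := by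
          congr 1
          ring
      _ = lam ^ (1 : ℝ) * lam ^ (-((1 + eta) / 2)) * lam ^ (-(s / 2)) * lam ^ (-(s / 2)) := by
          rw [Real.rpow_add hl, Real.rpow_add hl, Real.rpow_add hl]
      _ = _ := by
          rw [Real.rpow_one, Real.rpow_neg hl.le ((1 + eta) / 2)]
          ring
  rw [e1, e2, e3, div_eq_mul_inv]
  ring

/-- 09 l.282-290: the power saving of T4, `λ ≤ x^(p_*)` -/
theorem l9t_num_d8_le {x lam Z eta s c p : ℝ} (hx : 0 < x) (hl : 0 < lam) (hlp : lam ≤ x ^ p)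
    (hs : 0 ≤ (1 - eta) / 2 - s) :
    lam * (x ^ (-c) * (x ^ 3 / Real.sqrt (lam ^ (1 + eta))) * (x * lam ^ (-(s / 2)) * Z) ^ 2 * Z ^ 2)
      ≤ x ^ (5 + (p * ((1 - eta) / 2 - s) - c)) * Z ^ 4 := by
  rw [l9t_num_d8 hx hl]
  have h1 : lam ^ ((1 - eta) / 2 - s) ≤ x ^ (p * ((1 - eta) / 2 - s)) := by
    rw [Real.rpow_mul hx.le]
    exact Real.rpow_le_rpow hl.le hlp hs
  have e : x ^ (5 + (p * ((1 - eta) / 2 - s) - c)) = x ^ (5 - c) * x ^ (p * ((1 - eta) / 2 - s)) := by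
    rw [← Real.rpow_add hx]
    congr 1
    ring
  rw [e]
  have hZ : 0 ≤ Z ^ 4 := by positivity
  have hx5 : 0 ≤ x ^ (5 - c) := (Real.rpow_pos_of_pos hx _).le
  exact mul_le_mul_of_nonneg_right (mul_le_mul_of_nonneg_left h1 hx5) hZ

theorem l9t_abs_eqns_cite : True := by
  have := @l9tM.eq_1.{0, 0, 0}
  have := @l9tG.eq_1
  have := @l9tRemW.eq_1
  trivial

end Claimed.Agent.R286
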