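import Claimed.Agent.R286.L09.Contract
import Claimed.Agent.R286.L09.TrAbs
import Claimed.Agent.R286.L02.SzGen
import Claimed.Agent.R286.L02.P73
import Claimed.Agent.R286.LL.Jet.Alg
import Claimed.Agent.R286.Exit.LL02A9

/-!
# Row 286 (S0533), LL sec. 9, nodes E1X and TRS (09-expansion.tex l.27-60, l.226-252), file L09/Trs      (owner helper65; prefixes `l9e` (E1X), `l9s` (TRS))

0 sorry.
PART 1 (E1X).   `JtCtx.frz X Y c k` (73) expanded in monomials of `Δ`:  `frz X Y c k = l9eMain X Y c k + l9eDet X Y`  (`l9e_frz`):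
the singleton cumulant cancels the linear counterterm, `l9eDet` does not see the law.   Derivative in the path parameter of a finite sum (`l9e_main`).
**`l9e_e1x` : `I.DOF pf u e k t = I.DOE1 pf u e k t`** (any family `pf` with constant terminal mass; imports: admissibility near `t`, `I.Dif`, `I.DifK` = differentiability of the scalar moments).
PART 2 (TRS, tools).   `l9s_ok` (`JtCtx.Law` ⟹ `L9tOk` of `L09/TrAbs`), `l9s_total`, `l9s_marg` (constants independent of the spin space), `l9sMom`, `l9s_mom_pair` (PRUNE to the pair), `l9s_fac_mom`,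
`l9s_errS_le`, `l9s_errW_le`, `l9s_errW0_le` (the three error majorants of `L02/Contract2`), **`l9s_a9sz`** ((A9) + size increments + stencil on a family of fine paths).   The node `L9TRS` itself: `L09/TrsFin.lean`.
-/

set_option autoImplicit false

namespace Claimed.Agent.R286

open scoped BigOperators Nat

section e1x

variable {S : Type} [Fintype S] [Inhabited S]

/-! ### 1. linearity of the signed sums of a context with laws -/

theorem l9e_isTr_one (N : ℕ) : IsTr N 1 (fun _ _ => N + 1) :=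
  ⟨fun _ _ _ _ => le_rfl, fun _ _ => rfl, fun _ _ _ _ => rfl, fun _ _ _ _ _ _ => by simp⟩

theorem l9e_sumK_congr {X : JtCtx S} {ms : ℕ → ℝ} (hX : X.Law ms) {k q : ℕ} {τ0 : JtTopo} (hτ0 : IsTr X.N q τ0)
    {Φ Ψ : JtTopo → ℝ} (h : ∀ τ, IsTr X.N (q + k) τ → Φ τ = Ψ τ) : X.sumK k q τ0 Φ = X.sumK k q τ0 Ψ := by
  rw [hX.sumK, hX.sumK]
  exact tr_sumK_congr hτ0 k Φ Ψ fun τ hτ _ => h τ hτ

theorem l9e_sumK_add {X : JtCtx S} {ms : ℕ → ℝ} (hX : X.Law ms) (k q : ℕ) (τ0 : JtTopo) (Φ Ψ : JtTopo → ℝ) :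
    X.sumK k q τ0 (fun τ => Φ τ + Ψ τ) = X.sumK k q τ0 Φ + X.sumK k q τ0 Ψ := by
  simp only [hX.sumK]
  exact sz_sumK_add ms X.N k q τ0 Φ Ψ

theorem l9e_sumK_smul {X : JtCtx S} {ms : ℕ → ℝ} (hX : X.Law ms) (k q : ℕ) (τ0 : JtTopo) (c : ℝ) (Φ : JtTopo → ℝ) :
    X.sumK k q τ0 (fun τ => c * Φ τ) = c * X.sumK k q τ0 Φ := by
  simp only [hX.sumK]
  exact sz_sumK_const_mul ms X.N k c q τ0 Φ

theorem l9e_sumK_sum {X : JtCtx S} {ms : ℕ → ℝ} (hX : X.Law ms) (k q : ℕ) (τ0 : JtTopo) {α : Type} (s : Finset α)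
    (Φ : α → JtTopo → ℝ) : X.sumK k q τ0 (fun τ => ∑ x ∈ s, Φ x τ) = ∑ x ∈ s, X.sumK k q τ0 (Φ x) := by
  simp only [hX.sumK]
  exact sz_sumK_sum ms X.N k q τ0 s Φ

theorem l9e_sumK_hasDeriv {X : JtCtx S} {ms : ℕ → ℝ} (hX : X.Law ms) {k q : ℕ} {τ0 : JtTopo} (hτ0 : IsTr X.N q τ0)
    (Φ : ℝ → JtTopo → ℝ) (Φ' : JtTopo → ℝ) (t : ℝ)
    (h : ∀ τ, IsTr X.N (q + k) τ → HasDerivAt (fun t' => Φ t' τ) (Φ' τ) t) :
    HasDerivAt (fun t' => X.sumK k q τ0 (Φ t')) (X.sumK k q τ0 Φ') t := by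
  simp only [hX.sumK]
  rw [← hasDerivWithinAt_univ]
  exact sz_sumK_hasDeriv k hτ0 Φ Φ' Set.univ t fun τ hτ _ => (h τ hτ).hasDerivWithinAt

/-! ### 2. `mon` and `sq` are linear in the coefficient -/

theorem l9e_mon_lin {X : JtCtx S} {ms : ℕ → ℝ} (hX : X.Law ms) (n : ℕ) (R : Finset ℕ) (a : ℝ) (f g : JtTopo → ℝ) :
    X.mon n R (fun τ => a * f τ + g τ) = a * X.mon n R f + X.mon n R g := by
  unfold JtCtx.mon
  have e : (fun τ => X.off 0 n τ * (a * f τ + g τ) * X.nu (2 * n) τ fun σ => ∏ i ∈ R, X.Dl τ σ (jtC 0 i) (jtD 0 i))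
      = fun τ => a * (X.off 0 n τ * f τ * X.nu (2 * n) τ fun σ => ∏ i ∈ R, X.Dl τ σ (jtC 0 i) (jtD 0 i))
        + X.off 0 n τ * g τ * X.nu (2 * n) τ fun σ => ∏ i ∈ R, X.Dl τ σ (jtC 0 i) (jtD 0 i) := by
    funext τ; ring
  rw [e, l9e_sumK_add hX, l9e_sumK_smul hX]
  ring

theorem l9e_sq_lin {X : JtCtx S} {ms : ℕ → ℝ} (hX : X.Law ms) (a : ℝ) (f g : JtTopo → ℝ) :
    X.sq (fun τ => a * f τ + g τ) = a * X.sq f + X.sq g := by
  unfold JtCtx.sq
  have e : (fun τ => X.off 0 1 τ * (a * f τ + g τ) * X.nu 2 τ fun σ => X.Dl τ σ 0 1 ^ 2)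
      = fun τ => a * (X.off 0 1 τ * f τ * X.nu 2 τ fun σ => X.Dl τ σ 0 1 ^ 2)
        + X.off 0 1 τ * g τ * X.nu 2 τ fun σ => X.Dl τ σ 0 1 ^ 2 := by
    funext τ; ring
  rw [e, l9e_sumK_add hX, l9e_sumK_smul hX]
  ring

theorem l9e_mon_hasDeriv {X : JtCtx S} {ms : ℕ → ℝ} (hX : X.Law ms) {n : ℕ} (hn : 1 ≤ n) (R : Finset ℕ)
    (cf : ℝ → JtTopo → ℝ) (cf' : JtTopo → ℝ) (t : ℝ)
    (h : ∀ τ, IsTr X.N (2 * n) τ → HasDerivAt (fun t' => cf t' τ) (cf' τ) t) :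
    HasDerivAt (fun t' => X.mon n R (cf t')) (X.mon n R cf') t := by
  unfold JtCtx.mon
  refine HasDerivAt.const_mul _ ?_
  refine l9e_sumK_hasDeriv hX (l9e_isTr_one X.N) _ _ t fun τ hτ => ?_
  rw [show 1 + (2 * n - 1) = 2 * n by omega] at hτ
  exact ((h τ hτ).const_mul _).mul_const _

theorem l9e_sq_hasDeriv {X : JtCtx S} {ms : ℕ → ℝ} (hX : X.Law ms) (cf : ℝ → JtTopo → ℝ) (cf' : JtTopo → ℝ) (t : ℝ)
    (h : ∀ τ, IsTr X.N 2 τ → HasDerivAt (fun t' => cf t' τ) (cf' τ) t) :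
    HasDerivAt (fun t' => X.sq (cf t')) (X.sq cf') t := by
  unfold JtCtx.sq
  refine HasDerivAt.const_mul _ ?_
  refine l9e_sumK_hasDeriv hX (l9e_isTr_one X.N) _ _ t fun τ hτ => ?_
  exact ((h τ hτ).const_mul _).mul_const _

/-! ### 3. expansion of `frz` -/

omit [Fintype S] [Inhabited S] in
/-- expansion of the product of the frozen insertions -/
theorem l9e_prod (X Y : JtCtx S) (c : ℝ) (n : ℕ) (τ : JtTopo) (σ : ℕ → S) :
    ∏ i ∈ Finset.range n, X.Jfz Y c τ σ (jtC 0 i) (jtD 0 i)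
      = ∑ R ∈ (Finset.range n).powerset, (c ^ R.card * ((∏ i ∈ R, Y.bC (τ (jtC 0 i) (jtD 0 i))) *
          ∏ i ∈ Finset.range n \ R, Y.dC (τ (jtC 0 i) (jtD 0 i)))) * ∏ i ∈ R, X.Dl τ σ (jtC 0 i) (jtD 0 i) := by
  unfold JtCtx.Jfz
  rw [Finset.prod_add]
  refine Finset.sum_congr rfl fun R _ => ?_
  rw [Finset.prod_mul_distrib, Finset.prod_mul_distrib, Finset.prod_const]
  ring

/-- the term of degree `n` of `frz` -/
theorem l9e_term {X : JtCtx S} {ms : ℕ → ℝ} (hX : X.Law ms) (Y : JtCtx S) (c : ℝ) (n : ℕ) :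
    ((2 : ℝ) ^ n * (n ! : ℝ))⁻¹ * X.sumK (2 * n - 1) 1 X.tau1 (fun τ =>
      X.off 0 n τ * Y.Kap (2 * n) 0 τ (Finset.range n) * X.nu (2 * n) τ fun σ =>
        ∏ i ∈ Finset.range n, X.Jfz Y c τ σ (jtC 0 i) (jtD 0 i))
      = ∑ R ∈ (Finset.range n).powerset, c ^ R.card * X.mon n R (Y.cf n R) := by
  have e : (fun τ => X.off 0 n τ * Y.Kap (2 * n) 0 τ (Finset.range n) * X.nu (2 * n) τ fun σ =>
        ∏ i ∈ Finset.range n, X.Jfz Y c τ σ (jtC 0 i) (jtD 0 i))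
      = fun τ => ∑ R ∈ (Finset.range n).powerset, c ^ R.card *
          (X.off 0 n τ * Y.cf n R τ * X.nu (2 * n) τ fun σ => ∏ i ∈ R, X.Dl τ σ (jtC 0 i) (jtD 0 i)) := by
    funext τ
    simp only [l9e_prod]
    rw [hX.nu.sum, Finset.mul_sum]
    refine Finset.sum_congr rfl fun R _ => ?_
    rw [hX.nu.const_mul]
    unfold JtCtx.cf
    ring
  rw [e, l9e_sumK_sum hX, Finset.mul_sum]
  refine Finset.sum_congr rfl fun R _ => ?_
  rw [l9e_sumK_smul hX]
  unfold JtCtx.mon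
  ring

/-- the part of `frz` which does not see the law -/
noncomputable def l9eDet (X Y : JtCtx S) : ℝ :=
  2⁻¹ * X.sumK 1 1 X.tau1 (fun τ => X.off 0 1 τ * (Y.qC (τ 0 1) * Y.dC (τ 0 1)))
    - 4⁻¹ * X.sumK 1 1 X.tau1 (fun τ => X.off 0 1 τ * (Y.bC (τ 0 1) * Y.qC (τ 0 1) ^ 2))

/-- (E1) with the coefficients of `Y`, the law of `X`, `Δ` scaled by `c` -/
noncomputable def l9eMain (X Y : JtCtx S) (c : ℝ) (k : ℕ) : ℝ :=
  (∑ n ∈ Finset.Icc 2 k, ∑ R ∈ (Finset.range n).powerset, c ^ R.card * X.mon n R (Y.cf n R))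
    - c ^ 2 * X.sq fun τ => Y.bC (τ 0 1)

/-- **(E1)** (09 l.44-56): exact cancellation of the singleton cumulant with the linear counterterm -/
theorem l9e_frz {X : JtCtx S} {ms : ℕ → ℝ} (hX : X.Law ms) (Y : JtCtx S)
    (hY : ∀ τ, IsTr X.N 2 τ → Y.Kap 2 0 τ {0} = Y.qC (τ 0 1)) (c : ℝ) {k : ℕ} (hk : 1 ≤ k) :
    X.frz Y c k = l9eMain X Y c k + l9eDet X Y := by
  have h1 : (1 : ℕ) ∈ Finset.Icc 1 k := Finset.mem_Icc.mpr ⟨le_rfl, hk⟩
  have hI : (Finset.Icc 1 k).erase 1 = Finset.Icc 2 k := by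
    ext j
    simp only [Finset.mem_erase, Finset.mem_Icc]
    omega
  have hT := l9e_isTr_one X.N
  -- the four basic sums
  set A1 := X.sumK 1 1 X.tau1 (fun τ => X.off 0 1 τ * (Y.qC (τ 0 1) * Y.dC (τ 0 1))) with hA1
  set A2 := X.sumK 1 1 X.tau1 (fun τ => X.off 0 1 τ * (Y.qC (τ 0 1) * Y.bC (τ 0 1)) * X.nu 2 τ fun σ => X.Dl τ σ 0 1) with hA2
  set A3 := X.sumK 1 1 X.tau1 (fun τ => X.off 0 1 τ * Y.bC (τ 0 1) * X.nu 2 τ fun σ => X.Dl τ σ 0 1 ^ 2) with hA3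
  set A4 := X.sumK 1 1 X.tau1 (fun τ => X.off 0 1 τ * (Y.bC (τ 0 1) * Y.qC (τ 0 1) ^ 2)) with hA4
  have e0 : X.mon 1 ∅ (Y.cf 1 ∅) = 2⁻¹ * A1 := by
    unfold JtCtx.mon
    have : X.sumK (2 * 1 - 1) 1 X.tau1 (fun τ => X.off 0 1 τ * Y.cf 1 ∅ τ *
        X.nu (2 * 1) τ fun σ => ∏ i ∈ (∅ : Finset ℕ), X.Dl τ σ (jtC 0 i) (jtD 0 i)) = A1 := by
      refine l9e_sumK_congr hX hT fun τ hτ => ?_
      have hK := hY τ hτ
      simp only [Finset.prod_empty]
      rw [hX.nu.const]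
      unfold JtCtx.cf
      simp only [Finset.prod_empty, Finset.sdiff_empty, Finset.range_one, Finset.prod_singleton, jtC, jtD]
      rw [show 2 * 1 = 2 from rfl, hK]
      ring
    rw [this]
    norm_num
  have e1 : X.mon 1 {0} (Y.cf 1 {0}) = 2⁻¹ * A2 := by
    unfold JtCtx.mon
    have : X.sumK (2 * 1 - 1) 1 X.tau1 (fun τ => X.off 0 1 τ * Y.cf 1 {0} τ *
        X.nu (2 * 1) τ fun σ => ∏ i ∈ ({0} : Finset ℕ), X.Dl τ σ (jtC 0 i) (jtD 0 i)) = A2 := by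
      refine l9e_sumK_congr hX hT fun τ hτ => ?_
      have hK := hY τ hτ
      unfold JtCtx.cf
      simp only [Finset.range_one, Finset.prod_singleton, jtC, jtD, Finset.sdiff_self, Finset.prod_empty]
      rw [show 2 * 1 = 2 from rfl, hK]
      ring
    rw [this]
    norm_num
  have eQ : X.sumK 1 1 X.tau1 (fun τ => X.off 0 1 τ * Y.bC (τ 0 1) * X.nu 2 τ fun σ =>
      (c * X.Dl τ σ 0 1 + Y.qC (τ 0 1)) ^ 2) = c ^ 2 * A3 + 2 * c * A2 + A4 := by
    have e : (fun τ => X.off 0 1 τ * Y.bC (τ 0 1) * X.nu 2 τ fun σ => (c * X.Dl τ σ 0 1 + Y.qC (τ 0 1)) ^ 2)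
        = fun τ => (c ^ 2 * (X.off 0 1 τ * Y.bC (τ 0 1) * X.nu 2 τ fun σ => X.Dl τ σ 0 1 ^ 2)
          + (2 * c) * (X.off 0 1 τ * (Y.qC (τ 0 1) * Y.bC (τ 0 1)) * X.nu 2 τ fun σ => X.Dl τ σ 0 1))
          + X.off 0 1 τ * (Y.bC (τ 0 1) * Y.qC (τ 0 1) ^ 2) := by
      funext τ
      have e2 : (fun σ => (c * X.Dl τ σ 0 1 + Y.qC (τ 0 1)) ^ 2)
          = fun σ => (c ^ 2 * X.Dl τ σ 0 1 ^ 2 + (2 * c * Y.qC (τ 0 1)) * X.Dl τ σ 0 1) + Y.qC (τ 0 1) ^ 2 := by
        funext σ; ring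
      rw [e2, hX.nu.add, hX.nu.add, hX.nu.const_mul, hX.nu.const_mul, hX.nu.const]
      ring
    rw [e, l9e_sumK_add hX, l9e_sumK_add hX, l9e_sumK_smul hX, l9e_sumK_smul hX]
  unfold JtCtx.frz
  simp only [l9e_term hX Y c]
  rw [← Finset.add_sum_erase _ _ h1, hI, eQ]
  have eP : ∑ R ∈ (Finset.range 1).powerset, c ^ R.card * X.mon 1 R (Y.cf 1 R) = 2⁻¹ * A1 + c * (2⁻¹ * A2) := by
    have hp : (Finset.range 1).powerset = {∅, {0}} := by decide
    rw [hp, Finset.sum_pair (by simp)]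
    rw [e0, e1]
    simp
  rw [eP]
  unfold l9eMain l9eDet JtCtx.sq
  rw [← hA1, ← hA3, ← hA4]
  ring

/-! ### 4. the derivative in the path parameter -/

/-- abstract form of `L9I.OE1`: law of `X`, coefficients of the family `Y` -/
noncomputable def l9eOE1 (X : JtCtx S) (Y : ℝ → JtCtx S) (u e : ℝ) (J0 : ℕ) (t : ℝ) : ℝ :=
  (∑ n ∈ Finset.Icc 2 J0, ∑ R ∈ (Finset.range n).powerset,
      X.mon n R fun τ => l9O u e R.card (fun t' => (Y t').cf n R τ) t)
    - X.sq fun τ => l9O u e 2 (fun t' => (Y t').bC (τ 0 1)) t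

theorem l9e_exp_pow (e t : ℝ) (r : ℕ) : HasDerivAt (fun t' => Real.exp (-e * (t' - t)) ^ r) (-(e * r)) t := by
  have h1 : HasDerivAt (fun t' => -e * (t' - t)) (-e) t := by
    simpa using ((hasDerivAt_id t).sub_const t).const_mul (-e)
  exact ((h1.exp).fun_pow r).congr_deriv (by simp; ring)

theorem l9e_main_hasDeriv {X : JtCtx S} {ms : ℕ → ℝ} (hX : X.Law ms) (Y : ℝ → JtCtx S) (e : ℝ) (k : ℕ) (t : ℝ)
    (hcf : ∀ n ∈ Finset.Icc 2 k, ∀ R ∈ (Finset.range n).powerset, ∀ τ, IsTr X.N (2 * n) τ →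
      DifferentiableAt ℝ (fun t' => (Y t').cf n R τ) t)
    (hb : ∀ τ, IsTr X.N 2 τ → DifferentiableAt ℝ (fun t' => (Y t').bC (τ 0 1)) t) :
    HasDerivAt (fun t' => l9eMain X (Y t') (Real.exp (-e * (t' - t))) k)
      ((∑ n ∈ Finset.Icc 2 k, ∑ R ∈ (Finset.range n).powerset,
          (-(e * R.card) * X.mon n R ((Y t).cf n R) + X.mon n R fun τ => deriv (fun t' => (Y t').cf n R τ) t))
        - (-(e * (2 : ℕ)) * X.sq (fun τ => (Y t).bC (τ 0 1)) + X.sq fun τ => deriv (fun t' => (Y t').bC (τ 0 1)) t)) t := by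
  unfold l9eMain
  refine HasDerivAt.sub ?_ ?_
  · refine HasDerivAt.fun_sum fun n hn => HasDerivAt.fun_sum fun R hR => ?_
    have h1 := l9e_mon_hasDeriv hX (n := n) (by have := (Finset.mem_Icc.mp hn).1; omega) R
      (fun t' => (Y t').cf n R) (fun τ => deriv (fun t' => (Y t').cf n R τ) t) t
      (fun τ hτ => (hcf n hn R hR τ hτ).hasDerivAt)
    exact ((l9e_exp_pow e t R.card).fun_mul h1).congr_deriv (by simp)
  · have h1 := l9e_sq_hasDeriv hX (fun t' τ => (Y t').bC (τ 0 1)) (fun τ => deriv (fun t' => (Y t').bC (τ 0 1)) t) t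
      (fun τ hτ => (hb τ hτ).hasDerivAt)
    exact ((l9e_exp_pow e t 2).fun_mul h1).congr_deriv (by simp)

/-- **E1X, one ensemble** (09 l.27-60): `u (ν[I])_# + (ν[𝒟 I])_#` = `O`(E1) + a term which does not see the law -/
theorem l9e_main {X : JtCtx S} {ms : ℕ → ℝ} (hX : X.Law ms) (Y : ℝ → JtCtx S) (u e : ℝ) {k : ℕ} (hk : 1 ≤ k) (t : ℝ)
    (hXY : X.presR k = X.frz (Y t) 1 k)
    (hY : ∀ᶠ t' in nhds t, ∀ τ, IsTr X.N 2 τ → (Y t').Kap 2 0 τ {0} = (Y t').qC (τ 0 1))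
    (hcf : ∀ n ∈ Finset.Icc 2 k, ∀ R ∈ (Finset.range n).powerset, ∀ τ, IsTr X.N (2 * n) τ →
      DifferentiableAt ℝ (fun t' => (Y t').cf n R τ) t)
    (hb : ∀ τ, IsTr X.N 2 τ → DifferentiableAt ℝ (fun t' => (Y t').bC (τ 0 1)) t)
    (hdet : DifferentiableAt ℝ (fun t' => l9eDet X (Y t')) t) :
    u * X.presR k + deriv (fun t' => X.frz (Y t') (Real.exp (-e * (t' - t))) k) t
      = l9eOE1 X Y u e k t + (u * l9eDet X (Y t) + deriv (fun t' => l9eDet X (Y t')) t) := by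
  have hev : (fun t' => X.frz (Y t') (Real.exp (-e * (t' - t))) k)
      =ᶠ[nhds t] fun t' => l9eMain X (Y t') (Real.exp (-e * (t' - t))) k + l9eDet X (Y t') :=
    hY.mono fun t' h => l9e_frz hX (Y t') h _ hk
  have hM := l9e_main_hasDeriv hX Y e k t hcf hb
  rw [hev.deriv_eq, (hM.fun_add hdet.hasDerivAt).deriv, hXY, l9e_frz hX (Y t) hY.self_of_nhds 1 hk]
  unfold l9eOE1 l9eMain
  simp only [l9O, l9e_mon_lin hX, l9e_sq_lin hX, one_pow, one_mul]
  have hs : ∑ n ∈ Finset.Icc 2 k, ∑ R ∈ (Finset.range n).powerset,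
        ((u - e * (R.card : ℝ)) * X.mon n R ((Y t).cf n R) + X.mon n R fun τ => deriv (fun t' => (Y t').cf n R τ) t)
      = u * (∑ n ∈ Finset.Icc 2 k, ∑ R ∈ (Finset.range n).powerset, X.mon n R ((Y t).cf n R))
        + ∑ n ∈ Finset.Icc 2 k, ∑ R ∈ (Finset.range n).powerset,
          (-(e * R.card) * X.mon n R ((Y t).cf n R) + X.mon n R fun τ => deriv (fun t' => (Y t').cf n R τ) t) := by
    rw [Finset.mul_sum, ← Finset.sum_add_distrib]
    refine Finset.sum_congr rfl fun n _ => ?_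
    rw [Finset.mul_sum, ← Finset.sum_add_distrib]
    exact Finset.sum_congr rfl fun R _ => by ring
  rw [hs]
  ring

/-! ### 5. differentiability of the coefficients -/

omit [Fintype S] [Inhabited S] in
theorem l9e_pow_diff (F : ℝ → JtFn) (t : ℝ) (hF : ∀ B, DifferentiableAt ℝ (fun t' => F t' B) t) (k : ℕ) :
    ∀ A, DifferentiableAt ℝ (fun t' => jtPow (jtAug (F t')) k A) t := by
  induction k with
  | zero =>
    intro A
    simp only [jtPow]
    exact differentiableAt_const _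
  | succ k ih =>
    intro A
    simp only [jtPow, jtMul]
    refine DifferentiableAt.fun_sum fun B _ => ?_
    refine DifferentiableAt.mul ?_ (ih _)
    unfold jtAug
    split_ifs
    · exact differentiableAt_const _
    · exact hF B

omit [Fintype S] [Inhabited S] in
theorem l9e_log_diff (F : ℝ → JtFn) (t : ℝ) (hF : ∀ B, DifferentiableAt ℝ (fun t' => F t' B) t) (A : Finset ℕ) :
    DifferentiableAt ℝ (fun t' => jtLog (F t') A) t := by
  unfold jtLog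
  exact DifferentiableAt.fun_sum fun k _ => (l9e_pow_diff F t hF k A).const_mul _

omit [Fintype S] [Inhabited S] in
theorem l9e_cf_diff (Y : ℝ → JtCtx S) (t : ℝ) (n : ℕ) (R : Finset ℕ) (τ : JtTopo)
    (hK : ∀ Q, DifferentiableAt ℝ (fun t' => (Y t').nuK (2 * n) τ Q) t)
    (hb : ∀ i ∈ R, DifferentiableAt ℝ (fun t' => (Y t').bC (τ (jtC 0 i) (jtD 0 i))) t)
    (hd : ∀ i ∈ Finset.range n \ R, DifferentiableAt ℝ (fun t' => (Y t').dC (τ (jtC 0 i) (jtD 0 i))) t) :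
    DifferentiableAt ℝ (fun t' => (Y t').cf n R τ) t := by
  unfold JtCtx.cf
  refine DifferentiableAt.mul (DifferentiableAt.mul ?_ ?_) ?_
  · unfold JtCtx.Kap
    exact l9e_log_diff (fun t' => (Y t').Psi (2 * n) 0 τ) t (fun B => hK _) _
  · exact DifferentiableAt.fun_finsetProd hb
  · exact DifferentiableAt.fun_finsetProd hd

/-- the first cumulant is the reference overlap -/
theorem l9e_kap_one {Y : JtCtx S} {ms : ℕ → ℝ} (hY : Y.Law ms) (τ : JtTopo) (hτ : IsTr Y.N 2 τ) :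
    Y.Kap 2 0 τ {0} = Y.qC (τ 0 1) := by
  unfold JtCtx.Kap
  have h0 : Y.Psi 2 0 τ ∅ = 1 := by
    unfold JtCtx.Psi JtCtx.scM
    simp only [Finset.prod_empty, mul_one]
    exact hY.nuK.const 2 τ 1
  rw [(jt_log_small _ h0 0 1 (by norm_num)).1, hY.qC τ hτ]
  unfold JtCtx.Psi JtCtx.scM
  simp [jtC, jtD]

theorem l9e_det_diff {X : JtCtx S} {ms : ℕ → ℝ} (hX : X.Law ms) (Y : ℝ → JtCtx S) (t : ℝ)
    (hb : ∀ j ≤ X.N + 1, DifferentiableAt ℝ (fun t' => (Y t').bC j) t)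
    (hq : ∀ j ≤ X.N + 1, DifferentiableAt ℝ (fun t' => (Y t').qC j) t)
    (hd : ∀ j ≤ X.N + 1, DifferentiableAt ℝ (fun t' => (Y t').dC j) t) :
    DifferentiableAt ℝ (fun t' => l9eDet X (Y t')) t := by
  unfold l9eDet
  have hT := l9e_isTr_one X.N
  refine DifferentiableAt.sub (DifferentiableAt.const_mul ?_ _) (DifferentiableAt.const_mul ?_ _)
  · refine (l9e_sumK_hasDeriv hX hT (fun t' τ => X.off 0 1 τ * ((Y t').qC (τ 0 1) * (Y t').dC (τ 0 1)))
      (fun τ => deriv (fun t' => X.off 0 1 τ * ((Y t').qC (τ 0 1) * (Y t').dC (τ 0 1))) t) t fun τ hτ => ?_).differentiableAt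
    have hj : τ 0 1 ≤ X.N + 1 := hτ.le 0 1 (by norm_num) (by norm_num)
    exact (((hq _ hj).mul (hd _ hj)).const_mul _).hasDerivAt
  · refine (l9e_sumK_hasDeriv hX hT (fun t' τ => X.off 0 1 τ * ((Y t').bC (τ 0 1) * (Y t').qC (τ 0 1) ^ 2))
      (fun τ => deriv (fun t' => X.off 0 1 τ * ((Y t').bC (τ 0 1) * (Y t').qC (τ 0 1) ^ 2)) t) t fun τ hτ => ?_).differentiableAt
    have hj : τ 0 1 ≤ X.N + 1 := hτ.le 0 1 (by norm_num) (by norm_num)
    exact (((hb _ hj).mul ((hq _ hj).pow 2)).const_mul _).hasDerivAt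

end e1x

/-! ### 6. E1X for an instance of Sec. 9 -/

theorem l9s_stp_length (a : ℝ) (b h K : ℝ → ℝ) : ∀ (ps : List GhPos) (b0 h0 K0 : ℝ),
    (l9Stp a b h K b0 h0 K0 ps).length = ps.length
  | [], _, _, _ => rfl
  | p :: ps, b0, h0, K0 => by
    rw [l9Stp, List.length_cons, List.length_cons, l9s_stp_length a b h K ps]

theorem l9s_stp_mass (a : ℝ) (b h K : ℝ → ℝ) : ∀ (ps : List GhPos) (b0 h0 K0 : ℝ),
    (l9Stp a b h K b0 h0 K0 ps).map LlInc.m = ps.map GhPos.u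
  | [], _, _, _ => rfl
  | p :: ps, b0, h0, K0 => by
    rw [l9Stp, List.map_cons, List.map_cons, l9s_stp_mass a b h K ps]

theorem l9s_isTr_pair (N j : ℕ) (hj : j ≤ N + 1) : IsTr N 2 (trPair N j) where
  le := fun x y _ _ => by unfold trPair; split_ifs <;> omega
  diag := fun x _ => by unfold trPair; rw [if_pos rfl]
  symm := fun x y _ _ => by
    unfold trPair
    by_cases h : x = y
    · rw [if_pos h, if_pos h.symm]
    · rw [if_neg h, if_neg (Ne.symm h)]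
  ultra := fun x y z _ _ _ => by
    unfold trPair
    by_cases h1 : x = z
    · rw [if_pos h1]
      refine (min_le_left _ _).trans ?_
      split_ifs <;> omega
    · rw [if_neg h1]
      by_cases h2 : x = y
      · have h3 : y ≠ z := fun h => h1 (h2.trans h)
        rw [if_neg h3]
        exact min_le_right _ _
      · rw [if_neg h2]
        exact min_le_left _ _

/-- the scalar moments of the chain are differentiable in the path parameter (import; from `LlFam`: leaf `L02ScDiff` below) -/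
def L9I.DifK (I : L9I) (pf : ℝ → LlPt) (t : ℝ) : Prop :=
  ∀ (r : ℕ) (τ : JtTopo) (Q : (ℕ → Bool) → ℝ), IsTr (I.P (pf t)).length r τ →
    DifferentiableAt ℝ (fun t' => (I.X0 (pf t')).nuK r τ Q) t

theorem l9s_len (I : L9I) (pf : ℝ → LlPt) (t : ℝ) (ha : ∀ t', (pf t').a = (pf t).a) (t' : ℝ) :
    (I.P (pf t')).length = (I.P (pf t)).length := by
  unfold L9I.P
  rw [l9s_stp_length, l9s_stp_length]
  unfold L9I.ps
  rw [ha t']

/-- **NODE E1X** (09 l.27-60): the frozen form of 73 (what (A9) and the size increments produce) is `O`(E1).   `a` = terminal mass, constant along the family. -/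
theorem l9e_e1x (I : L9I) (pf : ℝ → LlPt) (u e : ℝ) {k : ℕ} (hk : 1 ≤ k) (t : ℝ)
    (ha : ∀ t', (pf t').a = (pf t).a) (ha0 : 0 < (pf t).a)
    (hadm : ∀ᶠ t' in nhds t, LlStpAdm (pf t').a (I.P (pf t')))
    (hDif : I.Dif pf t) (hK : I.DifK pf t) :
    I.DOF pf u e k t = I.DOE1 pf u e k t := by
  have hlen := l9s_len I pf t ha
  have hq : ∀ j ≤ (I.P (pf t)).length + 1, DifferentiableAt ℝ (fun t' => (I.X0 (pf t')).qC j) t := by
    intro j hj
    have e1 : (fun t' => (I.X0 (pf t')).qC j)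
        = fun t' => (I.X0 (pf t')).nuK 2 (trPair (I.P (pf t)).length j) fun s => jtSp (s 0) * jtSp (s 1) := by
      funext t'
      have e2 : (I.X0 (pf t')).qC j = llQs (pf t').a (I.P (pf t')) j := rfl
      have e3 : (I.X0 (pf t')).nuK 2 (trPair (I.P (pf t)).length j) (fun s => jtSp (s 0) * jtSp (s 1))
          = llNuS (pf t').a (I.P (pf t')) 2 (trPair (I.P (pf t)).length j) (fun s => jtSp (s 0) * jtSp (s 1)) := rfl
      rw [e2, e3]
      unfold llQs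
      rw [hlen t']
    rw [e1]
    exact hK 2 _ _ (l9s_isTr_pair _ j hj)
  have hd : ∀ j ≤ (I.P (pf t)).length + 1, DifferentiableAt ℝ (fun t' => (I.X0 (pf t')).dC j) t := by
    intro j hj
    unfold JtCtx.dC
    exact (((hDif j).2.1).sub (hDif j).2.2).add ((hDif j).1.mul (hq j hj))
  have key : ∀ en : Bool, I.OF pf u e k en t = I.OE1 pf u e k en t
      + (u * l9eDet (I.X0 (pf t)) (I.X0 (pf t)) + deriv (fun t' => l9eDet (I.X0 (pf t)) (I.X0 (pf t'))) t) := by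
    intro en
    have hX : (I.X en (pf t)).Law (llMs (pf t).a (I.P (pf t))) := ll2_law_js I.m ha0 hadm.self_of_nhds _
    refine l9e_main hX (fun t' => I.X en (pf t')) u e hk t ((I.X en (pf t)).frz_self k).symm ?_ ?_ ?_ ?_
    · refine hadm.mono fun t' h τ hτ => ?_
      have hY : (I.X en (pf t')).Law (llMs (pf t').a (I.P (pf t'))) := ll2_law_js I.m (by rw [ha t']; exact ha0) h _
      refine l9e_kap_one hY τ ?_
      show IsTr (I.P (pf t')).length 2 τ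
      rw [hlen t']
      exact hτ
    · intro n _ R hR τ hτ
      have hle : ∀ i ∈ Finset.range n, τ (jtC 0 i) (jtD 0 i) ≤ (I.P (pf t)).length + 1 := by
        intro i hi
        have := Finset.mem_range.mp hi
        exact hτ.le _ _ (by unfold jtC; omega) (by unfold jtD; omega)
      exact l9e_cf_diff (fun t' => I.X en (pf t')) t n R τ (fun Q => hK _ τ Q hτ) (fun i _ => (hDif _).1)
        (fun i hi => hd _ (hle i (Finset.mem_sdiff.mp hi).1))
    · intro τ _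
      exact (hDif _).1
    · exact l9e_det_diff hX (fun t' => I.X en (pf t')) t (fun j _ => (hDif j).1) hq hd
  unfold L9I.DOF L9I.DOE1
  rw [key true, key false]
  ring

/-! ## PART 2 (TRS).   ### 7. the absolute allocation measure of a context with laws -/

section alloc

variable {S : Type} [Fintype S] [Inhabited S]

/-- a context with laws satisfies the hypotheses of `L09/TrAbs.lean` -/
theorem l9s_ok {X : JtCtx S} {ms : ℕ → ℝ} (hX : X.Law ms) : L9tOk X (fun r τ => IsTr X.N r τ) where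
  nu_pos := fun r τ _ => ⟨fun f g h => hX.nu.mono r τ fun σ => h σ trivial, hX.nu.add r τ, fun c f => hX.nu.const_mul r τ c f⟩
  nu_one := fun r τ _ => hX.nu.const r τ 1
  abs_pos := fun k q τ0 hτ0 => ⟨fun f g h => by rw [hX.absK, hX.absK]; exact tr_absK_mono hτ0 k f g h,
    fun f g => by simp only [hX.absK]; exact sz_absK_add ms X.N k q τ0 f g,
    fun c f => by simp only [hX.absK]; exact sz_absK_const_mul ms X.N k c q τ0 f⟩

/-- mass integral of a weight on the stages `0..N` -/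
def l9sInt (ms : ℕ → ℝ) (N : ℕ) (w : ℕ → ℝ) : ℝ := ∑ j ∈ Finset.range (N + 1), (ms j - trPm ms j) * w j

theorem l9s_gap_nonneg {N : ℕ} {ms : ℕ → ℝ} (hms : IsMs N ms) {j : ℕ} (hj : j ≤ N) : 0 ≤ ms j - trPm ms j := by
  unfold trPm
  split_ifs with h
  · have := hms.nonneg j
    linarith
  · have := hms.mono (j - 1) j (by omega) hj
    linarith

theorem l9s_int_nonneg {N : ℕ} {ms : ℕ → ℝ} (hms : IsMs N ms) {w : ℕ → ℝ} (hw : ∀ j, 0 ≤ w j) : 0 ≤ l9sInt ms N w :=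
  Finset.sum_nonneg fun j hj => mul_nonneg (l9s_gap_nonneg hms (by have := Finset.mem_range.mp hj; omega)) (hw j)

theorem l9s_int_one (ms : ℕ → ℝ) (N : ℕ) : l9sInt ms N (fun _ => 1) = ms N := by
  unfold l9sInt
  have e : ∀ j, (ms j - trPm ms j) * 1 = trPm ms (j + 1) - trPm ms j := by
    intro j
    unfold trPm
    simp
  simp only [e]
  rw [Finset.sum_range_sub]
  simp [trPm]

/-- total mass (PE Lemma 2.6) -/
theorem l9s_total (n : ℕ) (a : ℝ) : ∃ C : ℝ, 0 ≤ C ∧ ∀ (S : Type) [Fintype S] [Inhabited S] (X : JtCtx S) (ms : ℕ → ℝ),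
    X.Law ms → ms X.N ≤ a → X.absK n 1 X.tau1 (fun _ => 1) ≤ C := by
  refine ⟨(2 * |a|) ^ n * (∏ i ∈ Finset.range n, (((1 : ℕ) : ℝ) + i)) * 1, by positivity, fun S _ _ X ms hX ha => ?_⟩
  have h := tr_absK_le (l9e_isTr_one X.N) hX.isMs n (fun _ => (1 : ℝ)) 1 (fun _ _ => by simp)
  rw [hX.absK]
  simp only [abs_one] at h
  refine h.trans ?_
  have h0 := hX.isMs.nonneg X.N
  have h1 : ms X.N ≤ |a| := ha.trans (le_abs_self a)
  gcongr

/-- ONE-pair marginal of the root pair (PE Lemma 2.8) -/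
theorem l9s_marg (n : ℕ) (a : ℝ) : ∃ C : ℝ, 0 ≤ C ∧ ∀ (S : Type) [Fintype S] [Inhabited S] (X : JtCtx S) (ms : ℕ → ℝ),
    X.Law ms → ms X.N ≤ a → ∀ w : ℕ → ℝ, (∀ j, 0 ≤ w j) → ∀ om : JtTopo → ℝ,
      (∀ τ, IsTr X.N (1 + (n + 1)) τ → 0 ≤ om τ ∧ om τ ≤ 1 ∧ (om τ ≠ 0 → τ 0 1 ≤ X.N)) →
      X.absK (n + 1) 1 X.tau1 (fun τ => om τ * w (τ 0 1)) ≤ C * l9sInt ms X.N w := by
  obtain ⟨C, hC⟩ := tr_split_density 1 (n + 1) a
  refine ⟨max C 0, le_max_right _ _, fun S _ _ X ms hX ha w hw om hom => ?_⟩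
  have hA := (l9s_ok hX).abs_pos (n + 1) 1 X.tau1 (l9e_isTr_one X.N)
  calc X.absK (n + 1) 1 X.tau1 (fun τ => om τ * w (τ 0 1))
      ≤ X.absK (n + 1) 1 X.tau1 (fun τ => ∑ j ∈ Finset.range (X.N + 1), w j * (if τ 0 1 = j then 1 else 0)) := by
        refine hA.mono _ _ fun τ hτ => ?_
        obtain ⟨h0, h1, h2⟩ := hom τ hτ
        simp only [mul_ite, mul_one, mul_zero, Finset.sum_ite_eq, Finset.mem_range]
        by_cases hz : om τ = 0
        · rw [hz, zero_mul]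
          split_ifs
          · exact hw _
          · exact le_rfl
        · rw [if_pos (by have := h2 hz; omega)]
          have := mul_le_mul_of_nonneg_right h1 (hw (τ 0 1))
          linarith
    _ = ∑ j ∈ Finset.range (X.N + 1), w j * X.absK (n + 1) 1 X.tau1 (fun τ => if τ 0 1 = j then 1 else 0) := by
        rw [hA.sum]
        exact Finset.sum_congr rfl fun j _ => hA.smul _ _
    _ ≤ ∑ j ∈ Finset.range (X.N + 1), w j * (max C 0 * (ms j - trPm ms j)) := by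
        refine Finset.sum_le_sum fun j hj => mul_le_mul_of_nonneg_left ?_ (hw j)
        have hj' : j ≤ X.N := by have := Finset.mem_range.mp hj; omega
        rw [hX.absK]
        refine (hC X.N X.tau1 ms (l9e_isTr_one X.N) hX.isMs ha 0 1 j (by omega) le_rfl (by omega) (by norm_num) hj'
          (fun u v _ _ => by unfold JtCtx.tau1; omega)).trans ?_
        exact mul_le_mul_of_nonneg_right (le_max_left _ _) (l9s_gap_nonneg hX.isMs hj')
    _ = max C 0 * l9sInt ms X.N w := by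
        unfold l9sInt
        rw [Finset.mul_sum]
        exact Finset.sum_congr rfl fun j _ => by ring

/-! ### 8. moments at a pair -/

/-- moment of order `k` of `Δ` at a pair which shares `t` stages -/
noncomputable def l9sMom (X : JtCtx S) (k t : ℕ) : ℝ :=
  X.nu 2 (trPair X.N t) fun σ => |X.Dl (trPair X.N t) σ 0 1| ^ k

/-- PRUNE to the pair -/
theorem l9s_mom_pair {X : JtCtx S} {ms : ℕ → ℝ} (hX : X.Law ms) {r : ℕ} {τ : JtTopo} (hτ : IsTr X.N r τ) {c d : ℕ}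
    (hc : c < r) (hd : d < r) (g : ℝ → ℝ) :
    X.nu r τ (fun σ => g (X.Dl τ σ c d)) = X.nu 2 (trPair X.N (τ c d)) fun σ => g (X.Dl (trPair X.N (τ c d)) σ 0 1) := by
  have h := hX.nu.comap r 2 τ hτ (fun x => if x = 0 then c else d) (fun x _ => by
    show (if x = 0 then c else d) < r
    split_ifs <;> assumption)
    (fun σ' => g (X.msk (τ c d) * X.ov (σ' 0) (σ' 1) - X.qC (τ c d)))
    (fun σ σ' hh => by
      show g (X.msk (τ c d) * X.ov (σ 0) (σ 1) - X.qC (τ c d)) = g (X.msk (τ c d) * X.ov (σ' 0) (σ' 1) - X.qC (τ c d))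
      rw [hh 0 (by norm_num), hh 1 (by norm_num)])
  have e1 : (fun σ : ℕ → S => g (X.Dl τ σ c d))
      = fun σ => (fun σ' : ℕ → S => g (X.msk (τ c d) * X.ov (σ' 0) (σ' 1) - X.qC (τ c d)))
        fun x => σ (if x = 0 then c else d) := by
    funext σ
    simp [JtCtx.Dl, JtCtx.Qs]
  have e2 : (fun σ : ℕ → S => g (X.Dl (trPair X.N (τ c d)) σ 0 1))
      = fun σ' => g (X.msk (τ c d) * X.ov (σ' 0) (σ' 1) - X.qC (τ c d)) := by
    funext σ
    simp [JtCtx.Dl, JtCtx.Qs, trPair]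
  rw [e1, h, e2]
  refine hX.nu.congr 2 _ _ (fun x y hx hy => ?_) _
  unfold trPair
  have hx' : x = 0 ∨ x = 1 := by omega
  have hy' : y = 0 ∨ y = 1 := by omega
  rcases hx' with rfl | rfl <;> rcases hy' with rfl | rfl
  · simpa using hτ.diag c hc
  · simp
  · simpa using hτ.symm d c hd hc
  · simpa using hτ.diag d hd

omit [Fintype S] [Inhabited S] in
theorem l9s_J_eq (X : JtCtx S) (τ : JtTopo) (σ : ℕ → S) (c d : ℕ) :
    X.J τ σ c d = X.bC (τ c d) * X.Dl τ σ c d + X.dC (τ c d) := by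
  unfold JtCtx.J JtCtx.Dl JtCtx.dC
  ring

theorem l9s_add_pow_le {x y : ℝ} (hx : 0 ≤ x) (hy : 0 ≤ y) (k : ℕ) : (x + y) ^ k ≤ 2 ^ k * (x ^ k + y ^ k) := by
  rcases le_total x y with h | h
  · calc (x + y) ^ k ≤ (2 * y) ^ k := pow_le_pow_left₀ (by positivity) (by linarith) k
      _ = 2 ^ k * y ^ k := mul_pow _ _ _
      _ ≤ 2 ^ k * (x ^ k + y ^ k) := by
          have : 0 ≤ x ^ k := by positivity
          gcongr
          linarith
  · calc (x + y) ^ k ≤ (2 * x) ^ k := pow_le_pow_left₀ (by positivity) (by linarith) k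
      _ = 2 ^ k * x ^ k := mul_pow _ _ _
      _ ≤ 2 ^ k * (x ^ k + y ^ k) := by
          have : 0 ≤ y ^ k := by positivity
          gcongr
          linarith

/-- moment of the insertion `|Δ| + |J|`, `J = b Δ + d`, at a pair of a tree -/
theorem l9s_fac_mom {X : JtCtx S} {ms : ℕ → ℝ} (hX : X.Law ms) {r : ℕ} {τ : JtTopo} (hτ : IsTr X.N r τ) {c d : ℕ}
    (hc : c < r) (hd : d < r) (hoff : τ c d ≤ X.N) {k : ℕ} (hk : 1 ≤ k) {M0 sg : ℝ} (hM0 : 0 ≤ M0)
    (hsg : 0 ≤ sg) (hb : ∀ t ≤ X.N, |X.bC t| ≤ M0) (hdC : ∀ t ≤ X.N, |X.dC t| ≤ sg)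
    (hmom : ∀ t ≤ X.N, l9sMom X k t ≤ sg ^ k) :
    X.nu r τ (fun σ => (|X.Dl τ σ c d| + |X.J τ σ c d|) ^ k) ≤ (4 * (1 + M0) * sg) ^ k := by
  have hpt : ∀ σ, (|X.Dl τ σ c d| + |X.J τ σ c d|) ^ k
      ≤ (2 ^ k * (1 + M0) ^ k) * |X.Dl τ σ c d| ^ k + 2 ^ k * sg ^ k := by
    intro σ
    have h1 : |X.J τ σ c d| ≤ M0 * |X.Dl τ σ c d| + sg := by
      rw [l9s_J_eq]
      refine (abs_add_le _ _).trans ?_
      rw [abs_mul]
      exact add_le_add (mul_le_mul_of_nonneg_right (hb _ hoff) (abs_nonneg _)) (hdC _ hoff)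
    calc (|X.Dl τ σ c d| + |X.J τ σ c d|) ^ k ≤ ((1 + M0) * |X.Dl τ σ c d| + sg) ^ k :=
          pow_le_pow_left₀ (by positivity) (by linarith) k
      _ ≤ 2 ^ k * (((1 + M0) * |X.Dl τ σ c d|) ^ k + sg ^ k) := l9s_add_pow_le (by positivity) hsg k
      _ = _ := by rw [mul_pow]; ring
  have hm : X.nu r τ (fun σ => |X.Dl τ σ c d| ^ k) ≤ sg ^ k := by
    rw [l9s_mom_pair hX hτ hc hd (fun y => |y| ^ k)]
    exact hmom _ hoff
  calc X.nu r τ (fun σ => (|X.Dl τ σ c d| + |X.J τ σ c d|) ^ k)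
      ≤ X.nu r τ (fun σ => (2 ^ k * (1 + M0) ^ k) * |X.Dl τ σ c d| ^ k + 2 ^ k * sg ^ k) := hX.nu.mono r τ hpt
    _ = (2 ^ k * (1 + M0) ^ k) * X.nu r τ (fun σ => |X.Dl τ σ c d| ^ k) + 2 ^ k * sg ^ k := by
        rw [hX.nu.add, hX.nu.const_mul, hX.nu.const]
    _ ≤ (2 ^ k * (1 + M0) ^ k) * sg ^ k + 2 ^ k * sg ^ k := by
        have := mul_le_mul_of_nonneg_left hm (show 0 ≤ 2 ^ k * (1 + M0) ^ k by positivity)
        linarith
    _ ≤ (4 * (1 + M0) * sg) ^ k := by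
        have h1 : (1 : ℝ) ≤ (1 + M0) ^ k := one_le_pow₀ (by linarith)
        have h2 : (2 : ℝ) ≤ 2 ^ k := by
          calc (2 : ℝ) = 2 ^ 1 := (pow_one 2).symm
            _ ≤ 2 ^ k := pow_le_pow_right₀ (by norm_num) hk
        have h3 : (4 * (1 + M0) * sg) ^ k = 2 ^ k * (2 ^ k * ((1 + M0) ^ k * sg ^ k)) := by
          rw [mul_pow, mul_pow, show (4 : ℝ) = 2 * 2 by norm_num, mul_pow]
          ring
        rw [h3]
        have h4 : 0 ≤ sg ^ k := by positivity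
        have h5 : sg ^ k ≤ (1 + M0) ^ k * sg ^ k := by nlinarith
        have h6 : 0 ≤ (1 + M0) ^ k * sg ^ k := by positivity
        have h7 : 2 * ((1 + M0) ^ k * sg ^ k) ≤ 2 ^ k * ((1 + M0) ^ k * sg ^ k) := mul_le_mul_of_nonneg_right h2 h6
        have h8 : (2 : ℝ) ^ k * ((1 + M0) ^ k * sg ^ k + sg ^ k) ≤ 2 ^ k * (2 ^ k * ((1 + M0) ^ k * sg ^ k)) :=
          mul_le_mul_of_nonneg_left (by linarith) (by positivity)
        linarith

/-! ### 9. the three error majorants of LL02 -/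

theorem l9s_nu_pos {X : JtCtx S} {ms : ℕ → ℝ} (hX : X.Law ms) (r : ℕ) (τ : JtTopo) : L9tPos (fun _ => True) (X.nu r τ) :=
  ⟨fun _ _ h => hX.nu.mono r τ fun σ => h σ trivial, hX.nu.add r τ, fun c f => hX.nu.const_mul r τ c f⟩

/-- hypotheses on the insertions of one context: `b ≤ M0`, `|d| ≤ sg`, moment of order `k` of `Δ` at every pair `≤ sg^k` -/
structure L9sIns (X : JtCtx S) (k : ℕ) (M0 sg : ℝ) : Prop where
  M0_nn : 0 ≤ M0
  sg_pos : 0 < sg
  b_le : ∀ t ≤ X.N, |X.bC t| ≤ M0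
  d_le : ∀ t ≤ X.N, |X.dC t| ≤ sg
  mom_le : ∀ t ≤ X.N, l9sMom X k t ≤ sg ^ k

/-- the error majorant of the size increments (T1) -/
theorem l9s_errS_le (k : ℕ) (a : ℝ) : ∃ C : ℝ, 0 ≤ C ∧ ∀ (S : Type) [Fintype S] [Inhabited S] (X : JtCtx S) (ms : ℕ → ℝ),
    X.Law ms → ms X.N ≤ a → ∀ M0 sg : ℝ, L9sIns X (k + 1) M0 sg → X.errS k ≤ C * (4 * (1 + M0) * sg) ^ (k + 1) := by
  obtain ⟨C, hC0, hC⟩ := l9s_total (2 * k + 1) a
  refine ⟨C, hC0, fun S _ _ X ms hX ha M0 sg hI => ?_⟩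
  have hA := (l9s_ok hX).abs_pos (2 * k + 1) 1 X.tau1 (l9e_isTr_one X.N)
  have hM : L9tMaj (fun τ => IsTr X.N (1 + (2 * k + 1)) τ) (X.absK (2 * k + 1) 1 X.tau1) (fun τ => X.nu (2 * k + 2) τ)
      (fun τ => X.off 0 (k + 1) τ) := ⟨hA, fun τ _ => l9s_nu_pos hX _ τ, fun τ _ => l9t_off_nonneg X 0 (k + 1) τ⟩
  have e : X.errS k = l9tM (X.absK (2 * k + 1) 1 X.tau1) (fun τ => X.nu (2 * k + 2) τ) (Finset.range (k + 1))
      (fun τ i σ => |X.Dl τ σ (jtC 0 i) (jtD 0 i)| + |X.J τ σ (jtC 0 i) (jtD 0 i)|) (fun τ => X.off 0 (k + 1) τ) := by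
    unfold JtCtx.errS l9tM
    congr 1
    funext τ
    congr 2
    funext σ
    exact Finset.prod_congr rfl fun i _ => (abs_of_nonneg (by positivity)).symm
  have hpos : 0 < 4 * (1 + M0) * sg := by have := hI.M0_nn; have := hI.sg_pos; positivity
  have h := l9t_size hM (Finset.range (k + 1)) (Finset.nonempty_range_iff.mpr (by omega))
    (fun τ i σ => |X.Dl τ σ (jtC 0 i) (jtD 0 i)| + |X.J τ σ (jtC 0 i) (jtD 0 i)|) (sg := 4 * (1 + M0) * sg) (W := C) hpos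
    (fun τ hτ h0 i hi => by
      rw [Finset.card_range]
      have hi' := Finset.mem_range.mp hi
      have hτ' : IsTr X.N (2 * k + 2) τ := by rwa [show 1 + (2 * k + 1) = 2 * k + 2 by omega] at hτ
      have := l9s_fac_mom hX hτ' (c := jtC 0 i) (d := jtD 0 i) (by unfold jtC; omega) (by unfold jtD; omega)
        (l9t_off_ne_zero h0 hi') (k := k + 1) (by omega) hI.M0_nn hI.sg_pos.le hI.b_le hI.d_le hI.mom_le
      refine le_trans (le_of_eq ?_) this
      congr 1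
      funext σ
      rw [abs_of_nonneg (by positivity)])
    (le_trans (hA.mono _ _ fun τ _ => l9t_off_le_one X 0 (k + 1) τ) (hC S X ms hX ha))
  rw [Finset.card_range] at h
  rw [e]
  exact h

/-- the error majorant of (A9) (T1 with ONE dotted weight at the split of the root pair) -/
theorem l9s_errW_le (k : ℕ) (hk : 1 ≤ k) (a : ℝ) : ∃ C : ℝ, 0 ≤ C ∧ ∀ (S : Type) [Fintype S] [Inhabited S] (X : JtCtx S)
    (ms : ℕ → ℝ), X.Law ms → ms X.N ≤ a → ∀ M0 sg : ℝ, L9sIns X k M0 sg → ∀ w : ℕ → ℝ, (∀ j, 0 ≤ w j) →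
      X.errW w k ≤ C * l9sInt ms X.N w * (4 * (1 + M0) * sg) ^ k := by
  obtain ⟨C, hC0, hC⟩ := l9s_marg (2 * k) a
  refine ⟨C, hC0, fun S _ _ X ms hX ha M0 sg hI w hw => ?_⟩
  have hA := (l9s_ok hX).abs_pos (2 * k + 1) 1 X.tau1 (l9e_isTr_one X.N)
  have hM : L9tMaj (fun τ => IsTr X.N (1 + (2 * k + 1)) τ) (X.absK (2 * k + 1) 1 X.tau1) (fun τ => X.nu (2 * k + 2) τ)
      (fun τ => X.off 0 (k + 1) τ * w (τ 0 1)) :=
    ⟨hA, fun τ _ => l9s_nu_pos hX _ τ, fun τ _ => mul_nonneg (l9t_off_nonneg X 0 (k + 1) τ) (hw _)⟩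
  have hcard : (Finset.Icc 1 k).card = k := by rw [Nat.card_Icc]; omega
  have hpos : 0 < 4 * (1 + M0) * sg := by have := hI.M0_nn; have := hI.sg_pos; positivity
  have h := l9t_size hM (Finset.Icc 1 k) ⟨1, Finset.mem_Icc.mpr ⟨le_rfl, hk⟩⟩
    (fun τ i σ => X.J τ σ (jtC 0 i) (jtD 0 i)) (sg := 4 * (1 + M0) * sg) (W := C * l9sInt ms X.N w) hpos
    (fun τ hτ h0 i hi => by
      rw [hcard]
      have hi' := Finset.mem_Icc.mp hi
      have hτ' : IsTr X.N (2 * k + 2) τ := by rwa [show 1 + (2 * k + 1) = 2 * k + 2 by omega] at hτ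
      have := l9s_fac_mom hX hτ' (c := jtC 0 i) (d := jtD 0 i) (by unfold jtC; omega) (by unfold jtD; omega)
        (l9t_off_ne_zero (left_ne_zero_of_mul h0) (by omega)) (k := k) hk hI.M0_nn hI.sg_pos.le hI.b_le hI.d_le hI.mom_le
      refine le_trans (hX.nu.mono _ τ fun σ => ?_) this
      exact pow_le_pow_left₀ (abs_nonneg _) (le_add_of_nonneg_left (abs_nonneg _)) k)
    (hC S X ms hX ha w hw (fun τ => X.off 0 (k + 1) τ) fun τ _ =>
      ⟨l9t_off_nonneg X 0 (k + 1) τ, l9t_off_le_one X 0 (k + 1) τ, fun h0 => l9t_off_ne_zero (i := 0) h0 (by omega)⟩)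
  rw [hcard] at h
  exact h

/-- the contact error of (A9) -/
theorem l9s_errW0_le (a : ℝ) : ∃ C : ℝ, 0 ≤ C ∧ ∀ (S : Type) [Fintype S] [Inhabited S] (X : JtCtx S) (ms : ℕ → ℝ),
    X.Law ms → ms X.N ≤ a → ∀ w : ℕ → ℝ, (∀ j, 0 ≤ w j) → X.errW0 w ≤ C * l9sInt ms X.N w := by
  obtain ⟨C, hC0, hC⟩ := l9s_marg 0 a
  refine ⟨C, hC0, fun S _ _ X ms hX ha w hw => ?_⟩
  exact hC S X ms hX ha w hw (fun τ => X.off 0 1 τ) fun τ _ =>
    ⟨l9t_off_nonneg X 0 1 τ, l9t_off_le_one X 0 1 τ, fun h0 => l9t_off_ne_zero (i := 0) h0 (by omega)⟩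

theorem l9s_errS_nonneg {X : JtCtx S} {ms : ℕ → ℝ} (hX : X.Law ms) (k : ℕ) : 0 ≤ X.errS k := by
  unfold JtCtx.errS
  refine ((l9s_ok hX).abs_pos (2 * k + 1) 1 X.tau1 (l9e_isTr_one X.N)).nonneg fun τ _ => ?_
  exact mul_nonneg (l9t_off_nonneg X 0 (k + 1) τ) (hX.nu.nonneg _ τ fun σ => Finset.prod_nonneg fun i _ => by positivity)

theorem l9s_errW_nonneg {X : JtCtx S} {ms : ℕ → ℝ} (hX : X.Law ms) {w : ℕ → ℝ} (hw : ∀ j, 0 ≤ w j) (k : ℕ) :
    0 ≤ X.errW w k := by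
  unfold JtCtx.errW
  refine ((l9s_ok hX).abs_pos (2 * k + 1) 1 X.tau1 (l9e_isTr_one X.N)).nonneg fun τ _ => ?_
  exact mul_nonneg (mul_nonneg (l9t_off_nonneg X 0 (k + 1) τ) (hw _))
    (hX.nu.nonneg _ τ fun σ => Finset.prod_nonneg fun i _ => abs_nonneg _)

theorem l9s_errW0_nonneg {X : JtCtx S} {ms : ℕ → ℝ} (hX : X.Law ms) {w : ℕ → ℝ} (hw : ∀ j, 0 ≤ w j) : 0 ≤ X.errW0 w := by
  unfold JtCtx.errW0
  refine ((l9s_ok hX).abs_pos 1 1 X.tau1 (l9e_isTr_one X.N)).nonneg fun τ _ => ?_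
  exact mul_nonneg (l9t_off_nonneg X 0 1 τ) (hw _)

end alloc

/-! ### 10. (A9) + size increments + stencil, on a family of fine paths -/

/-- the weight of (A9) along the family `P`: `q̇` = derivative of the reference overlap of the chain -/
noncomputable def l9sW (n : ℕ) (a e : ℝ) (P : ℝ → LlStp) (Pd : LlStp) (θ : ℝ) : ℕ → ℝ :=
  llW e Pd fun j => deriv (fun t' => (llJs n a (P t') none).qC j) θ

/-- the frozen form of `O`(A6) in the ensemble `tl`, `u = 1` -/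
noncomputable def l9sOF (n : ℕ) (a e : ℝ) (P : ℝ → LlStp) (k : ℕ) (tl : Option ℕ) (θ : ℝ) : ℝ :=
  1 * (llJs n a (P θ) tl).presR k
    + deriv (fun t' => (llJs n a (P θ) tl).frz (llJs n a (P t') tl) (Real.exp (-e * (t' - θ))) k) θ

/-- the sum of the error majorants of LL02 -/
noncomputable def l9sErr (n : ℕ) (a e : ℝ) (P : ℝ → LlStp) (Pd : LlStp) (js k : ℕ) (θ : ℝ) : ℝ :=
  1 / (n : ℝ) + (llJs n a (P θ) (some js)).errS k + (llJs n a (P θ) none).errS k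
    + ((llJs n a (P θ) (some js)).errW (l9sW n a e P Pd θ) k + (llJs n a (P θ) (some js)).errW0 (l9sW n a e P Pd θ) / n)
    + ((llJs n a (P θ) none).errW (l9sW n a e P Pd θ) k + (llJs n a (P θ) none).errW0 (l9sW n a e P Pd θ) / n)

/-- **TRS on a family of fine paths**: the combination (I) is the frozen form of `(1 + 𝒟)`(A6) up to the error majorants of LL02. -/
theorem l9s_a9sz (hA9 : L02RowDeriv llJs llMv) (hSz : L02SizeIncr llJs llMv) (k r : ℕ) (M0 : ℝ) :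
    ∃ C : ℝ, 0 ≤ C ∧ ∀ c : ℕ → ℝ, SkStencil r c → 1 ≤ k → k ≤ r →
      ∀ (n : ℕ) (a e : ℝ) (U : Set ℝ) (θ : ℝ) (P : ℝ → LlStp) (Pd : LlStp) (js : ℕ),
      1 ≤ n → 1 ≤ a → a ≤ 4 → U ∈ nhds θ → LlFam a U θ P Pd → LlBd M0 (P θ) → (∀ ϑ ∈ U, LlTiltOk (P ϑ) (some js)) →
      (∀ t, (llJs n a (P θ) none).bC t * (llJs n a (P θ) none).qC t ^ 2
        ≤ (llJs n a (P θ) none).bC (t + 1) * (llJs n a (P θ) none).qC (t + 1) ^ 2) →
      |deriv (fun t => llPsi llMv n a js (P t)) θ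
          + ∑ j ∈ Finset.range (r + 1), c j * (((n + j : ℕ) : ℝ) * llPsi llMv (n + j) a js (P θ))
          - (l9sOF n a e P k (some js) θ - l9sOF n a e P k none θ)|
        ≤ (1 + ∑ j ∈ Finset.range (r + 1), |c j|) * (C * l9sErr n a e P Pd js k θ) := by
  obtain ⟨C6, h6⟩ := hA9 k M0
  obtain ⟨C7, h7⟩ := hSz k r M0
  refine ⟨|C6| + |C7|, by positivity, fun c hc hk1 hkr n a e U θ P Pd js hn ha1 ha4 hU hFam hBd htl hmono => ?_⟩
  obtain ⟨D1s, D2s, qds, hqs, hD1s, hD2s, hEs⟩ := h6 n a e U θ P Pd (some js) hk1 hn ha1 ha4 hFam hBd htl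
  obtain ⟨D10, D20, qd0, hq0, hD10, hD20, hE00⟩ := h6 n a e U θ P Pd none hk1 hn ha1 ha4 hFam hBd (fun _ _ => trivial)
  obtain ⟨c7, h7'⟩ := h7 n a (P θ) js hn ha1 ha4 (hFam.adm θ hFam.mem) hBd (htl θ hFam.mem) hmono
  have hqs' : qds = fun j => deriv (fun t' => (llJs n a (P t') none).qC j) θ := by
    funext j
    exact ((hqs j).hasDerivAt hU).deriv.symm
  have hq0' : qd0 = fun j => deriv (fun t' => (llJs n a (P t') none).qC j) θ := by
    funext j
    exact ((hq0 j).hasDerivAt hU).deriv.symm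
  rw [hqs'] at hEs
  rw [hq0'] at hE00
  have hpsi : deriv (fun t => llPsi llMv n a js (P t)) θ = D1s - D10 := by
    unfold llPsi
    exact ((hD1s.hasDerivAt hU).sub (hD10.hasDerivAt hU)).deriv
  have hOFs : l9sOF n a e P k (some js) θ = (llJs n a (P θ) (some js)).presR k + D2s := by
    unfold l9sOF
    rw [(hD2s.hasDerivAt hU).deriv, one_mul]
  have hOF0 : l9sOF n a e P k none θ = (llJs n a (P θ) none).presR k + D20 := by
    unfold l9sOF
    rw [(hD20.hasDerivAt hU).deriv, one_mul]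
  set P1 := (llJs n a (P θ) (some js)).presR k with hP1
  set P0 := (llJs n a (P θ) none).presR k with hP0
  set w := l9sW n a e P Pd θ with hw
  set Err := l9sErr n a e P Pd js k θ with hErr
  have hw0 : ∀ j, 0 ≤ w j := by
    intro j
    simp only [hw, l9sW, llW]
    positivity
  have hLs : (llJs n a (P θ) (some js)).Law (llMs a (P θ)) := ll2_law_js n (by linarith) (hFam.adm θ hFam.mem) _
  have hL0 : (llJs n a (P θ) none).Law (llMs a (P θ)) := ll2_law_js n (by linarith) (hFam.adm θ hFam.mem) _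
  have hn0 : (0 : ℝ) < n := by exact_mod_cast hn
  set G7 := 1 / (n : ℝ) + (llJs n a (P θ) (some js)).errS k + (llJs n a (P θ) none).errS k with hG7
  set G6s := (llJs n a (P θ) (some js)).errW w k + (llJs n a (P θ) (some js)).errW0 w / n with hG6s
  set G60 := (llJs n a (P θ) none).errW w k + (llJs n a (P θ) none).errW0 w / n with hG60
  have hG7n : 0 ≤ G7 := by
    have := l9s_errS_nonneg hLs k
    have := l9s_errS_nonneg hL0 k
    positivity
  have hG6sn : 0 ≤ G6s := by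
    have := l9s_errW_nonneg hLs hw0 k
    have := l9s_errW0_nonneg hLs hw0
    positivity
  have hG60n : 0 ≤ G60 := by
    have := l9s_errW_nonneg hL0 hw0 k
    have := l9s_errW0_nonneg hL0 hw0
    positivity
  have hErrEq : Err = G7 + G6s + G60 := rfl
  have hdet : (llJs n a (P θ) (some js)).detR (fun t => llCumK Pd t) = (llJs n a (P θ) none).detR (fun t => llCumK Pd t) := rfl
  set av : ℕ → ℝ := fun l => if l = 1 then P1 - P0 else c7 l with hav
  set RemS : ℕ → ℝ := fun j => ((n + j : ℕ) : ℝ) * llPsi llMv (n + j) a js (P θ) - n * llPsi llMv n a js (P θ)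
    - ∑ l ∈ Finset.Icc 1 k, av l * (j : ℝ) ^ l with hRemS
  have h1k : (1 : ℕ) ∈ Finset.Icc 1 k := Finset.mem_Icc.mpr ⟨le_rfl, hk1⟩
  have hI : (Finset.Icc 1 k).erase 1 = Finset.Icc 2 k := by
    ext j
    simp only [Finset.mem_erase, Finset.mem_Icc]
    omega
  have hsum : ∀ j : ℕ, ∑ l ∈ Finset.Icc 1 k, av l * (j : ℝ) ^ l
      = (j : ℝ) * (P1 - P0) + ∑ t ∈ Finset.Icc 2 k, (j : ℝ) ^ t * c7 t := by
    intro j
    rw [← Finset.add_sum_erase _ _ h1k, hI]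
    congr 1
    · simp [hav]; ring
    · refine Finset.sum_congr rfl fun l hl => ?_
      have : l ≠ 1 := by have := (Finset.mem_Icc.mp hl).1; omega
      simp only [hav, if_neg this]
      ring
  have hC6 := abs_nonneg C6
  have hC7 := abs_nonneg C7
  have hRS : ∀ j ≤ r, |RemS j| ≤ (|C6| + |C7|) * Err := by
    intro j hj
    rcases Nat.eq_zero_or_pos j with rfl | hj0
    · have e0 : RemS 0 = 0 := by
        simp only [hRemS, Nat.add_zero, Nat.cast_zero]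
        rw [Finset.sum_eq_zero fun l hl => by
          rw [zero_pow (by have := (Finset.mem_Icc.mp hl).1; omega), mul_zero]]
        ring
      rw [e0, abs_zero, hErrEq]
      positivity
    · have h := h7' j hj0 hj
      have e1 : RemS j = ((n + j : ℕ) : ℝ) * llPsi llMv (n + j) a js (P θ) - (n : ℝ) * llPsi llMv n a js (P θ)
          - (j : ℝ) * (P1 - P0) - ∑ t ∈ Finset.Icc 2 k, (j : ℝ) ^ t * c7 t := by
        simp only [hRemS]
        rw [hsum j]
        ring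
      rw [e1]
      refine h.trans ?_
      have h2 : C7 * G7 ≤ |C7| * G7 := mul_le_mul_of_nonneg_right (le_abs_self _) hG7n
      rw [hErrEq]
      nlinarith [mul_nonneg hC6 hG7n, mul_nonneg hC6 hG6sn, mul_nonneg hC6 hG60n, mul_nonneg hC7 hG6sn,
        mul_nonneg hC7 hG60n]
  set RemD := (D1s - D2s - (llJs n a (P θ) (some js)).detR (fun t => llCumK Pd t))
    - (D10 - D20 - (llJs n a (P θ) none).detR (fun t => llCumK Pd t)) with hRemD
  have hRD : |RemD| ≤ (|C6| + |C7|) * Err := by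
    have h1 : |RemD| ≤ C6 * G6s + C6 * G60 := (abs_sub _ _).trans (add_le_add hEs hE00)
    have h2 : C6 * G6s ≤ |C6| * G6s := mul_le_mul_of_nonneg_right (le_abs_self _) hG6sn
    have h3 : C6 * G60 ≤ |C6| * G60 := mul_le_mul_of_nonneg_right (le_abs_self _) hG60n
    rw [hErrEq]
    nlinarith [mul_nonneg hC6 hG7n, mul_nonneg hC7 hG7n, mul_nonneg hC7 hG6sn, mul_nonneg hC7 hG60n]
  have key := l9t_trs hc hk1 hkr n (fun n' => llPsi llMv n' a js (P θ)) (D1s - D10) av RemS P1 P0 D2s D20 RemD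
    (fun j _ => by simp only [hRemS]; ring) (by simp [hav]) (by rw [hRemD, hdet]; ring) hRS hRD
  rw [hpsi, hOFs, hOF0]
  refine le_trans (le_of_eq ?_) key
  congr 1
  ring

end Claimed.Agent.R286
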