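import Claimed.Agent.R286.Brg.Engine

/-!
# Row 286 (S0533), LL Sec. 9, node GRID, file ENG: THE SECOND ORDER ENGINE      (owner helper263; head of the unit helper60; prefix `l9n`, `L9n`)

WHY.   (M) of `L09/GridFD` = "Taylor defect of a coefficient at the fixed step `h` is `≤ |h| η`".   A coefficient is a polynomial of TREE NUMBERS `ν_τ[P]` of one chain, whose masses do not move
with the path parameter; only the coordinate variances do.   This file gives the Taylor defect of ONE tree number between two lists `h0`, `h1` of (mass, coordinate variances), same masses.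
TEX[LL:exp:prop-low-coefficients] (the derivative in the path parameter of a coefficient: one more pair of replicas per derivative).

CONTENTS (NO sorry; imports `Brg/Engine`).
* §1 `l9nD B ls q τ z P V` = THE LINEAR FUNCTIONAL `½ ∑_{τ₂ ⊃ τ} w(τ₂) ν_{τ₂}[P · V_{τ₂(q,q+1)}(σ_q, σ_{q+1})]`, `V t` = a CUMULATIVE kernel after `t` shared stages;
     `l9n_aff`: ENGINE-2 (second order Taylor bound) on an affine family;   linearity `l9nD_add/_smul/_sub`, `l9nD_hasDerivAt`.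
* §2 `l9n_scdot` = SC-DOT: `|l9nD .. V| ≤ C K (∑_j μ_j d_j + ∑_{j ∈ forks of τ} d_j)` if `|V j| ≤ d j`: the new pair splits at `j` with density `μ_j`, or at a fork of `τ`.
* §3 two lists: `L9nAdm`, `l9nH` (their affine family), `l9nCum` (cumulative kernel), `l9n_two` = ENGINE-2 between two lists.
* §4 `l9n_Mtau` = (M) FOR ONE TREE NUMBER: `|ν¹ - ν⁰ - h D⁰[V']| ≤ C K (M² + ∑_j μ_j d_j + ∑_{forks} d_j)`, `M` = sup distance of the cumulative kernels, `d j` = their Taylor defect.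
* §5 `l9n_path_hasDerivAt`: a tree number is differentiable along every differentiable path of lists (fixed masses), derivative `l9nD .. V'`   (import of E1X, 65).
-/

set_option autoImplicit false
set_option linter.unusedSectionVars false

namespace Claimed.Agent.R286

open MeasureTheory ProbabilityTheory Set

variable {S ι : Type} [Fintype S] [Fintype ι] [Inhabited S]

/-- **THE LINEAR FUNCTIONAL** `D_ls[V]`: derivative of the tree number `ν_τ[P]` of the hierarchy `ls` in the direction of the CUMULATIVE kernels `V t` (`t` = number of shared stages) -/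
noncomputable def l9nD (B : GhB S) (ls : List (GhLv S ι)) (q : ℕ) (τ : ℕ → ℕ → ℕ) (z : S → ℝ) (P : (ℕ → S) → ℝ)
    (V : ℕ → S → S → ℝ) : ℝ :=
  1 / 2 * trSumK (trMs B ls) ls.length 2 q τ fun τ₂ => trNu B ls (q + 2) τ₂ z fun σ => P σ * V (τ₂ q (q + 1)) (σ q) (σ (q + 1))

theorem l9n_eqns_cite : True := by
  have := @l9nD.eq_1
  trivial

/-- ENGINE-2, affine family form -/
theorem l9n_aff {B : GhB S} (hB : B.Ok) (Φ : S → ι → ℝ) {H : List (ℝ × (ι → ℝ) × (ι → ℝ))} (hH : GcAffAdm B.a H)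
    {q : ℕ} {τ : ℕ → ℕ → ℕ} (hτ : IsTr H.length q τ) (z : S → ℝ) (P : (ℕ → S) → ℝ) (hP : TrUses q P) (M K : ℝ)
    (hM : ∀ t s s', |trV (gcDK (brgFeat Φ) H) H.length t s s'| ≤ M) (hK : ∀ σ, |P σ| ≤ K) :
    |trNu B (brgLs Φ (gcAff H 1)) q τ z P - trNu B (brgLs Φ (gcAff H 0)) q τ z P
        - l9nD B (brgLs Φ (gcAff H 0)) q τ z P (trV (gcDK (brgFeat Φ) H) H.length)|
      ≤ 4 * B.a ^ 4 * (∏ i ∈ Finset.range 4, ((q : ℝ) + i)) * M ^ 2 * K := by
  -- the functional in the clocked vocabulary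
  have hlen : (brgLs Φ (gcAff H 0)).length = H.length := by simp [brgLs, gcAff]
  obtain ⟨-, -, hms⟩ := gc_adm (B := B) (brgFeat Φ) hH 0
  have hms' : trMs B (brgLs Φ (gcAff H 0)) = gcMs B.a H := by
    funext j
    rw [← hms j]
    unfold trMs brgLs gcLs
    simp only [List.getElem?_map, Option.map_map]
    rfl
  have hD : l9nD B (brgLs Φ (gcAff H 0)) q τ z P (trV (gcDK (brgFeat Φ) H) H.length)
      = 1 / 2 * trSumK (gcMs B.a H) H.length 2 q τ fun τ₂ =>
        gcNu B (brgFeat Φ) H 0 (q + 2) τ₂ z fun σ => P σ * trV (gcDK (brgFeat Φ) H) H.length (τ₂ q (q + 1)) (σ q) (σ (q + 1)) := by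
    unfold l9nD gcNu
    rw [hlen, hms']
    congr 2
    funext τ₂
    exact brg_e_nu_gc hB Φ _ _ _ _ _
  rw [hD, brg_e_nu_gc hB, brg_e_nu_gc hB]
  set f : ℝ → ℝ := fun θ => gcNu B (brgFeat Φ) H θ q τ z P with hf
  have hcd : ContDiffOn ℝ ((1 : ℕ) + 1 : ℕ) f (Icc 0 1) := by
    have := tr_c3_contDiffOn_nat hB (brgFeat Φ) hH z 2 hτ P hP
    exact this
  have hb : ∀ y ∈ Icc (0 : ℝ) 1, ‖iteratedDerivWithin (1 + 1) f (Icc 0 1) y‖
      ≤ 4 * B.a ^ 4 * (∏ i ∈ Finset.range 4, ((q : ℝ) + i)) * M ^ 2 * K := by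
    intro y hy
    have h1 := tr_taylor hB (brgFeat Φ) hH hτ z P hP M K hM hK 2 hy
    rw [Real.norm_eq_abs]
    refine h1.trans (le_of_eq ?_)
    ring
  have ht := taylor_mean_remainder_bound (f := f) (a := 0) (b := 1) (x := 1) (n := 1) zero_le_one
    (by exact_mod_cast hcd) (right_mem_Icc.2 zero_le_one) hb
  have hd0 := (tr_c3_deriv hB (brgFeat Φ) hH hτ z P hP (left_mem_Icc.2 zero_le_one)).derivWithin
    (uniqueDiffOn_Icc zero_lt_one 0 (left_mem_Icc.2 zero_le_one))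
  have hte : taylorWithinEval f 1 (Icc 0 1) 0 1 = f 0 + derivWithin f (Icc 0 1) 0 := by
    rw [taylorWithinEval_succ, taylor_within_zero_eval, iteratedDerivWithin_one]
    simp
  rw [hte, hd0, Real.norm_eq_abs] at ht
  have e : f 1 - f 0 - 1 / 2 * trSumK (gcMs B.a H) H.length 2 q τ (fun τ₂ =>
        gcNu B (brgFeat Φ) H 0 (q + 2) τ₂ z fun σ => P σ * trV (gcDK (brgFeat Φ) H) H.length (τ₂ q (q + 1)) (σ q) (σ (q + 1)))
      = f 1 - (f 0 + 1 / 2 * trSumK (gcMs B.a H) H.length 2 q τ (fun τ₂ =>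
        gcNu B (brgFeat Φ) H 0 (q + 2) τ₂ z fun σ => P σ * trV (gcDK (brgFeat Φ) H) H.length (τ₂ q (q + 1)) (σ q) (σ (q + 1)))) := by
    ring
  have e2 : trNu B (gcLs (brgFeat Φ) (gcAff H 1)) q τ z P = f 1 := rfl
  have e3 : trNu B (gcLs (brgFeat Φ) (gcAff H 0)) q τ z P = f 0 := rfl
  rw [e2, e3, e]
  refine ht.trans (le_of_eq ?_)
  simp

/-! ## 2. the functional: linearity, crude bound, SC-dot -/

theorem l9n_sumK_add {N q : ℕ} {τ : ℕ → ℕ → ℕ} {ms : ℕ → ℝ} (k : ℕ) (Φ Ψ : (ℕ → ℕ → ℕ) → ℝ) :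
    trSumK ms N k q τ (fun τ' => Φ τ' + Ψ τ') = trSumK ms N k q τ Φ + trSumK ms N k q τ Ψ := by
  induction k generalizing q τ with
  | zero => rfl
  | succ k ih => simp only [trSumK, trSum, ih, mul_add, Finset.sum_add_distrib]

theorem l9n_sumK_zero {N q : ℕ} {τ : ℕ → ℕ → ℕ} {ms : ℕ → ℝ} (k : ℕ) : trSumK ms N k q τ (fun _ => 0) = 0 := by
  have := tr_c3_sumK_const_mul (ms := ms) (N := N) (q := q) (τ := τ) k 0 (fun _ => 0)
  simpa using this

theorem l9n_sumK_sum {N q : ℕ} {τ : ℕ → ℕ → ℕ} {ms : ℕ → ℝ} {κ : Type} (s : Finset κ) (c : κ → ℝ) (k : ℕ)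
    (Φ : κ → (ℕ → ℕ → ℕ) → ℝ) :
    trSumK ms N k q τ (fun τ' => ∑ i ∈ s, c i * Φ i τ') = ∑ i ∈ s, c i * trSumK ms N k q τ (Φ i) := by
  classical
  induction s using Finset.induction_on with
  | empty => simpa using l9n_sumK_zero k
  | insert i s hi ih =>
    simp only [Finset.sum_insert hi]
    rw [l9n_sumK_add, ih, tr_c3_sumK_const_mul]

theorem l9n_absK_add {N q : ℕ} {τ : ℕ → ℕ → ℕ} {ms : ℕ → ℝ} (k : ℕ) (Φ Ψ : (ℕ → ℕ → ℕ) → ℝ) :
    trAbsK ms N k q τ (fun τ' => Φ τ' + Ψ τ') = trAbsK ms N k q τ Φ + trAbsK ms N k q τ Ψ := by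
  induction k generalizing q τ with
  | zero => rfl
  | succ k ih => simp only [trAbsK, trAbs, ih, mul_add, Finset.sum_add_distrib]

theorem l9n_absK_zero {N q : ℕ} {τ : ℕ → ℕ → ℕ} {ms : ℕ → ℝ} (k : ℕ) : trAbsK ms N k q τ (fun _ => 0) = 0 := by
  have := tra2_absK_const_mul (ms := ms) (N := N) (q := q) (τ := τ) k 0 (fun _ => 0)
  simpa using this

theorem l9n_absK_sum {N q : ℕ} {τ : ℕ → ℕ → ℕ} {ms : ℕ → ℝ} {κ : Type} (s : Finset κ) (c : κ → ℝ) (k : ℕ)
    (Φ : κ → (ℕ → ℕ → ℕ) → ℝ) :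
    trAbsK ms N k q τ (fun τ' => ∑ i ∈ s, c i * Φ i τ') = ∑ i ∈ s, c i * trAbsK ms N k q τ (Φ i) := by
  classical
  induction s using Finset.induction_on with
  | empty => simpa using l9n_absK_zero k
  | insert i s hi ih =>
    simp only [Finset.sum_insert hi]
    rw [l9n_absK_add, ih, tra2_absK_const_mul]

/-- the functional is a FINITE LINEAR COMBINATION of the numbers `V t s s'` -/
theorem l9nD_hasDerivAt {B : GhB S} (hB : B.Ok) {ls : List (GhLv S ι)} (hls : GhAdm B 0 ls) {q : ℕ} {τ : ℕ → ℕ → ℕ}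
    (hτ : IsTr ls.length q τ) (z : S → ℝ) (P : (ℕ → S) → ℝ) (V : ℝ → ℕ → S → S → ℝ) (V' : ℕ → S → S → ℝ) (t₀ : ℝ)
    (hV : ∀ t s s', HasDerivAt (fun x => V x t s s') (V' t s s') t₀) :
    HasDerivAt (fun x => l9nD B ls q τ z P (V x)) (l9nD B ls q τ z P V') t₀ := by
  classical
  unfold l9nD
  refine HasDerivAt.const_mul _ ?_
  rw [← hasDerivWithinAt_univ]
  refine tr_c3_sumK_hasDeriv hτ 2 (fun τ₂ x => trNu B ls (q + 2) τ₂ z fun σ => P σ * V x (τ₂ q (q + 1)) (σ q) (σ (q + 1))) _ _ _ ?_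
  intro τ₂ _
  rw [hasDerivWithinAt_univ]
  simp only [tr_nu_eq_sum hB hls]
  refine HasDerivAt.fun_sum fun σ₀ _ => ?_
  exact ((hV _ _ _).const_mul _).const_mul _

theorem l9nD_add {B : GhB S} (hB : B.Ok) {ls : List (GhLv S ι)} (hls : GhAdm B 0 ls) (q : ℕ) (τ : ℕ → ℕ → ℕ)
    (z : S → ℝ) (P : (ℕ → S) → ℝ) (V W : ℕ → S → S → ℝ) :
    l9nD B ls q τ z P (fun t s s' => V t s s' + W t s s') = l9nD B ls q τ z P V + l9nD B ls q τ z P W := by
  classical
  unfold l9nD
  rw [← mul_add, ← l9n_sumK_add]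
  congr 2
  funext τ₂
  simp only [tr_nu_eq_sum hB hls, ← Finset.sum_add_distrib]
  exact Finset.sum_congr rfl fun σ₀ _ => by ring

theorem l9nD_smul {B : GhB S} (hB : B.Ok) {ls : List (GhLv S ι)} (hls : GhAdm B 0 ls) (q : ℕ) (τ : ℕ → ℕ → ℕ)
    (z : S → ℝ) (P : (ℕ → S) → ℝ) (c : ℝ) (V : ℕ → S → S → ℝ) :
    l9nD B ls q τ z P (fun t s s' => c * V t s s') = c * l9nD B ls q τ z P V := by
  classical
  unfold l9nD
  rw [mul_left_comm c, ← tr_c3_sumK_const_mul 2 c]
  congr 2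
  funext τ₂
  simp only [tr_nu_eq_sum hB hls, Finset.mul_sum]
  exact Finset.sum_congr rfl fun σ₀ _ => by ring

theorem l9nD_sub {B : GhB S} (hB : B.Ok) {ls : List (GhLv S ι)} (hls : GhAdm B 0 ls) (q : ℕ) (τ : ℕ → ℕ → ℕ)
    (z : S → ℝ) (P : (ℕ → S) → ℝ) (V W : ℕ → S → S → ℝ) :
    l9nD B ls q τ z P (fun t s s' => V t s s' - W t s s') = l9nD B ls q τ z P V - l9nD B ls q τ z P W := by
  have h1 := l9nD_add hB hls q τ z P V (fun t s s' => -1 * W t s s')
  have h2 := l9nD_smul hB hls q τ z P (-1) W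
  rw [h2] at h1
  have e : (fun t s s' => V t s s' - W t s s') = fun t s s' => V t s s' + -1 * W t s s' := by
    funext t s s'; ring
  rw [e, h1]; ring

/-- the values of the table on the labels `< q`: fork depths and (if `q ≥ 1`) the coincidence `N + 1` -/
def l9nFk (q : ℕ) (τ : ℕ → ℕ → ℕ) : Finset ℕ := (Finset.range q ×ˢ Finset.range q).image fun p => τ p.1 p.2

theorem l9n_eqns_cite2 : True := by
  have := @l9nFk.eq_1
  trivial

/-- **SC-dot** (decision D2 of 60): the derivative of a tree number in the direction `V` sees `V` through the mass integral of its size, and at the fork depths of the table -/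
theorem l9n_scdot (q : ℕ) (a : ℝ) : ∃ C : ℝ, 0 ≤ C ∧ ∀ (S ι : Type) [Fintype S] [Fintype ι] [Inhabited S] (B : GhB S), B.Ok → B.a ≤ a →
    ∀ (ls : List (GhLv S ι)), GhAdm B 0 ls → ∀ (τ : ℕ → ℕ → ℕ), IsTr ls.length q τ → ∀ (z : S → ℝ) (P : (ℕ → S) → ℝ) (K : ℝ),
    (∀ σ, |P σ| ≤ K) → ∀ (V : ℕ → S → S → ℝ) (d : ℕ → ℝ), (∀ t s s', |V t s s'| ≤ d t) →
      |l9nD B ls q τ z P V| ≤ C * K * (∑ j ∈ Finset.range (ls.length + 1), (trMs B ls j - trPm (trMs B ls) j) * d j
        + ∑ j ∈ l9nFk q τ, d j) := by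
  classical
  obtain ⟨C0, hC0⟩ := tr_split_density q 2 a
  set C1 : ℝ := (2 * |a|) ^ 2 * (∏ i ∈ Finset.range 2, ((q : ℝ) + i)) with hC1
  have hC1n : 0 ≤ C1 := by positivity
  refine ⟨|C0| + C1, by positivity, ?_⟩
  intro S ι _ _ _ B hB ha ls hls τ hτ z P K hK V d hd
  obtain ⟨hms, hmsN⟩ := tr_ms_isMs hB hls
  set N := ls.length with hN
  set ms := trMs B ls with hmsdef
  have hK0 : 0 ≤ K := (abs_nonneg _).trans (hK fun _ => default)
  have hd0 : ∀ t, 0 ≤ d t := fun t => (abs_nonneg _).trans (hd t default default)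
  have hμ : ∀ j, j ≤ N → 0 ≤ ms j - trPm ms j := fun j hj => sub_nonneg.2 (tra2_pm_le hms hj)
  set Φ₂ : (ℕ → ℕ → ℕ) → ℝ := fun τ₂ => trNu B ls (q + 2) τ₂ z fun σ => P σ * V (τ₂ q (q + 1)) (σ q) (σ (q + 1)) with hΦ₂
  set T : ℕ → ℝ := fun j => trAbsK ms N 2 q τ fun τ' => if τ' q (q + 1) = j then 1 else 0 with hT
  have h1 : |trSumK ms N 2 q τ Φ₂| ≤ trAbsK ms N 2 q τ (fun τ' => |Φ₂ τ'|) := tr_sumK_le 2 Φ₂
  have h2 : trAbsK ms N 2 q τ (fun τ' => |Φ₂ τ'|)
      ≤ trAbsK ms N 2 q τ (fun τ' => ∑ j ∈ Finset.range (N + 2), (K * d j) * (if τ' q (q + 1) = j then 1 else 0)) := by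
    refine tr_absK_mono hτ 2 _ _ fun τ' hτ' => ?_
    have hle : τ' q (q + 1) < N + 2 := by
      have := hτ'.le q (q + 1) (by omega) (by omega)
      omega
    have e : ∑ j ∈ Finset.range (N + 2), (K * d j) * (if τ' q (q + 1) = j then (1 : ℝ) else 0) = K * d (τ' q (q + 1)) := by
      rw [Finset.sum_eq_single (τ' q (q + 1))]
      · simp
      · intro j _ hj
        rw [if_neg (Ne.symm hj), mul_zero]
      · intro h; exact absurd (Finset.mem_range.2 hle) h
    rw [e]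
    refine gh_n_abs_le B hB _ ls (hls.ghNn le_rfl) _ _ _ fun _ σ => ?_
    rw [abs_mul]
    exact mul_le_mul (hK _) (hd _ _ _) (abs_nonneg _) hK0
  rw [l9n_absK_sum] at h2
  -- bounds of the split probabilities
  have hT0 : ∀ j, 0 ≤ T j := fun j => tra2_absK_nonneg 2 _ fun τ' => by split_ifs <;> norm_num
  have hTa : ∀ j, T j ≤ C1 := by
    intro j
    have h := tr_absK_le hτ hms 2 (fun τ' => if τ' q (q + 1) = j then (1 : ℝ) else 0) 1
      (fun τ' _ => by split_ifs <;> simp)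
    have e : (fun τ' : ℕ → ℕ → ℕ => |if τ' q (q + 1) = j then (1 : ℝ) else 0|) = fun τ' => if τ' q (q + 1) = j then (1 : ℝ) else 0 := by
      funext τ'; split_ifs <;> simp
    rw [e, mul_one, hmsN] at h
    refine h.trans ?_
    rw [hC1]
    have h3 : (2 * B.a) ^ 2 ≤ (2 * |a|) ^ 2 := by
      have : B.a ≤ |a| := ha.trans (le_abs_self a)
      have := hB.pos
      gcongr
    exact mul_le_mul_of_nonneg_right h3 (by positivity)
  have hTb : ∀ j, j ≤ N → j ∉ l9nFk q τ → T j ≤ |C0| * (ms j - trPm ms j) := by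
    intro j hj hjF
    have h := hC0 N τ ms hτ hms (by rw [hmsN]; exact ha) q (q + 1) j (by omega) (by omega) (by omega) (by omega) hj
      (fun u v hu hv he => hjF (by
        unfold l9nFk
        exact Finset.mem_image.2 ⟨(u, v), Finset.mem_product.2 ⟨Finset.mem_range.2 hu, Finset.mem_range.2 hv⟩, he⟩))
    exact h.trans (mul_le_mul_of_nonneg_right (le_abs_self _) (hμ j hj))
  -- `q = 0`: nothing to prove
  rcases Nat.eq_zero_or_pos q with hq | hq
  · subst hq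
    have : l9nD B ls 0 τ z P V = 0 := by
      unfold l9nD
      simp [trSumK, trSum]
    rw [this, abs_zero]
    refine mul_nonneg (mul_nonneg (by positivity) hK0) (add_nonneg ?_ ?_)
    · exact Finset.sum_nonneg fun j hj => mul_nonneg (hμ j (by have := Finset.mem_range.1 hj; omega)) (hd0 j)
    · exact Finset.sum_nonneg fun j _ => hd0 j
  have htop : N + 1 ∈ l9nFk q τ := by
    unfold l9nFk
    exact Finset.mem_image.2 ⟨(0, 0), Finset.mem_product.2 ⟨Finset.mem_range.2 hq, Finset.mem_range.2 hq⟩, hτ.diag 0 hq⟩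
  have h3 : ∑ j ∈ Finset.range (N + 2), (K * d j) * T j
      ≤ K * (|C0| * ∑ j ∈ Finset.range (N + 1), (ms j - trPm ms j) * d j + C1 * ∑ j ∈ l9nFk q τ, d j) := by
    have hterm : ∀ j ∈ Finset.range (N + 2), (K * d j) * T j
        ≤ K * (|C0| * (if j ∈ Finset.range (N + 1) then (ms j - trPm ms j) * d j else 0)
          + C1 * (if j ∈ l9nFk q τ then d j else 0)) := by
      intro j hj
      have hj' := Finset.mem_range.1 hj
      rw [mul_assoc]
      refine mul_le_mul_of_nonneg_left ?_ hK0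
      by_cases hF : j ∈ l9nFk q τ
      · rw [if_pos hF]
        have a1 : d j * T j ≤ C1 * d j := by
          rw [mul_comm]; exact mul_le_mul_of_nonneg_right (hTa j) (hd0 j)
        have a2 : 0 ≤ |C0| * (if j ∈ Finset.range (N + 1) then (ms j - trPm ms j) * d j else 0) := by
          refine mul_nonneg (abs_nonneg _) ?_
          split_ifs with hjr
          · exact mul_nonneg (hμ j (by have := Finset.mem_range.1 hjr; omega)) (hd0 j)
          · exact le_rfl
        linarith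
      · rw [if_neg hF, mul_zero, add_zero]
        have hjN : j ≤ N := by
          by_contra hc
          have : j = N + 1 := by omega
          exact hF (this ▸ htop)
        rw [if_pos (Finset.mem_range.2 (by omega))]
        have := mul_le_mul_of_nonneg_left (hTb j hjN hF) (hd0 j)
        linarith
    refine (Finset.sum_le_sum hterm).trans ?_
    rw [← Finset.mul_sum, Finset.sum_add_distrib, ← Finset.mul_sum, ← Finset.mul_sum]
    refine mul_le_mul_of_nonneg_left (add_le_add ?_ ?_) hK0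
    · refine mul_le_mul_of_nonneg_left (le_of_eq ?_) (abs_nonneg _)
      rw [Finset.sum_ite_mem]
      congr 1
      ext j
      simp only [Finset.mem_inter, Finset.mem_range]
      omega
    · refine mul_le_mul_of_nonneg_left ?_ hC1n
      rw [Finset.sum_ite_mem]
      exact Finset.sum_le_sum_of_subset_of_nonneg Finset.inter_subset_right fun j _ _ => hd0 j
  have hA : 0 ≤ ∑ j ∈ Finset.range (N + 1), (ms j - trPm ms j) * d j :=
    Finset.sum_nonneg fun j hj => mul_nonneg (hμ j (by have := Finset.mem_range.1 hj; omega)) (hd0 j)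
  have hBn : 0 ≤ ∑ j ∈ l9nFk q τ, d j := Finset.sum_nonneg fun j _ => hd0 j
  have h4 : |l9nD B ls q τ z P V| = 1 / 2 * |trSumK ms N 2 q τ Φ₂| := by
    unfold l9nD
    rw [abs_mul, abs_of_pos (by norm_num : (0 : ℝ) < 1 / 2)]
  rw [h4]
  have h5 := (h1.trans h2).trans h3
  have h6 : 0 ≤ |trSumK ms N 2 q τ Φ₂| := abs_nonneg _
  have h7 : K * (|C0| * ∑ j ∈ Finset.range (N + 1), (ms j - trPm ms j) * d j + C1 * ∑ j ∈ l9nFk q τ, d j)
      ≤ (|C0| + C1) * K * (∑ j ∈ Finset.range (N + 1), (ms j - trPm ms j) * d j + ∑ j ∈ l9nFk q τ, d j) := by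
    have b1 : 0 ≤ K * C1 * ∑ j ∈ Finset.range (N + 1), (ms j - trPm ms j) * d j := by positivity
    have b2 : 0 ≤ K * |C0| * ∑ j ∈ l9nFk q τ, d j := by positivity
    nlinarith
  linarith

/-! ## 3. two lists with the same masses -/

/-- admissible list of (mass, coordinate variances), terminal mass `a` -/
def L9nAdm (a : ℝ) (hs : List (ℝ × (ι → ℝ))) : Prop :=
  (hs.map Prod.fst).Pairwise (· ≤ ·) ∧ ∀ h ∈ hs, (0 ≤ h.1 ∧ h.1 ≤ a) ∧ ∀ i, 0 ≤ h.2 i

/-- the affine family between two lists with the same masses -/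
def l9nH (h0 h1 : List (ℝ × (ι → ℝ))) : List (ℝ × (ι → ℝ) × (ι → ℝ)) :=
  List.zipWith (fun x y => (x.1, x.2, fun i => y.2 i - x.2 i)) h0 h1

/-- cumulative kernel after `t` stages -/
def l9nCum (Φ : S → ι → ℝ) (hs : List (ℝ × (ι → ℝ))) (t : ℕ) (s s' : S) : ℝ :=
  ((hs.take t).map fun h => ghKer Φ h.2 s s').sum

theorem l9n_eqns_cite3 : True := by
  have := @L9nAdm.eq_1
  have := @l9nH.eq_1
  have := @l9nCum.eq_1
  trivial

theorem l9nH_length {h0 h1 : List (ℝ × (ι → ℝ))} (hm : h0.map Prod.fst = h1.map Prod.fst) : (l9nH h0 h1).length = h0.length := by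
  have : h0.length = h1.length := by simpa using congrArg List.length hm
  simp [l9nH, this]

theorem l9nH_zero : ∀ {h0 h1 : List (ℝ × (ι → ℝ))}, h0.map Prod.fst = h1.map Prod.fst → gcAff (l9nH h0 h1) 0 = h0
  | [], [], _ => rfl
  | [], _ :: _, hm => by simp at hm
  | _ :: _, [], hm => by simp at hm
  | x :: h0, y :: h1, hm => by
      simp only [List.map_cons, List.cons.injEq] at hm
      have ih := l9nH_zero hm.2
      simp only [l9nH, gcAff, List.zipWith_cons_cons, List.map_cons] at ih ⊢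
      rw [ih]
      simp

theorem l9nH_one : ∀ {h0 h1 : List (ℝ × (ι → ℝ))}, h0.map Prod.fst = h1.map Prod.fst → gcAff (l9nH h0 h1) 1 = h1
  | [], [], _ => rfl
  | [], _ :: _, hm => by simp at hm
  | _ :: _, [], hm => by simp at hm
  | x :: h0, y :: h1, hm => by
      simp only [List.map_cons, List.cons.injEq] at hm
      have ih := l9nH_one hm.2
      simp only [l9nH, gcAff, List.zipWith_cons_cons, List.map_cons] at ih ⊢
      rw [ih]
      congr 1
      refine Prod.ext hm.1 ?_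
      funext i
      simp

theorem l9nH_fst : ∀ {h0 h1 : List (ℝ × (ι → ℝ))}, h0.map Prod.fst = h1.map Prod.fst → (l9nH h0 h1).map Prod.fst = h0.map Prod.fst
  | [], [], _ => rfl
  | [], _ :: _, hm => by simp at hm
  | _ :: _, [], hm => by simp at hm
  | x :: h0, y :: h1, hm => by
      simp only [List.map_cons, List.cons.injEq] at hm
      have ih := l9nH_fst hm.2
      simp only [l9nH, List.zipWith_cons_cons, List.map_cons] at ih ⊢
      rw [ih]

theorem l9nH_mem : ∀ {h0 h1 : List (ℝ × (ι → ℝ))}, h0.map Prod.fst = h1.map Prod.fst → ∀ h ∈ l9nH h0 h1,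
    ∃ x ∈ h0, ∃ y ∈ h1, h = (x.1, x.2, fun i => y.2 i - x.2 i)
  | [], [], _ => by intro h hh; simp [l9nH] at hh
  | [], _ :: _, hm => by simp at hm
  | _ :: _, [], hm => by simp at hm
  | x :: h0, y :: h1, hm => by
      intro h hh
      simp only [List.map_cons, List.cons.injEq] at hm
      simp only [l9nH, List.zipWith_cons_cons, List.mem_cons] at hh
      rcases hh with rfl | hh
      · exact ⟨x, List.mem_cons_self, y, List.mem_cons_self, rfl⟩
      · obtain ⟨x', hx', y', hy', e⟩ := l9nH_mem hm.2 h hh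
        exact ⟨x', List.mem_cons_of_mem _ hx', y', List.mem_cons_of_mem _ hy', e⟩

theorem l9nH_adm {a : ℝ} {h0 h1 : List (ℝ × (ι → ℝ))} (hm : h0.map Prod.fst = h1.map Prod.fst) (ha0 : L9nAdm a h0) (ha1 : L9nAdm a h1) :
    GcAffAdm a (l9nH h0 h1) := by
  refine ⟨by rw [l9nH_fst hm]; exact ha0.1, fun h hh => ?_⟩
  obtain ⟨x, hx, y, hy, rfl⟩ := l9nH_mem hm h hh
  refine ⟨(ha0.2 x hx).1, fun i => ⟨(ha0.2 x hx).2 i, ?_⟩⟩
  have := (ha1.2 y hy).2 i
  simpa using this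

theorem l9n_ker_sub (Φ : S → ι → ℝ) (c c' : ι → ℝ) (s t : S) :
    ghKer Φ (fun i => c' i - c i) s t = ghKer Φ c' s t - ghKer Φ c s t := by
  unfold ghKer
  rw [← Finset.sum_sub_distrib]
  exact Finset.sum_congr rfl fun i _ => by ring

theorem l9nH_trV (Φ : S → ι → ℝ) (s s' : S) : ∀ {h0 h1 : List (ℝ × (ι → ℝ))}, h0.map Prod.fst = h1.map Prod.fst → ∀ t : ℕ,
    trV (gcDK (brgFeat Φ) (l9nH h0 h1)) (l9nH h0 h1).length t s s' = l9nCum Φ h1 t s s' - l9nCum Φ h0 t s s'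
  | [], [], _, t => by simp [trV, l9nCum, l9nH]
  | [], _ :: _, hm, _ => by simp at hm
  | _ :: _, [], hm, _ => by simp at hm
  | x :: h0, y :: h1, hm, 0 => by simp [trV, l9nCum]
  | x :: h0, y :: h1, hm, t + 1 => by
      simp only [List.map_cons, List.cons.injEq] at hm
      have ih := l9nH_trV Φ s s' hm.2 t
      unfold trV l9nCum at ih ⊢
      simp only [l9nH, List.zipWith_cons_cons, List.length_cons, List.take_succ_cons, List.map_cons, List.sum_cons] at ih ⊢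
      rw [Nat.add_min_add_right, Finset.sum_range_succ']
      simp only [brg_e_DK_zero, brg_e_DK_succ]
      rw [ih, l9n_ker_sub]
      ring

theorem l9n_adm {B : GhB S} (Φ : S → ι → ℝ) {hs : List (ℝ × (ι → ℝ))} (h : L9nAdm B.a hs) : GhAdm B 0 (brgLs Φ hs) := by
  refine ⟨?_, ?_⟩
  · have := h.1
    rw [List.pairwise_map] at this
    unfold brgLs
    rw [List.pairwise_map]
    exact this
  · intro l hl
    unfold brgLs at hl
    obtain ⟨x, hx, rfl⟩ := List.mem_map.1 hl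
    exact (h.2 x hx).1

/-- **ENGINE-2, two lists**: same features, same masses, different coordinate variances -/
theorem l9n_two {B : GhB S} (hB : B.Ok) (Φ : S → ι → ℝ) {h0 h1 : List (ℝ × (ι → ℝ))} (hm : h0.map Prod.fst = h1.map Prod.fst)
    (ha0 : L9nAdm B.a h0) (ha1 : L9nAdm B.a h1) {q : ℕ} {τ : ℕ → ℕ → ℕ} (hτ : IsTr h0.length q τ) (z : S → ℝ) (P : (ℕ → S) → ℝ)
    (hP : TrUses q P) (M K : ℝ) (hM : ∀ t s s', |l9nCum Φ h1 t s s' - l9nCum Φ h0 t s s'| ≤ M) (hK : ∀ σ, |P σ| ≤ K) :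
    |trNu B (brgLs Φ h1) q τ z P - trNu B (brgLs Φ h0) q τ z P
        - l9nD B (brgLs Φ h0) q τ z P (fun t s s' => l9nCum Φ h1 t s s' - l9nCum Φ h0 t s s')|
      ≤ 4 * B.a ^ 4 * (∏ i ∈ Finset.range 4, ((q : ℝ) + i)) * M ^ 2 * K := by
  have h := l9n_aff hB Φ (l9nH_adm hm ha0 ha1) (q := q) (τ := τ) (by rw [l9nH_length hm]; exact hτ) z P hP M K
    (fun t s s' => by rw [l9nH_trV Φ s s' hm t]; exact hM t s s') hK
  rw [l9nH_zero hm, l9nH_one hm] at h
  have e : trV (gcDK (brgFeat Φ) (l9nH h0 h1)) (l9nH h0 h1).length = fun t s s' => l9nCum Φ h1 t s s' - l9nCum Φ h0 t s s' := by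
    funext t s s'
    exact l9nH_trV Φ s s' hm t
  rw [e] at h
  exact h

/-! ## 4. (M) at one table -/

/-- **(M-τ)**: second order Taylor defect of a tree number between two lists, in a direction `V'` (the derivative of the cumulative kernels), signed step `h`.
`M` = sup distance of the cumulative kernels, `d t` = size of their Taylor defect after `t` stages. -/
theorem l9n_Mtau (q : ℕ) (a : ℝ) : ∃ C : ℝ, 0 ≤ C ∧ ∀ (S ι : Type) [Fintype S] [Fintype ι] [Inhabited S] (B : GhB S), B.Ok → B.a ≤ a →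
    ∀ (Φ : S → ι → ℝ) (h0 h1 : List (ℝ × (ι → ℝ))), h0.map Prod.fst = h1.map Prod.fst → L9nAdm B.a h0 → L9nAdm B.a h1 →
    ∀ (τ : ℕ → ℕ → ℕ), IsTr h0.length q τ → ∀ (z : S → ℝ) (P : (ℕ → S) → ℝ), TrUses q P → ∀ K : ℝ, (∀ σ, |P σ| ≤ K) →
    ∀ (V' : ℕ → S → S → ℝ) (h M : ℝ) (d : ℕ → ℝ), (∀ t s s', |l9nCum Φ h1 t s s' - l9nCum Φ h0 t s s'| ≤ M) →
      (∀ t s s', |l9nCum Φ h1 t s s' - l9nCum Φ h0 t s s' - h * V' t s s'| ≤ d t) →
      |trNu B (brgLs Φ h1) q τ z P - trNu B (brgLs Φ h0) q τ z P - h * l9nD B (brgLs Φ h0) q τ z P V'|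
        ≤ C * K * (M ^ 2 + ∑ j ∈ Finset.range (h0.length + 1),
            (trMs B (brgLs Φ h0) j - trPm (trMs B (brgLs Φ h0)) j) * d j + ∑ j ∈ l9nFk q τ, d j) := by
  obtain ⟨C0, hC0, hsc⟩ := l9n_scdot q a
  set C1 : ℝ := 4 * |a| ^ 4 * (∏ i ∈ Finset.range 4, ((q : ℝ) + i)) with hC1
  have hC1n : 0 ≤ C1 := by positivity
  refine ⟨C0 + C1, by positivity, ?_⟩
  intro S ι _ _ _ B hB ha Φ h0 h1 hm ha0 ha1 τ hτ z P hP K hK V' h M d hM hd
  have hK0 : 0 ≤ K := (abs_nonneg _).trans (hK fun _ => default)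
  have hd0 : ∀ t, 0 ≤ d t := fun t => (abs_nonneg _).trans (hd t default default)
  have hadm := l9n_adm (B := B) Φ ha0
  have hlen : (brgLs Φ h0).length = h0.length := by simp [brgLs]
  obtain ⟨hms, -⟩ := tr_ms_isMs hB hadm
  have k1 := l9n_two hB Φ hm ha0 ha1 hτ z P hP M K hM hK
  have k2 := hsc S ι B hB ha (brgLs Φ h0) hadm τ (by rw [hlen]; exact hτ) z P K hK
    (fun t s s' => l9nCum Φ h1 t s s' - l9nCum Φ h0 t s s' - h * V' t s s') d hd
  rw [hlen] at k2
  have e1 := l9nD_sub hB hadm q τ z P (fun t s s' => l9nCum Φ h1 t s s' - l9nCum Φ h0 t s s') (fun t s s' => h * V' t s s')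
  rw [l9nD_smul hB hadm] at e1
  rw [e1] at k2
  set A := ∑ j ∈ Finset.range (h0.length + 1), (trMs B (brgLs Φ h0) j - trPm (trMs B (brgLs Φ h0)) j) * d j with hA
  set Fs := ∑ j ∈ l9nFk q τ, d j with hFs
  have hA0 : 0 ≤ A := Finset.sum_nonneg fun j hj => mul_nonneg
    (sub_nonneg.2 (tra2_pm_le hms (by rw [hlen]; have := Finset.mem_range.1 hj; omega))) (hd0 j)
  have hF0 : 0 ≤ Fs := Finset.sum_nonneg fun j _ => hd0 j
  have k3 : 4 * B.a ^ 4 * (∏ i ∈ Finset.range 4, ((q : ℝ) + i)) * M ^ 2 * K ≤ C1 * M ^ 2 * K := by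
    have h4 : B.a ^ 4 ≤ |a| ^ 4 := by
      have h5 : B.a ≤ |a| := ha.trans (le_abs_self a)
      have h6 := hB.pos
      gcongr
    have h7 : 0 ≤ (∏ i ∈ Finset.range 4, ((q : ℝ) + i)) * M ^ 2 * K := by positivity
    rw [hC1]
    nlinarith
  set D1 := l9nD B (brgLs Φ h0) q τ z P (fun t s s' => l9nCum Φ h1 t s s' - l9nCum Φ h0 t s s') with hD1
  set D2 := l9nD B (brgLs Φ h0) q τ z P V' with hD2
  set f1 := trNu B (brgLs Φ h1) q τ z P
  set f0 := trNu B (brgLs Φ h0) q τ z P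
  have k4 : |f1 - f0 - h * D2| ≤ |f1 - f0 - D1| + |D1 - h * D2| := by
    have : f1 - f0 - h * D2 = (f1 - f0 - D1) + (D1 - h * D2) := by ring
    rw [this]; exact abs_add_le _ _
  have k5 : C1 * M ^ 2 * K + C0 * K * (A + Fs) ≤ (C0 + C1) * K * (M ^ 2 + A + Fs) := by
    have b1 : 0 ≤ C0 * K * M ^ 2 := by positivity
    have b2 : 0 ≤ C1 * K * (A + Fs) := by positivity
    nlinarith
  linarith

/-! ## 5. differentiability along a path of lists -/

theorem l9nCum_top (Φ : S → ι → ℝ) (hs : List (ℝ × (ι → ℝ))) {t : ℕ} (ht : hs.length ≤ t) (s s' : S) :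
    l9nCum Φ hs t s s' = l9nCum Φ hs hs.length s s' := by
  unfold l9nCum
  rw [List.take_of_length_le ht, List.take_length]

open Filter Topology Asymptotics in
/-- **a tree number is differentiable along every path of coordinate variances** (fixed masses): the derivative is the functional `l9nD` at the derivative of the cumulative kernels.
(E1X of 65: differentiability of the scalar moments `nuK` in the path parameter.) -/
theorem l9n_path_hasDerivAt {B : GhB S} (hB : B.Ok) (Φ : S → ι → ℝ) (hs : ℝ → List (ℝ × (ι → ℝ))) (t₀ : ℝ)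
    (hm : ∀ᶠ x in 𝓝 t₀, (hs t₀).map Prod.fst = (hs x).map Prod.fst) (ha : ∀ᶠ x in 𝓝 t₀, L9nAdm B.a (hs x))
    {q : ℕ} {τ : ℕ → ℕ → ℕ} (hτ : IsTr (hs t₀).length q τ) (z : S → ℝ) (P : (ℕ → S) → ℝ) (hP : TrUses q P) (K : ℝ) (hK : ∀ σ, |P σ| ≤ K)
    (V' : ℕ → S → S → ℝ) (hV : ∀ t s s', HasDerivAt (fun x => l9nCum Φ (hs x) t s s') (V' t s s') t₀) :
    HasDerivAt (fun x => trNu B (brgLs Φ (hs x)) q τ z P) (l9nD B (brgLs Φ (hs t₀)) q τ z P V') t₀ := by
  have ha0 : L9nAdm B.a (hs t₀) := ha.self_of_nhds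
  have hadm := l9n_adm (B := B) Φ ha0
  have hlen : (brgLs Φ (hs t₀)).length = (hs t₀).length := by simp [brgLs]
  set N := (hs t₀).length with hN
  -- the linear part
  set g : ℝ → ℝ := fun x => l9nD B (brgLs Φ (hs t₀)) q τ z P (fun t s s' => l9nCum Φ (hs x) t s s' - l9nCum Φ (hs t₀) t s s') with hg
  have hgd : HasDerivAt g (l9nD B (brgLs Φ (hs t₀)) q τ z P V') t₀ :=
    l9nD_hasDerivAt hB hadm (by rw [hlen]; exact hτ) z P
      (fun x t s s' => l9nCum Φ (hs x) t s s' - l9nCum Φ (hs t₀) t s s') V' t₀ (fun t s s' => (hV t s s').sub_const _)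
  -- the size of the increment of the kernels
  set Mx : ℝ → ℝ := fun x => ∑ t ∈ Finset.range (N + 1), ∑ s : S, ∑ s' : S, |l9nCum Φ (hs x) t s s' - l9nCum Φ (hs t₀) t s s'| with hMx
  have hMO : Mx =O[𝓝 t₀] fun x => x - t₀ := by
    have h0 : ∀ t s s', (fun x => |l9nCum Φ (hs x) t s s' - l9nCum Φ (hs t₀) t s s'|) =O[𝓝 t₀] fun x => x - t₀ :=
      fun t s s' => ((hV t s s').isBigO_sub).abs_left
    have h1 : ∀ t s, (fun x => ∑ s' : S, |l9nCum Φ (hs x) t s s' - l9nCum Φ (hs t₀) t s s'|) =O[𝓝 t₀] fun x => x - t₀ :=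
      fun t s => IsBigO.fun_sum fun s' _ => h0 t s s'
    have h2 : ∀ t, (fun x => ∑ s : S, ∑ s' : S, |l9nCum Φ (hs x) t s s' - l9nCum Φ (hs t₀) t s s'|) =O[𝓝 t₀] fun x => x - t₀ :=
      fun t => IsBigO.fun_sum fun s _ => h1 t s
    exact IsBigO.fun_sum fun t _ => h2 t
  have hMle : ∀ᶠ x in 𝓝 t₀, ∀ t s s', |l9nCum Φ (hs x) t s s' - l9nCum Φ (hs t₀) t s s'| ≤ Mx x := by
    filter_upwards [hm] with x hx t s s'
    have hl : (hs x).length = N := by
      have := congrArg List.length hx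
      simpa using this.symm
    have key : ∀ t', t' ∈ Finset.range (N + 1) → |l9nCum Φ (hs x) t' s s' - l9nCum Φ (hs t₀) t' s s'| ≤ Mx x := by
      intro t' ht'
      have h1 : |l9nCum Φ (hs x) t' s s' - l9nCum Φ (hs t₀) t' s s'|
          ≤ ∑ s'' : S, |l9nCum Φ (hs x) t' s s'' - l9nCum Φ (hs t₀) t' s s''| :=
        Finset.single_le_sum (f := fun s'' => |l9nCum Φ (hs x) t' s s'' - l9nCum Φ (hs t₀) t' s s''|)
          (fun _ _ => abs_nonneg _) (Finset.mem_univ s')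
      have h2 : ∑ s'' : S, |l9nCum Φ (hs x) t' s s'' - l9nCum Φ (hs t₀) t' s s''|
          ≤ ∑ r : S, ∑ s'' : S, |l9nCum Φ (hs x) t' r s'' - l9nCum Φ (hs t₀) t' r s''| :=
        Finset.single_le_sum (f := fun r => ∑ s'' : S, |l9nCum Φ (hs x) t' r s'' - l9nCum Φ (hs t₀) t' r s''|)
          (fun _ _ => Finset.sum_nonneg fun _ _ => abs_nonneg _) (Finset.mem_univ s)
      have h3 : ∑ r : S, ∑ s'' : S, |l9nCum Φ (hs x) t' r s'' - l9nCum Φ (hs t₀) t' r s''| ≤ Mx x :=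
        Finset.single_le_sum (f := fun t'' => ∑ r : S, ∑ s'' : S, |l9nCum Φ (hs x) t'' r s'' - l9nCum Φ (hs t₀) t'' r s''|)
          (fun _ _ => Finset.sum_nonneg fun _ _ => Finset.sum_nonneg fun _ _ => abs_nonneg _) ht'
      exact h1.trans (h2.trans h3)
    rcases le_or_gt t N with ht | ht
    · exact key t (Finset.mem_range.2 (by omega))
    · rw [l9nCum_top Φ (hs x) (by omega), l9nCum_top Φ (hs t₀) (t := t) (by omega), hl]
      exact key N (Finset.mem_range.2 (by omega))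
  -- the remainder
  set r : ℝ → ℝ := fun x => trNu B (brgLs Φ (hs x)) q τ z P - trNu B (brgLs Φ (hs t₀)) q τ z P - g x with hr
  set C : ℝ := 4 * B.a ^ 4 * (∏ i ∈ Finset.range 4, ((q : ℝ) + i)) * K with hC
  have hrb : ∀ᶠ x in 𝓝 t₀, |r x| ≤ C * Mx x ^ 2 := by
    filter_upwards [hm, ha, hMle] with x hx hax hMx'
    have := l9n_two hB Φ hx ha0 hax hτ z P hP (Mx x) K hMx' hK
    refine this.trans (le_of_eq ?_)
    rw [hC]; ring
  have hM0 : Mx t₀ = 0 := by simp [hMx]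
  have hr0 : r t₀ = 0 := by
    have := hrb.self_of_nhds
    rw [hM0] at this
    simpa using this
  have hrO : r =O[𝓝 t₀] fun x => Mx x ^ 2 := by
    refine IsBigO.of_bound C ?_
    filter_upwards [hrb] with x hx
    rw [Real.norm_eq_abs, Real.norm_eq_abs, abs_of_nonneg (sq_nonneg (Mx x))]
    exact hx
  have hrd : HasDerivAt r 0 t₀ := by
    rw [hasDerivAt_iff_isLittleO]
    have h1 : (fun x => Mx x ^ 2) =O[𝓝 t₀] fun x => (x - t₀) ^ 2 := hMO.pow 2
    have h2 : (fun x : ℝ => (x - t₀) ^ 2) =o[𝓝 t₀] fun x => x - t₀ := by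
      have := isLittleO_pow_sub_sub (E' := ℝ) t₀ (m := 2) (by norm_num)
      refine this.congr_left fun x => ?_
      rw [Real.norm_eq_abs, sq_abs]
    have h3 := (hrO.trans h1).trans_isLittleO h2
    refine h3.congr_left fun x => ?_
    rw [hr0]; simp
  have hfin := (hgd.add hrd).const_add (trNu B (brgLs Φ (hs t₀)) q τ z P)
  rw [add_zero] at hfin
  refine hfin.congr_of_eventuallyEq (Eventually.of_forall fun x => ?_)
  simp only [hr, Pi.add_apply]
  ring

end Claimed.Agent.R286
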