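import Claimed.Agent.R286.L02.RowI
import Claimed.Agent.R286.L09.ChDPsi

/-!
# Row 286 (S0533), unit L09, node REG, LEAF Q : the dotted reference overlap of a chain      (owner helper151; prefix `l9q_`, `l9q`)

`I.dot` (`L09/Contract.lean`) contains `|deriv qC j|`, and `qC j = llQs a P j` is a TREE NUMBER of the one-site scalar model with the `K`-values of the chain (it is NOT the sampled path clock `p.q`).
Derivative: `ll2_ri_dq` of 73 (`L02/RowI.lean`): `q̇_t = ½ ∑_{two attachments} 1{τ'(2,3) ≤ N} K̇(τ'(2,3)) ν_K[σ0 σ1 σ2 σ3]`.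
HERE: the total variation of the two attachments against a function of the split of the two new labels is a MASS INTEGRAL plus point masses at the splits of the old tree.
* `l9q_abs_pair`  : one attachment, `g(τ'(y, new))`:   `≤ ∑_j gap_j g(j) + (2q+1) a ∑_{x<q} g(τ(y,x))`
* `l9q_absK_pair` : two attachments, `g(τ'(new, new'))`:   `≤ (2q+5) q a ∑_j gap_j g(j) + (2q+3)(2q+1) a² ∑_{x,x'<q} g(τ(x,x'))`       (any tree on `q` labels)
* `l9q_Qd_abs`    : `|q̇_t| ≤ 9 a ∫|K̇| + 35 a² |K̇_t|`;      **`l9q_Qd_sum`** : `∫|q̇| ≤ 44 a² ∫|K̇|`      (`∫` = `∑_{j ≤ N} skGap a (llMat P) j * ·`; NO dependence on the chain)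
* `l9qPd`, **`l9q_fam`** : `LlFam a U t0 P (l9qPd ..)` from the derivatives of the cumulative clocks (fixed masses, admissible on `U`): the hypothesis of (A9) (`L02RowDeriv`), of `ll2_ri_*`, of `l9s_core`
* `l9q_fam_q`     : LEAF Q on a family of fine paths, in terms of `deriv`
* `l9q_stp_adm`, `l9q_I_adm` : `LlStpAdm` of the fine path of a chain from `GhClk1` of `b, h, K`
* **`l9q_I_q`**, **`l9q_I_dot_le`** : at a point of `I.Dif`: `qC j` differentiable, `∑ gap |q̇C| ≤ 44 a² ∑ gap |K̇C|`, `I.dot ≤ (1 + 44 a²) ∑ gap (|ḃC| + |ḣC| + |K̇C|)`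
0 sorry.
-/

set_option autoImplicit false

namespace Claimed.Agent.R286

open scoped BigOperators Topology
open Filter

/-! ### total variation of attachments against a function of one split -/

theorem l9q_att_new {N q : ℕ} {τ : ℕ → ℕ → ℕ} {x j y : ℕ} (hy : y < q) : trAtt N q τ x j y q = min j (τ y x) := by
  unfold trAtt
  rw [if_neg (by omega), if_pos rfl]

/-- number of occupied children `≤ 1 +` number of the leaves which leave `y` at the depth `j` -/
theorem l9q_deg_le {N q : ℕ} {τ : ℕ → ℕ → ℕ} (hτ : IsTr N q τ) {y j : ℕ} (hy : y < q) (hj : j ≤ N) :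
    trDeg q τ j y ≤ 1 + ((Finset.range q).filter fun x => τ y x = j).card := by
  rw [tra2_deg_eq_card]
  have hsub : tra2Ch q τ j y ⊆ insert (tra2Rp τ (j + 1) y) ((Finset.range q).filter fun x => τ y x = j) := by
    intro x hx
    simp only [tra2Ch, Finset.mem_filter, Finset.mem_range] at hx
    rw [Finset.mem_insert]
    rcases Nat.lt_or_ge j (τ y x) with h | h
    · left
      exact (tra2_rp_eq hτ hy hx.1 (by omega) (by rw [hτ.symm x y hx.1 hy]; omega) hx.2.2).symm
    · right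
      simp only [Finset.mem_filter, Finset.mem_range]
      exact ⟨hx.1, by omega⟩
  refine (Finset.card_le_card hsub).trans ((Finset.card_insert_le _ _).trans ?_)
  omega

/-- **one attachment, a function of the split from the old label `y`**: a mass integral + point masses at the splits of `y` in the old tree -/
theorem l9q_abs_pair {N q : ℕ} {τ : ℕ → ℕ → ℕ} {ms : ℕ → ℝ} (hτ : IsTr N q τ) (hms : IsMs N ms) {y : ℕ} (hy : y < q)
    (g : ℕ → ℝ) (hg : ∀ t, 0 ≤ g t) :
    trAbs ms N q τ (fun τ' => g (τ' y q)) ≤ ∑ j ∈ Finset.range (N + 1), (ms j - trPm ms j) * g j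
      + (2 * q + 1) * ms N * ∑ x ∈ Finset.range q, g (τ y x) := by
  have hN := hms.nonneg N
  unfold trAbs
  simp only [l9q_att_new hy]
  -- split
  have h1 : ∀ x ∈ Finset.range q, ∀ j ∈ Finset.range (N + 2), |trWt ms N q τ x j| * g (min j (τ y x))
      ≤ (if j ≤ τ y x then |trWt ms N q τ x j| * g j else 0) + |trWt ms N q τ x j| * g (τ y x) := by
    intro x _ j _
    have h0 := mul_nonneg (abs_nonneg (trWt ms N q τ x j)) (hg (τ y x))
    have h0' := mul_nonneg (abs_nonneg (trWt ms N q τ x j)) (hg j)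
    split_ifs with h
    · rw [min_eq_left h]; linarith
    · rw [min_eq_right (by omega)]; linarith
  refine (Finset.sum_le_sum fun x hx => Finset.sum_le_sum fun j hj => h1 x hx j hj).trans ?_
  simp only [Finset.sum_add_distrib]
  -- part B
  have hB : ∑ x ∈ Finset.range q, ∑ j ∈ Finset.range (N + 2), |trWt ms N q τ x j| * g (τ y x)
      ≤ 2 * q * ms N * ∑ x ∈ Finset.range q, g (τ y x) := by
    rw [Finset.mul_sum]
    refine Finset.sum_le_sum fun x hx => ?_
    rw [← Finset.sum_mul]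
    refine mul_le_mul_of_nonneg_right ?_ (hg _)
    have h2 := Finset.single_le_sum (f := fun x => ∑ j ∈ Finset.range (N + 2), |trWt ms N q τ x j|)
      (fun i _ => Finset.sum_nonneg fun j _ => abs_nonneg _) hx
    refine h2.trans ((tra2_abs_total hτ hms).trans (le_of_eq ?_))
    ring
  -- part A
  have hA : ∑ x ∈ Finset.range q, ∑ j ∈ Finset.range (N + 2), (if j ≤ τ y x then |trWt ms N q τ x j| * g j else 0)
      ≤ ∑ j ∈ Finset.range (N + 1), (ms j - trPm ms j) * g j + ms N * ∑ x ∈ Finset.range q, g (τ y x) := by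
    rw [Finset.sum_comm]
    have h3 : ∀ j ∈ Finset.range (N + 2), ∑ x ∈ Finset.range q, (if j ≤ τ y x then |trWt ms N q τ x j| * g j else 0)
        = |if j = N + 1 then ms N else trPm ms j - trDeg q τ j y * ms j| * g j := by
      intro j hj
      rw [Finset.mem_range] at hj
      rw [← Finset.sum_filter]
      have h4 := tra2_bl_sum_min hτ hy (show j ≤ N + 1 by omega)
        (fun x => |if j = N + 1 then ms N else trPm ms j - trDeg q τ j x * ms j| * g j)
      obtain ⟨a1, a2, a3⟩ := tra2_rp_spec hτ hy (show j ≤ N + 1 by omega)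
      rw [← tra2_deg_congr hτ hy (lt_of_le_of_lt a1 hy) a2] at h4
      rw [← h4]
      unfold tra2Bl
      refine Finset.sum_congr rfl fun x _ => ?_
      unfold trWt
      split_ifs <;> simp
    rw [Finset.sum_congr rfl h3]
    have h5 : ∀ j ∈ Finset.range (N + 2), |if j = N + 1 then ms N else trPm ms j - trDeg q τ j y * ms j| * g j
        ≤ (if j = N + 1 then 0 else (ms j - trPm ms j) * g j)
          + ms N * ∑ x ∈ (Finset.range q).filter (fun x => τ y x = j), g (τ y x) := by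
      intro j hj
      rw [Finset.mem_range] at hj
      have h6 : ∑ x ∈ (Finset.range q).filter (fun x => τ y x = j), g (τ y x)
          = (((Finset.range q).filter fun x => τ y x = j).card : ℝ) * g j := by
        rw [Finset.sum_congr rfl (g := fun _ => g j) (fun x hx => by rw [(Finset.mem_filter.1 hx).2]), Finset.sum_const,
          nsmul_eq_mul]
      rw [h6]
      split_ifs with h
      · subst h
        rw [abs_of_nonneg hN, zero_add, ← mul_assoc]
        refine mul_le_mul_of_nonneg_right ?_ (hg _)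
        have : (1 : ℝ) ≤ (((Finset.range q).filter fun x => τ y x = N + 1).card : ℝ) := by
          have : 0 < ((Finset.range q).filter fun x => τ y x = N + 1).card :=
            Finset.card_pos.mpr ⟨y, by simp [hy, hτ.diag y hy]⟩
          exact_mod_cast this
        nlinarith
      · have hjN : j ≤ N := by omega
        have d1 : (1 : ℝ) ≤ trDeg q τ j y := by exact_mod_cast tra2_deg_pos hτ hy hjN
        have d2 : (trDeg q τ j y : ℝ) ≤ 1 + (((Finset.range q).filter fun x => τ y x = j).card : ℝ) := by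
          exact_mod_cast l9q_deg_le hτ hy hjN
        have p1 := tra2_pm_le hms hjN
        have p2 := hms.nonneg j
        have p3 := hms.mono j N hjN le_rfl
        rw [abs_of_nonpos (by nlinarith), ← mul_assoc, ← add_mul]
        refine mul_le_mul_of_nonneg_right ?_ (hg _)
        have c0 : (0 : ℝ) ≤ (((Finset.range q).filter fun x => τ y x = j).card : ℝ) := Nat.cast_nonneg _
        nlinarith
    refine (Finset.sum_le_sum h5).trans ?_
    rw [Finset.sum_add_distrib, ← Finset.mul_sum, Finset.sum_range_succ _ (N + 1), if_pos rfl, add_zero]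
    refine add_le_add (le_of_eq ?_) (le_of_eq ?_)
    · refine Finset.sum_congr rfl fun j hj => ?_
      rw [Finset.mem_range] at hj
      rw [if_neg (by omega)]
    · congr 1
      exact Finset.sum_fiberwise_of_maps_to (fun x hx => by
        rw [Finset.mem_range] at hx ⊢
        have := hτ.le y x hy hx
        omega) _
  calc _ ≤ (∑ j ∈ Finset.range (N + 1), (ms j - trPm ms j) * g j + ms N * ∑ x ∈ Finset.range q, g (τ y x))
        + 2 * q * ms N * ∑ x ∈ Finset.range q, g (τ y x) := add_le_add hA hB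
    _ = _ := by ring

/-- **two attachments, a function of the split of the two new labels** -/
theorem l9q_absK_pair {N q : ℕ} {τ : ℕ → ℕ → ℕ} {ms : ℕ → ℝ} (hτ : IsTr N q τ) (hms : IsMs N ms)
    (g : ℕ → ℝ) (hg : ∀ t, 0 ≤ g t) (hgt : g (N + 1) = 0) :
    trAbsK ms N 2 q τ (fun τ' => g (τ' q (q + 1)))
      ≤ (2 * q + 5) * q * ms N * (∑ j ∈ Finset.range (N + 1), (ms j - trPm ms j) * g j)
        + (2 * q + 3) * (2 * q + 1) * ms N ^ 2 * ∑ x ∈ Finset.range q, ∑ x' ∈ Finset.range q, g (τ x x') := by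
  have hN := hms.nonneg N
  set S : ℝ := ∑ j ∈ Finset.range (N + 1), (ms j - trPm ms j) * g j with hS
  have hS0 : 0 ≤ S := Finset.sum_nonneg fun j hj => by
    rw [Finset.mem_range] at hj
    exact mul_nonneg (sub_nonneg.2 (tra2_pm_le hms (by omega))) (hg j)
  have e1 : trAbsK ms N 2 q τ (fun τ' => g (τ' q (q + 1)))
      = trAbsK ms N 1 q τ fun τ1 => trAbs ms N (q + 1) τ1 fun τ' => g (τ' q (q + 1)) := by
    simp only [trAbsK]
  rw [e1]
  have e2 := tr_absK_mono (ms := ms) hτ 1 (fun τ1 => trAbs ms N (q + 1) τ1 fun τ' => g (τ' q (q + 1)))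
    (fun τ1 => S + (2 * q + 3) * ms N * ∑ x ∈ Finset.range q, g (τ1 x q)) (fun τ1 h1 => by
      have h2 := l9q_abs_pair h1 hms (show q < q + 1 by omega) g hg
      refine h2.trans (le_of_eq ?_)
      rw [Finset.sum_range_succ (fun x => g (τ1 q x)) q, h1.diag q (by omega), hgt, add_zero]
      have h3 : ∑ x ∈ Finset.range q, g (τ1 q x) = ∑ x ∈ Finset.range q, g (τ1 x q) :=
        Finset.sum_congr rfl fun x hx => by
          rw [Finset.mem_range] at hx
          rw [h1.symm q x (by omega) (by omega)]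
      rw [h3]
      push_cast
      ring)
  refine e2.trans ?_
  simp only [trAbsK]
  have e3 : trAbs ms N q τ (fun τ1 => S + (2 * q + 3) * ms N * ∑ x ∈ Finset.range q, g (τ1 x q))
      = (∑ x ∈ Finset.range q, ∑ j ∈ Finset.range (N + 2), |trWt ms N q τ x j|) * S
        + (2 * q + 3) * ms N * ∑ y ∈ Finset.range q, trAbs ms N q τ (fun τ1 => g (τ1 y q)) := by
    unfold trAbs
    simp only [mul_add, Finset.sum_add_distrib, Finset.sum_mul, Finset.mul_sum]
    congr 1
    conv_rhs => rw [Finset.sum_comm]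
    refine Finset.sum_congr rfl fun x _ => ?_
    conv_rhs => rw [Finset.sum_comm]
    refine Finset.sum_congr rfl fun j _ => Finset.sum_congr rfl fun y _ => ?_
    ring
  rw [e3]
  have e4 : ∑ y ∈ Finset.range q, trAbs ms N q τ (fun τ1 => g (τ1 y q))
      ≤ ∑ y ∈ Finset.range q, (S + (2 * q + 1) * ms N * ∑ x ∈ Finset.range q, g (τ y x)) :=
    Finset.sum_le_sum fun y hy => l9q_abs_pair hτ hms (Finset.mem_range.1 hy) g hg
  rw [Finset.sum_add_distrib, Finset.sum_const, Finset.card_range, nsmul_eq_mul, ← Finset.mul_sum] at e4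
  have e5 := mul_le_mul_of_nonneg_right (tra2_abs_total hτ hms) hS0
  have e6 := mul_le_mul_of_nonneg_left e4 (show 0 ≤ (2 * (q : ℝ) + 3) * ms N by positivity)
  calc _ ≤ 2 * ms N * q * S + (2 * (q : ℝ) + 3) * ms N
        * (q * S + (2 * q + 1) * ms N * ∑ y ∈ Finset.range q, ∑ x ∈ Finset.range q, g (τ y x)) := add_le_add e5 e6
    _ = _ := by ring

/-! ### the derivative of the reference overlap -/

theorem l9q_ms_eq (a : ℝ) (P : LlStp) (j : ℕ) : llMs a P j = skMs a (llMat P) j := by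
  unfold llMs skMs llMat
  rw [List.map_map, List.getD_eq_getElem?_getD]
  rfl

theorem l9q_gap_eq (a : ℝ) (P : LlStp) (j : ℕ) : llMs a P j - trPm (llMs a P) j = skGap a (llMat P) j := by
  unfold skGap trPm
  simp only [l9q_ms_eq]

theorem l9q_ms_top (a : ℝ) (P : LlStp) : llMs a P P.length = a := by
  unfold llMs
  simp

theorem l9q_tele (ms : ℕ → ℝ) (n : ℕ) : ∑ t ∈ Finset.range (n + 1), (ms t - trPm ms t) = ms n := by
  induction n with
  | zero => simp [trPm]
  | succ n ih => rw [Finset.sum_range_succ, ih, tra2_pm_succ]; ring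

theorem l9q_gap_sum (a : ℝ) (P : LlStp) : ∑ t ∈ Finset.range (P.length + 1), skGap a (llMat P) t = a := by
  simp only [← l9q_gap_eq]
  rw [l9q_tele, l9q_ms_top]

theorem l9q_nuS_abs_le {a : ℝ} (ha : 0 < a) {P : LlStp} (hP : LlStpAdm a P) (q : ℕ) (τ : ℕ → ℕ → ℕ) {T : (ℕ → Bool) → ℝ} {K : ℝ}
    (h : ∀ s, |T s| ≤ K) : |llNuS a P q τ T| ≤ K :=
  tcb_nu_abs_le (ll2_law_base_ok 1 ha) (ll2_law_adm 1 hP.2) q τ 0 fun _ => h _

theorem l9q_abs_sp (b : Bool) : |jtSp b| = 1 := by
  unfold jtSp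
  split_ifs <;> simp

/-- the mass integral of `|K̇|` on the chain -/
noncomputable def l9qKI (a : ℝ) (P Pd : LlStp) : ℝ := ∑ j ∈ Finset.range (P.length + 1), skGap a (llMat P) j * |llCumK Pd j|

/-- **LEAF Q, pointwise**: `|q̇_t| ≤ 9 a ∫|K̇| + 35 a² |K̇_t|` -/
theorem l9q_Qd_abs {a : ℝ} (ha : 0 < a) {P : LlStp} (hP : LlStpAdm a P) (Pd : LlStp) {t : ℕ} (ht : t ≤ P.length) :
    |ll2Qd a P Pd t| ≤ 9 * a * l9qKI a P Pd + 35 * a ^ 2 * |llCumK Pd t| := by
  have hms := ll2_law_isMs ha.le hP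
  set N := P.length with hN
  set g : ℕ → ℝ := fun s => if s ≤ N then |llCumK Pd s| else 0 with hg
  have hg0 : ∀ s, 0 ≤ g s := fun s => by
    simp only [hg]
    split_ifs
    · exact abs_nonneg _
    · exact le_rfl
  have hτ : IsTr N 2 (trPair N t) := ll2_ri_pair_isTr N t (by omega)
  unfold ll2Qd ll2DK
  rw [← hN, min_eq_left (by omega : t ≤ N + 1), abs_mul, abs_of_nonneg (by norm_num : (0 : ℝ) ≤ 2⁻¹)]
  have h1 := tr_sumK_le (N := N) (q := 2) (τ := trPair N t) (ms := llMs a P) 2 (fun τ' =>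
    (if τ' 2 (2 + 1) ≤ N then (1 : ℝ) else 0) * llCumK Pd (τ' 2 (2 + 1)) *
      llNuS a P (2 + 2) τ' fun s => jtSp (s 0) * jtSp (s 1) * (jtSp (s 2) * jtSp (s (2 + 1))))
  have h2 := tr_absK_mono (ms := llMs a P) hτ 2 (fun τ' =>
    |(if τ' 2 (2 + 1) ≤ N then (1 : ℝ) else 0) * llCumK Pd (τ' 2 (2 + 1)) *
      llNuS a P (2 + 2) τ' fun s => jtSp (s 0) * jtSp (s 1) * (jtSp (s 2) * jtSp (s (2 + 1)))|)
    (fun τ' => g (τ' 2 (2 + 1))) (fun τ' _ => by
      have h3 : |llNuS a P (2 + 2) τ' fun s => jtSp (s 0) * jtSp (s 1) * (jtSp (s 2) * jtSp (s (2 + 1)))| ≤ 1 :=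
        l9q_nuS_abs_le ha hP _ _ fun s => by simp [abs_mul, l9q_abs_sp]
      simp only [hg]
      rw [abs_mul, abs_mul]
      split_ifs
      · rw [abs_one, one_mul]
        exact mul_le_of_le_one_right (abs_nonneg _) h3
      · simp)
  have h4 := l9q_absK_pair hτ hms g hg0 (by simp [hg])
  have h5 : ∑ x ∈ Finset.range 2, ∑ x' ∈ Finset.range 2, g (trPair N t x x') = 2 * |llCumK Pd t| := by
    simp only [Finset.sum_range_succ, Finset.sum_range_zero, trPair, hg]
    simp [ht]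
    ring
  have h6 : ∑ j ∈ Finset.range (N + 1), (llMs a P j - trPm (llMs a P) j) * g j = l9qKI a P Pd := by
    unfold l9qKI
    refine Finset.sum_congr rfl fun j hj => ?_
    rw [Finset.mem_range] at hj
    rw [l9q_gap_eq]
    simp only [hg]
    rw [if_pos (by omega)]
  rw [h5, h6, hN, l9q_ms_top, ← hN] at h4
  have h7 := h1.trans (h2.trans h4)
  push_cast at h7
  linarith

/-- **LEAF Q**: `∫|q̇| ≤ 44 a² ∫|K̇|` (mass integrals on the chain; the constant does not depend on the chain) -/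
theorem l9q_Qd_sum {a : ℝ} (ha : 0 < a) {P : LlStp} (hP : LlStpAdm a P) (Pd : LlStp) :
    ∑ t ∈ Finset.range (P.length + 1), skGap a (llMat P) t * |ll2Qd a P Pd t| ≤ 44 * a ^ 2 * l9qKI a P Pd := by
  have h1 : ∀ t ∈ Finset.range (P.length + 1), skGap a (llMat P) t * |ll2Qd a P Pd t|
      ≤ skGap a (llMat P) t * (9 * a * l9qKI a P Pd) + 35 * a ^ 2 * (skGap a (llMat P) t * |llCumK Pd t|) := by
    intro t ht
    rw [Finset.mem_range] at ht
    have h2 := mul_le_mul_of_nonneg_left (l9q_Qd_abs ha hP Pd (show t ≤ P.length by omega)) (pin_gap_nonneg ha _ hP.1 t)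
    linarith
  refine (Finset.sum_le_sum h1).trans (le_of_eq ?_)
  rw [Finset.sum_add_distrib, ← Finset.sum_mul, ← Finset.mul_sum, l9q_gap_sum]
  unfold l9qKI
  ring

/-! ### families: `LlFam` from the derivatives of the cumulative clocks -/

/-- the list of the dotted increments: `β, η, κ` = derivatives of the cumulative clocks -/
def l9qPd (N : ℕ) (β η κ : ℕ → ℝ) : LlStp :=
  (List.range N).map fun j => ⟨0, β (j + 1) - β j, η (j + 1) - η j, κ (j + 1) - κ j⟩

theorem l9q_Pd_length (N : ℕ) (β η κ : ℕ → ℝ) : (l9qPd N β η κ).length = N := by simp [l9qPd]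

theorem l9q_tele_list (f : ℕ → ℝ) (N t : ℕ) : (((List.range N).take t).map fun j => f (j + 1) - f j).sum = f (min t N) - f 0 := by
  rw [List.take_range]
  induction min t N with
  | zero => simp
  | succ n ih => rw [List.range_succ, List.map_append, List.sum_append, ih]; simp

theorem l9q_Pd_cum (N : ℕ) (β η κ : ℕ → ℝ) (t : ℕ) :
    skCumB (llMat (l9qPd N β η κ)) t = β (min t N) - β 0 ∧ skCumH (llMat (l9qPd N β η κ)) t = η (min t N) - η 0 ∧
      llCumK (l9qPd N β η κ) t = κ (min t N) - κ 0 := by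
  refine ⟨?_, ?_, ?_⟩
  · rw [← l9q_tele_list β N t]
    simp only [skCumB, llMat, l9qPd, List.map_take, List.map_map, Function.comp_def]
  · rw [← l9q_tele_list η N t]
    simp only [skCumH, llMat, l9qPd, List.map_take, List.map_map, Function.comp_def]
  · rw [← l9q_tele_list κ N t]
    simp only [llCumK, l9qPd, List.map_take, List.map_map, Function.comp_def]

theorem l9q_cum_min (P : LlStp) (t : ℕ) :
    skCumB (llMat P) t = skCumB (llMat P) (min t P.length) - skCumB (llMat P) 0 ∧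
    skCumH (llMat P) t = skCumH (llMat P) (min t P.length) - skCumH (llMat P) 0 ∧
    llCumK P t = llCumK P (min t P.length) - llCumK P 0 := by
  have e : ∀ {α : Type} (l : List α), l.take (min t l.length) = l.take t := fun l => by
    rcases le_total t l.length with h | h
    · rw [min_eq_left h]
    · rw [min_eq_right h, List.take_length, List.take_of_length_le h]
  have hl : (llMat P).length = P.length := by simp [llMat]
  refine ⟨?_, ?_, ?_⟩
  · unfold skCumB
    rw [← hl, e]; simp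
  · unfold skCumH
    rw [← hl, e]; simp
  · unfold llCumK
    rw [e]; simp

/-- **`LlFam` from the derivatives of the cumulative clocks** (fixed masses, admissible on `U`) -/
theorem l9q_fam {a : ℝ} (P : ℝ → LlStp) {t0 : ℝ} {U : Set ℝ} (h0 : t0 ∈ U)
    (hadm : ∀ t ∈ U, LlStpAdm a (P t)) (hm : ∀ t ∈ U, (P t).map LlInc.m = (P t0).map LlInc.m) (β η κ : ℕ → ℝ)
    (db : ∀ j ≤ (P t0).length, HasDerivWithinAt (fun t => skCumB (llMat (P t)) j) (β j) U t0)
    (dh : ∀ j ≤ (P t0).length, HasDerivWithinAt (fun t => skCumH (llMat (P t)) j) (η j) U t0)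
    (dK : ∀ j ≤ (P t0).length, HasDerivWithinAt (fun t => llCumK (P t) j) (κ j) U t0) :
    LlFam a U t0 P (l9qPd (P t0).length β η κ) := by
  have hlen : ∀ t ∈ U, (P t).length = (P t0).length := fun t ht => by
    have := congrArg List.length (hm t ht)
    simpa using this
  refine ⟨h0, hadm, hm, l9q_Pd_length _ _ _ _, fun t => ?_, fun t => ?_, fun t => ?_⟩
  · rw [(l9q_Pd_cum _ β η κ t).1]
    refine ((db _ (min_le_right _ _)).sub (db 0 (Nat.zero_le _))).congr (fun s hs => ?_) ?_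
    · rw [(l9q_cum_min (P s) t).1, hlen s hs]; rfl
    · rw [(l9q_cum_min (P t0) t).1]; rfl
  · rw [(l9q_Pd_cum _ β η κ t).2.1]
    refine ((dh _ (min_le_right _ _)).sub (dh 0 (Nat.zero_le _))).congr (fun s hs => ?_) ?_
    · rw [(l9q_cum_min (P s) t).2.1, hlen s hs]; rfl
    · rw [(l9q_cum_min (P t0) t).2.1]; rfl
  · rw [(l9q_Pd_cum _ β η κ t).2.2]
    refine ((dK _ (min_le_right _ _)).sub (dK 0 (Nat.zero_le _))).congr (fun s hs => ?_) ?_
    · rw [(l9q_cum_min (P s) t).2.2, hlen s hs]; rfl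
    · rw [(l9q_cum_min (P t0) t).2.2]; rfl

/-- **LEAF Q on a family of fine paths** (interior point): the reference overlaps are differentiable and `∫|q̇| ≤ 44 a² ∫|K̇|`, `|q̇_t| ≤ 9 a ∫|K̇| + 35 a² |K̇_t|` -/
theorem l9q_fam_q {a : ℝ} (ha : 0 < a) (P : ℝ → LlStp) {t0 : ℝ}
    (hadm : ∀ᶠ t in 𝓝 t0, LlStpAdm a (P t)) (hm : ∀ᶠ t in 𝓝 t0, (P t).map LlInc.m = (P t0).map LlInc.m)
    (db : ∀ j ≤ (P t0).length, DifferentiableAt ℝ (fun t => skCumB (llMat (P t)) j) t0)
    (dh : ∀ j ≤ (P t0).length, DifferentiableAt ℝ (fun t => skCumH (llMat (P t)) j) t0)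
    (dK : ∀ j ≤ (P t0).length, DifferentiableAt ℝ (fun t => llCumK (P t) j) t0) :
    (∀ j, DifferentiableAt ℝ (fun t => llQs a (P t) j) t0) ∧
    (∀ j ≤ (P t0).length, |deriv (fun t => llQs a (P t) j) t0|
      ≤ 9 * a * (∑ i ∈ Finset.range ((P t0).length + 1), skGap a (llMat (P t0)) i * |deriv (fun t => llCumK (P t) i) t0|)
        + 35 * a ^ 2 * |deriv (fun t => llCumK (P t) j) t0|) ∧
    ∑ j ∈ Finset.range ((P t0).length + 1), skGap a (llMat (P t0)) j * |deriv (fun t => llQs a (P t) j) t0|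
      ≤ 44 * a ^ 2 * ∑ j ∈ Finset.range ((P t0).length + 1), skGap a (llMat (P t0)) j * |deriv (fun t => llCumK (P t) j) t0| := by
  set U : Set ℝ := {t | LlStpAdm a (P t) ∧ (P t).map LlInc.m = (P t0).map LlInc.m} with hU
  have hUn : U ∈ 𝓝 t0 := hadm.and hm
  have h0 : t0 ∈ U := mem_of_mem_nhds hUn
  set κ : ℕ → ℝ := fun j => deriv (fun t => llCumK (P t) j) t0 with hκ
  have hF := l9q_fam P h0 (fun t ht => ht.1) (fun t ht => ht.2) (fun j => deriv (fun t => skCumB (llMat (P t)) j) t0)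
    (fun j => deriv (fun t => skCumH (llMat (P t)) j) t0) κ
    (fun j hj => (db j hj).hasDerivAt.hasDerivWithinAt) (fun j hj => (dh j hj).hasDerivAt.hasDerivWithinAt)
    (fun j hj => (dK j hj).hasDerivAt.hasDerivWithinAt)
  set Pd := l9qPd (P t0).length (fun j => deriv (fun t => skCumB (llMat (P t)) j) t0)
    (fun j => deriv (fun t => skCumH (llMat (P t)) j) t0) κ with hPd
  have hq : ∀ j, HasDerivAt (fun t => llQs a (P t) j) (ll2Qd a (P t0) Pd j) t0 := fun j => (ll2_ri_dq ha hF j).hasDerivAt hUn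
  have hκ0 : κ 0 = 0 := by
    simp only [hκ]
    have : (fun t => llCumK (P t) 0) = fun _ => (0 : ℝ) := by funext t; simp [llCumK]
    rw [this, deriv_const]
  have hK : ∀ j ≤ (P t0).length, llCumK Pd j = κ j := fun j hj => by
    rw [hPd, (l9q_Pd_cum _ _ _ κ j).2.2, min_eq_left hj, hκ0, sub_zero]
  have hS : l9qKI a (P t0) Pd = ∑ i ∈ Finset.range ((P t0).length + 1), skGap a (llMat (P t0)) i * |κ i| := by
    unfold l9qKI
    refine Finset.sum_congr rfl fun i hi => ?_
    rw [Finset.mem_range] at hi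
    rw [hK i (by omega)]
  refine ⟨fun j => (hq j).differentiableAt, fun j hj => ?_, ?_⟩
  · have := l9q_Qd_abs ha h0.1 Pd hj
    rw [hK j hj, hS] at this
    rw [(hq j).deriv]
    exact this
  · simp only [(hq _).deriv]
    rw [← hS]
    exact l9q_Qd_sum ha h0.1 Pd

/-! ### the vocabulary of `L09/Contract.lean` -/

theorem l9q_stp_sc (a : ℝ) (b h K : ℝ → ℝ) : ∀ (ps : List GhPos) (b0 h0 K0 : ℝ),
    llSc (l9Stp a b h K b0 h0 K0 ps) = (skCStp a b K b0 K0 ps).map fun e => ⟨e.m, 0, e.dh⟩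
  | [], _, _, _ => rfl
  | p :: ps, b0, h0, K0 => by
      rw [l9Stp, skCStp, List.map_cons]
      show _ :: llSc (l9Stp a b h K (ghAt a b p) (ghAt a h p) (ghAt a K p) ps) = _
      rw [l9q_stp_sc a b h K ps]

theorem l9q_adm_sc {a : ℝ} {Q : SkStp} (hQ : SkAdm a Q) : SkAdm a (Q.map fun e => ⟨e.m, 0, e.dh⟩) := by
  refine ⟨?_, ?_⟩
  · rw [List.pairwise_map]
    exact hQ.1
  · intro e he
    obtain ⟨e', he', rfl⟩ := List.mem_map.1 he
    obtain ⟨h1, h2, -, h4⟩ := hQ.2 e' he'
    exact ⟨h1, h2, le_rfl, h4⟩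

/-- the fine path of a chain is admissible -/
theorem l9q_stp_adm {a : ℝ} (ha : 0 ≤ a) {b h K : ℝ → ℝ} (hb : GhClk1 a b) (hh : GhClk1 a h) (hK : GhClk1 a K) {ps : List GhPos}
    (hs : ps.Pairwise (· ≤ ·)) (hok : ∀ p ∈ ps, p.Ok a) : LlStpAdm a (l9Stp a b h K 0 0 0 ps) := by
  refine ⟨?_, ?_⟩
  · rw [l9d_stp_mat]
    exact l9d_chain_adm ha hb hh hs hok
  · rw [l9q_stp_sc]
    exact l9q_adm_sc (l9d_chain_adm ha hb hK hs hok)

theorem l9q_I_adm (I : L9I) (p : LlPt) (ha : 0 ≤ p.a) (hb : GhClk1 p.a (p.b I.F I.𝔹)) (hh : GhClk1 p.a (p.h I.F I.𝔹))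
    (hK : GhClk1 p.a (p.K I.F I.𝔹)) : LlStpAdm p.a (I.P p) :=
  l9q_stp_adm ha hb hh hK (gh_os_ps_pairwise _ _) fun _ hq => (gh_os_ps_mem.1 hq).2

theorem l9q_I_qC (I : L9I) (p : LlPt) (j : ℕ) : (I.X0 p).qC j = llQs p.a (I.P p) j := rfl

/-- **LEAF Q in the vocabulary of the contract**: at a point of `I.Dif` the reference overlaps `qC j` of the chain are differentiable,
`|q̇_j| ≤ 9 a ∫|K̇| + 35 a² |K̇_j|`, `∫|q̇| ≤ 44 a² ∫|K̇|` (mass integrals on the chain). -/
theorem l9q_I_q (I : L9I) (pf : ℝ → LlPt) {t0 : ℝ} (ha : 0 < (pf t0).a) (hpa : ∀ t, (pf t).a = (pf t0).a)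
    (hadm : ∀ᶠ t in 𝓝 t0, LlStpAdm (pf t).a (I.P (pf t))) (hD : I.Dif pf t0) :
    (∀ j, DifferentiableAt ℝ (fun t => (I.X0 (pf t)).qC j) t0) ∧
    (∀ j ≤ (I.ps (pf t0)).length, |deriv (fun t => (I.X0 (pf t)).qC j) t0|
      ≤ 9 * (pf t0).a * (∑ i ∈ Finset.range ((I.ps (pf t0)).length + 1),
          skGap (pf t0).a (llMat (I.P (pf t0))) i * |deriv (fun t => (I.X0 (pf t)).KC i) t0|)
        + 35 * (pf t0).a ^ 2 * |deriv (fun t => (I.X0 (pf t)).KC j) t0|) ∧
    ∑ j ∈ Finset.range ((I.ps (pf t0)).length + 1),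
        skGap (pf t0).a (llMat (I.P (pf t0))) j * |deriv (fun t => (I.X0 (pf t)).qC j) t0|
      ≤ 44 * (pf t0).a ^ 2 * ∑ j ∈ Finset.range ((I.ps (pf t0)).length + 1),
        skGap (pf t0).a (llMat (I.P (pf t0))) j * |deriv (fun t => (I.X0 (pf t)).KC j) t0| := by
  have h := l9q_fam_q ha (fun t => I.P (pf t)) (t0 := t0)
    (by filter_upwards [hadm] with t ht; rwa [hpa t] at ht)
    (Eventually.of_forall fun t => by
      unfold L9I.P L9I.ps
      rw [l9d_stp_m, l9d_stp_m, hpa t])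
    (fun j _ => (hD j).1) (fun j _ => (hD j).2.1) (fun j _ => (hD j).2.2)
  simp only [l9q_I_qC, l9d_I_KC, hpa, ← l9d_I_length]
  exact h

/-- **the dotted norm without `q̇`**: `I.dot ≤ (1 + 44 a²) ∫ (|ḃ| + |ḣ| + |K̇|)` -/
theorem l9q_I_dot_le (I : L9I) (pf : ℝ → LlPt) {t0 : ℝ} (ha : 0 < (pf t0).a) (hpa : ∀ t, (pf t).a = (pf t0).a)
    (hadm : ∀ᶠ t in 𝓝 t0, LlStpAdm (pf t).a (I.P (pf t))) (hD : I.Dif pf t0) :
    I.dot pf t0 ≤ (1 + 44 * (pf t0).a ^ 2) * ∑ j ∈ Finset.range ((I.ps (pf t0)).length + 1),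
      skGap (pf t0).a (llMat (I.P (pf t0))) j * (|deriv (fun t => (I.X0 (pf t)).bC j) t0| + |deriv (fun t => (I.X0 (pf t)).hC j) t0|
        + |deriv (fun t => (I.X0 (pf t)).KC j) t0|) := by
  have h := (l9q_I_q I pf ha hpa hadm hD).2.2
  have hg : ∀ j, 0 ≤ skGap (pf t0).a (llMat (I.P (pf t0))) j := fun j => pin_gap_nonneg ha _ hadm.self_of_nhds.1 j
  have h1 : ∑ j ∈ Finset.range ((I.ps (pf t0)).length + 1),
        skGap (pf t0).a (llMat (I.P (pf t0))) j * |deriv (fun t => (I.X0 (pf t)).KC j) t0|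
      ≤ ∑ j ∈ Finset.range ((I.ps (pf t0)).length + 1),
      skGap (pf t0).a (llMat (I.P (pf t0))) j * (|deriv (fun t => (I.X0 (pf t)).bC j) t0| + |deriv (fun t => (I.X0 (pf t)).hC j) t0|
        + |deriv (fun t => (I.X0 (pf t)).KC j) t0|) :=
    Finset.sum_le_sum fun j _ => mul_le_mul_of_nonneg_left
      (by have := abs_nonneg (deriv (fun t => (I.X0 (pf t)).bC j) t0)
          have := abs_nonneg (deriv (fun t => (I.X0 (pf t)).hC j) t0)
          linarith) (hg j)
  have h2 : I.dot pf t0 = ∑ j ∈ Finset.range ((I.ps (pf t0)).length + 1),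
      skGap (pf t0).a (llMat (I.P (pf t0))) j * (|deriv (fun t => (I.X0 (pf t)).bC j) t0| + |deriv (fun t => (I.X0 (pf t)).hC j) t0|
        + |deriv (fun t => (I.X0 (pf t)).KC j) t0|)
      + ∑ j ∈ Finset.range ((I.ps (pf t0)).length + 1),
        skGap (pf t0).a (llMat (I.P (pf t0))) j * |deriv (fun t => (I.X0 (pf t)).qC j) t0| := by
    unfold L9I.dot
    rw [← Finset.sum_add_distrib]
    exact Finset.sum_congr rfl fun j _ => by ring
  rw [h2]
  have h3 : 0 ≤ 44 * (pf t0).a ^ 2 := by positivity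
  nlinarith [mul_le_mul_of_nonneg_left h1 h3]

theorem l9q_chdq_eqns_cite : True := by
  have := @l9qKI.eq_1
  have := @l9qPd.eq_1
  trivial

end Claimed.Agent.R286
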