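import Claimed.Agent.R286.L09.Bnd
import Claimed.Agent.R286.L02.Inst
import Claimed.Agent.R286.Defs.LLPar

/-!
# Row 286 (S0533), unit L09, node RED, CONCRETE LAYER: `L9BndSg (L4 ..)`, `L9BndDg (L4 ..)` FROM (E4), CC, LL08      (owner helper282; head helper60; prefix `l9c`, `L9c`)

TEX[LL:exp:prop-low-coefficients] 09-expansion.tex l.410-492: statement of (E4) on the REAL coefficients + "Reduction to Proposition (low coefficients)".      Abstract layer (all proved): `L09/Red{Defs,Tab,Prob,Main}.lean`.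

ONE POINT `Q : L9Q` (`L09/Bnd.lean`), loss factor `A = C x^(-δ)` (`≲_⋄`).      SUPPLIES = predicates on `(Q, A)`:
* `Q.E4 A Cs cmax`        **(E4)** for the grouped REAL coefficients `l9rB (l9aTab N (2n)) (Q.Ht n R) (2n) c sk`, `n = 2,3,4`, every cut `c` with `U ≤ m_c ≤ cmax`, every skeleton whose designated splits are
                          separated (`Cs v_i ≤ m_c`):   `≤ A m_c^(3-n) G4 Vol`,   `G4 = λ m_c²` if all factors are `Δ`, `= ∏_{i ∉ R} (|d| + |ḋ|)(v_i)` otherwise (crude bound K8d);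
                          `ref`: `n = 2`, distinct designated vertices: further factor `min v_i / m_c` (K8r, K8dr).          SUPPLIER: 263 (GridFD) <= MAIN (242, 219), LC1 + SKW (60, 285, 276).
* `Q.D0 A T0 V`           bounded coefficient densities for the FIRST projection: `∑_{τ low} |Ht| ≤ A T0`  (`T0 = λ` direct, `1 + dot` size).          SUPPLIER: W5 team (235) / SC-dot.
* `Q.Sup Mj A vt K Cs e`  everything random + the envelope `e` (chosen by LL08): `e ≲ max(v, Y)`, `|d| + |ḋ| ≲ λ max(v,Y)² e`, (D2) `‖Δ‖_4 ≤ A e(v)`, Cor. 8.7 in RESAMPLING form, and **CC** = Lemma 9.1 ON TABLES at a cut `m_c ≍ w`.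
                          SUPPLIER: LL08 exits (75) + DIC (fork laws = tree numbers on `l9rT2`, `l9rT4`) + CC (30, 64).
* `Q.Adm δm`              the chain: admissible, mesh `≤ δm`.          SUPPLIER: 216 / 77.
SHAPES: `L9SbS`, `L9SbD` = "for every loss `δ > 0`, tilt `(ε, q)`: `∃ C N0, ∀ N ≥ N0, ∀ᶠ Fs`, all points of the segment on the stop: `Φ (C x^(-δ)) Q`".
EXITS: `l9c_redS`, `l9c_redD`.      CUT:  FLAT (`l9c_flat`, `l9c_flat_sq`, `l9c_doeg`) | BANDS (`l9c_bands`) | REGION (`l9c_B_region`) | CUTS (`l9c_cuts`) | COST (`l9c_bd_le`) | FRAME (`l9c_frame`, proved) |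
`l9c_band`, `l9c_point` = PROVED from the leaves `L9Q.Bd.*` of Sec. 8 (`Q.Bd ..` = all the supplies at one point; B1 `set`, B2 `at_cut`, B3 `e4_step`, B4 `e4_fin`, B5 `T_le`, B6 `no_R`, B7 `first_cost`, B8 `step_cost`, B9 `steps_le`, ..) | MONO 9a | NUM 9b | exits 9c.
-/

set_option autoImplicit false

namespace Claimed.Agent.R286

open scoped BigOperators Nat
open Filter

noncomputable section

/-! ## 1. scales, bands -/

namespace L9Q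

variable (Q : L9Q) (Mj : L9Mj)

def x : ℝ := Q.p.x
def lam : ℝ := Q.p.lam
def lam1 : ℝ := Q.p.lam1 Q.I.F
def U : ℝ := Q.p.U Q.I.F
/-- the majorant `Z` -/
def Z : ℝ := Mj.Z Q.I.F Q.I.𝔹 Q.I.Fs Q.p Q.I.m
/-- capped on the size paths (Cor. 8.10) -/
def Zc : ℝ := if Q.p.sm then min (Q.Z Mj) (Q.x ^ (llDStar / 3) / Q.U) else Q.Z Mj
/-- the low scale -/
def Y : ℝ := Q.U * Q.Zc Mj
/-- `z_r^0 = x³ / (√λ₁ r³)` -/
def z0 (r : ℝ) : ℝ := Q.x ^ 3 / (Real.sqrt Q.lam1 * r ^ 3)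
/-- `g_B = g_0 / Z^(3/2)` -/
def gB : ℝ := Q.lam ^ ((3 * Q.I.F.sS - 1 - Q.I.F.eta) / 2) / Q.Zc Mj ^ (3 / 2 : ℝ)
/-- mass of the cut of depth `c` -/
def mc (c : ℕ) : ℝ := trPm Q.ms c
/-- `|d| + |ḋ|` on the chain, at a pair which shares `v` stages -/
def dA (v : ℕ) : ℝ := |(Q.X false).dC v| + |deriv (fun t' => (Q.I.X0 (Q.pf t')).dC v) Q.t|
/-- number of dyadic scales -/
def Lg : ℝ := 3 + Real.logb 2 (1 / Q.x)
/-- the bound (E3) of Lemma 9.1 without its loss -/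
def E3 (K : ℝ) : ℝ := Q.lam * Q.Y Mj ^ 5 * (Q.x / Q.Y Mj + Q.gB Mj) + Q.x ^ K

end L9Q

/-- the band number `k`: lower band `v ≤ 2 Y` (scale `Y`), dyadic bands `2^k Y < v ≤ 2^(k+1) Y` (scale `2^k Y`) -/
def l9Band (Y : ℝ) (k : ℕ) (v : ℝ) : Prop := if k = 0 then v ≤ 2 * Y else 2 ^ k * Y < v ∧ v ≤ 2 ^ (k + 1) * Y

/-- `w` = the largest band scale -/
def l9Bw (Y : ℝ) (n : ℕ) (β : ℕ → ℕ) : ℝ := 2 ^ ((Finset.range n).sup β) * Y

/-- the region of a band vector, below `V` -/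
def l9RgB (Y V : ℝ) (β : ℕ → ℕ) : L9Rg := fun n v => ∀ i, i < n → l9Band Y (β i) (v i) ∧ v i < V

open Classical in
/-- the band vectors with `n` entries `< Kb` -/
def l9cBs (Kb n : ℕ) : Finset (ℕ → ℕ) :=
  (Fintype.piFinset fun _ : Fin n => Finset.range Kb).image fun f i => if h : i < n then f ⟨i, h⟩ else 0

/-- the two designated vertices of a 4-slot table are the same vertex -/
def l9Same (sk : JtTopo) : Prop := sk 0 1 = sk 2 3 ∧ sk 0 1 ≤ sk 0 2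

/-! ## 2. the supplies at one point -/

namespace L9Q

variable (Q : L9Q) (Mj : L9Mj)

/-- the designated splits of the skeleton are separated from the cut -/
def Sep (Cs : ℝ) (n c : ℕ) (sk : JtTopo) : Prop := ∀ i, i < n → Cs * Q.vm sk i ≤ Q.mc c

/-- the factor of (E4) -/
def G4 (n : ℕ) (R : Finset ℕ) (c : ℕ) (sk : JtTopo) : ℝ :=
  if R = Finset.range n then Q.lam * Q.mc c ^ 2 else ∏ i ∈ Finset.range n \ R, Q.dA (sk (2 * i) (2 * i + 1))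

/-- **(E4)** on the real coefficients -/
structure E4 (A Cs cmax : ℝ) : Prop where
  main : ∀ n, 2 ≤ n → n ≤ 4 → ∀ R, R ⊆ Finset.range n → R.Nonempty → ∀ c, c ≤ Q.N + 1 → Q.U ≤ Q.mc c → Q.mc c ≤ cmax →
    ∀ sk, Q.Sep Cs n c sk →
      |l9rB (l9aTab Q.N (2 * n)) (Q.Ht n R) (2 * n) c sk| ≤ A * (Q.mc c ^ 3 / Q.mc c ^ n) * Q.G4 n R c sk * l9rVol Q.ms (2 * n) c sk
  ref : ∀ R, R ⊆ Finset.range 2 → R.Nonempty → ∀ c, c ≤ Q.N + 1 → Q.U ≤ Q.mc c → Q.mc c ≤ cmax →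
    ∀ sk, Q.Sep Cs 2 c sk → ¬ l9Same sk →
      |l9rB (l9aTab Q.N 4) (Q.Ht 2 R) 4 c sk|
        ≤ A * Q.mc c * Q.G4 2 R c sk * (max (min (Q.vm sk 0) (Q.vm sk 1)) Q.U / Q.mc c) * l9rVol Q.ms 4 c sk

/-- bounded coefficient densities (first projection) -/
def D0 (A T0 V : ℝ) : Prop :=
  ∀ n, 2 ≤ n → n ≤ 4 → ∀ R, R ⊆ Finset.range n → ∑ τ ∈ Q.Tb (l9RgL4 V) n, |Q.Ht n R τ| ≤ A * T0

open Classical in
/-- the majorant (E2') at the final cut: `λ w^(5-n) ∏_{i ∉ R} e(v_i) [ratio] Vol` -/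
def E2 (e : ℕ → ℝ) (n : ℕ) (R : Finset ℕ) (c : ℕ) (w : ℝ) (sk : JtTopo) : ℝ :=
  Q.lam * (w ^ 5 / w ^ n) * (∏ i ∈ Finset.range n \ R, e (sk (2 * i) (2 * i + 1)))
    * (if n = 2 ∧ ¬ l9Same sk then max (min (Q.vm sk 0) (Q.vm sk 1)) (Q.Y Mj) / w else 1) * l9rVol Q.ms (2 * n) c sk

/-- **CC = Lemma 9.1 on tables**: coefficients `B` on the skeletons at a cut `m_c ≍ w`, in one band vector, majorised by `L0 * (E2')`; factors `Δ = δ + f` on the truncated tables (= projected at the cut) -/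
def CC (e : ℕ → ℝ) (A vt K Cs : ℝ) : Prop :=
  ∀ n, 2 ≤ n → n ≤ 4 → ∀ R, R ⊆ Finset.range n → R.Nonempty → ∀ (β : ℕ → ℕ) (V : ℝ) (c : ℕ), c ≤ Q.N + 1 →
    Cs * l9Bw (Q.Y Mj) n β ≤ Q.mc c → Q.mc c ≤ 4 * Cs * l9Bw (Q.Y Mj) n β → Q.mc c ≤ vt →
    ∀ (B : JtTopo → ℝ) (L0 : ℝ), 0 ≤ L0 → (∀ sk, B sk ≠ 0 → l9RgB (Q.Y Mj) V β n (Q.vm sk)) →
      (∀ sk, |B sk| ≤ L0 * Q.E2 Mj e n R c (l9Bw (Q.Y Mj) n β) sk) →
      |∑ sk ∈ l9rSk (l9aTab Q.N (2 * n)) (2 * n) c, B sk * (l9rNum (Q.X true) R (2 * n) sk - l9rNum (Q.X false) R (2 * n) sk)|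
        ≤ L0 * (A * Q.E3 Mj K)

/-- everything random, with the envelope `e` -/
structure Sup (A vt K Cs : ℝ) (e : ℕ → ℝ) : Prop where
  z1 : 1 ≤ Q.Zc Mj
  e_nn : ∀ v, 0 ≤ e v
  e_le : ∀ v, v ≤ Q.N → Q.ms v ≤ vt → e v ≤ A * max (Q.ms v) (Q.Y Mj)
  d_le : ∀ v, v ≤ Q.N → Q.ms v ≤ vt → Q.dA v ≤ A * Q.lam * max (Q.ms v) (Q.Y Mj) ^ 2 * e v
  d2 : ∀ en v, v ≤ Q.N → Q.ms v ≤ vt → L9rEnv (Q.X en) 4 v (A * e v)
  p87 : ∀ en v c, v ≤ c → c ≤ Q.N + 1 → 8 * Q.ms v ≤ Q.mc c → Q.Y Mj ≤ Q.mc c → Q.mc c ≤ vt →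
    L9rChg (Q.X en) 4 v c (A * (Q.z0 (Q.mc c) * Q.mc c))
  cc : Q.CC Mj e A vt K Cs

/-- the chain -/
structure Adm (δm : ℝ) : Prop where
  a_pos : 0 < Q.p.a
  adm : LlStpAdm Q.p.a (Q.I.P Q.p)
  mesh : ∀ j, j ≤ Q.N → l9rMu Q.ms j ≤ δm

end L9Q

/-! ## 3. shapes and contracts -/

/-- subpower loss, size segment -/
def L9SbS (𝔹 : LlBase) (F : LlFix) (Φ : ℝ → L9Q → Prop) : Prop :=
  ∀ δ : ℝ, 0 < δ → ∀ ε : ℝ, 0 < ε → ∀ q : ℝ, 0 < q → ∃ (C : ℝ) (N0 : ℕ), ∀ N : ℕ, N0 ≤ N → ∀ᶠ Fs : Finset GhPos in atTop,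
    ∀ (m : ℕ) (γ : Fin (N + 1) → ℝ) (θ : ℝ), L9HyS F 𝔹 N (q * skX N ^ (1 + ε)) (skX N ^ ε) Fs m γ θ →
      Φ (C * skX N ^ (-δ)) (l9QS F 𝔹 (q * skX N ^ (1 + ε)) Fs m N γ θ)

/-- subpower loss, strength sweep -/
def L9SbD (𝔹 : LlBase) (Mj : L9Mj) (κ : ℝ) (F : LlFix) (Φ : ℝ → L9Q → Prop) : Prop :=
  ∀ δ : ℝ, 0 < δ → ∀ ε : ℝ, 0 < ε → ∀ q : ℝ, 0 < q → ∃ (C : ℝ) (N0 : ℕ), ∀ N : ℕ, N0 ≤ N → ∀ᶠ Fs : Finset GhPos in atTop,
    ∀ (m : ℕ) (ell : ℝ) (γ : Fin (N + 1) → ℝ) (t : ℝ), L9HyD F 𝔹 Mj κ N (q * skX N ^ (1 + ε)) (skX N ^ ε) Fs m ell γ t →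
      Φ (C * skX N ^ (-δ)) (l9QD F 𝔹 (q * skX N ^ (1 + ε)) Fs m N ell γ t)

/-- (E4), size segment: cuts up to `Cl λ`; ONE factor `1 + dot` is allowed (integrated dotted weights) -/
def L9cE4S (𝔹 : LlBase) (F : LlFix) (Cs Cl : ℝ) : Prop := L9SbS 𝔹 F fun A Q => Q.E4 (A * (1 + Q.I.dot Q.pf Q.t)) Cs (Cl * Q.lam)
/-- (E4), strength sweep: cuts up to a fixed small mass -/
def L9cE4D (𝔹 : LlBase) (Mj : L9Mj) (κ : ℝ) (F : LlFix) (Cs cmax : ℝ) : Prop := L9SbD 𝔹 Mj κ F fun A Q => Q.E4 A Cs cmax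
/-- densities, size segment -/
def L9cD0S (𝔹 : LlBase) (F : LlFix) (a2 : ℝ) : Prop := L9SbS 𝔹 F fun A Q => Q.D0 A (1 + Q.I.dot Q.pf Q.t) (Q.x ^ a2)
/-- densities, strength sweep -/
def L9cD0D (𝔹 : LlBase) (Mj : L9Mj) (κ : ℝ) (F : LlFix) (cD : ℝ) : Prop := L9SbD 𝔹 Mj κ F fun A Q => Q.D0 A Q.lam cD
/-- LL08 + DIC + CC, size segment (low-region variant below the fixed mass `v0`) -/
def L9cSupS (𝔹 : LlBase) (Mj : L9Mj) (F : LlFix) (v0 : ℝ) : Prop :=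
  ∀ K Cs : ℝ, 4 ≤ Cs → L9SbS 𝔹 F fun A Q => Q.Adm Q.x → ∃ e, Q.Sup Mj A v0 K Cs e
/-- LL08 + DIC + CC, strength sweep (below the fixed mass `v0`; the chain may be assumed admissible with mesh `≤ x`: remarks of 153) -/
def L9cSupD (𝔹 : LlBase) (Mj : L9Mj) (κ : ℝ) (F : LlFix) (v0 : ℝ) : Prop :=
  ∀ K Cs : ℝ, 4 ≤ Cs → L9SbD 𝔹 Mj κ F fun A Q => Q.Adm Q.x → ∃ e, Q.Sup Mj A v0 K Cs e
/-- the chains -/
def L9cAdmS (𝔹 : LlBase) (F : LlFix) : Prop := ∀ Km : ℝ, L9SbS 𝔹 F fun _ Q => Q.Adm (Q.x ^ Km) ∧ 0 ≤ Q.I.dot Q.pf Q.t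
def L9cAdmD (𝔹 : LlBase) (Mj : L9Mj) (κ : ℝ) (F : LlFix) : Prop := ∀ Km : ℝ, L9SbD 𝔹 Mj κ F fun _ Q => Q.Adm (Q.x ^ Km)

end

theorem l9c_red_defs_eqns_cite : True := by
  have := @L9Q.x.eq_1; have := @L9Q.lam.eq_1; have := @L9Q.lam1.eq_1; have := @L9Q.U.eq_1; have := @L9Q.Z.eq_1
  have := @L9Q.Zc.eq_1; have := @L9Q.Y.eq_1; have := @L9Q.z0.eq_1; have := @L9Q.gB.eq_1; have := @L9Q.mc.eq_1
  have := @L9Q.dA.eq_1; have := @L9Q.Lg.eq_1; have := @L9Q.E3.eq_1; have := @l9Band.eq_1; have := @l9Bw.eq_1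
  have := @l9RgB.eq_1; have := @l9cBs.eq_1; have := @l9Same.eq_1; have := @L9Q.Sep.eq_1; have := @L9Q.G4.eq_1
  have := @L9Q.D0.eq_1; have := @L9Q.E2.eq_1; have := @L9Q.CC.eq_1; have := @L9SbS.eq_1; have := @L9SbD.eq_1
  have := @L9cE4S.eq_1; have := @L9cE4D.eq_1; have := @L9cD0S.eq_1; have := @L9cD0D.eq_1; have := @L9cSupS.eq_1
  have := @L9cSupD.eq_1; have := @L9cAdmS.eq_1; have := @L9cAdmD.eq_1
  trivial

/-! ## 4. FLAT: (E1) restricted to a region as a sum over tables -/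

/-- a region which sees the masses of the `n` base pairs only -/
def L9Rg.Loc (Rg : L9Rg) : Prop := ∀ n (v v' : ℕ → ℝ), (∀ i, i < n → v i = v' i) → (Rg n v ↔ Rg n v')

/-- the positive numbers see the labels only -/
theorem l9c_nu_ag (m : ℕ) (a : ℝ) (P : LlStp) (tl : Option ℕ) {q : ℕ} {τ τ' : JtTopo} (h : L9aAg q τ τ') (T : (ℕ → SkCfg m) → ℝ) :
    (llJs m a P tl).nu q τ T = (llJs m a P tl).nu q τ' T :=
  tr_nu_congr _ _ h 0 T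

theorem l9c_nuK_ag (m : ℕ) (a : ℝ) (P : LlStp) (tl : Option ℕ) {q : ℕ} {τ τ' : JtTopo} (h : L9aAg q τ τ') (T : (ℕ → Bool) → ℝ) :
    (llJs m a P tl).nuK q τ T = (llJs m a P tl).nuK q τ' T := by
  show llNuS a P q τ T = llNuS a P q τ' T
  unfold llNuS
  exact tr_nu_congr _ _ h 0 _

theorem l9c_pair_ag {n : ℕ} {τ τ' : JtTopo} (h : L9aAg (2 * n) τ τ') {i : ℕ} (hi : i < n) : τ (2 * i) (2 * i + 1) = τ' (2 * i) (2 * i + 1) :=
  h _ _ (by omega) (by omega)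

theorem l9c_jt_pair (τ : JtTopo) (i : ℕ) : τ (jtC 0 i) (jtD 0 i) = τ (2 * i) (2 * i + 1) := by
  unfold jtC jtD
  rw [Nat.zero_add]

theorem l9c_cf_ag (m : ℕ) (a : ℝ) (P : LlStp) (tl : Option ℕ) {n : ℕ} {R : Finset ℕ} (hR : R ⊆ Finset.range n) {τ τ' : JtTopo}
    (h : L9aAg (2 * n) τ τ') : (llJs m a P tl).cf n R τ = (llJs m a P tl).cf n R τ' := by
  unfold JtCtx.cf
  have e1 : (llJs m a P tl).Kap (2 * n) 0 τ = (llJs m a P tl).Kap (2 * n) 0 τ' := by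
    unfold JtCtx.Kap JtCtx.Psi JtCtx.scM
    congr 1
    funext A
    exact l9c_nuK_ag m a P tl h _
  have e2 : ∏ i ∈ R, (llJs m a P tl).bC (τ (jtC 0 i) (jtD 0 i)) = ∏ i ∈ R, (llJs m a P tl).bC (τ' (jtC 0 i) (jtD 0 i)) := by
    refine Finset.prod_congr rfl fun i hi => ?_
    rw [l9c_jt_pair τ, l9c_jt_pair τ', l9c_pair_ag h (Finset.mem_range.1 (hR hi))]
  have e3 : ∏ i ∈ Finset.range n \ R, (llJs m a P tl).dC (τ (jtC 0 i) (jtD 0 i))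
      = ∏ i ∈ Finset.range n \ R, (llJs m a P tl).dC (τ' (jtC 0 i) (jtD 0 i)) := by
    refine Finset.prod_congr rfl fun i hi => ?_
    rw [l9c_jt_pair τ, l9c_jt_pair τ', l9c_pair_ag h (Finset.mem_range.1 (Finset.mem_sdiff.1 hi).1)]
  rw [e1, e2, e3]

theorem l9c_co_ag (Q : L9Q) {n : ℕ} {R : Finset ℕ} (hR : R ⊆ Finset.range n) {τ τ' : JtTopo} (h : L9aAg (2 * n) τ τ') :
    Q.co n R τ = Q.co n R τ' := by
  unfold L9Q.co
  congr 1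
  funext t'
  exact l9c_cf_ag _ _ _ _ hR h

theorem l9c_off_ag {S : Type} (X : JtCtx S) {n : ℕ} {τ τ' : JtTopo} (h : L9aAg (2 * n) τ τ') : X.off 0 n τ = X.off 0 n τ' := by
  unfold JtCtx.off
  refine Finset.prod_congr rfl fun i hi => ?_
  rw [l9c_jt_pair τ, l9c_jt_pair τ', l9c_pair_ag h (Finset.mem_range.1 hi)]

theorem l9c_vm_ag (Q : L9Q) {n : ℕ} {τ τ' : JtTopo} (h : L9aAg (2 * n) τ τ') {i : ℕ} (hi : i < n) : Q.vm τ i = Q.vm τ' i := by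
  unfold L9Q.vm
  rw [l9c_pair_ag h hi]

theorem l9c_num_ag (Q : L9Q) (en : Bool) {n : ℕ} {R : Finset ℕ} (hR : R ⊆ Finset.range n) {τ τ' : JtTopo} (h : L9aAg (2 * n) τ τ') :
    l9rNum (Q.X en) R (2 * n) τ = l9rNum (Q.X en) R (2 * n) τ' := by
  unfold l9rNum
  have e : (fun σ : ℕ → SkCfg Q.I.m => ∏ i ∈ R, (Q.X en).Dl τ σ (2 * i) (2 * i + 1))
      = fun σ => ∏ i ∈ R, (Q.X en).Dl τ' σ (2 * i) (2 * i + 1) := by
    funext σ
    refine Finset.prod_congr rfl fun i hi => ?_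
    unfold JtCtx.Dl JtCtx.Qs
    rw [l9c_pair_ag h (Finset.mem_range.1 (hR hi))]
  rw [e]
  exact l9c_nu_ag _ _ _ _ h _

theorem l9c_tau1_isTr (N : ℕ) : IsTr N 1 fun _ _ => N + 1 :=
  ⟨fun _ _ _ _ => le_rfl, fun _ _ => rfl, fun _ _ _ _ => rfl, fun _ _ _ _ _ _ => by simp⟩

theorem l9c_off_en (Q : L9Q) (en : Bool) (q n : ℕ) (τ : JtTopo) : (Q.X en).off q n τ = (Q.X false).off q n τ := rfl

/-- **FLAT** one monomial.      `l9a_flat` (276) + locality of all the factors (`tr_nu_congr`). -/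
theorem l9c_flat (Q : L9Q) (Rg : L9Rg) (hRg : Rg.Loc) {n : ℕ} (hn : 1 ≤ n) {R : Finset ℕ} (hR : R ⊆ Finset.range n) (en : Bool)
    [DecidablePred fun τ : JtTopo => Rg n (Q.vm τ)] :
    (Q.X en).mon n R (fun τ => if Rg n (Q.vm τ) then Q.co n R τ else 0) = l9rD0 (Q.X en) R (2 * n) (Q.Tb Rg n) (Q.H n R) := by
  classical
  have h2n : 1 + (2 * n - 1) = 2 * n := by omega
  have hloc : ∀ τ₁ τ₂ : JtTopo, L9aAg (1 + (2 * n - 1)) τ₁ τ₂ →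
      (Q.X en).off 0 n τ₁ * (if Rg n (Q.vm τ₁) then Q.co n R τ₁ else 0) * l9rNum (Q.X en) R (2 * n) τ₁
        = (Q.X en).off 0 n τ₂ * (if Rg n (Q.vm τ₂) then Q.co n R τ₂ else 0) * l9rNum (Q.X en) R (2 * n) τ₂ := by
    intro τ₁ τ₂ h
    rw [h2n] at h
    have hr : Rg n (Q.vm τ₁) ↔ Rg n (Q.vm τ₂) := hRg n _ _ fun i hi => l9c_vm_ag Q h hi
    rw [l9c_off_ag _ h, l9c_co_ag Q hR h, l9c_num_ag Q en hR h]
    simp only [hr]
  have hflat := l9a_flat (N := Q.N) (ms := Q.ms) (2 * n - 1) (l9c_tau1_isTr Q.N) _ hloc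
  have hmon : (Q.X en).mon n R (fun τ => if Rg n (Q.vm τ) then Q.co n R τ else 0)
      = ((2 : ℝ) ^ n * (n ! : ℝ))⁻¹ * trSumK Q.ms Q.N (2 * n - 1) 1 (fun _ _ => Q.N + 1) (fun τ =>
        (Q.X en).off 0 n τ * (if Rg n (Q.vm τ) then Q.co n R τ else 0) * l9rNum (Q.X en) R (2 * n) τ) := by
    unfold JtCtx.mon l9rNum
    simp only [jtC, jtD, Nat.zero_add]
    rfl
  rw [hmon, hflat, h2n]
  unfold l9rD0 L9Q.Tb
  rw [Finset.sum_filter, Finset.mul_sum]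
  refine Finset.sum_congr rfl fun τ _ => ?_
  by_cases hr : Rg n (Q.vm τ)
  · rw [if_pos hr, if_pos hr]
    unfold L9Q.H
    rw [l9c_off_en Q en]
    ring
  · rw [if_neg hr, if_neg hr]
    ring

/-- coincident labels -/
theorem l9c_tr_coinc {N q : ℕ} {τ : JtTopo} (hτ : IsTr N q τ) {x x' y : ℕ} (hx : x < q) (hx' : x' < q) (hy : y < q)
    (h : τ x x' = N + 1) : τ x y = τ x' y := by
  have u1 := hτ.ultra x x' y hx hx' hy
  have u2 := hτ.ultra x' x y hx' hx hy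
  have s := hτ.symm x x' hx hx'
  have l1 := hτ.le x y hx hy
  have l2 := hτ.le x' y hx' hy
  omega

/-- the weight of the second label sees the two first labels only -/
theorem l9c_wt2_ag {N : ℕ} (ms : ℕ → ℝ) {τ τ' : JtTopo} (hτ : IsTr N 2 τ) (h : L9aAg 2 τ τ') :
    l9aWt ms N 1 2 τ' = l9aWt ms N 1 2 τ := by
  obtain ⟨b1, b2, b3, _, b5⟩ := l9a_birth (s := 1) hτ le_rfl
  obtain ⟨e1, e2⟩ := l9a_birth_att (tr_isTr_mono hτ (by omega)) b1 b2 b3 (h.symm.trans b5)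
  unfold l9aWt
  refine Finset.prod_congr rfl fun s hs => ?_
  rw [Finset.mem_Ico] at hs
  obtain rfl : s = 1 := by omega
  unfold l9aW1
  rw [e1, e2]
  exact ((h.mono (by omega : 1 ≤ 2)).wt ms N b1 _).symm

/-- a labelling of the four slots by the two ends of one pair -/
structure L9cF (f : ℕ → ℕ) : Prop where
  f0 : f 0 = 0
  f1 : f 1 = 1
  f23 : (f 2 = 0 ∧ f 3 = 1) ∨ (f 2 = 1 ∧ f 3 = 0)

theorem L9cF.lt {f : ℕ → ℕ} (hf : L9cF f) : ∀ x, x < 4 → f x < 2 := by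
  intro x hx
  have h0 := hf.f0
  have h1 := hf.f1
  have h2 := hf.f23
  interval_cases x <;> omega

theorem L9cF.idem {f : ℕ → ℕ} (hf : L9cF f) : ∀ x, x < 4 → f (f x) = f x := by
  intro x hx
  have h := hf.lt x hx
  have h0 := hf.f0
  have h1 := hf.f1
  obtain h' | h' : f x = 0 ∨ f x = 1 := by omega
  · rw [h', h0]
  · rw [h', h1]

/-- the 4-slot table with a repeated pair -/
def l9cPl (f : ℕ → ℕ) (τ : JtTopo) : JtTopo := l9aNm 4 fun x y => τ (f x) (f y)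

theorem l9c_pl_eqns_cite : True := by
  have := @l9cPl.eq_1
  trivial

theorem l9c_pl_apply {f : ℕ → ℕ} (τ : JtTopo) {x y : ℕ} (hx : x < 4) (hy : y < 4) : l9cPl f τ x y = τ (f x) (f y) :=
  l9a_nm_ag 4 _ x y hx hy

theorem l9c_pl_ag2 {f : ℕ → ℕ} (hf : L9cF f) (τ : JtTopo) : L9aAg 2 τ (l9cPl f τ) := by
  intro x y hx hy
  rw [l9c_pl_apply τ (by omega) (by omega)]
  have h0 := hf.f0
  have h1 := hf.f1
  interval_cases x <;> interval_cases y <;> simp only [h0, h1]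

/-- the tables with a repeated pair are the pairs -/
theorem l9c_pl_sum {N : ℕ} {f : ℕ → ℕ} (hf : L9cF f) (K : JtTopo → ℝ) :
    ∑ τ ∈ (l9aTab N 4).filter (fun τ => τ 2 (f 2) = N + 1 ∧ τ 3 (f 3) = N + 1), K τ = ∑ τ ∈ l9aTab N 2, K (l9cPl f τ) := by
  symm
  refine Finset.sum_nbij' (l9cPl f) (l9aNm 2) ?_ ?_ ?_ ?_ ?_
  · intro τ hτ
    have h1 := (l9a_mem_tab.1 hτ).1
    rw [Finset.mem_filter]
    refine ⟨l9a_nm_mem_tab (tr_comap_isTr h1 f hf.lt), ?_, ?_⟩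
    · rw [l9c_pl_apply τ (by omega) (by have := hf.lt 2 (by omega); omega), hf.idem 2 (by omega)]
      exact h1.diag _ (hf.lt 2 (by omega))
    · rw [l9c_pl_apply τ (by omega) (by have := hf.lt 3 (by omega); omega), hf.idem 3 (by omega)]
      exact h1.diag _ (hf.lt 3 (by omega))
  · intro τ hτ
    rw [Finset.mem_filter] at hτ
    exact l9a_nm_mem_tab (tr_isTr_mono (l9a_mem_tab.1 hτ.1).1 (by omega))
  · intro τ hτ
    have h2 := (l9a_mem_tab.1 hτ).2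
    rw [← l9a_nm_eq (l9c_pl_ag2 hf τ), h2]
  · intro τ hτ
    rw [Finset.mem_filter] at hτ
    obtain ⟨h1, h2⟩ := l9a_mem_tab.1 hτ.1
    have hc : ∀ x, x < 4 → τ x (f x) = N + 1 := by
      intro x hx
      have h0 := hf.f0
      have h1' := hf.f1
      interval_cases x
      · rw [h0]; exact h1.diag 0 (by omega)
      · rw [h1']; exact h1.diag 1 (by omega)
      · exact hτ.2.1
      · exact hτ.2.2
    refine Eq.trans ?_ h2
    unfold l9cPl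
    refine l9a_nm_eq fun x y hx hy => ?_
    have hfx := hf.lt x hx
    have hfy := hf.lt y hy
    rw [l9a_nm_ag 2 τ _ _ hfx hfy]
    rw [← l9c_tr_coinc h1 hx (by omega) (by omega) (hc x hx), h1.symm x (f y) hx (by omega),
      ← l9c_tr_coinc h1 hy (by omega) hx (hc y hy), h1.symm y x hy hx]
  · intro τ _
    rfl

theorem l9c_nuQ_ag (Q : L9Q) (en : Bool) {q : ℕ} {τ τ' : JtTopo} (h : L9aAg q τ τ') (T : (ℕ → SkCfg Q.I.m) → ℝ) :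
    (Q.X en).nu q τ T = (Q.X en).nu q τ' T :=
  l9c_nu_ag _ _ _ _ h T

theorem l9c_law (Q : L9Q) {δm : ℝ} (hA : Q.Adm δm) (en : Bool) : (Q.X en).Law Q.ms :=
  ll2_law Q.I.m hA.a_pos hA.adm _

/-- the value of the square counterterm at a table with a repeated pair -/
theorem l9c_pl_val (Q : L9Q) {δm : ℝ} (hA : Q.Adm δm) (Rg : L9Rg) (hRg : Rg.Loc) (en : Bool) {f : ℕ → ℕ} (hf : L9cF f) {τ : JtTopo}
    (hτ : τ ∈ l9aTab Q.N 2) [Decidable (Rg 2 (Q.vm (l9cPl f τ)))] [Decidable (Rg 2 (fun _ => Q.vm τ 0))] :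
    (if Rg 2 (Q.vm (l9cPl f τ)) then
      l9aWt Q.ms Q.N 1 2 (l9cPl f τ) * (Q.X false).off 0 1 (l9cPl f τ) * Q.coq (l9cPl f τ) * l9rNum (Q.X en) {0, 1} 4 (l9cPl f τ) else 0)
    = l9aWt Q.ms Q.N 1 2 τ * ((Q.X en).off 0 1 τ * (if Rg 2 (fun _ => Q.vm τ 0) then Q.coq τ else 0)
        * (Q.X en).nu 2 τ fun σ => (Q.X en).Dl τ σ 0 1 ^ 2) := by
  have h1 : IsTr Q.N 2 τ := (l9a_mem_tab.1 hτ).1
  have hag := l9c_pl_ag2 hf τ
  have e01 : l9cPl f τ 0 1 = τ 0 1 := (hag 0 1 (by omega) (by omega)).symm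
  have e23 : l9cPl f τ 2 3 = τ 0 1 := by
    rw [l9c_pl_apply τ (by omega) (by omega)]
    rcases hf.f23 with ⟨a, b⟩ | ⟨a, b⟩
    · rw [a, b]
    · rw [a, b]; exact h1.symm 1 0 (by omega) (by omega)
  have ew := l9c_wt2_ag Q.ms h1 hag
  have eo : (Q.X false).off 0 1 (l9cPl f τ) = (Q.X en).off 0 1 τ := by
    rw [l9c_off_en Q en]
    exact (l9c_off_ag _ (n := 1) hag).symm
  have ec : Q.coq (l9cPl f τ) = Q.coq τ := by
    unfold L9Q.coq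
    rw [e01]
  have er : Rg 2 (Q.vm (l9cPl f τ)) ↔ Rg 2 (fun _ => Q.vm τ 0) := by
    refine hRg 2 _ _ fun i hi => ?_
    unfold L9Q.vm
    interval_cases i
    · rw [show 2 * 0 = 0 from rfl, show 0 + 1 = 1 from rfl, e01]
    · rw [show 2 * 1 = 2 from rfl, show 2 + 1 = 3 from rfl, show 2 * 0 = 0 from rfl, show 0 + 1 = 1 from rfl, e23]
  have hlaw := l9c_law Q hA en
  have en' : l9rNum (Q.X en) {0, 1} 4 (l9cPl f τ) = (Q.X en).nu 2 τ fun σ => (Q.X en).Dl τ σ 0 1 ^ 2 := by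
    unfold l9rNum
    have hP : (fun σ : ℕ → SkCfg Q.I.m => ∏ i ∈ ({0, 1} : Finset ℕ), (Q.X en).Dl (l9cPl f τ) σ (2 * i) (2 * i + 1))
        = fun σ => ((Q.X en).msk (τ 0 1) * (Q.X en).ov (σ 0) (σ 1) - (Q.X en).qC (τ 0 1))
            * ((Q.X en).msk (τ 0 1) * (Q.X en).ov (σ 2) (σ 3) - (Q.X en).qC (τ 0 1)) := by
      funext σ
      rw [Finset.prod_pair (by norm_num)]
      unfold JtCtx.Dl JtCtx.Qs
      rw [show 2 * 1 = 2 from rfl, show 2 + 1 = 3 from rfl, show 2 * 0 = 0 from rfl, show 0 + 1 = 1 from rfl, e01, e23]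
    rw [hP, l9c_nuQ_ag Q en (show L9aAg 4 (l9cPl f τ) (fun x y => τ (f x) (f y)) from l9a_nm_ag 4 _)]
    rw [← hlaw.nu.comap 2 4 τ h1 f hf.lt _ (fun σ σ' h => by
      simp only [h 0 (by omega), h 1 (by omega), h 2 (by omega), h 3 (by omega)])]
    congr 1
    funext σ
    unfold JtCtx.Dl JtCtx.Qs
    beta_reduce
    rw [hf.f0, hf.f1]
    rcases hf.f23 with ⟨a, b⟩ | ⟨a, b⟩
    · rw [a, b]; ring
    · rw [a, b, hlaw.ov_symm (σ 1) (σ 0)]; ring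
  rw [ew, eo, ec, en']
  by_cases hr : Rg 2 (fun _ => Q.vm τ 0)
  · rw [if_pos hr, if_pos (er.2 hr)]
    ring
  · rw [if_neg hr, if_neg (fun h => hr (er.1 h))]
    ring

/-- **FLAT** the square counterterm = coefficient `Hq` on the 4-slot tables with a repeated pair (marginals `comap` along `x ↦ x % 2` and `0,1,1,0`; `ov` symmetric). -/
theorem l9c_flat_sq (Q : L9Q) {δm : ℝ} (hA : Q.Adm δm) (Rg : L9Rg) (hRg : Rg.Loc) (en : Bool)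
    [DecidablePred fun τ : JtTopo => Rg 2 (fun _ => Q.vm τ 0)] :
    -(Q.X en).sq (fun τ => if Rg 2 (fun _ => Q.vm τ 0) then Q.coq τ else 0) = l9rD0 (Q.X en) {0, 1} 4 (Q.Tb Rg 2) Q.Hq := by
  classical
  have hloc : ∀ τ₁ τ₂ : JtTopo, L9aAg (1 + 1) τ₁ τ₂ →
      (Q.X en).off 0 1 τ₁ * (if Rg 2 (fun _ => Q.vm τ₁ 0) then Q.coq τ₁ else 0) * ((Q.X en).nu 2 τ₁ fun σ => (Q.X en).Dl τ₁ σ 0 1 ^ 2)
        = (Q.X en).off 0 1 τ₂ * (if Rg 2 (fun _ => Q.vm τ₂ 0) then Q.coq τ₂ else 0) * ((Q.X en).nu 2 τ₂ fun σ => (Q.X en).Dl τ₂ σ 0 1 ^ 2) := by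
    intro τ₁ τ₂ h
    have e01 : τ₁ 0 1 = τ₂ 0 1 := h 0 1 (by omega) (by omega)
    have e1 : (Q.X en).off 0 1 τ₁ = (Q.X en).off 0 1 τ₂ := l9c_off_ag _ (n := 1) h
    have e2 : Q.vm τ₁ 0 = Q.vm τ₂ 0 := l9c_vm_ag Q (n := 1) h (by omega)
    have e3 : Q.coq τ₁ = Q.coq τ₂ := by unfold L9Q.coq; rw [e01]
    have e4 : (fun σ : ℕ → SkCfg Q.I.m => (Q.X en).Dl τ₁ σ 0 1 ^ 2) = fun σ => (Q.X en).Dl τ₂ σ 0 1 ^ 2 := by
      funext σ
      unfold JtCtx.Dl JtCtx.Qs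
      rw [e01]
    have hr : (Rg 2 fun _ => Q.vm τ₁ 0) ↔ (Rg 2 fun _ => Q.vm τ₂ 0) := by rw [e2]
    rw [e1, e3, e4, l9c_nuQ_ag Q en (q := 2) h]
    simp only [hr]
  have hflat := l9a_flat (N := Q.N) (ms := Q.ms) 1 (l9c_tau1_isTr Q.N) _ hloc
  have hsq : (Q.X en).sq (fun τ => if Rg 2 (fun _ => Q.vm τ 0) then Q.coq τ else 0)
      = 4⁻¹ * trSumK Q.ms Q.N 1 1 (fun _ _ => Q.N + 1) (fun τ =>
        (Q.X en).off 0 1 τ * (if Rg 2 (fun _ => Q.vm τ 0) then Q.coq τ else 0) * ((Q.X en).nu 2 τ fun σ => (Q.X en).Dl τ σ 0 1 ^ 2)) := rfl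
  rw [hsq, hflat]
  obtain ⟨fA, hfA, a2, a3⟩ : ∃ f : ℕ → ℕ, L9cF f ∧ f 2 = 0 ∧ f 3 = 1 :=
    ⟨fun x => x % 2, ⟨rfl, rfl, Or.inl ⟨rfl, rfl⟩⟩, rfl, rfl⟩
  obtain ⟨fB, hfB, b2, b3⟩ : ∃ f : ℕ → ℕ, L9cF f ∧ f 2 = 1 ∧ f 3 = 0 :=
    ⟨fun x => if x = 0 ∨ x = 3 then 0 else 1, ⟨by simp, by simp, Or.inr ⟨by simp, by simp⟩⟩, by simp, by simp⟩
  have hpt : ∀ τ ∈ l9aTab Q.N 4, (if Rg 2 (Q.vm τ) then Q.Hq τ * l9rNum (Q.X en) {0, 1} 4 τ else 0)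
      = -(8 : ℝ)⁻¹ * ((if τ 2 (fA 2) = Q.N + 1 ∧ τ 3 (fA 3) = Q.N + 1 then
            (if Rg 2 (Q.vm τ) then l9aWt Q.ms Q.N 1 2 τ * (Q.X false).off 0 1 τ * Q.coq τ * l9rNum (Q.X en) {0, 1} 4 τ else 0) else 0)
          + (if τ 2 (fB 2) = Q.N + 1 ∧ τ 3 (fB 3) = Q.N + 1 then
            (if Rg 2 (Q.vm τ) then l9aWt Q.ms Q.N 1 2 τ * (Q.X false).off 0 1 τ * Q.coq τ * l9rNum (Q.X en) {0, 1} 4 τ else 0) else 0)) := by
    intro τ hτ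
    have h1 : IsTr Q.N 4 τ := (l9a_mem_tab.1 hτ).1
    rw [a2, a3, b2, b3]
    unfold L9Q.Hq
    rw [h1.symm 0 2 (by omega) (by omega), h1.symm 1 3 (by omega) (by omega), h1.symm 0 3 (by omega) (by omega),
      h1.symm 1 2 (by omega) (by omega)]
    by_cases hr : Rg 2 (Q.vm τ)
    · simp only [if_pos hr]
      by_cases hAA : τ 2 0 = Q.N + 1 ∧ τ 3 1 = Q.N + 1
      · by_cases hBB : τ 2 1 = Q.N + 1 ∧ τ 3 0 = Q.N + 1
        · have h01 : τ 0 1 = Q.N + 1 := by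
            have u := h1.ultra 0 2 1 (by omega) (by omega) (by omega)
            have s := h1.symm 0 2 (by omega) (by omega)
            have l := h1.le 0 1 (by omega) (by omega)
            omega
          have ho : (Q.X false).off 0 1 τ = 0 := by
            unfold JtCtx.off
            rw [Finset.prod_range_one, l9c_jt_pair τ 0, show 2 * 0 = 0 from rfl, show 0 + 1 = 1 from rfl, h01]
            exact if_neg (by show ¬ (Q.N + 1 ≤ Q.N); omega)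
          rw [ho]
          simp
        · rw [if_pos (Or.inl hAA), if_pos hAA, if_neg hBB]
          ring
      · by_cases hBB : τ 2 1 = Q.N + 1 ∧ τ 3 0 = Q.N + 1
        · rw [if_pos (Or.inr ⟨hBB.2, hBB.1⟩), if_neg hAA, if_pos hBB]
          ring
        · rw [if_neg (by rintro (h | h); exact hAA h; exact hBB ⟨h.2, h.1⟩), if_neg hAA, if_neg hBB]
          ring
    · simp only [if_neg hr]
      simp
  have hS : ∀ f : ℕ → ℕ, L9cF f → ∑ τ ∈ l9aTab Q.N 4, (if τ 2 (f 2) = Q.N + 1 ∧ τ 3 (f 3) = Q.N + 1 then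
        (if Rg 2 (Q.vm τ) then l9aWt Q.ms Q.N 1 2 τ * (Q.X false).off 0 1 τ * Q.coq τ * l9rNum (Q.X en) {0, 1} 4 τ else 0) else 0)
      = ∑ τ ∈ l9aTab Q.N 2, l9aWt Q.ms Q.N 1 2 τ * ((Q.X en).off 0 1 τ * (if Rg 2 (fun _ => Q.vm τ 0) then Q.coq τ else 0)
        * (Q.X en).nu 2 τ fun σ => (Q.X en).Dl τ σ 0 1 ^ 2) := by
    intro f hf
    rw [← Finset.sum_filter, l9c_pl_sum hf]
    exact Finset.sum_congr rfl fun τ hτ => l9c_pl_val Q hA Rg hRg en hf hτ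
  unfold l9rD0 L9Q.Tb
  rw [Finset.sum_filter, Finset.sum_congr rfl hpt, ← Finset.mul_sum, Finset.sum_add_distrib, hS fA hfA, hS fB hfB]
  ring

theorem l9c_L4_loc (V : ℝ) : (l9RgL4 V).Loc := by
  intro n v v' h
  unfold l9RgL4
  constructor
  · rintro ⟨h1, h2⟩
    exact ⟨fun i hi => by rw [← h i hi]; exact h1 i hi, h2⟩
  · rintro ⟨h1, h2⟩
    exact ⟨fun i hi => by rw [h i hi]; exact h1 i hi, h2⟩

/-- one ensemble -/
theorem l9c_oeg (Q : L9Q) {δm : ℝ} (hA : Q.Adm δm) (V : ℝ) {J0 : ℕ} (hJ : 2 ≤ J0) (en : Bool) :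
    Q.OEg (l9RgL4 V) J0 en = ∑ n ∈ Finset.Icc 2 (min J0 4), ∑ R ∈ (Finset.range n).powerset,
      l9rD0 (Q.X en) R (2 * n) (Q.Tb (l9RgL4 V) n) (Q.Ht n R) := by
  classical
  unfold L9Q.OEg
  rw [sub_eq_add_neg, l9c_flat_sq Q hA (l9RgL4 V) (l9c_L4_loc V) en]
  have h1 : ∑ n ∈ Finset.Icc 2 J0, ∑ R ∈ (Finset.range n).powerset,
        (Q.X en).mon n R (fun τ => if l9RgL4 V n (Q.vm τ) then Q.co n R τ else 0)
      = ∑ n ∈ Finset.Icc 2 J0, ∑ R ∈ (Finset.range n).powerset, l9rD0 (Q.X en) R (2 * n) (Q.Tb (l9RgL4 V) n) (Q.H n R) := by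
    refine Finset.sum_congr rfl fun n hn => Finset.sum_congr rfl fun R hR => ?_
    rw [Finset.mem_Icc] at hn
    exact l9c_flat Q (l9RgL4 V) (l9c_L4_loc V) (by omega) (Finset.mem_powerset.1 hR) en
  have h2 : ∑ n ∈ Finset.Icc 2 J0, ∑ R ∈ (Finset.range n).powerset, l9rD0 (Q.X en) R (2 * n) (Q.Tb (l9RgL4 V) n) (Q.H n R)
      = ∑ n ∈ Finset.Icc 2 (min J0 4), ∑ R ∈ (Finset.range n).powerset, l9rD0 (Q.X en) R (2 * n) (Q.Tb (l9RgL4 V) n) (Q.H n R) := by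
    symm
    refine Finset.sum_subset (Finset.Icc_subset_Icc le_rfl (min_le_left _ _)) fun n hn hn' => ?_
    rw [Finset.mem_Icc] at hn hn'
    have h4 : 4 < n := by
      by_contra hc
      exact hn' ⟨hn.1, le_min hn.2 (by omega)⟩
    refine Finset.sum_eq_zero fun R _ => ?_
    have he : Q.Tb (l9RgL4 V) n = ∅ := by
      unfold L9Q.Tb
      refine Finset.filter_eq_empty_iff.2 fun τ _ h => ?_
      have := h.2
      omega
    unfold l9rD0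
    rw [he, Finset.sum_empty]
  have h3 : ∀ n R, l9rD0 (Q.X en) R (2 * n) (Q.Tb (l9RgL4 V) n) (Q.Ht n R)
      = l9rD0 (Q.X en) R (2 * n) (Q.Tb (l9RgL4 V) n) (Q.H n R)
        + if n = 2 ∧ R = {0, 1} then l9rD0 (Q.X en) {0, 1} 4 (Q.Tb (l9RgL4 V) 2) Q.Hq else 0 := by
    intro n R
    unfold l9rD0 L9Q.Ht
    by_cases h : n = 2 ∧ R = {0, 1}
    · obtain ⟨rfl, rfl⟩ := h
      simp only [and_self, if_true, add_mul, Finset.sum_add_distrib]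
    · simp only [if_neg h, add_zero]
  have h4 : ∑ n ∈ Finset.Icc 2 (min J0 4), ∑ R ∈ (Finset.range n).powerset,
      (if n = 2 ∧ R = {0, 1} then l9rD0 (Q.X en) {0, 1} 4 (Q.Tb (l9RgL4 V) 2) Q.Hq else 0)
      = l9rD0 (Q.X en) {0, 1} 4 (Q.Tb (l9RgL4 V) 2) Q.Hq := by
    rw [Finset.sum_eq_single 2]
    · rw [Finset.sum_eq_single {0, 1}]
      · simp
      · intro R _ hR
        rw [if_neg (fun h => hR h.2)]
      · intro h
        exfalso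
        apply h
        rw [Finset.mem_powerset]
        intro x hx
        simp only [Finset.mem_insert, Finset.mem_singleton] at hx
        rw [Finset.mem_range]
        omega
    · intro n _ hn
      refine Finset.sum_eq_zero fun R _ => ?_
      rw [if_neg (fun h => hn h.1)]
    · intro h
      exfalso
      apply h
      rw [Finset.mem_Icc]
      exact ⟨le_rfl, le_min hJ (by omega)⟩
  rw [h1, h2]
  simp only [h3, Finset.sum_add_distrib]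
  rw [h4]

/-- the low region in flat form -/
theorem l9c_doeg (Q : L9Q) {δm : ℝ} (hA : Q.Adm δm) (V : ℝ) {J0 : ℕ} (hJ : 2 ≤ J0) :
    Q.DOEg (l9RgL4 V) J0 = ∑ n ∈ Finset.Icc 2 (min J0 4), ∑ R ∈ (Finset.range n).powerset,
      (l9rD0 (Q.X true) R (2 * n) (Q.Tb (l9RgL4 V) n) (Q.Ht n R) - l9rD0 (Q.X false) R (2 * n) (Q.Tb (l9RgL4 V) n) (Q.Ht n R)) := by
  unfold L9Q.DOEg
  rw [l9c_oeg Q hA V hJ true, l9c_oeg Q hA V hJ false]
  simp only [Finset.sum_sub_distrib]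

/-! ## 5. BANDS, REGION -/

theorem l9c_mem_bs {Kb n : ℕ} {β : ℕ → ℕ} : β ∈ l9cBs Kb n ↔ (∀ i, i < n → β i < Kb) ∧ ∀ i, n ≤ i → β i = 0 := by
  classical
  unfold l9cBs
  rw [Finset.mem_image]
  constructor
  · rintro ⟨f, hf, rfl⟩
    rw [Fintype.mem_piFinset] at hf
    refine ⟨fun i hi => ?_, fun i hi => ?_⟩
    · simp only [dif_pos hi]
      exact Finset.mem_range.1 (hf ⟨i, hi⟩)
    · simp only [dif_neg (not_lt.2 hi)]
  · rintro ⟨h1, h2⟩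
    refine ⟨fun i => β i.1, ?_, ?_⟩
    · rw [Fintype.mem_piFinset]
      exact fun i => Finset.mem_range.2 (h1 i.1 i.2)
    · funext i
      by_cases hi : i < n
      · simp only [dif_pos hi]
      · simp only [dif_neg hi]
        exact (h2 i (not_lt.1 hi)).symm

/-- existence of a band -/
theorem l9c_band_ex {Y : ℝ} (hY : 0 < Y) (v : ℝ) : ∃ k : ℕ, v ≤ 2 ^ (k + 1) * Y := by
  obtain ⟨k, hk⟩ := pow_unbounded_of_one_lt (v / Y) (one_lt_two : (1 : ℝ) < 2)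
  refine ⟨k, ?_⟩
  rw [div_lt_iff₀ hY] at hk
  have h2 : (2 : ℝ) ^ k * Y ≤ 2 ^ (k + 1) * Y :=
    mul_le_mul_of_nonneg_right (pow_le_pow_right₀ one_le_two (Nat.le_succ k)) hY.le
  linarith

open Classical in
/-- the number of the band of `v` -/
noncomputable def l9cBn (Y v : ℝ) : ℕ := if h : ∃ k : ℕ, v ≤ 2 ^ (k + 1) * Y then Nat.find h else 0

theorem l9c_band_iff {Y : ℝ} (hY : 0 < Y) (v : ℝ) (k : ℕ) : l9Band Y k v ↔ l9cBn Y v = k := by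
  classical
  have hex := l9c_band_ex hY v
  unfold l9cBn
  rw [dif_pos hex, Nat.find_eq_iff]
  unfold l9Band
  rcases Nat.eq_zero_or_pos k with rfl | hk
  · simp
  · rw [if_neg (by omega)]
    constructor
    · rintro ⟨h1, h2⟩
      refine ⟨h2, fun j hj hc => ?_⟩
      have h3 : (2 : ℝ) ^ (j + 1) * Y ≤ 2 ^ k * Y :=
        mul_le_mul_of_nonneg_right (pow_le_pow_right₀ one_le_two (by omega)) hY.le
      linarith
    · rintro ⟨h1, h2⟩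
      refine ⟨?_, h1⟩
      have := h2 (k - 1) (by omega)
      rw [show k - 1 + 1 = k by omega] at this
      exact not_le.1 this

theorem l9c_bn_lt {Y V : ℝ} (hY : 0 < Y) {Kb : ℕ} (hKb1 : 1 ≤ Kb) (hKb : V ≤ 2 ^ Kb * Y) {v : ℝ} (hv : v < V) : l9cBn Y v < Kb := by
  classical
  have hex := l9c_band_ex hY v
  unfold l9cBn
  rw [dif_pos hex]
  have : Nat.find hex ≤ Kb - 1 := Nat.find_min' hex (by rw [show Kb - 1 + 1 = Kb by omega]; linarith)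
  omega

theorem l9c_bn_eqns_cite : True := by
  have := @l9cBn.eq_1
  trivial

/-- **BANDS**: the low region is the disjoint union of the band regions -/
theorem l9c_bands (Q : L9Q) {Y V : ℝ} (hY : 0 < Y) {Kb : ℕ} (hKb1 : 1 ≤ Kb) (hKb : V ≤ 2 ^ Kb * Y) {n : ℕ} (hn : n ≤ 4) (G : JtTopo → ℝ) :
    ∑ τ ∈ Q.Tb (l9RgL4 V) n, G τ = ∑ β ∈ l9cBs Kb n, ∑ τ ∈ Q.Tb (l9RgB Y V β) n, G τ := by
  classical
  have hmap : ∀ τ ∈ Q.Tb (l9RgL4 V) n, (fun i => if i < n then l9cBn Y (Q.vm τ i) else 0) ∈ l9cBs Kb n := by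
    intro τ hτ
    unfold L9Q.Tb at hτ
    rw [Finset.mem_filter] at hτ
    rw [l9c_mem_bs]
    refine ⟨fun i hi => ?_, fun i hi => ?_⟩
    · simp only [if_pos hi]
      exact l9c_bn_lt hY hKb1 hKb (hτ.2.1 i hi)
    · simp only [if_neg (not_lt.2 hi)]
  rw [← Finset.sum_fiberwise_of_maps_to hmap]
  refine Finset.sum_congr rfl fun β hβ => ?_
  rw [l9c_mem_bs] at hβ
  refine Finset.sum_congr ?_ fun _ _ => rfl
  ext τ
  unfold L9Q.Tb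
  simp only [Finset.mem_filter]
  constructor
  · rintro ⟨⟨h1, h2⟩, h3⟩
    refine ⟨h1, fun i hi => ⟨?_, h2.1 i hi⟩⟩
    rw [l9c_band_iff hY, ← h3]
    simp only [if_pos hi]
  · rintro ⟨h1, h2⟩
    refine ⟨⟨h1, fun i hi => (h2 i hi).2, hn⟩, ?_⟩
    funext i
    by_cases hi : i < n
    · simp only [if_pos hi]
      exact (l9c_band_iff hY _ _).1 (h2 i hi).1
    · simp only [if_neg hi]
      exact (hβ.2 i (not_lt.1 hi)).symm

theorem l9c_bs_card (Kb n : ℕ) : (l9cBs Kb n).card ≤ Kb ^ n := by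
  classical
  unfold l9cBs
  refine Finset.card_image_le.trans (le_of_eq ?_)
  rw [Fintype.card_piFinset]
  simp

/-- **REGION** (abstract): a restriction on the designated splits, all allowed depths `< c`, commutes with the grouping at the cut `c` -/
theorem l9c_B_region (𝒯 : Finset (ℕ → ℕ → ℕ)) (H : (ℕ → ℕ → ℕ) → ℝ) (n n' c : ℕ) (hn : 2 * n ≤ n') (W : ℕ → ℕ → Prop)
    (hW : ∀ i, i < n → ∀ v, W i v → v < c) [DecidablePred fun τ : ℕ → ℕ → ℕ => ∀ i, i < n → W i (τ (2 * i) (2 * i + 1))] (sk : ℕ → ℕ → ℕ) :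
    l9rB (𝒯.filter fun τ => ∀ i, i < n → W i (τ (2 * i) (2 * i + 1))) H n' c sk
      = if ∀ i, i < n → W i (sk (2 * i) (2 * i + 1)) then l9rB 𝒯 H n' c sk else 0 := by
  classical
  have key : ∀ τ : ℕ → ℕ → ℕ, l9rTc n' c τ = sk → ((∀ i, i < n → W i (τ (2 * i) (2 * i + 1))) ↔ ∀ i, i < n → W i (sk (2 * i) (2 * i + 1))) := by
    intro τ hτ
    have hv : ∀ i, i < n → sk (2 * i) (2 * i + 1) = min (τ (2 * i) (2 * i + 1)) c := by
      intro i hi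
      rw [← hτ]
      unfold l9rTc l9rCut
      rw [if_pos ⟨by omega, by omega⟩, if_neg (by omega), min_self]
    constructor
    · intro h i hi
      have h1 := hW i hi _ (h i hi)
      rw [hv i hi, min_eq_left h1.le]
      exact h i hi
    · intro h i hi
      have h0 := h i hi
      have h1 := hW i hi _ h0
      rw [hv i hi] at h0 h1
      have h2 : τ (2 * i) (2 * i + 1) < c := by
        by_contra hc
        rw [min_eq_right (not_lt.1 hc)] at h1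
        exact lt_irrefl _ h1
      rwa [min_eq_left h2.le] at h0
  unfold l9rB
  rw [Finset.filter_filter]
  split_ifs with hs
  · refine Finset.sum_congr ?_ fun _ _ => rfl
    ext τ
    simp only [Finset.mem_filter]
    constructor
    · rintro ⟨h1, _, h3⟩
      exact ⟨h1, h3⟩
    · rintro ⟨h1, h3⟩
      exact ⟨h1, (key τ h3).2 hs, h3⟩
  · refine Finset.sum_eq_zero fun τ hτ => ?_
    rw [Finset.mem_filter] at hτ
    exact absurd ((key τ hτ.2.2).1 hτ.2.1) hs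

/-! ## 6. CUTS -/

/-- the first depth whose incoming mass reaches `y` -/
theorem l9c_cut_one {N : ℕ} {ms : ℕ → ℝ} {δm y : ℝ} (hmesh : ∀ j, j ≤ N → l9rMu ms j ≤ δm) (hy : 0 < y) (ha : y ≤ ms N) :
    ∃ d : ℕ, d ≤ N + 1 ∧ y ≤ trPm ms d ∧ trPm ms d ≤ y + δm ∧ ∀ j, y ≤ trPm ms j → d ≤ j := by
  classical
  have hex : ∃ j, y ≤ trPm ms j := ⟨N + 1, by unfold trPm; simpa using ha⟩
  refine ⟨Nat.find hex, Nat.find_min' hex (by unfold trPm; simpa using ha), Nat.find_spec hex, ?_, fun j hj => Nat.find_min' hex hj⟩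
  have hle : Nat.find hex ≤ N + 1 := Nat.find_min' hex (by unfold trPm; simpa using ha)
  have hpos : Nat.find hex ≠ 0 := by
    intro h0
    have := Nat.find_spec hex
    rw [h0] at this
    unfold trPm at this
    simp at this
    linarith
  obtain ⟨d, hd⟩ := Nat.exists_eq_succ_of_ne_zero hpos
  have hlt : ¬ y ≤ trPm ms d := Nat.find_min hex (by omega)
  have hm := hmesh d (by omega)
  unfold l9rMu at hm
  rw [hd]
  have e : trPm ms (d + 1) = ms d := by unfold trPm; simp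
  rw [Nat.succ_eq_add_one, e]
  linarith [not_le.1 hlt]

/-- **CUTS**: a chain of cut depths with masses `m_0 ∈ [c0, 2 c0]`, ratios `≤ 4`, last mass in `[cf, 4 cf]`; at most `log_2 (c0 / cf) + 1` steps -/
theorem l9c_cuts {N : ℕ} {ms : ℕ → ℝ} (hms : IsMs N ms) {δm c0 cf : ℝ} (hmesh : ∀ j, j ≤ N → l9rMu ms j ≤ δm) (hcf : 0 < cf) (hδ : δm ≤ cf)
    (h0 : cf ≤ c0) (ha : c0 ≤ ms N) :
    ∃ (cs : ℕ → ℕ) (M : ℕ), (M : ℝ) ≤ Real.logb 2 (c0 / cf) + 1 ∧ (∀ k, k < M → cs (k + 1) ≤ cs k) ∧ (∀ k, k ≤ M → cs k ≤ N + 1) ∧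
      (∀ k, k ≤ M → cf ≤ trPm ms (cs k)) ∧ c0 ≤ trPm ms (cs 0) ∧ trPm ms (cs 0) ≤ 2 * c0 ∧ trPm ms (cs M) ≤ 4 * cf ∧
      ∀ k, k < M → trPm ms (cs k) ≤ 4 * trPm ms (cs (k + 1)) := by
  have hc0 : 0 < c0 := lt_of_lt_of_le hcf h0
  have hy0 : ∀ k : ℕ, 0 < c0 / 2 ^ k := fun k => by positivity
  have hya : ∀ k : ℕ, c0 / 2 ^ k ≤ ms N := fun k => (div_le_self hc0.le (one_le_pow₀ one_le_two)).trans ha
  choose cs h1 h2 h3 h4 using fun k : ℕ => l9c_cut_one hmesh (hy0 k) (hya k)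
  have hr1 : 1 ≤ c0 / cf := by rwa [one_le_div hcf]
  have hlog0 : 0 ≤ Real.logb 2 (c0 / cf) := Real.logb_nonneg one_lt_two hr1
  set M := ⌊Real.logb 2 (c0 / cf)⌋₊ with hM
  have hM1 : (M : ℝ) ≤ Real.logb 2 (c0 / cf) := Nat.floor_le hlog0
  have hM2 : Real.logb 2 (c0 / cf) < (M : ℝ) + 1 := Nat.lt_floor_add_one _
  have hp1 : (2 : ℝ) ^ M ≤ c0 / cf := by
    rw [← Real.rpow_natCast, ← Real.le_logb_iff_rpow_le one_lt_two (by positivity)]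
    exact hM1
  have hp2 : c0 / cf < (2 : ℝ) ^ (M + 1) := by
    rw [← Real.rpow_natCast, ← Real.logb_lt_iff_lt_rpow one_lt_two (by positivity)]
    push_cast
    exact hM2
  have hyk : ∀ k, k ≤ M → cf ≤ c0 / 2 ^ k := by
    intro k hk
    rw [le_div_iff₀ (by positivity)]
    have : (2 : ℝ) ^ k ≤ 2 ^ M := pow_le_pow_right₀ one_le_two hk
    rw [le_div_iff₀ hcf] at hp1
    nlinarith
  have hup : ∀ k, k ≤ M → trPm ms (cs k) ≤ 2 * (c0 / 2 ^ k) := fun k hk => by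
    have := h3 k
    have := hyk k hk
    linarith
  refine ⟨cs, M, by linarith, fun k _ => ?_, fun k _ => h1 k, fun k hk => (hyk k hk).trans (h2 k), ?_, ?_, ?_, fun k hk => ?_⟩
  · refine h4 (k + 1) (cs k) (le_trans ?_ (h2 k))
    rw [pow_succ]
    exact div_le_div_of_nonneg_left hc0.le (by positivity) (by nlinarith [pow_pos (two_pos : (0 : ℝ) < 2) k])
  · simpa using h2 0
  · simpa using hup 0 (Nat.zero_le _)
  · refine (hup M le_rfl).trans ?_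
    rw [div_lt_iff₀ hcf, pow_succ] at hp2
    have : c0 / 2 ^ M ≤ 2 * cf := by
      rw [div_le_iff₀ (by positivity)]
      nlinarith
    linarith
  · refine (hup k hk.le).trans ?_
    have e : 2 * (c0 / 2 ^ k) = 4 * (c0 / 2 ^ (k + 1)) := by
      rw [pow_succ]
      field_simp
      ring
    rw [e]
    exact mul_le_mul_of_nonneg_left (h2 (k + 1)) (by norm_num)

/-! ## 7. COST -/

/-- at least two changes: `≤ 2^|R| ζ² e^(|R|-2)` -/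
theorem l9c_bd_le (R : Finset ℕ) (ζ E : ℕ → ℝ) (z e : ℝ) (hz : 0 ≤ z) (hze : z ≤ e) (hζ : ∀ i ∈ R, 0 ≤ ζ i ∧ ζ i ≤ z)
    (hE : ∀ i ∈ R, 0 ≤ E i ∧ E i ≤ e) : l9rBd R ζ E ≤ 2 ^ R.card * (z ^ 2 * e ^ (R.card - 2)) := by
  have he : 0 ≤ e := hz.trans hze
  unfold l9rBd
  have hterm : ∀ A ∈ R.powerset.filter (fun A => 2 ≤ A.card), (∏ i ∈ A, ζ i) * ∏ i ∈ R \ A, E i ≤ z ^ 2 * e ^ (R.card - 2) := by
    intro A hA
    rw [Finset.mem_filter, Finset.mem_powerset] at hA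
    obtain ⟨hAR, hA2⟩ := hA
    have h1 : ∏ i ∈ A, ζ i ≤ z ^ A.card := by
      rw [← Finset.prod_const]
      exact Finset.prod_le_prod (fun i hi => (hζ i (hAR hi)).1) fun i hi => (hζ i (hAR hi)).2
    have h2 : ∏ i ∈ R \ A, E i ≤ e ^ (R \ A).card := by
      rw [← Finset.prod_const]
      exact Finset.prod_le_prod (fun i hi => (hE i (Finset.mem_sdiff.1 hi).1).1) fun i hi => (hE i (Finset.mem_sdiff.1 hi).1).2
    have h3 : (R \ A).card = R.card - A.card := Finset.card_sdiff_of_subset hAR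
    have hcard : A.card ≤ R.card := Finset.card_le_card hAR
    have h4 : z ^ A.card ≤ z ^ 2 * e ^ (A.card - 2) := by
      have : z ^ A.card = z ^ 2 * z ^ (A.card - 2) := by rw [← pow_add]; congr 1; omega
      rw [this]
      exact mul_le_mul_of_nonneg_left (pow_le_pow_left₀ hz hze _) (by positivity)
    have h5 : 0 ≤ ∏ i ∈ R \ A, E i := Finset.prod_nonneg fun i hi => (hE i (Finset.mem_sdiff.1 hi).1).1
    calc (∏ i ∈ A, ζ i) * ∏ i ∈ R \ A, E i ≤ (z ^ 2 * e ^ (A.card - 2)) * e ^ (R.card - A.card) := by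
          rw [← h3]
          exact mul_le_mul (h1.trans h4) h2 h5 (by positivity)
      _ = z ^ 2 * e ^ (R.card - 2) := by
          rw [mul_assoc, ← pow_add]
          congr 2
          omega
  calc _ ≤ ∑ _A ∈ R.powerset.filter (fun A => 2 ≤ A.card), z ^ 2 * e ^ (R.card - 2) := Finset.sum_le_sum hterm
    _ = ((R.powerset.filter (fun A => 2 ≤ A.card)).card : ℝ) * (z ^ 2 * e ^ (R.card - 2)) := by rw [Finset.sum_const, nsmul_eq_mul]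
    _ ≤ 2 ^ R.card * (z ^ 2 * e ^ (R.card - 2)) := by
        refine mul_le_mul_of_nonneg_right ?_ (by positivity)
        have : (R.powerset.filter (fun A => 2 ≤ A.card)).card ≤ 2 ^ R.card := by
          rw [← Finset.card_powerset]
          exact Finset.card_filter_le _ _
        exact_mod_cast this

/-- `λ c^5 (z_c^0)² = λ x^6 / (λ_1 c)` -/
theorem l9c_z0_sq (Q : L9Q) (h1 : 0 < Q.lam1) {c : ℝ} (hc : 0 < c) : Q.lam * c ^ 5 * Q.z0 c ^ 2 = Q.lam * Q.x ^ 6 / (Q.lam1 * c) := by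
  unfold L9Q.z0
  rw [div_pow, mul_pow, Real.sq_sqrt h1.le]
  field_simp

/-! ## 7b. FRAME, basic facts, numerics of one step (all proved) -/

/-- the grouped coefficient vanishes off the skeletons -/
theorem l9c_B_off (𝒯 : Finset (ℕ → ℕ → ℕ)) (H : (ℕ → ℕ → ℕ) → ℝ) (n c : ℕ) {sk : ℕ → ℕ → ℕ} (h : sk ∉ l9rSk 𝒯 n c) :
    l9rB 𝒯 H n c sk = 0 := by
  classical
  unfold l9rB
  refine Finset.sum_eq_zero fun τ hτ => ?_
  exfalso
  obtain ⟨h1, h2⟩ := Finset.mem_filter.1 hτ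
  exact h (by unfold l9rSk; exact Finset.mem_image.2 ⟨τ, h1, h2⟩)

open Classical in
/-- **FRAME** (abstract): `l9r_main` + (E4) + DENS + REGION + "at least two changes" -/
theorem l9c_frame {S : Type} [Fintype S] [Inhabited S] {X0 X1 : JtCtx S} {N : ℕ} {ms : ℕ → ℝ} (hms : IsMs N ms)
    {n : ℕ} {R : Finset ℕ} (W : ℕ → ℕ → Prop) (H : JtTopo → ℝ) {E : ℝ} {𝒯 : Finset JtTopo}
    (hmem : ∀ τ, τ ∈ 𝒯 ↔ τ ∈ l9aTab N (2 * n) ∧ ∀ i, i < n → W i (τ (2 * i) (2 * i + 1)))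
    (h0 : L9rSet X0 (2 * n) 4 R 𝒯 W (fun _ => E)) (h1 : L9rSet X1 (2 * n) 4 R 𝒯 W (fun _ => E))
    (cs : ℕ → ℕ) (M : ℕ) (hcs : ∀ k, k < M → cs (k + 1) ≤ cs k) (hcN : ∀ k, k ≤ M → cs k ≤ N + 1)
    (hpos : ∀ k, k ≤ M → 0 < trPm ms (cs k)) (hW : ∀ k, k ≤ M → ∀ i, i < n → ∀ v, W i v → v < cs k)
    (ζ eb Λ : ℕ → ℝ) (hc0 : ∀ k, k ≤ M → L9rAt X0 4 R W (cs k) (fun _ => ζ k)) (hc1 : ∀ k, k ≤ M → L9rAt X1 4 R W (cs k) (fun _ => ζ k))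
    (hz0 : ∀ k, k ≤ M → 0 ≤ ζ k) (hze : ∀ k, k ≤ M → ζ k ≤ eb k) (hE0 : 0 ≤ E) (hEe : ∀ k, k ≤ M → E ≤ eb k) (hΛ : ∀ k, k < M → 0 ≤ Λ k)
    {T : ℝ} (hT : ∑ τ ∈ 𝒯, |H τ| ≤ T)
    (hE4 : ∀ k, k < M → ∀ sk, (∀ i, i < n → W i (sk (2 * i) (2 * i + 1))) →
      |l9rB (l9aTab N (2 * n)) H (2 * n) (cs k) sk| ≤ Λ k * l9rVol ms (2 * n) (cs k) sk) :
    |l9rD0 X1 R (2 * n) 𝒯 H - l9rD0 X0 R (2 * n) 𝒯 H|
      ≤ 2 * (T * (2 ^ R.card * (ζ 0 ^ 2 * eb 0 ^ (R.card - 2)))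
          + ∑ k ∈ Finset.range M, Λ k * ((3 * (2 * n) : ℕ) : ℝ) ^ (2 * n) * (2 ^ R.card * (ζ (k + 1) ^ 2 * eb (k + 1) ^ (R.card - 2))))
        + |∑ sk ∈ l9rSk (l9aTab N (2 * n)) (2 * n) (cs M),
            (if ∀ i, i < n → W i (sk (2 * i) (2 * i + 1)) then l9rB (l9aTab N (2 * n)) H (2 * n) (cs M) sk else 0)
              * (l9rNum X1 R (2 * n) sk - l9rNum X0 R (2 * n) sk)| := by
  have h𝒯 : 𝒯 = (l9aTab N (2 * n)).filter fun τ => ∀ i, i < n → W i (τ (2 * i) (2 * i + 1)) := by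
    ext τ
    rw [hmem, Finset.mem_filter]
  have hsub : 𝒯 ⊆ l9aTab N (2 * n) := h𝒯 ▸ Finset.filter_subset _ _
  have hreg : ∀ k, k ≤ M → ∀ sk, l9rB 𝒯 H (2 * n) (cs k) sk
      = if ∀ i, i < n → W i (sk (2 * i) (2 * i + 1)) then l9rB (l9aTab N (2 * n)) H (2 * n) (cs k) sk else 0 := by
    intro k hk sk
    rw [h𝒯]
    exact l9c_B_region (l9aTab N (2 * n)) H n (2 * n) (cs k) le_rfl W (hW k hk) sk
  have hmain := l9r_main h0 h1 H cs (fun k _ => ζ k) M hcs hc0 hc1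
  have hbd : ∀ k, k ≤ M → l9rBd R (fun _ => ζ k) (fun _ => E) ≤ 2 ^ R.card * (ζ k ^ 2 * eb k ^ (R.card - 2)) := fun k hk =>
    l9c_bd_le R _ _ (ζ k) (eb k) (hz0 k hk) (hze k hk) (fun _ _ => ⟨hz0 k hk, le_rfl⟩) (fun _ _ => ⟨hE0, hEe k hk⟩)
  have hbd0 : ∀ k, k ≤ M → 0 ≤ l9rBd R (fun _ => ζ k) (fun _ => E) := fun k hk =>
    l9r_bd_nonneg (fun _ _ => hz0 k hk) (fun _ _ => hE0)
  have hT0 : 0 ≤ T := (Finset.sum_nonneg fun _ _ => abs_nonneg _).trans hT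
  have htv : ∀ k, k < M → l9rTV 𝒯 H (2 * n) (cs k) ≤ Λ k * ((3 * (2 * n) : ℕ) : ℝ) ^ (2 * n) := by
    intro k hk
    refine l9r_tv_le hms (hcN k hk.le) (hpos k hk.le) hsub (hΛ k hk) ?_
    intro sk
    rw [hreg k hk.le sk]
    split_ifs with hc
    · exact hE4 k hk sk hc
    · rw [abs_zero]
      exact mul_nonneg (hΛ k hk) (l9r_vol_nonneg hms _ (hcN k hk.le) sk)
  have hcost : l9rCost R 𝒯 H (2 * n) (fun _ => E) cs (fun k _ => ζ k) M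
      ≤ T * (2 ^ R.card * (ζ 0 ^ 2 * eb 0 ^ (R.card - 2)))
          + ∑ k ∈ Finset.range M, Λ k * ((3 * (2 * n) : ℕ) : ℝ) ^ (2 * n) * (2 ^ R.card * (ζ (k + 1) ^ 2 * eb (k + 1) ^ (R.card - 2))) := by
    unfold l9rCost
    refine add_le_add (mul_le_mul hT (hbd 0 (Nat.zero_le _)) (hbd0 0 (Nat.zero_le _)) hT0) (Finset.sum_le_sum fun k hk => ?_)
    have hk' : k < M := Finset.mem_range.1 hk
    refine mul_le_mul (htv k hk') (hbd (k + 1) hk') (hbd0 (k + 1) hk') ?_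
    exact mul_nonneg (hΛ k hk') (by positivity)
  have hfin : ∑ sk ∈ l9rSk 𝒯 (2 * n) (cs M), l9rB 𝒯 H (2 * n) (cs M) sk * (l9rNum X1 R (2 * n) sk - l9rNum X0 R (2 * n) sk)
      = ∑ sk ∈ l9rSk (l9aTab N (2 * n)) (2 * n) (cs M),
            (if ∀ i, i < n → W i (sk (2 * i) (2 * i + 1)) then l9rB (l9aTab N (2 * n)) H (2 * n) (cs M) sk else 0)
              * (l9rNum X1 R (2 * n) sk - l9rNum X0 R (2 * n) sk) := by
    simp only [← hreg M le_rfl]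
    refine Finset.sum_subset (by unfold l9rSk; exact Finset.image_subset_image hsub) fun sk _ hsk => ?_
    rw [l9c_B_off 𝒯 H _ _ hsk, zero_mul]
  rw [hfin] at hmain
  linarith

/-! ### basic facts at one point -/

theorem JtCtx.Law.l9rPos {S : Type} [Fintype S] [Inhabited S] {X : JtCtx S} {ms : ℕ → ℝ} (h : X.Law ms) : L9rPos X :=
  ⟨fun q τ _ => h.nu.rep q τ, fun q τ τ' P hag => h.nu.congr q τ τ' hag P, h.nu.comap⟩

namespace L9Q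
variable (Q : L9Q)

theorem X_N (en : Bool) : (Q.X en).N = Q.N := rfl

theorem law {δm : ℝ} (hA : Q.Adm δm) (en : Bool) : (Q.X en).Law Q.ms := ll2_law Q.I.m hA.a_pos hA.adm _

theorem isMs {δm : ℝ} (hA : Q.Adm δm) : IsMs Q.N Q.ms := (Q.law hA false).isMs

theorem ms_top {v : ℕ} (hv : Q.N ≤ v) : Q.ms v = Q.p.a := by
  unfold L9Q.ms llMs
  rw [List.getElem?_eq_none (by simpa [L9Q.N] using hv)]
  rfl

end L9Q

/-- the cut masses are monotone in the depth -/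
theorem l9c_pm_mono {N : ℕ} {ms : ℕ → ℝ} (hms : IsMs N ms) {c c' : ℕ} (h : c ≤ c') (hc' : c' ≤ N + 1) : trPm ms c ≤ trPm ms c' := by
  unfold trPm
  by_cases h0 : c = 0
  · rw [if_pos h0]
    split_ifs
    · exact le_rfl
    · exact hms.nonneg _
  · have h1 : c' ≠ 0 := by omega
    rw [if_neg h0, if_neg h1]
    exact hms.mono _ _ (by omega) (by omega)

/-- a stage of mass below the mass of the cut lies before the cut -/
theorem l9c_depth_lt {N : ℕ} {ms : ℕ → ℝ} (hms : IsMs N ms) (htop : ∀ v, N ≤ v → ms v = ms N) {c v : ℕ} (hc : c ≤ N + 1)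
    (h : ms v < trPm ms c) : v < c := by
  by_contra hh
  have hvc : c ≤ v := not_lt.1 hh
  unfold trPm at h
  by_cases h0 : c = 0
  · rw [if_pos h0] at h
    exact absurd (hms.nonneg v) (not_le.2 h)
  · rw [if_neg h0] at h
    by_cases hv : v ≤ N
    · exact absurd (hms.mono (c - 1) v (by omega) hv) (not_le.2 h)
    · rw [htop v (by omega)] at h
      exact absurd (hms.mono (c - 1) N (by omega) le_rfl) (not_le.2 h)

theorem L9rEnv.mono {S : Type} {X : JtCtx S} {r v : ℕ} {E E' : ℝ} (h : L9rEnv X r v E) (h0 : 0 ≤ E) (hE : E ≤ E') : L9rEnv X r v E' :=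
  le_trans h (pow_le_pow_left₀ h0 hE r)

/-! ### bands -/

theorem l9c_band_le {Y : ℝ} {k : ℕ} {v : ℝ} (h : l9Band Y k v) : v ≤ 2 ^ (k + 1) * Y := by
  unfold l9Band at h
  split_ifs at h with h0
  · subst h0; simpa using h
  · exact h.2

theorem l9c_bw_ge {Y : ℝ} (hY : 0 ≤ Y) (n : ℕ) (β : ℕ → ℕ) : Y ≤ l9Bw Y n β := by
  unfold l9Bw
  have : (1 : ℝ) ≤ 2 ^ ((Finset.range n).sup β) := one_le_pow₀ (by norm_num)
  nlinarith

/-- in the region of a band vector all the masses are `≤ 2 w` -/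
theorem l9c_band_le_w {Y : ℝ} (hY : 0 ≤ Y) {n : ℕ} {β : ℕ → ℕ} {i : ℕ} (hi : i < n) {v : ℝ} (h : l9Band Y (β i) v) :
    v ≤ 2 * l9Bw Y n β := by
  refine (l9c_band_le h).trans ?_
  unfold l9Bw
  have h1 : β i ≤ (Finset.range n).sup β := Finset.le_sup (f := β) (Finset.mem_range.2 hi)
  have h2 : (2 : ℝ) ^ (β i) ≤ 2 ^ ((Finset.range n).sup β) := pow_le_pow_right₀ (by norm_num) h1
  rw [pow_succ]
  nlinarith

/-- if the region of a band vector is not empty, `w ≤ max Y V` -/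
theorem l9c_bw_le {Y V : ℝ} (_hY : 0 ≤ Y) (hYV : Y ≤ V) {n : ℕ} {β : ℕ → ℕ} {v : ℕ → ℝ} (h : l9RgB Y V β n v) : l9Bw Y n β ≤ V := by
  unfold l9Bw
  by_cases h0 : (Finset.range n).sup β = 0
  · rw [h0]; simpa using hYV
  · have hne : (Finset.range n).Nonempty := by
      by_contra hh
      rw [Finset.not_nonempty_iff_eq_empty] at hh
      rw [hh] at h0
      simp at h0
    obtain ⟨i, hi, hsup⟩ := Finset.exists_mem_eq_sup (Finset.range n) hne β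
    have hb := h i (Finset.mem_range.1 hi)
    rw [hsup] at h0 ⊢
    have h1 := hb.1
    unfold l9Band at h1
    rw [if_neg h0] at h1
    exact (h1.1.trans hb.2).le

/-! ### numerics of one step -/

theorem l9c_u1 {A lam w m : ℝ} (hA : 1 ≤ A) (hl0 : 0 < lam) (hl1 : lam ≤ 1) (hw0 : 0 ≤ w) (hwm : w ≤ m) (hm0 : 0 < m) (hm1 : m ≤ 1)
    {n r k : ℕ} (hn : n = r + k) (hk1 : 1 ≤ k) (hk3 : k ≤ 3) :
    (m ^ 3 / m ^ n) * (8 * A ^ 2 * lam * w ^ 3) ^ k ≤ 512 * A ^ 6 * lam * (m ^ 5 / m ^ r) := by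
  have h8 : (1 : ℝ) ≤ 8 * A ^ 2 := by nlinarith
  have e1 : (8 * A ^ 2 * lam * w ^ 3) ^ k = (8 * A ^ 2) ^ k * lam ^ k * (w ^ 3) ^ k := by rw [mul_pow, mul_pow]
  have b1 : (8 * A ^ 2) ^ k ≤ 512 * A ^ 6 := by
    calc (8 * A ^ 2) ^ k ≤ (8 * A ^ 2) ^ 3 := pow_le_pow_right₀ h8 hk3
      _ = 512 * A ^ 6 := by ring
  have b2 : lam ^ k ≤ lam := by
    calc lam ^ k ≤ lam ^ 1 := pow_le_pow_of_le_one hl0.le hl1 hk1
      _ = lam := pow_one _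
  have b3 : (w ^ 3) ^ k ≤ m ^ k * m ^ 2 := by
    calc (w ^ 3) ^ k ≤ (m ^ 3) ^ k := pow_le_pow_left₀ (by positivity) (pow_le_pow_left₀ hw0 hwm 3) k
      _ = m ^ k * m ^ (2 * k) := by rw [← pow_mul, ← pow_add]; congr 1; ring
      _ ≤ m ^ k * m ^ 2 := mul_le_mul_of_nonneg_left (pow_le_pow_of_le_one hm0.le hm1 (by omega)) (by positivity)
  have b4 : (8 * A ^ 2 * lam * w ^ 3) ^ k ≤ 512 * A ^ 6 * lam * (m ^ k * m ^ 2) := by
    rw [e1]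
    exact mul_le_mul (mul_le_mul b1 b2 (by positivity) (by positivity)) b3 (by positivity) (by positivity)
  calc (m ^ 3 / m ^ n) * (8 * A ^ 2 * lam * w ^ 3) ^ k ≤ (m ^ 3 / m ^ n) * (512 * A ^ 6 * lam * (m ^ k * m ^ 2)) :=
        mul_le_mul_of_nonneg_left b4 (by positivity)
    _ = 512 * A ^ 6 * lam * (m ^ 5 / m ^ r) := by
        rw [hn, pow_add]
        field_simp

theorem l9c_num_u2 {m m' : ℝ} (h0 : 0 < m) (h1 : m ≤ m') (h4 : m' ≤ 4 * m) (hm1 : m ≤ 1) {r : ℕ} (hr1 : 1 ≤ r) (hr4 : r ≤ 4) :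
    (m' ^ 5 / m' ^ r) * (m ^ 2 * m ^ (r - 2)) ≤ 256 * m ^ 5 := by
  have h0' : 0 < m' := h0.trans_le h1
  have e : m' ^ 5 / m' ^ r = m' ^ (5 - r) := by
    rw [div_eq_iff (by positivity), ← pow_add]
    congr 1
    omega
  rw [e]
  have b : m' ^ (5 - r) ≤ (4 * m) ^ (5 - r) := pow_le_pow_left₀ h0'.le h4 _
  refine (mul_le_mul_of_nonneg_right b (by positivity)).trans ?_
  interval_cases r
  · have : m ^ 6 ≤ m ^ 5 := pow_le_pow_of_le_one h0.le hm1 (by norm_num)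
    norm_num
    nlinarith
  · norm_num
    have : 0 < m ^ 5 := by positivity
    nlinarith
  · norm_num
    have : 0 < m ^ 5 := by positivity
    nlinarith
  · norm_num
    have : 0 < m ^ 5 := by positivity
    nlinarith

/-- `(2 A²)^(r-2) ≤ 4 A⁴` -/
theorem l9c_u3 {A : ℝ} (hA : 1 ≤ A) {r : ℕ} (hr4 : r ≤ 4) : (2 * A ^ 2) ^ (r - 2) ≤ 4 * A ^ 4 := by
  have h2 : (1 : ℝ) ≤ 2 * A ^ 2 := by nlinarith
  calc (2 * A ^ 2) ^ (r - 2) ≤ (2 * A ^ 2) ^ 2 := pow_le_pow_right₀ h2 (by omega)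
    _ = 4 * A ^ 4 := by ring

/-- cost of one step -/
theorem l9c_step_num {A A4 lam z m m' D : ℝ} (hA : 1 ≤ A) (hA4 : 0 ≤ A4) (hl0 : 0 < lam) (_hz : 0 ≤ z) (h0 : 0 < m) (h1 : m ≤ m') (h4 : m' ≤ 4 * m)
    (hm1 : m ≤ 1) (hD : 0 ≤ D) {r : ℕ} (hr1 : 1 ≤ r) (hr4 : r ≤ 4) :
    A4 * (512 * A ^ 6 * lam * (m' ^ 5 / m' ^ r)) * D * (2 ^ r * ((A * (z * m)) ^ 2 * (2 * A ^ 2 * m) ^ (r - 2)))
      ≤ (512 * 16 * 4 * 256) * D * A4 * A ^ 12 * (lam * m ^ 5 * z ^ 2) := by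
  have b2 := l9c_num_u2 h0 h1 h4 hm1 hr1 hr4
  have b3 := l9c_u3 hA hr4
  have b4 : (2 : ℝ) ^ r ≤ 16 := by
    calc (2 : ℝ) ^ r ≤ 2 ^ 4 := pow_le_pow_right₀ (by norm_num) hr4
      _ = 16 := by norm_num
  have e : A4 * (512 * A ^ 6 * lam * (m' ^ 5 / m' ^ r)) * D * (2 ^ r * ((A * (z * m)) ^ 2 * (2 * A ^ 2 * m) ^ (r - 2)))
      = (512 * D * A4 * A ^ 8 * lam * z ^ 2) * (2 ^ r * ((2 * A ^ 2) ^ (r - 2) * ((m' ^ 5 / m' ^ r) * (m ^ 2 * m ^ (r - 2))))) := by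
    rw [mul_pow (2 * A ^ 2) m]
    ring
  rw [e]
  have hm' : 0 < m' := h0.trans_le h1
  have b5 : 2 ^ r * ((2 * A ^ 2) ^ (r - 2) * ((m' ^ 5 / m' ^ r) * (m ^ 2 * m ^ (r - 2)))) ≤ 16 * ((4 * A ^ 4) * (256 * m ^ 5)) :=
    mul_le_mul b4 (mul_le_mul b3 b2 (by positivity) (by positivity)) (by positivity) (by norm_num)
  calc (512 * D * A4 * A ^ 8 * lam * z ^ 2) * (2 ^ r * ((2 * A ^ 2) ^ (r - 2) * ((m' ^ 5 / m' ^ r) * (m ^ 2 * m ^ (r - 2)))))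
      ≤ (512 * D * A4 * A ^ 8 * lam * z ^ 2) * (16 * ((4 * A ^ 4) * (256 * m ^ 5))) := mul_le_mul_of_nonneg_left b5 (by positivity)
    _ = _ := by ring

/-- cost of the first projection -/
theorem l9c_first_num {A T0 z m : ℝ} (hA : 1 ≤ A) (hT : 0 ≤ T0) (_hz : 0 ≤ z) (h0 : 0 < m) (hm1 : m ≤ 1) {r : ℕ} (hr4 : r ≤ 4) :
    A * T0 * (2 ^ r * ((A * (z * m)) ^ 2 * (2 * A ^ 2 * m) ^ (r - 2))) ≤ 64 * A ^ 7 * T0 * (z ^ 2 * m ^ 2) := by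
  have b3 := l9c_u3 hA hr4
  have b4 : (2 : ℝ) ^ r ≤ 16 := by
    calc (2 : ℝ) ^ r ≤ 2 ^ 4 := pow_le_pow_right₀ (by norm_num) hr4
      _ = 16 := by norm_num
  have b5 : (2 * A ^ 2 * m) ^ (r - 2) ≤ 4 * A ^ 4 := by
    refine le_trans (pow_le_pow_left₀ (by positivity) ?_ _) b3
    have : 0 ≤ 2 * A ^ 2 := by positivity
    nlinarith
  calc A * T0 * (2 ^ r * ((A * (z * m)) ^ 2 * (2 * A ^ 2 * m) ^ (r - 2)))
      ≤ A * T0 * (16 * ((A * (z * m)) ^ 2 * (4 * A ^ 4))) :=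
        mul_le_mul_of_nonneg_left (mul_le_mul b4 (mul_le_mul_of_nonneg_left b5 (by positivity)) (by positivity) (by norm_num)) (by positivity)
    _ = _ := by ring

/-! ## 8. one band vector -/

/-- side conditions on the numbers at one point -/
structure L9Q.Side (Q : L9Q) (Mj : L9Mj) (A vt Cs cmax V δm : ℝ) : Prop where
  A1 : 1 ≤ A
  Cs16 : 16 ≤ Cs
  x_pos : 0 < Q.x
  x_le : Q.x ≤ 1
  lam_pos : 0 < Q.lam
  lam_le : Q.lam ≤ 1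
  xU : Q.x ≤ Q.U
  YV : Q.Y Mj ≤ V
  Vc : 8 * Cs * V ≤ cmax
  c_vt : cmax ≤ vt
  c_a : cmax ≤ Q.p.a
  c_1 : cmax ≤ 1
  z_le : Q.z0 (Q.Y Mj) ≤ 1
  mesh : δm ≤ Q.x

/-- all the supplies at one point -/
structure L9Q.Bd (Q : L9Q) (Mj : L9Mj) (A A4 vt K Cs cmax V δm T0 : ℝ) (e : ℕ → ℝ) : Prop where
  side : Q.Side Mj A vt Cs cmax V δm
  a4 : 0 ≤ A4
  adm : Q.Adm δm
  e4 : Q.E4 A4 Cs cmax
  d0 : Q.D0 A T0 V
  sup : Q.Sup Mj A vt K (2 * Cs) e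

/-- the designated split `i` (a depth) lies in its band, below `V` -/
def L9Q.Wb (Q : L9Q) (Y V : ℝ) (β : ℕ → ℕ) : ℕ → ℕ → Prop := fun i v => l9Band Y (β i) (Q.ms v) ∧ Q.ms v < V

theorem l9c_wb_eqns_cite : True := by
  have := @L9Q.Wb.eq_1
  trivial

theorem l9c_tb_mem (Q : L9Q) (Y V : ℝ) (β : ℕ → ℕ) (n : ℕ) (τ : JtTopo) :
    τ ∈ Q.Tb (l9RgB Y V β) n ↔ τ ∈ l9aTab Q.N (2 * n) ∧ ∀ i, i < n → Q.Wb Y V β i (τ (2 * i) (2 * i + 1)) := by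
  classical
  unfold L9Q.Tb
  rw [Finset.mem_filter]
  rfl

section band
variable {Q : L9Q} {Mj : L9Mj} {A A4 vt K Cs cmax V δm T0 : ℝ} {e : ℕ → ℝ}

namespace L9Q.Bd

theorem U_pos (h : Q.Bd Mj A A4 vt K Cs cmax V δm T0 e) : 0 < Q.U := h.side.x_pos.trans_le h.side.xU

theorem U_le_Y (h : Q.Bd Mj A A4 vt K Cs cmax V δm T0 e) : Q.U ≤ Q.Y Mj := by
  have := h.sup.z1
  have := h.U_pos
  unfold L9Q.Y
  nlinarith

theorem Y_pos (h : Q.Bd Mj A A4 vt K Cs cmax V δm T0 e) : 0 < Q.Y Mj := h.U_pos.trans_le h.U_le_Y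

theorem lam1_pos (h : Q.Bd Mj A A4 vt K Cs cmax V δm T0 e) : 0 < Q.lam1 := by
  unfold L9Q.lam1 LlPt.lam1
  exact Real.rpow_pos_of_pos h.side.lam_pos _

theorem T0_nn (h : Q.Bd Mj A A4 vt K Cs cmax V δm T0 e) : 0 ≤ T0 := by
  have h1 := h.d0 2 le_rfl (by norm_num) ∅ (Finset.empty_subset _)
  have h2 : 0 ≤ A * T0 := (Finset.sum_nonneg fun _ _ => abs_nonneg _).trans h1
  have := h.side.A1
  by_contra hh
  nlinarith [not_le.1 hh]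

theorem E3_nn (h : Q.Bd Mj A A4 vt K Cs cmax V δm T0 e) : 0 ≤ Q.E3 Mj K := by
  have hx := h.side.x_pos
  have hl := h.side.lam_pos
  have hY := h.Y_pos
  have hZ : 0 < Q.Zc Mj := lt_of_lt_of_le one_pos h.sup.z1
  have hg : 0 ≤ Q.gB Mj := by
    unfold L9Q.gB
    exact div_nonneg (Real.rpow_nonneg hl.le _) (Real.rpow_nonneg hZ.le _)
  have hxK : 0 ≤ Q.x ^ K := Real.rpow_nonneg hx.le _
  unfold L9Q.E3
  positivity

theorem cmax_pos (h : Q.Bd Mj A A4 vt K Cs cmax V δm T0 e) : 0 < cmax := by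
  have h1 := h.side.Vc
  have h2 := h.side.YV
  have h3 := h.Y_pos
  have h4 := h.side.Cs16
  nlinarith

theorem Lg_nn (h : Q.Bd Mj A A4 vt K Cs cmax V δm T0 e) : 0 ≤ Q.Lg := by
  unfold L9Q.Lg
  have : 0 ≤ Real.logb 2 (1 / Q.x) :=
    Real.logb_nonneg (by norm_num) (by rw [le_div_iff₀ h.side.x_pos]; linarith [h.side.x_le])
  linarith

theorem E2_nn (h : Q.Bd Mj A A4 vt K Cs cmax V δm T0 e) (n : ℕ) (R : Finset ℕ) {c : ℕ} (hc : c ≤ Q.N + 1) {w : ℝ} (hw : 0 ≤ w) (sk : JtTopo) :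
    0 ≤ Q.E2 Mj e n R c w sk := by
  have hl := h.side.lam_pos
  have hY := h.Y_pos
  have hv := l9r_vol_nonneg (Q.isMs h.adm) (2 * n) hc sk
  have hp : 0 ≤ ∏ i ∈ Finset.range n \ R, e (sk (2 * i) (2 * i + 1)) := Finset.prod_nonneg fun i _ => h.sup.e_nn _
  unfold L9Q.E2
  refine mul_nonneg (mul_nonneg (mul_nonneg (by positivity) hp) ?_) hv
  split_ifs
  · exact div_nonneg (hY.le.trans (le_max_right _ _)) hw
  · exact zero_le_one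

/-- a designated split of the region -/
theorem W_le (h : Q.Bd Mj A A4 vt K Cs cmax V δm T0 e) {n : ℕ} {β : ℕ → ℕ} {i v : ℕ} (hi : i < n) (hW : Q.Wb (Q.Y Mj) V β i v) :
    Q.ms v ≤ 2 * l9Bw (Q.Y Mj) n β ∧ v ≤ Q.N ∧ Q.ms v ≤ vt := by
  have hY := h.Y_pos
  have hV : Q.ms v < cmax := by
    have h1 := h.side.Vc
    have h2 := h.side.YV
    have h4 := h.side.Cs16
    have h5 := hW.2
    nlinarith
  refine ⟨l9c_band_le_w hY.le hi hW.1, ?_, (hV.le).trans h.side.c_vt⟩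
  by_contra hh
  have := Q.ms_top (v := v) (by omega)
  rw [this] at hV
  exact absurd h.side.c_a (not_le.2 hV)

/-- the splits of the region lie before a cut of mass `≥ 2 Cs w` -/
theorem depth (h : Q.Bd Mj A A4 vt K Cs cmax V δm T0 e) {n : ℕ} {β : ℕ → ℕ} {c : ℕ} (hc : c ≤ Q.N + 1)
    (h1 : 2 * Cs * l9Bw (Q.Y Mj) n β ≤ Q.mc c) {i v : ℕ} (hi : i < n) (hW : Q.Wb (Q.Y Mj) V β i v) : v < c := by
  have hY := h.Y_pos
  have hw : 0 < l9Bw (Q.Y Mj) n β := hY.trans_le (l9c_bw_ge hY.le n β)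
  have h2 := (h.W_le hi hW).1
  have h4 := h.side.Cs16
  refine l9c_depth_lt (Q.isMs h.adm) (fun v hv => by rw [Q.ms_top hv, Q.ms_top le_rfl]) hc ?_
  show Q.ms v < Q.mc c
  nlinarith

/-- **B1** the setting of `l9r_main` -/
theorem set (h : Q.Bd Mj A A4 vt K Cs cmax V δm T0 e) {n : ℕ} (hn : n ≤ 4) {R : Finset ℕ} (hR : R ⊆ Finset.range n) (β : ℕ → ℕ) (en : Bool) :
    L9rSet (Q.X en) (2 * n) 4 R (Q.Tb (l9RgB (Q.Y Mj) V β) n) (Q.Wb (Q.Y Mj) V β) (fun _ => 2 * A ^ 2 * l9Bw (Q.Y Mj) n β) := by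
  have hY := h.Y_pos
  have hA := h.side.A1
  have hw : 0 < l9Bw (Q.Y Mj) n β := hY.trans_le (l9c_bw_ge hY.le n β)
  refine ⟨(Q.law h.adm en).l9rPos, fun i hi => ?_, ?_, by norm_num, fun τ hτ => ?_, fun τ hτ i hi => ?_, fun _ _ => by positivity,
    fun i hi v hv => ?_⟩
  · have := Finset.mem_range.1 (hR hi)
    omega
  · calc R.card ≤ (Finset.range n).card := Finset.card_le_card hR
      _ = n := Finset.card_range n
      _ ≤ 4 := hn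
  · exact (l9a_mem_tab.1 ((l9c_tb_mem Q _ _ _ _ _).1 hτ).1).1
  · exact ((l9c_tb_mem Q _ _ _ _ _).1 hτ).2 i (Finset.mem_range.1 (hR hi))
  · obtain ⟨k1, k2, k3⟩ := h.W_le (Finset.mem_range.1 (hR hi)) hv
    have e1 := h.sup.e_le v k2 k3
    have e0 := h.sup.e_nn v
    have e2 : max (Q.ms v) (Q.Y Mj) ≤ 2 * l9Bw (Q.Y Mj) n β := max_le k1 (by linarith [l9c_bw_ge hY.le n β])
    refine (h.sup.d2 en v k2 k3).mono (by positivity) ?_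
    calc A * e v ≤ A * (A * (2 * l9Bw (Q.Y Mj) n β)) :=
          mul_le_mul_of_nonneg_left (e1.trans (mul_le_mul_of_nonneg_left e2 (by linarith))) (by linarith)
      _ = _ := by ring

/-- **B2** one cut -/
theorem at_cut (h : Q.Bd Mj A A4 vt K Cs cmax V δm T0 e) {n : ℕ} {R : Finset ℕ} (hR : R ⊆ Finset.range n) (β : ℕ → ℕ) (en : Bool) {c : ℕ}
    (hc : c ≤ Q.N + 1) (h1 : 2 * Cs * l9Bw (Q.Y Mj) n β ≤ Q.mc c) (h2 : Q.mc c ≤ cmax) :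
    L9rAt (Q.X en) 4 R (Q.Wb (Q.Y Mj) V β) c (fun _ => A * (Q.z0 (Q.mc c) * Q.mc c)) := by
  have hY := h.Y_pos
  have hA := h.side.A1
  have h4 := h.side.Cs16
  have hw : 0 < l9Bw (Q.Y Mj) n β := hY.trans_le (l9c_bw_ge hY.le n β)
  have hYw := l9c_bw_ge hY.le n β
  have hm : 0 < Q.mc c := by nlinarith
  have hz : 0 ≤ Q.z0 (Q.mc c) := by
    unfold L9Q.z0
    have := h.side.x_pos
    positivity
  refine ⟨hc, fun i hi v hv => (h.depth hc h1 (Finset.mem_range.1 (hR hi)) hv).le, fun _ _ => by positivity, fun i hi v hv => ?_⟩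
  have hi' := Finset.mem_range.1 (hR hi)
  obtain ⟨k1, k2, k3⟩ := h.W_le hi' hv
  exact h.sup.p87 en v c (h.depth hc h1 hi' hv).le hc (by nlinarith) (by nlinarith) (h2.trans h.side.c_vt)

/-- the skeletons of the region are separated from a cut of mass `≥ 2 Cs w` -/
theorem sepW (h : Q.Bd Mj A A4 vt K Cs cmax V δm T0 e) {n : ℕ} {β : ℕ → ℕ} {c : ℕ} (h1 : 2 * Cs * l9Bw (Q.Y Mj) n β ≤ Q.mc c) {sk : JtTopo}
    (hsk : ∀ i, i < n → Q.Wb (Q.Y Mj) V β i (sk (2 * i) (2 * i + 1))) : Q.Sep Cs n c sk := by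
  intro i hi
  have h2 := (h.W_le hi (hsk i hi)).1
  have h3 := h.side.Cs16
  unfold L9Q.vm
  nlinarith

/-- the factors `d`, `e` at a designated split of the region -/
theorem dA_le (h : Q.Bd Mj A A4 vt K Cs cmax V δm T0 e) {n : ℕ} {β : ℕ → ℕ} {i v : ℕ} (hi : i < n) (hW : Q.Wb (Q.Y Mj) V β i v) :
    0 ≤ Q.dA v ∧ Q.dA v ≤ 4 * A * Q.lam * l9Bw (Q.Y Mj) n β ^ 2 * e v ∧ e v ≤ 2 * A * l9Bw (Q.Y Mj) n β := by
  obtain ⟨a1, a2, a3⟩ := h.W_le hi hW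
  have hA := h.side.A1
  have hl := h.side.lam_pos
  have hY := h.Y_pos
  have hw := l9c_bw_ge hY.le n β
  have hmax : max (Q.ms v) (Q.Y Mj) ≤ 2 * l9Bw (Q.Y Mj) n β := max_le a1 (by linarith)
  have hmax0 : 0 < max (Q.ms v) (Q.Y Mj) := hY.trans_le (le_max_right _ _)
  have he := h.sup.e_nn v
  refine ⟨by unfold L9Q.dA; positivity, (h.sup.d_le v a2 a3).trans ?_, (h.sup.e_le v a2 a3).trans ?_⟩
  · have h2 : max (Q.ms v) (Q.Y Mj) ^ 2 ≤ (2 * l9Bw (Q.Y Mj) n β) ^ 2 := pow_le_pow_left₀ hmax0.le hmax 2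
    calc A * Q.lam * max (Q.ms v) (Q.Y Mj) ^ 2 * e v ≤ A * Q.lam * (2 * l9Bw (Q.Y Mj) n β) ^ 2 * e v :=
          mul_le_mul_of_nonneg_right (mul_le_mul_of_nonneg_left h2 (by positivity)) he
      _ = _ := by ring
  · calc A * max (Q.ms v) (Q.Y Mj) ≤ A * (2 * l9Bw (Q.Y Mj) n β) := mul_le_mul_of_nonneg_left hmax (by positivity)
      _ = _ := by ring

/-- **B3** (E4) at an intermediate cut -/
theorem e4_step (h : Q.Bd Mj A A4 vt K Cs cmax V δm T0 e) {n : ℕ} (hn2 : 2 ≤ n) (hn : n ≤ 4) {R : Finset ℕ} (hR : R ⊆ Finset.range n)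
    (hRne : R.Nonempty) (β : ℕ → ℕ) {c : ℕ} (hc : c ≤ Q.N + 1) (h1 : 2 * Cs * l9Bw (Q.Y Mj) n β ≤ Q.mc c) (h2 : Q.mc c ≤ cmax)
    (sk : JtTopo) (hsk : ∀ i, i < n → Q.Wb (Q.Y Mj) V β i (sk (2 * i) (2 * i + 1))) :
    |l9rB (l9aTab Q.N (2 * n)) (Q.Ht n R) (2 * n) c sk|
      ≤ A4 * (512 * A ^ 6 * Q.lam * (Q.mc c ^ 5 / Q.mc c ^ R.card)) * l9rVol Q.ms (2 * n) c sk := by
  have hA := h.side.A1
  have hCs := h.side.Cs16
  have hl := h.side.lam_pos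
  have hY := h.Y_pos
  have hA4 := h.a4
  have hwY := l9c_bw_ge hY.le n β
  obtain ⟨w, hw⟩ : ∃ w, w = l9Bw (Q.Y Mj) n β := ⟨_, rfl⟩
  rw [← hw] at h1 hwY
  have hw0 : 0 < w := hY.trans_le hwY
  obtain ⟨m, hm⟩ : ∃ m, m = Q.mc c := ⟨_, rfl⟩
  have hwm : w ≤ m := by rw [hm]; nlinarith
  have hm0 : 0 < m := hw0.trans_le hwm
  have hm1 : m ≤ 1 := by rw [hm]; exact h2.trans h.side.c_1
  have hvol := l9r_vol_nonneg (Q.isMs h.adm) (2 * n) hc sk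
  have hmain := h.e4.main n hn2 hn R hR hRne c hc (by rw [← hm]; exact (h.U_le_Y.trans hwY).trans hwm) h2 sk
    (h.sepW (by rw [← hw]; exact h1) hsk)
  refine hmain.trans ?_
  rw [← hm]
  refine mul_le_mul_of_nonneg_right ?_ hvol
  rw [mul_assoc]
  refine mul_le_mul_of_nonneg_left ?_ hA4
  unfold L9Q.G4
  by_cases hRn : R = Finset.range n
  · rw [if_pos hRn, ← hm, hRn, Finset.card_range]
    have h512 : (1 : ℝ) ≤ 512 * A ^ 6 := by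
      have : (1 : ℝ) ≤ A ^ 6 := one_le_pow₀ hA
      linarith
    have hP : 0 ≤ Q.lam * (m ^ 5 / m ^ n) := by positivity
    calc m ^ 3 / m ^ n * (Q.lam * m ^ 2) = 1 * (Q.lam * (m ^ 5 / m ^ n)) := by ring
      _ ≤ 512 * A ^ 6 * (Q.lam * (m ^ 5 / m ^ n)) := mul_le_mul_of_nonneg_right h512 hP
      _ = _ := by ring
  · rw [if_neg hRn]
    have hcard : (Finset.range n \ R).card = n - R.card := by
      rw [Finset.card_sdiff_of_subset hR, Finset.card_range]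
    have hlt : R.card < n := by
      have := Finset.card_lt_card (Finset.ssubset_iff_subset_ne.2 ⟨hR, hRn⟩)
      rwa [Finset.card_range] at this
    have hr1 : 1 ≤ R.card := hRne.card_pos
    have hprod : ∏ i ∈ Finset.range n \ R, Q.dA (sk (2 * i) (2 * i + 1)) ≤ (8 * A ^ 2 * Q.lam * w ^ 3) ^ (n - R.card) := by
      rw [← hcard, ← Finset.prod_const]
      refine Finset.prod_le_prod (fun i hi => ?_) fun i hi => ?_
      · exact (h.dA_le (Finset.mem_range.1 (Finset.mem_sdiff.1 hi).1) (hsk i (Finset.mem_range.1 (Finset.mem_sdiff.1 hi).1))).1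
      · obtain ⟨_, b2, b3⟩ := h.dA_le (Finset.mem_range.1 (Finset.mem_sdiff.1 hi).1) (hsk i (Finset.mem_range.1 (Finset.mem_sdiff.1 hi).1))
        rw [← hw] at b2 b3
        refine b2.trans ?_
        calc 4 * A * Q.lam * w ^ 2 * e (sk (2 * i) (2 * i + 1)) ≤ 4 * A * Q.lam * w ^ 2 * (2 * A * w) :=
              mul_le_mul_of_nonneg_left b3 (by positivity)
          _ = _ := by ring
    refine (mul_le_mul_of_nonneg_left hprod (by positivity)).trans ?_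
    exact l9c_u1 hA hl h.side.lam_le hw0.le hwm hm0 hm1 (by omega : n = R.card + (n - R.card)) (by omega) (by omega)

/-- scales at a cut above the region -/
theorem cut_sc (h : Q.Bd Mj A A4 vt K Cs cmax V δm T0 e) (n : ℕ) (β : ℕ → ℕ) {c : ℕ} (h1 : 2 * Cs * l9Bw (Q.Y Mj) n β ≤ Q.mc c) (h2 : Q.mc c ≤ cmax) :
    0 < l9Bw (Q.Y Mj) n β ∧ l9Bw (Q.Y Mj) n β ≤ Q.mc c ∧ Q.mc c ≤ 1 ∧ Q.U ≤ Q.mc c := by
  have hY := h.Y_pos
  have h4 := h.side.Cs16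
  have hYw := l9c_bw_ge hY.le n β
  have hw : 0 < l9Bw (Q.Y Mj) n β := hY.trans_le hYw
  have hwm : l9Bw (Q.Y Mj) n β ≤ Q.mc c := by nlinarith
  exact ⟨hw, hwm, h2.trans h.side.c_1, (h.U_le_Y.trans hYw).trans hwm⟩

/-- the factor of (E4) in the region: `G4 ≤ 64 A³ λ m_c² ∏_{i ∉ R} e(v_i)` -/
theorem G4_le (h : Q.Bd Mj A A4 vt K Cs cmax V δm T0 e) {n : ℕ} (hn : n ≤ 4) {R : Finset ℕ} (hR : R ⊆ Finset.range n) (hRne : R.Nonempty)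
    (β : ℕ → ℕ) {c : ℕ} (h1 : 2 * Cs * l9Bw (Q.Y Mj) n β ≤ Q.mc c) (h2 : Q.mc c ≤ cmax)
    (sk : JtTopo) (hsk : ∀ i, i < n → Q.Wb (Q.Y Mj) V β i (sk (2 * i) (2 * i + 1))) :
    0 ≤ Q.G4 n R c sk ∧ Q.G4 n R c sk ≤ 64 * A ^ 3 * Q.lam * Q.mc c ^ 2 * ∏ i ∈ Finset.range n \ R, e (sk (2 * i) (2 * i + 1)) := by
  have hA := h.side.A1
  have hl := h.side.lam_pos
  have hl1 := h.side.lam_le
  obtain ⟨hw, hwm, hm1, -⟩ := h.cut_sc n β h1 h2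
  have hm0 : 0 < Q.mc c := hw.trans_le hwm
  have hA3 : 1 ≤ A ^ 3 := one_le_pow₀ hA
  unfold L9Q.G4
  by_cases hRn : R = Finset.range n
  · rw [if_pos hRn, hRn, Finset.sdiff_self, Finset.prod_empty, mul_one]
    refine ⟨by positivity, ?_⟩
    have : 0 ≤ Q.lam * Q.mc c ^ 2 := by positivity
    nlinarith
  · rw [if_neg hRn]
    have hlt : R.card < n := by
      have := Finset.card_lt_card (Finset.ssubset_iff_subset_ne.2 ⟨hR, hRn⟩)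
      rwa [Finset.card_range] at this
    have hc1 : 1 ≤ R.card := Finset.card_pos.2 hRne
    have hk : (Finset.range n \ R).card = n - R.card := by rw [Finset.card_sdiff_of_subset hR, Finset.card_range]
    have hP0 : 0 ≤ ∏ i ∈ Finset.range n \ R, e (sk (2 * i) (2 * i + 1)) := Finset.prod_nonneg fun i _ => h.sup.e_nn _
    have hd0 : ∀ v, 0 ≤ Q.dA v := fun v => by unfold L9Q.dA; positivity
    refine ⟨Finset.prod_nonneg fun i _ => hd0 _, ?_⟩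
    have num : (4 * A * Q.lam * l9Bw (Q.Y Mj) n β ^ 2) ^ (n - R.card) ≤ 64 * A ^ 3 * Q.lam * Q.mc c ^ 2 := by
      have e1 : (4 * A * Q.lam * l9Bw (Q.Y Mj) n β ^ 2) ^ (n - R.card)
          = (4 * A) ^ (n - R.card) * Q.lam ^ (n - R.card) * (l9Bw (Q.Y Mj) n β ^ 2) ^ (n - R.card) := by rw [mul_pow, mul_pow]
      have b1 : (4 * A) ^ (n - R.card) ≤ 64 * A ^ 3 := by
        calc (4 * A) ^ (n - R.card) ≤ (4 * A) ^ 3 := pow_le_pow_right₀ (by linarith) (by omega)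
          _ = 64 * A ^ 3 := by ring
      have b2 : Q.lam ^ (n - R.card) ≤ Q.lam := by
        calc Q.lam ^ (n - R.card) ≤ Q.lam ^ 1 := pow_le_pow_of_le_one hl.le hl1 (by omega)
          _ = Q.lam := pow_one _
      have hw2 : l9Bw (Q.Y Mj) n β ^ 2 ≤ 1 := pow_le_one₀ hw.le (hwm.trans hm1)
      have b3 : (l9Bw (Q.Y Mj) n β ^ 2) ^ (n - R.card) ≤ Q.mc c ^ 2 := by
        calc (l9Bw (Q.Y Mj) n β ^ 2) ^ (n - R.card) ≤ (l9Bw (Q.Y Mj) n β ^ 2) ^ 1 := pow_le_pow_of_le_one (by positivity) hw2 (by omega)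
          _ = l9Bw (Q.Y Mj) n β ^ 2 := pow_one _
          _ ≤ Q.mc c ^ 2 := pow_le_pow_left₀ hw.le hwm 2
      rw [e1]
      exact mul_le_mul (mul_le_mul b1 b2 (by positivity) (by positivity)) b3 (by positivity) (by positivity)
    calc ∏ i ∈ Finset.range n \ R, Q.dA (sk (2 * i) (2 * i + 1))
        ≤ ∏ i ∈ Finset.range n \ R, (4 * A * Q.lam * l9Bw (Q.Y Mj) n β ^ 2) * e (sk (2 * i) (2 * i + 1)) :=
          Finset.prod_le_prod (fun i _ => hd0 _) fun i hi =>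
            (h.dA_le (Finset.mem_range.1 (Finset.mem_sdiff.1 hi).1) (hsk i (Finset.mem_range.1 (Finset.mem_sdiff.1 hi).1))).2.1
      _ = (4 * A * Q.lam * l9Bw (Q.Y Mj) n β ^ 2) ^ (n - R.card) * ∏ i ∈ Finset.range n \ R, e (sk (2 * i) (2 * i + 1)) := by
          rw [Finset.prod_mul_distrib, Finset.prod_const, hk]
      _ ≤ _ := mul_le_mul_of_nonneg_right num hP0

/-- **B4** (E4) ⇒ (E2') at the final cut -/
theorem e4_fin (h : Q.Bd Mj A A4 vt K Cs cmax V δm T0 e) {n : ℕ} (hn2 : 2 ≤ n) (hn : n ≤ 4) {R : Finset ℕ} (hR : R ⊆ Finset.range n)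
    (hRne : R.Nonempty) (β : ℕ → ℕ) {c : ℕ} (hc : c ≤ Q.N + 1) (h1 : 2 * Cs * l9Bw (Q.Y Mj) n β ≤ Q.mc c) (h2 : Q.mc c ≤ cmax)
    (h3 : Q.mc c ≤ 8 * Cs * l9Bw (Q.Y Mj) n β) (sk : JtTopo) (hsk : ∀ i, i < n → Q.Wb (Q.Y Mj) V β i (sk (2 * i) (2 * i + 1))) :
    |l9rB (l9aTab Q.N (2 * n)) (Q.Ht n R) (2 * n) c sk|
      ≤ A4 * ((8 * Cs) ^ 3 * (64 * A ^ 3)) * Q.E2 Mj e n R c (l9Bw (Q.Y Mj) n β) sk := by
  classical
  have hA := h.side.A1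
  have hl := h.side.lam_pos
  have h16 := h.side.Cs16
  have hY := h.Y_pos
  obtain ⟨hw, hwm, hm1, hU⟩ := h.cut_sc n β h1 h2
  have hm0 : 0 < Q.mc c := hw.trans_le hwm
  obtain ⟨g0, g1⟩ := h.G4_le hn hR hRne β h1 h2 sk hsk
  have hvol := l9r_vol_nonneg (Q.isMs h.adm) (2 * n) hc sk
  have hP0 : 0 ≤ ∏ i ∈ Finset.range n \ R, e (sk (2 * i) (2 * i + 1)) := Finset.prod_nonneg fun i _ => h.sup.e_nn _
  have hc8 : (1 : ℝ) ≤ 8 * Cs := by linarith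
  have hsep := h.sepW h1 hsk
  set m := Q.mc c with hm
  set w := l9Bw (Q.Y Mj) n β with hwdef
  set P := ∏ i ∈ Finset.range n \ R, e (sk (2 * i) (2 * i + 1)) with hPdef
  unfold L9Q.E2
  rw [← hPdef]
  by_cases href : n = 2 ∧ ¬ l9Same sk
  · rw [if_pos href]
    obtain ⟨rfl, hns⟩ := href
    have hmin0 : 0 ≤ min (Q.vm sk 0) (Q.vm sk 1) := le_min ((Q.isMs h.adm).nonneg _) ((Q.isMs h.adm).nonneg _)
    refine (h.e4.ref R hR hRne c hc hU h2 sk hsep hns).trans ?_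
    have e1 : A4 * m * Q.G4 2 R c sk * (max (min (Q.vm sk 0) (Q.vm sk 1)) Q.U / m) * l9rVol Q.ms 4 c sk
        = A4 * (Q.G4 2 R c sk * max (min (Q.vm sk 0) (Q.vm sk 1)) Q.U) * l9rVol Q.ms 4 c sk := by
      field_simp
    have e2 : A4 * ((8 * Cs) ^ 3 * (64 * A ^ 3)) * (Q.lam * (w ^ 5 / w ^ 2) * P * (max (min (Q.vm sk 0) (Q.vm sk 1)) (Q.Y Mj) / w) * l9rVol Q.ms (2 * 2) c sk)
        = A4 * ((8 * Cs) ^ 3 * (64 * A ^ 3) * Q.lam * w ^ 2 * P * max (min (Q.vm sk 0) (Q.vm sk 1)) (Q.Y Mj)) * l9rVol Q.ms 4 c sk := by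
      field_simp
    rw [e1, e2]
    refine mul_le_mul_of_nonneg_right (mul_le_mul_of_nonneg_left ?_ h.a4) hvol
    have b1 : m ^ 2 ≤ (8 * Cs) ^ 3 * w ^ 2 := by
      calc m ^ 2 ≤ (8 * Cs * w) ^ 2 := pow_le_pow_left₀ hm0.le h3 2
        _ = (8 * Cs) ^ 2 * w ^ 2 := by ring
        _ ≤ (8 * Cs) ^ 3 * w ^ 2 := mul_le_mul_of_nonneg_right (pow_le_pow_right₀ hc8 (by norm_num)) (by positivity)
    calc Q.G4 2 R c sk * max (min (Q.vm sk 0) (Q.vm sk 1)) Q.U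
        ≤ (64 * A ^ 3 * Q.lam * ((8 * Cs) ^ 3 * w ^ 2) * P) * max (min (Q.vm sk 0) (Q.vm sk 1)) (Q.Y Mj) :=
          mul_le_mul (g1.trans (mul_le_mul_of_nonneg_right (mul_le_mul_of_nonneg_left b1 (by positivity)) hP0))
            (max_le_max le_rfl h.U_le_Y) (hmin0.trans (le_max_left _ _)) (by positivity)
      _ = _ := by ring
  · rw [if_neg href, mul_one]
    refine (h.e4.main n hn2 hn R hR hRne c hc hU h2 sk hsep).trans ?_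
    have e2 : A4 * ((8 * Cs) ^ 3 * (64 * A ^ 3)) * (Q.lam * (w ^ 5 / w ^ n) * P * l9rVol Q.ms (2 * n) c sk)
        = A4 * ((8 * Cs) ^ 3 * (64 * A ^ 3) * Q.lam * (w ^ 5 / w ^ n) * P) * l9rVol Q.ms (2 * n) c sk := by ring
    rw [e2, mul_assoc A4]
    refine mul_le_mul_of_nonneg_right (mul_le_mul_of_nonneg_left ?_ h.a4) hvol
    have b1 : m ^ 3 / m ^ n * m ^ 2 ≤ (8 * Cs) ^ 3 * (w ^ 5 / w ^ n) := by
      have e3 : m ^ 3 / m ^ n * m ^ 2 = m ^ (5 - n) := by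
        have : m ^ 5 = m ^ n * m ^ (5 - n) := by rw [← pow_add]; congr 1; omega
        rw [div_mul_eq_mul_div, ← pow_add, show 3 + 2 = 5 from rfl, this]
        field_simp
      have e4 : w ^ 5 / w ^ n = w ^ (5 - n) := by
        have : w ^ 5 = w ^ n * w ^ (5 - n) := by rw [← pow_add]; congr 1; omega
        rw [this]
        field_simp
      rw [e3, e4]
      calc m ^ (5 - n) ≤ (8 * Cs * w) ^ (5 - n) := pow_le_pow_left₀ hm0.le h3 _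
        _ = (8 * Cs) ^ (5 - n) * w ^ (5 - n) := by rw [mul_pow]
        _ ≤ (8 * Cs) ^ 3 * w ^ (5 - n) := mul_le_mul_of_nonneg_right (pow_le_pow_right₀ hc8 (by omega)) (by positivity)
    calc m ^ 3 / m ^ n * Q.G4 n R c sk ≤ m ^ 3 / m ^ n * (64 * A ^ 3 * Q.lam * m ^ 2 * P) := mul_le_mul_of_nonneg_left g1 (by positivity)
      _ = (64 * A ^ 3 * Q.lam * P) * (m ^ 3 / m ^ n * m ^ 2) := by ring
      _ ≤ (64 * A ^ 3 * Q.lam * P) * ((8 * Cs) ^ 3 * (w ^ 5 / w ^ n)) := mul_le_mul_of_nonneg_left b1 (by positivity)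
      _ = _ := by ring

/-- **B5** the total mass of the coefficients of one band vector -/
theorem T_le (h : Q.Bd Mj A A4 vt K Cs cmax V δm T0 e) {n : ℕ} (hn2 : 2 ≤ n) (hn : n ≤ 4) {R : Finset ℕ} (hR : R ⊆ Finset.range n) (β : ℕ → ℕ) :
    ∑ τ ∈ Q.Tb (l9RgB (Q.Y Mj) V β) n, |Q.Ht n R τ| ≤ A * T0 := by
  classical
  refine le_trans (Finset.sum_le_sum_of_subset_of_nonneg ?_ fun _ _ _ => abs_nonneg _) (h.d0 n hn2 hn R hR)
  intro τ hτ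
  unfold L9Q.Tb at hτ ⊢
  rw [Finset.mem_filter] at hτ ⊢
  exact ⟨hτ.1, fun i hi => (hτ.2 i hi).2, hn⟩

/-- `z_r^0 ≤ 1` above `Y` -/
theorem z0_le (h : Q.Bd Mj A A4 vt K Cs cmax V δm T0 e) {r : ℝ} (hr : Q.Y Mj ≤ r) : 0 ≤ Q.z0 r ∧ Q.z0 r ≤ 1 := by
  have hx := h.side.x_pos
  have hY := h.Y_pos
  have hr0 : 0 < r := hY.trans_le hr
  have hs : 0 < Real.sqrt Q.lam1 := Real.sqrt_pos.2 h.lam1_pos
  refine ⟨by unfold L9Q.z0; positivity, le_trans ?_ h.side.z_le⟩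
  unfold L9Q.z0
  refine div_le_div_of_nonneg_left (by positivity) (by positivity) ?_
  exact mul_le_mul_of_nonneg_left (pow_le_pow_left₀ hY.le hr 3) hs.le

/-- **B6** no factor `Δ`: the two ensembles give the same number -/
theorem no_R (h : Q.Bd Mj A A4 vt K Cs cmax V δm T0 e) (n : ℕ) (Rg : L9Rg) (H : JtTopo → ℝ) :
    l9rD0 (Q.X true) ∅ (2 * n) (Q.Tb Rg n) H = l9rD0 (Q.X false) ∅ (2 * n) (Q.Tb Rg n) H := by
  have key : ∀ (en : Bool) (τ : JtTopo), l9rNum (Q.X en) ∅ (2 * n) τ = 1 := by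
    intro en τ
    obtain ⟨w, _, hw1, hw⟩ := (Q.law h.adm en).nu.rep (2 * n) τ
    unfold l9rNum
    rw [hw]
    simp only [Finset.prod_empty, mul_one]
    exact hw1
  unfold l9rD0
  simp only [key]

/-- the right side of `l9c_band` -/
theorem rhs_nn (h : Q.Bd Mj A A4 vt K Cs cmax V δm T0 e) :
    0 ≤ T0 * (Q.x ^ 6 / (Q.lam1 * cmax ^ 4)) + A4 * (Q.Lg * (Q.lam * Q.x ^ 6 / (Q.lam1 * Q.Y Mj)) + Q.E3 Mj K) := by
  have := h.side.x_pos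
  have := h.side.lam_pos
  have := h.lam1_pos
  have := h.Y_pos
  have := h.cmax_pos
  have := h.T0_nn
  have := h.a4
  have := h.Lg_nn
  have := h.E3_nn
  positivity

/-- **B7** cost of the first projection -/
theorem first_cost (h : Q.Bd Mj A A4 vt K Cs cmax V δm T0 e) {m : ℝ} (h1 : cmax / 2 ≤ m) (h2 : m ≤ cmax) {r : ℕ} (hr : r ≤ 4) :
    A * T0 * (2 ^ r * ((A * (Q.z0 m * m)) ^ 2 * (2 * A ^ 2 * m) ^ (r - 2))) ≤ 1024 * A ^ 12 * (T0 * (Q.x ^ 6 / (Q.lam1 * cmax ^ 4))) := by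
  have hA := h.side.A1
  have hx := h.side.x_pos
  have hl1 := h.lam1_pos
  have hc := h.cmax_pos
  have hT := h.T0_nn
  have hm0 : 0 < m := lt_of_lt_of_le (by positivity) h1
  have hz0 : 0 ≤ Q.z0 m := by
    have hs : 0 < Real.sqrt Q.lam1 := Real.sqrt_pos.2 hl1
    unfold L9Q.z0
    positivity
  refine (l9c_first_num hA hT hz0 hm0 (h2.trans h.side.c_1) hr).trans ?_
  have e1 : Q.z0 m ^ 2 * m ^ 2 = Q.x ^ 6 / (Q.lam1 * m ^ 4) := by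
    unfold L9Q.z0
    rw [div_pow, mul_pow, Real.sq_sqrt hl1.le]
    field_simp
  have e2 : Q.x ^ 6 / (Q.lam1 * m ^ 4) ≤ 16 * (Q.x ^ 6 / (Q.lam1 * cmax ^ 4)) := by
    have hm4 : (cmax / 2) ^ 4 ≤ m ^ 4 := pow_le_pow_left₀ (by positivity) h1 4
    calc Q.x ^ 6 / (Q.lam1 * m ^ 4) ≤ Q.x ^ 6 / (Q.lam1 * (cmax / 2) ^ 4) :=
          div_le_div_of_nonneg_left (by positivity) (by positivity) (mul_le_mul_of_nonneg_left hm4 hl1.le)
      _ = 16 * (Q.x ^ 6 / (Q.lam1 * cmax ^ 4)) := by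
          field_simp
          ring
  have hA7 : A ^ 7 ≤ A ^ 12 := pow_le_pow_right₀ hA (by norm_num)
  rw [e1]
  have hP : 0 ≤ Q.x ^ 6 / (Q.lam1 * cmax ^ 4) := by positivity
  calc 64 * A ^ 7 * T0 * (Q.x ^ 6 / (Q.lam1 * m ^ 4)) ≤ 64 * A ^ 7 * T0 * (16 * (Q.x ^ 6 / (Q.lam1 * cmax ^ 4))) :=
        mul_le_mul_of_nonneg_left e2 (by positivity)
    _ = A ^ 7 * (1024 * (T0 * (Q.x ^ 6 / (Q.lam1 * cmax ^ 4)))) := by ring
    _ ≤ A ^ 12 * (1024 * (T0 * (Q.x ^ 6 / (Q.lam1 * cmax ^ 4)))) := mul_le_mul_of_nonneg_right hA7 (by positivity)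
    _ = _ := by ring

/-- **B8** cost of one step -/
theorem step_cost (h : Q.Bd Mj A A4 vt K Cs cmax V δm T0 e) {m m' : ℝ} (h0 : Q.Y Mj ≤ m) (h1 : m ≤ m') (h4 : m' ≤ 4 * m) (h2 : m ≤ cmax)
    {n : ℕ} (hn : n ≤ 4) {r : ℕ} (hr1 : 1 ≤ r) (hr : r ≤ 4) :
    A4 * (512 * A ^ 6 * Q.lam * (m' ^ 5 / m' ^ r)) * ((3 * (2 * n) : ℕ) : ℝ) ^ (2 * n) * (2 ^ r * ((A * (Q.z0 m * m)) ^ 2 * (2 * A ^ 2 * m) ^ (r - 2)))
      ≤ (512 * 16 * 4 * 256 * 24 ^ 8) * A ^ 12 * (A4 * (Q.lam * Q.x ^ 6 / (Q.lam1 * Q.Y Mj))) := by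
  have hA := h.side.A1
  have hx := h.side.x_pos
  have hl := h.side.lam_pos
  have hl1 := h.lam1_pos
  have hY := h.Y_pos
  have hA4 := h.a4
  have hm0 : 0 < m := hY.trans_le h0
  have hD0 : (0 : ℝ) ≤ ((3 * (2 * n) : ℕ) : ℝ) ^ (2 * n) := by positivity
  have hD : ((3 * (2 * n) : ℕ) : ℝ) ^ (2 * n) ≤ 24 ^ 8 := by
    interval_cases n <;> norm_num
  refine (l9c_step_num hA hA4 hl (h.z0_le h0).1 hm0 h1 h4 (h2.trans h.side.c_1) hD0 hr1 hr).trans ?_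
  rw [l9c_z0_sq Q hl1 hm0]
  have e2 : Q.lam * Q.x ^ 6 / (Q.lam1 * m) ≤ Q.lam * Q.x ^ 6 / (Q.lam1 * Q.Y Mj) :=
    div_le_div_of_nonneg_left (by positivity) (by positivity) (mul_le_mul_of_nonneg_left h0 hl1.le)
  have hP : 0 ≤ Q.lam * Q.x ^ 6 / (Q.lam1 * m) := by positivity
  calc (512 * 16 * 4 * 256) * ((3 * (2 * n) : ℕ) : ℝ) ^ (2 * n) * A4 * A ^ 12 * (Q.lam * Q.x ^ 6 / (Q.lam1 * m))
      = ((3 * (2 * n) : ℕ) : ℝ) ^ (2 * n) * ((512 * 16 * 4 * 256) * A4 * A ^ 12 * (Q.lam * Q.x ^ 6 / (Q.lam1 * m))) := by ring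
    _ ≤ 24 ^ 8 * ((512 * 16 * 4 * 256) * A4 * A ^ 12 * (Q.lam * Q.x ^ 6 / (Q.lam1 * m))) :=
        mul_le_mul_of_nonneg_right hD (by positivity)
    _ ≤ 24 ^ 8 * ((512 * 16 * 4 * 256) * A4 * A ^ 12 * (Q.lam * Q.x ^ 6 / (Q.lam1 * Q.Y Mj))) :=
        mul_le_mul_of_nonneg_left (mul_le_mul_of_nonneg_left e2 (by positivity)) (by positivity)
    _ = _ := by ring

/-- **B9** the number of steps -/
theorem steps_le (h : Q.Bd Mj A A4 vt K Cs cmax V δm T0 e) {w : ℝ} (hw : Q.Y Mj ≤ w) : Real.logb 2 (cmax / 2 / (2 * Cs * w)) + 1 ≤ Q.Lg := by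
  have hx := h.side.x_pos
  have hY := h.Y_pos
  have hc := h.cmax_pos
  have hCs := h.side.Cs16
  have hw0 : 0 < w := hY.trans_le hw
  have hxw : Q.x ≤ w := (h.side.xU.trans h.U_le_Y).trans hw
  have h1 : cmax / 2 / (2 * Cs * w) ≤ 1 / Q.x := by
    rw [div_le_div_iff₀ (by positivity) hx]
    have := h.side.c_1
    nlinarith
  have h2 : Real.logb 2 (cmax / 2 / (2 * Cs * w)) ≤ Real.logb 2 (1 / Q.x) :=
    Real.logb_le_logb_of_le (by norm_num) (by positivity) h1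
  unfold L9Q.Lg
  linarith

end L9Q.Bd

open Classical in
/-- **RED for one band vector**, constants explicit -/
theorem l9c_band_aux (h : Q.Bd Mj A A4 vt K Cs cmax V δm T0 e) {n : ℕ} (hn2 : 2 ≤ n) (hn : n ≤ 4) {R : Finset ℕ} (hR : R ⊆ Finset.range n)
    (β : ℕ → ℕ) :
    |l9rD0 (Q.X true) R (2 * n) (Q.Tb (l9RgB (Q.Y Mj) V β) n) (Q.Ht n R) - l9rD0 (Q.X false) R (2 * n) (Q.Tb (l9RgB (Q.Y Mj) V β) n) (Q.Ht n R)|
      ≤ (2048 + 2 * (512 * 16 * 4 * 256 * 24 ^ 8) + 64 * (8 * Cs) ^ 3) * A ^ 12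
          * (T0 * (Q.x ^ 6 / (Q.lam1 * cmax ^ 4)) + A4 * (Q.Lg * (Q.lam * Q.x ^ 6 / (Q.lam1 * Q.Y Mj)) + Q.E3 Mj K)) := by
  have hA1 := h.side.A1
  have hCs := h.side.Cs16
  have hY := h.Y_pos
  have hrhs := h.rhs_nn
  have hK0 : (0 : ℝ) ≤ (2048 + 2 * (512 * 16 * 4 * 256 * 24 ^ 8) + 64 * (8 * Cs) ^ 3) * A ^ 12 := by positivity
  -- trivial cases
  rcases R.eq_empty_or_nonempty with rfl | hRne
  · rw [h.no_R, sub_self, abs_zero]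
    exact mul_nonneg hK0 hrhs
  rcases (Q.Tb (l9RgB (Q.Y Mj) V β) n).eq_empty_or_nonempty with h𝒯 | ⟨τ0, hτ0⟩
  · rw [h𝒯]
    simp only [l9rD0, Finset.sum_empty, sub_self, abs_zero]
    exact mul_nonneg hK0 hrhs
  obtain ⟨w, hwdef⟩ : ∃ w, w = l9Bw (Q.Y Mj) n β := ⟨_, rfl⟩
  have hwY : Q.Y Mj ≤ w := hwdef ▸ l9c_bw_ge hY.le n β
  have hw0 : 0 < w := hY.trans_le hwY
  have hwV : w ≤ V := by
    rw [hwdef]
    exact l9c_bw_le hY.le h.side.YV (v := Q.vm τ0) ((l9c_tb_mem Q _ V β n τ0).1 hτ0).2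
  have hms := Q.isMs h.adm
  have hcm : 8 * Cs * w ≤ cmax := le_trans (by nlinarith) h.side.Vc
  have hcm0 : 0 < cmax := lt_of_lt_of_le (by positivity) hcm
  -- the cuts
  obtain ⟨cs, M, hM, hcs, hcN, hcf, hc0, hc0', hcM, hc4⟩ := l9c_cuts hms (δm := δm) (c0 := cmax / 2) (cf := 2 * Cs * w) h.adm.mesh
    (by positivity) (by nlinarith [h.side.mesh, h.side.xU, h.U_le_Y]) (by nlinarith) (by rw [Q.ms_top le_rfl]; linarith [h.side.c_a])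
  have hanti : ∀ k, k ≤ M → cs k ≤ cs 0 := by
    intro k
    induction k with
    | zero => intro _; exact le_rfl
    | succ k ih => intro hk; exact (hcs k hk).trans (ih (by omega))
  have hmc : ∀ k, k ≤ M → Q.mc (cs k) ≤ cmax := fun k hk =>
    (l9c_pm_mono hms (hanti k hk) (hcN 0 (Nat.zero_le _))).trans (by linarith)
  have hcf' : ∀ k, k ≤ M → 2 * Cs * l9Bw (Q.Y Mj) n β ≤ Q.mc (cs k) := fun k hk => hwdef ▸ hcf k hk
  have hwm : ∀ k, k ≤ M → w ≤ Q.mc (cs k) := fun k hk => le_trans (by nlinarith) (hcf k hk)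
  have hr1 : 1 ≤ R.card := hRne.card_pos
  have hr4 : R.card ≤ 4 := by
    have := Finset.card_le_card hR
    rw [Finset.card_range] at this
    omega
  have hfr := l9c_frame (X0 := Q.X false) (X1 := Q.X true) hms (Q.Wb (Q.Y Mj) V β) (Q.Ht n R) (l9c_tb_mem Q (Q.Y Mj) V β n)
    (h.set hn hR β false) (h.set hn hR β true) cs M hcs hcN (fun k hk => hw0.trans_le (hwm k hk))
    (fun k hk i hi v hv => h.depth (hcN k hk) (hcf' k hk) hi hv)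
    (fun k => A * (Q.z0 (Q.mc (cs k)) * Q.mc (cs k))) (fun k => 2 * A ^ 2 * Q.mc (cs k))
    (fun k => A4 * (512 * A ^ 6 * Q.lam * (Q.mc (cs k) ^ 5 / Q.mc (cs k) ^ R.card)))
    (fun k hk => h.at_cut hR β false (hcN k hk) (hcf' k hk) (hmc k hk)) (fun k hk => h.at_cut hR β true (hcN k hk) (hcf' k hk) (hmc k hk))
    (fun k hk => by
      have := (h.z0_le (hwY.trans (hwm k hk))).1
      have := hw0.trans_le (hwm k hk)
      positivity)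
    (fun k hk => by
      have hz := (h.z0_le (hwY.trans (hwm k hk))).2
      have hm := hw0.trans_le (hwm k hk)
      have : Q.z0 (Q.mc (cs k)) * Q.mc (cs k) ≤ 1 * Q.mc (cs k) := mul_le_mul_of_nonneg_right hz hm.le
      nlinarith [mul_pos (show 0 < A by linarith) hm])
    (by rw [← hwdef]; positivity)
    (fun k hk => by
      rw [← hwdef]
      exact mul_le_mul_of_nonneg_left (hwm k hk) (by positivity))
    (fun k hk => by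
      have := hw0.trans_le (hwm k hk.le)
      have := h.a4
      have := h.side.lam_pos
      positivity)
    (h.T_le hn2 hn hR β)
    (fun k hk sk hsk => h.e4_step hn2 hn hR hRne β (hcN k hk.le) (hcf' k hk.le) (hmc k hk.le) sk hsk)
  -- the first projection
  have hfirst := h.first_cost (m := Q.mc (cs 0)) hc0 (by show trPm Q.ms (cs 0) ≤ cmax; linarith) hr4
  -- the steps
  have hX0 : 0 ≤ A4 * (Q.lam * Q.x ^ 6 / (Q.lam1 * Q.Y Mj)) := by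
    have := h.a4
    have := h.side.lam_pos
    have := h.side.x_pos
    have := h.lam1_pos
    positivity
  have hsteps : ∑ k ∈ Finset.range M, A4 * (512 * A ^ 6 * Q.lam * (Q.mc (cs k) ^ 5 / Q.mc (cs k) ^ R.card)) * ((3 * (2 * n) : ℕ) : ℝ) ^ (2 * n)
        * (2 ^ R.card * ((A * (Q.z0 (Q.mc (cs (k + 1))) * Q.mc (cs (k + 1)))) ^ 2 * (2 * A ^ 2 * Q.mc (cs (k + 1))) ^ (R.card - 2)))
      ≤ Q.Lg * ((512 * 16 * 4 * 256 * 24 ^ 8) * A ^ 12 * (A4 * (Q.lam * Q.x ^ 6 / (Q.lam1 * Q.Y Mj)))) := by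
    have hb : ∀ k ∈ Finset.range M, A4 * (512 * A ^ 6 * Q.lam * (Q.mc (cs k) ^ 5 / Q.mc (cs k) ^ R.card)) * ((3 * (2 * n) : ℕ) : ℝ) ^ (2 * n)
        * (2 ^ R.card * ((A * (Q.z0 (Q.mc (cs (k + 1))) * Q.mc (cs (k + 1)))) ^ 2 * (2 * A ^ 2 * Q.mc (cs (k + 1))) ^ (R.card - 2)))
        ≤ (512 * 16 * 4 * 256 * 24 ^ 8) * A ^ 12 * (A4 * (Q.lam * Q.x ^ 6 / (Q.lam1 * Q.Y Mj))) := by
      intro k hk
      have hk' : k < M := Finset.mem_range.1 hk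
      exact h.step_cost (hwY.trans (hwm (k + 1) hk')) (l9c_pm_mono hms (hcs k hk') (hcN k hk'.le)) (hc4 k hk') (hmc (k + 1) hk') hn hr1 hr4
    refine (Finset.sum_le_card_nsmul _ _ _ hb).trans ?_
    rw [Finset.card_range, nsmul_eq_mul]
    exact mul_le_mul_of_nonneg_right (hM.trans (h.steps_le hwY)) (by positivity)
  -- the final cut
  have hL0 : 0 ≤ A4 * ((8 * Cs) ^ 3 * (64 * A ^ 3)) := by
    have := h.a4
    positivity
  have hfin := h.sup.cc n hn2 hn R hR hRne β V (cs M) (hcN M le_rfl) (hcf' M le_rfl)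
    (by rw [← hwdef]; show trPm Q.ms (cs M) ≤ _; linarith) ((hmc M le_rfl).trans h.side.c_vt)
    (fun sk => if ∀ i, i < n → Q.Wb (Q.Y Mj) V β i (sk (2 * i) (2 * i + 1)) then l9rB (l9aTab Q.N (2 * n)) (Q.Ht n R) (2 * n) (cs M) sk else 0)
    (A4 * ((8 * Cs) ^ 3 * (64 * A ^ 3))) hL0
    (fun sk hsk => by
      by_contra hh
      exact hsk (if_neg hh))
    (fun sk => by
      show |ite _ _ _| ≤ _
      split_ifs with hc
      · exact h.e4_fin hn2 hn hR hRne β (hcN M le_rfl) (hcf' M le_rfl) (hmc M le_rfl) (by rw [← hwdef]; show trPm Q.ms (cs M) ≤ _; linarith) sk hc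
      · rw [abs_zero]
        exact mul_nonneg hL0 (h.E2_nn n R (hcN M le_rfl) (by rw [← hwdef]; exact hw0.le) sk))
  have hE3 := h.E3_nn
  have hA4 := h.a4
  have hT0 := h.T0_nn
  have hLg : 0 ≤ Q.Lg := h.Lg_nn
  have hP1 : 0 ≤ T0 * (Q.x ^ 6 / (Q.lam1 * cmax ^ 4)) := by
    have := h.side.x_pos
    have := h.lam1_pos
    positivity
  have hA412 : A ^ 4 ≤ A ^ 12 := pow_le_pow_right₀ hA1 (by norm_num)
  have hX1 : 0 ≤ Q.lam * Q.x ^ 6 / (Q.lam1 * Q.Y Mj) := by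
    have := h.side.lam_pos
    have := h.side.x_pos
    have := h.lam1_pos
    positivity
  have t3 : A4 * ((8 * Cs) ^ 3 * (64 * A ^ 3)) * (A * Q.E3 Mj K) ≤ 64 * (8 * Cs) ^ 3 * A ^ 12 * (A4 * Q.E3 Mj K) := by
    have e : A4 * ((8 * Cs) ^ 3 * (64 * A ^ 3)) * (A * Q.E3 Mj K) = 64 * (8 * Cs) ^ 3 * A ^ 4 * (A4 * Q.E3 Mj K) := by ring
    rw [e]
    exact mul_le_mul_of_nonneg_right (mul_le_mul_of_nonneg_left hA412 (by positivity)) (by positivity)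
  refine (hfr.trans (add_le_add (mul_le_mul_of_nonneg_left (add_le_add hfirst hsteps) (by norm_num)) (hfin.trans t3))).trans ?_
  generalize T0 * (Q.x ^ 6 / (Q.lam1 * cmax ^ 4)) = P1 at hP1 ⊢
  generalize Q.lam * Q.x ^ 6 / (Q.lam1 * Q.Y Mj) = X1 at hX1 ⊢
  generalize Q.E3 Mj K = E3 at hE3 ⊢
  generalize Q.Lg = Lg at hLg ⊢
  have ha : 0 ≤ A ^ 12 := by positivity
  generalize A ^ 12 = a at ha ⊢
  have hc : 0 ≤ (8 * Cs) ^ 3 := by positivity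
  generalize (8 * Cs) ^ 3 = c at hc ⊢
  have q1 := mul_nonneg ha hP1
  have q2 := mul_nonneg ha (mul_nonneg hA4 (mul_nonneg hLg hX1))
  have q3 := mul_nonneg ha (mul_nonneg hA4 hE3)
  have q4 := mul_nonneg hc q1
  have q5 := mul_nonneg hc q2
  nlinarith [q1, q2, q3, q4, q5]

/-- **RED for one band vector**.      `l9r_main` + `l9r_tv_le` + REGION + CUTS + COST; final cut: (E4) ⇒ (E2'), then CC. -/
theorem l9c_band (Cs : ℝ) : ∃ Kc : ℝ, 0 ≤ Kc ∧ ∀ (Q : L9Q) (Mj : L9Mj) (A A4 vt K cmax V δm T0 : ℝ) (e : ℕ → ℝ),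
    Q.Side Mj A vt Cs cmax V δm → 0 ≤ A4 → Q.Adm δm → Q.E4 A4 Cs cmax → Q.D0 A T0 V → Q.Sup Mj A vt K (2 * Cs) e →
    ∀ n, 2 ≤ n → n ≤ 4 → ∀ R, R ⊆ Finset.range n → ∀ β : ℕ → ℕ,
      |l9rD0 (Q.X true) R (2 * n) (Q.Tb (l9RgB (Q.Y Mj) V β) n) (Q.Ht n R) - l9rD0 (Q.X false) R (2 * n) (Q.Tb (l9RgB (Q.Y Mj) V β) n) (Q.Ht n R)|
        ≤ Kc * A ^ 12 * (T0 * (Q.x ^ 6 / (Q.lam1 * cmax ^ 4)) + A4 * (Q.Lg * (Q.lam * Q.x ^ 6 / (Q.lam1 * Q.Y Mj)) + Q.E3 Mj K)) := by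
  refine ⟨|2048 + 2 * (512 * 16 * 4 * 256 * 24 ^ 8) + 64 * (8 * Cs) ^ 3|, abs_nonneg _, ?_⟩
  intro Q Mj A A4 vt K cmax V δm T0 e hS h4 hAd hE4 hD0 hSup n hn2 hn R hR β
  have := hS.Cs16
  rw [abs_of_nonneg (show (0 : ℝ) ≤ 2048 + 2 * (512 * 16 * 4 * 256 * 24 ^ 8) + 64 * (8 * Cs) ^ 3 by positivity)]
  exact l9c_band_aux ⟨hS, h4, hAd, hE4, hD0, hSup⟩ hn2 hn hR β

/-! ## 8b. one point -/

/-- the number of bands -/
theorem L9Q.Bd.bands (h : Q.Bd Mj A A4 vt K Cs cmax V δm T0 e) : ∃ Kb : ℕ, 1 ≤ Kb ∧ V ≤ 2 ^ Kb * Q.Y Mj ∧ (Kb : ℝ) ≤ Q.Lg := by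
  have hx := h.side.x_pos
  have hY := h.Y_pos
  have hCs := h.side.Cs16
  have hV0 : 0 < V := hY.trans_le h.side.YV
  have hxY : Q.x ≤ Q.Y Mj := h.side.xU.trans h.U_le_Y
  have h1 : 1 ≤ V / Q.Y Mj := by rw [le_div_iff₀ hY]; linarith [h.side.YV]
  have hlog0 : 0 ≤ Real.logb 2 (V / Q.Y Mj) := Real.logb_nonneg (by norm_num) h1
  have hVx : V / Q.Y Mj ≤ 1 / Q.x := by
    rw [div_le_div_iff₀ hY hx]
    have h2 := h.side.Vc
    have h3 := h.side.c_1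
    have hV1 : V ≤ 1 := by nlinarith
    nlinarith
  have hlog1 : Real.logb 2 (V / Q.Y Mj) ≤ Real.logb 2 (1 / Q.x) :=
    Real.logb_le_logb_of_le (by norm_num) (by positivity) hVx
  refine ⟨⌈Real.logb 2 (V / Q.Y Mj)⌉₊ + 1, by omega, ?_, ?_⟩
  · have h2 : V / Q.Y Mj ≤ 2 ^ (⌈Real.logb 2 (V / Q.Y Mj)⌉₊ + 1) := by
      calc V / Q.Y Mj = (2 : ℝ) ^ Real.logb 2 (V / Q.Y Mj) :=
            (Real.rpow_logb (by norm_num) (by norm_num) (by positivity)).symm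
        _ ≤ (2 : ℝ) ^ ((⌈Real.logb 2 (V / Q.Y Mj)⌉₊ + 1 : ℕ) : ℝ) := by
            refine Real.rpow_le_rpow_of_exponent_le (by norm_num) ?_
            push_cast
            linarith [Nat.le_ceil (Real.logb 2 (V / Q.Y Mj))]
        _ = _ := Real.rpow_natCast _ _
    rwa [div_le_iff₀ hY] at h2
  · have h3 := Nat.ceil_lt_add_one hlog0
    unfold L9Q.Lg
    push_cast
    linarith

/-- **RED at one point**, constants explicit -/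
theorem l9c_point_aux (h : Q.Bd Mj A A4 vt K Cs cmax V δm T0 e) {J0 : ℕ} (hJ : 2 ≤ J0) :
    |Q.DOEg (l9RgL4 V) J0|
      ≤ 48 * (2048 + 2 * (512 * 16 * 4 * 256 * 24 ^ 8) + 64 * (8 * Cs) ^ 3) * A ^ 12 * Q.Lg ^ 5
          * (T0 * (Q.x ^ 6 / (Q.lam1 * cmax ^ 4)) + A4 * (Q.lam * Q.x ^ 6 / (Q.lam1 * Q.Y Mj) + Q.E3 Mj K)) := by
  obtain ⟨Kb, hKb1, hKb, hKbL⟩ := h.bands
  have hA1 := h.side.A1
  have hCs := h.side.Cs16
  have hLg1 : 1 ≤ Q.Lg := le_trans (by exact_mod_cast hKb1) hKbL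
  obtain ⟨Bd, hBd⟩ : ∃ Bd, Bd = (2048 + 2 * (512 * 16 * 4 * 256 * 24 ^ 8) + 64 * (8 * Cs) ^ 3) * A ^ 12
          * (T0 * (Q.x ^ 6 / (Q.lam1 * cmax ^ 4)) + A4 * (Q.Lg * (Q.lam * Q.x ^ 6 / (Q.lam1 * Q.Y Mj)) + Q.E3 Mj K)) := ⟨_, rfl⟩
  have hBd0 : 0 ≤ Bd := by
    rw [hBd]
    exact mul_nonneg (by positivity) h.rhs_nn
  -- one monomial
  have hone : ∀ n, 2 ≤ n → n ≤ 4 → ∀ R, R ⊆ Finset.range n →
      |l9rD0 (Q.X true) R (2 * n) (Q.Tb (l9RgL4 V) n) (Q.Ht n R) - l9rD0 (Q.X false) R (2 * n) (Q.Tb (l9RgL4 V) n) (Q.Ht n R)| ≤ Q.Lg ^ 4 * Bd := by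
    intro n hn2 hn R hR
    have e1 : ∀ en, l9rD0 (Q.X en) R (2 * n) (Q.Tb (l9RgL4 V) n) (Q.Ht n R)
        = ∑ β ∈ l9cBs Kb n, l9rD0 (Q.X en) R (2 * n) (Q.Tb (l9RgB (Q.Y Mj) V β) n) (Q.Ht n R) := fun en =>
      l9c_bands Q h.Y_pos hKb1 hKb hn _
    rw [e1, e1, ← Finset.sum_sub_distrib]
    refine (Finset.abs_sum_le_sum_abs _ _).trans ?_
    refine (Finset.sum_le_card_nsmul _ _ Bd fun β _ => hBd ▸ l9c_band_aux h hn2 hn hR β).trans ?_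
    rw [nsmul_eq_mul]
    refine mul_le_mul_of_nonneg_right ?_ hBd0
    calc ((l9cBs Kb n).card : ℝ) ≤ ((Kb ^ n : ℕ) : ℝ) := by exact_mod_cast l9c_bs_card Kb n
      _ = (Kb : ℝ) ^ n := by push_cast; rfl
      _ ≤ Q.Lg ^ n := pow_le_pow_left₀ (by positivity) hKbL n
      _ ≤ Q.Lg ^ 4 := pow_le_pow_right₀ hLg1 hn
  rw [l9c_doeg Q h.adm V hJ]
  have hsum : |∑ n ∈ Finset.Icc 2 (min J0 4), ∑ R ∈ (Finset.range n).powerset,
      (l9rD0 (Q.X true) R (2 * n) (Q.Tb (l9RgL4 V) n) (Q.Ht n R) - l9rD0 (Q.X false) R (2 * n) (Q.Tb (l9RgL4 V) n) (Q.Ht n R))|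
      ≤ 3 * (16 * (Q.Lg ^ 4 * Bd)) := by
    refine (Finset.abs_sum_le_sum_abs _ _).trans ?_
    have hin : ∀ n ∈ Finset.Icc 2 (min J0 4), |∑ R ∈ (Finset.range n).powerset,
        (l9rD0 (Q.X true) R (2 * n) (Q.Tb (l9RgL4 V) n) (Q.Ht n R) - l9rD0 (Q.X false) R (2 * n) (Q.Tb (l9RgL4 V) n) (Q.Ht n R))|
        ≤ 16 * (Q.Lg ^ 4 * Bd) := by
      intro n hn
      obtain ⟨hn2, hn4⟩ := Finset.mem_Icc.1 hn
      have hn4' : n ≤ 4 := hn4.trans (min_le_right _ _)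
      refine (Finset.abs_sum_le_sum_abs _ _).trans ?_
      refine (Finset.sum_le_card_nsmul _ _ _ fun R hR => hone n hn2 hn4' R (Finset.mem_powerset.1 hR)).trans ?_
      rw [nsmul_eq_mul, Finset.card_powerset, Finset.card_range]
      refine mul_le_mul_of_nonneg_right ?_ (by positivity)
      calc ((2 ^ n : ℕ) : ℝ) = (2 : ℝ) ^ n := by push_cast; rfl
        _ ≤ 2 ^ 4 := pow_le_pow_right₀ (by norm_num) hn4'
        _ = 16 := by norm_num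
    refine (Finset.sum_le_card_nsmul _ _ _ hin).trans ?_
    rw [nsmul_eq_mul]
    refine mul_le_mul_of_nonneg_right ?_ (by positivity)
    have : (Finset.Icc 2 (min J0 4)).card ≤ 3 := by
      rw [Nat.card_Icc]
      omega
    exact_mod_cast this
  refine hsum.trans ?_
  have hP1 : 0 ≤ T0 * (Q.x ^ 6 / (Q.lam1 * cmax ^ 4)) := by
    have := h.side.x_pos
    have := h.lam1_pos
    have := h.T0_nn
    have := h.cmax_pos
    positivity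
  have hX1 : 0 ≤ Q.lam * Q.x ^ 6 / (Q.lam1 * Q.Y Mj) := by
    have := h.side.lam_pos
    have := h.side.x_pos
    have := h.lam1_pos
    have := h.Y_pos
    positivity
  have hE3 := h.E3_nn
  have hA4 := h.a4
  have hin : T0 * (Q.x ^ 6 / (Q.lam1 * cmax ^ 4)) + A4 * (Q.Lg * (Q.lam * Q.x ^ 6 / (Q.lam1 * Q.Y Mj)) + Q.E3 Mj K)
      ≤ Q.Lg * (T0 * (Q.x ^ 6 / (Q.lam1 * cmax ^ 4)) + A4 * (Q.lam * Q.x ^ 6 / (Q.lam1 * Q.Y Mj) + Q.E3 Mj K)) := by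
    generalize T0 * (Q.x ^ 6 / (Q.lam1 * cmax ^ 4)) = P1 at hP1 ⊢
    generalize Q.lam * Q.x ^ 6 / (Q.lam1 * Q.Y Mj) = X1 at hX1 ⊢
    generalize Q.E3 Mj K = E3 at hE3 ⊢
    nlinarith [mul_nonneg (sub_nonneg.2 hLg1) hP1, mul_nonneg (sub_nonneg.2 hLg1) (mul_nonneg hA4 hE3)]
  rw [hBd]
  calc 3 * (16 * (Q.Lg ^ 4 * ((2048 + 2 * (512 * 16 * 4 * 256 * 24 ^ 8) + 64 * (8 * Cs) ^ 3) * A ^ 12
          * (T0 * (Q.x ^ 6 / (Q.lam1 * cmax ^ 4)) + A4 * (Q.Lg * (Q.lam * Q.x ^ 6 / (Q.lam1 * Q.Y Mj)) + Q.E3 Mj K)))))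
      ≤ 3 * (16 * (Q.Lg ^ 4 * ((2048 + 2 * (512 * 16 * 4 * 256 * 24 ^ 8) + 64 * (8 * Cs) ^ 3) * A ^ 12
          * (Q.Lg * (T0 * (Q.x ^ 6 / (Q.lam1 * cmax ^ 4)) + A4 * (Q.lam * Q.x ^ 6 / (Q.lam1 * Q.Y Mj) + Q.E3 Mj K)))))) := by
        refine mul_le_mul_of_nonneg_left (mul_le_mul_of_nonneg_left (mul_le_mul_of_nonneg_left (mul_le_mul_of_nonneg_left hin ?_) ?_) ?_) ?_ <;> positivity
    _ = _ := by ring

end band

/-- **RED at one point** -/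
theorem l9c_point (Cs : ℝ) : ∃ Kc : ℝ, 0 ≤ Kc ∧ ∀ (Q : L9Q) (Mj : L9Mj) (A A4 vt K cmax V δm T0 : ℝ) (e : ℕ → ℝ) (J0 : ℕ), 2 ≤ J0 →
    Q.Side Mj A vt Cs cmax V δm → 0 ≤ A4 → Q.Adm δm → Q.E4 A4 Cs cmax → Q.D0 A T0 V → Q.Sup Mj A vt K (2 * Cs) e →
      |Q.DOEg (l9RgL4 V) J0|
        ≤ Kc * A ^ 12 * Q.Lg ^ 5 * (T0 * (Q.x ^ 6 / (Q.lam1 * cmax ^ 4)) + A4 * (Q.lam * Q.x ^ 6 / (Q.lam1 * Q.Y Mj) + Q.E3 Mj K)) := by
  refine ⟨|48 * (2048 + 2 * (512 * 16 * 4 * 256 * 24 ^ 8) + 64 * (8 * Cs) ^ 3)|, abs_nonneg _, ?_⟩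
  intro Q Mj A A4 vt K cmax V δm T0 e J0 hJ hS h4 hAd hE4 hD0 hSup
  have := hS.Cs16
  rw [abs_of_nonneg (show (0 : ℝ) ≤ 48 * (2048 + 2 * (512 * 16 * 4 * 256 * 24 ^ 8) + 64 * (8 * Cs) ^ 3) by positivity)]
  exact l9c_point_aux ⟨hS, h4, hAd, hE4, hD0, hSup⟩ hJ

/-! ## 9. EXITS -/

/-- the exponents used by the power count of RED -/
structure L9cExp (F : LlFix) : Prop where
  s_lo : (1 + F.eta) / 3 ≤ F.sS
  s_hi : F.sS < 1 / 2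
  e_pos : 0 < F.eta
  e_s : 2 * F.eta < F.sS
  e_t : F.eta < 1 - 2 * F.sS
  e_12 : 24 * F.eta ≤ 1
  p_pos : 0 < F.pS
  p_le : 12 * F.pS ≤ 1

/-! ### 9a. the loss may be increased (so that `1 ≤ A`, `0 ≤ A4` and ONE `A` serves all the supplies) -/

theorem l9c_mc_nn (Q : L9Q) {δm : ℝ} (hAd : Q.Adm δm) (c : ℕ) : 0 ≤ Q.mc c := by
  unfold L9Q.mc trPm
  split_ifs
  · exact le_rfl
  · exact (Q.isMs hAd).nonneg _

theorem l9c_G4_nn (Q : L9Q) (hl : 0 ≤ Q.lam) (n : ℕ) (R : Finset ℕ) (c : ℕ) (sk : JtTopo) : 0 ≤ Q.G4 n R c sk := by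
  unfold L9Q.G4
  split_ifs
  · exact mul_nonneg hl (by positivity)
  · refine Finset.prod_nonneg fun i _ => ?_
    unfold L9Q.dA
    positivity

theorem L9Q.E4.mono {Q : L9Q} {A A' Cs cmax δm : ℝ} (h : Q.E4 A Cs cmax) (hA : A ≤ A') (hAd : Q.Adm δm) (hl : 0 ≤ Q.lam) : Q.E4 A' Cs cmax := by
  have hms := Q.isMs hAd
  refine ⟨fun n h2 h4 R hR hne c hc hU hm sk hsk => (h.main n h2 h4 R hR hne c hc hU hm sk hsk).trans ?_,
    fun R hR hne c hc hU hm sk hsk hs => (h.ref R hR hne c hc hU hm sk hsk hs).trans ?_⟩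
  · have h1 := l9c_mc_nn Q hAd c
    have h2 := l9c_G4_nn Q hl n R c sk
    have h3 := l9r_vol_nonneg hms (2 * n) hc sk
    refine mul_le_mul_of_nonneg_right (mul_le_mul_of_nonneg_right (mul_le_mul_of_nonneg_right hA ?_) h2) h3
    positivity
  · have h1 := l9c_mc_nn Q hAd c
    have h2 := l9c_G4_nn Q hl 2 R c sk
    have h3 := l9r_vol_nonneg hms 4 hc sk
    have h4 : 0 ≤ max (min (Q.vm sk 0) (Q.vm sk 1)) Q.U / Q.mc c :=
      div_nonneg ((le_min (hms.nonneg _) (hms.nonneg _)).trans (le_max_left _ _)) h1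
    exact mul_le_mul_of_nonneg_right (mul_le_mul_of_nonneg_right (mul_le_mul_of_nonneg_right
      (mul_le_mul_of_nonneg_right hA h1) h2) h4) h3

theorem L9Q.E4.anti {Q : L9Q} {A Cs cmax cmax' : ℝ} (h : Q.E4 A Cs cmax) (hc : cmax' ≤ cmax) : Q.E4 A Cs cmax' :=
  ⟨fun n h2 h4 R hR hne c hc1 hU hm => h.main n h2 h4 R hR hne c hc1 hU (hm.trans hc),
   fun R hR hne c hc1 hU hm => h.ref R hR hne c hc1 hU (hm.trans hc)⟩

theorem L9Q.D0.mono {Q : L9Q} {A A' T0 V : ℝ} (h : Q.D0 A T0 V) (hA : A ≤ A') (hT : 0 ≤ T0) : Q.D0 A' T0 V :=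
  fun n h2 h4 R hR => (h n h2 h4 R hR).trans (mul_le_mul_of_nonneg_right hA hT)

theorem L9Q.Sup.mono {Q : L9Q} {Mj : L9Mj} {A A' vt K Cs : ℝ} {e : ℕ → ℝ} (h : Q.Sup Mj A vt K Cs e) (hA : |A| ≤ A') (hx : 0 < Q.x)
    (hl : 0 < Q.lam) (hU : 0 < Q.U) : Q.Sup Mj A' vt K Cs e := by
  have hAA : A ≤ A' := (le_abs_self A).trans hA
  have hZ : 0 < Q.Zc Mj := lt_of_lt_of_le one_pos h.z1
  have hY : 0 < Q.Y Mj := by unfold L9Q.Y; positivity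
  have hmax : ∀ v, 0 < max (Q.ms v) (Q.Y Mj) := fun v => hY.trans_le (le_max_right _ _)
  have hp4 : ∀ t : ℝ, (A * t) ^ 4 ≤ (A' * t) ^ 4 := by
    intro t
    have h1 : |A * t| ≤ |A' * t| := by
      rw [abs_mul, abs_mul]
      exact mul_le_mul_of_nonneg_right (hA.trans (le_abs_self _)) (abs_nonneg _)
    have h2 : |A * t| ^ 4 ≤ |A' * t| ^ 4 := pow_le_pow_left₀ (abs_nonneg _) h1 4
    have e1 : ∀ s : ℝ, |s| ^ 4 = s ^ 4 := fun s => by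
      rw [show (4 : ℕ) = 2 * 2 from rfl, pow_mul, pow_mul, sq_abs]
    rwa [e1, e1] at h2
  have hE3 : 0 ≤ Q.E3 Mj K := by
    have hg : 0 ≤ Q.gB Mj := by
      unfold L9Q.gB
      exact div_nonneg (Real.rpow_nonneg hl.le _) (Real.rpow_nonneg hZ.le _)
    have hxK : 0 ≤ Q.x ^ K := Real.rpow_nonneg hx.le _
    unfold L9Q.E3
    positivity
  refine ⟨h.z1, h.e_nn, ?_, ?_, ?_, ?_, ?_⟩
  · intro v hv hvt
    exact (h.e_le v hv hvt).trans (mul_le_mul_of_nonneg_right hAA (hmax v).le)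
  · intro v hv hvt
    refine (h.d_le v hv hvt).trans ?_
    have := hmax v
    exact mul_le_mul_of_nonneg_right (mul_le_mul_of_nonneg_right (mul_le_mul_of_nonneg_right hAA hl.le) (by positivity)) (h.e_nn v)
  · intro en v hv hvt
    exact le_trans (h.d2 en v hv hvt) (hp4 _)
  · intro en v c hvc hc h8 hYc hcv
    exact le_trans (h.p87 en v c hvc hc h8 hYc hcv) (hp4 _)
  · intro n h2 h4 R hR hne β V c hc h1 h3 h5 B L0 hL0 hB hB2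
    refine (h.cc n h2 h4 R hR hne β V c hc h1 h3 h5 B L0 hL0 hB hB2).trans ?_
    exact mul_le_mul_of_nonneg_left (mul_le_mul_of_nonneg_right hAA hE3) hL0

/-! ### 9b. the power count at one point.      `U = x λ^(-s/2) < 1`, `Y = U Zc`, `1 ≤ Zc`, `x^12 ≤ λ ≤ x^p` -/

/-- `l^e ≤ x^(p e)` for `l ≤ x^p`, `e ≥ 0` -/
theorem l9cn_pow_le {x l p e : ℝ} (hx : 0 < x) (hl : 0 < l) (hlp : l ≤ x ^ p) (he : 0 ≤ e) : l ^ e ≤ x ^ (p * e) := by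
  rw [Real.rpow_mul hx.le]
  exact Real.rpow_le_rpow hl.le hlp he

theorem l9cn_z0 {x l s η Z : ℝ} (hx : 0 < x) (hl : 0 < l) (hl1 : l ≤ 1) (hs : (1 + η) / 3 ≤ s) (hZ : 1 ≤ Z) :
    x ^ 3 / (Real.sqrt (l ^ (1 + η)) * (x * l ^ (-(s / 2)) * Z) ^ 3) ≤ 1 := by
  have hZ0 : 0 < Z := by linarith
  have h1 : Real.sqrt (l ^ (1 + η)) = l ^ ((1 + η) / 2) := by
    rw [Real.sqrt_eq_rpow, ← Real.rpow_mul hl.le]
    congr 1; ring
  have h2 : (l ^ (-(s / 2))) ^ 3 = l ^ (-(3 * s / 2)) := by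
    rw [← Real.rpow_natCast, ← Real.rpow_mul hl.le]
    congr 1; push_cast; ring
  have h3 : Real.sqrt (l ^ (1 + η)) * (x * l ^ (-(s / 2)) * Z) ^ 3 = x ^ 3 * (l ^ ((1 + η) / 2 - 3 * s / 2) * Z ^ 3) := by
    rw [mul_pow, mul_pow, h1, h2, sub_eq_add_neg, Real.rpow_add hl]
    ring
  rw [h3, div_le_one (by positivity)]
  have h4 : 1 ≤ l ^ ((1 + η) / 2 - 3 * s / 2) := Real.one_le_rpow_of_pos_of_le_one_of_nonpos hl hl1 (by linarith)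
  have h5 : 1 ≤ Z ^ 3 := one_le_pow₀ hZ
  have h6 : 1 ≤ l ^ ((1 + η) / 2 - 3 * s / 2) * Z ^ 3 := by nlinarith
  exact le_mul_of_one_le_right (by positivity) h6

theorem l9cn_step {x l s η p Z : ℝ} (hx : 0 < x) (hl : 0 < l) (hlp : l ≤ x ^ p) (hs : 2 * η < s) (hZ : 1 ≤ Z) :
    l * x ^ 6 / (l ^ (1 + η) * (x * l ^ (-(s / 2)) * Z)) ≤ x ^ (5 + p * (s / 2 - η)) := by
  have hZ0 : 0 < Z := by linarith
  have e1 : l * x ^ 6 / (l ^ (1 + η) * (x * l ^ (-(s / 2)) * Z)) = x ^ 5 * l ^ (s / 2 - η) / Z := by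
    rw [Real.rpow_add hl, Real.rpow_one, Real.rpow_neg hl.le, Real.rpow_sub hl]
    have ha : 0 < l ^ η := Real.rpow_pos_of_pos hl _
    have hb : 0 < l ^ (s / 2) := Real.rpow_pos_of_pos hl _
    field_simp
  rw [e1, Real.rpow_add hx]
  have e2 : x ^ (5 : ℝ) = x ^ 5 := by rw [← Real.rpow_natCast]; norm_num
  rw [e2]
  have h1 := l9cn_pow_le hx hl hlp (by linarith : 0 ≤ s / 2 - η)
  have h0 : 0 < l ^ (s / 2 - η) := Real.rpow_pos_of_pos hl _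
  calc x ^ 5 * l ^ (s / 2 - η) / Z ≤ x ^ 5 * l ^ (s / 2 - η) := div_le_self (by positivity) hZ
    _ ≤ x ^ 5 * x ^ (p * (s / 2 - η)) := mul_le_mul_of_nonneg_left h1 (by positivity)

theorem l9cn_E3 {x l s η p Z : ℝ} (hx : 0 < x) (hl : 0 < l) (hlp : l ≤ x ^ p) (hs : s < 1 / 2) (ht : η < 1 - 2 * s) (hZ : 1 ≤ Z) :
    l * (x * l ^ (-(s / 2)) * Z) ^ 5 * (x / (x * l ^ (-(s / 2)) * Z) + l ^ ((3 * s - 1 - η) / 2) / Z ^ (3 / 2 : ℝ)) ≤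
      (x ^ (5 + p * (1 - 2 * s)) + x ^ (5 + p * ((1 - η) / 2 - s))) * Z ^ 4 := by
  have hZ0 : 0 < Z := by linarith
  have e5 : x ^ (5 : ℝ) = x ^ 5 := by rw [← Real.rpow_natCast]; norm_num
  have hA : 0 < l ^ (-(s / 2)) := Real.rpow_pos_of_pos hl _
  have a4 : l * (l ^ (-(s / 2))) ^ 4 = l ^ (1 - 2 * s) := by
    rw [← Real.rpow_natCast (l ^ (-(s / 2))), ← Real.rpow_mul hl.le]
    nth_rewrite 1 [← Real.rpow_one l]
    rw [← Real.rpow_add hl]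
    congr 1; push_cast; ring
  have a5 : l * (l ^ (-(s / 2))) ^ 5 * l ^ ((3 * s - 1 - η) / 2) = l ^ ((1 - η) / 2 - s) := by
    rw [← Real.rpow_natCast (l ^ (-(s / 2))), ← Real.rpow_mul hl.le]
    nth_rewrite 1 [← Real.rpow_one l]
    rw [← Real.rpow_add hl, ← Real.rpow_add hl]
    congr 1; push_cast; ring
  have z1 : Z ^ 5 / Z ^ (3 / 2 : ℝ) ≤ Z ^ 4 := by
    rw [div_le_iff₀ (Real.rpow_pos_of_pos hZ0 _)]
    have : 1 ≤ Z ^ (3 / 2 : ℝ) := Real.one_le_rpow hZ (by norm_num)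
    have h2 : Z ≤ Z ^ (3 / 2 : ℝ) := by
      nth_rewrite 1 [← Real.rpow_one Z]
      exact Real.rpow_le_rpow_of_exponent_le hZ (by norm_num)
    calc Z ^ 5 = Z ^ 4 * Z := by ring
      _ ≤ Z ^ 4 * Z ^ (3 / 2 : ℝ) := mul_le_mul_of_nonneg_left h2 (by positivity)
  have e1 : l * (x * l ^ (-(s / 2)) * Z) ^ 5 * (x / (x * l ^ (-(s / 2)) * Z) + l ^ ((3 * s - 1 - η) / 2) / Z ^ (3 / 2 : ℝ))
      = x ^ 5 * (l * (l ^ (-(s / 2))) ^ 4) * Z ^ 4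
        + x ^ 5 * (l * (l ^ (-(s / 2))) ^ 5 * l ^ ((3 * s - 1 - η) / 2)) * (Z ^ 5 / Z ^ (3 / 2 : ℝ)) := by
    have hz : 0 < Z ^ (3 / 2 : ℝ) := Real.rpow_pos_of_pos hZ0 _
    field_simp
  rw [e1, a4, a5, Real.rpow_add hx, Real.rpow_add hx, e5, add_mul]
  have h1 := l9cn_pow_le hx hl hlp (by linarith : 0 ≤ 1 - 2 * s)
  have h2 := l9cn_pow_le hx hl hlp (by linarith : 0 ≤ (1 - η) / 2 - s)
  have hx5 : 0 < x ^ 5 := by positivity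
  have p2 : 0 < l ^ ((1 - η) / 2 - s) := Real.rpow_pos_of_pos hl _
  have q2 : 0 < x ^ (p * ((1 - η) / 2 - s)) := Real.rpow_pos_of_pos hx _
  apply add_le_add
  · exact mul_le_mul_of_nonneg_right (mul_le_mul_of_nonneg_left h1 hx5.le) (by positivity)
  · exact mul_le_mul (mul_le_mul_of_nonneg_left h2 hx5.le) z1 (by positivity) (by positivity)

theorem l9cn_firstD {x l η c : ℝ} (hx : 0 < x) (hl : x ^ (12 : ℝ) ≤ l) (hη : 0 < η) (hc : 0 < c) :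
    l * (x ^ 6 / (l ^ (1 + η) * c ^ 4)) ≤ x ^ (6 - 12 * η) / c ^ 4 := by
  have hl0 : 0 < l := lt_of_lt_of_le (Real.rpow_pos_of_pos hx _) hl
  have e1 : l * (x ^ 6 / (l ^ (1 + η) * c ^ 4)) = x ^ 6 * l ^ (-η) / c ^ 4 := by
    rw [Real.rpow_add hl0, Real.rpow_one, Real.rpow_neg hl0.le]
    have ha : 0 < l ^ η := Real.rpow_pos_of_pos hl0 _
    field_simp
  have e6 : x ^ (6 : ℝ) = x ^ 6 := by rw [← Real.rpow_natCast]; norm_num
  rw [e1, sub_eq_add_neg, Real.rpow_add hx, e6]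
  have h1 : l ^ (-η) ≤ (x ^ (12 : ℝ)) ^ (-η) := Real.rpow_le_rpow_of_nonpos (Real.rpow_pos_of_pos hx _) hl (by linarith)
  rw [← Real.rpow_mul hx.le] at h1
  have h2 : (12 : ℝ) * -η = -(12 * η) := by ring
  rw [h2] at h1
  exact div_le_div_of_nonneg_right (mul_le_mul_of_nonneg_left h1 (by positivity)) (by positivity)

theorem l9cn_firstS {x l η p Cl : ℝ} (hx : 0 < x) (hl : l = x ^ p) (hc : 0 < Cl) :
    x ^ 6 / (l ^ (1 + η) * (Cl * l) ^ 4) = x ^ (6 - (5 + η) * p) / Cl ^ 4 := by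
  have hl0 : 0 < l := hl ▸ Real.rpow_pos_of_pos hx _
  have e6 : x ^ (6 : ℝ) = x ^ 6 := by rw [← Real.rpow_natCast]; norm_num
  have e1 : l ^ (1 + η) * l ^ 4 = x ^ ((5 + η) * p) := by
    rw [← Real.rpow_natCast l 4, ← Real.rpow_add hl0, hl, ← Real.rpow_mul hx.le]
    congr 1; push_cast; ring
  rw [Real.rpow_sub hx, e6, ← e1, mul_pow]
  have ha : 0 < l ^ (1 + η) := Real.rpow_pos_of_pos hl0 _
  field_simp

theorem l9cn_Lg {δ : ℝ} (hδ : 0 < δ) : ∃ C : ℝ, 0 ≤ C ∧ ∀ x : ℝ, 0 < x → x ≤ 1 → (3 + Real.logb 2 (1 / x)) ^ 5 ≤ C * x ^ (-δ) := by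
  have hlog2 : 0 < Real.log 2 := Real.log_pos (by norm_num)
  set C1 : ℝ := 3 + 1 / (δ / 5 * Real.log 2) with hC1
  have hC10 : 0 ≤ C1 := by positivity
  refine ⟨C1 ^ 5, by positivity, fun x hx hx1 => ?_⟩
  have ht : 1 ≤ 1 / x := by rw [le_div_iff₀ hx]; linarith
  have ht0 : 0 < 1 / x := by positivity
  have h1 : Real.log (1 / x) ≤ (1 / x) ^ (δ / 5) / (δ / 5) := Real.log_le_rpow_div ht0.le (by positivity)
  have h2 : 1 ≤ (1 / x) ^ (δ / 5) := Real.one_le_rpow ht (by positivity)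
  have h3 : 0 ≤ Real.logb 2 (1 / x) := Real.logb_nonneg (by norm_num) ht
  have h4 : 3 + Real.logb 2 (1 / x) ≤ C1 * (1 / x) ^ (δ / 5) := by
    have : Real.logb 2 (1 / x) ≤ 1 / (δ / 5 * Real.log 2) * (1 / x) ^ (δ / 5) := by
      unfold Real.logb
      rw [div_le_iff₀ hlog2]
      calc Real.log (1 / x) ≤ (1 / x) ^ (δ / 5) / (δ / 5) := h1
        _ = 1 / (δ / 5 * Real.log 2) * (1 / x) ^ (δ / 5) * Real.log 2 := by field_simp
    rw [hC1, add_mul]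
    linarith
  have h5 : ((1 / x) ^ (δ / 5)) ^ 5 = x ^ (-δ) := by
    rw [← Real.rpow_natCast, ← Real.rpow_mul ht0.le, one_div, Real.inv_rpow hx.le, ← Real.rpow_neg hx.le]
    congr 1; push_cast; ring
  calc (3 + Real.logb 2 (1 / x)) ^ 5 ≤ (C1 * (1 / x) ^ (δ / 5)) ^ 5 := pow_le_pow_left₀ (by linarith) h4 5
    _ = C1 ^ 5 * x ^ (-δ) := by rw [mul_pow, h5]

/-- below the cap, `U = x λ^(-s/2)` -/
theorem l9cn_U (Q : L9Q) (hU : Q.U < 1) : Q.U = Q.x * Q.lam ^ (-(Q.I.F.sS / 2)) := by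
  have h : Q.U = min 1 (Q.x * Q.lam ^ (-(Q.I.F.sS / 2))) := rfl
  rw [h] at hU ⊢
  rcases le_total 1 (Q.x * Q.lam ^ (-(Q.I.F.sS / 2))) with h1 | h1
  · rw [min_eq_left h1] at hU; exact absurd hU (lt_irrefl _)
  · exact min_eq_right h1

/-- `z_Y^0 ≤ 1` (uses `3 s ≥ 1 + η`) -/
theorem l9c_num_z0 (Q : L9Q) (Mj : L9Mj) (hF : L9cExp Q.I.F) (hx : 0 < Q.x) (hl : 0 < Q.lam) (hl1 : Q.lam ≤ 1) (hU : Q.U < 1) (hZ : 1 ≤ Q.Zc Mj) :
    Q.z0 (Q.Y Mj) ≤ 1 := by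
  unfold L9Q.z0 L9Q.Y
  rw [l9cn_U Q hU]
  exact l9cn_z0 hx hl hl1 hF.s_lo hZ

/-- `λ x⁶ / (λ_1 Y) ≤ x^(5 + p (s/2 - η))` -/
theorem l9c_num_step (Q : L9Q) (Mj : L9Mj) (hF : L9cExp Q.I.F) (hx : 0 < Q.x) (hx1 : Q.x ≤ 1) (hl : 0 < Q.lam) (hlp : Q.lam ≤ Q.x ^ Q.I.F.pS) (hU : Q.U < 1)
    (hZ : 1 ≤ Q.Zc Mj) : Q.lam * Q.x ^ 6 / (Q.lam1 * Q.Y Mj) ≤ Q.x ^ (5 + Q.I.F.pS * (Q.I.F.sS / 2 - Q.I.F.eta)) := by
  unfold L9Q.Y
  rw [l9cn_U Q hU]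
  exact l9cn_step hx hl hlp hF.e_s hZ

/-- `(E3) ≤ (x^(5 + p (1 - 2 s)) + x^(5 + p ((1 - η)/2 - s))) Zc⁴ + x^K` -/
theorem l9c_num_E3 (Q : L9Q) (Mj : L9Mj) (hF : L9cExp Q.I.F) (hx : 0 < Q.x) (hx1 : Q.x ≤ 1) (hl : 0 < Q.lam) (hlp : Q.lam ≤ Q.x ^ Q.I.F.pS) (hU : Q.U < 1)
    (hZ : 1 ≤ Q.Zc Mj) (K : ℝ) :
    Q.E3 Mj K ≤ (Q.x ^ (5 + Q.I.F.pS * (1 - 2 * Q.I.F.sS)) + Q.x ^ (5 + Q.I.F.pS * ((1 - Q.I.F.eta) / 2 - Q.I.F.sS))) * Q.Zc Mj ^ 4 + Q.x ^ K := by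
  unfold L9Q.E3 L9Q.gB L9Q.Y
  rw [l9cn_U Q hU]
  exact add_le_add_left (l9cn_E3 hx hl hlp hF.s_hi hF.e_t hZ) _

/-- first projection, strength sweep: `λ x⁶ / (λ_1 c⁴) ≤ x^(6 - 12 η) / c⁴` -/
theorem l9c_num_firstD (Q : L9Q) (hF : L9cExp Q.I.F) (hx : 0 < Q.x) (hx1 : Q.x ≤ 1) (hl : Q.x ^ (12 : ℝ) ≤ Q.lam) {c : ℝ} (hc : 0 < c) :
    Q.lam * (Q.x ^ 6 / (Q.lam1 * c ^ 4)) ≤ Q.x ^ (6 - 12 * Q.I.F.eta) / c ^ 4 :=
  l9cn_firstD hx hl hF.e_pos hc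

/-- first projection, size segment: `x⁶ / (λ_1 (Cl λ)⁴) = x^(6 - (5 + η) p) / Cl⁴` -/
theorem l9c_num_firstS (Q : L9Q) (hx : 0 < Q.x) (hl : Q.lam = Q.x ^ Q.I.F.pS) {Cl : ℝ} (hc : 0 < Cl) :
    Q.x ^ 6 / (Q.lam1 * (Cl * Q.lam) ^ 4) = Q.x ^ (6 - (5 + Q.I.F.eta) * Q.I.F.pS) / Cl ^ 4 :=
  l9cn_firstS hx hl hc

/-- the logarithm is a subpower loss -/
theorem l9c_num_Lg {δ : ℝ} (hδ : 0 < δ) : ∃ C : ℝ, 0 ≤ C ∧ ∀ Q : L9Q, 0 < Q.x → Q.x ≤ 1 → Q.Lg ^ 5 ≤ C * Q.x ^ (-δ) := by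
  obtain ⟨C, hC, h⟩ := l9cn_Lg hδ
  exact ⟨C, hC, fun Q hx hx1 => h Q.x hx hx1⟩

/-! ### 9c. the exits
PLAN (both).   `c0 := ½ min (..)` of the four savings of 9b, `δ := c0 / 40`, `K := 6`, `Km := 1`.   Take `(C_i, N0_i)` from the four contracts at `(δ, ε, q)`;   `A := (|C_Sup| + |C_D0| + 1) x^(-δ)`, `A4 := |C_E4| x^(-δ) (· (1 + dot))`
(9a);   `Q.x = skX N` by `rfl`;   `Side` for `N` large: `YV` from the stop `U Z ≤ x^κ` (direct; it also gives `U < 1`) resp. from the cap `Y ≤ x^(δ_*/3) ≤ x^(a_2)` (size), `Vc` from `p_* < a_2` (size), `z_le` = `l9c_num_z0`;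
then `l9c_point` and 9b;   `Zc ≤ Z`, `1 ≤ Zc`;   `x^(5 + c) x^(-14 δ) ≤ x^(5 + c0)`. -/

/-! ### 9c'. tools of the exits (helper53) -/

theorem l9c_X_pos {N : ℕ} (hN : 0 < N) : 0 < skX N := Real.rpow_pos_of_pos (by exact_mod_cast hN) _

theorem l9c_X_le {N : ℕ} (hN : 0 < N) : skX N ≤ 1 :=
  Real.rpow_le_one_of_one_le_of_nonpos (by exact_mod_cast hN) (by norm_num)

theorem l9c_X_lt {N : ℕ} (hN : 2 ≤ N) : skX N < 1 :=
  Real.rpow_lt_one_of_one_lt_of_neg (by exact_mod_cast (by omega : 1 < N)) (by norm_num)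

theorem l9c_X_tendsto : Tendsto skX atTop (nhds 0) :=
  (tendsto_rpow_neg_atTop (by norm_num : (0:ℝ) < 1 / 6)).comp tendsto_natCast_atTop_atTop

/-- `A x^g ≤ ε` for large `N` -/
theorem l9c_X_small (A : ℝ) {g ε : ℝ} (hg : 0 < g) (hε : 0 < ε) : ∃ N0 : ℕ, ∀ N, N0 ≤ N → A * skX N ^ g ≤ ε := by
  have h1 : Tendsto (fun N => A * skX N ^ g) atTop (nhds (A * 0)) := by
    refine Tendsto.const_mul A ?_
    have := l9c_X_tendsto.rpow_const (p := g) (Or.inr hg.le)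
    rwa [Real.zero_rpow hg.ne'] at this
  rw [mul_zero] at h1
  exact eventually_atTop.1 (h1.eventually_le_const hε)

theorem l9c_lamRg {F : LlFix} {N : ℕ} (hN : 0 < N) {t : ℝ} (ht : t ∈ l9LamRg F N) :
    skX N ^ (12:ℝ) ≤ Real.exp t ∧ Real.exp t ≤ skX N ^ F.pS := by
  have hx := l9c_X_pos hN
  rw [Real.rpow_def_of_pos hx, Real.rpow_def_of_pos hx]
  exact ⟨Real.exp_le_exp.2 (by rw [mul_comm]; exact ht.1.le), Real.exp_le_exp.2 (by rw [mul_comm]; exact ht.2.le)⟩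

/-- the saving of the power count -/
noncomputable def l9cG (F : LlFix) : ℝ := min (1 / 2) (F.pS * min (min (F.sS / 2 - F.eta) (1 - 2 * F.sS)) ((1 - F.eta) / 2 - F.sS))

theorem l9c_G_eqns_cite : True := by
  have := @l9cG.eq_1
  trivial

theorem l9c_G_pos {F : LlFix} (hF : L9cExp F) : 0 < l9cG F := by
  have h1 := hF.e_s
  have h2 := hF.s_hi
  have h3 := hF.e_t
  exact lt_min (by norm_num) (mul_pos hF.p_pos (lt_min (lt_min (by linarith) (by linarith)) (by linarith)))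

/-- all the terms after the first projection -/
theorem l9c_num_all (Q : L9Q) (Mj : L9Mj) (hF : L9cExp Q.I.F) (hx : 0 < Q.x) (hx1 : Q.x ≤ 1) (hl : 0 < Q.lam) (hlp : Q.lam ≤ Q.x ^ Q.I.F.pS) (hU : Q.U < 1)
    (hZ : 1 ≤ Q.Zc Mj) : Q.lam * Q.x ^ 6 / (Q.lam1 * Q.Y Mj) + Q.E3 Mj 6 ≤ 4 * (Q.x ^ (5 + l9cG Q.I.F) * Q.Zc Mj ^ 4) := by
  have hp := hF.p_pos
  have hG2 : l9cG Q.I.F ≤ Q.I.F.pS * min (min (Q.I.F.sS / 2 - Q.I.F.eta) (1 - 2 * Q.I.F.sS)) ((1 - Q.I.F.eta) / 2 - Q.I.F.sS) := min_le_right _ _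
  have hG1 : l9cG Q.I.F ≤ 1 / 2 := min_le_left _ _
  have m1 : l9cG Q.I.F ≤ Q.I.F.pS * (Q.I.F.sS / 2 - Q.I.F.eta) :=
    hG2.trans (mul_le_mul_of_nonneg_left ((min_le_left _ _).trans (min_le_left _ _)) hp.le)
  have m2 : l9cG Q.I.F ≤ Q.I.F.pS * (1 - 2 * Q.I.F.sS) :=
    hG2.trans (mul_le_mul_of_nonneg_left ((min_le_left _ _).trans (min_le_right _ _)) hp.le)
  have m3 : l9cG Q.I.F ≤ Q.I.F.pS * ((1 - Q.I.F.eta) / 2 - Q.I.F.sS) :=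
    hG2.trans (mul_le_mul_of_nonneg_left (min_le_right _ _) hp.le)
  have pw : ∀ r : ℝ, 5 + l9cG Q.I.F ≤ r → Q.x ^ r ≤ Q.x ^ (5 + l9cG Q.I.F) := fun r hr => Real.rpow_le_rpow_of_exponent_ge hx hx1 hr
  have a1 := (l9c_num_step Q Mj hF hx hx1 hl hlp hU hZ).trans (pw _ (by linarith))
  have a2 := l9c_num_E3 Q Mj hF hx hx1 hl hlp hU hZ 6
  have a3 := pw _ (show 5 + l9cG Q.I.F ≤ 5 + Q.I.F.pS * (1 - 2 * Q.I.F.sS) by linarith)
  have a4 := pw _ (show 5 + l9cG Q.I.F ≤ 5 + Q.I.F.pS * ((1 - Q.I.F.eta) / 2 - Q.I.F.sS) by linarith)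
  have a5 := pw 6 (by linarith)
  have hZ4 : 1 ≤ Q.Zc Mj ^ 4 := one_le_pow₀ hZ
  have hP : 0 < Q.x ^ (5 + l9cG Q.I.F) := Real.rpow_pos_of_pos hx _
  generalize Q.x ^ (5 + l9cG Q.I.F) = P at *
  generalize Q.Zc Mj ^ 4 = W at *
  nlinarith [mul_le_mul_of_nonneg_right a3 (zero_le_one.trans hZ4), mul_le_mul_of_nonneg_right a4 (zero_le_one.trans hZ4),
    mul_le_mul_of_nonneg_left hZ4 hP.le]

/-- the final count of the losses: `y = x^(-δ)`, `14 δ = g/2` -/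
theorem l9c_count {X g Kc CA CL c1 C4 D L Br W : ℝ} (hX : 0 < X) (hX1 : X ≤ 1) (hg : 0 < g) (hKc : 0 ≤ Kc) (hCA : 0 ≤ CA) (hCL : 0 ≤ CL) (hc1 : 0 ≤ c1)
    (hC4 : 0 ≤ C4) (hW : 0 ≤ W) (hL0 : 0 ≤ L) (hL : L ≤ CL * X ^ (-(g / 28)))
    (hBr : Br ≤ (c1 + 4 * (C4 * X ^ (-(g / 28)))) * (X ^ (5 + g) * W))
    (hD : D ≤ Kc * (CA * X ^ (-(g / 28))) ^ 12 * L * Br) :
    D ≤ Kc * CA ^ 12 * CL * (c1 + 4 * C4) * X ^ (5 + g / 2) * W := by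
  set y := X ^ (-(g / 28)) with hy
  have hy1 : 1 ≤ y := Real.one_le_rpow_of_pos_of_le_one_of_nonpos hX hX1 (by linarith)
  have hy0 : 0 < y := by linarith
  have e1 : y ^ 14 * X ^ (5 + g) = X ^ (5 + g / 2) := by
    rw [hy, ← Real.rpow_natCast, ← Real.rpow_mul hX.le, ← Real.rpow_add hX]
    congr 1
    push_cast
    ring
  have hP : 0 ≤ X ^ (5 + g) := Real.rpow_nonneg hX.le _
  have h1 : c1 + 4 * (C4 * y) ≤ (c1 + 4 * C4) * y := by nlinarith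
  have hK : 0 ≤ Kc * (CA * y) ^ 12 := by positivity
  calc D ≤ Kc * (CA * y) ^ 12 * L * Br := hD
    _ ≤ Kc * (CA * y) ^ 12 * L * ((c1 + 4 * (C4 * y)) * (X ^ (5 + g) * W)) := mul_le_mul_of_nonneg_left hBr (mul_nonneg hK hL0)
    _ ≤ Kc * (CA * y) ^ 12 * (CL * y) * (((c1 + 4 * C4) * y) * (X ^ (5 + g) * W)) := by
        refine mul_le_mul (mul_le_mul_of_nonneg_left hL hK) (mul_le_mul_of_nonneg_right h1 (mul_nonneg hP hW)) ?_ ?_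
        · exact mul_nonneg (by positivity) (mul_nonneg hP hW)
        · exact mul_nonneg hK (by positivity)
    _ = Kc * CA ^ 12 * CL * (c1 + 4 * C4) * (y ^ 14 * X ^ (5 + g)) * W := by ring
    _ = _ := by rw [e1]

/-- **one point, with the raw constants of the contracts**: `T4 = 1` (direct), `T4 = 1 + dot` (size) -/
theorem l9c_fin (Cs : ℝ) (hCs : 16 ≤ Cs) {g : ℝ} (hg : 0 < g) : ∃ K0 : ℝ, 0 ≤ K0 ∧ ∀ (Q : L9Q) (Mj : L9Mj) (J0 : ℕ) (C1 C2 C3 vt cmax V T0 T4 c1 : ℝ)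
    (e : ℕ → ℝ), 2 ≤ J0 → L9cExp Q.I.F → g = l9cG Q.I.F → 0 < Q.x → Q.x ≤ 1 → 0 < Q.lam → Q.lam ≤ Q.x ^ Q.I.F.pS → Q.U < 1 →
      Q.Y Mj ≤ V → 8 * Cs * V ≤ cmax → cmax ≤ vt → cmax ≤ Q.p.a → cmax ≤ 1 → Q.Adm Q.x → 0 ≤ T4 → 0 ≤ T0 → 0 ≤ c1 →
      Q.E4 (C1 * Q.x ^ (-(g / 28)) * T4) Cs cmax → Q.D0 (C2 * Q.x ^ (-(g / 28))) T0 V → Q.Sup Mj (C3 * Q.x ^ (-(g / 28))) vt 6 (2 * Cs) e →
      T0 * (Q.x ^ 6 / (Q.lam1 * cmax ^ 4)) ≤ c1 * Q.x ^ (5 + g) * T4 →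
      |Q.DOEg (l9RgL4 V) J0| ≤ K0 * (|C3| + |C2| + 1) ^ 12 * (c1 + 4 * |C1|) * Q.x ^ (5 + g / 2) * (Q.Zc Mj ^ 4 * T4) := by
  obtain ⟨Kc, hKc, hpt⟩ := l9c_point Cs
  obtain ⟨CL, hCL, hLg⟩ := l9c_num_Lg (δ := g / 28) (by positivity)
  refine ⟨Kc * CL, mul_nonneg hKc hCL, ?_⟩
  intro Q Mj J0 C1 C2 C3 vt cmax V T0 T4 c1 e hJ hF hgF hx hx1 hl hlp hU hYV hVc hcv hca hc1 hAd hT4 hT0 hc10 hE4 hD0 hSup hfirst
  set y := Q.x ^ (-(g / 28)) with hy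
  have hy1 : 1 ≤ y := Real.one_le_rpow_of_pos_of_le_one_of_nonpos hx hx1 (by linarith)
  have hy0 : 0 < y := by linarith
  have hl1 : Q.lam ≤ 1 := hlp.trans (Real.rpow_le_one hx.le hx1 hF.p_pos.le)
  have hs : 0 < Q.I.F.sS := by linarith [hF.e_s, hF.e_pos]
  have hxU : Q.x ≤ Q.U := by
    have h : Q.U = min 1 (Q.x * Q.lam ^ (-(Q.I.F.sS / 2))) := rfl
    rw [h]
    refine le_min hx1 (le_mul_of_one_le_right hx.le ?_)
    exact Real.one_le_rpow_of_pos_of_le_one_of_nonpos hl hl1 (by linarith)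
  have hU0 : 0 < Q.U := lt_of_lt_of_le hx hxU
  have hZ : 1 ≤ Q.Zc Mj := hSup.z1
  have hA1 : 1 ≤ (|C3| + |C2| + 1) * y := by
    have : 1 ≤ |C3| + |C2| + 1 := by linarith [abs_nonneg C3, abs_nonneg C2]
    nlinarith
  have hside : Q.Side Mj ((|C3| + |C2| + 1) * y) vt Cs cmax V Q.x :=
    ⟨hA1, hCs, hx, hx1, hl, hl1, hxU, hYV, hVc, hcv, hca, hc1, l9c_num_z0 Q Mj hF hx hl hl1 hU hZ, le_refl _⟩
  have hE4' : Q.E4 (|C1| * y * T4) Cs cmax :=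
    hE4.mono (mul_le_mul_of_nonneg_right (mul_le_mul_of_nonneg_right (le_abs_self _) hy0.le) hT4) hAd hl.le
  have hD0' : Q.D0 ((|C3| + |C2| + 1) * y) T0 V :=
    hD0.mono (mul_le_mul_of_nonneg_right (by linarith [le_abs_self C2, abs_nonneg C3]) hy0.le) hT0
  have hSup' : Q.Sup Mj ((|C3| + |C2| + 1) * y) vt 6 (2 * Cs) e := by
    refine hSup.mono ?_ hx hl hU0
    rw [abs_mul, abs_of_pos hy0]
    exact mul_le_mul_of_nonneg_right (by linarith [abs_nonneg C2]) hy0.le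
  have hD := hpt Q Mj _ _ vt 6 cmax V Q.x T0 e J0 hJ hside (by positivity) hAd hE4' hD0' hSup'
  have hall := l9c_num_all Q Mj hF hx hx1 hl hlp hU hZ
  rw [← hgF] at hall
  have hZ4 : 1 ≤ Q.Zc Mj ^ 4 := one_le_pow₀ hZ
  have hP : 0 < Q.x ^ (5 + g) := Real.rpow_pos_of_pos hx _
  have hLg0 : 0 ≤ Q.Lg ^ 5 := by
    have : 0 ≤ Q.Lg := by
      have h3 : 0 ≤ Real.logb 2 (1 / Q.x) := Real.logb_nonneg (by norm_num) (by rw [le_div_iff₀ hx]; linarith)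
      unfold L9Q.Lg
      linarith
    positivity
  have hBr : T0 * (Q.x ^ 6 / (Q.lam1 * cmax ^ 4)) + |C1| * y * T4 * (Q.lam * Q.x ^ 6 / (Q.lam1 * Q.Y Mj) + Q.E3 Mj 6)
      ≤ (c1 + 4 * (|C1| * y)) * (Q.x ^ (5 + g) * (Q.Zc Mj ^ 4 * T4)) := by
    have b1 : c1 * Q.x ^ (5 + g) * T4 ≤ c1 * (Q.x ^ (5 + g) * (Q.Zc Mj ^ 4 * T4)) := by
      have : T4 ≤ Q.Zc Mj ^ 4 * T4 := le_mul_of_one_le_left hT4 hZ4
      calc c1 * Q.x ^ (5 + g) * T4 = c1 * (Q.x ^ (5 + g) * T4) := by ring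
        _ ≤ _ := mul_le_mul_of_nonneg_left (mul_le_mul_of_nonneg_left this hP.le) hc10
    have b2 : |C1| * y * T4 * (Q.lam * Q.x ^ 6 / (Q.lam1 * Q.Y Mj) + Q.E3 Mj 6) ≤ |C1| * y * T4 * (4 * (Q.x ^ (5 + g) * Q.Zc Mj ^ 4)) :=
      mul_le_mul_of_nonneg_left hall (by positivity)
    calc _ ≤ c1 * (Q.x ^ (5 + g) * (Q.Zc Mj ^ 4 * T4)) + |C1| * y * T4 * (4 * (Q.x ^ (5 + g) * Q.Zc Mj ^ 4)) := add_le_add (hfirst.trans b1) b2
      _ = _ := by ring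
  have := l9c_count hx hx1 hg hKc (by positivity : (0:ℝ) ≤ |C3| + |C2| + 1) hCL hc10 (abs_nonneg C1) (mul_nonneg (by positivity) hT4 : 0 ≤ Q.Zc Mj ^ 4 * T4)
    hLg0 (hLg Q hx hx1) hBr hD
  calc _ ≤ _ := this
    _ = _ := by ring

/-- **RED, size segment** -/
theorem l9c_redS (𝔹 : LlBase) (Mj : L9Mj) (J0 : ℕ) (hJ : 2 ≤ J0) (F : LlFix) (hF : L9cExp F) (a2 : ℝ) (ha2 : F.pS < a2) (ha2' : a2 < llDStar / 3)
    (Cs Cl v0 : ℝ) (hCs : 16 ≤ Cs) (hCl : 0 < Cl) (hv0 : 0 < v0)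
    (hE4 : L9cE4S 𝔹 F Cs Cl) (hD0 : L9cD0S 𝔹 F a2) (hSup : L9cSupS 𝔹 Mj F v0) (hAdm : L9cAdmS 𝔹 F)
    (hZg : ∀ Fs p m, 0 ≤ Mj.Zg F 𝔹 Fs p m) :
    L9BndSg 𝔹 Mj J0 F fun x => l9RgL4 (x ^ a2) := by
  have hg := l9c_G_pos hF
  obtain ⟨K0, hK0, hfin⟩ := l9c_fin Cs hCs hg
  have hδ : 0 < l9cG F / 28 := by positivity
  refine ⟨l9cG F / 2, by positivity, 1, one_pos, fun ε hε _ q hq => ?_⟩
  obtain ⟨C1, N1, h1⟩ := hE4 _ hδ ε hε q hq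
  obtain ⟨C2, N2, h2⟩ := hD0 _ hδ ε hε q hq
  obtain ⟨C3, N3, h3⟩ := hSup 6 (2 * Cs) (by linarith) _ hδ ε hε q hq
  obtain ⟨C4, N4, h4⟩ := hAdm 1 _ hδ ε hε q hq
  obtain ⟨N5, h5⟩ := l9c_X_small (8 * Cs / Cl) (sub_pos.2 ha2) one_pos
  obtain ⟨N6, h6⟩ := l9c_X_small Cl hF.p_pos (lt_min hv0 one_pos)
  refine ⟨K0 * (|C3| + |C2| + 1) ^ 12 * (1 / Cl ^ 4 + 4 * |C1|), max (max N1 N2) (max (max N3 N4) (max (max N5 N6) 2)), fun N hN => ?_⟩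
  have hN1 : N1 ≤ N := le_trans (le_trans (le_max_left _ _) (le_max_left _ _)) hN
  have hN2 : N2 ≤ N := le_trans (le_trans (le_max_right _ _) (le_max_left _ _)) hN
  have hN3 : N3 ≤ N := le_trans (le_trans (le_trans (le_max_left _ _) (le_max_left _ _)) (le_max_right _ _)) hN
  have hN4 : N4 ≤ N := le_trans (le_trans (le_trans (le_max_right _ _) (le_max_left _ _)) (le_max_right _ _)) hN
  have hN56 : max (max N5 N6) 2 ≤ N := le_trans (le_trans (le_max_right _ _) (le_max_right _ _)) hN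
  have hN5 : N5 ≤ N := le_trans (le_trans (le_max_left _ _) (le_max_left _ _)) hN56
  have hN6 : N6 ≤ N := le_trans (le_trans (le_max_right _ _) (le_max_left _ _)) hN56
  have hN7 : 2 ≤ N := le_trans (le_max_right _ _) hN56
  have hx : 0 < skX N := l9c_X_pos (by omega)
  have hx1 : skX N ≤ 1 := l9c_X_le (by omega)
  have hxlt : skX N < 1 := l9c_X_lt hN7
  have hlam0 : 0 < skX N ^ F.pS := Real.rpow_pos_of_pos hx _
  have hc : Cl * skX N ^ F.pS ≤ min v0 1 := h6 N hN6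
  have hVc : 8 * Cs * skX N ^ a2 ≤ Cl * skX N ^ F.pS := by
    have e1 : skX N ^ a2 = skX N ^ (a2 - F.pS) * skX N ^ F.pS := by rw [← Real.rpow_add hx]; congr 1; ring
    have e2 : 8 * Cs * skX N ^ a2 = 8 * Cs / Cl * skX N ^ (a2 - F.pS) * (Cl * skX N ^ F.pS) := by
      rw [e1]; field_simp
    rw [e2]
    exact mul_le_of_le_one_left (by positivity) (h5 N hN5)
  have hU' : skX N * (skX N ^ F.pS) ^ (-(F.sS / 2)) < 1 := by
    have e1 : skX N * (skX N ^ F.pS) ^ (-(F.sS / 2)) = skX N ^ (1 + F.pS * (-(F.sS / 2))) := by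
      rw [Real.rpow_add hx, Real.rpow_one, Real.rpow_mul hx.le]
    rw [e1]
    refine Real.rpow_lt_one hx.le hxlt ?_
    nlinarith [hF.p_pos, hF.p_le, hF.s_hi, hF.e_s, hF.e_pos]
  have hG1 : l9cG F ≤ 1 / 2 := min_le_left _ _
  filter_upwards [h1 N hN1, h2 N hN2, h3 N hN3, h4 N hN4] with Fs e1 e2 e3 e4
  intro m γ θ hy
  have E4 := e1 m γ θ hy
  have D0 := e2 m γ θ hy
  obtain ⟨Ad, hdot⟩ := e4 m γ θ hy
  rw [Real.rpow_one] at Ad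
  obtain ⟨e, Sp⟩ := e3 m γ θ hy Ad
  have hU : (l9QS F 𝔹 (q * skX N ^ (1 + ε)) Fs m N γ θ).U < 1 := min_lt_of_right_lt hU'
  have hU0 : 0 < (l9QS F 𝔹 (q * skX N ^ (1 + ε)) Fs m N γ θ).U :=
    lt_min one_pos (mul_pos hx (Real.rpow_pos_of_pos hlam0 _))
  have hZc : (l9QS F 𝔹 (q * skX N ^ (1 + ε)) Fs m N γ θ).Zc Mj
      = min (Mj.Z F 𝔹 Fs (l9PtS F N γ θ) m) (skX N ^ (llDStar / 3) / (l9QS F 𝔹 (q * skX N ^ (1 + ε)) Fs m N γ θ).U) := if_pos rfl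
  have hYV : (l9QS F 𝔹 (q * skX N ^ (1 + ε)) Fs m N γ θ).Y Mj ≤ skX N ^ a2 := by
    unfold L9Q.Y
    rw [hZc]
    calc _ ≤ (l9QS F 𝔹 (q * skX N ^ (1 + ε)) Fs m N γ θ).U * (skX N ^ (llDStar / 3) / (l9QS F 𝔹 (q * skX N ^ (1 + ε)) Fs m N γ θ).U) :=
          mul_le_mul_of_nonneg_left (min_le_right _ _) hU0.le
      _ = skX N ^ (llDStar / 3) := mul_div_cancel₀ _ hU0.ne'
      _ ≤ skX N ^ a2 := Real.rpow_le_rpow_of_exponent_ge hx hx1 ha2'.le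
  have hT : 0 ≤ 1 + (⟨F, 𝔹, q * skX N ^ (1 + ε), Fs, m⟩ : L9I).dot (l9PtS F N γ) θ := add_nonneg zero_le_one hdot
  have hfirst : (1 + (⟨F, 𝔹, q * skX N ^ (1 + ε), Fs, m⟩ : L9I).dot (l9PtS F N γ) θ)
        * (skX N ^ 6 / ((skX N ^ F.pS) ^ (1 + F.eta) * (Cl * skX N ^ F.pS) ^ 4))
      ≤ 1 / Cl ^ 4 * skX N ^ (5 + l9cG F) * (1 + (⟨F, 𝔹, q * skX N ^ (1 + ε), Fs, m⟩ : L9I).dot (l9PtS F N γ) θ) := by
    rw [l9cn_firstS hx rfl hCl]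
    have a2 : skX N ^ (6 - (5 + F.eta) * F.pS) ≤ skX N ^ (5 + l9cG F) :=
      Real.rpow_le_rpow_of_exponent_ge hx hx1 (by nlinarith [hF.e_12, hF.p_le, hF.p_pos, hF.e_pos])
    calc _ ≤ (1 + (⟨F, 𝔹, q * skX N ^ (1 + ε), Fs, m⟩ : L9I).dot (l9PtS F N γ) θ) * (skX N ^ (5 + l9cG F) / Cl ^ 4) :=
          mul_le_mul_of_nonneg_left (div_le_div_of_nonneg_right a2 (by positivity)) hT
      _ = _ := by ring
  have := hfin (l9QS F 𝔹 (q * skX N ^ (1 + ε)) Fs m N γ θ) Mj J0 C1 C2 C3 v0 (Cl * skX N ^ F.pS) (skX N ^ a2) _ _ (1 / Cl ^ 4) e hJ hF rfl hx hx1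
    hlam0 le_rfl hU hYV hVc (hc.trans (min_le_left _ _)) ((hc.trans (min_le_right _ _)).trans (by show (1:ℝ) ≤ 4; norm_num))
    (hc.trans (min_le_right _ _)) Ad hT hT (by positivity) E4 D0 Sp hfirst
  refine this.trans ?_
  have hZ1 : 1 ≤ (l9QS F 𝔹 (q * skX N ^ (1 + ε)) Fs m N γ θ).Zc Mj := Sp.z1
  have hZle : (l9QS F 𝔹 (q * skX N ^ (1 + ε)) Fs m N γ θ).Zc Mj ≤ Mj.Z F 𝔹 Fs (l9PtS F N γ θ) m := by rw [hZc]; exact min_le_left _ _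
  have hZ4 : (l9QS F 𝔹 (q * skX N ^ (1 + ε)) Fs m N γ θ).Zc Mj ^ 4
      ≤ Mj.Z F 𝔹 Fs (l9PtS F N γ θ) m ^ 4 + Mj.Zg F 𝔹 Fs (l9PtS F N γ θ) m * Mj.Z F 𝔹 Fs (l9PtS F N γ θ) m ^ 2 :=
    (pow_le_pow_left₀ (by linarith) hZle 4).trans (le_add_of_nonneg_right (mul_nonneg (hZg _ _ _) (by positivity)))
  unfold l9WS
  refine mul_le_mul_of_nonneg_left (mul_le_mul_of_nonneg_right hZ4 hT) ?_
  have : 0 ≤ skX N ^ (5 + l9cG F / 2) := Real.rpow_nonneg hx.le _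
  exact mul_nonneg (by positivity) this

/-- **RED, strength sweep** -/
theorem l9c_redD (𝔹 : LlBase) (Mj : L9Mj) (κ : ℝ) (hκ : 0 < κ) (J0 : ℕ) (hJ : 2 ≤ J0) (F : LlFix) (hF : L9cExp F)
    (Cs cmax cD v0 : ℝ) (hCs : 16 ≤ Cs) (hcm : 0 < cmax) (hcm1 : cmax ≤ 1) (hcv : cmax ≤ v0) (hcD : 0 < cD) (hcD' : 8 * Cs * cD ≤ cmax)
    (hE4 : L9cE4D 𝔹 Mj κ F Cs cmax) (hD0 : L9cD0D 𝔹 Mj κ F cD) (hSup : L9cSupD 𝔹 Mj κ F v0) (hAdm : L9cAdmD 𝔹 Mj κ F) :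
    L9BndDg 𝔹 Mj κ J0 F fun _ => l9RgL4 cD := by
  have hg := l9c_G_pos hF
  obtain ⟨K0, hK0, hfin⟩ := l9c_fin Cs hCs hg
  have hδ : 0 < l9cG F / 28 := by positivity
  refine ⟨l9cG F / 2, by positivity, 1, one_pos, fun ε hε _ q hq => ?_⟩
  obtain ⟨C1, N1, h1⟩ := hE4 _ hδ ε hε q hq
  obtain ⟨C2, N2, h2⟩ := hD0 _ hδ ε hε q hq
  obtain ⟨C3, N3, h3⟩ := hSup 6 (2 * Cs) (by linarith) _ hδ ε hε q hq
  obtain ⟨C4, N4, h4⟩ := hAdm 1 _ hδ ε hε q hq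
  obtain ⟨N5, h5⟩ := l9c_X_small 1 hκ hcD
  refine ⟨K0 * (|C3| + |C2| + 1) ^ 12 * (1 / cmax ^ 4 + 4 * |C1|), max (max N1 N2) (max (max N3 N4) (max N5 2)), fun N hN => ?_⟩
  have hN1 : N1 ≤ N := le_trans (le_trans (le_max_left _ _) (le_max_left _ _)) hN
  have hN2 : N2 ≤ N := le_trans (le_trans (le_max_right _ _) (le_max_left _ _)) hN
  have hN3 : N3 ≤ N := le_trans (le_trans (le_trans (le_max_left _ _) (le_max_left _ _)) (le_max_right _ _)) hN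
  have hN4 : N4 ≤ N := le_trans (le_trans (le_trans (le_max_right _ _) (le_max_left _ _)) (le_max_right _ _)) hN
  have hN5 : N5 ≤ N := le_trans (le_trans (le_trans (le_max_left _ _) (le_max_right _ _)) (le_max_right _ _)) hN
  have hN6 : 2 ≤ N := le_trans (le_trans (le_trans (le_max_right _ _) (le_max_right _ _)) (le_max_right _ _)) hN
  have hx : 0 < skX N := l9c_X_pos (by omega)
  have hx1 : skX N ≤ 1 := l9c_X_le (by omega)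
  have hxlt : skX N < 1 := l9c_X_lt hN6
  filter_upwards [h1 N hN1, h2 N hN2, h3 N hN3, h4 N hN4] with Fs e1 e2 e3 e4
  intro m ell γ t hy
  have E4 := e1 m ell γ t hy
  have D0 := e2 m ell γ t hy
  have Ad := e4 m ell γ t hy
  rw [Real.rpow_one] at Ad
  obtain ⟨e, Sp⟩ := e3 m ell γ t hy Ad
  obtain ⟨-, -, hell, ht, -, -, hstop⟩ := hy
  obtain ⟨hlo, hhi⟩ := l9c_lamRg (F := F) (by omega : 0 < N) ht
  have hZ : 1 ≤ Mj.Z F 𝔹 Fs (l9PtL N ell γ t) m := Sp.z1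
  have hU0 : 0 ≤ (l9PtL N ell γ t).U F := le_min zero_le_one (mul_nonneg hx.le (Real.rpow_nonneg (Real.exp_pos t).le _))
  have hκ1 : skX N ^ κ < 1 := Real.rpow_lt_one hx.le hxlt hκ
  have hU : (l9PtL N ell γ t).U F < 1 := lt_of_le_of_lt ((le_mul_of_one_le_right hU0 hZ).trans hstop) hκ1
  have hYV : (l9PtL N ell γ t).U F * Mj.Z F 𝔹 Fs (l9PtL N ell γ t) m ≤ cD := hstop.trans (by simpa using h5 N hN5)
  have hfirst : Real.exp t * (skX N ^ 6 / (Real.exp t ^ (1 + F.eta) * cmax ^ 4)) ≤ 1 / cmax ^ 4 * skX N ^ (5 + l9cG F) * 1 := by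
    have a1 := l9cn_firstD hx hlo hF.e_pos hcm
    have hG1 : l9cG F ≤ 1 / 2 := min_le_left _ _
    have a2 : skX N ^ (6 - 12 * F.eta) ≤ skX N ^ (5 + l9cG F) :=
      Real.rpow_le_rpow_of_exponent_ge hx hx1 (by linarith [hF.e_12])
    calc _ ≤ skX N ^ (6 - 12 * F.eta) / cmax ^ 4 := a1
      _ ≤ skX N ^ (5 + l9cG F) / cmax ^ 4 := div_le_div_of_nonneg_right a2 (by positivity)
      _ = _ := by ring
  have := hfin (l9QD F 𝔹 (q * skX N ^ (1 + ε)) Fs m N ell γ t) Mj J0 C1 C2 C3 v0 cmax cD (Real.exp t) 1 (1 / cmax ^ 4) e hJ hF rfl hx hx1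
    (Real.exp_pos t) hhi hU hYV hcD' hcv (hcm1.trans hell.1) hcm1 Ad zero_le_one (Real.exp_pos t).le (by positivity)
    (by rw [mul_one]; exact E4) D0 Sp hfirst
  rw [mul_one] at this
  exact this

end Claimed.Agent.R286
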