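import Claimed.Agent.R286.L09.RegIn
import Claimed.Agent.R286.L09.RedC
import Claimed.Agent.R286.LL04.ClkHe
import Claimed.Agent.R286.LL.PathsClkB

/-!
# Row 286 (S0533), unit L09, file DotsD: THE DOTTED CLOCKS OF THE STRENGTH SWEEP ON THE CHAIN      (owner helper159; DOTS = 69 (size, record `Q.Dots`) + 159 (direct); head of the unit helper60; prefix `l9dd_`)

LL 03-paths.tex l.469-478 ("Strength derivatives": all dotted clocks are `O(λ)`), TEX[LL:paths:parameter-regularity]; consumers: HI, W5, RED-D0, E4 of LL Sec. 9.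
Everything from `LlExpOk`, `LlBaseProfile 𝔹 F.T`, `LlSec3 𝔹 F` (ANY base).
* sec. 1  MASS LEVEL, SHARP: two strengths `λ ≤ λ' ≤ x^(p_*)` of a direct point, `D = λ' log (λ'/λ)`:   `|Δb| ≤ C D`, `|ΔK| ≤ C D v`, `|Δq| ≤ C D min v 1`, `|Δh| ≤ C (1 + log (1/x)) D`      (`l9dd_lam_b`, `l9dd_He_lip`, `l9dd_lam_h`, `l9dd_mass`);   `l9dd_bb`: `|Δ(b - b_0)| ≤ K D max(v,U)²` (for `InBD` of (E4), 98).
          [the crude forms `ll04c_lam_b`, `ll04c_lam_h` (258), `ll04h_He_lip` (245) lose the factor `λ'`: same proofs, sharper book-keeping]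
* sec. 2  TRANSFER TO POSITIONS (on `l9rg_dom` of 260): `l9dd_at` (`|c - c'| ≤ A v + D` on `(0,a)` `⟹ |ghAt a c P - ghAt a c' P| ≤ A P.u + D`), `l9dd_at_le`, `l9dd_at_id`;   generic, also for the size segment.
* sec. 3  ONE-SIDED SLOPES: `l9dd_deriv_le` (any filter `≤ 𝓝[≠] t`; no differentiability needed: `deriv = 0` otherwise), `l9dd_deriv_Icc` (ALL points of a closed interval, end points included).
* sec. 4  POSITIONS ALONG THE SWEEP: record `L9ddPos 𝔹 F C N ell γ`, `l9dd_pos`.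
* sec. 5  THE CHAIN: `l9dd_cases` (`bC j, hC j, KC j` = values at ONE position of mass `≤ trPm ms j`), `l9dd_fam_q` (LEAF Q of 151 at the end points), `l9dd_cut`, record `L9Q.DotD Q A`, `l9dd_point`,
          **`l9dd_exit : L9SbD 𝔹 Mj κ F fun A Q => Q.DotD A`**:   `0 ≤ bC ≤ A`, `0 ≤ hC`, `0 ≤ KC j ≤ A ml_j`, `|ḃC|, |ḣC| ≤ A λ`, `|K̇C j| ≤ A λ ml_j` (ALL `j`), `|q̇C j| ≤ A λ` (`j ≤ N`), `I.dot ≤ A λ`;   `ml_j = trPm Q.ms j`.
0 sorry.
-/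

set_option autoImplicit false

namespace Claimed.Agent.R286

open MeasureTheory Set Filter Topology

/-! ## 1. mass level, sharp -/

/-- move (λ), the matrix clock, with the factor `λ'` -/
theorem l9dd_lam_b (F : LlFix) (hF : F.Ok) (𝔹 : LlBase) {B CR : ℝ} (hB : ∀ w, |F.phi w| ≤ B) (p : LlPt) (hp : p.Ok F) (hs1 : F.sS ≤ 1)
    (hxb : 8 * p.x ≤ F.vb) (l' : ℝ) (hl : p.lam ≤ l') (hCR : 0 ≤ CR)
    (hb0 : |(p.wLm l').b0 F 𝔹 - p.b0 F 𝔹| ≤ CR * |l' - p.lam|) (v : ℝ) (hv : v ∈ Icc (0 : ℝ) 4) :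
    |(p.wLm l').b F 𝔹 v - p.b F 𝔹 v| ≤ ll04cCb F B CR * (l' * Real.log (l' / p.lam)) := by
  have hx := lce_x_pos hp.N2
  have h0 := lce_lam_pos hp
  have hB0 : 0 ≤ B := (abs_nonneg _).trans (hB 0)
  set δ := Real.log (l' / p.lam) with hδdef
  have hδ : 0 ≤ δ := Real.log_nonneg ((one_le_div h0).2 hl)
  have hdl : |l' - p.lam| ≤ l' * δ := by
    rw [abs_of_nonneg (by linarith)]
    exact lcf_lam_diff p.lam l' h0 hl
  obtain ⟨hG0, hG1⟩ := ll04c_G_bd F hF p hx hxb v hv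
  set CG := 16 * max 64 (F.G1 2) with hCG
  have hDy := ll04c_dy_abs F hF hB p hx hxb hp.gu v
  obtain ⟨hU1, hU2⟩ := lcf_U_pow_diff p.x F.sS p.lam l' 2 hx hF.sS0.le h0 hl
  have hUle : lcfU p.x F.sS p.lam ≤ 1 := min_le_left _ _
  have hUpos : 0 < lcfU p.x F.sS p.lam := lt_min one_pos (mul_pos hx (Real.rpow_pos_of_pos h0 _))
  have hU'le : lcfU p.x F.sS l' ≤ 1 := min_le_left _ _
  have hU'pos : 0 < lcfU p.x F.sS l' := lt_min one_pos (mul_pos hx (Real.rpow_pos_of_pos (h0.trans_le hl) _))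
  have hg0 : |p.gam0| ≤ 4 := abs_le.2 hp.g0
  have hc1 := hF.c10
  have hcb := hF.cb0
  have e : (p.wLm l').b F 𝔹 v - p.b F 𝔹 v = ((p.wLm l').b0 F 𝔹 - p.b0 F 𝔹)
      + F.cb * ((l' - p.lam) * (p.G F v * (1 - F.c1 * p.gam0) - F.c1 * p.dySum F v - lcfU p.x F.sS l' ^ 2 * (1 + F.c1 * p.gam0))
        + p.lam * ((lcfU p.x F.sS p.lam ^ 2 - lcfU p.x F.sS l' ^ 2) * (1 + F.c1 * p.gam0))) := by
    show ((p.wLm l').b0 F 𝔹 + F.cb * l' * (p.G F v - lcfU p.x F.sS l' ^ 2 - F.c1 * p.gam0 * (p.G F v + lcfU p.x F.sS l' ^ 2) - F.c1 * p.dySum F v))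
      - (p.b0 F 𝔹 + F.cb * p.lam * (p.G F v - lcfU p.x F.sS p.lam ^ 2 - F.c1 * p.gam0 * (p.G F v + lcfU p.x F.sS p.lam ^ 2) - F.c1 * p.dySum F v)) = _
    ring
  have k1 : |1 - F.c1 * p.gam0| ≤ 1 + 4 * F.c1 := by
    have : |F.c1 * p.gam0| ≤ F.c1 * 4 := by rw [abs_mul, abs_of_pos hc1]; exact mul_le_mul_of_nonneg_left hg0 hc1.le
    calc |1 - F.c1 * p.gam0| ≤ |(1 : ℝ)| + |F.c1 * p.gam0| := abs_sub _ _
      _ ≤ 1 + 4 * F.c1 := by rw [abs_one]; linarith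
  have k2 : |1 + F.c1 * p.gam0| ≤ 1 + 4 * F.c1 := by
    have : |F.c1 * p.gam0| ≤ F.c1 * 4 := by rw [abs_mul, abs_of_pos hc1]; exact mul_le_mul_of_nonneg_left hg0 hc1.le
    calc |1 + F.c1 * p.gam0| ≤ |(1 : ℝ)| + |F.c1 * p.gam0| := abs_add_le _ _
      _ ≤ 1 + 4 * F.c1 := by rw [abs_one]; linarith
  have k3 : |p.G F v * (1 - F.c1 * p.gam0)| ≤ CG * (1 + 4 * F.c1) := ll04c_abs_mul (by rw [abs_of_nonneg hG0]; exact hG1) k1
  have k4 : |F.c1 * p.dySum F v| ≤ F.c1 * (8 * B) := ll04c_abs_mul (by rw [abs_of_pos hc1]) hDy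
  have k5 : |lcfU p.x F.sS l' ^ 2 * (1 + F.c1 * p.gam0)| ≤ 1 * (1 + 4 * F.c1) :=
    ll04c_abs_mul (by rw [abs_of_nonneg (sq_nonneg _)]; exact pow_le_one₀ hU'pos.le hU'le) k2
  have k6 : |p.G F v * (1 - F.c1 * p.gam0) - F.c1 * p.dySum F v - lcfU p.x F.sS l' ^ 2 * (1 + F.c1 * p.gam0)|
      ≤ CG * (1 + 4 * F.c1) + F.c1 * (8 * B) + 1 * (1 + 4 * F.c1) :=
    (abs_sub _ _).trans (add_le_add ((abs_sub _ _).trans (add_le_add k3 k4)) k5)
  have k7 : |lcfU p.x F.sS p.lam ^ 2 - lcfU p.x F.sS l' ^ 2| ≤ δ := by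
    rw [abs_of_nonneg hU1]
    refine hU2.trans ?_
    have h3 : lcfU p.x F.sS p.lam ^ 2 ≤ 1 := pow_le_one₀ hUpos.le hUle
    have h4 : ((2 : ℕ) : ℝ) * (F.sS / 2) * lcfU p.x F.sS p.lam ^ 2 ≤ 1 := by
      push_cast
      have := hF.sS0
      nlinarith [sq_nonneg (lcfU p.x F.sS p.lam)]
    calc ((2 : ℕ) : ℝ) * (F.sS / 2) * lcfU p.x F.sS p.lam ^ 2 * δ ≤ 1 * δ := mul_le_mul_of_nonneg_right h4 hδ
      _ = δ := one_mul _
  have k8 : |p.lam * ((lcfU p.x F.sS p.lam ^ 2 - lcfU p.x F.sS l' ^ 2) * (1 + F.c1 * p.gam0))| ≤ l' * (δ * (1 + 4 * F.c1)) :=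
    ll04c_abs_mul (by rw [abs_of_pos h0]; exact hl) (ll04c_abs_mul k7 k2)
  have k9 := ll04c_abs_mul hdl k6
  have k10 : |(p.wLm l').b0 F 𝔹 - p.b0 F 𝔹| ≤ CR * (l' * δ) := hb0.trans (mul_le_mul_of_nonneg_left hdl hCR)
  rw [e]
  calc _ ≤ |(p.wLm l').b0 F 𝔹 - p.b0 F 𝔹| + |F.cb * ((l' - p.lam) * (p.G F v * (1 - F.c1 * p.gam0) - F.c1 * p.dySum F v - lcfU p.x F.sS l' ^ 2 * (1 + F.c1 * p.gam0))
        + p.lam * ((lcfU p.x F.sS p.lam ^ 2 - lcfU p.x F.sS l' ^ 2) * (1 + F.c1 * p.gam0)))| := abs_add_le _ _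
    _ ≤ CR * (l' * δ) + F.cb * (l' * δ * (CG * (1 + 4 * F.c1) + F.c1 * (8 * B) + 1 * (1 + 4 * F.c1)) + l' * (δ * (1 + 4 * F.c1))) := by
        refine add_le_add k10 (ll04c_abs_mul (by rw [abs_of_pos hcb]) ((abs_add_le _ _).trans (add_le_add k9 k8)))
    _ = ll04cCb F B CR * (l' * δ) := by unfold ll04cCb; ring

/-- **(P3) in difference form**: the part `b - b_0` of the matrix clock at two strengths `λ ≤ λ'`, with the weight `max(v,U)²` (`U = U(λ)`, the larger one) -/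
theorem l9dd_bb (F : LlFix) (hF : F.Ok) : ∃ K : ℝ, 0 ≤ K ∧ ∀ (𝔹 : LlBase) (p : LlPt), 0 < p.x → 8 * p.x ≤ F.vb → (∀ h, p.gu h ∈ Icc (-4 : ℝ) 4) →
    p.gam0 ∈ Icc (-4 : ℝ) 4 → 0 < p.lam → ∀ l', p.lam ≤ l' → ∀ v, 0 ≤ v →
      |((p.wLm l').b F 𝔹 v - (p.wLm l').b0 F 𝔹) - (p.b F 𝔹 v - p.b0 F 𝔹)| ≤ K * (l' * Real.log (l' / p.lam)) * max v (p.U F) ^ 2 := by
  obtain ⟨CG, CD, cG, h1, h2, -, H⟩ := lcb_main F hF
  have hc1 := hF.c10
  have hcb := hF.cb0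
  have hs0 := hF.sS0
  have hs1 := hF.sS1
  refine ⟨F.cb * ((1 + 4 * F.c1) * CG + F.c1 * CD * CG + 2 * (1 + 4 * F.c1)), by positivity, fun 𝔹 p hx hxb hg hg0 h0 l' hl v hv => ?_⟩
  obtain ⟨hmono, hz, -, hle, -, -, hdy, hdy0⟩ := H p hx hxb hg
  have hG0 : p.G F 0 = 0 := hz 0 hx.le
  have hG : 0 ≤ p.G F v := by rw [← hG0]; exact hmono hv
  have hD : |p.dySum F v| ≤ CD * p.G F v := by
    have := hdy 0 v le_rfl hv
    rwa [hdy0, hG0, sub_zero, sub_zero] at this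
  have hl0 : 0 < l' := h0.trans_le hl
  obtain ⟨δ, hδd⟩ : ∃ δ, δ = Real.log (l' / p.lam) := ⟨_, rfl⟩
  rw [← hδd]
  have hδ : 0 ≤ δ := by rw [hδd]; exact Real.log_nonneg ((one_le_div h0).2 hl)
  have hdl : l' - p.lam ≤ l' * δ := by rw [hδd]; exact lcf_lam_diff p.lam l' h0 hl
  have hdl0 : 0 ≤ l' - p.lam := by linarith
  obtain ⟨hU1, hU2⟩ := lcf_U_pow_diff p.x F.sS p.lam l' 2 hx hs0.le h0 hl
  rw [← hδd] at hU2
  have hUe : p.U F = lcfU p.x F.sS p.lam := rfl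
  obtain ⟨m, hm⟩ : ∃ m, m = max v (p.U F) := ⟨_, rfl⟩
  rw [← hm]
  have hU0 : 0 ≤ p.U F := le_min zero_le_one (mul_nonneg hx.le (Real.rpow_nonneg h0.le _))
  have hv2 : v ^ 2 ≤ m ^ 2 := pow_le_pow_left₀ hv (by rw [hm]; exact le_max_left _ _) 2
  have hUm : lcfU p.x F.sS p.lam ^ 2 ≤ m ^ 2 := by rw [← hUe]; exact pow_le_pow_left₀ hU0 (by rw [hm]; exact le_max_right _ _) 2
  have hm2 : 0 ≤ m ^ 2 := sq_nonneg _
  have hGm : p.G F v ≤ CG * m ^ 2 := (hle v hv).trans (mul_le_mul_of_nonneg_left hv2 (by linarith))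
  have hU'0 : 0 ≤ lcfU p.x F.sS l' ^ 2 := sq_nonneg _
  have e : ((p.wLm l').b F 𝔹 v - (p.wLm l').b0 F 𝔹) - (p.b F 𝔹 v - p.b0 F 𝔹)
      = F.cb * ((l' - p.lam) * (p.G F v * (1 - F.c1 * p.gam0) - F.c1 * p.dySum F v - lcfU p.x F.sS l' ^ 2 * (1 + F.c1 * p.gam0))
        + p.lam * ((lcfU p.x F.sS p.lam ^ 2 - lcfU p.x F.sS l' ^ 2) * (1 + F.c1 * p.gam0))) := by
    show (((p.wLm l').b0 F 𝔹 + F.cb * l' * (p.G F v - lcfU p.x F.sS l' ^ 2 - F.c1 * p.gam0 * (p.G F v + lcfU p.x F.sS l' ^ 2) - F.c1 * p.dySum F v))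
      - (p.wLm l').b0 F 𝔹)
      - ((p.b0 F 𝔹 + F.cb * p.lam * (p.G F v - lcfU p.x F.sS p.lam ^ 2 - F.c1 * p.gam0 * (p.G F v + lcfU p.x F.sS p.lam ^ 2) - F.c1 * p.dySum F v))
      - p.b0 F 𝔹) = _
    ring
  have hg4 : |p.gam0| ≤ 4 := abs_le.2 hg0
  have hcg : |F.c1 * p.gam0| ≤ 4 * F.c1 := by
    rw [abs_mul, abs_of_pos hc1]
    nlinarith
  have k1 : |1 - F.c1 * p.gam0| ≤ 1 + 4 * F.c1 := by
    calc |1 - F.c1 * p.gam0| ≤ |(1 : ℝ)| + |F.c1 * p.gam0| := abs_sub _ _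
      _ ≤ 1 + 4 * F.c1 := by rw [abs_one]; linarith
  have k2 : |1 + F.c1 * p.gam0| ≤ 1 + 4 * F.c1 := by
    calc |1 + F.c1 * p.gam0| ≤ |(1 : ℝ)| + |F.c1 * p.gam0| := abs_add_le _ _
      _ ≤ 1 + 4 * F.c1 := by rw [abs_one]; linarith
  have k3 : |p.G F v * (1 - F.c1 * p.gam0)| ≤ CG * m ^ 2 * (1 + 4 * F.c1) := ll04c_abs_mul (by rw [abs_of_nonneg hG]; exact hGm) k1
  have k4 : |F.c1 * p.dySum F v| ≤ F.c1 * (CD * (CG * m ^ 2)) :=
    ll04c_abs_mul (by rw [abs_of_pos hc1]) (hD.trans (mul_le_mul_of_nonneg_left hGm h2))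
  have k5 : |lcfU p.x F.sS l' ^ 2 * (1 + F.c1 * p.gam0)| ≤ m ^ 2 * (1 + 4 * F.c1) :=
    ll04c_abs_mul (by rw [abs_of_nonneg hU'0]; linarith) k2
  have k6 : |p.G F v * (1 - F.c1 * p.gam0) - F.c1 * p.dySum F v - lcfU p.x F.sS l' ^ 2 * (1 + F.c1 * p.gam0)|
      ≤ CG * m ^ 2 * (1 + 4 * F.c1) + F.c1 * (CD * (CG * m ^ 2)) + m ^ 2 * (1 + 4 * F.c1) :=
    (abs_sub _ _).trans (add_le_add ((abs_sub _ _).trans (add_le_add k3 k4)) k5)
  have k7 : |lcfU p.x F.sS p.lam ^ 2 - lcfU p.x F.sS l' ^ 2| ≤ δ * m ^ 2 := by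
    rw [abs_of_nonneg hU1]
    refine hU2.trans ?_
    have h4 : ((2 : ℕ) : ℝ) * (F.sS / 2) * lcfU p.x F.sS p.lam ^ 2 ≤ m ^ 2 := by
      push_cast
      nlinarith [sq_nonneg (lcfU p.x F.sS p.lam)]
    calc ((2 : ℕ) : ℝ) * (F.sS / 2) * lcfU p.x F.sS p.lam ^ 2 * δ ≤ m ^ 2 * δ := mul_le_mul_of_nonneg_right h4 hδ
      _ = δ * m ^ 2 := mul_comm _ _
  have k8 : |p.lam * ((lcfU p.x F.sS p.lam ^ 2 - lcfU p.x F.sS l' ^ 2) * (1 + F.c1 * p.gam0))| ≤ l' * (δ * m ^ 2 * (1 + 4 * F.c1)) :=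
    ll04c_abs_mul (by rw [abs_of_pos h0]; exact hl) (ll04c_abs_mul k7 k2)
  have k9 : |(l' - p.lam) * (p.G F v * (1 - F.c1 * p.gam0) - F.c1 * p.dySum F v - lcfU p.x F.sS l' ^ 2 * (1 + F.c1 * p.gam0))|
      ≤ l' * δ * (CG * m ^ 2 * (1 + 4 * F.c1) + F.c1 * (CD * (CG * m ^ 2)) + m ^ 2 * (1 + 4 * F.c1)) :=
    ll04c_abs_mul (by rw [abs_of_nonneg hdl0]; exact hdl) k6
  rw [e]
  calc _ ≤ F.cb * (l' * δ * (CG * m ^ 2 * (1 + 4 * F.c1) + F.c1 * (CD * (CG * m ^ 2)) + m ^ 2 * (1 + 4 * F.c1)) + l' * (δ * m ^ 2 * (1 + 4 * F.c1))) :=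
        ll04c_abs_mul (by rw [abs_of_pos hcb]) ((abs_add_le _ _).trans (add_le_add k9 k8))
    _ = _ := by ring

/-- product rule in difference form for `L Y (P - M)`, keeping the factor `L` -/
theorem l9dd_prod {L L2 Y Y2 P P2 M M2 K a b c : ℝ} (hL0 : 0 ≤ L) (hLa : |L2 - L| ≤ a)
    (hY : |Y| ≤ 1) (hY2 : |Y2| ≤ 1) (hYb : |Y2 - Y| ≤ b) (hPM2 : |P2 - M2| ≤ K) (hc : |P2 - P| + |M2 - M| ≤ c) :
    |L2 * Y2 * (P2 - M2) - L * Y * (P - M)| ≤ a * K + L * (b * K + c) := by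
  have e : L2 * Y2 * (P2 - M2) - L * Y * (P - M)
      = (L2 - L) * (Y2 * (P2 - M2)) + L * ((Y2 - Y) * (P2 - M2)) + L * (Y * ((P2 - P) - (M2 - M))) := by ring
  have hL : |L| ≤ L := by rw [abs_of_nonneg hL0]
  have t1 : |(L2 - L) * (Y2 * (P2 - M2))| ≤ a * (1 * K) := ll04h_abs_mul hLa (ll04h_abs_mul hY2 hPM2)
  have t2 : |L * ((Y2 - Y) * (P2 - M2))| ≤ L * (b * K) := ll04h_abs_mul hL (ll04h_abs_mul hYb hPM2)
  have t4 : |(P2 - P) - (M2 - M)| ≤ c := (abs_sub _ _).trans hc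
  have t3 : |L * (Y * ((P2 - P) - (M2 - M)))| ≤ L * (1 * c) := ll04h_abs_mul hL (ll04h_abs_mul hY t4)
  rw [e]
  calc _ ≤ |(L2 - L) * (Y2 * (P2 - M2))| + |L * ((Y2 - Y) * (P2 - M2))| + |L * (Y * ((P2 - P) - (M2 - M)))| := abs_add_three _ _ _
    _ ≤ a * (1 * K) + L * (b * K) + L * (1 * c) := add_le_add (add_le_add t1 t2) t3
    _ = a * K + L * (b * K + c) := by ring

section pt

variable {F : LlFix} {𝔹 : LlBase} {p : LlPt}

/-- the plateau profile as a function of the strength, with the factor `λ'` -/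
theorem l9dd_HePl_lip (hF : F.Ok) (hB : LlBaseProfile 𝔹 F.T) {Lp : ℝ} (hLp0 : 0 ≤ Lp)
    (hLp : ∀ U ∈ Icc (0 : ℝ) 1, ∀ U' ∈ Icc (0 : ℝ) 1, |F.Ups U' - F.Ups U| ≤ Lp * |U' - U|)
    (hN : 2 ≤ p.N) (hlam : 0 < p.lam) {l2 : ℝ} (hl : p.lam ≤ l2) (hl1 : l2 ≤ 1) {w : ℝ} (hw : w ∈ Icc (𝔹.pTop F.T) 1) :
    |(p.wLm l2).HePl F 𝔹 w - p.HePl F 𝔹 w| ≤ ll04hC1 F 𝔹 Lp * (l2 * Real.log (l2 / p.lam)) := by
  have hl2 : 0 < l2 := hlam.trans_le hl
  set d : ℝ := Real.log (l2 / p.lam) with hd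
  have hd0 : 0 ≤ d := Real.log_nonneg ((one_le_div hlam).2 hl)
  obtain ⟨hU0, hU1, hU⟩ := ll04h_Ut (p := p) hF hN hlam
  obtain ⟨hV0, hV1, hV⟩ := ll04h_Ut (p := p.wLm l2) hF hN hl2
  obtain ⟨ρ, hρ0, hρ1, hρd, hUU, hUρ, hUd⟩ := ll04h_pair (p := p) hF hN hlam hl
  obtain ⟨hE1, hE2⟩ := ll04h_Eb_pair (p := p) (p2 := p.wLm l2) hB hV0 hUU hU1 hUρ
  have hEp := ll04h_Eb_pos (p := p) hB hU0 hU1
  have hEp2 := ll04h_Eb_pos (p := p.wLm l2) hB hV0 hV1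
  have hEE := (ll04h_Eb (p := p) hB hU0 hU1).2
  have hEE2 := (ll04h_Eb (p := p.wLm l2) hB hV0 hV1).2
  have hĒ := ll04h_E_pos hB
  have hη := hF.eta0
  obtain ⟨a1, a2⟩ := lcf_rpow_diff p.lam l2 (1 + F.eta) hlam hl (by linarith)
  have hLa : p.lam1 F = p.lam ^ (1 + F.eta) := rfl
  have hLb : (p.wLm l2).lam1 F = l2 ^ (1 + F.eta) := rfl
  have hL2le : l2 ^ (1 + F.eta) ≤ l2 := by
    have := Real.rpow_le_rpow_of_exponent_ge hl2 hl1 (by linarith : (1 : ℝ) ≤ 1 + F.eta)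
    rwa [Real.rpow_one] at this
  have hL0 : 0 ≤ p.lam1 F := (Real.rpow_pos_of_pos hlam _).le
  have hL1 : p.lam1 F ≤ l2 := by rw [hLa]; linarith
  have hLd : |(p.wLm l2).lam1 F - p.lam1 F| ≤ (1 + F.eta) * (l2 * d) := by
    rw [hLa, hLb, abs_of_nonneg a1]
    refine a2.trans ?_
    have : 0 ≤ (1 + F.eta) * d := mul_nonneg (by linarith) hd0
    calc (1 + F.eta) * l2 ^ (1 + F.eta) * d = l2 ^ (1 + F.eta) * ((1 + F.eta) * d) := by ring
      _ ≤ l2 * ((1 + F.eta) * d) := mul_le_mul_of_nonneg_right hL2le this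
      _ = _ := by ring
  have hY : |F.Ups (p.U F)| ≤ 1 := by rw [abs_of_nonneg (hF.Ups_rg _).1]; exact (hF.Ups_rg _).2
  have hY2 : |F.Ups ((p.wLm l2).U F)| ≤ 1 := by rw [abs_of_nonneg (hF.Ups_rg _).1]; exact (hF.Ups_rg _).2
  have hYd : |F.Ups ((p.wLm l2).U F) - F.Ups (p.U F)| ≤ Lp * F.sS * d := by
    refine (hLp _ hU _ hV).trans ?_
    rw [mul_assoc]
    exact mul_le_mul_of_nonneg_left (hUd.trans hρd) hLp0
  have hPM := (ll04h_PM (p := p.wLm l2) hB hV0 hV1 hw).trans (by linarith : 1 + (p.wLm l2).Eb F 𝔹 ≤ 1 + ll04hE 𝔹 F.T)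
  have hP := ll04h_R_diff (E := 1) (E2 := 1) hρ0 hV0 hUU hUρ one_pos le_rfl (by linarith) (sub_nonneg.2 hw.2)
  have hM := ll04h_R_diff hρ0 hV0 hUU hUρ hEp2 hE1 hE2 (sub_nonneg.2 hw.1)
  have hρn : 0 ≤ 1 - ρ := by linarith
  have hs0 := hF.sS0
  have hc : |ll04hR ((p.wLm l2).Ut F) 1 (1 - w) - ll04hR (p.Ut F) 1 (1 - w)|
      + |ll04hR ((p.wLm l2).Ut F) ((p.wLm l2).Eb F 𝔹) (w - 𝔹.pTop F.T) - ll04hR (p.Ut F) (p.Eb F 𝔹) (w - 𝔹.pTop F.T)|
      ≤ F.sS * d * (1 + ll04hE 𝔹 F.T) := by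
    have h1 : (1 - ρ) * p.Eb F 𝔹 ≤ (1 - ρ) * ll04hE 𝔹 F.T := mul_le_mul_of_nonneg_left hEE hρn
    have h2 : (1 - ρ) * (1 + ll04hE 𝔹 F.T) ≤ F.sS * d * (1 + ll04hE 𝔹 F.T) :=
      mul_le_mul_of_nonneg_right hρd (by linarith)
    linarith
  have := l9dd_prod hL0 hLd hY hY2 hYd hPM hc
  rw [ll04h_HePl_eq, ll04h_HePl_eq]
  refine this.trans ?_
  have hnn : 0 ≤ Lp * F.sS * d * (1 + ll04hE 𝔹 F.T) + F.sS * d * (1 + ll04hE 𝔹 F.T) := by positivity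
  have h3 := mul_le_mul_of_nonneg_right hL1 hnn
  refine (add_le_add_right h3 _).trans (le_of_eq ?_)
  unfold ll04hC1
  ring

/-- (H3) with the factor `λ'` -/
theorem l9dd_He_lip_aux (hF : F.Ok) (hB : LlBaseProfile 𝔹 F.T) {Lp : ℝ} (hLp0 : 0 ≤ Lp)
    (hLp : ∀ U ∈ Icc (0 : ℝ) 1, ∀ U' ∈ Icc (0 : ℝ) 1, |F.Ups U' - F.Ups U| ≤ Lp * |U' - U|)
    (hsm : p.sm = false) (hN : 2 ≤ p.N) (hlam : 0 < p.lam) {l2 : ℝ} (hl : p.lam ≤ l2) (hl1 : l2 ≤ 1) {A : ℝ} (hA : 0 ≤ A)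
    {v : ℝ} (hv : v / p.ell ≤ 1) (hξd : |(p.wLm l2).xi F 𝔹 v - p.xi F 𝔹 v| ≤ A * Real.log (l2 / p.lam)) :
    |(p.wLm l2).He F 𝔹 v - p.He F 𝔹 v| ≤ ll04hC F 𝔹 Lp * (1 + A) * (l2 * Real.log (l2 / p.lam)) := by
  have hl2 : 0 < l2 := hlam.trans_le hl
  set d : ℝ := Real.log (l2 / p.lam) with hd
  have hd0 : 0 ≤ d := Real.log_nonneg ((one_le_div hlam).2 hl)
  have hĒ := ll04h_E_pos hB
  have hy0 : 0 < 1 - 𝔹.pTop F.T := by linarith [hB.pTop_mem.2]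
  have hg := lcc_rs_pos hy0
  set G : ℝ := 1 + (1 - 𝔹.pTop F.T) ^ (-(1 / 2) : ℝ) with hG
  have hG0 : 0 < G := by positivity
  have hC1 : 0 ≤ ll04hC1 F 𝔹 Lp := by
    unfold ll04hC1
    have := hF.eta0
    have := hF.sS0
    positivity
  have hs0 := hF.sS0
  have key : ∀ w ∈ Icc (𝔹.pTop F.T) 1, |(p.wLm l2).HePl F 𝔹 w - p.HePl F 𝔹 w| ≤ ll04hC1 F 𝔹 Lp * (l2 * d) := fun w hw =>
    l9dd_HePl_lip hF hB hLp0 hLp hN hlam hl hl1 hw
  have hfin : ll04hC1 F 𝔹 Lp * (l2 * d) + l2 * ((2 * (F.sS * d * ll04hE 𝔹 F.T) + A * d) * G) ≤ ll04hC F 𝔹 Lp * (1 + A) * (l2 * d) := by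
    have e : ll04hC F 𝔹 Lp * (1 + A) * (l2 * d) - (ll04hC1 F 𝔹 Lp * (l2 * d) + l2 * ((2 * (F.sS * d * ll04hE 𝔹 F.T) + A * d) * G))
        = l2 * (d * (A * ll04hC1 F 𝔹 Lp + G * (1 + A * (2 * F.sS * ll04hE 𝔹 F.T)))) := by
      unfold ll04hC
      rw [← hG]
      ring
    have : 0 ≤ l2 * (d * (A * ll04hC1 F 𝔹 Lp + G * (1 + A * (2 * F.sS * ll04hE 𝔹 F.T)))) := by positivity
    linarith
  have hnn : 0 ≤ l2 * ((2 * (F.sS * d * ll04hE 𝔹 F.T) + A * d) * G) := by positivity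
  by_cases h : 𝔹.pTop F.T ≤ v / p.ell
  · have h' : 𝔹.pTop F.T ≤ v / (p.wLm l2).ell := h
    rw [lcc_He_pl v h, lcc_He_pl v h']
    exact (key _ ⟨h, hv⟩).trans (by linarith)
  · push Not at h
    have h' : v / (p.wLm l2).ell < 𝔹.pTop F.T := h
    obtain ⟨hU0, hU1, hU⟩ := ll04h_Ut (p := p) hF hN hlam
    obtain ⟨hV0, hV1, hV⟩ := ll04h_Ut (p := p.wLm l2) hF hN hl2
    obtain ⟨ρ, hρ0, hρ1, hρd, hUU, hUρ, hUd⟩ := ll04h_pair (p := p) hF hN hlam hl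
    obtain ⟨hE1, hE2⟩ := ll04h_Eb_pair (p := p) (p2 := p.wLm l2) hB hV0 hUU hU1 hUρ
    have hEp := ll04h_Eb_pos (p := p) hB hU0 hU1
    have hEp2 := ll04h_Eb_pos (p := p.wLm l2) hB hV0 hV1
    have hEE := (ll04h_Eb (p := p) hB hU0 hU1).2
    have hξ := lcx_xi_act (F := F) (𝔹 := 𝔹) (p := p) hsm (fun ξ hξ => (hF.P_nn ξ hξ).1) hlam.le hB.xi_pos h
    have hr := ll04h_ramp hEp hξ
    have hrd := ll04h_ramp_diff (ξ2 := (p.wLm l2).xi F 𝔹 v) hEp hEp2 hξ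
    have hEd : |(p.wLm l2).Eb F 𝔹 - p.Eb F 𝔹| ≤ F.sS * d * ll04hE 𝔹 F.T := by
      refine (ll04h_sand hE2 hE1).trans ?_
      exact mul_le_mul hρd hEE hEp.le (by positivity)
    have hL2 : 0 ≤ (p.wLm l2).lam1 F := (Real.rpow_pos_of_pos hl2 _).le
    have hL2le : (p.wLm l2).lam1 F ≤ l2 := by
      have := Real.rpow_le_rpow_of_exponent_ge hl2 hl1 (by linarith [hF.eta0] : (1 : ℝ) ≤ 1 + F.eta)
      rwa [Real.rpow_one] at this
    have hH2 := ll04h_HePl_top (p := p.wLm l2) hF hB hL2 hV0 hV1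
    rw [← hG] at hH2
    rw [lcc_He_act v h, lcc_He_act v h']
    set r : ℝ := max 0 ((p.xi F 𝔹 v - (𝔹.xiS F.T - p.Eb F 𝔹)) / p.Eb F 𝔹) with hrdef
    set r2 : ℝ := max 0 (((p.wLm l2).xi F 𝔹 v - (𝔹.xiS F.T - (p.wLm l2).Eb F 𝔹)) / (p.wLm l2).Eb F 𝔹) with hr2def
    have e : r2 * (p.wLm l2).HePl F 𝔹 (𝔹.pTop F.T) - r * p.HePl F 𝔹 (𝔹.pTop F.T)
        = (r2 - r) * (p.wLm l2).HePl F 𝔹 (𝔹.pTop F.T) + r * ((p.wLm l2).HePl F 𝔹 (𝔹.pTop F.T) - p.HePl F 𝔹 (𝔹.pTop F.T)) := by ring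
    have t1 : |(r2 - r) * (p.wLm l2).HePl F 𝔹 (𝔹.pTop F.T)| ≤ l2 * ((2 * (F.sS * d * ll04hE 𝔹 F.T) + A * d) * G) := by
      rw [abs_mul]
      calc |r2 - r| * |(p.wLm l2).HePl F 𝔹 (𝔹.pTop F.T)|
          ≤ |r2 - r| * ((p.wLm l2).lam1 F * (G * (p.wLm l2).Eb F 𝔹)) := mul_le_mul_of_nonneg_left hH2 (abs_nonneg _)
        _ ≤ |r2 - r| * (l2 * (G * (p.wLm l2).Eb F 𝔹)) :=
            mul_le_mul_of_nonneg_left (mul_le_mul_of_nonneg_right hL2le (by positivity)) (abs_nonneg _)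
        _ = l2 * ((|r2 - r| * (p.wLm l2).Eb F 𝔹) * G) := by ring
        _ ≤ _ := mul_le_mul_of_nonneg_left (mul_le_mul_of_nonneg_right (by linarith) hG0.le) hl2.le
    have t2 : |r * ((p.wLm l2).HePl F 𝔹 (𝔹.pTop F.T) - p.HePl F 𝔹 (𝔹.pTop F.T))| ≤ ll04hC1 F 𝔹 Lp * (l2 * d) := by
      rw [abs_mul, abs_of_nonneg hr.1]
      exact (mul_le_of_le_one_left (abs_nonneg _) hr.2).trans (key _ ⟨le_rfl, hB.pTop_mem.2.le⟩)
    rw [e]
    exact (abs_add_le _ _).trans (by linarith)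

end pt

/-- **(H3), sharp** -/
theorem l9dd_He_lip (F : LlFix) (𝔹 : LlBase) (hF : F.Ok) (hB : LlBaseProfile 𝔹 F.T) : ∃ C : ℝ, 0 ≤ C ∧
    ∀ (p : LlPt) (l2 A v : ℝ), p.sm = false → 2 ≤ p.N → 0 < p.lam → p.lam ≤ l2 → l2 ≤ 1 → 0 ≤ A → v / p.ell ≤ 1 →
      |(p.wLm l2).xi F 𝔹 v - p.xi F 𝔹 v| ≤ A * Real.log (l2 / p.lam) →
      |(p.wLm l2).He F 𝔹 v - p.He F 𝔹 v| ≤ C * (1 + A) * (l2 * Real.log (l2 / p.lam)) := by
  obtain ⟨Lp, hLp0, hLp⟩ := ll04h_Ups_lip F hF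
  refine ⟨ll04hC F 𝔹 Lp, ?_, fun p l2 A v hsm hN hlam hl hl1 hA hv hξ => l9dd_He_lip_aux hF hB hLp0 hLp hsm hN hlam hl hl1 hA hv hξ⟩
  have hĒ := ll04h_E_pos hB
  have hy0 : 0 < 1 - 𝔹.pTop F.T := by linarith [hB.pTop_mem.2]
  have hg := lcc_rs_pos hy0
  have := hF.eta0
  have := hF.sS0
  unfold ll04hC ll04hC1
  positivity

/-- move (λ), the field clock, with the factor `λ'` -/
theorem l9dd_lam_h (F : LlFix) (hF : F.Ok) (𝔹 : LlBase) {B CR Cb CH ξ0 : ℝ} (hB : ∀ w, |F.phi w| ≤ B) (hCH : 0 ≤ CH)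
    (hHe : ∀ (p : LlPt) (l2 A v : ℝ), p.sm = false → 2 ≤ p.N → 0 < p.lam → p.lam ≤ l2 → l2 ≤ 1 → 0 ≤ A → v / p.ell ≤ 1 →
      |(p.wLm l2).xi F 𝔹 v - p.xi F 𝔹 v| ≤ A * Real.log (l2 / p.lam) →
      |(p.wLm l2).He F 𝔹 v - p.He F 𝔹 v| ≤ CH * (1 + A) * (l2 * Real.log (l2 / p.lam)))
    (p : LlPt) (hp : p.Ok F) (hE : LlExpOk F.sS F.eta F.pS) (hsm : p.sm = false) (hxb : 8 * p.x ≤ F.vb) (l' : ℝ) (hl : p.lam ≤ l') (hl1 : l' ≤ 1)
    (hCR : 0 ≤ CR) (hR : p.RegL F 𝔹 CR ξ0 l') (hb' : ∀ v ∈ Ioo 0 p.a, |(p.wLm l').b F 𝔹 v| ≤ Cb) (hq : ∀ v ∈ Ioo 0 p.a, |p.q F 𝔹 v| ≤ 1)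
    (v : ℝ) (hv : v ∈ Ioo 0 p.a) :
    |(p.wLm l').h F 𝔹 v - p.h F 𝔹 v| ≤ ll04cCh F B CR Cb CH * (1 + Real.log (1 / p.x)) * (l' * Real.log (l' / p.lam)) := by
  have hx := lce_x_pos hp.N2
  have hx1 := (lce_x_lt_one hp.N2).le
  have h0 := lce_lam_pos hp
  have hl0' : 0 < l' := h0.trans_le hl
  have hB0 : 0 ≤ B := (abs_nonneg _).trans (hB 0)
  have ha := lce_a_mem hp
  have hae : p.a = p.ell := lce_a_direct hsm
  have hv4 : v ∈ Icc (0 : ℝ) 4 := ⟨hv.1.le, hv.2.le.trans ha.2⟩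
  have hCb : 0 ≤ Cb := (abs_nonneg _).trans (hb' v hv)
  set δ := Real.log (l' / p.lam) with hδdef
  have hδ : 0 ≤ δ := Real.log_nonneg ((one_le_div h0).2 hl)
  have hD : 0 ≤ l' * δ := mul_nonneg hl0'.le hδ
  have hDδ : l' * δ ≤ δ := mul_le_of_le_one_left hδ hl1
  have hdl : |l' - p.lam| ≤ l' * δ := by
    rw [abs_of_nonneg (by linarith)]
    exact lcf_lam_diff p.lam l' h0 hl
  set L := 1 + Real.log (1 / p.x) with hL
  have hL1 : 1 ≤ L := by have := lcd_L_ge p.x hx hx1; linarith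
  have hCbn := ll04c_Cb_nn F hF hB0 hCR
  have hCh : 0 ≤ ll04cCh F B CR Cb CH := by unfold ll04cCh; positivity
  show |(if v < p.x then 0 else (p.wLm l').hS F 𝔹 v + (p.wLm l').Hlo F v + p.chiL * p.Hlin F v + p.chiE * (p.wLm l').He F 𝔹 v)
    - (if v < p.x then 0 else p.hS F 𝔹 v + p.Hlo F v + p.chiL * p.Hlin F v + p.chiE * p.He F 𝔹 v)| ≤ _
  split_ifs with hvx
  · rw [sub_self, abs_zero]; positivity
  rw [not_lt] at hvx
  have hb := l9dd_lam_b F hF 𝔹 hB p hp (by linarith [hE.s_hi]) hxb l' hl hCR hR.b0 v hv4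
  -- the reference field
  have k1 : |(p.wLm l').K F 𝔹 v - p.K F 𝔹 v| ≤ 4 * CR * (l' * δ) := by
    refine (hR.K v hv).trans ?_
    calc CR * |l' - p.lam| * v ≤ CR * (l' * δ) * 4 := mul_le_mul (mul_le_mul_of_nonneg_left hdl hCR) hv4.2 hv4.1 (by positivity)
      _ = 4 * CR * (l' * δ) := by ring
  have k2 : |(p.wLm l').q F 𝔹 v - p.q F 𝔹 v| ≤ CR * (l' * δ) := by
    refine (hR.q v hv).trans ?_
    calc CR * |l' - p.lam| * min v 1 ≤ CR * (l' * δ) * 1 :=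
          mul_le_mul (mul_le_mul_of_nonneg_left hdl hCR) (min_le_right _ _) (le_min hv4.1 zero_le_one) (by positivity)
      _ = CR * (l' * δ) := by ring
  have k3 : |(p.wLm l').hS F 𝔹 v - p.hS F 𝔹 v| ≤ (4 * CR + Cb * CR + ll04cCb F B CR) * (l' * δ) := by
    have e : (p.wLm l').hS F 𝔹 v - p.hS F 𝔹 v = ((p.wLm l').K F 𝔹 v - p.K F 𝔹 v) - (p.wLm l').b F 𝔹 v * ((p.wLm l').q F 𝔹 v - p.q F 𝔹 v)
        - ((p.wLm l').b F 𝔹 v - p.b F 𝔹 v) * p.q F 𝔹 v := by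
      simp only [LlPt.hS]; ring
    rw [e]
    calc _ ≤ |(p.wLm l').K F 𝔹 v - p.K F 𝔹 v| + |(p.wLm l').b F 𝔹 v * ((p.wLm l').q F 𝔹 v - p.q F 𝔹 v)|
          + |((p.wLm l').b F 𝔹 v - p.b F 𝔹 v) * p.q F 𝔹 v| := (abs_sub _ _).trans (add_le_add_left (abs_sub _ _) _)
      _ ≤ 4 * CR * (l' * δ) + Cb * (CR * (l' * δ)) + ll04cCb F B CR * (l' * δ) * 1 :=
          add_le_add (add_le_add k1 (ll04c_abs_mul (hb' v hv) k2)) (ll04c_abs_mul hb (hq v hv))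
      _ = _ := by ring
  -- `H_lo`
  obtain ⟨hlg0, hlg1⟩ := ll04c_log_mem (v := v) hx hp.ell1 (lce_ell_le hp) hx1 hvx
  have k4 : |(p.wLm l').Hlo F v - p.Hlo F v| ≤ 2 * (l' * δ) * L := by
    have e : (p.wLm l').Hlo F v - p.Hlo F v
        = (l' ^ (1 + F.eta) * lcfU p.x F.sS l' ^ 3 - p.lam ^ (1 + F.eta) * lcfU p.x F.sS p.lam ^ 3) * Real.log (min v p.ell / p.x) := by
      show l' ^ (1 + F.eta) * lcfU p.x F.sS l' ^ 3 * Real.log (min v p.ell / p.x) - p.lam ^ (1 + F.eta) * lcfU p.x F.sS p.lam ^ 3 * Real.log (min v p.ell / p.x) = _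
      ring
    rw [e]
    refine ll04c_abs_mul ?_ (by rw [abs_of_nonneg hlg0]; exact hlg1)
    refine (lcf_lamU_diff p.x F.sS F.eta p.lam l' hx hF.sS0.le hE.e_lo.le h0 hl).trans ?_
    have hUle : lcfU p.x F.sS p.lam ≤ 1 := min_le_left _ _
    have hUpos : 0 < lcfU p.x F.sS p.lam := lt_min one_pos (mul_pos hx (Real.rpow_pos_of_pos h0 _))
    have h3 : lcfU p.x F.sS p.lam ^ 3 ≤ 1 := pow_le_one₀ hUpos.le hUle
    have h4 : l' ^ (1 + F.eta) ≤ l' := by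
      have := Real.rpow_le_rpow_of_exponent_ge hl0' hl1 (by linarith [hE.e_lo] : (1 : ℝ) ≤ 1 + F.eta)
      rwa [Real.rpow_one] at this
    have h5 : 0 ≤ l' ^ (1 + F.eta) := Real.rpow_nonneg hl0'.le _
    have h6 : l' ^ (1 + F.eta) * lcfU p.x F.sS p.lam ^ 3 ≤ l' := by
      calc _ ≤ l' * 1 := mul_le_mul h4 h3 (by positivity) hl0'.le
        _ = l' := mul_one _
    have h7 : 1 + F.eta + 3 * F.sS / 2 ≤ 2 := by linarith [hE.e_hi, hE.s_hi]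
    have h8 : 0 ≤ 1 + F.eta + 3 * F.sS / 2 := by linarith [hE.e_lo, hE.s_lo]
    calc (1 + F.eta + 3 * F.sS / 2) * (l' ^ (1 + F.eta) * lcfU p.x F.sS p.lam ^ 3) * δ ≤ 2 * l' * δ :=
          mul_le_mul_of_nonneg_right (mul_le_mul h7 h6 (by positivity) (by norm_num)) hδ
      _ = 2 * (l' * δ) := by ring
  -- `H_e`
  have hl0 : 0 < p.ell := by linarith [hp.ell1]
  have hvl : v / p.ell ≤ 1 := by rw [div_le_one hl0, ← hae]; exact hv.2.le
  have k5 : |(p.wLm l').xi F 𝔹 v - p.xi F 𝔹 v| ≤ 8 * CR * δ := by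
    have e : (p.wLm l').xi F 𝔹 v - p.xi F 𝔹 v = p.ell ^ 2 * ((p.wLm l').K F 𝔹 v - p.K F 𝔹 v) := by
      show _ = p.ell ^ 2 * ((p.ell ^ 2)⁻¹ * (p.wLm l').xi F 𝔹 v - (p.ell ^ 2)⁻¹ * p.xi F 𝔹 v)
      field_simp
    rw [e]
    calc _ ≤ 2 * (4 * CR * (l' * δ)) := ll04c_abs_mul (by rw [abs_of_nonneg (sq_nonneg _)]; exact lce_ell_sq hp) k1
      _ ≤ 2 * (4 * CR * δ) := by
          have := mul_le_mul_of_nonneg_left hDδ (by positivity : 0 ≤ 4 * CR)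
          linarith
      _ = 8 * CR * δ := by ring
  have k6 := hHe p l' (8 * CR) v hsm hp.N2 h0 hl hl1 (by positivity) hvl k5
  have k7 : |p.chiE * ((p.wLm l').He F 𝔹 v - p.He F 𝔹 v)| ≤ 1 * (CH * (1 + 8 * CR) * (l' * δ)) :=
    ll04c_abs_mul (by rw [abs_of_nonneg hp.chiE.1]; exact hp.chiE.2) k6
  have e : (p.wLm l').hS F 𝔹 v + (p.wLm l').Hlo F v + p.chiL * p.Hlin F v + p.chiE * (p.wLm l').He F 𝔹 v
      - (p.hS F 𝔹 v + p.Hlo F v + p.chiL * p.Hlin F v + p.chiE * p.He F 𝔹 v)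
      = ((p.wLm l').hS F 𝔹 v - p.hS F 𝔹 v) + ((p.wLm l').Hlo F v - p.Hlo F v) + p.chiE * ((p.wLm l').He F 𝔹 v - p.He F 𝔹 v) := by ring
  rw [e]
  have hA : 0 ≤ 4 * CR + Cb * CR + ll04cCb F B CR := by positivity
  have hA2 : 0 ≤ CH * (1 + 8 * CR) := by positivity
  calc _ ≤ |(p.wLm l').hS F 𝔹 v - p.hS F 𝔹 v| + |(p.wLm l').Hlo F v - p.Hlo F v| + |p.chiE * ((p.wLm l').He F 𝔹 v - p.He F 𝔹 v)| :=
        (abs_add_le _ _).trans (add_le_add_left (abs_add_le _ _) _)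
    _ ≤ (4 * CR + Cb * CR + ll04cCb F B CR) * (l' * δ) + 2 * (l' * δ) * L + 1 * (CH * (1 + 8 * CR) * (l' * δ)) := add_le_add (add_le_add k3 k4) k7
    _ ≤ (4 * CR + Cb * CR + ll04cCb F B CR) * (l' * δ) * L + 2 * (l' * δ) * L + (CH * (1 + 8 * CR) * (l' * δ)) * L := by
        have m1 : (4 * CR + Cb * CR + ll04cCb F B CR) * (l' * δ) ≤ (4 * CR + Cb * CR + ll04cCb F B CR) * (l' * δ) * L := le_mul_of_one_le_right (by positivity) hL1
        have m2 : CH * (1 + 8 * CR) * (l' * δ) ≤ CH * (1 + 8 * CR) * (l' * δ) * L := le_mul_of_one_le_right (by positivity) hL1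
        linarith
    _ = ll04cCh F B CR Cb CH * L * (l' * δ) := by unfold ll04cCh; ring

/-- the four clocks at two strengths of a direct point: what the chain uses -/
structure L9ddLip (𝔹 : LlBase) (F : LlFix) (C : ℝ) (p : LlPt) (l' : ℝ) : Prop where
  b : ∀ v ∈ Ioo 0 p.a, |(p.wLm l').b F 𝔹 v - p.b F 𝔹 v| ≤ C * (l' * Real.log (l' / p.lam))
  h : ∀ v ∈ Ioo 0 p.a, |(p.wLm l').h F 𝔹 v - p.h F 𝔹 v| ≤ C * (1 + Real.log (1 / p.x)) * (l' * Real.log (l' / p.lam))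
  K : ∀ v ∈ Ioo 0 p.a, |(p.wLm l').K F 𝔹 v - p.K F 𝔹 v| ≤ C * (l' * Real.log (l' / p.lam)) * v
  q : ∀ v ∈ Ioo 0 p.a, |(p.wLm l').q F 𝔹 v - p.q F 𝔹 v| ≤ C * (l' * Real.log (l' / p.lam)) * min v 1

/-- **MASS LEVEL**: all the clocks of the strength sweep are Lipschitz in `log λ` with the constant `C λ'` (`C (1 + log (1/x)) λ'` for the field) -/
theorem l9dd_mass (F : LlFix) (𝔹 : LlBase) (hE : LlExpOk F.sS F.eta F.pS) (hP : LlBaseProfile 𝔹 F.T) (h3 : LlSec3 𝔹 F) :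
    ∃ (C : ℝ) (N0 : ℕ), 0 ≤ C ∧ ∀ p : LlPt, p.Ok F → N0 ≤ p.N → p.sm = false → ∀ l', p.lam ≤ l' → l' ≤ p.x ^ F.pS → L9ddLip 𝔹 F C p l' := by
  have hF := h3.ok
  obtain ⟨Cb, CR, CT, ξ0, N0, env⟩ := ll04c_env 𝔹 F h3
  obtain ⟨B, hB0, hB⟩ := ll04c_phi_bd F hF
  obtain ⟨CH, hCH, hHe⟩ := l9dd_He_lip F 𝔹 hF hP
  have c1 := ll04c_Cb_nn F hF hB0 env.CR0
  have c2 : 0 ≤ ll04cCh F B CR Cb CH := by
    have := env.CR0
    have := env.Cb0
    unfold ll04cCh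
    positivity
  refine ⟨ll04cCb F B CR + ll04cCh F B CR Cb CH + CR, N0, by have := env.CR0; positivity, fun p hp hN hsm l' hl hl' => ?_⟩
  have hx := lce_x_pos hp.N2
  have hx1 := (lce_x_lt_one hp.N2).le
  have h0 := lce_lam_pos hp
  have hok' := ll04c_wLm_ok F p hp hsm l' hl hl'
  have hl1 : l' ≤ 1 := lce_lam_le_one hok' hF.pS0.le
  have ha := lce_a_mem hp
  have hR := env.regL p hp hN hsm l' (hp.lam_lo.trans hl) hl'
  have hδ : 0 ≤ Real.log (l' / p.lam) := Real.log_nonneg ((one_le_div h0).2 hl)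
  have hD : 0 ≤ l' * Real.log (l' / p.lam) := mul_nonneg (h0.trans_le hl).le hδ
  have hL1 := (ll04c_L6 p.x hx hx1).1
  have hdl : |l' - p.lam| ≤ l' * Real.log (l' / p.lam) := by
    rw [abs_of_nonneg (by linarith)]
    exact lcf_lam_diff p.lam l' h0 hl
  have hCR := env.CR0
  refine ⟨fun v hv => ?_, fun v hv => ?_, fun v hv => ?_, fun v hv => ?_⟩
  · have k1 := l9dd_lam_b F hF 𝔹 hB p hp (by linarith [hE.s_hi]) (env.xb p hN) l' hl env.CR0 hR.b0 v ⟨hv.1.le, hv.2.le.trans ha.2⟩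
    refine k1.trans (mul_le_mul_of_nonneg_right ?_ hD)
    linarith
  · have k2 := l9dd_lam_h F hF 𝔹 hB hCH hHe p hp hE hsm (env.xb p hN) l' hl hl1 env.CR0 hR
      (fun w hw => by
        obtain ⟨b0, b1⟩ := env.b_rg (p.wLm l') hok' hN w ⟨hw.1.le, hw.2.le⟩
        rw [abs_of_nonneg b0]; exact b1)
      (fun w hw => by
        obtain ⟨q0, q1⟩ := env.q_rg p hp hN w hw
        rw [abs_of_nonneg q0]; exact q1) v hv
    refine k2.trans (mul_le_mul_of_nonneg_right (mul_le_mul_of_nonneg_right ?_ (by linarith)) hD)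
    linarith
  · refine (hR.K v hv).trans (mul_le_mul_of_nonneg_right ?_ hv.1.le)
    calc CR * |l' - p.lam| ≤ CR * (l' * Real.log (l' / p.lam)) := mul_le_mul_of_nonneg_left hdl hCR
      _ ≤ _ := mul_le_mul_of_nonneg_right (by linarith) hD
  · refine (hR.q v hv).trans (mul_le_mul_of_nonneg_right ?_ (le_min hv.1.le zero_le_one))
    calc CR * |l' - p.lam| ≤ CR * (l' * Real.log (l' / p.lam)) := mul_le_mul_of_nonneg_left hdl hCR
      _ ≤ _ := mul_le_mul_of_nonneg_right (by linarith) hD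

/-! ## 2. transfer to the positions (on top of `l9rg_dom` of 260) -/

theorem l9dd_id_clk (a : ℝ) : L9Clk a (fun v => v) :=
  ⟨⟨fun _ _ _ _ h => h, le_rfl⟩, (continuous_id.tendsto a).mono_left nhdsWithin_le_nhds⟩

theorem l9dd_zero_clk (a : ℝ) : L9Clk a (fun _ => 0) :=
  ⟨⟨fun _ _ _ _ _ => le_rfl, le_rfl⟩, tendsto_const_nhds⟩

theorem l9dd_at_zero (a : ℝ) (p : GhPos) : ghAt a (fun _ => 0) p = 0 := by
  have e : ghClamp a (fun _ => (0 : ℝ)) = fun _ => 0 := by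
    funext v
    unfold ghClamp
    split_ifs <;> rfl
  have h1 : Function.leftLim (fun _ : ℝ => (0 : ℝ)) p.u = 0 := by
    apply leftLim_eq_of_tendsto
    exact tendsto_const_nhds
  have h2 : Function.rightLim (fun _ : ℝ => (0 : ℝ)) p.u = 0 := by
    apply rightLim_eq_of_tendsto
    exact tendsto_const_nhds
  unfold ghAt
  rw [e, h1, h2]
  ring

theorem l9dd_at_id {a : ℝ} (ha : 0 < a) {p : GhPos} (hp : p.Ok a) : ghAt a (fun v => v) p = p.u := by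
  have e : ghClamp a (fun v => v) = fun v => max 0 (min v a) := by
    funext v
    unfold ghClamp
    split_ifs with h
    · rw [max_eq_left ((min_le_left _ _).trans h.le)]
    · rw [max_eq_right (le_min (not_lt.1 h) ha.le)]
  have hc : Continuous fun v : ℝ => max 0 (min v a) := by fun_prop
  have hv : max 0 (min p.u a) = p.u := by rw [min_eq_left hp.2.1, max_eq_right hp.1]
  have h1 : Function.leftLim (fun v : ℝ => max 0 (min v a)) p.u = p.u := by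
    apply leftLim_eq_of_tendsto
    have := (hc.tendsto p.u).mono_left (nhdsWithin_le_nhds (s := Iio p.u))
    rwa [hv] at this
  have h2 : Function.rightLim (fun v : ℝ => max 0 (min v a)) p.u = p.u := by
    apply rightLim_eq_of_tendsto
    have := (hc.tendsto p.u).mono_left (nhdsWithin_le_nhds (s := Ioi p.u))
    rwa [hv] at this
  unfold ghAt
  rw [e, h1, h2]
  ring

/-- **TRANSFER**: `|c - c'| ≤ A v + D` at the masses of `(0,a)` `⟹` `|c(P) - c'(P)| ≤ A u(P) + D` at every position -/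
theorem l9dd_at {a A D : ℝ} (ha : 0 < a) {c c' : ℝ → ℝ} (hc : L9Clk a c) (hc' : L9Clk a c') (hD : 0 ≤ D)
    (h : ∀ v ∈ Ioo 0 a, |c v - c' v| ≤ A * v + D) {p : GhPos} (hp : p.Ok a) : |ghAt a c p - ghAt a c' p| ≤ A * p.u + D := by
  have := l9rg_dom (A := A) ha hc hc' (l9dd_id_clk a) (l9dd_zero_clk a) hD (fun v hv => by simpa using h v hv) hp
  rwa [l9dd_at_id ha hp, l9dd_at_zero, sub_zero] at this

/-- values: `c ≤ A v + D` on `(0,a)` `⟹` `c(P) ≤ A u(P) + D` -/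
theorem l9dd_at_le {a A D : ℝ} (ha : 0 < a) {c : ℝ → ℝ} (hc : L9Clk a c) (hD : 0 ≤ D)
    (h : ∀ v ∈ Ioo 0 a, c v ≤ A * v + D) {p : GhPos} (hp : p.Ok a) : ghAt a c p ≤ A * p.u + D := by
  have h0 : ∀ v ∈ Ioo 0 a, 0 ≤ c v := fun v hv => hc.1.2.trans (hc.1.1 ⟨le_rfl, ha.le⟩ ⟨hv.1.le, hv.2.le⟩ hv.1.le)
  have := l9dd_at ha hc (l9dd_zero_clk a) hD (fun v hv => by rw [sub_zero, abs_of_nonneg (h0 v hv)]; exact h v hv) hp
  rw [l9dd_at_zero, sub_zero] at this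
  exact (le_abs_self _).trans this

/-! ## 3. one-sided slopes -/

/-- a Lipschitz bound along ANY filter `l ≤ 𝓝[≠] t` bounds `deriv f t` (which is `0` if `f` is not differentiable at `t`) -/
theorem l9dd_deriv_le {f g : ℝ → ℝ} {t L : ℝ} (hL : 0 ≤ L) {l : Filter ℝ} [l.NeBot] (hl : l ≤ 𝓝[≠] t) (hg : Tendsto g l (𝓝 L))
    (h : ∀ᶠ t' in l, |f t' - f t| ≤ g t' * |t' - t|) : |deriv f t| ≤ L := by
  by_cases hf : DifferentiableAt ℝ f t
  · have h1 : Tendsto (slope f t) l (𝓝 (deriv f t)) := (hasDerivAt_iff_tendsto_slope.1 hf.hasDerivAt).mono_left hl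
    refine le_of_tendsto_of_tendsto h1.abs hg ?_
    filter_upwards [h, hl self_mem_nhdsWithin] with t' ht' hne
    have hpos : 0 < |t' - t| := abs_pos.2 (sub_ne_zero.2 hne)
    rw [slope_def_field, abs_div, div_le_iff₀ hpos]
    exact ht'
  · rw [deriv_zero_of_not_differentiableAt hf, abs_zero]
    exact hL

/-- on an interval: increments `|f t'' - f t'| ≤ E(t'') (t'' - t')`, `t' ≤ t''` in `[t0,t1]`, `E` continuous `⟹ |deriv f t| ≤ E t` at ALL points of `[t0,t1]` (end points included) -/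
theorem l9dd_deriv_Icc {f E : ℝ → ℝ} {t0 t1 : ℝ} (h01 : t0 < t1) (hE : Continuous E) (hE0 : ∀ t, 0 ≤ E t)
    (h : ∀ t' ∈ Icc t0 t1, ∀ t'' ∈ Icc t0 t1, t' ≤ t'' → |f t'' - f t'| ≤ E t'' * (t'' - t')) {t : ℝ} (ht : t ∈ Icc t0 t1) :
    |deriv f t| ≤ E t := by
  rcases ht.2.eq_or_lt with h1 | h1
  · have hlt : t0 < t := by rw [h1]; exact h01
    refine l9dd_deriv_le (g := fun _ => E t) (hE0 t) (l := 𝓝[<] t) (nhdsWithin_mono _ fun x hx => ne_of_lt hx) tendsto_const_nhds ?_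
    filter_upwards [Ioo_mem_nhdsLT hlt] with t' ht'
    have := h t' ⟨ht'.1.le, ht'.2.le.trans ht.2⟩ t ht ht'.2.le
    rwa [abs_sub_comm, abs_sub_comm t' t, abs_of_pos (sub_pos.2 ht'.2)]
  · refine l9dd_deriv_le (g := E) (hE0 t) (l := 𝓝[>] t) (nhdsWithin_mono _ fun x hx => ne_of_gt hx)
      ((hE.tendsto t).mono_left nhdsWithin_le_nhds) ?_
    filter_upwards [Ioo_mem_nhdsGT h1] with t' ht'
    have := h t ht t' ⟨ht.1.trans ht'.1.le, ht'.2.le⟩ ht'.1.le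
    rwa [abs_of_pos (sub_pos.2 ht'.1)]

/-! ## 4. the positions along the strength sweep -/

/-- the CLOSED range of `t = log λ` (`l9LamRg` of `L09/Contract.lean` v5 is its interior) -/
def l9ddRg (F : LlFix) (N : ℕ) : Set ℝ := Icc (12 * Real.log (skX N)) (F.pS * Real.log (skX N))

theorem l9dd_rg_sub (F : LlFix) (N : ℕ) : l9LamRg F N ⊆ l9ddRg F N := Ioo_subset_Icc_self

theorem l9dd_ptL_ok (F : LlFix) {N : ℕ} (hN : 2 ≤ N) {ell : ℝ} (hell : ell ∈ Icc (1 : ℝ) ((2 : ℝ) ^ (1 / 6 : ℝ))) (γ : Fin (N + 1) → ℝ) {t : ℝ}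
    (ht : t ∈ l9ddRg F N) : (l9PtL N ell γ t).Ok F := by
  have hx := ll04w_x_mem (N := N) (by omega)
  have hcl : ∀ y, ll04Cl y ∈ Icc (-4 : ℝ) 4 := fun y =>
    ⟨by linarith [(ll04w_cl_mem y).1], by linarith [(ll04w_cl_mem y).2]⟩
  refine ⟨hN, hell.1, hell.2, ?_, ?_, hcl _, fun h => ?_, ⟨le_rfl, zero_le_one⟩, ⟨zero_le_one, le_rfl⟩, fun h => absurd h (by simp [l9PtL, ll04Pt])⟩
  · show skX N ^ (12 : ℝ) ≤ Real.exp t
    rw [Real.rpow_def_of_pos hx.1]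
    exact Real.exp_le_exp.2 (by linarith [ht.1])
  · show Real.exp t ≤ skX N ^ F.pS
    rw [Real.rpow_def_of_pos hx.1]
    exact Real.exp_le_exp.2 (by linarith [ht.2])
  · show (if hh : h < N then ll04Cl (γ ⟨h + 1, Nat.succ_lt_succ hh⟩) else 1 / 2) ∈ Icc (-4 : ℝ) 4
    split_ifs
    · exact hcl _
    · constructor <;> norm_num

theorem l9dd_ptL_a (N : ℕ) (ell : ℝ) (γ : Fin (N + 1) → ℝ) (t : ℝ) : (l9PtL N ell γ t).a = ell := by
  simp [l9PtL, ll04Pt, LlPt.a]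

/-- the range of `t = log λ` is a nondegenerate interval -/
theorem l9dd_rg_lt (F : LlFix) (hp : F.pS ≤ 1) {N : ℕ} (hN : 2 ≤ N) : 12 * Real.log (skX N) < F.pS * Real.log (skX N) := by
  have h0 : 0 < skX N := (ll04w_x_mem (N := N) (by omega)).1
  have h1 : skX N < 1 := lce_x_lt_one (p := l9PtL N 1 (fun _ => 0) 0) hN
  have := Real.log_neg h0 h1
  nlinarith

/-- the clock values at the positions along one strength sweep -/
structure L9ddPos (𝔹 : LlBase) (F : LlFix) (C : ℝ) (N : ℕ) (ell : ℝ) (γ : Fin (N + 1) → ℝ) : Prop where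
  clk : ∀ t ∈ l9ddRg F N, L9Clk ell ((l9PtL N ell γ t).b F 𝔹) ∧ L9Clk ell ((l9PtL N ell γ t).h F 𝔹) ∧ L9Clk ell ((l9PtL N ell γ t).K F 𝔹)
  b : ∀ t ∈ l9ddRg F N, ∀ t' ∈ l9ddRg F N, t ≤ t' → ∀ pos : GhPos, pos.Ok ell →
    |ghAt ell ((l9PtL N ell γ t').b F 𝔹) pos - ghAt ell ((l9PtL N ell γ t).b F 𝔹) pos| ≤ C * Real.exp t' * (t' - t)
  h : ∀ t ∈ l9ddRg F N, ∀ t' ∈ l9ddRg F N, t ≤ t' → ∀ pos : GhPos, pos.Ok ell →
    |ghAt ell ((l9PtL N ell γ t').h F 𝔹) pos - ghAt ell ((l9PtL N ell γ t).h F 𝔹) pos| ≤ C * (1 + Real.log (1 / skX N)) * Real.exp t' * (t' - t)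
  K : ∀ t ∈ l9ddRg F N, ∀ t' ∈ l9ddRg F N, t ≤ t' → ∀ pos : GhPos, pos.Ok ell →
    |ghAt ell ((l9PtL N ell γ t').K F 𝔹) pos - ghAt ell ((l9PtL N ell γ t).K F 𝔹) pos| ≤ C * pos.u * Real.exp t' * (t' - t)
  vb : ∀ t ∈ l9ddRg F N, ∀ pos : GhPos, pos.Ok ell → ghAt ell ((l9PtL N ell γ t).b F 𝔹) pos ≤ C
  vK : ∀ t ∈ l9ddRg F N, ∀ pos : GhPos, pos.Ok ell → ghAt ell ((l9PtL N ell γ t).K F 𝔹) pos ≤ C * pos.u
  vh : ∀ t ∈ l9ddRg F N, ∀ pos : GhPos, pos.Ok ell → ghAt ell ((l9PtL N ell γ t).h F 𝔹) pos ≤ C * (1 + Real.log (1 / skX N)) * Real.exp t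
  lK : ∀ t ∈ l9ddRg F N, ∀ pos : GhPos, pos.Ok ell → pos.u ≤ C * ghAt ell ((l9PtL N ell γ t).K F 𝔹) pos

/-- **POSITION LEVEL** -/
theorem l9dd_pos (F : LlFix) (𝔹 : LlBase) (hE : LlExpOk F.sS F.eta F.pS) (hP : LlBaseProfile 𝔹 F.T) (h3 : LlSec3 𝔹 F) :
    ∃ (C : ℝ) (N0 : ℕ), 0 ≤ C ∧ 2 ≤ N0 ∧ ∀ N : ℕ, N0 ≤ N → ∀ ell ∈ Icc (1 : ℝ) ((2 : ℝ) ^ (1 / 6 : ℝ)), ∀ γ : Fin (N + 1) → ℝ, L9ddPos 𝔹 F C N ell γ := by
  obtain ⟨C1, N1, hC1, hM⟩ := l9dd_mass F 𝔹 hE hP h3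
  obtain ⟨Cb, CR, CT, ξ0, N2, env⟩ := ll04c_env 𝔹 F h3
  obtain ⟨c, C, v0, CG, CK, N3, en9⟩ := l9rn_env 𝔹 F h3
  obtain ⟨c4, C4, v4, hc4, hv4, N4, hRef⟩ := h3.ref
  obtain ⟨C5, hC5, N5, hEnd⟩ := ll04h_end_pt F 𝔹 hP h3
  have hxi := hP.xi_pos
  have hw : 0 < min v4 (1 / 2) := lt_min hv4 (by norm_num)
  have hCl : 0 ≤ 2 / (c4 * min v4 (1 / 2)) := by positivity
  have hCK0 : 0 ≤ |C4| + 𝔹.xiS F.T / v4 := by positivity
  have hCK : 0 ≤ |C4| + 𝔹.xiS F.T / v4 + C5 + 2 / (c4 * min v4 (1 / 2)) := by positivity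
  refine ⟨C1 + Cb + (|C4| + 𝔹.xiS F.T / v4 + C5 + 2 / (c4 * min v4 (1 / 2))), max (max (max N1 N2) (max N3 N4)) N5, by have := env.Cb0; positivity,
    env.N2.trans ((le_max_right _ _).trans ((le_max_left _ _).trans (le_max_left _ _))), fun N hN' ell hell γ => ?_⟩
  have hN : max (max N1 N2) (max N3 N4) ≤ N := (le_max_left _ _).trans hN'
  have hN5 : N5 ≤ N := (le_max_right _ _).trans hN'
  have hN1 : N1 ≤ N := (le_max_left _ _).trans ((le_max_left _ _).trans hN)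
  have hN2 : N2 ≤ N := (le_max_right _ _).trans ((le_max_left _ _).trans hN)
  have hN3 : N3 ≤ N := (le_max_left _ _).trans ((le_max_right _ _).trans hN)
  have hN4 : N4 ≤ N := (le_max_right _ _).trans ((le_max_right _ _).trans hN)
  have h2N : 2 ≤ N := env.N2.trans hN2
  have hl0 : 0 < ell := by linarith [hell.1]
  have hCb := env.Cb0
  have hok : ∀ t ∈ l9ddRg F N, (l9PtL N ell γ t).Ok F := fun t ht => l9dd_ptL_ok F h2N hell γ ht
  have hclk : ∀ t ∈ l9ddRg F N, L9Clk ell ((l9PtL N ell γ t).b F 𝔹) ∧ L9Clk ell ((l9PtL N ell γ t).h F 𝔹) ∧ L9Clk ell ((l9PtL N ell γ t).K F 𝔹) := by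
    intro t ht
    have := l9rn_clk env en9 (l9PtL N ell γ t) (hok t ht) hN2 hN3
    rwa [l9dd_ptL_a] at this
  have hlip : ∀ t ∈ l9ddRg F N, ∀ t' ∈ l9ddRg F N, t ≤ t' → L9ddLip 𝔹 F C1 (l9PtL N ell γ t) (Real.exp t') := fun t ht t' ht' htt =>
    hM (l9PtL N ell γ t) (hok t ht) hN1 rfl (Real.exp t') (Real.exp_le_exp.2 htt) (hok t' ht').lam_hi
  have hlog : ∀ t t' : ℝ, Real.log (Real.exp t' / (l9PtL N ell γ t).lam) = t' - t := fun t t' => by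
    show Real.log (Real.exp t' / Real.exp t) = t' - t
    rw [← Real.exp_sub, Real.log_exp]
  have hLg : 0 ≤ Real.log (1 / skX N) := lcd_L_ge (skX N) (ll04w_x_mem (N := N) (by omega)).1 (ll04w_x_mem (N := N) (by omega)).2
  refine ⟨hclk, fun t ht t' ht' htt pos hpos => ?_, fun t ht t' ht' htt pos hpos => ?_, fun t ht t' ht' htt pos hpos => ?_,
    fun t ht pos hpos => ?_, fun t ht pos hpos => ?_, fun t ht pos hpos => ?_, fun t ht pos hpos => ?_⟩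
  · have hd : 0 ≤ Real.exp t' * (t' - t) := mul_nonneg (Real.exp_pos _).le (sub_nonneg.2 htt)
    have := l9dd_at (A := 0) (D := C1 * (Real.exp t' * (t' - t))) hl0 (hclk t' ht').1 (hclk t ht).1 (by positivity) (fun v hv => by
      have := (hlip t ht t' ht' htt).b v (by rwa [l9dd_ptL_a])
      rw [hlog] at this
      rw [zero_mul, zero_add]
      exact this) hpos
    rw [zero_mul, zero_add] at this
    refine this.trans ?_
    nlinarith [mul_nonneg (add_nonneg hCb hCK) hd]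
  · have hd : 0 ≤ Real.exp t' * (t' - t) := mul_nonneg (Real.exp_pos _).le (sub_nonneg.2 htt)
    have := l9dd_at (A := 0) (D := C1 * (1 + Real.log (1 / skX N)) * (Real.exp t' * (t' - t))) hl0 (hclk t' ht').2.1 (hclk t ht).2.1 (by positivity)
      (fun v hv => by
        have := (hlip t ht t' ht' htt).h v (by rwa [l9dd_ptL_a])
        rw [hlog] at this
        rw [zero_mul, zero_add]
        exact this) hpos
    rw [zero_mul, zero_add] at this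
    refine this.trans ?_
    have h5 : 0 ≤ (1 + Real.log (1 / skX N)) * (Real.exp t' * (t' - t)) := by positivity
    nlinarith [mul_nonneg (add_nonneg hCb hCK) h5]
  · have hd : 0 ≤ Real.exp t' * (t' - t) := mul_nonneg (Real.exp_pos _).le (sub_nonneg.2 htt)
    have := l9dd_at (A := C1 * (Real.exp t' * (t' - t))) (D := 0) hl0 (hclk t' ht').2.2 (hclk t ht).2.2 le_rfl (fun v hv => by
      have := (hlip t ht t' ht' htt).K v (by rwa [l9dd_ptL_a])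
      rw [hlog] at this
      rw [add_zero]
      exact this) hpos
    rw [add_zero] at this
    refine this.trans ?_
    have h5 : 0 ≤ Real.exp t' * (t' - t) * pos.u := mul_nonneg hd hpos.1
    nlinarith [mul_nonneg (add_nonneg hCb hCK) h5]
  · have := l9dd_at_le (A := 0) (D := Cb) hl0 (hclk t ht).1 hCb (fun v hv => by
      rw [zero_mul, zero_add]
      exact (env.b_rg _ (hok t ht) hN2 v (by rw [l9dd_ptL_a]; exact ⟨hv.1.le, hv.2.le⟩)).2) hpos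
    rw [zero_mul, zero_add] at this
    linarith
  · have hR := hRef _ (hok t ht) hN4
    have := l9dd_at_le (A := |C4| + 𝔹.xiS F.T / v4) (D := 0) hl0 (hclk t ht).2.2 le_rfl (fun v hv => by
      rw [add_zero]
      rcases le_total v v4 with h | h
      · refine (hR.K_hi0 v hv.1 h).trans ?_
        have : C4 * v ≤ |C4| * v := mul_le_mul_of_nonneg_right (le_abs_self _) hv.1.le
        have h6 : 0 ≤ 𝔹.xiS F.T / v4 * v := mul_nonneg (by positivity) hv.1.le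
        linarith
      · have h7 := hR.K_top v (by rwa [l9dd_ptL_a])
        have h8 : (l9PtL N ell γ t).sm = false := rfl
        rw [h8, if_neg (by simp)] at h7
        have h9 : (l9PtL N ell γ t).ell = ell := rfl
        rw [h9] at h7
        have h10 : 0 ≤ (l9PtL N ell γ t).K F 𝔹 v := lce_K_nonneg v
        have h14 : (1 : ℝ) ≤ ell ^ 2 := one_le_pow₀ hell.1
        have h11 : (l9PtL N ell γ t).K F 𝔹 v ≤ 𝔹.xiS F.T := (le_mul_of_one_le_left h10 h14).trans h7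
        have h12 : 𝔹.xiS F.T ≤ 𝔹.xiS F.T / v4 * v := by
          rw [div_mul_eq_mul_div, le_div_iff₀ hv4]
          exact mul_le_mul_of_nonneg_left h hxi.le
        have h13 : 0 ≤ |C4| * v := mul_nonneg (abs_nonneg _) hv.1.le
        linarith) hpos
    rw [add_zero] at this
    refine this.trans (mul_le_mul_of_nonneg_right ?_ hpos.1)
    linarith
  · have he := (Real.exp_pos t).le
    have h5 : 0 ≤ (1 + Real.log (1 / skX N)) * Real.exp t := by positivity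
    have := l9dd_at_le (A := 0) (D := C5 * (Real.exp t * (1 + Real.log (1 / skX N)))) hl0 (hclk t ht).2.1 (by positivity) (fun v hv => by
      rw [zero_mul, zero_add]
      have h6 := hEnd _ (hok t ht) hN5 rfl rfl v (by rwa [l9dd_ptL_a])
      have h7 := abs_nonneg ((l9PtL N ell γ t).b F 𝔹 v - F.T / (l9PtL N ell γ t).ell ^ 2)
      have h8 := le_abs_self ((l9PtL N ell γ t).h F 𝔹 v)
      exact (by linarith : (l9PtL N ell γ t).h F 𝔹 v ≤ _).trans h6) hpos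
    rw [zero_mul, zero_add] at this
    refine this.trans ?_
    nlinarith [mul_nonneg (by positivity : 0 ≤ C1 + Cb + (|C4| + 𝔹.xiS F.T / v4) + 2 / (c4 * min v4 (1 / 2))) h5]
  · have hR := hRef _ (hok t ht) hN4
    have hl2 : ell ≤ 2 := by
      refine hell.2.trans ?_
      calc (2 : ℝ) ^ (1 / 6 : ℝ) ≤ (2 : ℝ) ^ (1 : ℝ) := Real.rpow_le_rpow_of_exponent_le (by norm_num) (by norm_num)
        _ = 2 := Real.rpow_one _
    have hwa : min v4 (1 / 2) < ell := lt_of_le_of_lt (min_le_right _ _) (by linarith [hell.1])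
    have hKw : c4 * min v4 (1 / 2) ≤ (l9PtL N ell γ t).K F 𝔹 (min v4 (1 / 2)) := hR.K_lo0 _ hw (min_le_left _ _)
    have hcw : 0 < c4 * min v4 (1 / 2) := mul_pos hc4 hw
    have key : ∀ v ∈ Ioo 0 ell, v ≤ 2 / (c4 * min v4 (1 / 2)) * (l9PtL N ell γ t).K F 𝔹 v := by
      intro v hv
      rw [div_mul_eq_mul_div, le_div_iff₀ hcw]
      rcases le_total v (min v4 (1 / 2)) with h | h
      · have h6 := hR.K_lo0 v hv.1 (h.trans (min_le_left _ _))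
        have h7 : min v4 (1 / 2) ≤ 2 := (min_le_right _ _).trans (by norm_num)
        have h8 : 0 ≤ c4 * v := mul_nonneg hc4.le hv.1.le
        calc v * (c4 * min v4 (1 / 2)) = c4 * v * min v4 (1 / 2) := by ring
          _ ≤ c4 * v * 2 := mul_le_mul_of_nonneg_left h7 h8
          _ ≤ 2 * (l9PtL N ell γ t).K F 𝔹 v := by linarith
      · have h6 : (l9PtL N ell γ t).K F 𝔹 (min v4 (1 / 2)) ≤ (l9PtL N ell γ t).K F 𝔹 v :=
          hR.K_mono (by rw [l9dd_ptL_a]; exact ⟨hw, hwa⟩) (by rwa [l9dd_ptL_a]) h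
        calc v * (c4 * min v4 (1 / 2)) ≤ 2 * (c4 * min v4 (1 / 2)) := mul_le_mul_of_nonneg_right (hv.2.le.trans hl2) hcw.le
          _ ≤ 2 * (l9PtL N ell γ t).K F 𝔹 v := by linarith
    have := l9rg_dom (A := 2 / (c4 * min v4 (1 / 2))) (D := 0) hl0 (l9dd_id_clk ell) (l9dd_zero_clk ell) (hclk t ht).2.2 (l9dd_zero_clk ell) le_rfl
      (fun v hv => by
        rw [sub_zero, sub_zero, add_zero, abs_of_pos hv.1]
        exact key v hv) hpos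
    rw [l9dd_at_id hl0 hpos, l9dd_at_zero, sub_zero, sub_zero, add_zero, abs_of_nonneg hpos.1] at this
    refine this.trans (mul_le_mul_of_nonneg_right ?_ (gh_os_at_nonneg hl0.le (hclk t ht).2.2.1 hpos.2.2.1))
    linarith

/-- two-sided form at a base parameter `t`, for `t' ≤ t + 1` (what `L9tFam` of 69 reads) -/
theorem L9ddPos.two {𝔹 : LlBase} {F : LlFix} {C : ℝ} {N : ℕ} {ell : ℝ} {γ : Fin (N + 1) → ℝ} (H : L9ddPos 𝔹 F C N ell γ) (hC : 0 ≤ C) (hN : 1 ≤ N)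
    {t t' : ℝ} (ht : t ∈ l9ddRg F N) (ht' : t' ∈ l9ddRg F N) (h1 : t' ≤ t + 1) {pos : GhPos} (hpos : pos.Ok ell) :
    |ghAt ell ((l9PtL N ell γ t').b F 𝔹) pos - ghAt ell ((l9PtL N ell γ t).b F 𝔹) pos| ≤ 3 * C * Real.exp t * |t' - t| ∧
    |ghAt ell ((l9PtL N ell γ t').h F 𝔹) pos - ghAt ell ((l9PtL N ell γ t).h F 𝔹) pos| ≤ 3 * C * (1 + Real.log (1 / skX N)) * Real.exp t * |t' - t| ∧
    |ghAt ell ((l9PtL N ell γ t').K F 𝔹) pos - ghAt ell ((l9PtL N ell γ t).K F 𝔹) pos| ≤ 3 * C * Real.exp t * pos.u * |t' - t| := by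
  have hLg : 0 ≤ Real.log (1 / skX N) := lcd_L_ge (skX N) (ll04w_x_mem hN).1 (ll04w_x_mem hN).2
  have he := (Real.exp_pos t).le
  have hu := hpos.1
  rcases le_total t t' with h | h
  · have he' : Real.exp t' ≤ 3 * Real.exp t := by
      calc Real.exp t' ≤ Real.exp (t + 1) := Real.exp_le_exp.2 h1
        _ = Real.exp t * Real.exp 1 := Real.exp_add _ _
        _ ≤ Real.exp t * 3 := mul_le_mul_of_nonneg_left (by have := Real.exp_one_lt_d9; linarith) he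
        _ = _ := by ring
    have hd : 0 ≤ t' - t := sub_nonneg.2 h
    rw [abs_of_nonneg hd]
    refine ⟨(H.b t ht t' ht' h pos hpos).trans ?_, (H.h t ht t' ht' h pos hpos).trans ?_, (H.K t ht t' ht' h pos hpos).trans ?_⟩
    · refine mul_le_mul_of_nonneg_right ?_ hd
      calc C * Real.exp t' ≤ C * (3 * Real.exp t) := mul_le_mul_of_nonneg_left he' hC
        _ = _ := by ring
    · refine mul_le_mul_of_nonneg_right ?_ hd
      calc C * (1 + Real.log (1 / skX N)) * Real.exp t' ≤ C * (1 + Real.log (1 / skX N)) * (3 * Real.exp t) :=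
            mul_le_mul_of_nonneg_left he' (by positivity)
        _ = _ := by ring
    · refine mul_le_mul_of_nonneg_right ?_ hd
      calc C * pos.u * Real.exp t' ≤ C * pos.u * (3 * Real.exp t) := mul_le_mul_of_nonneg_left he' (by positivity)
        _ = _ := by ring
  · have hd : 0 ≤ t - t' := sub_nonneg.2 h
    rw [abs_sub_comm t' t, abs_of_nonneg hd, abs_sub_comm, abs_sub_comm (ghAt ell ((l9PtL N ell γ t').h F 𝔹) pos),
      abs_sub_comm (ghAt ell ((l9PtL N ell γ t').K F 𝔹) pos)]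
    refine ⟨(H.b t' ht' t ht h pos hpos).trans ?_, (H.h t' ht' t ht h pos hpos).trans ?_, (H.K t' ht' t ht h pos hpos).trans ?_⟩
    · refine mul_le_mul_of_nonneg_right ?_ hd
      nlinarith [mul_nonneg hC he]
    · refine mul_le_mul_of_nonneg_right ?_ hd
      have : 0 ≤ C * (1 + Real.log (1 / skX N)) * Real.exp t := by positivity
      linarith
    · refine mul_le_mul_of_nonneg_right ?_ hd
      have : 0 ≤ C * pos.u * Real.exp t := by positivity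
      linarith

/-! ## 5. the chain -/

/-- `l9d_chain_cum_cases` of 151 with the MASS of the position: it is at most the left end `trPm ms j` of the cell of the cut `j` -/
theorem l9dd_chain_cases (a : ℝ) (ps : List GhPos) (hok : ∀ p ∈ ps, p.u ≤ a) (j : ℕ) :
    (∀ b h : ℝ → ℝ, skCumB (skCStp a b h 0 0 ps) j = 0 ∧ skCumH (skCStp a b h 0 0 ps) j = 0) ∨
    ∃ p ∈ ps, p.u ≤ trPm (fun i => ((ps.map GhPos.u)[i]?).getD a) j ∧
      ∀ b h : ℝ → ℝ, skCumB (skCStp a b h 0 0 ps) j = ghAt a b p ∧ skCumH (skCStp a b h 0 0 ps) j = ghAt a h p := by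
  rcases j with _ | j
  · exact Or.inl fun b h => l9d_cum_zero _
  by_cases hj : j < ps.length
  · refine Or.inr ⟨ps[j], List.getElem_mem _, ?_, fun b h => ?_⟩
    · unfold trPm
      rw [if_neg (Nat.succ_ne_zero j)]
      simp [hj]
    · have := l9d_chain_cum a b h ps 0 0 j hj
      simpa using this
  · rcases Nat.eq_zero_or_pos ps.length with h0 | h0
    · have : ps = [] := List.length_eq_zero_iff.1 h0
      subst this
      exact Or.inl fun b h => by simp [skCStp, skCumB, skCumH]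
    · obtain ⟨k, hk⟩ : ∃ k, ps.length = k + 1 := ⟨ps.length - 1, by omega⟩
      refine Or.inr ⟨ps[k]'(by omega), List.getElem_mem _, ?_, fun b h => ?_⟩
      · unfold trPm
        rw [if_neg (Nat.succ_ne_zero j)]
        have : (ps.map GhPos.u)[j + 1 - 1]? = none := by
          rw [List.getElem?_eq_none_iff]
          simp
          omega
        show ps[k].u ≤ ((ps.map GhPos.u)[j + 1 - 1]?).getD a
        rw [this]
        exact hok _ (List.getElem_mem _)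
      have := l9d_chain_cum a b h ps 0 0 k (by omega)
      have hl := l9d_chain_length a b h ps 0 0
      have e : (skCStp a b h 0 0 ps).take (j + 1) = (skCStp a b h 0 0 ps).take (k + 1) := by
        rw [List.take_of_length_le (by omega), List.take_of_length_le (by omega)]
      constructor
      · have h1 : skCumB (skCStp a b h 0 0 ps) (j + 1) = skCumB (skCStp a b h 0 0 ps) (k + 1) := by
          unfold skCumB
          rw [e]
        rw [h1, this.1, sub_zero]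
      · have h1 : skCumH (skCStp a b h 0 0 ps) (j + 1) = skCumH (skCStp a b h 0 0 ps) (k + 1) := by
          unfold skCumH
          rw [e]
        rw [h1, this.2, sub_zero]

/-- `l9rg_cases` of 260 with the mass of the position -/
theorem l9dd_cases (I : L9I) (a0 : ℝ) (j : ℕ) :
    (∀ p : LlPt, p.a = a0 → (I.X0 p).bC j = 0 ∧ (I.X0 p).hC j = 0 ∧ (I.X0 p).KC j = 0) ∨
    ∃ pos ∈ ghPs a0 (l9Fl I.Fs), ∀ p : LlPt, p.a = a0 → pos.u ≤ trPm (llMs p.a (I.P p)) j ∧ (I.X0 p).bC j = ghAt a0 (p.b I.F I.𝔹) pos ∧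
      (I.X0 p).hC j = ghAt a0 (p.h I.F I.𝔹) pos ∧ (I.X0 p).KC j = ghAt a0 (p.K I.F I.𝔹) pos := by
  rcases l9dd_chain_cases a0 (ghPs a0 (l9Fl I.Fs)) (fun q hq => (gh_os_ps_mem.1 hq).2.2.1) j with h0 | ⟨pos, hpos, hu, h1⟩
  · refine Or.inl fun p hp => ?_
    simp only [l9d_I_bC, l9d_I_hC, l9d_I_KC, L9I.P, L9I.ps, l9d_stp_mat, l9d_stp_cumK, hp]
    exact ⟨(h0 _ _).1, (h0 _ _).2, (h0 _ _).2⟩
  · refine Or.inr ⟨pos, hpos, fun p hp => ⟨?_, ?_⟩⟩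
    · have e : llMs p.a (I.P p) = fun i => (((ghPs a0 (l9Fl I.Fs)).map GhPos.u)[i]?).getD a0 := by
        funext i
        unfold llMs L9I.P L9I.ps
        rw [l9d_stp_m, hp]
      rw [e]
      exact hu
    · simp only [l9d_I_bC, l9d_I_hC, l9d_I_KC, L9I.P, L9I.ps, l9d_stp_mat, l9d_stp_cumK, hp]
      exact ⟨(h1 _ _).1, (h1 _ _).2, (h1 _ _).2⟩

/-- LEAF Q of 151 (`l9q_fam_q`) at a point of a set `U` of unique differentiability (END POINTS of the range included) -/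
theorem l9dd_fam_q {a : ℝ} (ha : 0 < a) (P : ℝ → LlStp) {t0 : ℝ} {U : Set ℝ} (h0 : t0 ∈ U) (hU : UniqueDiffWithinAt ℝ U t0)
    (hadm : ∀ t ∈ U, LlStpAdm a (P t)) (hm : ∀ t ∈ U, (P t).map LlInc.m = (P t0).map LlInc.m)
    (db : ∀ j ≤ (P t0).length, DifferentiableAt ℝ (fun t => skCumB (llMat (P t)) j) t0)
    (dh : ∀ j ≤ (P t0).length, DifferentiableAt ℝ (fun t => skCumH (llMat (P t)) j) t0)
    (dK : ∀ j ≤ (P t0).length, DifferentiableAt ℝ (fun t => llCumK (P t) j) t0) :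
    ∀ j ≤ (P t0).length, |deriv (fun t => llQs a (P t) j) t0|
      ≤ 9 * a * (∑ i ∈ Finset.range ((P t0).length + 1), skGap a (llMat (P t0)) i * |deriv (fun t => llCumK (P t) i) t0|)
        + 35 * a ^ 2 * |deriv (fun t => llCumK (P t) j) t0| := by
  set κ : ℕ → ℝ := fun j => deriv (fun t => llCumK (P t) j) t0 with hκ
  have hF := l9q_fam P h0 hadm hm (fun j => deriv (fun t => skCumB (llMat (P t)) j) t0)
    (fun j => deriv (fun t => skCumH (llMat (P t)) j) t0) κ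
    (fun j hj => (db j hj).hasDerivAt.hasDerivWithinAt) (fun j hj => (dh j hj).hasDerivAt.hasDerivWithinAt)
    (fun j hj => (dK j hj).hasDerivAt.hasDerivWithinAt)
  set Pd := l9qPd (P t0).length (fun j => deriv (fun t => skCumB (llMat (P t)) j) t0)
    (fun j => deriv (fun t => skCumH (llMat (P t)) j) t0) κ with hPd
  have hq : ∀ j, HasDerivWithinAt (fun t => llQs a (P t) j) (ll2Qd a (P t0) Pd j) U t0 := fun j => ll2_ri_dq ha hF j
  have hκ0 : κ 0 = 0 := by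
    simp only [hκ]
    have : (fun t => llCumK (P t) 0) = fun _ => (0 : ℝ) := by funext t; simp [llCumK]
    rw [this, deriv_const]
  have hK : ∀ j ≤ (P t0).length, llCumK Pd j = κ j := fun j hj => by
    rw [hPd, (l9q_Pd_cum _ _ _ κ j).2.2, min_eq_left hj, hκ0, sub_zero]
  have hS : l9qKI a (P t0) Pd = ∑ i ∈ Finset.range ((P t0).length + 1), skGap a (llMat (P t0)) i * |κ i| := by
    unfold l9qKI
    refine Finset.sum_congr rfl fun i hi => ?_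
    rw [Finset.mem_range] at hi
    rw [hK i (by omega)]
  intro j hj
  have h1 := l9q_Qd_abs ha (hadm t0 h0) Pd hj
  rw [hK j hj, hS] at h1
  by_cases hd : DifferentiableAt ℝ (fun t => llQs a (P t) j) t0
  · rw [hU.eq_deriv _ hd.hasDerivAt.hasDerivWithinAt (hq j)]
    exact h1
  · rw [deriv_zero_of_not_differentiableAt hd, abs_zero]
    exact (abs_nonneg _).trans h1

/-- **the clocks of the chain and their derivatives in `t = log λ` at one point of the strength sweep**; `A` = the loss.      `trPm Q.ms j` = the LEFT end of the cell of the cut `j`. -/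
structure L9Q.DotD (Q : L9Q) (A : ℝ) : Prop where
  b_nn : ∀ j, 0 ≤ (Q.I.X0 Q.p).bC j
  b_le : ∀ j, (Q.I.X0 Q.p).bC j ≤ A
  h_nn : ∀ j, 0 ≤ (Q.I.X0 Q.p).hC j
  K_nn : ∀ j, 0 ≤ (Q.I.X0 Q.p).KC j
  K_le : ∀ j, (Q.I.X0 Q.p).KC j ≤ A * trPm Q.ms j
  bD : ∀ j, |deriv (fun t' => (Q.I.X0 (Q.pf t')).bC j) Q.t| ≤ A * Q.lam
  hD : ∀ j, |deriv (fun t' => (Q.I.X0 (Q.pf t')).hC j) Q.t| ≤ A * Q.lam
  KD : ∀ j, |deriv (fun t' => (Q.I.X0 (Q.pf t')).KC j) Q.t| ≤ A * Q.lam * trPm Q.ms j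
  qD : ∀ j, j ≤ Q.N → |deriv (fun t' => (Q.I.X0 (Q.pf t')).qC j) Q.t| ≤ A * Q.lam
  dot : Q.I.dot Q.pf Q.t ≤ A * Q.lam

/-- the five clock facts at one cut -/
theorem l9dd_cut (I : L9I) {C : ℝ} {N : ℕ} {ell : ℝ} {γ : Fin (N + 1) → ℝ} (hC : 0 ≤ C) (hp1 : I.F.pS ≤ 1) (hN : 2 ≤ N)
    (hl0 : 0 < ell) (H : L9ddPos I.𝔹 I.F C N ell γ) {t : ℝ} (ht : t ∈ l9ddRg I.F N) (j : ℕ) :
    0 ≤ (I.X0 (l9PtL N ell γ t)).bC j ∧ (I.X0 (l9PtL N ell γ t)).bC j ≤ C ∧ 0 ≤ (I.X0 (l9PtL N ell γ t)).hC j ∧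
    0 ≤ (I.X0 (l9PtL N ell γ t)).KC j ∧ (I.X0 (l9PtL N ell γ t)).KC j ≤ C * trPm (llMs (l9PtL N ell γ t).a (I.P (l9PtL N ell γ t))) j ∧
    |deriv (fun t' => (I.X0 (l9PtL N ell γ t')).bC j) t| ≤ C * Real.exp t ∧
    |deriv (fun t' => (I.X0 (l9PtL N ell γ t')).hC j) t| ≤ C * (1 + Real.log (1 / skX N)) * Real.exp t ∧
    |deriv (fun t' => (I.X0 (l9PtL N ell γ t')).KC j) t| ≤ C * Real.exp t * trPm (llMs (l9PtL N ell γ t).a (I.P (l9PtL N ell γ t))) j ∧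
    |deriv (fun t' => (I.X0 (l9PtL N ell γ t')).KC j) t| ≤ C * Real.exp t * ell := by
  have hpa : ∀ t', (l9PtL N ell γ t').a = ell := l9dd_ptL_a N ell γ
  have hlt := l9dd_rg_lt I.F hp1 hN
  have hLg : 0 ≤ Real.log (1 / skX N) := lcd_L_ge (skX N) (ll04w_x_mem (N := N) (by omega)).1 (ll04w_x_mem (N := N) (by omega)).2
  have hadm : LlStpAdm (l9PtL N ell γ t).a (I.P (l9PtL N ell γ t)) :=
    l9q_I_adm I _ (by rw [hpa]; exact hl0.le) (by rw [hpa]; exact (H.clk t ht).1.1) (by rw [hpa]; exact (H.clk t ht).2.1.1)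
      (by rw [hpa]; exact (H.clk t ht).2.2.1)
  have hms := ll2_law_isMs (by rw [hpa]; exact hl0.le) hadm
  have hml : 0 ≤ trPm (llMs (l9PtL N ell γ t).a (I.P (l9PtL N ell γ t))) j := by
    unfold trPm
    split_ifs
    · exact le_rfl
    · exact hms.nonneg _
  have he := (Real.exp_pos t).le
  rcases l9dd_cases I ell j with h0 | ⟨pos, hpos, h1⟩
  · have e1 : (fun t' => (I.X0 (l9PtL N ell γ t')).bC j) = fun _ => (0 : ℝ) := by funext t'; exact (h0 _ (hpa t')).1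
    have e2 : (fun t' => (I.X0 (l9PtL N ell γ t')).hC j) = fun _ => (0 : ℝ) := by funext t'; exact (h0 _ (hpa t')).2.1
    have e3 : (fun t' => (I.X0 (l9PtL N ell γ t')).KC j) = fun _ => (0 : ℝ) := by funext t'; exact (h0 _ (hpa t')).2.2
    rw [e1, e2, e3, (h0 _ (hpa t)).1, (h0 _ (hpa t)).2.1, (h0 _ (hpa t)).2.2, deriv_const, abs_zero]
    refine ⟨le_rfl, hC, le_rfl, le_rfl, ?_, ?_, ?_, ?_, ?_⟩ <;> positivity
  · have hok : pos.Ok ell := (gh_os_ps_mem.1 hpos).2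
    have e1 : (fun t' => (I.X0 (l9PtL N ell γ t')).bC j) = fun t' => ghAt ell ((l9PtL N ell γ t').b I.F I.𝔹) pos := by
      funext t'; exact (h1 _ (hpa t')).2.1
    have e2 : (fun t' => (I.X0 (l9PtL N ell γ t')).hC j) = fun t' => ghAt ell ((l9PtL N ell γ t').h I.F I.𝔹) pos := by
      funext t'; exact (h1 _ (hpa t')).2.2.1
    have e3 : (fun t' => (I.X0 (l9PtL N ell γ t')).KC j) = fun t' => ghAt ell ((l9PtL N ell γ t').K I.F I.𝔹) pos := by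
      funext t'; exact (h1 _ (hpa t')).2.2.2
    have hu := (h1 _ (hpa t)).1
    have hKd : |deriv (fun t' => ghAt ell ((l9PtL N ell γ t').K I.F I.𝔹) pos) t| ≤ C * pos.u * Real.exp t :=
      l9dd_deriv_Icc (E := fun t' => C * pos.u * Real.exp t') hlt (by fun_prop)
        (fun t' => mul_nonneg (mul_nonneg hC hok.1) (Real.exp_pos _).le) (fun t' ht' t'' ht'' hle => H.K t' ht' t'' ht'' hle pos hok) ht
    rw [e1, e2, e3, (h1 _ (hpa t)).2.1, (h1 _ (hpa t)).2.2.1, (h1 _ (hpa t)).2.2.2]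
    refine ⟨gh_os_at_nonneg hl0.le (H.clk t ht).1.1 hok.2.2.1, H.vb t ht pos hok, gh_os_at_nonneg hl0.le (H.clk t ht).2.1.1 hok.2.2.1,
      gh_os_at_nonneg hl0.le (H.clk t ht).2.2.1 hok.2.2.1, (H.vK t ht pos hok).trans (mul_le_mul_of_nonneg_left hu hC), ?_, ?_, ?_, ?_⟩
    · exact l9dd_deriv_Icc (E := fun t' => C * Real.exp t') hlt (by fun_prop) (fun t' => mul_nonneg hC (Real.exp_pos _).le)
        (fun t' ht' t'' ht'' hle => H.b t' ht' t'' ht'' hle pos hok) ht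
    · exact l9dd_deriv_Icc (E := fun t' => C * (1 + Real.log (1 / skX N)) * Real.exp t') hlt (by fun_prop)
        (fun t' => mul_nonneg (mul_nonneg hC (by linarith)) (Real.exp_pos _).le) (fun t' ht' t'' ht'' hle => H.h t' ht' t'' ht'' hle pos hok) ht
    · refine hKd.trans ?_
      calc C * pos.u * Real.exp t = C * Real.exp t * pos.u := by ring
        _ ≤ _ := mul_le_mul_of_nonneg_left hu (mul_nonneg hC he)
    · refine hKd.trans ?_
      calc C * pos.u * Real.exp t = C * Real.exp t * pos.u := by ring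
        _ ≤ _ := mul_le_mul_of_nonneg_left hok.2.1 (mul_nonneg hC he)

/-- **ONE POINT of the strength sweep** (end points of the range included) -/
theorem l9dd_point (I : L9I) {C : ℝ} {N : ℕ} {ell : ℝ} {γ : Fin (N + 1) → ℝ} (hC : 0 ≤ C) (hp1 : I.F.pS ≤ 1) (hN : 2 ≤ N)
    (hl1 : 1 ≤ ell) (hl2 : ell ≤ 2) (H : L9ddPos I.𝔹 I.F C N ell γ) (u e : ℝ) {t : ℝ} (ht : t ∈ l9ddRg I.F N)
    (hD : I.Dif (l9PtL N ell γ) t) : (⟨I, l9PtL N ell γ, u, e, t⟩ : L9Q).DotD (712 * C * (1 + Real.log (1 / skX N))) := by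
  have hl0 : 0 < ell := by linarith
  have hpa : ∀ t', (l9PtL N ell γ t').a = ell := l9dd_ptL_a N ell γ
  have hlt := l9dd_rg_lt I.F hp1 hN
  have hLg : 0 ≤ Real.log (1 / skX N) := lcd_L_ge (skX N) (ll04w_x_mem (N := N) (by omega)).1 (ll04w_x_mem (N := N) (by omega)).2
  obtain ⟨L, hL⟩ : ∃ L, L = 1 + Real.log (1 / skX N) := ⟨_, rfl⟩
  rw [← hL]
  have hL1 : 1 ≤ L := by rw [hL]; linarith
  have he := (Real.exp_pos t).le
  have hCe : 0 ≤ C * Real.exp t := mul_nonneg hC he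
  have hCL : C ≤ 712 * C * L := by nlinarith [mul_nonneg hC (by linarith : 0 ≤ L - 1)]
  have hCLe : C * Real.exp t ≤ 712 * C * L * Real.exp t := mul_le_mul_of_nonneg_right hCL he
  have cut := fun j => l9dd_cut I hC hp1 hN hl0 H ht j
  rw [← hL] at cut
  have hadm : ∀ t' ∈ l9ddRg I.F N, LlStpAdm ell (I.P (l9PtL N ell γ t')) := fun t' ht' => by
    have := l9q_I_adm I (l9PtL N ell γ t') (by rw [hpa]; exact hl0.le) (by rw [hpa]; exact (H.clk t' ht').1.1) (by rw [hpa]; exact (H.clk t' ht').2.1.1)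
      (by rw [hpa]; exact (H.clk t' ht').2.2.1)
    rwa [hpa] at this
  have hgap : ∀ i, 0 ≤ skGap ell (llMat (I.P (l9PtL N ell γ t))) i := fun i => pin_gap_nonneg hl0 _ (hadm t ht).1 i
  have hml : ∀ j, 0 ≤ trPm (llMs (l9PtL N ell γ t).a (I.P (l9PtL N ell γ t))) j := fun j => by
    have hms := ll2_law_isMs hl0.le (hadm t ht)
    rw [hpa]
    unfold trPm
    split_ifs
    · exact le_rfl
    · exact hms.nonneg _
  -- the reference overlap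
  have hq : ∀ j ≤ (I.P (l9PtL N ell γ t)).length, |deriv (fun t' => (I.X0 (l9PtL N ell γ t')).qC j) t| ≤ 352 * (C * Real.exp t) := by
    intro j hj
    have e : (fun t' => (I.X0 (l9PtL N ell γ t')).qC j) = fun t' => llQs ell (I.P (l9PtL N ell γ t')) j := by
      funext t'
      rw [l9q_I_qC, hpa]
    rw [e]
    have h1 := l9dd_fam_q hl0 (fun t' => I.P (l9PtL N ell γ t')) (U := l9ddRg I.F N) ht (uniqueDiffOn_Icc hlt t ht) hadm
      (fun t' _ => by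
        unfold L9I.P L9I.ps
        rw [l9d_stp_m, l9d_stp_m, hpa, hpa])
      (fun j _ => (hD j).1) (fun j _ => (hD j).2.1) (fun j _ => (hD j).2.2) j hj
    refine h1.trans ?_
    have h2 : ∑ i ∈ Finset.range ((I.P (l9PtL N ell γ t)).length + 1),
        skGap ell (llMat (I.P (l9PtL N ell γ t))) i * |deriv (fun t' => llCumK (I.P (l9PtL N ell γ t')) i) t| ≤ ell * (C * Real.exp t * ell) := by
      have h6 := Finset.sum_le_sum (s := Finset.range ((I.P (l9PtL N ell γ t)).length + 1)) fun i _ =>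
        mul_le_mul_of_nonneg_left (cut i).2.2.2.2.2.2.2.2 (hgap i)
      rw [← Finset.sum_mul, l9q_gap_sum] at h6
      exact h6
    have h3 : |deriv (fun t' => llCumK (I.P (l9PtL N ell γ t')) j) t| ≤ C * Real.exp t * ell := (cut j).2.2.2.2.2.2.2.2
    have h4 : ell ^ 3 ≤ 8 := by
      calc ell ^ 3 ≤ 2 ^ 3 := pow_le_pow_left₀ hl0.le hl2 3
        _ = 8 := by norm_num
    calc _ ≤ 9 * ell * (ell * (C * Real.exp t * ell)) + 35 * ell ^ 2 * (C * Real.exp t * ell) :=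
          add_le_add (mul_le_mul_of_nonneg_left h2 (by positivity)) (mul_le_mul_of_nonneg_left h3 (by positivity))
      _ = 44 * (C * Real.exp t) * ell ^ 3 := by ring
      _ ≤ 44 * (C * Real.exp t) * 8 := mul_le_mul_of_nonneg_left h4 (by positivity)
      _ = _ := by ring
  have hCLe2 : 0 ≤ C * L * Real.exp t := mul_nonneg (mul_nonneg hC (by linarith)) he
  have hCeL : C * Real.exp t ≤ C * L * Real.exp t := by nlinarith [mul_nonneg hCe (by linarith : 0 ≤ L - 1)]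
  refine ⟨fun j => (cut j).1, fun j => (cut j).2.1.trans hCL, fun j => (cut j).2.2.1, fun j => (cut j).2.2.2.1,
    fun j => (cut j).2.2.2.2.1.trans (mul_le_mul_of_nonneg_right hCL (hml j)), fun j => (cut j).2.2.2.2.2.1.trans hCLe, fun j => ?_,
    fun j => (cut j).2.2.2.2.2.2.2.1.trans (mul_le_mul_of_nonneg_right hCLe (hml j)), fun j hj => ?_, ?_⟩
  · refine (cut j).2.2.2.2.2.2.1.trans ?_
    show C * L * Real.exp t ≤ 712 * C * L * Real.exp t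
    linarith
  · refine (hq j hj).trans ?_
    show 352 * (C * Real.exp t) ≤ 712 * C * L * Real.exp t
    linarith
  · show I.dot (l9PtL N ell γ) t ≤ 712 * C * L * Real.exp t
    unfold L9I.dot
    rw [hpa, ← l9d_I_length]
    have h5 : ∀ j ∈ Finset.range ((I.P (l9PtL N ell γ t)).length + 1), skGap ell (llMat (I.P (l9PtL N ell γ t))) j *
        (|deriv (fun t' => (I.X0 (l9PtL N ell γ t')).bC j) t| + |deriv (fun t' => (I.X0 (l9PtL N ell γ t')).hC j) t| +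
          |deriv (fun t' => (I.X0 (l9PtL N ell γ t')).KC j) t| + |deriv (fun t' => (I.X0 (l9PtL N ell γ t')).qC j) t|)
        ≤ skGap ell (llMat (I.P (l9PtL N ell γ t))) j * (356 * (C * L * Real.exp t)) := by
      intro j hj
      rw [Finset.mem_range] at hj
      refine mul_le_mul_of_nonneg_left ?_ (hgap j)
      have k1 := (cut j).2.2.2.2.2.1
      have k2 := (cut j).2.2.2.2.2.2.1
      have k3 := (cut j).2.2.2.2.2.2.2.2
      have k4 := hq j (by omega)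
      have k5 : C * Real.exp t * ell ≤ C * Real.exp t * 2 := mul_le_mul_of_nonneg_left hl2 hCe
      linarith
    refine (Finset.sum_le_sum h5).trans ?_
    rw [← Finset.sum_mul, l9q_gap_sum]
    nlinarith

/-- `1 + log (1/x) ≤ (1 + 1/δ) x^(-δ)` -/
theorem l9dd_log_le {x δ : ℝ} (hx0 : 0 < x) (hx1 : x ≤ 1) (hδ : 0 < δ) : 1 + Real.log (1 / x) ≤ (1 + 1 / δ) * x ^ (-δ) := by
  have h1 : Real.log (1 / x) ≤ (1 / x) ^ δ / δ := Real.log_le_rpow_div (by positivity) hδ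
  have h2 : (1 / x) ^ δ = x ^ (-δ) := by rw [one_div, Real.inv_rpow hx0.le, Real.rpow_neg hx0.le]
  have h3 : 1 ≤ x ^ (-δ) := Real.one_le_rpow_of_pos_of_le_one_of_nonpos hx0 hx1 (by linarith)
  rw [h2] at h1
  calc 1 + Real.log (1 / x) ≤ x ^ (-δ) + x ^ (-δ) / δ := add_le_add h3 h1
    _ = _ := by ring

theorem L9Q.DotD.mono {Q : L9Q} {A A' : ℝ} (h : Q.DotD A) (hA : A ≤ A') (hlam : 0 ≤ Q.lam) (hml : ∀ j, 0 ≤ trPm Q.ms j) : Q.DotD A' :=
  ⟨h.b_nn, fun j => (h.b_le j).trans hA, h.h_nn, h.K_nn, fun j => (h.K_le j).trans (mul_le_mul_of_nonneg_right hA (hml j)),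
    fun j => (h.bD j).trans (mul_le_mul_of_nonneg_right hA hlam), fun j => (h.hD j).trans (mul_le_mul_of_nonneg_right hA hlam),
    fun j => (h.KD j).trans (mul_le_mul_of_nonneg_right (mul_le_mul_of_nonneg_right hA hlam) (hml j)),
    fun j hj => (h.qD j hj).trans (mul_le_mul_of_nonneg_right hA hlam), h.dot.trans (mul_le_mul_of_nonneg_right hA hlam)⟩

/-- **EXIT (DOTS, strength sweep)** in the shape of RED: at all points of the sweep, for ALL chains, with the loss `A = C x^(-δ)` -/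
theorem l9dd_exit (𝔹 : LlBase) (Mj : L9Mj) (κ : ℝ) (F : LlFix) (hE : LlExpOk F.sS F.eta F.pS) (hP : LlBaseProfile 𝔹 F.T) (h3 : LlSec3 𝔹 F) :
    L9SbD 𝔹 Mj κ F fun A Q => Q.DotD A := by
  intro δ hδ ε _ q _
  obtain ⟨C, N0, hC, hN0, H⟩ := l9dd_pos F 𝔹 hE hP h3
  refine ⟨712 * C * (1 + 1 / δ), N0, fun N hN => Eventually.of_forall fun Fs m ell γ t hy => ?_⟩
  have h2N : 2 ≤ N := hN0.trans hN
  have hx := ll04w_x_mem (N := N) (by omega)
  obtain ⟨-, -, hell, ht', hD, -, -⟩ := hy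
  have ht := l9dd_rg_sub F N ht'
  have hl2 : ell ≤ 2 := by
    refine hell.2.trans ?_
    calc (2 : ℝ) ^ (1 / 6 : ℝ) ≤ (2 : ℝ) ^ (1 : ℝ) := Real.rpow_le_rpow_of_exponent_le (by norm_num) (by norm_num)
      _ = 2 := Real.rpow_one _
  have h1 := l9dd_point ⟨F, 𝔹, q * skX N ^ (1 + ε), Fs, m⟩ hC hE.p_hi h2N hell.1 hl2 (H N hN ell hell γ) 0 0 ht hD
  refine h1.mono ?_ (Real.exp_pos t).le fun j => ?_
  · have := mul_le_mul_of_nonneg_left (l9dd_log_le hx.1 hx.2 hδ) (by positivity : 0 ≤ 712 * C)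
    linarith
  · have hl0 : 0 < ell := by linarith [hell.1]
    have hpa : (l9PtL N ell γ t).a = ell := l9dd_ptL_a N ell γ t
    have hk := (H N hN ell hell γ).clk t ht
    have hadm := l9q_I_adm ⟨F, 𝔹, q * skX N ^ (1 + ε), Fs, m⟩ (l9PtL N ell γ t) (by rw [hpa]; exact hl0.le) (by rw [hpa]; exact hk.1.1)
      (by rw [hpa]; exact hk.2.1.1) (by rw [hpa]; exact hk.2.2.1)
    have hms := ll2_law_isMs (by rw [hpa]; exact hl0.le) hadm
    unfold trPm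
    split_ifs
    · exact le_rfl
    · exact hms.nonneg _

theorem l9dd_eqns_cite : True := by
  have := @L9ddLip.q
  have := @l9ddRg.eq_1
  have := @L9ddPos.clk
  have := @L9Q.DotD.dot
  trivial

end Claimed.Agent.R286
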