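import Claimed.Agent.R286.L09.RedC
import Claimed.Agent.R286.Defs.L9Dot
import Claimed.Agent.R286.L09.ChDQ
import Claimed.Agent.R286.LL04.ClkSup
import Claimed.Agent.R286.L09.DotsD

/-!
# R286 / L09 / Dots : the POINTWISE dotted clocks on the chain        (node (b3) DOTS of LL09_DAG_60)

OWNER: helper69 (kit, engine, size segment), helper159 (strength sweep: `l9t_fam_D`).      prefix `l9t_`, `L9t`.

LL 09 uses, at every point of the two moving segments (size `θ`, strength `t = log λ`), crude POINTWISE bounds for the clock values of the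
chain and for their parameter derivatives (09 l.226-330, "the coefficients and their dotted versions are bounded by ..."):
`0 ≤ b_j, h_j, K_j ≤ A`, `|q_j| ≤ 1`, `|d_j| ≤ 3 A`, `K_j ≍ m_j` at low masses, `|ḃ_j| ≤ A T0`, `|ḣ_j| ≤ A T0`, `|K̇_j| ≤ A T0 m_j` at low masses,
`|q̇_j| ≤ 9 a ∫|K̇| + 35 a² |K̇_j|`, `|ḋ_j| ≤ |ḣ_j| + |K̇_j| + |ḃ_j| + A |q̇_j|`;   if all masses are low: `Dots.iK_all, Kd_all, qd_all, dd_all` (everything `≤ C A² T0`).
`T0 = 1` on the size segment (low = below a FIXED mass `v0`), `T0 = λ` on the strength sweep (low = everything), `A = C x^(-δ)`.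
They hold for EVERY chain `Fs` (no fineness).

* sec. 0: kit. `l9t_deriv_le` (one-sided Lipschitz ⇒ `|deriv| ≤ L`, closed parameter interval), `l9t_lin3(_loc)`: a WEIGHTED linear
  inequality `α c₁(v) + β c₂(v) ≤ D v` between admissible clocks, on `(0,v1]` only, passes to the positions below `v1`
  (on top of `ll04v_at_lin` of helper258: the identity is a clock).
* sec. 1: the record `Q.Dots A T0 vK` (the dotted values `Q.bD Q.hD Q.KD Q.qD Q.dD` live in `Defs/L9Dot.lean`), `Q.iK = ∫|K̇|`.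
* sec. 2: `l9t_chain`: the cumulative values of the chain are the clock values at ONE position `pos`, the same for all parameters, `pos.u = m_j`.
* sec. 3: the ENGINE `l9t_dots : L9tFam … → Q.Dots A T0 vK` (`L9tFam` = position-level facts on a one-parameter family).
* sec. 4: size segment, `l9t_fam_S`, exit `l9t_dotS : LlSec3 𝔹 F → L9tDotS 𝔹 F`.
* sec. 5: strength sweep, `l9t_fam_D` (helper159), exit `l9t_dotD`.

TEX[LL:paths:lift] TEX[LL:paths:parameter-regularity]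
-/

namespace Claimed.Agent.R286

open Set Filter Topology Function

noncomputable section

/-! ## 0. kit -/

/-- (K1) a function which is Lipschitz AT `t` on a nondegenerate closed interval containing `t` has `|deriv| ≤ L` (endpoints included; junk value `0` if not differentiable) -/
theorem l9t_deriv_le {f : ℝ → ℝ} {lo hi t L : ℝ} (hlh : lo < hi) (ht : t ∈ Icc lo hi)
    (hL : ∀ t' ∈ Icc lo hi, |f t' - f t| ≤ L * |t' - t|) : |deriv f t| ≤ L := by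
  have hL0 : 0 ≤ L := by
    rcases lt_or_eq_of_le ht.2 with h | h
    · have h0 := hL hi ⟨hlh.le, le_rfl⟩
      have h1 : 0 < |hi - t| := abs_pos.2 (by linarith)
      by_contra hc
      rw [not_le] at hc
      have := abs_nonneg (f hi - f t)
      nlinarith
    · have h0 := hL lo ⟨le_rfl, hlh.le⟩
      have h1 : 0 < |lo - t| := abs_pos.2 (by linarith)
      by_contra hc
      rw [not_le] at hc
      have := abs_nonneg (f lo - f t)
      nlinarith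
  by_cases hd : DifferentiableAt ℝ f t
  · have hs := hasDerivAt_iff_tendsto_slope.1 hd.hasDerivAt
    have hb : ∀ t' ∈ Icc lo hi, t' ≠ t → |slope f t t'| ≤ L := by
      intro t' h1 h2
      rw [slope_def_field, abs_div, div_le_iff₀ (abs_pos.2 (sub_ne_zero.2 h2))]
      exact hL t' h1
    rcases lt_or_eq_of_le ht.2 with h | h
    · refine le_of_tendsto (hs.mono_left (nhdsGT_le_nhdsNE t)).abs ?_
      filter_upwards [Ioo_mem_nhdsGT h] with y hy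
      exact hb y ⟨ht.1.trans hy.1.le, hy.2.le⟩ hy.1.ne'
    · have h' : lo < t := by rw [h]; exact hlh
      refine le_of_tendsto (hs.mono_left (nhdsLT_le_nhdsNE t)).abs ?_
      filter_upwards [Ioo_mem_nhdsLT h'] with y hy
      exact hb y ⟨hy.1.le, hy.2.le.trans ht.2⟩ hy.2.ne
  · rw [deriv_zero_of_not_differentiableAt hd, abs_zero]; exact hL0

/-- the identity is an admissible clock -/
theorem l9t_id_clk (a : ℝ) : GhClk1 a (fun v => v) := ⟨fun _ _ _ _ h => h, le_rfl⟩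

/-- its value at a position is the mass of the position -/
theorem l9t_at_id {a : ℝ} (ha : 0 < a) {p : GhPos} (hp : p.Ok a) : ghAt a (fun v => v) p = p.u := by
  have hc : Continuous (ghClamp a fun v => v) := by
    have e : (ghClamp a fun v => v) = fun y => max 0 (min y a) := by
      funext y
      unfold ghClamp
      split_ifs with h
      · rw [max_eq_left]; exact (min_le_left _ _).trans h.le
      · rw [max_eq_right]; exact le_min (not_lt.1 h) ha.le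
    rw [e]
    exact continuous_const.max (continuous_id.min continuous_const)
  have hv : ghClamp a (fun v => v) p.u = p.u := by
    unfold ghClamp
    rw [if_neg (not_lt.2 hp.1), min_eq_left hp.2.1]
  unfold ghAt
  rw [hc.continuousAt.continuousWithinAt.leftLim_eq, hc.continuousAt.continuousWithinAt.rightLim_eq, hv]
  ring

/-- (K2) a WEIGHTED linear inequality between two admissible clocks passes to the positions -/
theorem l9t_lin3 {a : ℝ} (ha : 0 < a) {c1 c2 : ℝ → ℝ} (h1 : GhClk1 a c1) (h2 : GhClk1 a c2) (α β D : ℝ)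
    (h : ∀ v ∈ Ioc 0 a, α * c1 v + β * c2 v ≤ D * v) {p : GhPos} (hp : p.Ok a) :
    α * ghAt a c1 p + β * ghAt a c2 p ≤ D * p.u := by
  have k := ll04v_at_lin ha (Finset.univ : Finset (Fin 3)) ![α, β, -D] ![c1, c2, fun v => v]
    (by
      intro i _
      fin_cases i
      · exact h1
      · exact h2
      · exact l9t_id_clk a) le_rfl
    (fun v hv => by
      have := h v hv
      simp only [Fin.sum_univ_three]
      show α * c1 v + β * c2 v + -D * v ≤ 0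
      linarith) hp
  simp only [Fin.sum_univ_three] at k
  have k' : α * ghAt a c1 p + β * ghAt a c2 p + -D * ghAt a (fun v => v) p ≤ 0 := k
  rw [l9t_at_id ha hp] at k'
  linarith

theorem l9t_clk_mono {a a' : ℝ} (h : a' ≤ a) {c : ℝ → ℝ} (hc : GhClk1 a c) : GhClk1 a' c :=
  ⟨hc.1.mono (Icc_subset_Icc_right h), hc.2⟩

/-- the value at a position below `a'` does not see the clock above `a'` -/
theorem l9t_at_loc {a a' : ℝ} (ha' : 0 ≤ a') (h : a' ≤ a) {c : ℝ → ℝ} (hc : GhClk1 a c) {p : GhPos} (hu : p.u < a') :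
    ghAt a c p = ghAt a' c p := by
  have hm := gh_os_clamp_mono (ha'.trans h) hc
  have he : ghClamp a c =ᶠ[𝓝 p.u] ghClamp a' c := by
    filter_upwards [Iio_mem_nhds hu] with y hy
    have hy' : y < a' := hy
    unfold ghClamp
    rw [min_eq_left (hy'.le.trans h), min_eq_left hy'.le]
  have hl : leftLim (ghClamp a' c) p.u = leftLim (ghClamp a c) p.u :=
    leftLim_eq_of_tendsto ((hm.tendsto_leftLim p.u).congr' (he.filter_mono nhdsWithin_le_nhds))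
  have hr : rightLim (ghClamp a' c) p.u = rightLim (ghClamp a c) p.u :=
    rightLim_eq_of_tendsto ((hm.tendsto_rightLim p.u).congr' (he.filter_mono nhdsWithin_le_nhds))
  unfold ghAt
  rw [hl, hr]

/-- (K2, local) the inequality is only known on `(0,v1]`: it passes to the positions strictly below `v1` (or to all of them if `v1 = a`) -/
theorem l9t_lin3_loc {a v1 : ℝ} (hv1 : 0 < v1) (hva : v1 ≤ a) {c1 c2 : ℝ → ℝ} (h1 : GhClk1 a c1) (h2 : GhClk1 a c2) (α β D : ℝ)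
    (h : ∀ v ∈ Ioc 0 v1, α * c1 v + β * c2 v ≤ D * v) {p : GhPos} (hp : p.Ok a) (hu : p.u < v1 ∨ v1 = a) :
    α * ghAt a c1 p + β * ghAt a c2 p ≤ D * p.u := by
  rcases hu with hu | rfl
  · rw [l9t_at_loc hv1.le hva h1 hu, l9t_at_loc hv1.le hva h2 hu]
    exact l9t_lin3 hv1 (l9t_clk_mono hva h1) (l9t_clk_mono hva h2) α β D h ⟨hp.1, hu.le, hp.2.2⟩
  · exact l9t_lin3 hv1 h1 h2 α β D h hp

/-- two clocks: a weighted bound of the difference -/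
theorem l9t_at_sub {a v1 : ℝ} (hv1 : 0 < v1) (hva : v1 ≤ a) {c c' : ℝ → ℝ} (hc : GhClk1 a c) (hc' : GhClk1 a c') {D : ℝ}
    (h : ∀ v ∈ Ioc 0 v1, |c' v - c v| ≤ D * v) {p : GhPos} (hp : p.Ok a) (hu : p.u < v1 ∨ v1 = a) :
    |ghAt a c' p - ghAt a c p| ≤ D * p.u := by
  have k1 := l9t_lin3_loc hv1 hva hc' hc 1 (-1) D (fun v hv => by have := (abs_le.1 (h v hv)).2; linarith) hp hu
  have k2 := l9t_lin3_loc hv1 hva hc' hc (-1) 1 D (fun v hv => by have := (abs_le.1 (h v hv)).1; linarith) hp hu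
  rw [abs_le]
  constructor <;> linarith

/-- two clocks: an UNWEIGHTED bound of the difference, known on `(0,v1]` only -/
theorem l9t_at_sub0 {a v1 : ℝ} (hv1 : 0 < v1) (hva : v1 ≤ a) {c c' : ℝ → ℝ} (hc : GhClk1 a c) (hc' : GhClk1 a c') {D : ℝ}
    (h : ∀ v ∈ Ioc 0 v1, |c' v - c v| ≤ D) {p : GhPos} (hp : p.Ok a) (hu : p.u < v1 ∨ v1 = a) :
    |ghAt a c' p - ghAt a c p| ≤ D := by
  rcases hu with hu | rfl
  · rw [l9t_at_loc hv1.le hva hc hu, l9t_at_loc hv1.le hva hc' hu]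
    exact ll04v_at_sub hv1 (l9t_clk_mono hva hc') (l9t_clk_mono hva hc) h ⟨hp.1, hu.le, hp.2.2⟩
  · exact ll04v_at_sub hv1 hc' hc h hp

/-- one clock: weighted upper bound -/
theorem l9t_at_le {a v1 : ℝ} (hv1 : 0 < v1) (hva : v1 ≤ a) {c : ℝ → ℝ} (hc : GhClk1 a c) {D : ℝ}
    (h : ∀ v ∈ Ioc 0 v1, c v ≤ D * v) {p : GhPos} (hp : p.Ok a) (hu : p.u < v1 ∨ v1 = a) : ghAt a c p ≤ D * p.u := by
  have k1 := l9t_lin3_loc hv1 hva hc hc 1 0 D (fun v hv => by have := h v hv; linarith) hp hu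
  linarith

/-- one clock: weighted lower bound -/
theorem l9t_at_ge {a v1 : ℝ} (hv1 : 0 < v1) (hva : v1 ≤ a) {c : ℝ → ℝ} (hc : GhClk1 a c) {D : ℝ}
    (h : ∀ v ∈ Ioc 0 v1, v ≤ D * c v) {p : GhPos} (hp : p.Ok a) (hu : p.u < v1 ∨ v1 = a) : p.u ≤ D * ghAt a c p := by
  have k1 := l9t_lin3_loc hv1 hva hc hc (-D) 0 (-1) (fun v hv => by have := h v hv; linarith) hp hu
  linarith

/-- powers of `1 + log(1/x)` are subpower -/
theorem l9t_log_sub (k : ℕ) {δ : ℝ} (hδ : 0 < δ) : ∃ C : ℝ, 0 ≤ C ∧ ∀ x : ℝ, 0 < x → x ≤ 1 → (1 + Real.log (1 / x)) ^ k ≤ C * x ^ (-δ) := by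
  rcases Nat.eq_zero_or_pos k with rfl | hk
  · refine ⟨1, zero_le_one, fun x hx hx1 => ?_⟩
    rw [pow_zero, one_mul]
    exact Real.one_le_rpow_of_pos_of_le_one_of_nonpos hx hx1 (by linarith)
  have hk' : (0 : ℝ) < k := by exact_mod_cast hk
  set ε : ℝ := δ / k with hε
  have hε0 : 0 < ε := div_pos hδ hk'
  refine ⟨(1 + 1 / ε) ^ k, by positivity, fun x hx hx1 => ?_⟩
  have hy : 1 ≤ 1 / x := by rw [le_div_iff₀ hx]; linarith
  have hy0 : 0 < 1 / x := by positivity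
  have h1 : Real.log (1 / x) ≤ (1 / x) ^ ε / ε := Real.log_le_rpow_div hy0.le hε0
  have h2 : 1 ≤ (1 / x) ^ ε := Real.one_le_rpow hy hε0.le
  have h3 : 1 + Real.log (1 / x) ≤ (1 + 1 / ε) * (1 / x) ^ ε := by
    have : (1 + 1 / ε) * (1 / x) ^ ε = (1 / x) ^ ε + (1 / x) ^ ε / ε := by ring
    rw [this]; linarith
  have h4 : 0 ≤ 1 + Real.log (1 / x) := by have := Real.log_nonneg hy; linarith
  calc (1 + Real.log (1 / x)) ^ k ≤ ((1 + 1 / ε) * (1 / x) ^ ε) ^ k := pow_le_pow_left₀ h4 h3 k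
    _ = (1 + 1 / ε) ^ k * x ^ (-δ) := by
      rw [mul_pow, ← Real.rpow_natCast ((1 / x) ^ ε) k, ← Real.rpow_mul hy0.le, hε, div_mul_cancel₀ _ hk'.ne', one_div x,
        Real.inv_rpow hx.le, Real.rpow_neg hx.le]

/-! ## 1. the record -/

namespace L9Q

variable (Q : L9Q)

/-- the mass integral of `|K̇|` on the chain -/
def iK : ℝ := ∑ j ∈ Finset.range (Q.N + 1), l9rMu Q.ms j * |Q.KD j|

/-- the chains are admissible for all parameters near `Q.t` (the parameter ranges are OPEN since Contract v5: `l9t_admEv_S`, `l9t_admEv_D`) -/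
def AdmEv : Prop := ∀ᶠ t' in 𝓝 Q.t, LlStpAdm (Q.pf t').a (Q.I.P (Q.pf t'))

/-- **DOTS**: pointwise bounds of the clock values of the chain and of their parameter derivatives.   `Q.mc j = trPm Q.ms j` = the mass of the `j`-th cut,
`T0` = the size of the move (`1` size, `λ` strength), `vK` = the top of the linear regime of `K` -/
structure Dots (A T0 vK : ℝ) : Prop where
  A_nn : 0 ≤ A
  T_nn : 0 ≤ T0
  a_pos : 0 < Q.p.a
  m_nn : ∀ j, 0 ≤ Q.mc j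
  m_le : ∀ j, Q.mc j ≤ Q.p.a
  mu_nn : ∀ j, 0 ≤ l9rMu Q.ms j
  mu_sum : ∑ j ∈ Finset.range (Q.N + 1), l9rMu Q.ms j = Q.p.a
  b_nn : ∀ j, 0 ≤ (Q.X false).bC j
  b_le : ∀ j, (Q.X false).bC j ≤ A
  h_nn : ∀ j, 0 ≤ (Q.X false).hC j
  h_le : ∀ j, (Q.X false).hC j ≤ A
  q_le : ∀ j, |(Q.X false).qC j| ≤ 1
  d_le : ∀ j, |(Q.X false).dC j| ≤ 3 * A
  K_nn : ∀ j, 0 ≤ (Q.X false).KC j
  K_le : ∀ j, (Q.X false).KC j ≤ A
  K_lw : ∀ j, Q.mc j ≤ vK → (Q.X false).KC j ≤ A * Q.mc j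
  K_lo : ∀ j, j ≤ Q.N → Q.mc j ≤ vK → Q.mc j ≤ A * (Q.X false).KC j
  bd : ∀ j, |Q.bD j| ≤ A * T0
  hd : ∀ j, Q.mc j ≤ vK → |Q.hD j| ≤ A * T0
  Kd : ∀ j, Q.mc j ≤ vK → |Q.KD j| ≤ A * T0 * Q.mc j
  qd : Q.AdmEv → ∀ j, j ≤ Q.N → |Q.qD j| ≤ 9 * Q.p.a * Q.iK + 35 * Q.p.a ^ 2 * |Q.KD j|
  dd : Q.AdmEv → ∀ j, |Q.dD j| ≤ |Q.hD j| + |Q.KD j| + |Q.bD j| + A * |Q.qD j|
  iK_nn : 0 ≤ Q.iK
  iK_le : Q.iK ≤ Q.I.dot Q.pf Q.t

end L9Q

/-- position-level facts on a one-parameter family of path points, at the base parameter `t ∈ [lo,hi]` -/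
structure L9tFam (F : LlFix) (𝔹 : LlBase) (pf : ℝ → LlPt) (t lo hi a0 vK A T0 : ℝ) : Prop where
  lt : lo < hi
  t_mem : t ∈ Icc lo hi
  a_pos : 0 < a0
  a_eq : ∀ t', (pf t').a = a0
  A_nn : 0 ≤ A
  T_nn : 0 ≤ T0
  cb : GhClk1 a0 ((pf t).b F 𝔹)
  ch : GhClk1 a0 ((pf t).h F 𝔹)
  cK : GhClk1 a0 ((pf t).K F 𝔹)
  b_rg : ∀ pos : GhPos, pos.Ok a0 → 0 ≤ ghAt a0 ((pf t).b F 𝔹) pos ∧ ghAt a0 ((pf t).b F 𝔹) pos ≤ A
  h_rg : ∀ pos : GhPos, pos.Ok a0 → 0 ≤ ghAt a0 ((pf t).h F 𝔹) pos ∧ ghAt a0 ((pf t).h F 𝔹) pos ≤ A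
  K_rg : ∀ pos : GhPos, pos.Ok a0 → 0 ≤ ghAt a0 ((pf t).K F 𝔹) pos ∧ ghAt a0 ((pf t).K F 𝔹) pos ≤ A
  K_lw : ∀ pos : GhPos, pos.Ok a0 → pos.u ≤ vK → ghAt a0 ((pf t).K F 𝔹) pos ≤ A * pos.u
  K_lo : ∀ pos : GhPos, pos.Ok a0 → pos.u ≤ vK → pos.u ≤ A * ghAt a0 ((pf t).K F 𝔹) pos
  b_lip : ∀ t' ∈ Icc lo hi, ∀ pos : GhPos, pos.Ok a0 → |ghAt a0 ((pf t').b F 𝔹) pos - ghAt a0 ((pf t).b F 𝔹) pos| ≤ A * T0 * |t' - t|
  h_lip : ∀ t' ∈ Icc lo hi, ∀ pos : GhPos, pos.Ok a0 → pos.u ≤ vK →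
    |ghAt a0 ((pf t').h F 𝔹) pos - ghAt a0 ((pf t).h F 𝔹) pos| ≤ A * T0 * |t' - t|
  K_lip : ∀ t' ∈ Icc lo hi, ∀ pos : GhPos, pos.Ok a0 → pos.u ≤ vK →
    |ghAt a0 ((pf t').K F 𝔹) pos - ghAt a0 ((pf t).K F 𝔹) pos| ≤ A * T0 * pos.u * |t' - t|

theorem l9t_defs_eqns_cite : True := by
  have := @L9Q.iK.eq_1
  have := @L9Q.AdmEv.eq_1
  trivial

/-! ## 2. the chain -/

/-- the masses of the chain -/
theorem l9t_ms (I : L9I) (p : LlPt) (i : ℕ) :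
    (∃ h : i < (I.ps p).length, llMs p.a (I.P p) i = ((I.ps p)[i]'h).u) ∨ ((I.ps p).length ≤ i ∧ llMs p.a (I.P p) i = p.a) := by
  have e : llMs p.a (I.P p) i = (((I.ps p).map GhPos.u)[i]?).getD p.a := by
    unfold llMs L9I.P
    rw [l9d_stp_m]
  by_cases h : i < (I.ps p).length
  · refine Or.inl ⟨h, ?_⟩
    rw [e, List.getElem?_eq_getElem (by simpa using h)]
    simp
  · refine Or.inr ⟨not_lt.1 h, ?_⟩
    rw [e, List.getElem?_eq_none (by simpa using h)]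
    simp

theorem l9t_ps_ok (I : L9I) (p : LlPt) {pos : GhPos} (h : pos ∈ I.ps p) : pos.Ok p.a := by
  unfold L9I.ps at h
  exact (gh_os_ps_mem.1 h).2

theorem l9t_ps_congr (I : L9I) {p p' : LlPt} (h : p.a = p'.a) : I.ps p = I.ps p' := by
  unfold L9I.ps
  rw [h]

/-- the masses of the cuts are nonnegative -/
theorem l9t_mc_nn (I : L9I) (p : LlPt) (ha : 0 ≤ p.a) (j : ℕ) : 0 ≤ trPm (llMs p.a (I.P p)) j := by
  unfold trPm
  split_ifs with h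
  · exact le_rfl
  · rcases l9t_ms I p (j - 1) with ⟨h1, h2⟩ | ⟨_, h2⟩
    · rw [h2]; exact (l9t_ps_ok I p (List.getElem_mem _)).1
    · rw [h2]; exact ha

theorem l9t_mc_le (I : L9I) (p : LlPt) (ha : 0 ≤ p.a) (j : ℕ) : trPm (llMs p.a (I.P p)) j ≤ p.a := by
  unfold trPm
  split_ifs with h
  · exact ha
  · rcases l9t_ms I p (j - 1) with ⟨h1, h2⟩ | ⟨_, h2⟩
    · rw [h2]; exact (l9t_ps_ok I p (List.getElem_mem _)).2.1
    · rw [h2]

/-- the reference overlaps of an admissible chain are at most `1` -/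
theorem l9t_q_le {a : ℝ} (ha : 0 < a) {P : LlStp} (hP : LlStpAdm a P) (j : ℕ) : |llQs a P j| ≤ 1 := by
  unfold llQs
  refine l9q_nuS_abs_le ha hP 2 _ fun s => ?_
  rw [abs_mul, l9q_abs_sp, l9q_abs_sp, one_mul]

/-- **the chain**: the cumulative values at the cut `j` are the clock values at ONE position, the same for all parameters of a family with a fixed `a`;
its mass is the mass of the cut (`j ≤ N`), at most that mass in general -/
theorem l9t_chain (I : L9I) (pf : ℝ → LlPt) {a0 : ℝ} (hpa : ∀ t, (pf t).a = a0) (t0 : ℝ) (j : ℕ) :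
    ((j ≤ (I.P (pf t0)).length → j = 0) ∧ ∀ t, (I.X0 (pf t)).bC j = 0 ∧ (I.X0 (pf t)).hC j = 0 ∧ (I.X0 (pf t)).KC j = 0) ∨
    ∃ pos : GhPos, pos.Ok a0 ∧ pos.u ≤ trPm (llMs (pf t0).a (I.P (pf t0))) j ∧
      (j ≤ (I.P (pf t0)).length → pos.u = trPm (llMs (pf t0).a (I.P (pf t0))) j) ∧
      ∀ t, (I.X0 (pf t)).bC j = ghAt a0 ((pf t).b I.F I.𝔹) pos ∧ (I.X0 (pf t)).hC j = ghAt a0 ((pf t).h I.F I.𝔹) pos ∧
        (I.X0 (pf t)).KC j = ghAt a0 ((pf t).K I.F I.𝔹) pos := by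
  set ps := I.ps (pf t0) with hps0
  have hps : ∀ t, I.ps (pf t) = ps := fun t => l9t_ps_congr I (by rw [hpa, hpa])
  have hlen : (I.P (pf t0)).length = ps.length := l9d_I_length I (pf t0)
  have hok : ∀ pos ∈ ps, pos.Ok a0 := fun pos h => by
    have := l9t_ps_ok I (pf t0) h
    rwa [hpa] at this
  have hval : ∀ t, (I.X0 (pf t)).bC j = skCumB (skCStp a0 ((pf t).b I.F I.𝔹) ((pf t).h I.F I.𝔹) 0 0 ps) j ∧
      (I.X0 (pf t)).hC j = skCumH (skCStp a0 ((pf t).b I.F I.𝔹) ((pf t).h I.F I.𝔹) 0 0 ps) j ∧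
      (I.X0 (pf t)).KC j = skCumH (skCStp a0 ((pf t).b I.F I.𝔹) ((pf t).K I.F I.𝔹) 0 0 ps) j := fun t => by
    rw [l9d_I_bC, l9d_I_hC, l9d_I_KC]
    unfold L9I.P
    rw [l9d_stp_mat, l9d_stp_cumK, hps t, hpa t]
    exact ⟨rfl, rfl, rfl⟩
  rcases j with _ | j
  · refine Or.inl ⟨fun _ => rfl, fun t => ?_⟩
    obtain ⟨h1, h2, h3⟩ := hval t
    rw [h1, h2, h3]
    exact ⟨(l9d_cum_zero _).1, (l9d_cum_zero _).2, (l9d_cum_zero _).2⟩
  by_cases hj : j < ps.length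
  · refine Or.inr ⟨ps[j], hok _ (List.getElem_mem _), ?_, ?_, fun t => ?_⟩
    · rcases l9t_ms I (pf t0) j with ⟨h1, h2⟩ | ⟨h1, _⟩
      · unfold trPm
        rw [if_neg (by omega), Nat.add_sub_cancel, h2]
      · exact absurd hj (not_lt.2 h1)
    · intro _
      rcases l9t_ms I (pf t0) j with ⟨h1, h2⟩ | ⟨h1, _⟩
      · unfold trPm
        rw [if_neg (by omega), Nat.add_sub_cancel, h2]
      · exact absurd hj (not_lt.2 h1)
    · obtain ⟨h1, h2, h3⟩ := hval t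
      have k1 := l9d_chain_cum a0 ((pf t).b I.F I.𝔹) ((pf t).h I.F I.𝔹) ps 0 0 j hj
      have k2 := l9d_chain_cum a0 ((pf t).b I.F I.𝔹) ((pf t).K I.F I.𝔹) ps 0 0 j hj
      rw [h1, h2, h3, k1.1, k1.2, k2.2]
      simp
  · rcases l9d_chain_cum_cases a0 ps (j + 1) with hz | ⟨pos, hpos, hv⟩
    · refine Or.inl ⟨fun h => by omega, fun t => ?_⟩
      obtain ⟨h1, h2, h3⟩ := hval t
      rw [h1, h2, h3]
      exact ⟨(hz _ _).1, (hz _ _).2, (hz _ _).2⟩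
    · refine Or.inr ⟨pos, hok _ hpos, ?_, fun h => by omega, fun t => ?_⟩
      · rcases l9t_ms I (pf t0) j with ⟨h1, _⟩ | ⟨_, h2⟩
        · exact absurd h1 hj
        · unfold trPm
          rw [if_neg (by omega), Nat.add_sub_cancel, h2, hpa]
          exact (hok _ hpos).2.1
      · obtain ⟨h1, h2, h3⟩ := hval t
        rw [h1, h2, h3]
        exact ⟨(hv _ _).1, (hv _ _).2, (hv _ _).2⟩

/-! ## 3. the engine -/

/-- **ENGINE**: the position-level facts on the family give the record at the point `Q` -/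
theorem l9t_dots (Q : L9Q) {lo hi a0 vK A T0 : ℝ} (hF : L9tFam Q.I.F Q.I.𝔹 Q.pf Q.t lo hi a0 vK A T0) (hD : Q.I.Dif Q.pf Q.t) :
    Q.Dots A T0 vK := by
  have ha : (Q.pf Q.t).a = a0 := hF.a_eq _
  have ha0 : 0 < (Q.pf Q.t).a := by rw [ha]; exact hF.a_pos
  have hch := l9t_chain Q.I Q.pf hF.a_eq Q.t
  have hmc : ∀ j, Q.mc j = trPm (llMs (Q.pf Q.t).a (Q.I.P (Q.pf Q.t))) j := fun _ => rfl
  have hN : Q.N = (Q.I.P (Q.pf Q.t)).length := rfl
  have hm : ∀ j, 0 ≤ Q.mc j := fun j => l9t_mc_nn Q.I (Q.pf Q.t) ha0.le j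
  have hb : ∀ j, (Q.X false).bC j = (Q.I.X0 (Q.pf Q.t)).bC j := fun _ => rfl
  have hK : ∀ j, (Q.X false).KC j = (Q.I.X0 (Q.pf Q.t)).KC j := fun _ => rfl
  have hh : ∀ j, (Q.X false).hC j = (Q.I.X0 (Q.pf Q.t)).hC j := fun _ => rfl
  have hAT : 0 ≤ A * T0 := mul_nonneg hF.A_nn hF.T_nn
  have hadm : SkAdm (Q.pf Q.t).a (llMat (Q.I.P (Q.pf Q.t))) :=
    l9d_I_adm Q.I (Q.pf Q.t) ha0.le (by rw [ha]; exact hF.cb) (by rw [ha]; exact hF.ch)
  have hgap : ∀ j, l9rMu Q.ms j = skGap (Q.pf Q.t).a (llMat (Q.I.P (Q.pf Q.t))) j := fun j => l9q_gap_eq _ _ j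
  have hg0 : ∀ j, 0 ≤ skGap (Q.pf Q.t).a (llMat (Q.I.P (Q.pf Q.t))) j := fun j => pin_gap_nonneg ha0 _ hadm j
  have hlen : (Q.I.ps (Q.pf Q.t)).length = Q.N := (l9d_I_length Q.I (Q.pf Q.t)).symm
  have hiK : Q.iK = ∑ i ∈ Finset.range ((Q.I.ps (Q.pf Q.t)).length + 1),
      skGap (Q.pf Q.t).a (llMat (Q.I.P (Q.pf Q.t))) i * |deriv (fun t => (Q.I.X0 (Q.pf t)).KC i) Q.t| := by
    unfold L9Q.iK
    rw [hlen]
    exact Finset.sum_congr rfl fun j _ => by rw [hgap]; rfl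
  have hadmL : LlStpAdm (Q.pf Q.t).a (Q.I.P (Q.pf Q.t)) :=
    l9q_I_adm Q.I (Q.pf Q.t) ha0.le (by rw [ha]; exact hF.cb) (by rw [ha]; exact hF.ch) (by rw [ha]; exact hF.cK)
  have fb : ∀ j, 0 ≤ (Q.X false).bC j ∧ (Q.X false).bC j ≤ A := fun j => by
    rw [hb]
    rcases hch j with ⟨_, hz⟩ | ⟨pos, hok, _, _, hv⟩
    · rw [(hz _).1]; exact ⟨le_rfl, hF.A_nn⟩
    · rw [(hv _).1]; exact hF.b_rg pos hok
  have fh : ∀ j, 0 ≤ (Q.X false).hC j ∧ (Q.X false).hC j ≤ A := fun j => by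
    rw [hh]
    rcases hch j with ⟨_, hz⟩ | ⟨pos, hok, _, _, hv⟩
    · rw [(hz _).2.1]; exact ⟨le_rfl, hF.A_nn⟩
    · rw [(hv _).2.1]; exact hF.h_rg pos hok
  have fK : ∀ j, 0 ≤ (Q.X false).KC j ∧ (Q.X false).KC j ≤ A := fun j => by
    rw [hK]
    rcases hch j with ⟨_, hz⟩ | ⟨pos, hok, _, _, hv⟩
    · rw [(hz _).2.2]; exact ⟨le_rfl, hF.A_nn⟩
    · rw [(hv _).2.2]; exact hF.K_rg pos hok
  have fq : ∀ j, |(Q.X false).qC j| ≤ 1 := fun j => l9t_q_le ha0 hadmL j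
  have hsum : ∑ j ∈ Finset.range (Q.N + 1), l9rMu Q.ms j = Q.p.a := by
    have := l9q_tele Q.ms Q.N
    unfold l9rMu
    rw [this]
    exact l9q_ms_top _ _
  refine ⟨hF.A_nn, hF.T_nn, ha0, hm, fun j => l9t_mc_le Q.I (Q.pf Q.t) ha0.le j, fun j => by rw [hgap]; exact hg0 j, hsum, fun j => (fb j).1, fun j => (fb j).2,
    fun j => (fh j).1, fun j => (fh j).2, fq, fun j => ?_, fun j => (fK j).1, fun j => (fK j).2, fun j hj => ?_, fun j hjN hj => ?_,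
    fun j => ?_, fun j hj => ?_, fun j hj => ?_, fun hev j hj => ?_, fun hev j => ?_, ?_, ?_⟩
  · have e : (Q.X false).dC j = (Q.X false).hC j - (Q.X false).KC j + (Q.X false).bC j * (Q.X false).qC j := rfl
    rw [e]
    obtain ⟨q1, q2⟩ := abs_le.1 (fq j)
    obtain ⟨b1, b2⟩ := fb j
    obtain ⟨h1, h2⟩ := fh j
    obtain ⟨K1, K2⟩ := fK j
    rw [abs_le]
    constructor <;> nlinarith
  · rw [hK]
    rcases hch j with ⟨_, hz⟩ | ⟨pos, hok, hu, _, hv⟩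
    · rw [(hz _).2.2]; exact mul_nonneg hF.A_nn (hm j)
    · rw [(hv _).2.2]
      rw [← hmc] at hu
      exact (hF.K_lw pos hok (hu.trans hj)).trans (mul_le_mul_of_nonneg_left hu hF.A_nn)
  · rw [hK]
    rcases hch j with ⟨h0, _⟩ | ⟨pos, hok, _, hu, hv⟩
    · have : j = 0 := h0 (hN ▸ hjN)
      subst this
      have e : Q.mc 0 = 0 := by rw [hmc]; unfold trPm; rw [if_pos rfl]
      rw [e]
      rcases hch 0 with ⟨_, hz⟩ | ⟨pos, hok, _, _, hv⟩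
      · rw [(hz _).2.2, mul_zero]
      · rw [(hv _).2.2]; exact mul_nonneg hF.A_nn (hF.K_rg pos hok).1
    · rw [(hv _).2.2]
      have hu' := hu (hN ▸ hjN)
      rw [← hmc] at hu'
      rw [← hu']
      exact hF.K_lo pos hok (hu' ▸ hj)
  · refine l9t_deriv_le hF.lt hF.t_mem fun t' ht' => ?_
    rcases hch j with ⟨_, hz⟩ | ⟨pos, hok, _, _, hv⟩
    · rw [(hz _).1, (hz _).1, sub_zero, abs_zero]; exact mul_nonneg hAT (abs_nonneg _)
    · rw [(hv _).1, (hv _).1]; exact hF.b_lip t' ht' pos hok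
  · refine l9t_deriv_le hF.lt hF.t_mem fun t' ht' => ?_
    rcases hch j with ⟨_, hz⟩ | ⟨pos, hok, hu, _, hv⟩
    · rw [(hz _).2.1, (hz _).2.1, sub_zero, abs_zero]; exact mul_nonneg hAT (abs_nonneg _)
    · rw [(hv _).2.1, (hv _).2.1]
      rw [← hmc] at hu
      exact hF.h_lip t' ht' pos hok (hu.trans hj)
  · refine l9t_deriv_le hF.lt hF.t_mem fun t' ht' => ?_
    rcases hch j with ⟨_, hz⟩ | ⟨pos, hok, hu, _, hv⟩
    · rw [(hz _).2.2, (hz _).2.2, sub_zero, abs_zero]; exact mul_nonneg (mul_nonneg hAT (hm j)) (abs_nonneg _)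
    · rw [(hv _).2.2, (hv _).2.2]
      rw [← hmc] at hu
      exact (hF.K_lip t' ht' pos hok (hu.trans hj)).trans
        (mul_le_mul_of_nonneg_right (mul_le_mul_of_nonneg_left hu hAT) (abs_nonneg _))
  · have k := (l9q_I_q Q.I Q.pf ha0 (fun t => by rw [hF.a_eq, ha]) hev hD).2.1 j (by rw [hlen]; exact hj)
    rw [← hiK] at k
    exact k
  · have dq := (l9q_I_q Q.I Q.pf ha0 (fun t => by rw [hF.a_eq, ha]) hev hD).1 j
    obtain ⟨db, dh, dK⟩ := hD j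
    have hder := (dh.hasDerivAt.sub dK.hasDerivAt).add (db.hasDerivAt.mul dq.hasDerivAt)
    have e : Q.dD j = Q.hD j - Q.KD j + (Q.bD j * (Q.X false).qC j + (Q.X false).bC j * Q.qD j) := hder.deriv
    rw [e]
    have t1 : |Q.bD j * (Q.X false).qC j| ≤ |Q.bD j| := by
      rw [abs_mul]; exact mul_le_of_le_one_right (abs_nonneg _) (fq j)
    have t2 : |(Q.X false).bC j * Q.qD j| ≤ A * |Q.qD j| := by
      rw [abs_mul, abs_of_nonneg (fb j).1]; exact mul_le_mul_of_nonneg_right (fb j).2 (abs_nonneg _)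
    have t3 := abs_add_le (Q.hD j - Q.KD j) (Q.bD j * (Q.X false).qC j + (Q.X false).bC j * Q.qD j)
    have t4 := abs_sub (Q.hD j) (Q.KD j)
    have t5 := abs_add_le (Q.bD j * (Q.X false).qC j) ((Q.X false).bC j * Q.qD j)
    linarith
  · rw [hiK]
    exact Finset.sum_nonneg fun j _ => mul_nonneg (hg0 j) (abs_nonneg _)
  · rw [hiK]
    unfold L9I.dot
    refine Finset.sum_le_sum fun j _ => mul_le_mul_of_nonneg_left ?_ (hg0 j)
    have := abs_nonneg (deriv (fun t' => (Q.I.X0 (Q.pf t')).bC j) Q.t)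
    have := abs_nonneg (deriv (fun t' => (Q.I.X0 (Q.pf t')).hC j) Q.t)
    have := abs_nonneg (deriv (fun t' => (Q.I.X0 (Q.pf t')).qC j) Q.t)
    linarith

/-- all masses are low (strength sweep): `∫|K̇| ≤ A T0 a²` -/
theorem L9Q.Dots.iK_all {Q : L9Q} {A T0 vK : ℝ} (h : Q.Dots A T0 vK) (hv : Q.p.a ≤ vK) : Q.iK ≤ A * T0 * Q.p.a ^ 2 := by
  have hAT : 0 ≤ A * T0 := mul_nonneg h.A_nn h.T_nn
  have h1 : Q.iK ≤ ∑ j ∈ Finset.range (Q.N + 1), l9rMu Q.ms j * (A * T0 * Q.p.a) := by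
    unfold L9Q.iK
    exact Finset.sum_le_sum fun j _ => mul_le_mul_of_nonneg_left
      ((h.Kd j ((h.m_le j).trans hv)).trans (mul_le_mul_of_nonneg_left (h.m_le j) hAT)) (h.mu_nn j)
  rw [← Finset.sum_mul, h.mu_sum] at h1
  calc Q.iK ≤ Q.p.a * (A * T0 * Q.p.a) := h1
    _ = A * T0 * Q.p.a ^ 2 := by ring

/-- all masses are low: `|K̇_j| ≤ A T0 a` -/
theorem L9Q.Dots.Kd_all {Q : L9Q} {A T0 vK : ℝ} (h : Q.Dots A T0 vK) (hv : Q.p.a ≤ vK) (j : ℕ) : |Q.KD j| ≤ A * T0 * Q.p.a :=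
  (h.Kd j ((h.m_le j).trans hv)).trans (mul_le_mul_of_nonneg_left (h.m_le j) (mul_nonneg h.A_nn h.T_nn))

/-- all masses are low: `|q̇_j| ≤ 44 a³ A T0` -/
theorem L9Q.Dots.qd_all {Q : L9Q} {A T0 vK : ℝ} (h : Q.Dots A T0 vK) (hv : Q.p.a ≤ vK) (hev : Q.AdmEv) {j : ℕ} (hj : j ≤ Q.N) :
    |Q.qD j| ≤ 44 * Q.p.a ^ 3 * (A * T0) := by
  have ha := h.a_pos.le
  have k1 := mul_le_mul_of_nonneg_left (h.iK_all hv) (by positivity : 0 ≤ 9 * Q.p.a)
  have k2 := mul_le_mul_of_nonneg_left (h.Kd_all hv j) (by positivity : 0 ≤ 35 * Q.p.a ^ 2)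
  calc |Q.qD j| ≤ 9 * Q.p.a * Q.iK + 35 * Q.p.a ^ 2 * |Q.KD j| := h.qd hev j hj
    _ ≤ 9 * Q.p.a * (A * T0 * Q.p.a ^ 2) + 35 * Q.p.a ^ 2 * (A * T0 * Q.p.a) := add_le_add k1 k2
    _ = 44 * Q.p.a ^ 3 * (A * T0) := by ring

/-- all masses are low: `|ḋ_j| ≤ (2 + a + 44 a³ A) A T0` -/
theorem L9Q.Dots.dd_all {Q : L9Q} {A T0 vK : ℝ} (h : Q.Dots A T0 vK) (hv : Q.p.a ≤ vK) (hev : Q.AdmEv) {j : ℕ} (hj : j ≤ Q.N) :
    |Q.dD j| ≤ (2 + Q.p.a + 44 * Q.p.a ^ 3 * A) * (A * T0) := by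
  have k1 := h.dd hev j
  have k2 := h.hd j ((h.m_le j).trans hv)
  have k3 := h.Kd_all hv j
  have k4 := h.bd j
  have k5 := mul_le_mul_of_nonneg_left (h.qd_all hv hev hj) h.A_nn
  calc |Q.dD j| ≤ |Q.hD j| + |Q.KD j| + |Q.bD j| + A * |Q.qD j| := k1
    _ ≤ A * T0 + A * T0 * Q.p.a + A * T0 + A * (44 * Q.p.a ^ 3 * (A * T0)) := by linarith
    _ = (2 + Q.p.a + 44 * Q.p.a ^ 3 * A) * (A * T0) := by ring

/-- the loss may be increased -/
theorem L9tFam.mono {F : LlFix} {𝔹 : LlBase} {pf : ℝ → LlPt} {t lo hi a0 vK A A' T0 : ℝ} (h : L9tFam F 𝔹 pf t lo hi a0 vK A T0) (hA : A ≤ A') :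
    L9tFam F 𝔹 pf t lo hi a0 vK A' T0 where
  lt := h.lt
  t_mem := h.t_mem
  a_pos := h.a_pos
  a_eq := h.a_eq
  A_nn := h.A_nn.trans hA
  T_nn := h.T_nn
  cb := h.cb
  ch := h.ch
  cK := h.cK
  b_rg := fun pos hp => ⟨(h.b_rg pos hp).1, (h.b_rg pos hp).2.trans hA⟩
  h_rg := fun pos hp => ⟨(h.h_rg pos hp).1, (h.h_rg pos hp).2.trans hA⟩
  h_lip := fun t' ht' pos hp hu => (h.h_lip t' ht' pos hp hu).trans
    (mul_le_mul_of_nonneg_right (mul_le_mul_of_nonneg_right hA h.T_nn) (abs_nonneg _))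
  K_rg := fun pos hp => ⟨(h.K_rg pos hp).1, (h.K_rg pos hp).2.trans hA⟩
  K_lw := fun pos hp hu => (h.K_lw pos hp hu).trans (mul_le_mul_of_nonneg_right hA hp.1)
  K_lo := fun pos hp hu => (h.K_lo pos hp hu).trans (mul_le_mul_of_nonneg_right hA (h.K_rg pos hp).1)
  b_lip := fun t' ht' pos hp => (h.b_lip t' ht' pos hp).trans
    (mul_le_mul_of_nonneg_right (mul_le_mul_of_nonneg_right hA h.T_nn) (abs_nonneg _))
  K_lip := fun t' ht' pos hp hu => (h.K_lip t' ht' pos hp hu).trans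
    (mul_le_mul_of_nonneg_right (mul_le_mul_of_nonneg_right (mul_le_mul_of_nonneg_right hA h.T_nn) hp.1) (abs_nonneg _))

/-! ## 4. the size segment -/

theorem l9t_S_eq (F : LlFix) (N : ℕ) (γ : Fin (N + 1) → ℝ) (θ : ℝ) : l9PtS F N γ θ = ll04vS F N γ θ := rfl

theorem l9t_S_a (F : LlFix) (N : ℕ) (γ : Fin (N + 1) → ℝ) (θ : ℝ) : (l9PtS F N γ θ).a = 4 := ll04v_wTh_a (l9PtS F N γ θ) rfl θ

/-- `h ≤ K + H_lo + H_lin ≤ M + (1 + log 1/x) + 2` on a smoothed path -/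
theorem l9t_S_h_le (F : LlFix) (hF : F.Ok) (𝔹 : LlBase) (hE : LlExpOk F.sS F.eta F.pS) (p0 : LlPt) (hokp : p0.Ok F) (hsm : p0.sm = true) {v : ℝ}
    (hK0 : 0 ≤ p0.K F 𝔹 v) (hKt : p0.ell ^ 2 * p0.K F 𝔹 v ≤ p0.M) (hb0 : 0 ≤ p0.b F 𝔹 v) (hq0 : 0 ≤ p0.q F 𝔹 v) :
    p0.h F 𝔹 v ≤ p0.M + (1 + Real.log (1 / p0.x)) + 2 := by
  have hx0 := lce_x_pos hokp.N2
  have hx1 := (lce_x_lt_one hokp.N2).le
  have hL0 := lcd_L_ge p0.x hx0 hx1
  have hM0 : 0 ≤ p0.M := by unfold LlPt.M; positivity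
  unfold LlPt.h
  split_ifs with hvx
  · linarith
  · have hl1 : 1 ≤ p0.ell ^ 2 := one_le_pow₀ hokp.ell1
    have hKM : p0.K F 𝔹 v ≤ p0.M := le_trans (le_mul_of_one_le_left hK0 hl1) hKt
    have hS : p0.hS F 𝔹 v ≤ p0.K F 𝔹 v := by
      unfold LlPt.hS
      have := mul_nonneg hb0 hq0
      linarith
    have hl2 : p0.ell ≤ 2 := by
      refine le_trans hokp.ell2 ?_
      calc (2 : ℝ) ^ (1 / 6 : ℝ) ≤ (2 : ℝ) ^ (1 : ℝ) := Real.rpow_le_rpow_of_exponent_le (by norm_num) (by norm_num)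
        _ = 2 := Real.rpow_one 2
    have hlam := lce_lam_pos hokp
    have hlo := (lcd_Hlo_mem F p0 hx0 hx1 hokp.ell1 hl2 hlam v (not_lt.1 hvx)).2
    have hU1 := lcd_U_le_one F p0
    have hU0 := (lcd_U_pos F p0 hx0 hlam).le
    have hl11 : p0.lam1 F ≤ 1 := by
      unfold LlPt.lam1
      exact Real.rpow_le_one hlam.le (lce_lam_le_one hokp hE.p_lo.le) (by linarith [hE.e_lo])
    have hl10 : 0 ≤ p0.lam1 F := by unfold LlPt.lam1; exact (Real.rpow_pos_of_pos hlam _).le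
    have hU3 : p0.U F ^ 3 ≤ 1 := pow_le_one₀ hU0 hU1
    have hlu : p0.lam1 F * p0.U F ^ 3 ≤ 1 := mul_le_one₀ hl11 (pow_nonneg hU0 3) hU3
    have hlo' : p0.Hlo F v ≤ 1 + Real.log (1 / p0.x) :=
      hlo.trans (mul_le_of_le_one_left (by linarith) hlu)
    have hlin : 0 ≤ p0.Hlin F v ∧ p0.Hlin F v ≤ 2 := by
      unfold LlPt.Hlin
      have hx3 : p0.x ^ 3 ≤ 1 := pow_le_one₀ hx0.le hx1
      have hx30 : 0 ≤ p0.x ^ 3 := pow_nonneg hx0.le 3
      have hm : max 0 (min v p0.ell - 4 * F.vb) ≤ 2 := max_le (by norm_num) (by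
        have := min_le_right v p0.ell
        have := hF.vb0
        linarith)
      have hm0 : 0 ≤ max 0 (min v p0.ell - 4 * F.vb) := le_max_left _ _
      exact ⟨mul_nonneg hx30 hm0, (mul_le_of_le_one_left hm0 hx3).trans hm⟩
    have c2 : p0.chiE = 0 := (hokp.sm_fin hsm).2
    have c1 : p0.chiL * p0.Hlin F v ≤ 2 := (mul_le_of_le_one_left hlin.1 hokp.chiL.2).trans hlin.2
    rw [c2, zero_mul]
    linarith

/-- **the size segment**: the position-level facts, `T0 = 1`, below a fixed mass `vK`, loss `C (1 + log 1/x)^3` -/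
theorem l9t_fam_S (𝔹 : LlBase) (F : LlFix) (hE : LlExpOk F.sS F.eta F.pS) (h3 : LlSec3 𝔹 F) :
    ∃ vK : ℝ, 0 < vK ∧ ∃ (C : ℝ) (N0 : ℕ), 0 ≤ C ∧ 2 ≤ N0 ∧ ∀ N : ℕ, N0 ≤ N → ∀ (γ : Fin (N + 1) → ℝ) (θ : ℝ), θ ∈ Icc (0 : ℝ) (Real.log 2) →
      L9tFam F 𝔹 (l9PtS F N γ) θ 0 (Real.log 2) 4 vK (C * (1 + Real.log (1 / skX N)) ^ 3) 1 := by
  have hF := h3.ok
  obtain ⟨Cb, CR, CT, ξ0, N0, env⟩ := ll04c_env 𝔹 F h3
  obtain ⟨Cv, cv, N1, venv⟩ := ll04v_env 𝔹 F h3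
  obtain ⟨c, Cr, v0, hc, hv0, N2, hRef⟩ := h3.ref
  obtain ⟨v0', _, hv0', _, hRT⟩ := h3.regT
  obtain ⟨_, Ct, _, N3, hRT⟩ := hRT 0
  have hp12 : F.pS ≤ 12 := by linarith [hE.p_hi]
  have hCb := env.Cb0
  have hCa : 0 ≤ ll04vCa Cb CT Cv cv := by
    have := env.CT0; have := venv.Cv0; have := venv.cv0
    unfold ll04vCa; positivity
  set v1 : ℝ := min (min v0 v0') 2 with hv1
  have hv1p : 0 < v1 := lt_min (lt_min hv0 hv0') (by norm_num)
  have hv12 : v1 ≤ 2 := min_le_right _ _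
  have hv14 : v1 ≤ 4 := hv12.trans (by norm_num)
  have hv10 : v1 ≤ v0 := (min_le_left _ _).trans (min_le_left _ _)
  have hv10' : v1 ≤ v0' := (min_le_left _ _).trans (min_le_right _ _)
  set Ctot : ℝ := Cb + 1 + |Cr| + 1 / c + |Ct| + ll04vCa Cb CT Cv cv + 4 + (2 * |Ct| + 2 * (Cb * |Ct|) + (CT + Cb + 2)) with hCtot
  have hic : 0 ≤ 1 / c := by positivity
  have hCT := env.CT0
  have hbt : 0 ≤ Cb * |Ct| := mul_nonneg hCb (abs_nonneg _)
  have hCtot0 : 0 ≤ Ctot := by have := abs_nonneg Cr; have := abs_nonneg Ct; rw [hCtot]; linarith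
  refine ⟨v1 / 2, by positivity, Ctot, max (max N0 N1) (max N2 N3), hCtot0,
    env.N2.trans ((le_max_left _ _).trans (le_max_left _ _)), fun N hN γ θ hθ => ?_⟩
  have hN0 : N0 ≤ N := ((le_max_left _ _).trans (le_max_left _ _)).trans hN
  have hN1 : N1 ≤ N := ((le_max_right _ _).trans (le_max_left _ _)).trans hN
  have hN2' : N2 ≤ N := ((le_max_left _ _).trans (le_max_right _ _)).trans hN
  have hN3 : N3 ≤ N := ((le_max_right _ _).trans (le_max_right _ _)).trans hN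
  have hN2 : 2 ≤ N := env.N2.trans hN0
  have hx := ll04w_x_mem (N := N) (by omega)
  have hL0 := lcd_L_ge (skX N) hx.1 hx.2
  set L3 : ℝ := (1 + Real.log (1 / skX N)) ^ 3 with hL3
  have hL31 : 1 ≤ L3 := one_le_pow₀ (by linarith)
  have hup : ∀ c0 : ℝ, c0 ≤ Ctot → c0 ≤ Ctot * L3 := fun c0 h => h.trans (by nlinarith)
  have dom := ll04v_dom F hF 𝔹 env venv hE hN0 hN1
  have hok : ∀ θ' ∈ Icc (0 : ℝ) (Real.log 2), (l9PtS F N γ θ').Ok F := fun θ' h => ll04v_S_ok F hp12 hN2 γ h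
  have h4 : (0 : ℝ) < 4 := by norm_num
  have cK : ∀ θ' ∈ Icc (0 : ℝ) (Real.log 2), GhClk1 4 ((l9PtS F N γ θ').K F 𝔹) := fun θ' h => dom.adm_K γ θ' h
  have hlow : ∀ pos : GhPos, pos.u ≤ v1 / 2 → pos.u < v1 ∨ v1 = 4 := fun pos h => Or.inl (by linarith)
  have ref := hRef _ (hok θ hθ) hN2'
  have a1 := abs_nonneg Cr
  have a2 := abs_nonneg Ct
  refine ⟨Real.log_pos (by norm_num), hθ, h4, fun t' => l9t_S_a F N γ t', by positivity, zero_le_one, dom.adm_b γ θ hθ, dom.adm_h γ θ hθ,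
    cK θ hθ, fun pos hp => ?_, fun pos hp => ?_, fun pos hp => ⟨dom.K_nn γ θ hθ pos hp, (dom.K_le γ θ hθ pos hp).trans ?_⟩,
    fun pos hp hu => ?_, fun pos hp hu => ?_, fun t' ht' pos hp => ?_, fun t' ht' pos hp hu => ?_, fun t' ht' pos hp hu => ?_⟩
  · have k := ll04v_at_rg h4 (dom.adm_b γ θ hθ) (R := Cb) (fun v hv => by
      have := (env.b_rg _ (hok θ hθ) hN0 v (by rw [l9t_S_a]; exact ⟨hv.1.le, hv.2⟩)).2
      exact this) hp
    exact ⟨k.1, k.2.trans (hup _ (by rw [hCtot]; linarith))⟩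
  · -- `h ≤ K + H_lo + H_lin ≤ M + (1 + log 1/x) + 2`
    set p0 := l9PtS F N γ θ with hp0
    have hokp := hok θ hθ
    have hpa : p0.a = 4 := l9t_S_a F N γ θ
    have hpx : p0.x = skX N := rfl
    have hin : ∀ v ∈ Ioo (0 : ℝ) 4, p0.h F 𝔹 v ≤ 4 * L3 := by
      intro v hv
      have hva : v ∈ Ioo 0 p0.a := by rw [hpa]; exact hv
      have hvI : v ∈ Icc 0 p0.a := ⟨hva.1.le, hva.2.le⟩
      have e1 : Real.log (1 / skX N) ^ 3 ≤ L3 := pow_le_pow_left₀ hL0 (by linarith) 3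
      have e2 : 1 + Real.log (1 / skX N) ≤ L3 := by
        have h1 : (1 : ℝ) ≤ 1 + Real.log (1 / skX N) := by linarith
        calc 1 + Real.log (1 / skX N) = (1 + Real.log (1 / skX N)) ^ 1 := (pow_one _).symm
          _ ≤ L3 := pow_le_pow_right₀ h1 (by norm_num)
      have hKt := venv.K_top p0 hokp hN1 v hva
      have hsm : p0.sm = true := rfl
      rw [if_pos hsm] at hKt
      have k := l9t_S_h_le F hF 𝔹 hE p0 hokp hsm (venv.K_nn p0 hokp hN1 v hvI) hKt (env.b_rg p0 hokp hN0 v hvI).1 (env.q_rg p0 hokp hN0 v hva).1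
      have hM : p0.M = Real.log (1 / skX N) ^ 3 := rfl
      rw [hM, hpx] at k
      linarith
    have hend : ∀ v ∈ Ioc (0 : ℝ) 4, p0.h F 𝔹 v ≤ 4 * L3 := by
      intro v hv
      rcases lt_or_eq_of_le hv.2 with h1 | h1
      · exact hin v ⟨hv.1, h1⟩
      · have ht := venv.eh p0 hokp hN1
        rw [hpa] at ht
        rw [h1]
        refine le_of_tendsto ht ?_
        filter_upwards [Ioo_mem_nhdsLT h4] with y hy using hin y hy
    have k := ll04v_at_rg h4 (dom.adm_h γ θ hθ) hend hp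
    exact ⟨k.1, k.2.trans (mul_le_mul_of_nonneg_right (by rw [hCtot]; linarith) (by linarith))⟩
  · have e1 : Real.log (1 / skX N) ^ 3 ≤ L3 := pow_le_pow_left₀ hL0 (by linarith) 3
    have e2 : 1 ≤ Ctot := by rw [hCtot]; linarith
    nlinarith
  · refine (l9t_at_le hv1p hv14 (cK θ hθ) (D := |Cr|) (fun v hv => ?_) hp (hlow pos hu)).trans
      (mul_le_mul_of_nonneg_right (hup _ (by rw [hCtot]; linarith)) hp.1)
    exact (ref.K_hi0 v hv.1 (hv.2.trans hv10)).trans (mul_le_mul_of_nonneg_right (le_abs_self _) hv.1.le)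
  · refine (l9t_at_ge hv1p hv14 (cK θ hθ) (D := 1 / c) (fun v hv => ?_) hp (hlow pos hu)).trans
      (mul_le_mul_of_nonneg_right (hup _ (by rw [hCtot]; linarith)) (dom.K_nn γ θ hθ pos hp))
    have := ref.K_lo0 v hv.1 (hv.2.trans hv10)
    rw [div_mul_eq_mul_div, one_mul, le_div_iff₀ hc]
    linarith
  · rw [mul_one]
    have hA : ll04vCa Cb CT Cv cv * L3 ≤ Ctot * L3 := mul_le_mul_of_nonneg_right (by rw [hCtot]; linarith) (by linarith)
    rcases le_total θ t' with h | h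
    · have k := dom.dom_b γ θ hθ t' ht' h pos hp
      rw [abs_of_nonneg (sub_nonneg.2 h)]
      exact k.trans (mul_le_mul_of_nonneg_right hA (sub_nonneg.2 h))
    · have k := dom.dom_b γ t' ht' θ hθ h pos hp
      rw [abs_sub_comm, abs_sub_comm t' θ, abs_of_nonneg (sub_nonneg.2 h)]
      exact k.trans (mul_le_mul_of_nonneg_right hA (sub_nonneg.2 h))
  · have reg := hRT _ (hok θ hθ) hN3 rfl θ hθ t' ht'
    rw [mul_one]
    have k := l9t_at_sub0 hv1p hv14 (dom.adm_h γ θ hθ) (dom.adm_h γ t' ht')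
      (D := (2 * |Ct| + 2 * (Cb * |Ct|) + (CT + Cb + 2)) * |t' - θ|) (fun v hv => by
      have hv4 : v ∈ Ioo (0 : ℝ) 4 := ⟨hv.1, lt_of_le_of_lt (hv.2.trans hv12) (by norm_num)⟩
      have kh := (ll04v_th_core F hF 𝔹 env hE _ (hok θ hθ) hN0 rfl hθ ht' v hv4).2
      have kK := reg.K0 v hv.1 (hv.2.trans hv10')
      have kq := reg.q0 v hv.1 (hv.2.trans hv10')
      have hd := abs_nonneg (t' - θ)
      have hCv : Ct * v * |t' - θ| ≤ 2 * |Ct| * |t' - θ| := by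
        refine mul_le_mul_of_nonneg_right ?_ hd
        have h1 : Ct * v ≤ |Ct| * v := mul_le_mul_of_nonneg_right (le_abs_self _) hv.1.le
        have h2 : |Ct| * v ≤ |Ct| * 2 := mul_le_mul_of_nonneg_left (hv.2.trans hv12) (abs_nonneg _)
        linarith
      refine kh.trans ?_
      have k1 := mul_le_mul_of_nonneg_left (kq.trans hCv) hCb
      have k2 := kK.trans hCv
      have e : (2 * |Ct| + 2 * (Cb * |Ct|) + (CT + Cb + 2)) * |t' - θ|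
          = 2 * |Ct| * |t' - θ| + Cb * (2 * |Ct| * |t' - θ|) + (CT + Cb + 2) * |t' - θ| := by ring
      rw [e]
      linarith) hp (hlow pos hu)
    exact k.trans (mul_le_mul_of_nonneg_right (hup _ (by rw [hCtot]; linarith)) (abs_nonneg _))
  · have reg := hRT _ (hok θ hθ) hN3 rfl θ hθ t' ht'
    have k := l9t_at_sub hv1p hv14 (cK θ hθ) (cK t' ht') (D := |Ct| * |t' - θ|) (fun v hv => by
      have := reg.K0 v hv.1 (hv.2.trans hv10')
      refine this.trans ?_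
      have e : |Ct| * |t' - θ| * v = |Ct| * v * |t' - θ| := by ring
      rw [e]
      exact mul_le_mul_of_nonneg_right (mul_le_mul_of_nonneg_right (le_abs_self _) hv.1.le) (abs_nonneg _)) hp (hlow pos hu)
    refine k.trans ?_
    have e : |Ct| * |t' - θ| * pos.u = |Ct| * (pos.u * |t' - θ|) := by ring
    have e' : Ctot * L3 * 1 * pos.u * |t' - θ| = Ctot * L3 * (pos.u * |t' - θ|) := by ring
    rw [e, e']
    exact mul_le_mul_of_nonneg_right (hup _ (by rw [hCtot]; linarith)) (mul_nonneg hp.1 (abs_nonneg _))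

/-- the chains of the size segment are admissible near an INTERIOR parameter -/
theorem l9t_admEv_S (𝔹 : LlBase) (F : LlFix) (hE : LlExpOk F.sS F.eta F.pS) (h3 : LlSec3 𝔹 F) :
    ∃ N0 : ℕ, ∀ N : ℕ, N0 ≤ N → ∀ (s : ℝ) (Fs : Finset GhPos) (m : ℕ) (γ : Fin (N + 1) → ℝ) (θ : ℝ), θ ∈ Ioo (0 : ℝ) (Real.log 2) →
      (l9QS F 𝔹 s Fs m N γ θ).AdmEv := by
  obtain ⟨Cb, CR, CT, ξ0, N0, env⟩ := ll04c_env 𝔹 F h3
  obtain ⟨Cv, cv, N1, venv⟩ := ll04v_env 𝔹 F h3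
  have hp12 : F.pS ≤ 12 := by linarith [hE.p_hi]
  refine ⟨max N0 N1, fun N hN s Fs m γ θ hθ => ?_⟩
  have hN0 : N0 ≤ N := (le_max_left _ _).trans hN
  have hN1 : N1 ≤ N := (le_max_right _ _).trans hN
  have hN2 : 2 ≤ N := env.N2.trans hN0
  show ∀ᶠ t' in 𝓝 θ, LlStpAdm (l9PtS F N γ t').a ((⟨F, 𝔹, s, Fs, m⟩ : L9I).P (l9PtS F N γ t'))
  filter_upwards [Ioo_mem_nhds hθ.1 hθ.2] with t' ht'
  have hok : (l9PtS F N γ t').Ok F := ll04v_S_ok F hp12 hN2 γ ⟨ht'.1.le, ht'.2.le⟩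
  obtain ⟨k1, k2, k3⟩ := ll04v_adm F 𝔹 env venv _ hok hN0 hN1
  exact l9q_I_adm ⟨F, 𝔹, s, Fs, m⟩ _ (by rw [l9t_S_a]; norm_num) k1 k2 k3

/-- **EXIT (DOTS, size segment)** -/
def L9tDotS (𝔹 : LlBase) (F : LlFix) (vK : ℝ) : Prop :=
  L9SbS 𝔹 F fun A Q => Q.Dots A 1 vK ∧ Q.AdmEv

theorem l9t_dotS (𝔹 : LlBase) (F : LlFix) (hE : LlExpOk F.sS F.eta F.pS) (h3 : LlSec3 𝔹 F) : ∃ vK : ℝ, 0 < vK ∧ L9tDotS 𝔹 F vK := by
  obtain ⟨vK, hvK, C, N0, hC, hN02, h⟩ := l9t_fam_S 𝔹 F hE h3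
  obtain ⟨N1, hadm⟩ := l9t_admEv_S 𝔹 F hE h3
  refine ⟨vK, hvK, fun δ hδ ε _ q _ => ?_⟩
  obtain ⟨C1, hC1, hlog⟩ := l9t_log_sub 3 hδ
  refine ⟨C * C1, max N0 N1, fun N hN => Eventually.of_forall fun Fs m γ θ hy => ?_⟩
  have hN0 : N0 ≤ N := (le_max_left _ _).trans hN
  have hx := ll04w_x_mem (N := N) (by omega)
  have hfam := (h N hN0 γ θ (Ioo_subset_Icc_self hy.2.2.1)).mono (A' := C * C1 * skX N ^ (-δ)) (by
    rw [mul_assoc]
    exact mul_le_mul_of_nonneg_left (hlog _ hx.1 hx.2) hC)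
  exact ⟨l9t_dots (l9QS F 𝔹 _ Fs m N γ θ) hfam hy.2.2.2.1, hadm N ((le_max_right _ _).trans hN) _ Fs m γ θ hy.2.2.1⟩

/-! ## 5. the strength sweep -/

theorem l9t_L_a (N : ℕ) (ell : ℝ) (γ : Fin (N + 1) → ℝ) (t : ℝ) : (l9PtL N ell γ t).a = ell := by
  show (if (false : Bool) = true then (4 : ℝ) else ell) = ell
  rw [if_neg (by simp)]

/-- the points of the strength sweep are admissible parameters -/
theorem l9t_L_ok (F : LlFix) {N : ℕ} (hN : 2 ≤ N) {ell : ℝ} (hl : ell ∈ Icc (1 : ℝ) ((2 : ℝ) ^ (1 / 6 : ℝ))) (γ : Fin (N + 1) → ℝ) {t : ℝ}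
    (ht : t ∈ l9LamRg F N) : (l9PtL N ell γ t).Ok F := by
  have hx := ll04w_x_mem (N := N) (by omega)
  have hcl : ∀ y, ll04Cl y ∈ Icc (-4 : ℝ) 4 := fun y =>
    ⟨by linarith [(ll04w_cl_mem y).1], by linarith [(ll04w_cl_mem y).2]⟩
  refine ⟨hN, hl.1, hl.2, ?_, ?_, hcl _, fun h => ?_, ⟨le_rfl, zero_le_one⟩, ⟨zero_le_one, le_rfl⟩, fun h => absurd h (by simp [l9PtL, ll04Pt])⟩
  · show skX N ^ (12 : ℝ) ≤ Real.exp t
    rw [Real.rpow_def_of_pos hx.1, Real.exp_le_exp, mul_comm]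
    exact ht.1.le
  · show Real.exp t ≤ skX N ^ F.pS
    rw [Real.rpow_def_of_pos hx.1, Real.exp_le_exp, mul_comm]
    exact ht.2.le
  · show (if hh : h < N then ll04Cl (γ ⟨h + 1, Nat.succ_lt_succ hh⟩) else 1 / 2) ∈ Icc (-4 : ℝ) 4
    split_ifs
    · exact hcl _
    · constructor <;> norm_num

/-- **the strength sweep** (PROVED by helper159 from `l9dd_pos` of `L09/DotsD.lean`): the position-level facts with `T0 = λ = exp t`, on ALL masses (`vK = a = ℓ`).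
PLAN. `lo = max (12 log x) (t - 1)`, `hi = min (p_* log x) (t + 1)` (`lo < hi` as `x < 1`, `p_* < 12`), so `|e^{t'} - e^t| ≤ e λ |t' - t|` (`ll04c_exp_lip`);
`(l9PtL N ell γ t).wLm (exp t') = l9PtL N ell γ t'` by `rfl`.      `cb ch`: `ll04v_adm`.   `b_rg`: `ll04v_at_rg` + `env.b_rg`.   `K_rg`: `venv.K_top` (`ℓ² K ≤ ξ_*`) + `ll04v_lin_end`.
`K_lw`, `K_lo`: `Ref.K_hi0`, `Ref.K_lo0` below `v0`, `K_top` and monotonicity above; transfer `l9t_at_le`, `l9t_at_ge` with `v1 = a` (`Or.inr rfl`).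
`h_rg`: `ll04h_end_pt` (`|h| ≤ C λ (1 + log 1/x)`, `χ_lin = 0`) + `venv.eh`.   `h_lip`: the SHARP `|Δh| ≤ C (1 + log 1/x) l' log(l'/λ)`, transfer `l9t_at_sub0` / `ll04v_at_sub`.
`K_lip`: `RegL.K` (`|ΔK| ≤ C |l' - λ| v` on `Ioo 0 a`, to `v = a` by `venv.eK`), transfer `l9t_at_sub`.   `b_lip`: the SHARP form `|Δb| ≤ C l' log(l'/λ)` (`lcf_str_b`), transfer `ll04v_at_sub`. -/
theorem l9t_fam_D (𝔹 : LlBase) (F : LlFix) (hE : LlExpOk F.sS F.eta F.pS) (hP : LlBaseProfile 𝔹 F.T) (h3 : LlSec3 𝔹 F) :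
    ∀ δ : ℝ, 0 < δ → ∃ (C : ℝ) (N0 : ℕ), ∀ N : ℕ, N0 ≤ N → ∀ ell : ℝ, ell ∈ Icc (1 : ℝ) ((2 : ℝ) ^ (1 / 6 : ℝ)) →
      ∀ (γ : Fin (N + 1) → ℝ) (t : ℝ), t ∈ l9LamRg F N →
        ∃ lo hi : ℝ, L9tFam F 𝔹 (l9PtL N ell γ) t lo hi ell ell (C * skX N ^ (-δ)) (Real.exp t) := by
  intro δ hδ
  obtain ⟨C, N0, hC, hN0, H⟩ := l9dd_pos F 𝔹 hE hP h3
  refine ⟨3 * C * (1 + 1 / δ), N0, fun N hN ell hell γ t ht' => ⟨max (12 * Real.log (skX N)) (t - 1), min (F.pS * Real.log (skX N)) (t + 1), ?_⟩⟩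
  have ht := l9dd_rg_sub F N ht'
  have h2N : 2 ≤ N := hN0.trans hN
  have hx := ll04w_x_mem (N := N) (by omega)
  have HH := H N hN ell hell γ
  have hlt := l9dd_rg_lt F hE.p_hi h2N
  have hl0 : 0 < ell := by linarith [hell.1]
  have hl2 : ell ≤ 2 := by
    refine hell.2.trans ?_
    calc (2 : ℝ) ^ (1 / 6 : ℝ) ≤ (2 : ℝ) ^ (1 : ℝ) := Real.rpow_le_rpow_of_exponent_le (by norm_num) (by norm_num)
      _ = 2 := Real.rpow_one _
  have hLg : 0 ≤ Real.log (1 / skX N) := lcd_L_ge (skX N) hx.1 hx.2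
  have hA : 3 * C * (1 + Real.log (1 / skX N)) ≤ 3 * C * (1 + 1 / δ) * skX N ^ (-δ) := by
    have := mul_le_mul_of_nonneg_left (l9dd_log_le hx.1 hx.2 hδ) (by positivity : 0 ≤ 3 * C)
    linarith
  have hA3 : 3 * C ≤ 3 * C * (1 + 1 / δ) * skX N ^ (-δ) := by nlinarith [mul_nonneg hC hLg]
  have hA1 : C ≤ 3 * C * (1 + 1 / δ) * skX N ^ (-δ) := by linarith
  have he := (Real.exp_pos t).le
  have he1 : Real.exp t ≤ 1 := by
    rw [← Real.exp_zero]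
    refine Real.exp_le_exp.2 (ht.2.trans ?_)
    exact mul_nonpos_of_nonneg_of_nonpos hE.p_lo.le (Real.log_nonpos hx.1.le hx.2)
  have hrg : ∀ t' ∈ Icc (max (12 * Real.log (skX N)) (t - 1)) (min (F.pS * Real.log (skX N)) (t + 1)), t' ∈ l9ddRg F N ∧ t' ≤ t + 1 := fun t' ht' =>
    ⟨⟨(le_max_left _ _).trans ht'.1, ht'.2.trans (min_le_left _ _)⟩, ht'.2.trans (min_le_right _ _)⟩
  have hk := HH.clk t ht
  refine ⟨max_lt (lt_min hlt (by linarith [ht.1])) (lt_min (by linarith [ht.2]) (by linarith)),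
    ⟨max_le ht.1 (by linarith), le_min ht.2 (by linarith)⟩, hl0, l9t_L_a N ell γ, hC.trans hA1, he, hk.1.1, hk.2.1.1, hk.2.2.1,
    fun pos hpos => ⟨gh_os_at_nonneg hl0.le hk.1.1 hpos.2.2.1, (HH.vb t ht pos hpos).trans hA1⟩,
    fun pos hpos => ⟨gh_os_at_nonneg hl0.le hk.2.1.1 hpos.2.2.1, ?_⟩,
    fun pos hpos => ⟨gh_os_at_nonneg hl0.le hk.2.2.1 hpos.2.2.1, ?_⟩,
    fun pos hpos _ => (HH.vK t ht pos hpos).trans (mul_le_mul_of_nonneg_right hA1 hpos.1),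
    fun pos hpos _ => (HH.lK t ht pos hpos).trans (mul_le_mul_of_nonneg_right hA1 (gh_os_at_nonneg hl0.le hk.2.2.1 hpos.2.2.1)),
    fun t' ht' pos hpos => ?_, fun t' ht' pos hpos _ => ?_, fun t' ht' pos hpos _ => ?_⟩
  · refine (HH.vh t ht pos hpos).trans ?_
    have h5 : 0 ≤ C * (1 + Real.log (1 / skX N)) := by positivity
    have := mul_le_mul_of_nonneg_left he1 h5
    linarith
  · refine (HH.vK t ht pos hpos).trans ?_
    have := mul_le_mul_of_nonneg_left (hpos.2.1.trans hl2) hC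
    linarith
  · refine (HH.two hC (by omega) ht (hrg t' ht').1 (hrg t' ht').2 hpos).1.trans ?_
    exact mul_le_mul_of_nonneg_right (mul_le_mul_of_nonneg_right hA3 he) (abs_nonneg _)
  · refine (HH.two hC (by omega) ht (hrg t' ht').1 (hrg t' ht').2 hpos).2.1.trans ?_
    exact mul_le_mul_of_nonneg_right (mul_le_mul_of_nonneg_right hA he) (abs_nonneg _)
  · refine (HH.two hC (by omega) ht (hrg t' ht').1 (hrg t' ht').2 hpos).2.2.trans ?_
    exact mul_le_mul_of_nonneg_right (mul_le_mul_of_nonneg_right (mul_le_mul_of_nonneg_right hA3 he) hpos.1) (abs_nonneg _)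

/-- the chains of the strength sweep are admissible near an INTERIOR parameter -/
theorem l9t_admEv_D (𝔹 : LlBase) (F : LlFix) (h3 : LlSec3 𝔹 F) :
    ∃ N0 : ℕ, ∀ N : ℕ, N0 ≤ N → ∀ (s : ℝ) (Fs : Finset GhPos) (m : ℕ) (ell : ℝ), ell ∈ Icc (1 : ℝ) ((2 : ℝ) ^ (1 / 6 : ℝ)) →
      ∀ (γ : Fin (N + 1) → ℝ) (t : ℝ), t ∈ l9LamRg F N → (l9QD F 𝔹 s Fs m N ell γ t).AdmEv := by
  obtain ⟨Cb, CR, CT, ξ0, N0, env⟩ := ll04c_env 𝔹 F h3
  obtain ⟨Cv, cv, N1, venv⟩ := ll04v_env 𝔹 F h3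
  refine ⟨max N0 N1, fun N hN s Fs m ell hl γ t ht => ?_⟩
  have hN0 : N0 ≤ N := (le_max_left _ _).trans hN
  have hN1 : N1 ≤ N := (le_max_right _ _).trans hN
  have hN2 : 2 ≤ N := env.N2.trans hN0
  show ∀ᶠ t' in 𝓝 t, LlStpAdm (l9PtL N ell γ t').a ((⟨F, 𝔹, s, Fs, m⟩ : L9I).P (l9PtL N ell γ t'))
  filter_upwards [(isOpen_Ioo (a := 12 * Real.log (skX N)) (b := F.pS * Real.log (skX N))).mem_nhds ht] with t' ht'
  have hok : (l9PtL N ell γ t').Ok F := l9t_L_ok F hN2 hl γ ht'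
  obtain ⟨k1, k2, k3⟩ := ll04v_adm F 𝔹 env venv _ hok hN0 hN1
  exact l9q_I_adm ⟨F, 𝔹, s, Fs, m⟩ _ (by rw [l9t_L_a]; linarith [hl.1]) k1 k2 k3

/-- **EXIT (DOTS, strength sweep)** -/
def L9tDotD (𝔹 : LlBase) (Mj : L9Mj) (κ : ℝ) (F : LlFix) : Prop :=
  L9SbD 𝔹 Mj κ F fun A Q => Q.Dots A Q.lam Q.p.a ∧ Q.AdmEv

theorem l9t_dotD (𝔹 : LlBase) (Mj : L9Mj) (κ : ℝ) (F : LlFix) (hE : LlExpOk F.sS F.eta F.pS) (hP : LlBaseProfile 𝔹 F.T) (h3 : LlSec3 𝔹 F) :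
    L9tDotD 𝔹 Mj κ F := by
  obtain ⟨N1, hadm⟩ := l9t_admEv_D 𝔹 F h3
  intro δ hδ ε _ q _
  obtain ⟨C, N0, h⟩ := l9t_fam_D 𝔹 F hE hP h3 δ hδ
  refine ⟨C, max N0 N1, fun N hN => Eventually.of_forall fun Fs m ell γ t hy => ?_⟩
  obtain ⟨lo, hi, hfam⟩ := h N ((le_max_left _ _).trans hN) ell hy.2.2.1 γ t hy.2.2.2.1
  have e : (l9QD F 𝔹 (q * skX N ^ (1 + ε)) Fs m N ell γ t).p.a = ell := l9t_L_a N ell γ t
  refine ⟨?_, hadm N ((le_max_right _ _).trans hN) _ Fs m ell hy.2.2.1 γ t hy.2.2.2.1⟩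
  rw [e]
  exact l9t_dots (l9QD F 𝔹 _ Fs m N ell γ t) hfam hy.2.2.2.2.1

theorem l9t_exit_eqns_cite : True := by
  have := @L9tDotS.eq_1
  have := @L9tDotD.eq_1
  trivial

end

end Claimed.Agent.R286
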