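import Claimed.Agent.R286.L09.GridP
import Claimed.Agent.R286.L09.Dots
import Claimed.Agent.R286.Sc.Bound
import Claimed.Agent.R286.Sc.LinkTr

/-!
# Row 286 (S0533), LL Sec. 9, node GRID, file BS: THE LETTERS `b` OF (M): KIT, SIZE SEGMENT      (owner helper263; head of the unit helper60; prefix `l9g`, `L9g`)

TEX[LL:exp:prop-low-coefficients] TEX[LL:paths:parameter-regularity]
* kit: `l9g_at_aff` (`ghAt` of `κ + ρ c`), `l9g_bC_aff` (a family of matrix clocks `b_{t'} = κ(t') + ρ(t') b_t`: every level of every chain is `κ(t') e + ρ(t') bC_j(t)`, `e ∈ [0,1]`),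
  jets: `l9gN_const`, `l9g_exp_jet`, `l9gN_exp_jet` (exponentials), `l9g_deriv_le`, `l9g_lip_jet` (a function with a SMALL Lipschitz constant: no second order information is needed);
  `l9g_closure`, `l9g_closure_inc` (a uniform limit of functions with Taylor defects `≤ E |h|`, `≤ E u |h|` at the steps `h`, `u h` has the defect `≤ 2 E |h|` at a point of differentiability);   `l9g_expM` (`C e^(-c M) ≤ x^K`).
* sec. 6: `l9w2_sus`: `V_zz(0,0) = a (1 - Γ(T)) + ∑ m_j (Γ(t_{j+1}) - Γ(t_j))` for a step profile;   `l9gW`, `L9gVD` (vocabulary of the jet of `b_∘` on the strength sweep).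
* `l9g_BS : LlSec3 𝔹 F → L9gBS 𝔹 F`: on the size segment `b_θ(v) = b_∘(θ) + (free of θ)`, `b_∘ = e^(-θ/3) β(θ)`, `β = ℓ² b_∘` Lipschitz with the constant `C e^(-c M) ≤ x^K` (`RegT.b0`).
-/

set_option autoImplicit false

namespace Claimed.Agent.R286

open Set Filter Topology

/-! ## 1. kit: values at the positions -/

theorem l9g_at_aff {a : ℝ} (ha : 0 ≤ a) {c : ℝ → ℝ} (hc : GhClk1 a c) (κ ρ : ℝ) (p : GhPos) :
    ghAt a (fun v => κ + ρ * c v) p = κ * ghAt a (fun _ => 1) p + ρ * ghAt a c p := by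
  have e : ghClamp a (fun v => κ + ρ * c v) = fun u => κ * ghClamp a (fun _ => 1) u + ρ * ghClamp a c u := by
    funext u
    unfold ghClamp
    split_ifs <;> ring
  have m1 : Monotone (ghClamp a c) := gh_os_clamp_mono ha hc
  have m2 : Monotone (ghClamp a (fun _ => (1 : ℝ))) := gh_os_clamp_mono ha ⟨monotoneOn_const, zero_le_one⟩
  have hL : Function.leftLim (ghClamp a (fun v => κ + ρ * c v)) p.u
      = κ * Function.leftLim (ghClamp a (fun _ => 1)) p.u + ρ * Function.leftLim (ghClamp a c) p.u := by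
    rw [e]
    exact leftLim_eq_of_tendsto (((m2.tendsto_leftLim _).const_mul κ).add ((m1.tendsto_leftLim _).const_mul ρ))
  have hR : Function.rightLim (ghClamp a (fun v => κ + ρ * c v)) p.u
      = κ * Function.rightLim (ghClamp a (fun _ => 1)) p.u + ρ * Function.rightLim (ghClamp a c) p.u := by
    rw [e]
    exact rightLim_eq_of_tendsto (((m2.tendsto_rightLim _).const_mul κ).add ((m1.tendsto_rightLim _).const_mul ρ))
  unfold ghAt
  rw [hL, hR]
  ring

/-- a family of matrix clocks which is affine in ONE of them: all the levels of all the chains -/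
theorem l9g_bC_aff (I : L9I) (pf : ℝ → LlPt) {a0 : ℝ} (ha0 : 0 < a0) (hpa : ∀ t, (pf t).a = a0) (t : ℝ) (hclk : GhClk1 a0 ((pf t).b I.F I.𝔹))
    (κ ρ : ℝ → ℝ) (S : Set ℝ) (hb : ∀ t' ∈ S, ∀ v, (pf t').b I.F I.𝔹 v = κ t' + ρ t' * (pf t).b I.F I.𝔹 v) (j : ℕ) :
    ∃ e : ℝ, 0 ≤ e ∧ e ≤ 1 ∧ ∀ t' ∈ S, (I.X0 (pf t')).bC j = κ t' * e + ρ t' * (I.X0 (pf t)).bC j := by
  rcases l9t_chain I pf hpa t j with ⟨-, h0⟩ | ⟨pos, hok, -, -, h1⟩
  · refine ⟨0, le_rfl, zero_le_one, fun t' _ => ?_⟩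
    rw [(h0 t').1, (h0 t).1]
    ring
  · have hr := ll04v_at_rg ha0 (c := fun _ => (1 : ℝ)) ⟨monotoneOn_const, zero_le_one⟩ (R := 1) (fun _ _ => le_rfl) hok
    refine ⟨ghAt a0 (fun _ => 1) pos, hr.1, hr.2, fun t' ht' => ?_⟩
    rw [(h1 t').1, (h1 t).1]
    have e : (pf t').b I.F I.𝔹 = fun v => κ t' + ρ t' * (pf t).b I.F I.𝔹 v := funext (hb t' ht')
    rw [e, l9g_at_aff ha0.le hclk]

/-! ## 2. kit: jets -/

theorem l9gN_const (h δ ε c : ℝ) : l9gN h δ ε (l9gMk c 0 c) = |c| := by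
  unfold l9gN
  simp [l9gV0_mk, l9gV1_mk, l9gDv_mk]

/-- exponentials -/
theorem l9g_exp_jet (c t h : ℝ) : L9gR t h (fun s => Real.exp (c * s)) (l9gMk (Real.exp (c * t)) (c * Real.exp (c * t)) (Real.exp (c * (t + h)))) := by
  refine L9gR.mk' (f := fun s => Real.exp (c * s)) ?_
  have := ((hasDerivAt_id t).const_mul c).exp
  simpa [mul_comm] using this

theorem l9gN_exp_jet {c t h δ ε : ℝ} (hδ : 0 < δ) (hε : 0 < ε) (hch : |c * h| ≤ 1) :
    l9gN h δ ε (l9gMk (Real.exp (c * t)) (c * Real.exp (c * t)) (Real.exp (c * (t + h))))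
      ≤ Real.exp (c * t) * 3 + Real.exp (c * t) * (2 * |c * h| / δ) + Real.exp (c * t) * ((c * h) ^ 2 / ε) := by
  have hE : 0 < Real.exp (c * t) := Real.exp_pos _
  have e1 : Real.exp (c * (t + h)) = Real.exp (c * t) * Real.exp (c * h) := by rw [← Real.exp_add]; ring_nf
  have a1 := Real.abs_exp_sub_one_le hch
  have a2 := Real.abs_exp_sub_one_sub_id_le hch
  have a3 : Real.exp (c * h) ≤ 3 := by
    have := (abs_le.1 a1).2
    linarith
  refine l9gN_le hδ hε ?_ ?_ ?_ ?_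
  · rw [l9gV0_mk, abs_of_pos hE]; linarith
  · rw [l9gV1_mk, e1, abs_of_pos (by positivity)]
    exact mul_le_mul_of_nonneg_left a3 hE.le
  · rw [l9gV0_mk, l9gV1_mk, e1]
    have : Real.exp (c * t) * Real.exp (c * h) - Real.exp (c * t) = Real.exp (c * t) * (Real.exp (c * h) - 1) := by ring
    rw [this, abs_mul, abs_of_pos hE, mul_assoc, div_mul_cancel₀ _ hδ.ne']
    exact mul_le_mul_of_nonneg_left a1 hE.le
  · rw [l9gV0_mk, l9gV1_mk, l9gDv_mk, e1]
    have : Real.exp (c * t) * Real.exp (c * h) - Real.exp (c * t) - h * (c * Real.exp (c * t)) = Real.exp (c * t) * (Real.exp (c * h) - 1 - c * h) := by ring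
    rw [this, abs_mul, abs_of_pos hE, mul_assoc, div_mul_cancel₀ _ hε.ne']
    refine mul_le_mul_of_nonneg_left ?_ hE.le
    exact a2

/-- the derivative at `t` of a function which is Lipschitz AT `t` along the segment `[t, t + h]` -/
theorem l9g_deriv_le {g : ℝ → ℝ} {t h g' L : ℝ} (hg : HasDerivAt g g' t) (hh : h ≠ 0)
    (hL : ∀ u : ℝ, 0 < u → u ≤ 1 → |g (t + u * h) - g t| ≤ L * (u * |h|)) : |g'| ≤ L := by
  have hs := hasDerivAt_iff_tendsto_slope.1 hg
  have hm : Tendsto (fun u : ℝ => t + u * h) (𝓝[>] 0) (𝓝[≠] t) := by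
    refine tendsto_nhdsWithin_iff.2 ⟨?_, ?_⟩
    · have : Tendsto (fun u : ℝ => t + u * h) (𝓝 0) (𝓝 (t + 0 * h)) := (continuous_const.add (continuous_id.mul continuous_const)).tendsto 0
      rw [zero_mul, add_zero] at this
      exact this.mono_left nhdsWithin_le_nhds
    · filter_upwards [self_mem_nhdsWithin] with u hu
      have hu0 : (0 : ℝ) < u := hu
      show t + u * h ≠ t
      intro e
      have : u * h = 0 := by linarith
      rcases mul_eq_zero.1 this with h1 | h1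
      · exact hu0.ne' h1
      · exact hh h1
  have hlim := (hs.comp hm).abs
  refine le_of_tendsto hlim ?_
  filter_upwards [Ioc_mem_nhdsGT (zero_lt_one' ℝ)] with u hu
  show |slope g t (t + u * h)| ≤ L
  rw [slope_def_field, abs_div]
  have e : t + u * h - t = u * h := by ring
  rw [e, abs_mul, abs_of_pos hu.1, div_le_iff₀ (mul_pos hu.1 (abs_pos.2 hh))]
  exact hL u hu.1 hu.2

/-- a function with a small Lipschitz constant -/
theorem l9g_lip_jet {g : ℝ → ℝ} {t h g' A L δ ε : ℝ} (hδ : 0 < δ) (hε : 0 < ε) (hg : HasDerivAt g g' t) (hh : h ≠ 0) (h0 : |g t| ≤ A) (h1 : |g (t + h)| ≤ A)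
    (hL : ∀ u : ℝ, 0 < u → u ≤ 1 → |g (t + u * h) - g t| ≤ L * (u * |h|)) :
    L9gR t h g (l9gMk (g t) g' (g (t + h))) ∧ l9gN h δ ε (l9gMk (g t) g' (g (t + h))) ≤ A + L * |h| / δ + 2 * L * |h| / ε := by
  refine ⟨L9gR.mk' hg, l9gN_le hδ hε ?_ ?_ ?_ ?_⟩
  · rwa [l9gV0_mk]
  · rwa [l9gV1_mk]
  · rw [l9gV0_mk, l9gV1_mk, div_mul_cancel₀ _ hδ.ne']
    have := hL 1 one_pos le_rfl
    rwa [one_mul, one_mul] at this
  · rw [l9gV0_mk, l9gV1_mk, l9gDv_mk, div_mul_cancel₀ _ hε.ne']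
    have k1 := hL 1 one_pos le_rfl
    rw [one_mul, one_mul] at k1
    have k2 := l9g_deriv_le hg hh hL
    have k3 : |h * g'| ≤ L * |h| := by
      rw [abs_mul, mul_comm]
      exact mul_le_mul_of_nonneg_right k2 (abs_nonneg _)
    calc |g (t + h) - g t - h * g'| ≤ |g (t + h) - g t| + |h * g'| := abs_sub _ _
      _ ≤ 2 * L * |h| := by linarith

/-! ## 3. closure under uniform limits -/

/-- **closure**: a uniform limit of functions with small Taylor defects (at the steps `h` and `u h`, LINEAR scale `E |h|`) has a small Taylor defect at a point of differentiability -/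
theorem l9g_closure {g : ℝ → ℝ} {t h g' E : ℝ} (hg : HasDerivAt g g' t) (hh : h ≠ 0)
    (H : ∀ u : ℝ, 0 < u → u ≤ 1 → ∀ η : ℝ, 0 < η → ∃ (G : ℝ → ℝ) (G' : ℝ), |G t - g t| ≤ η ∧ |G (t + h) - g (t + h)| ≤ η ∧ |G (t + u * h) - g (t + u * h)| ≤ η ∧
      |G (t + h) - G t - h * G'| ≤ E * |h| ∧ |G (t + u * h) - G t - u * h * G'| ≤ E * (u * |h|)) :
    |g (t + h) - g t - h * g'| ≤ 2 * E * |h| := by
  -- fixed `u`
  have hu : ∀ u : ℝ, 0 < u → u ≤ 1 → |g (t + h) - g t - u⁻¹ * (g (t + u * h) - g t)| ≤ 2 * E * |h| := by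
    intro u hu0 hu1
    refine le_of_forall_pos_le_add fun κ hκ => ?_
    set η : ℝ := κ * u / 4 with hη
    have hη0 : 0 < η := by positivity
    obtain ⟨G, G', a0, a1, a2, b1, b2⟩ := H u hu0 hu1 η hη0
    have hui : 0 < u⁻¹ := inv_pos.2 hu0
    have hui1 : 1 ≤ u⁻¹ := (one_le_inv₀ hu0).2 hu1
    have e : g (t + h) - g t - u⁻¹ * (g (t + u * h) - g t)
        = (G (t + h) - G t - h * G') - u⁻¹ * (G (t + u * h) - G t - u * h * G')
          - (G (t + h) - g (t + h)) + (G t - g t) + u⁻¹ * (G (t + u * h) - g (t + u * h)) - u⁻¹ * (G t - g t) := by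
      field_simp
      ring
    rw [e]
    have c2 : |u⁻¹ * (G (t + u * h) - G t - u * h * G')| ≤ E * |h| := by
      rw [abs_mul, abs_of_pos hui]
      calc u⁻¹ * |G (t + u * h) - G t - u * h * G'| ≤ u⁻¹ * (E * (u * |h|)) := mul_le_mul_of_nonneg_left b2 hui.le
        _ = E * |h| := by field_simp
    have c3 : |u⁻¹ * (G (t + u * h) - g (t + u * h))| ≤ u⁻¹ * η := by
      rw [abs_mul, abs_of_pos hui]
      exact mul_le_mul_of_nonneg_left a2 hui.le
    have c4 : |u⁻¹ * (G t - g t)| ≤ u⁻¹ * η := by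
      rw [abs_mul, abs_of_pos hui]
      exact mul_le_mul_of_nonneg_left a0 hui.le
    have c5 : u⁻¹ * η = κ / 4 := by rw [hη]; field_simp
    have c6 : η ≤ κ / 4 := by rw [← c5]; nlinarith
    have t1 := abs_sub (G (t + h) - G t - h * G') (u⁻¹ * (G (t + u * h) - G t - u * h * G'))
    have := abs_le.1 b1
    have := abs_le.1 c2
    have := abs_le.1 c3
    have := abs_le.1 c4
    have := abs_le.1 a1
    have := abs_le.1 a0
    rw [abs_le]
    constructor <;> linarith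
  -- `u → 0`
  have hs := hasDerivAt_iff_tendsto_slope.1 hg
  have hm : Tendsto (fun u : ℝ => t + u * h) (𝓝[>] 0) (𝓝[≠] t) := by
    refine tendsto_nhdsWithin_iff.2 ⟨?_, ?_⟩
    · have : Tendsto (fun u : ℝ => t + u * h) (𝓝 0) (𝓝 (t + 0 * h)) := (continuous_const.add (continuous_id.mul continuous_const)).tendsto 0
      rw [zero_mul, add_zero] at this
      exact this.mono_left nhdsWithin_le_nhds
    · filter_upwards [self_mem_nhdsWithin] with u hu
      have hu0 : (0 : ℝ) < u := hu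
      show t + u * h ≠ t
      intro e
      have : u * h = 0 := by linarith
      rcases mul_eq_zero.1 this with h1 | h1
      · exact hu0.ne' h1
      · exact hh h1
  have hlim : Tendsto (fun u : ℝ => |g (t + h) - g t - h * slope g t (t + u * h)|) (𝓝[>] 0) (𝓝 |g (t + h) - g t - h * g'|) :=
    (tendsto_const_nhds.sub ((hs.comp hm).const_mul h)).abs
  refine le_of_tendsto hlim ?_
  filter_upwards [Ioc_mem_nhdsGT (zero_lt_one' ℝ)] with u hu'
  have := hu u hu'.1 hu'.2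
  have e : h * slope g t (t + u * h) = u⁻¹ * (g (t + u * h) - g t) := by
    rw [slope_def_field]
    have e1 : t + u * h - t = u * h := by ring
    rw [e1]
    have := hu'.1.ne'
    field_simp
  rw [e]
  exact this

/-- the same for the increments -/
theorem l9g_closure_inc {g : ℝ → ℝ} {t h B : ℝ}
    (H : ∀ η : ℝ, 0 < η → ∃ G : ℝ → ℝ, |G t - g t| ≤ η ∧ |G (t + h) - g (t + h)| ≤ η ∧ |G (t + h) - G t| ≤ B) : |g (t + h) - g t| ≤ B := by
  refine le_of_forall_pos_le_add fun κ hκ => ?_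
  obtain ⟨G, a0, a1, b⟩ := H (κ / 2) (by positivity)
  have := abs_le.1 a0
  have := abs_le.1 a1
  have := abs_le.1 b
  rw [abs_le]
  constructor <;> linarith

/-! ## 4. numbers -/

theorem l9g_skX_exp {N : ℕ} (hN : 1 ≤ N) : skX N = Real.exp (-(Real.log N / 6)) := by
  unfold skX
  rw [Real.rpow_def_of_pos (by exact_mod_cast hN)]
  congr 1
  ring

theorem l9g_log_inv_skX {N : ℕ} (hN : 1 ≤ N) : Real.log (1 / skX N) = Real.log N / 6 := by
  rw [l9g_skX_exp hN, one_div, ← Real.exp_neg, Real.log_exp]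
  ring

/-- `C e^(-c M) ≤ x^K` for `N` large, `M = log³ (1/x)` -/
theorem l9g_expM (c C K : ℝ) (hc : 0 < c) : ∃ N0 : ℕ, 2 ≤ N0 ∧ ∀ N : ℕ, N0 ≤ N → C * Real.exp (-c * Real.log (1 / skX N) ^ 3) ≤ skX N ^ K := by
  set L0 : ℝ := max 1 ((|K| + |C|) / c) with hL0
  refine ⟨max 2 ⌈Real.exp (6 * L0)⌉₊, le_max_left _ _, fun N hN => ?_⟩
  have hN1 : 1 ≤ N := le_trans (by norm_num) ((le_max_left _ _).trans hN)
  have hNr : Real.exp (6 * L0) ≤ N := (Nat.le_ceil _).trans (by exact_mod_cast (le_max_right _ _).trans hN)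
  set l : ℝ := Real.log N / 6 with hl
  have hlL : L0 ≤ l := by
    have := Real.log_le_log (Real.exp_pos _) hNr
    rw [Real.log_exp] at this
    rw [hl]; linarith
  have hl1 : 1 ≤ l := (le_max_left _ _).trans hlL
  have hl2 : (|K| + |C|) / c ≤ l := (le_max_right _ _).trans hlL
  rw [div_le_iff₀ hc] at hl2
  rw [l9g_log_inv_skX hN1, l9g_skX_exp hN1, ← Real.exp_mul]
  have h1 : |C| ≤ c * l ^ 3 - K * l := by
    have a1 : K * l ≤ |K| * l := mul_le_mul_of_nonneg_right (le_abs_self K) (by linarith)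
    have a2 : (|K| + |C|) * l ≤ c * l ^ 3 := by
      have : (|K| + |C|) * l ≤ (l * c) * l := mul_le_mul_of_nonneg_right hl2 (by linarith)
      have h3 : l * c * l ≤ c * l ^ 3 := by
        have : l ^ 2 ≤ l ^ 3 := pow_le_pow_right₀ hl1 (by norm_num)
        nlinarith
      linarith
    have a3 : |C| ≤ |C| * l := by nlinarith [abs_nonneg C]
    nlinarith
  have h2 : |C| ≤ Real.exp (c * l ^ 3 - K * l) := h1.trans ((by linarith : c * l ^ 3 - K * l ≤ c * l ^ 3 - K * l + 1).trans (Real.add_one_le_exp _))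
  calc C * Real.exp (-c * l ^ 3) ≤ |C| * Real.exp (-c * l ^ 3) := mul_le_mul_of_nonneg_right (le_abs_self C) (Real.exp_pos _).le
    _ ≤ Real.exp (c * l ^ 3 - K * l) * Real.exp (-c * l ^ 3) := mul_le_mul_of_nonneg_right h2 (Real.exp_pos _).le
    _ = Real.exp (-l * K) := by rw [← Real.exp_add]; congr 1; ring

/-! ## 5. the size segment -/

/-- range of the levels of the matrix clock -/
theorem l9g_bC_rg (I : L9I) (pf : ℝ → LlPt) {a0 R : ℝ} (ha0 : 0 < a0) (hpa : ∀ t, (pf t).a = a0) (t : ℝ) (hclk : GhClk1 a0 ((pf t).b I.F I.𝔹))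
    (hR : ∀ v ∈ Ioc 0 a0, (pf t).b I.F I.𝔹 v ≤ R) (j : ℕ) : |(I.X0 (pf t)).bC j| ≤ R := by
  have hR0 : 0 ≤ R := (hclk.2.trans (hclk.1 ⟨le_rfl, ha0.le⟩ ⟨ha0.le, le_rfl⟩ ha0.le)).trans (hR a0 ⟨ha0, le_rfl⟩)
  rcases l9t_chain I pf hpa t j with ⟨-, h0⟩ | ⟨pos, hok, -, -, h1⟩
  · rw [(h0 t).1, abs_zero]; exact hR0
  · rw [(h1 t).1]
    have := ll04v_at_rg ha0 hclk hR hok
    rw [abs_of_nonneg this.1]
    exact this.2

/-- a convex combination stays in the segment -/
theorem l9g_seg {lo hi t h u : ℝ} (ht : t ∈ Icc lo hi) (hth : t + h ∈ Icc lo hi) (hu0 : 0 < u) (hu1 : u ≤ 1) : t + u * h ∈ Icc lo hi := by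
  constructor
  · rcases le_total 0 h with hh | hh
    · have := mul_nonneg hu0.le hh
      linarith [ht.1]
    · have : h ≤ u * h := by nlinarith
      linarith [hth.1]
  · rcases le_total 0 h with hh | hh
    · have : u * h ≤ h := by nlinarith
      linarith [hth.2]
    · have : u * h ≤ 0 := mul_nonpos_of_nonneg_of_nonpos hu0.le hh
      linarith [ht.2]

/-- **jet of `b_∘` on the size segment**: `b_∘ = e^(-θ/3) β`, `β = ℓ² b_∘` has the Lipschitz constant `C e^(-c M)` -/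
theorem l9g_B0S (𝔹 : LlBase) (F : LlFix) (hE : LlExpOk F.sS F.eta F.pS) (h3 : LlSec3 𝔹 F) : L9gB0S 𝔹 F := by
  intro K0
  obtain ⟨Cb, CR, CT, ξ0, N0, env⟩ := ll04c_env 𝔹 F h3
  obtain ⟨v0', ξ0', _, _, hRT⟩ := h3.regT
  obtain ⟨c, C, hc, N3, hRT⟩ := hRT 0
  obtain ⟨N4, hN4, hexp⟩ := l9g_expM c (2 * |C|) K0 hc
  have hp12 : F.pS ≤ 12 := by linarith [hE.p_hi]
  have hCb := env.Cb0
  refine ⟨5 * (2 * Cb + |C| + 1), max (max N0 N3) N4, by nlinarith [abs_nonneg C], fun N hN => ?_⟩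
  have hN0 : N0 ≤ N := ((le_max_left _ _).trans (le_max_left _ _)).trans hN
  have hN3 : N3 ≤ N := ((le_max_right _ _).trans (le_max_left _ _)).trans hN
  have hN4' : N4 ≤ N := (le_max_right _ _).trans hN
  have hN2 : 2 ≤ N := hN4.trans hN4'
  have hx : 0 < skX N ^ K0 := Real.rpow_pos_of_pos (l9b_skX_pos (by omega)) _
  refine ⟨1, min 1 (skX N ^ K0), one_pos, lt_min one_pos hx, fun h hne hh γ θ hθ hθh hd δ hδ hsq => ?_⟩
  have hh1 : |h| ≤ 1 := hh.trans (min_le_left _ _)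
  have hhx : |h| ≤ skX N ^ K0 := hh.trans (min_le_right _ _)
  have hh0 : 0 < |h| := abs_pos.2 hne
  rw [one_mul] at hδ
  have hδ0 : 0 < δ := hh0.trans_le hδ
  have hε0 : 0 < |h| * skX N ^ K0 := mul_pos hh0 hx
  have hok : ∀ θ' ∈ Icc (0 : ℝ) (Real.log 2), (l9PtS F N γ θ').Ok F := fun θ' h => ll04v_S_ok F hp12 hN2 γ h
  set L : ℝ := C * Real.exp (-c * Real.log (1 / skX N) ^ 3) with hL
  have hLabs : |L| ≤ |C| := by
    rw [hL, abs_mul, abs_of_pos (Real.exp_pos _)]
    refine mul_le_of_le_one_right (abs_nonneg _) (Real.exp_le_one_iff.2 ?_)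
    have : 0 ≤ Real.log (1 / skX N) := Real.log_nonneg (by rw [le_div_iff₀ (l9b_skX_pos (by omega))]; simpa using l9b_skX_le_one (by omega : 1 ≤ N))
    have := pow_nonneg this 3
    nlinarith
  have hLx : 2 * |L| ≤ skX N ^ K0 := by
    have := hexp N hN4'
    rw [hL, abs_mul, abs_of_pos (Real.exp_pos _)]
    linarith
  set β : ℝ → ℝ := fun t' => Real.exp (t' / 6) ^ 2 * (l9PtS F N γ t').b0 F 𝔹 with hβ
  have hlip : ∀ θ' ∈ Icc (0 : ℝ) (Real.log 2), |β θ' - β θ| ≤ |L| * |θ' - θ| := by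
    intro θ' hθ'
    have := (hRT _ (hok θ hθ) hN3 rfl θ hθ θ' hθ').b0
    exact this.trans (mul_le_mul_of_nonneg_right (le_abs_self _) (abs_nonneg _))
  have hbd : ∀ θ' ∈ Icc (0 : ℝ) (Real.log 2), |β θ'| ≤ 2 * Cb := by
    intro θ' hθ'
    have h1 := env.b0_rg _ (hok θ' hθ') hN0
    have h2 : Real.exp (θ' / 6) ^ 2 ≤ 2 := by
      rw [← Real.exp_nat_mul]
      calc Real.exp (((2 : ℕ) : ℝ) * (θ' / 6)) ≤ Real.exp (Real.log 2) := Real.exp_le_exp.2 (by push_cast; linarith [hθ'.1, hθ'.2])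
        _ = 2 := Real.exp_log (by norm_num)
    simp only [hβ]
    rw [abs_mul, abs_of_pos (by positivity)]
    exact mul_le_mul h2 h1 (abs_nonneg _) (by norm_num)
  have hβd : HasDerivAt β (deriv β θ) θ := by
    refine DifferentiableAt.hasDerivAt ?_
    refine DifferentiableAt.mul ?_ hd
    exact ((differentiableAt_id.div_const 6).exp).pow 2
  obtain ⟨r1, n1⟩ := l9g_lip_jet (A := 2 * Cb) (L := |L|) hδ0 hε0 hβd hne (hbd θ hθ) (hbd _ hθh) (fun u hu0 hu1 => by
    have k := hlip _ (l9g_seg hθ hθh hu0 hu1)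
    have e : |θ + u * h - θ| = u * |h| := by
      have : θ + u * h - θ = u * h := by ring
      rw [this, abs_mul, abs_of_pos hu0]
    rw [e] at k
    exact k)
  have r2 := l9g_exp_jet (-(1 / 3)) θ h
  have hch : |-(1 / 3 : ℝ) * h| ≤ 1 := by
    rw [abs_mul]
    have : |(-(1 / 3) : ℝ)| = 1 / 3 := by rw [abs_neg, abs_of_pos (by norm_num)]
    rw [this]; linarith
  have n2 := l9gN_exp_jet (t := θ) hδ0 hε0 hch
  refine ⟨_, (r2.mul r1).congr fun s => ?_, (l9gN_mul hδ0 hε0 hsq _ _).trans ?_⟩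
  · simp only [hβ]
    have e : Real.exp (-(1 / 3) * s) * Real.exp (s / 6) ^ 2 = 1 := by
      rw [← Real.exp_nat_mul, ← Real.exp_add]
      have : -(1 / 3) * s + ((2 : ℕ) : ℝ) * (s / 6) = 0 := by push_cast; ring
      rw [this, Real.exp_zero]
    rw [← mul_assoc, e, one_mul]
  · have hE1 : Real.exp (-(1 / 3) * θ) ≤ 1 := Real.exp_le_one_iff.2 (by linarith [hθ.1])
    have hE0 : 0 < Real.exp (-(1 / 3) * θ) := Real.exp_pos _
    have habs : |-(1 / 3 : ℝ) * h| = |h| / 3 := by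
      rw [abs_mul, abs_neg, abs_of_pos (by norm_num : (0 : ℝ) < 1 / 3)]; ring
    have b1 : 2 * |-(1 / 3 : ℝ) * h| / δ ≤ 1 := by
      rw [div_le_one hδ0, habs]; linarith
    have b2 : (-(1 / 3 : ℝ) * h) ^ 2 / (|h| * skX N ^ K0) ≤ 1 := by
      rw [div_le_one hε0]
      have : (-(1 / 3 : ℝ) * h) ^ 2 = |h| * |h| / 9 := by
        have e := sq_abs h
        nlinarith
      rw [this]
      nlinarith
    have m2 : l9gN h δ (|h| * skX N ^ K0) (l9gMk (Real.exp (-(1 / 3) * θ)) (-(1 / 3) * Real.exp (-(1 / 3) * θ)) (Real.exp (-(1 / 3) * (θ + h)))) ≤ 5 := by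
      refine n2.trans ?_
      nlinarith
    have b3 : |L| * |h| / δ ≤ |C| := by
      rw [div_le_iff₀ hδ0]
      exact mul_le_mul hLabs hδ (abs_nonneg _) (abs_nonneg _)
    have b4 : 2 * |L| * |h| / (|h| * skX N ^ K0) ≤ 1 := by
      rw [div_le_one hε0]
      nlinarith
    have m1 : l9gN h δ (|h| * skX N ^ K0) (l9gMk (β θ) (deriv β θ) (β (θ + h))) ≤ (2 * Cb + (|C|) + 1) := by
      linarith
    exact mul_le_mul m2 m1 (l9gN_nonneg hδ0 hε0 _) (by norm_num)

/-- **the letters `b` on the size segment** -/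
theorem l9g_BS (𝔹 : LlBase) (F : LlFix) (hE : LlExpOk F.sS F.eta F.pS) (h3 : LlSec3 𝔹 F) : L9gBS 𝔹 F := by
  intro K0
  obtain ⟨Kb, N1, hKb, hB⟩ := l9g_B0S 𝔹 F hE h3 K0
  obtain ⟨Cb, CR, CT, ξ0, N0, env⟩ := ll04c_env 𝔹 F h3
  obtain ⟨Cv, cv, N2, venv⟩ := ll04v_env 𝔹 F h3
  have hp12 : F.pS ≤ 12 := by linarith [hE.p_hi]
  have hCb := env.Cb0
  refine ⟨Kb + 2 * Cb, max (max N0 N1) N2, by linarith, fun N hN => ?_⟩
  have hN0 : N0 ≤ N := ((le_max_left _ _).trans (le_max_left _ _)).trans hN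
  have hN1 : N1 ≤ N := ((le_max_right _ _).trans (le_max_left _ _)).trans hN
  have hN2' : N2 ≤ N := (le_max_right _ _).trans hN
  have hN2 : 2 ≤ N := env.N2.trans hN0
  have hx : 0 < skX N ^ K0 := Real.rpow_pos_of_pos (l9b_skX_pos (by omega)) _
  obtain ⟨D, h0, hD, hh0, hB⟩ := hB N hN1
  refine ⟨D, h0, hD, hh0, fun h hne hh Fs s m γ θ hθ hθh hDif δ hδ hsq j => ?_⟩
  have hhp : 0 < |h| := abs_pos.2 hne
  have hδ0 : 0 < δ := (mul_pos hD hhp).trans_le hδ
  have hε0 : 0 < |h| * skX N ^ K0 := mul_pos hhp hx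
  set I : L9I := ⟨F, 𝔹, s, Fs, m⟩ with hI
  have hok := ll04v_S_ok F hp12 hN2 γ hθ
  have hclk : GhClk1 4 ((l9PtS F N γ θ).b F 𝔹) := (ll04v_adm F 𝔹 env venv _ hok hN0 hN2').1
  have hpa : ∀ t, (l9PtS F N γ t).a = 4 := fun t => l9t_S_a F N γ t
  obtain ⟨e, he0, he1, hf⟩ := l9g_bC_aff I (l9PtS F N γ) (by norm_num : (0 : ℝ) < 4) hpa θ hclk
    (fun t' => (l9PtS F N γ t').b0 F 𝔹 - (l9PtS F N γ θ).b0 F 𝔹) (fun _ => 1) univ (fun t' _ v => by
      have e : ∀ t'' : ℝ, (l9PtS F N γ t'').b F 𝔹 v - (l9PtS F N γ t'').b0 F 𝔹 = (l9PtS F N γ θ).b F 𝔹 v - (l9PtS F N γ θ).b0 F 𝔹 := fun t'' => by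
        unfold LlPt.b
        rw [add_sub_cancel_left, add_sub_cancel_left]
        rfl
      have := e t'
      show (l9PtS F N γ t').b F 𝔹 v = _
      linarith) j
  have hfθ : |(I.X0 (l9PtS F N γ θ)).bC j| ≤ Cb := l9g_bC_rg I (l9PtS F N γ) (by norm_num : (0 : ℝ) < 4) hpa θ hclk
    (fun v hv => (env.b_rg _ hok hN0 v (by rw [← l9t_S_eq, hpa]; exact ⟨hv.1.le, hv.2⟩)).2) j
  have hb0 : |(l9PtS F N γ θ).b0 F 𝔹| ≤ Cb := env.b0_rg _ hok hN0
  rcases he0.eq_or_lt with rfl | hepos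
  · refine ⟨_, (l9gR_const ((I.X0 (l9PtS F N γ θ)).bC j)).congr fun t' => ?_, ?_⟩
    · rw [hf t' (mem_univ _)]; ring
    · rw [l9gN_const]; linarith
  · have hd0 : DifferentiableAt ℝ (fun t' => (l9PtS F N γ t').b0 F 𝔹) θ := by
      have h1 : DifferentiableAt ℝ (fun t' => ((I.X0 (l9PtS F N γ t')).bC j - (I.X0 (l9PtS F N γ θ)).bC j) / e + (l9PtS F N γ θ).b0 F 𝔹) θ :=
        (((hDif j).1.sub_const _).div_const e).add_const _
      refine h1.congr_of_eventuallyEq (Filter.Eventually.of_forall fun t' => ?_)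
      show _ = ((I.X0 (l9PtS F N γ t')).bC j - (I.X0 (l9PtS F N γ θ)).bC j) / e + (l9PtS F N γ θ).b0 F 𝔹
      rw [hf t' (mem_univ _)]
      field_simp
      ring
    obtain ⟨X, hX, hN⟩ := hB h hne hh γ θ hθ hθh hd0 δ hδ hsq
    refine ⟨l9gMk e 0 e * X + l9gMk ((I.X0 (l9PtS F N γ θ)).bC j - e * (l9PtS F N γ θ).b0 F 𝔹) 0 ((I.X0 (l9PtS F N γ θ)).bC j - e * (l9PtS F N γ θ).b0 F 𝔹),
      (((l9gR_const e).mul hX).add (l9gR_const _)).congr fun t' => ?_, ?_⟩
    · rw [hf t' (mem_univ _)]; ring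
    · refine (l9gN_add hδ0 hε0 _ _).trans ?_
      have a1 := l9gN_mul (h := h) hδ0 hε0 hsq (l9gMk e 0 e) X
      rw [l9gN_const, abs_of_pos hepos] at a1
      rw [l9gN_const]
      have a2 : e * l9gN h δ (|h| * skX N ^ K0) X ≤ Kb := by
        calc e * l9gN h δ (|h| * skX N ^ K0) X ≤ 1 * Kb := mul_le_mul he1 hN (l9gN_nonneg hδ0 hε0 _) zero_le_one
          _ = Kb := one_mul _
      have a3 : |(I.X0 (l9PtS F N γ θ)).bC j - e * (l9PtS F N γ θ).b0 F 𝔹| ≤ 2 * Cb := by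
        have : |e * (l9PtS F N γ θ).b0 F 𝔹| ≤ Cb := by
          rw [abs_mul, abs_of_pos hepos]
          calc e * |(l9PtS F N γ θ).b0 F 𝔹| ≤ 1 * Cb := mul_le_mul he1 hb0 (abs_nonneg _) zero_le_one
            _ = Cb := one_mul _
        calc _ ≤ |(I.X0 (l9PtS F N γ θ)).bC j| + |e * (l9PtS F N γ θ).b0 F 𝔹| := abs_sub _ _
          _ ≤ 2 * Cb := by linarith
      linarith

/-! ## 6. the susceptibility of the scalar reference of a chain

`V_zz(0,0) = a - ∑_j μ_j q_j` (`μ_j` = mass increments of the chain, `q_j = Γ(K_j)` = reference overlaps): the martingale `V_z(t, Z_t)`, `d V_zz(t,Z_t) = - α V_zz² dt + ..`, `Γ' = E V_zz²`, terminal datum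
`F'' = a (1 - F'²)` for `F = a⁻¹ log cosh (a z)`.      Dynkin rules `sc_rule_D2`, `sc_rule_D1_sq` of `Sc/DynC`.
CONSUMER: `b_∘ = 1 / Γ'(0) = 1 / V_zz(0,0)²` (LL (P3)): second order regularity of `b_∘` in the strength from that of the overlaps (`l9g_qC_defect`).      TEX[LL:paths:lift] -/

/-- the mass on the cell number `k` -/
theorem l9w2_al : ∀ {π : List (ℝ × ℝ)}, ScPos π → ∀ {k : ℕ} (hk : k < π.length) {r : ℝ}, scLen (π.take k) ≤ r → r < scLen (π.take (k + 1)) →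
    scAl π r = (π[k]).1
  | [], _, k, hk, _, _, _ => by simp at hk
  | p :: π, h, 0, _, r, _, h2 => by
    have h2' : r < p.2 := by simpa [scLen] using h2
    simp [scAl, not_le.2 h2']
  | p :: π, h, k + 1, hk, r, h1, h2 => by
    have hπ : ScPos π := fun q hq => h q (List.mem_cons_of_mem _ hq)
    have h1' : p.2 + scLen (π.take k) ≤ r := by simpa [scLen] using h1
    have h2' : r < p.2 + scLen (π.take (k + 1)) := by simpa [scLen] using h2
    have h0 : 0 ≤ scLen (π.take k) := sc_len_nonneg (slk_pos_take hπ k)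
    have hp : p.2 ≤ r := by linarith
    have hk' : k < π.length := by simpa using hk
    have ih := l9w2_al hπ hk' (r := r - p.2) (by linarith) (by linarith)
    simp only [scAl, if_pos hp, List.getElem_cons_succ]
    exact ih

theorem l9w2_len_take_succ (π : List (ℝ × ℝ)) {k : ℕ} (hk : k < π.length) : scLen (π.take (k + 1)) = scLen (π.take k) + (π[k]).2 := by
  induction π generalizing k with
  | nil => simp at hk
  | cons p π ih =>
    cases k with
    | zero => simp [scLen]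
    | succ k =>
      have hk' : k < π.length := by simpa using hk
      have := ih hk'
      simp only [List.take_succ_cons, scLen, List.getElem_cons_succ]
      rw [this]; ring

theorem l9w2_len_take_le {π : List (ℝ × ℝ)} (h : ScPos π) (k : ℕ) : scLen (π.take k) ≤ scLen π := by
  induction π generalizing k with
  | nil => simp
  | cons p π ih =>
    have hπ : ScPos π := fun q hq => h q (List.mem_cons_of_mem _ hq)
    cases k with
    | zero =>
      have h1 := sc_len_nonneg h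
      simpa [scLen] using h1
    | succ k =>
      have := ih hπ k
      simp only [List.take_succ_cons, scLen]
      linarith

/-- `E V_zz(t_k, Z)` along the cells -/
theorem l9w2_cells {F : ℝ → ℝ} (hF : ScBI F) {π : List (ℝ × ℝ)} (h : ScPos π) : ∀ k, k ≤ π.length →
    scEx F π (scLen (π.take k)) (scD 2 F π (scLen (π.take k))) = scD 2 F π 0 0
      - ∑ j ∈ Finset.range k, (π.getD j (0, 0)).1 * (scGam F π (scLen (π.take (j + 1))) - scGam F π (scLen (π.take j))) := by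
  intro k
  induction k with
  | zero =>
    intro _
    simp [scEx, scLen, sc_Pt_self]
  | succ k ih =>
    intro hk
    have hk' : k < π.length := hk
    have ihk := ih hk'.le
    set s := scLen (π.take k) with hs
    set t := scLen (π.take (k + 1)) with ht
    have hs0 : 0 ≤ s := sc_len_nonneg (slk_pos_take h k)
    have hd : 0 ≤ (π[k]).2 := h _ (List.getElem_mem hk')
    have hst : s ≤ t := by rw [ht, l9w2_len_take_succ π hk']; linarith
    have htl : t ≤ scLen π := l9w2_len_take_le h _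
    have hsl : s ≤ scLen π := hst.trans htl
    -- the two rules
    have r2t := sc_rule_D2 hF h le_rfl (hs0.trans hst) htl 0
    have r2s := sc_rule_D2 hF h le_rfl hs0 hsl 0
    have r1t := sc_rule_D1_sq hF h le_rfl (hs0.trans hst) htl 0
    have r1s := sc_rule_D1_sq hF h le_rfl hs0 hsl 0
    have i1 : IntervalIntegrable (fun r => scPt F π 0 r (fun y => scD 2 F π r y ^ 2) 0) MeasureTheory.volume 0 t := by
      have := sc_dynkin_int hF h le_rfl (hs0.trans hst) htl (sc_dyn_D1 hF h le_rfl htl).sq 0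
      refine this.congr fun r _ => ?_
      have e : (fun y => 2 * scD 1 F π r y * 0 + deriv (scD 1 F π r) y ^ 2) = fun y => scD 2 F π r y ^ 2 := by
        funext y; rw [sc_D_succ]; ring
      show scPt F π 0 r (fun y => 2 * scD 1 F π r y * 0 + deriv (scD 1 F π r) y ^ 2) 0 = _
      rw [e]
    have i2 : IntervalIntegrable (fun r => scAl π r * scPt F π 0 r (fun y => scD 2 F π r y ^ 2) 0) MeasureTheory.volume 0 t := by
      have := (sc_dynkin_int hF h le_rfl (hs0.trans hst) htl (sc_dyn_D2 hF h le_rfl htl) 0).neg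
      refine this.congr fun r _ => ?_
      have e : (fun y => - (scAl π r * scD 2 F π r y ^ 2)) = fun y => (- scAl π r) * scD 2 F π r y ^ 2 := by
        funext y; ring
      show -(scPt F π 0 r (fun y => - (scAl π r * scD 2 F π r y ^ 2)) 0) = _
      rw [e, sc_Pt_const_mul]
      ring
    have hsub : Set.uIcc 0 s ⊆ Set.uIcc 0 t := by
      rw [Set.uIcc_of_le hs0, Set.uIcc_of_le (hs0.trans hst)]
      exact Set.Icc_subset_Icc le_rfl hst
    have hsub2 : Set.uIcc s t ⊆ Set.uIcc 0 t := by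
      rw [Set.uIcc_of_le hst, Set.uIcc_of_le (hs0.trans hst)]
      exact Set.Icc_subset_Icc hs0 le_rfl
    have a1 := intervalIntegral.integral_add_adjacent_intervals (i1.mono_set hsub) (i1.mono_set hsub2)
    have a2 := intervalIntegral.integral_add_adjacent_intervals (i2.mono_set hsub) (i2.mono_set hsub2)
    have hcell : ∫ r in s..t, scAl π r * scPt F π 0 r (fun y => scD 2 F π r y ^ 2) 0
        = (π[k]).1 * ∫ r in s..t, scPt F π 0 r (fun y => scD 2 F π r y ^ 2) 0 := by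
      rw [← intervalIntegral.integral_const_mul]
      refine sc_integral_congr_Ioo hst fun r hr => ?_
      rw [l9w2_al h hk' hr.1.le hr.2]
    have hget : (π.getD k (0, 0)).1 = (π[k]).1 := by
      rw [List.getD_eq_getElem _ _ hk']
    have hΓ : scGam F π t - scGam F π s = ∫ r in s..t, scPt F π 0 r (fun y => scD 2 F π r y ^ 2) 0 := by
      unfold scGam scEx
      linarith
    rw [Finset.sum_range_succ, hget, hΓ, ← hcell]
    unfold scEx at ihk ⊢
    linarith

/-- **the susceptibility**, cells form -/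
theorem l9w2_sus {a : ℝ} (ha : a ≠ 0) {π : List (ℝ × ℝ)} (h : ScPos π) :
    scD 2 (scLC a) π 0 0 = a * (1 - scGam (scLC a) π (scLen π))
      + ∑ j ∈ Finset.range π.length, (π.getD j (0, 0)).1 * (scGam (scLC a) π (scLen (π.take (j + 1))) - scGam (scLC a) π (scLen (π.take j))) := by
  have hF := slk_LC_BI a
  have key := l9w2_cells hF h π.length le_rfl
  rw [List.take_length] at key
  have e2 : scD 2 (scLC a) π (scLen π) = fun z => a * (1 - scD 1 (scLC a) π (scLen π) z ^ 2) := by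
    have e1 : scD 1 (scLC a) π (scLen π) = fun z => Real.tanh (a * z) := by
      show deriv^[1] (scVt (scLC a) π (scLen π)) = _
      rw [sc_Vt_len _ h]
      exact scb_LC_deriv ha
    rw [e1]
    show deriv^[2] (scVt (scLC a) π (scLen π)) = _
    rw [sc_Vt_len _ h]
    exact scb_LC_deriv2 ha
  have e3 : scEx (scLC a) π (scLen π) (scD 2 (scLC a) π (scLen π)) = a * (1 - scGam (scLC a) π (scLen π)) := by
    rw [e2]
    unfold scGam scEx
    rw [sc_Pt_const_mul]
    have hc : ScE 0 (fun _ : ℝ => (1 : ℝ)) := by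
      have := (sc_D_E hF 1 0 π (scLen π)).pow 0
      simpa using this
    rw [sc_Pt_sub hF hc ((sc_D_E hF 1 0 π (scLen π)).pow 2), sc_Pt_const hF]
  rw [e3] at key
  linarith

/-- `V_zz(0,0)` of the scalar reference of the fine path `P` -/
noncomputable def l9gW (a : ℝ) (P : LlStp) : ℝ := scD 2 (scLC a) (slkPi (llSc P)) 0 0

/-- **(V) at the time `0` on the strength sweep**: the grid number `V_zz(0,0)²` tends to `Γ'(0) = 1 / b_∘`, uniformly in the point      (producer: 156, from `l9v_evF` of 120) -/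
def L9gVD (𝔹 : LlBase) (F : LlFix) : Prop :=
  ∃ N0 : ℕ, ∀ N : ℕ, N0 ≤ N → ∀ η : ℝ, 0 < η → ∀ᶠ Fs : Finset GhPos in atTop,
    ∀ (ell : ℝ) (γ : Fin (N + 1) → ℝ) (t : ℝ), ell ∈ Icc (1 : ℝ) ((2 : ℝ) ^ (1 / 6 : ℝ)) → t ∈ l9LamRg F N →
      |l9gW ell ((⟨F, 𝔹, 0, Fs, 0⟩ : L9I).P (l9PtL N ell γ t)) ^ 2 - (l9PtL N ell γ t).Gam1 F 𝔹 0| ≤ η

theorem l9g_eqns_cite9 : True := by
  have := @l9gW.eq_1
  have := @L9gVD.eq_1
  trivial

end Claimed.Agent.R286
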