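import Claimed.Agent.R286.Defs.Tr

/-!
# Row 286 (S0533), LL Sec. 9, node LC1: PROJECTIVITY OF THE SIGNED SUMS      (owner: helper285; names `l9p_*`, `l9In`, ..)

Pure combinatorics on `Defs/Tr` (tables with natural labels); no probability, imports `Defs/Tr` only.

* `l9In ms N q τ t x φ` : signed sum over the attachments `(y, j)` of one label INSIDE the block of depth `t` above `x` (`t ≤ τ x y`, `t ≤ j ≤ N + 1`);
* `l9p_abel`  : Abel-summed form for a node-invariant summand:
                `l9In = m_{t-1} φ t x + ∑_{l = t+1}^{N+1} m_{l-1} ∑_{nodes of depth l in the block} (φ l - φ (l-1))`;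
* `l9p_in_const` : row sum / exact collapse (PE Lemma 2.6);
* `l9p_proj`  : PROJ: if the summand sees the enlarged tree only through the labels `L 0, .., L (p-1)` and the new one,
                the signed sum may be computed in the pulled-back table `τ ∘ L`;
* `l9It ms N t xs q τ Φ` : iterated block sums (labels `q, q+1, ..` attached in the blocks of depth `t` above the anchors `xs`), `l9p_it_loc` locality;
* `l9p_ind`   : IND (C2 of 242, "the internal signed sums for different parts can be performed separately", LL 09 l.574-597, WITHOUT integers and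
                without product systems): with GHOST anchors `A < D` (one old label per block), the signed sum of `∏_P F_P (τ restricted to the part P)`
                is `∏_P (signed sum of F_P over the slots of P alone)`.   0 sorry.
  Use for (E5): `q = D`, `τ` = skeleton table on the ghosts, `p P = D`, `L P = id`, `g = id`; forgetting a ghost = `l9p_proj` / `l9p_in_const` (factor `c = trPm ms t`).
-/

set_option autoImplicit false

namespace Claimed.Agent.R286

/-! ### nodes -/

section nodes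
variable {N q : ℕ} {τ : ℕ → ℕ → ℕ}

theorem l9p_refl (hτ : IsTr N q τ) {l a : ℕ} (hl : l ≤ N + 1) (ha : a < q) : l ≤ τ a a := by
  rw [hτ.diag a ha]; exact hl

theorem l9p_symm (hτ : IsTr N q τ) {l a b : ℕ} (ha : a < q) (hb : b < q) (h : l ≤ τ a b) : l ≤ τ b a := by
  rw [hτ.symm b a hb ha]; exact h

theorem l9p_trans (hτ : IsTr N q τ) {l a b c : ℕ} (ha : a < q) (hb : b < q) (hc : c < q) (h1 : l ≤ τ a b) (h2 : l ≤ τ b c) :
    l ≤ τ a c := le_trans (le_min h1 h2) (hτ.ultra a b c ha hb hc)

/-- the least leaf of the node of depth `l` above `a` -/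
noncomputable def l9Anc (τ : ℕ → ℕ → ℕ) (l a : ℕ) : ℕ := sInf {y | l ≤ τ a y}

theorem l9p_anc_spec (hτ : IsTr N q τ) {l a : ℕ} (hl : l ≤ N + 1) (ha : a < q) :
    l9Anc τ l a < q ∧ l ≤ τ a (l9Anc τ l a) ∧ trIsMin τ l (l9Anc τ l a) := by
  have hmem : a ∈ {y | l ≤ τ a y} := l9p_refl hτ hl ha
  have h1 : l9Anc τ l a ≤ a := Nat.sInf_le hmem
  have h2 : l ≤ τ a (l9Anc τ l a) := Nat.sInf_mem (s := {y | l ≤ τ a y}) ⟨a, hmem⟩
  have hq : l9Anc τ l a < q := lt_of_le_of_lt h1 ha
  refine ⟨hq, h2, ?_⟩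
  intro y hy
  by_contra hcon
  have h3 : l ≤ τ a y := l9p_trans hτ ha hq (lt_trans hy hq) h2 (not_lt.mp hcon)
  exact Nat.notMem_of_lt_sInf hy h3

theorem l9p_min_eq_anc (hτ : IsTr N q τ) {l a c : ℕ} (ha : a < q) (hc : c < q) (hl : l ≤ N + 1)
    (h1 : trIsMin τ l a) (h2 : l ≤ τ a c) : a = l9Anc τ l c := by
  obtain ⟨b1, b2, b3⟩ := l9p_anc_spec hτ hl hc
  have hle : l9Anc τ l c ≤ a := Nat.sInf_le (show l ≤ τ c a from l9p_symm hτ ha hc h2)
  rcases lt_or_eq_of_le hle with hlt | heq
  · exfalso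
    have h3 := h1 _ hlt
    have h4 := l9p_trans hτ ha hc b1 h2 b2
    omega
  · exact heq.symm

/-- (U1) every leaf lies in exactly one node -/
theorem l9p_sum_anc (hτ : IsTr N q τ) {l c : ℕ} (hl : l ≤ N + 1) (hc : c < q) (f : ℕ → ℝ) :
    (∑ a ∈ Finset.range q, if trIsMin τ l a ∧ l ≤ τ a c then f a else 0) = f (l9Anc τ l c) := by
  obtain ⟨b1, b2, b3⟩ := l9p_anc_spec hτ hl hc
  rw [Finset.sum_eq_single (l9Anc τ l c)]
  · rw [if_pos ⟨b3, l9p_symm hτ hc b1 b2⟩]
  · intro a ha hne
    rw [if_neg]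
    rintro ⟨h1, h2⟩
    exact hne (l9p_min_eq_anc hτ (Finset.mem_range.1 ha) hc hl h1 h2)
  · intro h; exact absurd (Finset.mem_range.2 b1) h

/-- sum over the nodes of depth `l` inside the block of depth `t` above `x` -/
def l9Ns (q : ℕ) (τ : ℕ → ℕ → ℕ) (t x l : ℕ) (f : ℕ → ℝ) : ℝ :=
  ∑ a ∈ Finset.range q, if t ≤ τ x a ∧ trIsMin τ l a then f a else 0

theorem l9p_ns_top (hτ : IsTr N q τ) {t x : ℕ} (ht : t ≤ N + 1) (hx : x < q) (f : ℕ → ℝ)
    (hf : ∀ a, a < q → t ≤ τ x a → f a = f x) : l9Ns q τ t x t f = f x := by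
  unfold l9Ns
  have : ∀ a ∈ Finset.range q, (if t ≤ τ x a ∧ trIsMin τ t a then f a else 0) = if trIsMin τ t a ∧ t ≤ τ a x then f a else 0 := by
    intro a ha
    have ha := Finset.mem_range.1 ha
    by_cases h : t ≤ τ x a ∧ trIsMin τ t a
    · rw [if_pos h, if_pos ⟨h.2, l9p_symm hτ hx ha h.1⟩]
    · rw [if_neg h, if_neg (fun h' => h ⟨l9p_symm hτ ha hx h'.2, h'.1⟩)]
  rw [Finset.sum_congr rfl this, l9p_sum_anc hτ ht hx]
  obtain ⟨b1, b2, _⟩ := l9p_anc_spec hτ ht hx
  exact hf _ b1 b2

/-- children: sum over the nodes of depth `l` with the multiplicity `trDeg` = sum over the nodes of depth `l + 1` -/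
theorem l9p_ns_deg (hτ : IsTr N q τ) {t l x : ℕ} (htl : t ≤ l) (hl : l ≤ N + 1) (hx : x < q) (f : ℕ → ℝ)
    (hf : ∀ a b, a < q → b < q → l ≤ τ a b → f a = f b) :
    l9Ns q τ t x l (fun a => (trDeg q τ l a : ℝ) * f a) = l9Ns q τ t x (l + 1) f := by
  unfold l9Ns
  have h1 : ∀ a ∈ Finset.range q, (if t ≤ τ x a ∧ trIsMin τ l a then (trDeg q τ l a : ℝ) * f a else 0)
      = ∑ b ∈ Finset.range q, if t ≤ τ x b ∧ trIsMin τ (l + 1) b then (if trIsMin τ l a ∧ l ≤ τ a b then f b else 0) else 0 := by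
    intro a ha
    have ha := Finset.mem_range.1 ha
    by_cases h : t ≤ τ x a ∧ trIsMin τ l a
    · rw [if_pos h]
      unfold trDeg
      rw [Finset.card_eq_sum_ones, Nat.cast_sum, Finset.sum_mul, Finset.sum_filter]
      apply Finset.sum_congr rfl
      intro b hb
      have hb := Finset.mem_range.1 hb
      by_cases hab : l ≤ τ a b
      · have hbx : t ≤ τ x b := l9p_trans hτ hx ha hb h.1 (le_trans htl hab)
        by_cases hc : trIsMin τ (l + 1) b
        · rw [if_pos ⟨hab, hc⟩, if_pos ⟨hbx, hc⟩, if_pos ⟨h.2, hab⟩, hf a b ha hb hab]; simp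
        · rw [if_neg (fun h' => hc h'.2), if_neg (fun h' => hc h'.2)]
      · rw [if_neg (fun h' => hab h'.1)]
        by_cases hc : t ≤ τ x b ∧ trIsMin τ (l + 1) b
        · rw [if_pos hc, if_neg (fun h' => hab h'.2)]
        · rw [if_neg hc]
    · rw [if_neg h]
      symm
      apply Finset.sum_eq_zero
      intro b hb
      have hb := Finset.mem_range.1 hb
      by_cases hc : t ≤ τ x b ∧ trIsMin τ (l + 1) b
      · rw [if_pos hc, if_neg]
        rintro ⟨h1, h2⟩
        exact h ⟨l9p_trans hτ hx hb ha hc.1 (le_trans htl (l9p_symm hτ ha hb h2)), h1⟩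
      · rw [if_neg hc]
  rw [Finset.sum_congr rfl h1, Finset.sum_comm]
  apply Finset.sum_congr rfl
  intro b hb
  have hb := Finset.mem_range.1 hb
  by_cases hc : t ≤ τ x b ∧ trIsMin τ (l + 1) b
  · simp only [if_pos hc]
    rw [l9p_sum_anc hτ hl hb (fun _ => f b)]
  · simp only [if_neg hc]
    simp

end nodes

/-! ### block sums and their Abel-summed form -/

/-- signed sum over the attachments `(y, j)` of one label inside the block of depth `t` above `x`; the summand is `φ j y` -/
def l9In (ms : ℕ → ℝ) (N q : ℕ) (τ : ℕ → ℕ → ℕ) (t x : ℕ) (φ : ℕ → ℕ → ℝ) : ℝ :=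
  ∑ y ∈ (Finset.range q).filter (fun y => t ≤ τ x y), ∑ j ∈ Finset.Icc t (N + 1), trWt ms N q τ y j * φ j y

/-- incoming masses, `0` beyond the coincidences -/
def l9M (ms : ℕ → ℝ) (N l : ℕ) : ℝ := if l ≤ N + 1 then trPm ms l else 0

theorem l9p_wt (ms : ℕ → ℝ) (N q : ℕ) (τ : ℕ → ℕ → ℕ) (y : ℕ) {j : ℕ} (hj : j ≤ N + 1) :
    trWt ms N q τ y j = if trIsMin τ j y then l9M ms N j - trDeg q τ j y * l9M ms N (j + 1) else 0 := by
  unfold trWt
  by_cases h : trIsMin τ j y
  · rw [if_pos h, if_pos h]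
    by_cases hN : j = N + 1
    · subst hN
      rw [if_pos rfl]
      simp [l9M, trPm]
    · rw [if_neg hN]
      have h1 : j + 1 ≤ N + 1 := by omega
      simp [l9M, trPm, hj, h1]
  · rw [if_neg h, if_neg h]

theorem l9p_tele (A B : ℕ → ℝ) (t n : ℕ) (h : t ≤ n) :
    ∑ l ∈ Finset.Icc t n, (A l - B (l + 1)) = A t + ∑ l ∈ Finset.Icc (t + 1) n, (A l - B l) - B (n + 1) := by
  induction n, h using Nat.le_induction with
  | base => simp
  | succ n hn ih =>
    rw [Finset.sum_Icc_succ_top (by omega), ih, Finset.sum_Icc_succ_top (by omega)]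
    ring

section abel
variable {N q : ℕ} {τ : ℕ → ℕ → ℕ}

/-- **Abel-summed form** of the signed block sum of a node-invariant summand -/
theorem l9p_abel (hτ : IsTr N q τ) (ms : ℕ → ℝ) {t x : ℕ} (ht : t ≤ N + 1) (hx : x < q) (φ : ℕ → ℕ → ℝ)
    (hφ : ∀ l a b, l ≤ N + 1 → a < q → b < q → l ≤ τ a b → φ l a = φ l b) :
    l9In ms N q τ t x φ = l9M ms N t * φ t x
      + ∑ l ∈ Finset.Icc (t + 1) (N + 1), l9M ms N l * l9Ns q τ t x l (fun a => φ l a - φ (l - 1) a) := by
  have h1 : l9In ms N q τ t x φ = ∑ l ∈ Finset.Icc t (N + 1),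
      ((fun l => l9M ms N l * l9Ns q τ t x l (φ l)) l - (fun l => l9M ms N l * l9Ns q τ t x l (φ (l - 1))) (l + 1)) := by
    unfold l9In
    rw [Finset.sum_comm]
    apply Finset.sum_congr rfl
    intro l hl
    have htl : t ≤ l := (Finset.mem_Icc.1 hl).1
    have hlN : l ≤ N + 1 := (Finset.mem_Icc.1 hl).2
    simp only [Nat.add_sub_cancel]
    rw [← l9p_ns_deg hτ htl hlN hx (φ l) (fun a b ha hb h => hφ l a b hlN ha hb h)]
    unfold l9Ns
    rw [Finset.mul_sum, Finset.mul_sum, ← Finset.sum_sub_distrib, Finset.sum_filter]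
    apply Finset.sum_congr rfl
    intro a _
    rw [l9p_wt ms N q τ a hlN]
    by_cases hb : t ≤ τ x a
    · rw [if_pos hb]
      by_cases hc : trIsMin τ l a
      · rw [if_pos hc, if_pos ⟨hb, hc⟩, if_pos ⟨hb, hc⟩]; ring
      · rw [if_neg hc, if_neg (fun h => hc h.2), if_neg (fun h => hc h.2)]; ring
    · rw [if_neg hb, if_neg (fun h => hb h.1), if_neg (fun h => hb h.1)]; ring
  rw [h1, l9p_tele (fun l => l9M ms N l * l9Ns q τ t x l (φ l)) (fun l => l9M ms N l * l9Ns q τ t x l (φ (l - 1))) t (N + 1) ht]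
  have hM : l9M ms N (N + 1 + 1) = 0 := by simp [l9M]
  rw [hM, zero_mul, sub_zero, l9p_ns_top hτ ht hx (φ t) (fun a ha h => (hφ t x a ht hx ha h).symm)]
  congr 1
  apply Finset.sum_congr rfl
  intro l _
  rw [← mul_sub]
  congr 1
  unfold l9Ns
  rw [← Finset.sum_sub_distrib]
  apply Finset.sum_congr rfl
  intro a _
  by_cases hc : t ≤ τ x a ∧ trIsMin τ l a
  · simp only [if_pos hc]
  · simp only [if_neg hc]; ring

theorem l9p_in_congr (ms : ℕ → ℝ) (N q : ℕ) (τ : ℕ → ℕ → ℕ) (t x : ℕ) {φ φ' : ℕ → ℕ → ℝ}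
    (h : ∀ j y, t ≤ j → j ≤ N + 1 → y < q → t ≤ τ x y → φ j y = φ' j y) :
    l9In ms N q τ t x φ = l9In ms N q τ t x φ' := by
  unfold l9In
  apply Finset.sum_congr rfl
  intro y hy
  apply Finset.sum_congr rfl
  intro j hj
  rw [Finset.mem_filter, Finset.mem_range] at hy
  rw [Finset.mem_Icc] at hj
  rw [h j y hj.1 hj.2 hy.1 hy.2]

/-- a summand which does not depend on the attachment: **row sum / exact collapse** (PE Lemma 2.6) -/
theorem l9p_in_const (hτ : IsTr N q τ) (ms : ℕ → ℝ) {t x : ℕ} (ht : t ≤ N + 1) (hx : x < q) (φ : ℕ → ℕ → ℝ) (v : ℝ)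
    (hφ : ∀ j y, t ≤ j → j ≤ N + 1 → y < q → t ≤ τ x y → φ j y = v) :
    l9In ms N q τ t x φ = trPm ms t * v := by
  rw [l9p_in_congr ms N q τ t x (φ' := fun _ _ => v) hφ, l9p_abel hτ ms ht hx _ (fun _ _ _ _ _ _ _ => rfl)]
  simp [l9Ns, l9M, ht]

/-- the block sum depends only on the block of its anchor -/
theorem l9p_in_anchor (hτ : IsTr N q τ) (ms : ℕ → ℝ) {t x x' : ℕ} (hx : x < q) (hx' : x' < q) (h : t ≤ τ x x') (φ : ℕ → ℕ → ℝ) :
    l9In ms N q τ t x' φ = l9In ms N q τ t x φ := by
  unfold l9In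
  congr 1
  ext y
  simp only [Finset.mem_filter, Finset.mem_range]
  constructor
  · rintro ⟨hy, h1⟩; exact ⟨hy, l9p_trans hτ hx hx' hy h h1⟩
  · rintro ⟨hy, h1⟩; exact ⟨hy, l9p_trans hτ hx' hx hy (l9p_symm hτ hx hx' h) h1⟩

end abel

/-! ### pull-back along a map of labels -/

/-- the table pulled back along the map of labels `L` -/
def l9Pb (τ : ℕ → ℕ → ℕ) (L : ℕ → ℕ) : ℕ → ℕ → ℕ := fun i k => τ (L i) (L k)

/-- the map of labels extended to the new label: `p ↦ q` -/
def l9Up (L : ℕ → ℕ) (p q : ℕ) : ℕ → ℕ := fun i => if i = p then q else L i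

/-- a function of tables which sees the labels `< n` only -/
def L9Loc (n : ℕ) (Ψ : (ℕ → ℕ → ℕ) → ℝ) : Prop :=
  ∀ τ₁ τ₂ : ℕ → ℕ → ℕ, (∀ y z, y < n → z < n → τ₁ y z = τ₂ y z) → Ψ τ₁ = Ψ τ₂

/-- `L` maps the labels `< p` injectively to labels `< q` -/
structure L9Emb (p q : ℕ) (L : ℕ → ℕ) : Prop where
  lt : ∀ i, i < p → L i < q
  inj : ∀ i k, i < p → k < p → L i = L k → i = k

section proj
variable {N q p : ℕ} {τ : ℕ → ℕ → ℕ} {L : ℕ → ℕ}

theorem l9p_pb_isTr (hτ : IsTr N q τ) (hL : L9Emb p q L) : IsTr N p (l9Pb τ L) where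
  le := fun x y hx hy => hτ.le _ _ (hL.lt x hx) (hL.lt y hy)
  diag := fun x hx => hτ.diag _ (hL.lt x hx)
  symm := fun x y hx hy => hτ.symm _ _ (hL.lt x hx) (hL.lt y hy)
  ultra := fun x y z hx hy hz => hτ.ultra _ _ _ (hL.lt x hx) (hL.lt y hy) (hL.lt z hz)

theorem l9p_up_emb (hL : L9Emb p q L) : L9Emb (p + 1) (q + 1) (l9Up L p q) where
  lt := by
    intro i hi
    unfold l9Up
    by_cases h : i = p
    · rw [if_pos h]; omega
    · rw [if_neg h]; exact lt_trans (hL.lt i (by omega)) (Nat.lt_succ_self q)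
  inj := by
    intro i k hi hk h
    unfold l9Up at h
    by_cases h1 : i = p
    · by_cases h2 : k = p
      · rw [h1, h2]
      · rw [if_pos h1, if_neg h2] at h
        have := hL.lt k (by omega)
        omega
    · by_cases h2 : k = p
      · rw [if_neg h1, if_pos h2] at h
        have := hL.lt i (by omega)
        omega
      · rw [if_neg h1, if_neg h2] at h
        exact hL.inj i k (by omega) (by omega) h

/-- the enlarged table depends only on the node -/
theorem l9p_att_congr (hτ : IsTr N q τ) {l a b : ℕ} (ha : a < q) (hb : b < q) (h : l ≤ τ a b) {y z : ℕ}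
    (hy : y < q + 1) (hz : z < q + 1) : trAtt N q τ a l y z = trAtt N q τ b l y z := by
  unfold trAtt
  by_cases h1 : y = q
  · rw [if_pos h1, if_pos h1]
    by_cases h2 : z = q
    · rw [if_pos h2, if_pos h2]
    · rw [if_neg h2, if_neg h2]
      have hz' : z < q := by omega
      have u1 := hτ.ultra a b z ha hb hz'
      have u2 := hτ.ultra b a z hb ha hz'
      rw [hτ.symm b a hb ha] at u2
      omega
  · rw [if_neg h1, if_neg h1]
    by_cases h2 : z = q
    · rw [if_pos h2, if_pos h2]
      have hy' : y < q := by omega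
      have u1 := hτ.ultra y a b hy' ha hb
      have u2 := hτ.ultra y b a hy' hb ha
      rw [hτ.symm b a hb ha] at u2
      omega
    · rw [if_neg h2, if_neg h2]

/-- restriction of an attachment at a retained label -/
theorem l9p_att_pb (hL : L9Emb p q L) (l b : ℕ) {i k : ℕ} (hi : i < p + 1) (hk : k < p + 1) :
    l9Pb (trAtt N q τ (L b) l) (l9Up L p q) i k = trAtt N p (l9Pb τ L) b l i k := by
  unfold l9Pb l9Up trAtt
  by_cases h1 : i = p
  · by_cases h2 : k = p
    · simp [h1, h2]
    · have := hL.lt k (by omega)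
      have h3 : L k ≠ q := by omega
      simp [h1, h2, h3]
  · have := hL.lt i (by omega)
    have h3 : L i ≠ q := by omega
    by_cases h2 : k = p
    · simp [h1, h2, h3]
    · have := hL.lt k (by omega)
      have h4 : L k ≠ q := by omega
      simp [h1, h2, h3, h4]

/-- a node without retained labels: the depth of the attachment can be lowered -/
theorem l9p_att_pb_lower (hτ : IsTr N q τ) (hL : L9Emb p q L) {l a : ℕ} (ha : a < q) (h : ∀ d, d < p → τ a (L d) < l) {i k : ℕ}
    (hi : i < p + 1) (hk : k < p + 1) :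
    l9Pb (trAtt N q τ a l) (l9Up L p q) i k = l9Pb (trAtt N q τ a (l - 1)) (l9Up L p q) i k := by
  unfold l9Pb l9Up trAtt
  by_cases h1 : i = p
  · by_cases h2 : k = p
    · simp [h1, h2]
    · have := hL.lt k (by omega)
      have h3 : L k ≠ q := by omega
      have h4 := h k (by omega)
      simp only [h1, h2, h3, if_true, if_false]
      omega
  · have h0 := hL.lt i (by omega)
    have h3 : L i ≠ q := by omega
    by_cases h2 : k = p
    · have h4 := h i (by omega)
      rw [hτ.symm a (L i) ha h0] at h4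
      simp only [h1, h2, h3, if_true, if_false]
      omega
    · have := hL.lt k (by omega)
      have h4 : L k ≠ q := by omega
      simp [h1, h2, h3, h4]

/-- forgetting the new label -/
theorem l9p_att_old (N q : ℕ) (τ : ℕ → ℕ → ℕ) (x j : ℕ) {y z : ℕ} (hy : y < q) (hz : z < q) : trAtt N q τ x j y z = τ y z := by
  unfold trAtt
  rw [if_neg (by omega), if_neg (by omega)]

/-- sums over nodes: a node-invariant summand which vanishes on the nodes without retained labels -/
theorem l9p_ns_pb (hτ : IsTr N q τ) (hL : L9Emb p q L) {t l y : ℕ} (htl : t ≤ l) (hl : l ≤ N + 1) (hy : y < p) (D : ℕ → ℝ)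
    (hD : ∀ a b, a < q → b < q → l ≤ τ a b → D a = D b)
    (h0 : ∀ a, a < q → (∀ d, d < p → τ a (L d) < l) → D a = 0) :
    l9Ns q τ t (L y) l D = l9Ns p (l9Pb τ L) t y l (fun b => D (L b)) := by
  have hσ := l9p_pb_isTr hτ hL
  unfold l9Ns
  have h1 : ∀ a ∈ Finset.range q, (if t ≤ τ (L y) a ∧ trIsMin τ l a then D a else 0)
      = ∑ b ∈ Finset.range p, if t ≤ l9Pb τ L y b ∧ trIsMin (l9Pb τ L) l b then
          (if trIsMin τ l a ∧ l ≤ τ a (L b) then D (L b) else 0) else 0 := by
    intro a ha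
    have ha := Finset.mem_range.1 ha
    by_cases h : t ≤ τ (L y) a ∧ trIsMin τ l a
    · rw [if_pos h]
      by_cases hex : ∃ b0, b0 < p ∧ l ≤ τ a (L b0)
      · obtain ⟨b0, hb0p, hb0⟩ := hex
        have h2 : ∀ b ∈ Finset.range p, (if t ≤ l9Pb τ L y b ∧ trIsMin (l9Pb τ L) l b then
            (if trIsMin τ l a ∧ l ≤ τ a (L b) then D (L b) else 0) else 0)
            = if trIsMin (l9Pb τ L) l b ∧ l ≤ l9Pb τ L b b0 then D (L b) else 0 := by
          intro b hb
          have hb := Finset.mem_range.1 hb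
          by_cases hab : l ≤ τ a (L b)
          · have hb1 : l ≤ l9Pb τ L b b0 :=
              l9p_trans hτ (hL.lt b hb) ha (hL.lt b0 hb0p) (l9p_symm hτ ha (hL.lt b hb) hab) hb0
            have hb2 : t ≤ l9Pb τ L y b := l9p_trans hτ (hL.lt y hy) ha (hL.lt b hb) h.1 (le_trans htl hab)
            by_cases hc : trIsMin (l9Pb τ L) l b
            · rw [if_pos ⟨hb2, hc⟩, if_pos ⟨h.2, hab⟩, if_pos ⟨hc, hb1⟩]
            · rw [if_neg (fun h' => hc h'.2), if_neg (fun h' => hc h'.1)]
          · have hb1 : ¬ l ≤ l9Pb τ L b b0 := by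
              intro h'
              exact hab (l9p_trans hτ ha (hL.lt b0 hb0p) (hL.lt b hb) hb0 (l9p_symm hτ (hL.lt b hb) (hL.lt b0 hb0p) h'))
            have hR : (if trIsMin (l9Pb τ L) l b ∧ l ≤ l9Pb τ L b b0 then D (L b) else 0) = 0 := if_neg (fun h' => hb1 h'.2)
            rw [hR]
            by_cases hc : t ≤ l9Pb τ L y b ∧ trIsMin (l9Pb τ L) l b
            · rw [if_pos hc, if_neg (fun h' => hab h'.2)]
            · rw [if_neg hc]
        rw [Finset.sum_congr rfl h2, l9p_sum_anc hσ hl hb0p (fun b => D (L b))]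
        obtain ⟨c1, c2, _⟩ := l9p_anc_spec hσ hl hb0p
        exact hD _ _ ha (hL.lt _ c1) (l9p_trans hτ ha (hL.lt b0 hb0p) (hL.lt _ c1) hb0 c2)
      · have hex' : ∀ d, d < p → τ a (L d) < l := fun d hd => not_le.1 (fun h' => hex ⟨d, hd, h'⟩)
        rw [h0 a ha hex']
        symm
        apply Finset.sum_eq_zero
        intro b hb
        have hb := Finset.mem_range.1 hb
        by_cases hc : t ≤ l9Pb τ L y b ∧ trIsMin (l9Pb τ L) l b
        · rw [if_pos hc, if_neg (fun h' => absurd h'.2 (not_le.2 (hex' b hb)))]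
        · rw [if_neg hc]
    · rw [if_neg h]
      symm
      apply Finset.sum_eq_zero
      intro b hb
      have hb := Finset.mem_range.1 hb
      by_cases hc : t ≤ l9Pb τ L y b ∧ trIsMin (l9Pb τ L) l b
      · rw [if_pos hc, if_neg]
        rintro ⟨h1, h2⟩
        exact h ⟨l9p_trans hτ (hL.lt y hy) (hL.lt b hb) ha hc.1 (le_trans htl (l9p_symm hτ ha (hL.lt b hb) h2)), h1⟩
      · rw [if_neg hc]
  rw [Finset.sum_congr rfl h1, Finset.sum_comm]
  apply Finset.sum_congr rfl
  intro b hb
  have hb := Finset.mem_range.1 hb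
  by_cases hc : t ≤ l9Pb τ L y b ∧ trIsMin (l9Pb τ L) l b
  · simp only [if_pos hc]
    rw [l9p_sum_anc hτ hl (hL.lt b hb) (fun _ => D (L b))]
  · simp only [if_neg hc]
    simp

/-- **PROJ**: a summand which sees the enlarged table only through the retained labels `L 0, .., L (p-1)` and the new label:
the signed sum inside the block of a retained label may be computed in the pulled-back table. -/
theorem l9p_proj (hτ : IsTr N q τ) (hL : L9Emb p q L) (ms : ℕ → ℝ) {t A : ℕ} (ht : t ≤ N + 1) (hA : A < p)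
    (Ψ : (ℕ → ℕ → ℕ) → ℝ) (hΨ : L9Loc (p + 1) Ψ) :
    l9In ms N q τ t (L A) (fun j y => Ψ (l9Pb (trAtt N q τ y j) (l9Up L p q)))
      = l9In ms N p (l9Pb τ L) t A (fun j b => Ψ (trAtt N p (l9Pb τ L) b j)) := by
  have hσ := l9p_pb_isTr hτ hL
  have hU := l9p_up_emb hL
  have hinv : ∀ l a b, a < q → b < q → l ≤ τ a b →
      Ψ (l9Pb (trAtt N q τ a l) (l9Up L p q)) = Ψ (l9Pb (trAtt N q τ b l) (l9Up L p q)) := by
    intro l a b ha hb h
    apply hΨ
    intro i k hi hk
    exact l9p_att_congr hτ ha hb h (hU.lt i hi) (hU.lt k hk)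
  have hret : ∀ l b, Ψ (l9Pb (trAtt N q τ (L b) l) (l9Up L p q)) = Ψ (trAtt N p (l9Pb τ L) b l) := by
    intro l b
    apply hΨ
    intro i k hi hk
    exact l9p_att_pb hL l b hi hk
  rw [l9p_abel hτ ms ht (hL.lt A hA) _ (fun l a b _ ha hb h => hinv l a b ha hb h),
    l9p_abel hσ ms ht hA _ (fun l a b _ ha hb h => by
      apply hΨ
      intro i k hi hk
      exact l9p_att_congr hσ ha hb h hi hk), hret]
  congr 1
  apply Finset.sum_congr rfl
  intro l hl
  have htl : t ≤ l := le_trans (Nat.le_succ t) (Finset.mem_Icc.1 hl).1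
  have hlN : l ≤ N + 1 := (Finset.mem_Icc.1 hl).2
  congr 1
  rw [l9p_ns_pb hτ hL htl hlN hA]
  · congr 1
    funext b
    rw [hret, hret]
  · intro a b ha hb h
    rw [hinv l a b ha hb h, hinv (l - 1) a b ha hb (le_trans (Nat.sub_le l 1) h)]
  · intro a ha h
    rw [sub_eq_zero]
    apply hΨ
    intro i k hi hk
    exact l9p_att_pb_lower hτ hL ha h hi hk

end proj

/-! ### iterated block sums -/

/-- the enlarged table is a tree -/
theorem l9p_att_isTr {N q : ℕ} {τ : ℕ → ℕ → ℕ} (hτ : IsTr N q τ) {x j : ℕ} (hx : x < q) (hj : j ≤ N + 1) :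
    IsTr N (q + 1) (trAtt N q τ x j) where
  le := by
    intro y z hy hz
    unfold trAtt
    by_cases h1 : y = q
    · by_cases h2 : z = q
      · simp [h1, h2]
      · simp only [h1, h2, if_true, if_false]; omega
    · by_cases h2 : z = q
      · simp only [h1, h2, if_true, if_false]; omega
      · simp only [h1, h2, if_false]; exact hτ.le y z (by omega) (by omega)
  diag := by
    intro y hy
    unfold trAtt
    by_cases h1 : y = q
    · simp [h1]
    · simp only [h1, if_false]; exact hτ.diag y (by omega)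
  symm := by
    intro y z hy hz
    unfold trAtt
    by_cases h1 : y = q
    · by_cases h2 : z = q
      · simp [h1, h2]
      · simp only [h1, h2, if_true, if_false]; rw [hτ.symm x z hx (by omega)]
    · by_cases h2 : z = q
      · simp only [h1, h2, if_true, if_false]; rw [hτ.symm y x (by omega) hx]
      · simp only [h1, h2, if_false]; exact hτ.symm y z (by omega) (by omega)
  ultra := by
    intro y z w hy hz hw
    unfold trAtt
    by_cases h1 : y = q <;> by_cases h2 : z = q <;> by_cases h3 : w = q <;>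
      simp only [h1, h2, h3, if_true, if_false]
    · omega
    · omega
    · have := hτ.le x z hx (by omega)
      omega
    · have u := hτ.ultra x z w hx (by omega) (by omega)
      omega
    · omega
    · have u := hτ.ultra y x w (by omega) hx (by omega)
      omega
    · have u := hτ.ultra y z x (by omega) (by omega) hx
      omega
    · exact hτ.ultra y z w (by omega) (by omega) (by omega)

/-- iterated block sums: the labels `q, q + 1, ..` are attached successively, the `i`-th one inside the block of depth `t` above the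
(old) label `xs[i]` -/
def l9It (ms : ℕ → ℝ) (N t : ℕ) : List ℕ → ℕ → (ℕ → ℕ → ℕ) → ((ℕ → ℕ → ℕ) → ℝ) → ℝ
  | [], _, τ, Φ => Φ τ
  | x :: xs, q, τ, Φ => l9In ms N q τ t x fun j y => l9It ms N t xs (q + 1) (trAtt N q τ y j) Φ

theorem l9p_isMin_loc {q : ℕ} {τ τ' : ℕ → ℕ → ℕ} (h : ∀ y z, y < q → z < q → τ y z = τ' y z) (j : ℕ) {x : ℕ} (hx : x < q) :
    trIsMin τ j x ↔ trIsMin τ' j x := by
  unfold trIsMin
  constructor
  · intro h1 y hy; rw [← h x y hx (by omega)]; exact h1 y hy
  · intro h1 y hy; rw [h x y hx (by omega)]; exact h1 y hy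

theorem l9p_wt_loc (ms : ℕ → ℝ) (N : ℕ) {q : ℕ} {τ τ' : ℕ → ℕ → ℕ} (h : ∀ y z, y < q → z < q → τ y z = τ' y z) (j : ℕ) {x : ℕ}
    (hx : x < q) : trWt ms N q τ x j = trWt ms N q τ' x j := by
  unfold trWt
  have h1 : trDeg q τ j x = trDeg q τ' j x := by
    unfold trDeg
    congr 1
    apply Finset.filter_congr
    intro y hy
    have hy := Finset.mem_range.1 hy
    rw [h x y hx hy, l9p_isMin_loc h (j + 1) hy]
  simp only [l9p_isMin_loc h j hx, h1]

theorem l9p_att_loc (N : ℕ) {q : ℕ} {τ τ' : ℕ → ℕ → ℕ} (h : ∀ y z, y < q → z < q → τ y z = τ' y z) (j : ℕ) {x : ℕ}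
    (hx : x < q) {y z : ℕ} (hy : y < q + 1) (hz : z < q + 1) : trAtt N q τ x j y z = trAtt N q τ' x j y z := by
  unfold trAtt
  by_cases h1 : y = q
  · by_cases h2 : z = q
    · simp [h1, h2]
    · simp only [h1, h2, if_true, if_false]; rw [h x z hx (by omega)]
  · by_cases h2 : z = q
    · simp only [h1, h2, if_true, if_false]; rw [h y x (by omega) hx]
    · simp only [h1, h2, if_false]; exact h y z (by omega) (by omega)

theorem l9p_in_loc (ms : ℕ → ℝ) (N : ℕ) {q : ℕ} {τ τ' : ℕ → ℕ → ℕ} (h : ∀ y z, y < q → z < q → τ y z = τ' y z) (t : ℕ) {x : ℕ}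
    (hx : x < q) {φ φ' : ℕ → ℕ → ℝ} (hφ : ∀ j y, t ≤ j → j ≤ N + 1 → y < q → t ≤ τ x y → φ j y = φ' j y) :
    l9In ms N q τ t x φ = l9In ms N q τ' t x φ' := by
  rw [l9p_in_congr ms N q τ t x hφ]
  unfold l9In
  have h1 : (Finset.range q).filter (fun y => t ≤ τ x y) = (Finset.range q).filter (fun y => t ≤ τ' x y) := by
    apply Finset.filter_congr
    intro y hy
    rw [h x y hx (Finset.mem_range.1 hy)]
  rw [h1]
  apply Finset.sum_congr rfl
  intro y hy
  apply Finset.sum_congr rfl
  intro j _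
  rw [l9p_wt_loc ms N h j (Finset.mem_range.1 (Finset.mem_filter.1 hy).1)]

/-- locality of the iterated sums -/
theorem l9p_it_loc (ms : ℕ → ℝ) (N t : ℕ) (xs : List ℕ) : ∀ (q : ℕ) (τ τ' : ℕ → ℕ → ℕ) (Φ : (ℕ → ℕ → ℕ) → ℝ),
    (∀ y z, y < q → z < q → τ y z = τ' y z) → (∀ x ∈ xs, x < q) → L9Loc (q + xs.length) Φ →
    l9It ms N t xs q τ Φ = l9It ms N t xs q τ' Φ := by
  induction xs with
  | nil =>
    intro q τ τ' Φ h _ hΦ
    exact hΦ τ τ' (by simpa using h)
  | cons x xs ih =>
    intro q τ τ' Φ h hxs hΦ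
    unfold l9It
    apply l9p_in_loc ms N h t (hxs x (by simp))
    intro j y _ _ hy _
    apply ih (q + 1)
    · intro y' z' hy' hz'
      exact l9p_att_loc N h j hy hy' hz'
    · intro x' hx'
      exact lt_trans (hxs x' (by simp [hx'])) (Nat.lt_succ_self q)
    · have : q + 1 + xs.length = q + (x :: xs).length := by simp; omega
      rw [this]; exact hΦ

theorem l9p_in_mul_const (ms : ℕ → ℝ) (N q : ℕ) (τ : ℕ → ℕ → ℕ) (t x : ℕ) (φ : ℕ → ℕ → ℝ) (C : ℝ) :
    l9In ms N q τ t x (fun j y => φ j y * C) = l9In ms N q τ t x φ * C := by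
  unfold l9In
  rw [Finset.sum_mul]
  apply Finset.sum_congr rfl
  intro y _
  rw [Finset.sum_mul]
  apply Finset.sum_congr rfl
  intro j _
  ring

/-! ### IND: the restrictions of the signed measure to disjoint sets of labels are independent -/

section ind
variable {κ : Type} [Fintype κ] [DecidableEq κ]

/-- final positions of the labels of the parts.  A slot `e = (P, A)` belongs to the part `P` and is attached in the block of the anchor `A`;
`p P` = number of labels of the part `P` already placed, `L P` = their positions, `q` = total number of labels already placed. -/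
def l9Pos : List (κ × ℕ) → ℕ → (κ → ℕ) → (κ → ℕ → ℕ) → κ → ℕ → ℕ
  | [], _, _, L => L
  | e :: sl, q, p, L => l9Pos sl (q + 1) (Function.update p e.1 (p e.1 + 1)) (Function.update L e.1 (l9Up (L e.1) (p e.1) q))

/-- **IND**.  `D` anchors (local indices `A < D` in every part, common position `g A`); the slots `sl` are attached successively in the blocks of
depth `t` of their anchors.  If the summand is a product over the parts of functions of the table restricted to the labels of the part,
the signed sum factorises: each part may be summed alone, in its own restricted table. -/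
theorem l9p_ind (ms : ℕ → ℝ) {N t : ℕ} (ht : t ≤ N + 1) (D : ℕ) (g : ℕ → ℕ) (sl : List (κ × ℕ)) :
    ∀ (q : ℕ) (τ : ℕ → ℕ → ℕ) (p : κ → ℕ) (L : κ → ℕ → ℕ) (F : κ → (ℕ → ℕ → ℕ) → ℝ),
      IsTr N q τ → (∀ P, L9Emb (p P) q (L P)) → (∀ P A, A < D → A < p P ∧ L P A = g A) → (∀ e ∈ sl, e.2 < D) →
      (∀ P, L9Loc (p P + (sl.filter fun e => e.1 = P).length) (F P)) →
      l9It ms N t (sl.map fun e => g e.2) q τ (fun τ' => ∏ P, F P (l9Pb τ' (l9Pos sl q p L P)))
        = ∏ P, l9It ms N t ((sl.filter fun e => e.1 = P).map Prod.snd) (p P) (l9Pb τ (L P)) (F P) := by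
  induction sl with
  | nil =>
    intro q τ p L F _ _ _ _ _
    simp [l9It, l9Pos]
  | cons e sl ih =>
    intro q τ p L F hτ hL hg hsl hF
    obtain ⟨P0, A⟩ := e
    have hA : A < D := hsl (P0, A) (by simp)
    have hsl' : ∀ e ∈ sl, e.2 < D := fun e he => hsl e (by simp [he])
    -- the anchors of a part are old labels of the part
    have hanc : ∀ P, ∀ x ∈ (sl.filter fun e => e.1 = P).map Prod.snd, x < p P := by
      intro P x hx
      rw [List.mem_map] at hx
      obtain ⟨e, he, rfl⟩ := hx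
      exact (hg P e.2 (hsl' e (List.mem_filter.1 he).1)).1
    set p' := Function.update p P0 (p P0 + 1) with hp'
    set L' := Function.update L P0 (l9Up (L P0) (p P0) q) with hL'
    set Ψ₁ : (ℕ → ℕ → ℕ) → ℝ := fun σ => l9It ms N t ((sl.filter fun e => e.1 = P0).map Prod.snd) (p P0 + 1) σ (F P0) with hΨ₁
    set C : ℝ := ∏ P ∈ Finset.univ.erase P0, l9It ms N t ((sl.filter fun e => e.1 = P).map Prod.snd) (p P) (l9Pb τ (L P)) (F P) with hC
    have hlen0 : p P0 + 1 + (sl.filter fun e => e.1 = P0).length = p P0 + (((P0, A) :: sl).filter fun e => e.1 = P0).length := by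
      simp; omega
    have hΨloc : L9Loc (p P0 + 1) Ψ₁ := by
      intro σ₁ σ₂ h
      apply l9p_it_loc ms N t _ (p P0 + 1) σ₁ σ₂ (F P0) h
      · intro x hx; exact lt_trans (hanc P0 x hx) (Nat.lt_succ_self _)
      · rw [List.length_map, hlen0]; exact hF P0
    have hstep : ∀ j y, t ≤ j → j ≤ N + 1 → y < q → t ≤ τ (g A) y →
        l9It ms N t (sl.map fun e => g e.2) (q + 1) (trAtt N q τ y j) (fun τ' => ∏ P, F P (l9Pb τ' (l9Pos sl (q + 1) p' L' P)))
          = Ψ₁ (l9Pb (trAtt N q τ y j) (l9Up (L P0) (p P0) q)) * C := by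
      intro j y _ hj hy _
      rw [ih (q + 1) (trAtt N q τ y j) p' L' F (l9p_att_isTr hτ hy hj)]
      · rw [← Finset.mul_prod_erase Finset.univ _ (Finset.mem_univ P0)]
        congr 1
        · simp [hp', hL', hΨ₁]
        · apply Finset.prod_congr rfl
          intro P hP
          have hne : P ≠ P0 := (Finset.mem_erase.1 hP).1
          simp only [hp', hL', Function.update_of_ne hne]
          apply l9p_it_loc ms N t _ (p P)
          · intro i k hi hk
            exact l9p_att_old N q τ y j ((hL P).lt i hi) ((hL P).lt k hk)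
          · exact hanc P
          · rw [List.length_map]
            have := hF P
            rw [List.filter_cons_of_neg (by simpa using fun h : P0 = P => hne h.symm)] at this
            exact this
      · intro P
        by_cases hP : P = P0
        · subst hP
          simp only [hp', hL', Function.update_self]
          exact l9p_up_emb (hL P)
        · simp only [hp', hL', Function.update_of_ne hP]
          exact ⟨fun i hi => lt_trans ((hL P).lt i hi) (Nat.lt_succ_self q), (hL P).inj⟩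
      · intro P A' hA'
        by_cases hP : P = P0
        · subst hP
          simp only [hp', hL', Function.update_self]
          have h1 := hg P A' hA'
          refine ⟨lt_trans h1.1 (Nat.lt_succ_self _), ?_⟩
          unfold l9Up
          rw [if_neg (by omega)]
          exact h1.2
        · simp only [hp', hL', Function.update_of_ne hP]
          exact hg P A' hA'
      · exact hsl'
      · intro P
        by_cases hP : P = P0
        · subst hP
          simp only [hp', Function.update_self]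
          rw [hlen0]; exact hF P
        · simp only [hp', Function.update_of_ne hP]
          have := hF P
          rw [List.filter_cons_of_neg (by simpa using fun h : P0 = P => hP h.symm)] at this
          exact this
    have hLHS : l9It ms N t (((P0, A) :: sl).map fun e => g e.2) q τ
        (fun τ' => ∏ P, F P (l9Pb τ' (l9Pos ((P0, A) :: sl) q p L P)))
        = l9In ms N q τ t (g A) (fun j y => Ψ₁ (l9Pb (trAtt N q τ y j) (l9Up (L P0) (p P0) q)) * C) := by
      simp only [List.map_cons, l9It, l9Pos]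
      exact l9p_in_congr ms N q τ t (g A) hstep
    rw [hLHS, l9p_in_mul_const, ← (hg P0 A hA).2, l9p_proj hτ (hL P0) ms ht (hg P0 A hA).1 Ψ₁ hΨloc,
      ← Finset.mul_prod_erase Finset.univ _ (Finset.mem_univ P0)]
    congr 1
    · simp [l9It, hΨ₁]
    · apply Finset.prod_congr rfl
      intro P hP
      have hne : P ≠ P0 := (Finset.mem_erase.1 hP).1
      rw [List.filter_cons_of_neg (by simpa using fun h : P0 = P => hne h.symm)]

end ind

end Claimed.Agent.R286
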