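import Claimed.Agent.R286.L09.RedProb

/-!
# Row 286 (S0533), LL Sec. 9, node RED: THE CHAIN OF CUTS      (owner helper282; prefix `l9r`)

TEX[LL:exp:prop-low-coefficients] l.455-492 "Reduction to Proposition (low coefficients)".
* `l9r_regroup`  : `∑_τ H τ Φ(τ ∧ c) = ∑_sk B_c(sk) Φ(sk)` ("This is a rearrangement of a signed measure").
* `l9r_B_coarse` : `B_{c'}(sk') = ∑_{sk over sk'} B_c(sk)`.
* `l9r_first`    : first projection, bounded coefficient densities: cost `(∑_τ |H τ|) * l9rBd`.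
* `l9r_step`     : step `c → c'`: "first sum the coefficients at `c`": cost `l9rTV(c) * l9rBd`.
* `l9r_chain`    : the telescoping sum along `cs 0 ≥ cs 1 ≥ .. ≥ cs M`.
* `l9r_main`     : both ensembles: `|d[H; ∏ Δ]| ≤ 2 (first + steps) + |d[B_{c_M}; ∏ Δ on the skeletons]|`; the last term is CC's.
* `l9r_tv_le`    : (E4) + DENS ⇒ `l9rTV ≤ Λ * C_n`.
`V i v` = "the depth `v` is allowed for the designated split of the pair `i`" (the dyadic restriction on the base factor `i`).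
-/

set_option autoImplicit false

namespace Claimed.Agent.R286

open scoped BigOperators

/-- regrouping by the skeleton -/
theorem l9r_regroup (𝒯 : Finset (ℕ → ℕ → ℕ)) (H : (ℕ → ℕ → ℕ) → ℝ) (n c : ℕ) (Φ : (ℕ → ℕ → ℕ) → ℝ) :
    ∑ τ ∈ 𝒯, H τ * Φ (l9rTc n c τ) = ∑ sk ∈ l9rSk 𝒯 n c, l9rB 𝒯 H n c sk * Φ sk := by
  classical
  unfold l9rSk l9rB
  rw [← Finset.sum_fiberwise_of_maps_to (s := 𝒯) (t := 𝒯.image (l9rTc n c)) (g := l9rTc n c)
    (fun τ hτ => Finset.mem_image_of_mem _ hτ)]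
  refine Finset.sum_congr rfl fun sk _ => ?_
  rw [Finset.sum_mul]
  refine Finset.sum_congr (by congr) fun τ hτ => ?_
  rw [(Finset.mem_filter.1 hτ).2]

/-- the grouped coefficients at a lower cut -/
theorem l9r_B_coarse (𝒯 : Finset (ℕ → ℕ → ℕ)) (H : (ℕ → ℕ → ℕ) → ℝ) (n : ℕ) {c c' : ℕ} (h : c' ≤ c) (sk' : ℕ → ℕ → ℕ) :
    l9rB 𝒯 H n c' sk' = l9rB (l9rSk 𝒯 n c) (l9rB 𝒯 H n c) n c' sk' := by
  classical
  have h1 := l9r_regroup 𝒯 H n c fun sk => if l9rTc n c' sk = sk' then 1 else 0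
  simp only [l9r_tc_tc n h, mul_ite, mul_one, mul_zero] at h1
  unfold l9rB at h1 ⊢
  rw [Finset.sum_filter, Finset.sum_filter]
  convert h1 using 2

section
variable {S : Type} [Fintype S] [Inhabited S] {X : JtCtx S}

/-- data common to all the steps -/
structure L9rSet (X : JtCtx S) (n r : ℕ) (R : Finset ℕ) (𝒯 : Finset (ℕ → ℕ → ℕ)) (V : ℕ → ℕ → Prop) (E : ℕ → ℝ) : Prop where
  pos : L9rPos X
  hR : ∀ i ∈ R, 2 * i + 1 < n
  hr : R.card ≤ r
  hr1 : 1 ≤ r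
  tr : ∀ τ ∈ 𝒯, IsTr X.N n τ
  hV : ∀ τ ∈ 𝒯, ∀ i ∈ R, V i (τ (2 * i) (2 * i + 1))
  E0 : ∀ i ∈ R, 0 ≤ E i
  env : ∀ i ∈ R, ∀ v, V i v → L9rEnv X r v (E i)

/-- the cut `c` is admissible, with changes of size `ζ` -/
structure L9rAt (X : JtCtx S) (r : ℕ) (R : Finset ℕ) (V : ℕ → ℕ → Prop) (c : ℕ) (ζ : ℕ → ℝ) : Prop where
  le : c ≤ X.N + 1
  sep : ∀ i ∈ R, ∀ v, V i v → v ≤ c
  z0 : ∀ i ∈ R, 0 ≤ ζ i
  chg : ∀ i ∈ R, ∀ v, V i v → L9rChg X r v c (ζ i)

variable {n r : ℕ} {R : Finset ℕ} {𝒯 : Finset (ℕ → ℕ → ℕ)} {V : ℕ → ℕ → Prop} {E : ℕ → ℝ}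

theorem l9r_bd_nonneg {R : Finset ℕ} {ζ E : ℕ → ℝ} (hζ : ∀ i ∈ R, 0 ≤ ζ i) (hE : ∀ i ∈ R, 0 ≤ E i) : 0 ≤ l9rBd R ζ E := by
  refine Finset.sum_nonneg fun A hA => ?_
  have hAR : A ⊆ R := Finset.mem_powerset.1 (Finset.mem_filter.1 hA).1
  exact mul_nonneg (Finset.prod_nonneg fun i hi => hζ i (hAR hi))
    (Finset.prod_nonneg fun i hi => hE i (Finset.mem_sdiff.1 hi).1)

/-- first projection -/
theorem l9r_first (hS : L9rSet X n r R 𝒯 V E) (H : (ℕ → ℕ → ℕ) → ℝ) {c : ℕ} {ζ : ℕ → ℝ} (hc : L9rAt X r R V c ζ) :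
    |l9rD0 X R n 𝒯 H - l9rD X R n 𝒯 H c| ≤ (∑ τ ∈ 𝒯, |H τ|) * l9rBd R ζ E := by
  unfold l9rD0 l9rD
  rw [← Finset.sum_sub_distrib, Finset.sum_mul]
  refine (Finset.abs_sum_le_sum_abs _ _).trans (Finset.sum_le_sum fun τ hτ => ?_)
  rw [← mul_sub, abs_mul]
  refine mul_le_mul_of_nonneg_left ?_ (abs_nonneg _)
  exact l9r_two_changes hS.pos hS.hR hS.hr hS.hr1 (hS.tr τ hτ) hc.le (fun i hi => hc.sep i hi _ (hS.hV τ hτ i hi)) ζ E hc.z0 hS.E0
    (fun i hi => hc.chg i hi _ (hS.hV τ hτ i hi)) (fun i hi => hS.env i hi _ (hS.hV τ hτ i hi))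

/-- one step of the chain -/
theorem l9r_step (hS : L9rSet X n r R 𝒯 V E) (H : (ℕ → ℕ → ℕ) → ℝ) {c c' : ℕ} (hcc : c' ≤ c) {ζ : ℕ → ℝ} (hc : L9rAt X r R V c' ζ) :
    |l9rD X R n 𝒯 H c - l9rD X R n 𝒯 H c'| ≤ l9rTV 𝒯 H n c * l9rBd R ζ E := by
  classical
  have e1 : l9rD X R n 𝒯 H c = ∑ sk ∈ l9rSk 𝒯 n c, l9rB 𝒯 H n c sk * l9rNum X R n sk :=
    l9r_regroup 𝒯 H n c fun sk => l9rNum X R n sk
  have e2 : l9rD X R n 𝒯 H c' = ∑ sk ∈ l9rSk 𝒯 n c, l9rB 𝒯 H n c sk * l9rNum X R n (l9rTc n c' sk) := by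
    rw [← l9r_regroup 𝒯 H n c fun sk => l9rNum X R n (l9rTc n c' sk)]
    simp only [l9r_tc_tc n hcc]
    rfl
  rw [e1, e2, ← Finset.sum_sub_distrib]
  unfold l9rTV
  rw [Finset.sum_mul]
  refine (Finset.abs_sum_le_sum_abs _ _).trans (Finset.sum_le_sum fun sk hsk => ?_)
  rw [← mul_sub, abs_mul]
  refine mul_le_mul_of_nonneg_left ?_ (abs_nonneg _)
  obtain ⟨τ, hτ, rfl⟩ := Finset.mem_image.1 hsk
  have hp : ∀ i ∈ R, l9rTc n c τ (2 * i) (2 * i + 1) = τ (2 * i) (2 * i + 1) := fun i hi =>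
    l9r_tc_pair τ (hS.hR i hi) ((hc.sep i hi _ (hS.hV τ hτ i hi)).trans hcc)
  exact l9r_two_changes hS.pos hS.hR hS.hr hS.hr1 (l9r_tc_isTr (hS.tr τ hτ) c) hc.le
    (fun i hi => by rw [hp i hi]; exact hc.sep i hi _ (hS.hV τ hτ i hi)) ζ E hc.z0 hS.E0
    (fun i hi => by rw [hp i hi]; exact hc.chg i hi _ (hS.hV τ hτ i hi))
    (fun i hi => by rw [hp i hi]; exact hS.env i hi _ (hS.hV τ hτ i hi))

/-- cost of the chain `cs 0 ≥ .. ≥ cs M` -/
noncomputable def l9rCost (R : Finset ℕ) (𝒯 : Finset (ℕ → ℕ → ℕ)) (H : (ℕ → ℕ → ℕ) → ℝ) (n : ℕ) (E : ℕ → ℝ) (cs : ℕ → ℕ) (ζ : ℕ → ℕ → ℝ)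
    (M : ℕ) : ℝ :=
  (∑ τ ∈ 𝒯, |H τ|) * l9rBd R (ζ 0) E + ∑ k ∈ Finset.range M, l9rTV 𝒯 H n (cs k) * l9rBd R (ζ (k + 1)) E

/-- the chain of cuts -/
theorem l9r_chain (hS : L9rSet X n r R 𝒯 V E) (H : (ℕ → ℕ → ℕ) → ℝ) (cs : ℕ → ℕ) (ζ : ℕ → ℕ → ℝ) (M : ℕ)
    (hcs : ∀ k, k < M → cs (k + 1) ≤ cs k) (hc : ∀ k, k ≤ M → L9rAt X r R V (cs k) (ζ k)) :
    |l9rD0 X R n 𝒯 H - l9rD X R n 𝒯 H (cs M)| ≤ l9rCost R 𝒯 H n E cs ζ M := by
  induction M with
  | zero => simpa [l9rCost] using l9r_first hS H (hc 0 le_rfl)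
  | succ M ih =>
    have h1 := ih (fun k hk => hcs k (by omega)) (fun k hk => hc k (by omega))
    have h2 := l9r_step hS H (hcs M (by omega)) (hc (M + 1) le_rfl)
    have e : l9rCost R 𝒯 H n E cs ζ (M + 1) = l9rCost R 𝒯 H n E cs ζ M + l9rTV 𝒯 H n (cs M) * l9rBd R (ζ (M + 1)) E := by
      unfold l9rCost
      rw [Finset.sum_range_succ]; ring
    rw [e]
    calc |l9rD0 X R n 𝒯 H - l9rD X R n 𝒯 H (cs (M + 1))|
        = |(l9rD0 X R n 𝒯 H - l9rD X R n 𝒯 H (cs M)) + (l9rD X R n 𝒯 H (cs M) - l9rD X R n 𝒯 H (cs (M + 1)))| := by ring_nf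
      _ ≤ _ := (abs_add_le _ _).trans (add_le_add h1 h2)

/-- **RED, abstract form**: the two ensembles `X0`, `X1` (common tables, common coefficients, common cuts) -/
theorem l9r_main {X0 X1 : JtCtx S} (h0 : L9rSet X0 n r R 𝒯 V E) (h1 : L9rSet X1 n r R 𝒯 V E) (H : (ℕ → ℕ → ℕ) → ℝ) (cs : ℕ → ℕ)
    (ζ : ℕ → ℕ → ℝ) (M : ℕ) (hcs : ∀ k, k < M → cs (k + 1) ≤ cs k)
    (hc0 : ∀ k, k ≤ M → L9rAt X0 r R V (cs k) (ζ k)) (hc1 : ∀ k, k ≤ M → L9rAt X1 r R V (cs k) (ζ k)) :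
    |l9rD0 X1 R n 𝒯 H - l9rD0 X0 R n 𝒯 H|
      ≤ 2 * l9rCost R 𝒯 H n E cs ζ M
        + |∑ sk ∈ l9rSk 𝒯 n (cs M), l9rB 𝒯 H n (cs M) sk * (l9rNum X1 R n sk - l9rNum X0 R n sk)| := by
  have a0 := l9r_chain h0 H cs ζ M hcs hc0
  have a1 := l9r_chain h1 H cs ζ M hcs hc1
  have e : ∑ sk ∈ l9rSk 𝒯 n (cs M), l9rB 𝒯 H n (cs M) sk * (l9rNum X1 R n sk - l9rNum X0 R n sk)
      = l9rD X1 R n 𝒯 H (cs M) - l9rD X0 R n 𝒯 H (cs M) := by
    simp only [mul_sub, Finset.sum_sub_distrib]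
    rw [← l9r_regroup 𝒯 H n (cs M) fun sk => l9rNum X1 R n sk, ← l9r_regroup 𝒯 H n (cs M) fun sk => l9rNum X0 R n sk]
    rfl
  rw [e]
  have a0' := abs_sub_comm (l9rD0 X0 R n 𝒯 H) (l9rD X0 R n 𝒯 H (cs M))
  calc |l9rD0 X1 R n 𝒯 H - l9rD0 X0 R n 𝒯 H|
      = |(l9rD0 X1 R n 𝒯 H - l9rD X1 R n 𝒯 H (cs M)) + (l9rD X0 R n 𝒯 H (cs M) - l9rD0 X0 R n 𝒯 H)
          + (l9rD X1 R n 𝒯 H (cs M) - l9rD X0 R n 𝒯 H (cs M))| := by ring_nf
    _ ≤ |l9rD0 X1 R n 𝒯 H - l9rD X1 R n 𝒯 H (cs M)| + |l9rD X0 R n 𝒯 H (cs M) - l9rD0 X0 R n 𝒯 H|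
          + |l9rD X1 R n 𝒯 H (cs M) - l9rD X0 R n 𝒯 H (cs M)| := abs_add_three _ _ _
    _ ≤ _ := by rw [← a0']; linarith

end

/-! ## (E4) + DENS -/

/- `l9r_dens`, `l9r_vol_nonneg` and the lemmas above them: proved by helper276 (sequential weights `l9rW` + flat form `l9a_flat_gk`). -/

theorem l9r_mu_nonneg {N : ℕ} {ms : ℕ → ℝ} (hms : IsMs N ms) {t : ℕ} (ht : t ≤ N) : 0 ≤ l9rMu ms t := by
  unfold l9rMu
  have := tra2_pm_le hms ht
  linarith

theorem l9r_pm_nonneg {N : ℕ} {ms : ℕ → ℝ} (hms : IsMs N ms) (c : ℕ) : 0 ≤ trPm ms c := by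
  unfold trPm
  split_ifs
  · exact le_rfl
  · exact hms.nonneg _

theorem l9r_mu_sum (ms : ℕ → ℝ) (c : ℕ) : ∑ t ∈ Finset.range c, l9rMu ms t = trPm ms c := by
  induction c with
  | zero => simp [trPm]
  | succ n ih =>
    rw [Finset.sum_range_succ, ih]
    simp [l9rMu, trPm]

theorem l9r_rho_nonneg {N : ℕ} {ms : ℕ → ℝ} (hms : IsMs N ms) {c : ℕ} (hc : c ≤ N + 1) {t : ℕ} (ht : t < c) :
    0 ≤ l9rMu ms t / trPm ms c :=
  div_nonneg (l9r_mu_nonneg hms (by omega)) (l9r_pm_nonneg hms c)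

theorem l9r_rho_sum {ms : ℕ → ℝ} {c : ℕ} (hpos : 0 < trPm ms c) :
    ∑ t ∈ Finset.range c, l9rMu ms t / trPm ms c = 1 := by
  rw [← Finset.sum_div, l9r_mu_sum, div_self hpos.ne']

theorem l9r_rho_le_one {N : ℕ} {ms : ℕ → ℝ} (hms : IsMs N ms) {c : ℕ} (hc : c ≤ N + 1) (hpos : 0 < trPm ms c) {t : ℕ}
    (ht : t < c) : l9rMu ms t / trPm ms c ≤ 1 := by
  rw [← l9r_rho_sum hpos]
  exact Finset.single_le_sum (f := fun t => l9rMu ms t / trPm ms c) (fun i hi => l9r_rho_nonneg hms hc (Finset.mem_range.mp hi))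
    (Finset.mem_range.mpr ht)

/-- sequential weight of the skeleton volume: a label which opens a new fork below the cut pays the relative mass of its stage -/
noncomputable def l9rW (ms : ℕ → ℝ) (c : ℕ) : ℕ → (ℕ → ℕ → ℕ) → ℕ → ℕ → ℝ := fun q τ x j =>
  if trIsMin τ j x then
    (if j < c then (if ∃ y ∈ Finset.range q, τ x y = j then 1 else l9rMu ms j / trPm ms c) else if j = c then 1 else 0)
  else 0

theorem l9r_w_nonneg {N : ℕ} {ms : ℕ → ℝ} (hms : IsMs N ms) {c : ℕ} (hc : c ≤ N + 1) (q : ℕ) (τ : ℕ → ℕ → ℕ) (x j : ℕ) :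
    0 ≤ l9rW ms c q τ x j := by
  unfold l9rW
  split_ifs with h1 h2 h3 h4
  · exact zero_le_one
  · exact l9r_rho_nonneg hms hc h2
  · exact zero_le_one
  · exact le_rfl
  · exact le_rfl

theorem l9r_w_adm (ms : ℕ → ℝ) (c : ℕ) : L9aW (l9rW ms c) := by
  refine ⟨?_, ?_⟩
  · intro q τ τ' x j h hx
    have e1 : trIsMin τ j x ↔ trIsMin τ' j x := h.isMin hx j
    have e2 : (∃ y ∈ Finset.range q, τ x y = j) ↔ (∃ y ∈ Finset.range q, τ' x y = j) := by
      constructor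
      · rintro ⟨y, hy, e⟩
        exact ⟨y, hy, by rw [← h x y hx (Finset.mem_range.mp hy)]; exact e⟩
      · rintro ⟨y, hy, e⟩
        exact ⟨y, hy, by rw [h x y hx (Finset.mem_range.mp hy)]; exact e⟩
    unfold l9rW
    simp only [e1, e2]
  · intro q τ x j h
    unfold l9rW
    rw [if_neg h]

/-- a tree on `q` labels has at most `q` forks -/
theorem l9r_fk_card {N q c : ℕ} {τ : ℕ → ℕ → ℕ} (hτ : IsTr N q τ) (hc : c ≤ N + 1) : (l9rFk q c τ).card ≤ q := by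
  have key : ∀ x j x' j' y : ℕ, x < q → x' < q → y < q → j' < c → trIsMin τ j x → trIsMin τ j' x' → τ x y = j → τ x' y = j' →
      (∀ z, τ x z = j → y ≤ z) → j ≤ j' → x = x' ∧ j = j' := by
    intro x j x' j' y hx hx' hy hj' hm hm' e e' hmin hjj
    have h1 : j ≤ τ x x' := by
      have := hτ.ultra x y x' hx hy hx'
      rw [e, hτ.symm y x' hy hx', e'] at this
      omega
    have hxx : x ≤ x' := by
      by_contra hlt
      have := hm x' (by omega)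
      omega
    rcases Nat.eq_or_lt_of_le hjj with hEq | hlt
    · refine ⟨?_, hEq⟩
      have hx'x : x' ≤ x := by
        by_contra hlt
        have := hm' x (by omega)
        rw [hτ.symm x' x hx' hx] at this
        omega
      omega
    · exfalso
      have hne : x ≠ x' := by
        intro h
        rw [h] at e
        omega
      have h2 : τ x x' ≤ j := by
        have := hτ.ultra x x' y hx hx' hy
        rw [e, e'] at this
        omega
      have h3 : y ≤ x' := hmin x' (by omega)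
      have h4 : y ≠ x' := by
        intro h
        rw [h, hτ.diag x' hx'] at e'
        omega
      have := hm' y (by omega)
      omega
  have hspec : ∀ p ∈ l9rFk q c τ, p.1 < q ∧ p.2 < c ∧ trIsMin τ p.2 p.1 ∧ sInf {y | τ p.1 y = p.2} < q ∧
      τ p.1 (sInf {y | τ p.1 y = p.2}) = p.2 ∧ ∀ z, τ p.1 z = p.2 → sInf {y | τ p.1 y = p.2} ≤ z := by
    intro p hp
    unfold l9rFk at hp
    rw [Finset.mem_filter, Finset.mem_product, Finset.mem_range, Finset.mem_range] at hp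
    obtain ⟨⟨a1, a2⟩, a3, y, hy, e⟩ := hp
    rw [Finset.mem_range] at hy
    have hmem : y ∈ {y | τ p.1 y = p.2} := e
    refine ⟨a1, a2, a3, lt_of_le_of_lt (Nat.sInf_le hmem) hy, Nat.sInf_mem (s := {y | τ p.1 y = p.2}) ⟨y, hmem⟩, ?_⟩
    intro z hz
    exact Nat.sInf_le hz
  have := Finset.card_le_card_of_injOn (s := l9rFk q c τ) (t := Finset.range q) (fun p => sInf {y | τ p.1 y = p.2})
    (fun p hp => Finset.mem_coe.mpr (Finset.mem_range.mpr (hspec p hp).2.2.2.1)) (by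
      intro p hp p' hp' hpp
      rw [Finset.mem_coe] at hp hp'
      simp only at hpp
      obtain ⟨a1, a2, a3, a4, a5, a6⟩ := hspec p hp
      obtain ⟨b1, b2, b3, b4, b5, b6⟩ := hspec p' hp'
      rcases le_total p.2 p'.2 with h | h
      · obtain ⟨e1, e2⟩ := key p.1 p.2 p'.1 p'.2 _ a1 b1 a4 b2 a3 b3 a5 (by rw [hpp]; exact b5) a6 h
        exact Prod.ext e1 e2
      · obtain ⟨e1, e2⟩ := key p'.1 p'.2 p.1 p.2 _ b1 a1 b4 a2 b3 a3 b5 (by rw [← hpp]; exact a5) b6 h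
        exact Prod.ext e1.symm e2.symm)
  rwa [Finset.card_range] at this

/-- one label has at most `3 q` "free" ways to be attached -/
theorem l9r_w_row {N q c : ℕ} {ms : ℕ → ℝ} (hms : IsMs N ms) {τ : ℕ → ℕ → ℕ} (hτ : IsTr N q τ) (hc : c ≤ N + 1)
    (hpos : 0 < trPm ms c) :
    ∑ x ∈ Finset.range q, ∑ j ∈ Finset.range (N + 2), l9rW ms c q τ x j ≤ 3 * (q : ℝ) := by
  have hpt : ∀ x ∈ Finset.range q, ∀ j ∈ Finset.range (N + 2), l9rW ms c q τ x j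
      ≤ (if j < c then l9rMu ms j / trPm ms c else 0) + (if (x, j) ∈ l9rFk q c τ then 1 else 0) + (if j = c then 1 else 0) := by
    intro x hx j _
    have n2 : (0 : ℝ) ≤ (if (x, j) ∈ l9rFk q c τ then 1 else 0) := by split_ifs <;> norm_num
    unfold l9rW
    by_cases h1 : trIsMin τ j x
    · rw [if_pos h1]
      by_cases h2 : j < c
      · have hjc : ¬ j = c := by omega
        have hr := l9r_rho_nonneg hms hc h2
        rw [if_pos h2, if_pos h2, if_neg hjc]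
        by_cases h3 : ∃ y ∈ Finset.range q, τ x y = j
        · have hm : (x, j) ∈ l9rFk q c τ := by
            unfold l9rFk
            rw [Finset.mem_filter, Finset.mem_product]
            exact ⟨⟨hx, Finset.mem_range.mpr h2⟩, h1, h3⟩
          rw [if_pos h3, if_pos hm]
          linarith
        · rw [if_neg h3]
          linarith
      · rw [if_neg h2, if_neg h2]
        split_ifs <;> linarith
    · rw [if_neg h1]
      have n1 : (0 : ℝ) ≤ (if j < c then l9rMu ms j / trPm ms c else 0) := by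
        split_ifs with h
        · exact l9r_rho_nonneg hms hc h
        · exact le_rfl
      have n3 : (0 : ℝ) ≤ (if j = c then 1 else 0) := by split_ifs <;> norm_num
      linarith
  refine (Finset.sum_le_sum fun x hx => Finset.sum_le_sum fun j hj => hpt x hx j hj).trans ?_
  simp only [Finset.sum_add_distrib]
  have s1 : ∑ x ∈ Finset.range q, ∑ j ∈ Finset.range (N + 2), (if j < c then l9rMu ms j / trPm ms c else 0) = (q : ℝ) := by
    have : ∑ j ∈ Finset.range (N + 2), (if j < c then l9rMu ms j / trPm ms c else 0) = 1 := by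
      rw [← Finset.sum_filter, ← l9r_rho_sum hpos]
      congr 1
      ext j
      rw [Finset.mem_filter, Finset.mem_range, Finset.mem_range]
      omega
    rw [this]
    simp
  have s2 : ∑ x ∈ Finset.range q, ∑ j ∈ Finset.range (N + 2), (if (x, j) ∈ l9rFk q c τ then (1 : ℝ) else 0) ≤ (q : ℝ) := by
    rw [← Finset.sum_product' (Finset.range q) (Finset.range (N + 2)) (fun x j => if (x, j) ∈ l9rFk q c τ then (1 : ℝ) else 0),
      Finset.sum_boole]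
    have h1 : ((Finset.range q ×ˢ Finset.range (N + 2)).filter fun p => (p.1, p.2) ∈ l9rFk q c τ).card ≤ (l9rFk q c τ).card :=
      Finset.card_le_card fun p hp => (Finset.mem_filter.mp hp).2
    exact_mod_cast h1.trans (l9r_fk_card hτ hc)
  have s3 : ∑ x ∈ Finset.range q, ∑ j ∈ Finset.range (N + 2), (if j = c then (1 : ℝ) else 0) = (q : ℝ) := by
    have : ∑ j ∈ Finset.range (N + 2), (if j = c then (1 : ℝ) else 0) = 1 := by
      rw [Finset.sum_ite_eq' (Finset.range (N + 2)) c (fun _ => (1 : ℝ)), if_pos (Finset.mem_range.mpr (by omega))]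
    rw [this]
    simp
  linarith

theorem l9r_gk_le {N c : ℕ} {ms : ℕ → ℝ} (hms : IsMs N ms) (hc : c ≤ N + 1) (hpos : 0 < trPm ms c) (k : ℕ) :
    ∀ (q : ℕ) (τ : ℕ → ℕ → ℕ), IsTr N q τ →
      l9aGK (l9rW ms c) N k q τ (fun _ => 1) ≤ ∏ i ∈ Finset.range k, (3 * ((q + i : ℕ) : ℝ)) := by
  induction k with
  | zero => intro q τ _; simp [l9aGK]
  | succ k ih =>
    intro q τ hτ
    simp only [l9aGK]
    have hB : (0 : ℝ) ≤ ∏ i ∈ Finset.range k, (3 * ((q + 1 + i : ℕ) : ℝ)) := Finset.prod_nonneg fun i _ => by positivity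
    calc ∑ x ∈ Finset.range q, ∑ j ∈ Finset.range (N + 2),
          l9rW ms c q τ x j * l9aGK (l9rW ms c) N k (q + 1) (trAtt N q τ x j) (fun _ => 1)
        ≤ ∑ x ∈ Finset.range q, ∑ j ∈ Finset.range (N + 2),
          l9rW ms c q τ x j * ∏ i ∈ Finset.range k, (3 * ((q + 1 + i : ℕ) : ℝ)) := by
          refine Finset.sum_le_sum fun x hx => Finset.sum_le_sum fun j hj => ?_
          rw [Finset.mem_range] at hx hj
          exact mul_le_mul_of_nonneg_left (ih (q + 1) _ (tr_att_isTr hτ hx (by omega))) (l9r_w_nonneg hms hc _ _ _ _)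
      _ = (∑ x ∈ Finset.range q, ∑ j ∈ Finset.range (N + 2), l9rW ms c q τ x j) *
            ∏ i ∈ Finset.range k, (3 * ((q + 1 + i : ℕ) : ℝ)) := by
          rw [Finset.sum_mul]
          exact Finset.sum_congr rfl fun x _ => (Finset.sum_mul _ _ _).symm
      _ ≤ (3 * (q : ℝ)) * ∏ i ∈ Finset.range k, (3 * ((q + 1 + i : ℕ) : ℝ)) :=
          mul_le_mul_of_nonneg_right (l9r_w_row hms hτ hc hpos) hB
      _ = ∏ i ∈ Finset.range (k + 1), (3 * ((q + i : ℕ) : ℝ)) := by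
          rw [Finset.prod_range_succ', mul_comm]
          congr 1
          exact Finset.prod_congr rfl fun i _ => by rw [show q + 1 + i = q + (i + 1) by omega]

/-- the skeleton volume is dominated by the product of the sequential weights -/
theorem l9r_vol_le_gw {N n c : ℕ} {ms : ℕ → ℝ} (hms : IsMs N ms) (hc : c ≤ N + 1) (hpos : 0 < trPm ms c) {sk : ℕ → ℕ → ℕ}
    (hsk : IsTr N n sk) (hle : ∀ x y, x < n → y < n → x ≠ y → sk x y ≤ c) :
    l9rVol ms n c sk ≤ l9aGW (l9rW ms c) 1 n sk := by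
  classical
  set New : ℕ → Prop := fun s => l9aBj sk s < c ∧ ¬ ∃ y ∈ Finset.range s, sk (l9aBx sk s) y = l9aBj sk s with hNew
  have hb : ∀ s ∈ Finset.Ico 1 n, l9aBx sk s < s ∧ trIsMin sk (l9aBj sk s) (l9aBx sk s) ∧ sk s (l9aBx sk s) = l9aBj sk s ∧
      l9aBj sk s ≤ c := by
    intro s hs
    rw [Finset.mem_Ico] at hs
    obtain ⟨b1, _, b3, b4, _⟩ := l9a_birth (tr_isTr_mono hsk (by omega : s + 1 ≤ n)) hs.1
    refine ⟨b1, b3, b4, ?_⟩
    rw [← b4]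
    exact hle _ _ hs.2 (by omega) (by omega)
  have e1 : l9aGW (l9rW ms c) 1 n sk = ∏ s ∈ (Finset.Ico 1 n).filter New, l9rMu ms (l9aBj sk s) / trPm ms c := by
    unfold l9aGW
    rw [Finset.prod_filter]
    refine Finset.prod_congr rfl fun s hs => ?_
    obtain ⟨_, b3, _, b5⟩ := hb s hs
    unfold l9rW
    rw [if_pos b3]
    by_cases h2 : l9aBj sk s < c
    · rw [if_pos h2]
      by_cases h3 : ∃ y ∈ Finset.range s, sk (l9aBx sk s) y = l9aBj sk s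
      · rw [if_pos h3, if_neg (fun h : New s => h.2 h3)]
      · rw [if_neg h3, if_pos (⟨h2, h3⟩ : New s)]
    · rw [if_neg h2, if_pos (by omega : l9aBj sk s = c), if_neg (fun h : New s => h2 h.1)]
  have hinj : Set.InjOn (fun s => (l9aBx sk s, l9aBj sk s)) ((Finset.Ico 1 n).filter New : Finset ℕ) := by
    have aux : ∀ s s', s ∈ (Finset.Ico 1 n).filter New → s' ∈ (Finset.Ico 1 n).filter New →
        (l9aBx sk s, l9aBj sk s) = (l9aBx sk s', l9aBj sk s') → ¬ s < s' := by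
      intro s s' hs hs' e hlt
      rw [Finset.mem_filter] at hs hs'
      obtain ⟨b1, _, b4, _⟩ := hb s hs.1
      have hsn := (Finset.mem_Ico.mp hs.1).2
      rw [Prod.mk.injEq] at e
      apply hs'.2.2
      refine ⟨s, Finset.mem_range.mpr hlt, ?_⟩
      rw [← e.1, ← e.2, hsk.symm _ _ (by omega) hsn]
      exact b4
    intro s hs s' hs' e
    rw [Finset.mem_coe] at hs hs'
    have h1 := aux s s' hs hs' e
    have h2 := aux s' s hs' hs e.symm
    omega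
  have hsub : ((Finset.Ico 1 n).filter New).image (fun s => (l9aBx sk s, l9aBj sk s)) ⊆ l9rFk n c sk := by
    intro p hp
    rw [Finset.mem_image] at hp
    obtain ⟨s, hs, rfl⟩ := hp
    rw [Finset.mem_filter] at hs
    obtain ⟨b1, b3, b4, _⟩ := hb s hs.1
    have hsn := (Finset.mem_Ico.mp hs.1).2
    unfold l9rFk
    rw [Finset.mem_filter, Finset.mem_product]
    refine ⟨⟨Finset.mem_range.mpr (by omega), Finset.mem_range.mpr hs.2.1⟩, b3, s, Finset.mem_range.mpr hsn, ?_⟩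
    show sk (l9aBx sk s) s = l9aBj sk s
    rw [hsk.symm _ _ (by omega) hsn]
    exact b4
  have hfk : ∀ p ∈ l9rFk n c sk, p.2 < c := by
    intro p hp
    unfold l9rFk at hp
    rw [Finset.mem_filter, Finset.mem_product] at hp
    exact Finset.mem_range.mp hp.1.2
  rw [e1, ← Finset.prod_image (s := (Finset.Ico 1 n).filter New) (g := fun s => (l9aBx sk s, l9aBj sk s))
    (f := fun p : ℕ × ℕ => l9rMu ms p.2 / trPm ms c) hinj]
  unfold l9rVol
  rw [← Finset.prod_sdiff hsub]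
  have h1 : ∏ p ∈ l9rFk n c sk \ ((Finset.Ico 1 n).filter New).image (fun s => (l9aBx sk s, l9aBj sk s)),
      l9rMu ms p.2 / trPm ms c ≤ 1 :=
    Finset.prod_le_one (fun p hp => l9r_rho_nonneg hms hc (hfk p (Finset.mem_sdiff.mp hp).1))
      (fun p hp => l9r_rho_le_one hms hc hpos (hfk p (Finset.mem_sdiff.mp hp).1))
  have h2 : 0 ≤ ∏ p ∈ ((Finset.Ico 1 n).filter New).image (fun s => (l9aBx sk s, l9aBj sk s)), l9rMu ms p.2 / trPm ms c :=
    Finset.prod_nonneg fun p hp => l9r_rho_nonneg hms hc (hfk p (hsub hp))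
  calc _ ≤ 1 * ∏ p ∈ ((Finset.Ico 1 n).filter New).image (fun s => (l9aBx sk s, l9aBj sk s)), l9rMu ms p.2 / trPm ms c :=
        mul_le_mul_of_nonneg_right h1 h2
    _ = _ := one_mul _

theorem l9r_vol_nonneg {N : ℕ} {ms : ℕ → ℝ} (hms : IsMs N ms) (n : ℕ) {c : ℕ} (hc : c ≤ N + 1) (sk : ℕ → ℕ → ℕ) :
    0 ≤ l9rVol ms n c sk := by
  unfold l9rVol
  refine Finset.prod_nonneg fun p hp => ?_
  unfold l9rFk at hp
  rw [Finset.mem_filter, Finset.mem_product] at hp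
  exact l9r_rho_nonneg hms hc (Finset.mem_range.mp hp.1.2)

/-- **DENS**: the skeleton volumes have bounded total mass -/
theorem l9r_dens {N : ℕ} {ms : ℕ → ℝ} (hms : IsMs N ms) (n : ℕ) {c : ℕ} (hc : c ≤ N + 1) (hpos : 0 < trPm ms c) :
    ∑ sk ∈ l9rSk (l9aTab N n) n c, l9rVol ms n c sk ≤ ((3 * n : ℕ) : ℝ) ^ n := by
  classical
  rcases Nat.eq_zero_or_pos n with h0 | hn
  · subst h0
    have hsub : l9rSk (l9aTab N 0) 0 c ⊆ {fun _ _ => 0} := by
      intro sk hsk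
      unfold l9rSk at hsk
      rw [Finset.mem_image] at hsk
      obtain ⟨τ, _, rfl⟩ := hsk
      rw [Finset.mem_singleton]
      funext x y
      simp [l9rTc, l9rCut]
    refine (Finset.sum_le_sum_of_subset_of_nonneg hsub fun sk _ _ => l9r_vol_nonneg hms 0 hc sk).trans ?_
    rw [Finset.sum_singleton]
    simp [l9rVol, l9rFk]
  · obtain ⟨k, rfl⟩ : ∃ k, n = 1 + k := ⟨n - 1, by omega⟩
    have hτ0 : IsTr N 1 (fun _ _ => N + 1) := ⟨fun _ _ _ _ => le_rfl, fun _ _ => rfl, fun _ _ _ _ => rfl, fun _ _ _ _ _ _ => by simp⟩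
    have hflat := l9a_flat_gk (N := N) (l9r_w_adm ms c) k hτ0 le_rfl (fun _ => 1) (fun _ _ _ => rfl)
    rw [l9a_tab_filter_one (by omega) hτ0] at hflat
    simp only [mul_one] at hflat
    have hgw0 : ∀ τ, 0 ≤ l9aGW (l9rW ms c) 1 (1 + k) τ := fun τ =>
      Finset.prod_nonneg fun s _ => l9r_w_nonneg hms hc _ _ _ _
    have hsub : l9rSk (l9aTab N (1 + k)) (1 + k) c ⊆ l9aTab N (1 + k) := by
      intro sk hsk
      unfold l9rSk at hsk
      rw [Finset.mem_image] at hsk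
      obtain ⟨τ, hτ, rfl⟩ := hsk
      exact l9r_tc_mem_tab (l9a_mem_tab.mp hτ).1 c
    calc ∑ sk ∈ l9rSk (l9aTab N (1 + k)) (1 + k) c, l9rVol ms (1 + k) c sk
        ≤ ∑ sk ∈ l9rSk (l9aTab N (1 + k)) (1 + k) c, l9aGW (l9rW ms c) 1 (1 + k) sk := by
          refine Finset.sum_le_sum fun sk hsk => ?_
          unfold l9rSk at hsk
          rw [Finset.mem_image] at hsk
          obtain ⟨τ, hτ, rfl⟩ := hsk
          refine l9r_vol_le_gw hms hc hpos (l9r_tc_isTr (l9a_mem_tab.mp hτ).1 c) ?_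
          intro x y hx hy hxy
          rw [l9r_tc_apply τ hx hy hxy]
          exact min_le_right _ _
      _ ≤ ∑ sk ∈ l9aTab N (1 + k), l9aGW (l9rW ms c) 1 (1 + k) sk :=
          Finset.sum_le_sum_of_subset_of_nonneg hsub fun sk _ _ => hgw0 sk
      _ = l9aGK (l9rW ms c) N k 1 (fun _ _ => N + 1) (fun _ => 1) := hflat.symm
      _ ≤ ∏ i ∈ Finset.range k, (3 * ((1 + i : ℕ) : ℝ)) := l9r_gk_le hms hc hpos k 1 _ hτ0
      _ ≤ ∏ _i ∈ Finset.range k, ((3 * (1 + k) : ℕ) : ℝ) := by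
          refine Finset.prod_le_prod (fun i _ => by positivity) fun i hi => ?_
          rw [Finset.mem_range] at hi
          have : ((1 + i : ℕ) : ℝ) ≤ ((1 + k : ℕ) : ℝ) := by exact_mod_cast (by omega : 1 + i ≤ 1 + k)
          push_cast at this ⊢
          linarith
      _ = ((3 * (1 + k) : ℕ) : ℝ) ^ k := by rw [Finset.prod_const, Finset.card_range]
      _ ≤ ((3 * (1 + k) : ℕ) : ℝ) ^ (1 + k) := by
          apply pow_le_pow_right₀
          · exact_mod_cast (by omega : 1 ≤ 3 * (1 + k))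
          · omega

/-- (E4) + DENS: total variation of the grouped coefficients -/
theorem l9r_tv_le {N : ℕ} {ms : ℕ → ℝ} (hms : IsMs N ms) {n : ℕ} {c : ℕ} (hc : c ≤ N + 1) (hpos : 0 < trPm ms c)
    {𝒯 : Finset (ℕ → ℕ → ℕ)} (h𝒯 : 𝒯 ⊆ l9aTab N n) {H : (ℕ → ℕ → ℕ) → ℝ} {Λ : ℝ} (hΛ : 0 ≤ Λ) (hE4 : L9rE4 ms n 𝒯 H c Λ) :
    l9rTV 𝒯 H n c ≤ Λ * ((3 * n : ℕ) : ℝ) ^ n := by
  classical
  unfold l9rTV
  calc ∑ sk ∈ l9rSk 𝒯 n c, |l9rB 𝒯 H n c sk| ≤ ∑ sk ∈ l9rSk 𝒯 n c, Λ * l9rVol ms n c sk := Finset.sum_le_sum fun sk _ => hE4 sk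
    _ ≤ ∑ sk ∈ l9rSk (l9aTab N n) n c, Λ * l9rVol ms n c sk :=
        Finset.sum_le_sum_of_subset_of_nonneg (Finset.image_subset_image h𝒯)
          fun sk _ _ => mul_nonneg hΛ (l9r_vol_nonneg hms n hc sk)
    _ = Λ * ∑ sk ∈ l9rSk (l9aTab N n) n c, l9rVol ms n c sk := by rw [Finset.mul_sum]
    _ ≤ _ := mul_le_mul_of_nonneg_left (l9r_dens hms n hc hpos) hΛ

theorem l9r_dens_eqns_cite : True := by
  have := @l9rW.eq_1
  trivial

end Claimed.Agent.R286
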