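/-
Row 286 (S0533), LL sec. 9, unit ALLOC / node LC1.      OWNER of this file: helper276.      Prefix `l9k`.
CUT FACTORISATION of the signed allocation measure (L5 / C1 of origin/helper60:notes/R286/LL09_DAG_60.md):
link between the grouped coefficients `l9rB` (282, `L09/RedDefs.lean`) and the iterated block sums `l9It`, `l9p_ind` (285, `L09/Proj.lean`).

* `l9k_it_eq`    : `l9It` = `trSumK` restricted to "the label `q + i` lies in the block of depth `t` of its anchor `a i`";
* `l9k_it_const` : a summand which does not see the new labels: `l9It = (trPm ms t)^k * Φ τ`;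
* `l9a_wt_congr` : the weight of a tree sees the labels only;
* `L9kBlk`       : a truncated table `sk` on `n` slots with its blocks (`β` : slot ↦ block `< D`, `ρ` : block ↦ one of its slots);
* `l9k_cut`      : **CUT**   `wt(skG) * l9It ms N c (β 0, .., β (n-1)) D skG (G ∘ slots) = (trPm ms c)^D * ∑_{τ ∧ c = sk} wt τ * G τ`,
                   `skG A B = sk (ρ A) (ρ B)` = the skeleton on `D` GHOST labels (one per block), the slots are the labels `D, .., D + n - 1`.
  Proof: both sides are the signed sum over the trees on (ghosts + slots); ghosts first / ghosts last (`tr_x_root_perm0` of 16); a ghost which is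
  attached last in its block is summed out by the row sum `l9p_in_const` (285).
* `L9kBlk.skw`   : **SKW**   `|wt(skG)| ≤ (D m_c)^(D-1) * l9rVol ms n c sk`;      `l9k_blk_exists` : every truncated table has a block structure;
* `L9kBlk.B_le`  : `|l9rB (l9aTab N n) (wt * G) n c sk| ≤ D^(D-1) / m_c * l9rVol * |l9It ..|`;
* `l9k_E4`       : a uniform bound `Λ` of the iterated block sums gives `L9rE4 ms n (l9aTab N n) (wt * G) c (n^(n-1) / m_c * Λ)` (282's typed (E4)).
-/
import Claimed.Agent.R286.L09.Marg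
import Claimed.Agent.R286.L09.Proj
import Claimed.Agent.R286.L09.RedMain
import Claimed.Agent.R286.Fd.ExtD

set_option autoImplicit false

namespace Claimed.Agent.R286

theorem l9k_sumK_zero (ms : ℕ → ℝ) (N k : ℕ) : ∀ (q : ℕ) (τ : ℕ → ℕ → ℕ), trSumK ms N k q τ (fun _ => 0) = 0 := by
  induction k with
  | zero => intro q τ; rfl
  | succ k ih =>
    intro q τ
    simp only [trSumK, trSum, ih, mul_zero, Finset.sum_const_zero]

/-- `l9It` is the signed sum restricted to the trees in which the new labels lie in the blocks of their anchors -/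
theorem l9k_it_eq (ms : ℕ → ℝ) {N t : ℕ} (k : ℕ) : ∀ (a : ℕ → ℕ) (q : ℕ) (τ : ℕ → ℕ → ℕ), IsTr N q τ → (∀ i, i < k → a i < q) →
    ∀ Φ : (ℕ → ℕ → ℕ) → ℝ,
    l9It ms N t ((List.range k).map a) q τ Φ
      = trSumK ms N k q τ (fun τ' => if ∀ i, i < k → t ≤ τ' (q + i) (a i) then Φ τ' else 0) := by
  induction k with
  | zero =>
    intro a q τ _ _ Φ
    simp [l9It, trSumK]
  | succ k ih =>
    intro a q τ hτ ha Φ
    rw [List.range_succ_eq_map, List.map_cons, List.map_map]
    simp only [l9It, trSumK]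
    unfold l9In trSum
    rw [Finset.sum_filter]
    refine Finset.sum_congr rfl fun y hy => ?_
    rw [Finset.mem_range] at hy
    have ha0 : a 0 < q := ha 0 (by omega)
    have hIcc : Finset.Icc t (N + 1) = (Finset.range (N + 2)).filter (fun j => t ≤ j) := by
      ext j
      rw [Finset.mem_Icc, Finset.mem_filter, Finset.mem_range]
      omega
    have hterm : ∀ j ∈ Finset.range (N + 2),
        trWt ms N q τ y j * trSumK ms N k (q + 1) (trAtt N q τ y j)
            (fun τ' => if ∀ i, i < k + 1 → t ≤ τ' (q + i) (a i) then Φ τ' else 0)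
          = if t ≤ τ (a 0) y ∧ t ≤ j then
              trWt ms N q τ y j * l9It ms N t ((List.range k).map (a ∘ Nat.succ)) (q + 1) (trAtt N q τ y j) Φ else 0 := by
      intro j hj
      rw [Finset.mem_range] at hj
      have hatt := tr_att_isTr hτ hy (by omega : j ≤ N + 1)
      have hval : trAtt N q τ y j q (a 0) = min j (τ (a 0) y) := by
        unfold trAtt
        rw [if_pos rfl, if_neg (by omega), hτ.symm y (a 0) hy ha0]
      by_cases hc : t ≤ τ (a 0) y ∧ t ≤ j
      · rw [if_pos hc, ih (a ∘ Nat.succ) (q + 1) _ hatt (fun i hi => by have := ha (i + 1) (by omega); show a (i + 1) < q + 1; omega) Φ]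
        congr 1
        refine tr_sumK_congr hatt k _ _ ?_
        intro τ' _ hag
        have h0 : t ≤ τ' q (a 0) := by
          rw [hag q (a 0) (by omega) (by omega), hval]
          omega
        have hiff : (∀ i, i < k + 1 → t ≤ τ' (q + i) (a i)) ↔ (∀ i, i < k → t ≤ τ' (q + 1 + i) ((a ∘ Nat.succ) i)) := by
          constructor
          · intro h i hi
            have := h (i + 1) (by omega)
            rwa [show q + (i + 1) = q + 1 + i by omega] at this
          · intro h i hi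
            rcases Nat.eq_zero_or_pos i with rfl | hpos
            · exact h0
            · obtain ⟨i', rfl⟩ : ∃ i', i = i' + 1 := ⟨i - 1, by omega⟩
              have := h i' (by omega)
              rwa [show q + 1 + i' = q + (i' + 1) by omega] at this
        simp only [hiff]
      · rw [if_neg hc]
        have : trSumK ms N k (q + 1) (trAtt N q τ y j)
            (fun τ' => if ∀ i, i < k + 1 → t ≤ τ' (q + i) (a i) then Φ τ' else 0)
            = trSumK ms N k (q + 1) (trAtt N q τ y j) (fun _ => 0) := by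
          refine tr_sumK_congr hatt k _ _ ?_
          intro τ' _ hag
          rw [if_neg]
          intro h
          have h0 := h 0 (by omega)
          rw [Nat.add_zero, hag q (a 0) (by omega) (by omega), hval] at h0
          apply hc
          omega
        rw [this, l9k_sumK_zero, mul_zero]
    rw [Finset.sum_congr rfl hterm]
    by_cases hy0 : t ≤ τ (a 0) y
    · rw [if_pos hy0, hIcc, Finset.sum_filter]
      refine Finset.sum_congr rfl fun j _ => ?_
      by_cases hj : t ≤ j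
      · rw [if_pos hj, if_pos ⟨hy0, hj⟩]
      · rw [if_neg hj, if_neg (fun h => hj h.2)]
    · rw [if_neg hy0]
      symm
      refine Finset.sum_eq_zero fun j _ => ?_
      rw [if_neg (fun h => hy0 h.1)]

theorem l9k_loc_mono {n n' : ℕ} (h : n ≤ n') {Φ : (ℕ → ℕ → ℕ) → ℝ} (hΦ : L9Loc n Φ) : L9Loc n' Φ :=
  fun τ₁ τ₂ H => hΦ τ₁ τ₂ fun y z hy hz => H y z (by omega) (by omega)

/-- a summand which does not see the new labels -/
theorem l9k_it_const (ms : ℕ → ℝ) {N t : ℕ} (ht : t ≤ N + 1) (xs : List ℕ) : ∀ (q : ℕ) (τ : ℕ → ℕ → ℕ), IsTr N q τ →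
    (∀ x ∈ xs, x < q) → ∀ Φ : (ℕ → ℕ → ℕ) → ℝ, L9Loc q Φ → l9It ms N t xs q τ Φ = trPm ms t ^ xs.length * Φ τ := by
  induction xs with
  | nil => intro q τ _ _ Φ _; simp [l9It]
  | cons x xs ih =>
    intro q τ hτ hxs Φ hΦ
    simp only [l9It]
    rw [l9p_in_const hτ ms ht (hxs x (by simp)) _ (trPm ms t ^ xs.length * Φ τ)]
    · rw [List.length_cons, pow_succ]
      ring
    · intro j y _ hj hy _
      rw [ih (q + 1) _ (tr_att_isTr hτ hy hj) (fun x' hx' => by have := hxs x' (by simp [hx']); omega) Φ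
        (l9k_loc_mono (by omega) hΦ)]
      congr 1
      exact hΦ _ _ fun y' z' hy' hz' => l9p_att_old N q τ y j hy' hz'

/-- the birth data see the labels only -/
theorem l9a_birth_congr {N s : ℕ} {τ τ' : ℕ → ℕ → ℕ} (hτ : IsTr N (s + 1) τ) (hs : 1 ≤ s) (h : L9aAg (s + 1) τ τ') :
    l9aBj τ' s = l9aBj τ s ∧ l9aBx τ' s = l9aBx τ s := by
  obtain ⟨b1, b2, b3, _, b5⟩ := l9a_birth hτ hs
  exact l9a_birth_att (tr_isTr_mono hτ (by omega)) b1 b2 b3 (h.symm.trans b5)

/-- the weight of a tree sees the labels only -/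
theorem l9a_wt_congr {N q r : ℕ} (ms : ℕ → ℝ) {τ τ' : ℕ → ℕ → ℕ} (hτ : IsTr N r τ) (hq : 1 ≤ q) (h : L9aAg r τ τ') :
    l9aWt ms N q r τ' = l9aWt ms N q r τ := by
  unfold l9aWt
  refine Finset.prod_congr rfl fun s hs => ?_
  rw [Finset.mem_Ico] at hs
  obtain ⟨e1, e2⟩ := l9a_birth_congr (tr_isTr_mono hτ (by omega : s + 1 ≤ r)) (by omega) (h.mono (by omega))
  have hx := (l9a_birth (tr_isTr_mono hτ (by omega : s + 1 ≤ r)) (by omega : 1 ≤ s)).1
  unfold l9aW1
  rw [e1, e2]
  exact ((h.mono (by omega : s ≤ r)).wt ms N hx _).symm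

/-! ### blocks of a truncated table -/

/-- a truncated table `sk` on `n` slots with its `D` blocks at the depth `c` -/
structure L9kBlk (N n D c : ℕ) (sk : ℕ → ℕ → ℕ) (β ρ : ℕ → ℕ) : Prop where
  tr : IsTr N n sk
  nm : l9aNm n sk = sk
  le : ∀ x y, x < n → y < n → x ≠ y → sk x y ≤ c
  bl : ∀ i, i < n → β i < D
  rl : ∀ A, A < D → ρ A < n
  br : ∀ A, A < D → β (ρ A) = A
  eq : ∀ x y, x < n → y < n → (c ≤ sk x y ↔ β x = β y)

/-- the skeleton on the ghosts -/
def l9kG (sk : ℕ → ℕ → ℕ) (ρ : ℕ → ℕ) : ℕ → ℕ → ℕ := fun A B => sk (ρ A) (ρ B)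

/-- transfer along two short edges -/
theorem l9k_transfer {N q : ℕ} {T : ℕ → ℕ → ℕ} (hT : IsTr N q T) {a a' b b' c : ℕ} (ha : a < q) (ha' : a' < q) (hb : b < q)
    (hb' : b' < q) (h1 : c ≤ T a a') (h2 : c ≤ T b b') (h3 : T a b < c) : T a' b' = T a b := by
  have u1 := hT.ultra a' a b' ha' ha hb'
  have u2 := hT.ultra a b b' ha hb hb'
  have u3 := hT.ultra a a' b ha ha' hb
  have u4 := hT.ultra a' b' b ha' hb' hb
  have s1 := hT.symm a a' ha ha'
  have s2 := hT.symm b b' hb hb'
  omega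

theorem L9kBlk.g_isTr {N n D c : ℕ} {sk : ℕ → ℕ → ℕ} {β ρ : ℕ → ℕ} (h : L9kBlk N n D c sk β ρ) : IsTr N D (l9kG sk ρ) :=
  tr_comap_isTr h.tr ρ h.rl

/-- rotation: the slots `0..n-1` go to `D..D+n-1`, the ghosts `n..n+D-1` go to `0..D-1` -/
def l9kRot (n D : ℕ) : Equiv.Perm ℕ where
  toFun y := if y < n then D + y else if y < n + D then y - n else y
  invFun z := if z < D then n + z else if z < n + D then z - D else z
  left_inv := by
    intro y
    simp only
    split_ifs <;> omega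
  right_inv := by
    intro z
    simp only
    split_ifs <;> omega

theorem l9k_rot_slot {n D y : ℕ} (hy : y < n) : l9kRot n D y = D + y := by
  show (if y < n then D + y else if y < n + D then y - n else y) = D + y
  rw [if_pos hy]

theorem l9k_rot_ghost {n D A : ℕ} (hA : A < D) : l9kRot n D (n + A) = A := by
  show (if n + A < n then D + (n + A) else if n + A < n + D then n + A - n else n + A) = A
  rw [if_neg (by omega), if_pos (by omega)]
  omega

theorem l9k_rot_out {n D y : ℕ} (hy : n + D ≤ y) : l9kRot n D y = y := by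
  show (if y < n then D + y else if y < n + D then y - n else y) = y
  rw [if_neg (by omega), if_neg (by omega)]

/-- **the two descriptions of the trees on (ghosts + slots) over `sk`** -/
theorem L9kBlk.cond_iff {N n D c : ℕ} {sk : ℕ → ℕ → ℕ} {β ρ : ℕ → ℕ} (h : L9kBlk N n D c sk β ρ)
    {T : ℕ → ℕ → ℕ} (hT : IsTr N (D + n) T) :
    (l9rTc n c (fun y z => T (D + y) (D + z)) = sk ∧ ∀ A, A < D → c ≤ T A (D + ρ A))
      ↔ (L9aAg D T (l9kG sk ρ) ∧ ∀ i, i < n → c ≤ T (D + i) (β i)) := by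
  constructor
  · rintro ⟨h1, h2⟩
    have hT1 : ∀ x y, x < n → y < n → x ≠ y → min (T (D + x) (D + y)) c = sk x y := by
      intro x y hx hy hxy
      rw [← h1, l9r_tc_apply _ hx hy hxy]
    have hb : ∀ i, i < n → c ≤ T (D + i) (β i) := by
      intro i hi
      have hA := h.bl i hi
      have hp := h.rl _ hA
      have h3 := h2 _ hA
      by_cases e : i = ρ (β i)
      · rw [hT.symm _ _ (by omega) (by omega)]
        rw [← e] at h3
        exact h3
      · have h4 : c ≤ sk i (ρ (β i)) := (h.eq i _ hi hp).mpr (h.br _ hA).symm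
        have h5 := hT1 i _ hi hp e
        have u := hT.ultra (D + i) (D + ρ (β i)) (β i) (by omega) (by omega) (by omega)
        have s1 := hT.symm (β i) (D + ρ (β i)) (by omega) (by omega)
        omega
    refine ⟨?_, hb⟩
    intro A B hA hB
    unfold l9kG
    have hpA := h.rl A hA
    have hpB := h.rl B hB
    by_cases e : A = B
    · subst e
      rw [hT.diag A (by omega), h.tr.diag _ hpA]
    · have hne : ρ A ≠ ρ B := by
        intro e'
        apply e
        rw [← h.br A hA, ← h.br B hB, e']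
      have hlt : sk (ρ A) (ρ B) < c := by
        by_contra hcon
        apply e
        have := (h.eq _ _ hpA hpB).mp (not_lt.mp hcon)
        rwa [h.br A hA, h.br B hB] at this
      have h5 := hT1 _ _ hpA hpB hne
      have h6 : T (D + ρ A) (D + ρ B) = sk (ρ A) (ρ B) := by omega
      have := l9k_transfer hT (a := D + ρ A) (a' := A) (b := D + ρ B) (b' := B) (c := c) (by omega) (by omega) (by omega)
        (by omega) (by rw [hT.symm _ _ (by omega) (by omega)]; exact h2 A hA)
        (by rw [hT.symm _ _ (by omega) (by omega)]; exact h2 B hB) (by omega)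
      omega
  · rintro ⟨h1, h2⟩
    refine ⟨?_, ?_⟩
    · funext x y
      by_cases hxy : x < n ∧ y < n
      · obtain ⟨hx, hy⟩ := hxy
        by_cases e : x = y
        · subst e
          simp only [l9rTc, l9rCut, hx, and_self, if_true]
          rw [hT.diag _ (by omega), h.tr.diag x hx]
        · rw [l9r_tc_apply _ hx hy e]
          have hA := h.bl x hx
          have hB := h.bl y hy
          have gx := h2 x hx
          have gy := h2 y hy
          by_cases eb : β x = β y
          · have h3 : c ≤ sk x y := (h.eq x y hx hy).mpr eb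
            have h4 := h.le x y hx hy e
            have u := hT.ultra (D + x) (β x) (D + y) (by omega) (by omega) (by omega)
            have s1 := hT.symm (D + y) (β y) (by omega) (by omega)
            rw [← eb] at s1 gy
            omega
          · have h3 : sk x y < c := by
              by_contra hcon
              exact eb ((h.eq x y hx hy).mp (not_lt.mp hcon))
            have hpA := h.rl _ hA
            have hpB := h.rl _ hB
            have k1 : sk (ρ (β x)) (ρ (β y)) = sk x y :=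
              l9k_transfer h.tr hx hpA hy hpB ((h.eq _ _ hx hpA).mpr (h.br _ hA).symm) ((h.eq _ _ hy hpB).mpr (h.br _ hB).symm) h3
            have k2 : T (β x) (β y) = sk x y := by
              rw [h1 _ _ hA hB]
              exact k1
            have k3 := l9k_transfer hT (a := β x) (a' := D + x) (b := β y) (b' := D + y) (c := c) (by omega) (by omega) (by omega)
              (by omega) (by rw [hT.symm _ _ (by omega) (by omega)]; exact gx)
              (by rw [hT.symm _ _ (by omega) (by omega)]; exact gy) (by omega)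
            omega
      · have e1 : l9rTc n c (fun y z => T (D + y) (D + z)) x y = 0 := by
          simp only [l9rTc, l9rCut, if_neg hxy]
        rw [e1, ← h.nm]
        simp only [l9aNm, if_neg hxy]
    · intro A hA
      have := h2 _ (h.rl A hA)
      rw [h.br A hA] at this
      rw [hT.symm _ _ (by omega) (by have := h.rl A hA; omega)]
      exact this

/-! ### two stages -/

theorem l9k_root_isTr (N : ℕ) : IsTr N 1 (fun _ _ => N + 1) :=
  ⟨fun _ _ _ _ => le_rfl, fun _ _ => rfl, fun _ _ _ _ => rfl, fun _ _ _ _ _ _ => by simp⟩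

/-- the signed sum over the trees on `q + k` labels: first the labels `< q` (flat form), then the `k` others -/
theorem l9k_two_stage (ms : ℕ → ℝ) (N : ℕ) {q : ℕ} (hq : 1 ≤ q) (k : ℕ) (Φ : (ℕ → ℕ → ℕ) → ℝ) (hΦ : L9Loc (q + k) Φ) :
    trSumK ms N (q - 1 + k) 1 (fun _ _ => N + 1) Φ = ∑ τ ∈ l9aTab N q, l9aWt ms N 1 q τ * trSumK ms N k q τ Φ := by
  obtain ⟨q', rfl⟩ : ∃ q', q = 1 + q' := ⟨q - 1, by omega⟩
  rw [show 1 + q' - 1 = q' by omega, tr_sumK_add, l9a_flat q' (l9k_root_isTr N)]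
  intro τ₁ τ₂ H
  exact tr_sumK_tree_congr H k Φ hΦ

open Classical in
/-- **CUT FACTORISATION** -/
theorem l9k_cut {N n D c : ℕ} (ms : ℕ → ℝ) {sk : ℕ → ℕ → ℕ} {β ρ : ℕ → ℕ} (h : L9kBlk N n D c sk β ρ) (hc : c ≤ N + 1)
    (hn : 1 ≤ n) (hD : 1 ≤ D) (G : (ℕ → ℕ → ℕ) → ℝ) (hG : L9Loc n G) :
    l9aWt ms N 1 D (l9kG sk ρ) * l9It ms N c ((List.range n).map β) D (l9kG sk ρ) (fun T => G fun y z => T (D + y) (D + z))
      = trPm ms c ^ D * ∑ τ ∈ (l9aTab N n).filter (fun τ => l9rTc n c τ = sk), l9aWt ms N 1 n τ * G τ := by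
  set Ψ : (ℕ → ℕ → ℕ) → ℝ := fun T => if (l9rTc n c T = sk ∧ ∀ A, A < D → c ≤ T (n + A) (ρ A)) then G T else 0 with hΨdef
  have hΨ : L9Loc (n + D) Ψ := by
    intro τ₁ τ₂ H
    have e1 : l9rTc n c τ₁ = l9rTc n c τ₂ := l9r_tc_congr (fun y z hy hz => H y z (by omega) (by omega)) c
    have e2 : G τ₁ = G τ₂ := hG τ₁ τ₂ fun y z hy hz => H y z (by omega) (by omega)
    have e3 : (∀ A, A < D → c ≤ τ₁ (n + A) (ρ A)) ↔ (∀ A, A < D → c ≤ τ₂ (n + A) (ρ A)) := by
      constructor
      · intro h1 A hA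
        rw [← H _ _ (by omega) (by have := h.rl A hA; omega)]
        exact h1 A hA
      · intro h1 A hA
        rw [H _ _ (by omega) (by have := h.rl A hA; omega)]
        exact h1 A hA
    simp only [hΨdef, e1, e2, e3]
  -- slots first, ghosts last
  have S2 : trSumK ms N (n - 1 + D) 1 (fun _ _ => N + 1) Ψ
      = trPm ms c ^ D * ∑ τ ∈ (l9aTab N n).filter (fun τ => l9rTc n c τ = sk), l9aWt ms N 1 n τ * G τ := by
    rw [l9k_two_stage ms N hn D Ψ hΨ, Finset.mul_sum, Finset.sum_filter]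
    refine Finset.sum_congr rfl fun τ hτ => ?_
    have hτ' := (l9a_mem_tab.mp hτ).1
    have e1 : trSumK ms N D n τ Ψ = trSumK ms N D n τ
        (fun T => if ∀ A, A < D → c ≤ T (n + A) (ρ A) then (fun _ => if l9rTc n c τ = sk then G τ else 0) T else 0) := by
      refine tr_sumK_congr hτ' D _ _ ?_
      intro T _ hag
      have a1 : l9rTc n c T = l9rTc n c τ := l9r_tc_congr hag c
      have a2 : G T = G τ := hG T τ hag
      simp only [hΨdef, a1, a2]
      by_cases b1 : l9rTc n c τ = sk <;> by_cases b2 : ∀ A, A < D → c ≤ T (n + A) (ρ A) <;> simp [b1, b2]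
    rw [e1, ← l9k_it_eq ms D ρ n τ hτ' h.rl, l9k_it_const ms hc _ n τ hτ' (by
      intro x hx
      rw [List.mem_map] at hx
      obtain ⟨A, hA, rfl⟩ := hx
      exact h.rl A (List.mem_range.mp hA)) _ (fun _ _ _ => rfl)]
    rw [List.length_map, List.length_range]
    split_ifs <;> ring
  -- ghosts first, slots last
  have hΨ1 : L9Loc (D + n) (fun T => Ψ fun y z => T (l9kRot n D y) (l9kRot n D z)) := by
    intro τ₁ τ₂ H
    refine hΨ _ _ fun y z hy hz => ?_
    have hlt : ∀ y, y < n + D → l9kRot n D y < D + n := by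
      intro y hy
      by_cases hyn : y < n
      · rw [l9k_rot_slot hyn]; omega
      · obtain ⟨A, rfl⟩ : ∃ A, y = n + A := ⟨y - n, by omega⟩
        rw [l9k_rot_ghost (by omega)]; omega
    exact H _ _ (hlt y hy) (hlt z hz)
  have S1 : trSumK ms N (D - 1 + n) 1 (fun _ _ => N + 1) (fun T => Ψ fun y z => T (l9kRot n D y) (l9kRot n D z))
      = l9aWt ms N 1 D (l9kG sk ρ) *
        l9It ms N c ((List.range n).map β) D (l9kG sk ρ) (fun T => G fun y z => T (D + y) (D + z)) := by
    rw [l9k_two_stage ms N hD n _ hΨ1]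
    have hloc1 : L9Loc (D + ((List.range n).map β).length) (fun T => G fun y z => T (D + y) (D + z)) := by
      rw [List.length_map, List.length_range]
      intro τ₁ τ₂ H
      exact hG _ _ fun y z hy hz => H _ _ (by omega) (by omega)
    have hanch : ∀ x ∈ (List.range n).map β, x < D := by
      intro x hx
      rw [List.mem_map] at hx
      obtain ⟨i, hi, rfl⟩ := hx
      exact h.bl i (List.mem_range.mp hi)
    have hin : ∀ σ ∈ l9aTab N D, trSumK ms N n D σ (fun T => Ψ fun y z => T (l9kRot n D y) (l9kRot n D z))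
        = if L9aAg D σ (l9kG sk ρ) then
            l9It ms N c ((List.range n).map β) D (l9kG sk ρ) (fun T => G fun y z => T (D + y) (D + z)) else 0 := by
      intro σ hσ
      have hσ' := (l9a_mem_tab.mp hσ).1
      have e1 : trSumK ms N n D σ (fun T => Ψ fun y z => T (l9kRot n D y) (l9kRot n D z))
          = trSumK ms N n D σ (fun T => if ∀ i, i < n → c ≤ T (D + i) (β i) then
              (fun T => if L9aAg D σ (l9kG sk ρ) then G fun y z => T (D + y) (D + z) else 0) T else 0) := by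
        refine tr_sumK_congr hσ' n _ _ ?_
        intro T hT hag
        have a1 : l9rTc n c (fun y z => T (l9kRot n D y) (l9kRot n D z)) = l9rTc n c (fun y z => T (D + y) (D + z)) :=
          l9r_tc_congr (fun y z hy hz => by rw [l9k_rot_slot hy, l9k_rot_slot hz]) c
        have a2 : G (fun y z => T (l9kRot n D y) (l9kRot n D z)) = G (fun y z => T (D + y) (D + z)) :=
          hG _ _ fun y z hy hz => by rw [l9k_rot_slot hy, l9k_rot_slot hz]
        have a3 : (∀ A, A < D → c ≤ T (l9kRot n D (n + A)) (l9kRot n D (ρ A))) ↔ (∀ A, A < D → c ≤ T A (D + ρ A)) := by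
          constructor
          · intro h1 A hA
            have := h1 A hA
            rwa [l9k_rot_ghost hA, l9k_rot_slot (h.rl A hA)] at this
          · intro h1 A hA
            rw [l9k_rot_ghost hA, l9k_rot_slot (h.rl A hA)]
            exact h1 A hA
        have a4 := h.cond_iff hT
        have a5 : L9aAg D T (l9kG sk ρ) ↔ L9aAg D σ (l9kG sk ρ) := by
          constructor
          · intro h1 y z hy hz
            rw [← hag y z hy hz]; exact h1 y z hy hz
          · intro h1 y z hy hz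
            rw [hag y z hy hz]; exact h1 y z hy hz
        rw [a5] at a4
        simp only [hΨdef, a1, a2, a3]
        by_cases b1 : L9aAg D σ (l9kG sk ρ) <;> by_cases b2 : ∀ i, i < n → c ≤ T (D + i) (β i) <;> simp [a4, b1, b2]
      rw [e1, ← l9k_it_eq ms n β D σ hσ' h.bl]
      by_cases b1 : L9aAg D σ (l9kG sk ρ)
      · simp only [if_pos b1]
        exact l9p_it_loc ms N c _ D σ _ _ b1 hanch hloc1
      · simp only [if_neg b1]
        rw [l9k_it_const ms hc _ D σ hσ' hanch _ (fun _ _ _ => rfl), mul_zero]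
    rw [Finset.sum_congr rfl fun σ hσ => by rw [hin σ hσ]]
    rw [Finset.sum_eq_single (l9aNm D (l9kG sk ρ))]
    · rw [if_pos (l9a_nm_ag D _), l9a_wt_congr ms h.g_isTr le_rfl (l9a_nm_ag D _).symm]
    · intro σ hσ hne
      rw [if_neg, mul_zero]
      intro hag
      apply hne
      rw [← (l9a_mem_tab.mp hσ).2]
      exact l9a_nm_eq hag
    · intro hcon
      exact absurd (l9a_nm_mem_tab h.g_isTr) hcon
  rw [← S1, ← S2, show D - 1 + n = n - 1 + D by omega]
  exact tr_x_root_perm0 (l9k_root_isTr N) (n - 1 + D) Ψ (by rw [show n - 1 + D + 1 = n + D by omega]; exact hΨ) (l9kRot n D)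
    (fun y hy => l9k_rot_out (by omega))

/-! ### SKW: the weight of the skeleton -/

theorem l9a_vx_mem {N r : ℕ} {τ : ℕ → ℕ → ℕ} (hτ : IsTr N r τ) {a b : ℕ} (ha : a < r) (hb : b < r) (hab : τ a b ≤ N) :
    τ a b ≤ τ a (l9aVx τ a b) := by
  have hne : a ≠ b := by
    intro h
    rw [← h, hτ.diag a ha] at hab
    omega
  have hmaxmem : max a b ∈ {s | τ a b ≤ τ a s ∧ ∃ y, y < s ∧ τ s y = τ a b} := by
    rcases lt_or_gt_of_ne hne with h | h
    · rw [max_eq_right h.le]
      exact ⟨le_rfl, a, h, by rw [hτ.symm b a hb ha]⟩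
    · rw [max_eq_left h.le]
      exact ⟨by rw [hτ.diag a ha]; omega, b, h, rfl⟩
  exact (Nat.sInf_mem (s := {s | τ a b ≤ τ a s ∧ ∃ y, y < s ∧ τ s y = τ a b}) ⟨_, hmaxmem⟩).1

open Classical in
/-- one label born below the cut: a new fork costs its mass length, every other attachment at most `D` times the mass of the cut -/
theorem l9k_w1_abs_le {N D c : ℕ} {ms : ℕ → ℝ} (hms : IsMs N ms) (hc : c ≤ N + 1) {σ : ℕ → ℕ → ℕ} (hσ : IsTr N D σ) {s : ℕ}
    (hs1 : 1 ≤ s) (hsD : s < D) (hj : l9aBj σ s < c) :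
    |l9aW1 ms N σ s| ≤ if L9aNew N σ s then l9aMu ms (l9aBj σ s) else D * trPm ms c := by
  split_ifs with hn
  · rw [l9a_w1_new hσ hsD hn, abs_neg, abs_of_nonneg (l9a_mu_nonneg hms hn.2.1)]
  · obtain ⟨b1, _, b3, _, _⟩ := l9a_birth (tr_isTr_mono hσ (by omega : s + 1 ≤ D)) hs1
    have hjN : l9aBj σ s ≤ N := by omega
    unfold l9aW1 trWt
    rw [if_pos b3, if_neg (by omega)]
    have h1 : (1 : ℝ) ≤ trDeg s σ (l9aBj σ s) (l9aBx σ s) := by
      exact_mod_cast tra2_deg_pos (tr_isTr_mono hσ (by omega : s ≤ D)) b1 hjN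
    have h2 : (trDeg s σ (l9aBj σ s) (l9aBx σ s) : ℝ) ≤ D := by
      have : trDeg s σ (l9aBj σ s) (l9aBx σ s) ≤ s := by
        unfold trDeg
        exact (Finset.card_filter_le _ _).trans (by rw [Finset.card_range])
      exact_mod_cast (by omega : trDeg s σ (l9aBj σ s) (l9aBx σ s) ≤ D)
    have h3 := tra2_pm_le hms hjN
    have h4 : 0 ≤ trPm ms (l9aBj σ s) := l9r_pm_nonneg hms _
    have h5 : ms (l9aBj σ s) ≤ trPm ms c := by
      obtain ⟨c', rfl⟩ : ∃ c', c = c' + 1 := ⟨c - 1, by omega⟩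
      rw [tra2_pm_succ]
      exact hms.mono _ _ (by omega) (by omega)
    have h6 := hms.nonneg (l9aBj σ s)
    rw [abs_le]
    constructor
    · nlinarith
    · nlinarith

open Classical in
/-- the weight of a tree whose labels separate below the cut -/
theorem l9k_wt_abs_le {N D c : ℕ} {ms : ℕ → ℝ} (hms : IsMs N ms) (hc : c ≤ N + 1) (hpos : 0 < trPm ms c) {σ : ℕ → ℕ → ℕ}
    (hσ : IsTr N D σ) (hlt : ∀ A B, A < D → B < D → A ≠ B → σ A B < c) :
    |l9aWt ms N 1 D σ| ≤ (D * trPm ms c) ^ (D - 1) *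
      ∏ s ∈ (Finset.Ico 1 D).filter (L9aNew N σ), l9rMu ms (l9aBj σ s) / trPm ms c := by
  unfold l9aWt
  rw [Finset.abs_prod, Finset.prod_filter]
  have hcard : (D * trPm ms c) ^ (D - 1) = ∏ _s ∈ Finset.Ico 1 D, (D * trPm ms c) := by
    rw [Finset.prod_const, Nat.card_Ico]
  rw [hcard, ← Finset.prod_mul_distrib]
  refine Finset.prod_le_prod (fun s _ => abs_nonneg _) fun s hs => ?_
  rw [Finset.mem_Ico] at hs
  obtain ⟨b1, _, _, b4, _⟩ := l9a_birth (tr_isTr_mono hσ (by omega : s + 1 ≤ D)) hs.1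
  have hj : l9aBj σ s < c := by
    rw [← b4]
    exact hlt _ _ hs.2 (by omega) (by omega)
  refine (l9k_w1_abs_le hms hc hσ hs.1 hs.2 hj).trans ?_
  have hD1 : (1 : ℝ) ≤ D := by exact_mod_cast (by omega : 1 ≤ D)
  split_ifs with hn
  · have hmu : 0 ≤ l9aMu ms (l9aBj σ s) := l9a_mu_nonneg hms hn.2.1
    have e : (D : ℝ) * trPm ms c * (l9rMu ms (l9aBj σ s) / trPm ms c) = D * l9aMu ms (l9aBj σ s) := by
      unfold l9rMu l9aMu
      field_simp
    rw [e]
    nlinarith
  · rw [mul_one]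

open Classical in
/-- the forks of the truncated table are created by different labels of the skeleton on the ghosts -/
theorem L9kBlk.new_le_vol {N n D c : ℕ} {ms : ℕ → ℝ} (hms : IsMs N ms) (hc : c ≤ N + 1) (hpos : 0 < trPm ms c)
    {sk : ℕ → ℕ → ℕ} {β ρ : ℕ → ℕ} (h : L9kBlk N n D c sk β ρ) :
    ∏ s ∈ (Finset.Ico 1 D).filter (L9aNew N (l9kG sk ρ)), l9rMu ms (l9aBj (l9kG sk ρ) s) / trPm ms c ≤ l9rVol ms n c sk := by
  set σ := l9kG sk ρ with hσdef
  have hσ : IsTr N D σ := h.g_isTr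
  -- `σ (β x) (β y) = sk x y` below the cut
  have hval : ∀ x y, x < n → y < n → sk x y < c → σ (β x) (β y) = sk x y := by
    intro x y hx hy hlt
    have hA := h.bl x hx
    have hB := h.bl y hy
    exact l9k_transfer h.tr hx (h.rl _ hA) hy (h.rl _ hB) ((h.eq _ _ hx (h.rl _ hA)).mpr (h.br _ hA).symm)
      ((h.eq _ _ hy (h.rl _ hB)).mpr (h.br _ hB).symm) hlt
  set f : ℕ × ℕ → ℕ := fun p => l9aVx σ (β p.1) (β (sInf {y | sk p.1 y = p.2})) with hf
  have hspec : ∀ p ∈ l9rFk n c sk, p.1 < n ∧ p.2 < c ∧ trIsMin sk p.2 p.1 ∧ f p < D ∧ L9aNew N σ (f p) ∧ l9aBj σ (f p) = p.2 ∧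
      p.2 ≤ σ (β p.1) (f p) := by
    intro p hp
    unfold l9rFk at hp
    rw [Finset.mem_filter, Finset.mem_product, Finset.mem_range, Finset.mem_range] at hp
    obtain ⟨⟨a1, a2⟩, a3, y, hy, e⟩ := hp
    rw [Finset.mem_range] at hy
    have hmem : y ∈ {y | sk p.1 y = p.2} := e
    have hy0 : sInf {y | sk p.1 y = p.2} < n := lt_of_le_of_lt (Nat.sInf_le hmem) hy
    have he0 : sk p.1 (sInf {y | sk p.1 y = p.2}) = p.2 := Nat.sInf_mem (s := {y | sk p.1 y = p.2}) ⟨y, hmem⟩
    have hv : σ (β p.1) (β (sInf {y | sk p.1 y = p.2})) = p.2 := by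
      rw [hval _ _ a1 hy0 (by omega), he0]
    obtain ⟨v1, v2, v3⟩ := l9a_vx_spec hσ (h.bl _ a1) (h.bl _ hy0) (by omega)
    have v4 := l9a_vx_mem hσ (h.bl _ a1) (h.bl _ hy0) (by omega)
    rw [hv] at v3 v4
    exact ⟨a1, a2, a3, v1, v2, v3, v4⟩
  have hinj : Set.InjOn f (l9rFk n c sk : Finset (ℕ × ℕ)) := by
    intro p hp p' hp' e
    rw [Finset.mem_coe] at hp hp'
    obtain ⟨a1, a2, a3, a4, _, a6, a7⟩ := hspec p hp
    obtain ⟨b1, _, b3, _, _, b6, b7⟩ := hspec p' hp'
    have et : p.2 = p'.2 := by rw [← a6, ← b6, e]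
    rw [← e, ← et] at b7
    rw [← et] at b3
    have hA := h.bl _ a1
    have hB := h.bl _ b1
    have h1 : p.2 ≤ σ (β p.1) (β p'.1) := by
      have u := hσ.ultra (β p.1) (f p) (β p'.1) hA a4 hB
      have s1 := hσ.symm (β p'.1) (f p) hB a4
      omega
    have h2 : p.2 ≤ sk p.1 p'.1 := by
      by_contra hcon
      have := hval _ _ a1 b1 (by omega)
      omega
    have ex : p.1 = p'.1 := by
      rcases lt_trichotomy p.1 p'.1 with hl | hl | hl
      · have := b3 _ hl
        rw [h.tr.symm _ _ b1 a1] at this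
        omega
      · exact hl
      · have := a3 _ hl
        omega
    exact Prod.ext ex et
  have hsub : (l9rFk n c sk).image f ⊆ (Finset.Ico 1 D).filter (L9aNew N σ) := by
    intro s hs
    rw [Finset.mem_image] at hs
    obtain ⟨p, hp, rfl⟩ := hs
    obtain ⟨_, _, _, a4, a5, _, _⟩ := hspec p hp
    rw [Finset.mem_filter, Finset.mem_Ico]
    exact ⟨⟨a5.1, a4⟩, a5⟩
  have hbj : ∀ s ∈ (Finset.Ico 1 D).filter (L9aNew N σ), l9aBj σ s < c := by
    intro s hs
    rw [Finset.mem_filter, Finset.mem_Ico] at hs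
    obtain ⟨b1, _, _, b4, _⟩ := l9a_birth (tr_isTr_mono hσ (by omega : s + 1 ≤ D)) hs.1.1
    rw [← b4]
    have hne : ρ s ≠ ρ (l9aBx σ s) := by
      intro e
      have := h.br s hs.1.2
      rw [e, h.br _ (by omega)] at this
      omega
    by_contra hcon
    have := (h.eq _ _ (h.rl s hs.1.2) (h.rl _ (by omega : l9aBx σ s < D))).mp (not_lt.mp hcon)
    rw [h.br s hs.1.2, h.br _ (by omega)] at this
    omega
  have e1 : l9rVol ms n c sk = ∏ s ∈ (l9rFk n c sk).image f, l9rMu ms (l9aBj σ s) / trPm ms c := by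
    rw [Finset.prod_image hinj]
    unfold l9rVol
    refine Finset.prod_congr rfl fun p hp => ?_
    rw [(hspec p hp).2.2.2.2.2.1]
  rw [e1, ← Finset.prod_sdiff hsub]
  have h1 : ∏ s ∈ (Finset.Ico 1 D).filter (L9aNew N σ) \ (l9rFk n c sk).image f, l9rMu ms (l9aBj σ s) / trPm ms c ≤ 1 :=
    Finset.prod_le_one (fun s hs => l9r_rho_nonneg hms hc (hbj s (Finset.mem_sdiff.mp hs).1))
      (fun s hs => l9r_rho_le_one hms hc hpos (hbj s (Finset.mem_sdiff.mp hs).1))
  have h2 : 0 ≤ ∏ s ∈ (l9rFk n c sk).image f, l9rMu ms (l9aBj σ s) / trPm ms c :=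
    Finset.prod_nonneg fun s hs => l9r_rho_nonneg hms hc (hbj s (hsub hs))
  calc _ ≤ 1 * ∏ s ∈ (l9rFk n c sk).image f, l9rMu ms (l9aBj σ s) / trPm ms c := mul_le_mul_of_nonneg_right h1 h2
    _ = _ := one_mul _

/-- **SKW**: `|W_c(sk)| ≤ (D c)^(D-1) ∏_{forks of sk} μ_s / c` -/
theorem L9kBlk.skw {N n D c : ℕ} {ms : ℕ → ℝ} (hms : IsMs N ms) (hc : c ≤ N + 1) (hpos : 0 < trPm ms c)
    {sk : ℕ → ℕ → ℕ} {β ρ : ℕ → ℕ} (h : L9kBlk N n D c sk β ρ) :
    |l9aWt ms N 1 D (l9kG sk ρ)| ≤ (D * trPm ms c) ^ (D - 1) * l9rVol ms n c sk := by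
  classical
  have hlt : ∀ A B, A < D → B < D → A ≠ B → l9kG sk ρ A B < c := by
    intro A B hA hB hne
    by_contra hcon
    have := (h.eq _ _ (h.rl A hA) (h.rl B hB)).mp (not_lt.mp hcon)
    rw [h.br A hA, h.br B hB] at this
    exact hne this
  refine (l9k_wt_abs_le hms hc hpos h.g_isTr hlt).trans ?_
  exact mul_le_mul_of_nonneg_left (h.new_le_vol hms hc hpos) (pow_nonneg (mul_nonneg (Nat.cast_nonneg _) hpos.le) _)

/-! ### the blocks of a truncated table; reduction of (E4) to the iterated block sums -/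

/-- every truncated table has a block structure -/
theorem l9k_blk_exists {N n c : ℕ} {τ₀ : ℕ → ℕ → ℕ} (hτ₀ : IsTr N n τ₀) (hc : c ≤ N + 1) (hn : 1 ≤ n) :
    ∃ (D : ℕ) (β ρ : ℕ → ℕ), 1 ≤ D ∧ D ≤ n ∧ L9kBlk N n D c (l9rTc n c τ₀) β ρ := by
  classical
  set sk := l9rTc n c τ₀ with hskdef
  have hsk : IsTr N n sk := l9r_tc_isTr hτ₀ c
  set R : Finset ℕ := (Finset.range n).image (tra2Rp sk c) with hR
  have hmem : ∀ x, x < n → tra2Rp sk c x ∈ R := fun x hx => Finset.mem_image_of_mem _ (Finset.mem_range.mpr hx)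
  have hRlt : ∀ z ∈ R, z < n ∧ tra2Rp sk c z = z := by
    intro z hz
    rw [hR, Finset.mem_image] at hz
    obtain ⟨x, hx, rfl⟩ := hz
    rw [Finset.mem_range] at hx
    obtain ⟨a1, _, a3⟩ := tra2_rp_spec hsk hx hc
    have hlt : tra2Rp sk c x < n := by omega
    exact ⟨hlt, tra2_rp_eq hsk hlt hlt hc (by rw [hsk.diag _ hlt]; exact hc) a3⟩
  have hrep : ∀ x y, x < n → y < n → (c ≤ sk x y ↔ tra2Rp sk c x = tra2Rp sk c y) := by
    intro x y hx hy
    obtain ⟨a1, a2, a3⟩ := tra2_rp_spec hsk hx hc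
    obtain ⟨b1, b2, b3⟩ := tra2_rp_spec hsk hy hc
    constructor
    · intro hxy
      refine tra2_rp_eq hsk hx (by omega) hc ?_ b3
      have u := hsk.ultra (tra2Rp sk c y) y x (by omega) hy hx
      have s1 := hsk.symm (tra2Rp sk c y) y (by omega) hy
      have s2 := hsk.symm y x hy hx
      omega
    · intro e
      have u := hsk.ultra x (tra2Rp sk c x) y hx (by omega) hy
      have s1 := hsk.symm (tra2Rp sk c y) y (by omega) hy
      rw [← e] at s1 b2
      omega
  set e : R ≃ Fin R.card := R.equivFin with he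
  refine ⟨R.card, fun x => if hx : x < n then (e ⟨tra2Rp sk c x, hmem x hx⟩ : ℕ) else 0,
    fun A => if hA : A < R.card then ((e.symm ⟨A, hA⟩ : R) : ℕ) else 0, ?_, ?_, ?_⟩
  · exact Finset.card_pos.mpr ⟨_, hmem 0 (by omega)⟩
  · exact Finset.card_image_le.trans (by rw [Finset.card_range])
  · refine ⟨hsk, l9r_cut_nm n _ τ₀, ?_, ?_, ?_, ?_, ?_⟩
    · intro x y hx hy hxy
      rw [hskdef, l9r_tc_apply τ₀ hx hy hxy]
      exact min_le_right _ _
    · intro i hi
      simp only [dif_pos hi]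
      exact Fin.is_lt _
    · intro A hA
      simp only [dif_pos hA]
      exact (hRlt _ (e.symm ⟨A, hA⟩).2).1
    · intro A hA
      simp only [dif_pos hA]
      obtain ⟨h1, h2⟩ := hRlt _ (e.symm ⟨A, hA⟩).2
      rw [dif_pos h1]
      have : (⟨tra2Rp sk c ((e.symm ⟨A, hA⟩ : R) : ℕ), hmem _ h1⟩ : R) = e.symm ⟨A, hA⟩ := Subtype.ext h2
      rw [this, Equiv.apply_symm_apply]
    · intro x y hx hy
      simp only [dif_pos hx, dif_pos hy]
      rw [hrep x y hx hy]
      constructor
      · intro h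
        have : (⟨tra2Rp sk c x, hmem x hx⟩ : R) = ⟨tra2Rp sk c y, hmem y hy⟩ := Subtype.ext h
        rw [this]
      · intro h
        have h1 := e.injective (Fin.ext h)
        exact congrArg Subtype.val h1

/-- the grouped coefficient of `wt * G` in terms of the iterated block sum on the ghosts -/
theorem L9kBlk.B_le {N n D c : ℕ} {ms : ℕ → ℝ} (hms : IsMs N ms) (hc : c ≤ N + 1) (hpos : 0 < trPm ms c)
    {sk : ℕ → ℕ → ℕ} {β ρ : ℕ → ℕ} (h : L9kBlk N n D c sk β ρ) (hn : 1 ≤ n) (hD : 1 ≤ D) (G : (ℕ → ℕ → ℕ) → ℝ) (hG : L9Loc n G) :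
    |l9rB (l9aTab N n) (fun τ => l9aWt ms N 1 n τ * G τ) n c sk|
      ≤ (D : ℝ) ^ (D - 1) / trPm ms c * l9rVol ms n c sk *
        |l9It ms N c ((List.range n).map β) D (l9kG sk ρ) (fun T => G fun y z => T (D + y) (D + z))| := by
  have hcut := l9k_cut ms h hc hn hD G hG
  have hskw := h.skw hms hc hpos
  set It := l9It ms N c ((List.range n).map β) D (l9kG sk ρ) (fun T => G fun y z => T (D + y) (D + z)) with hIt
  set m := trPm ms c with hm
  have hB : l9rB (l9aTab N n) (fun τ => l9aWt ms N 1 n τ * G τ) n c sk = l9aWt ms N 1 D (l9kG sk ρ) * It / m ^ D := by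
    unfold l9rB
    rw [hcut, mul_div_assoc, mul_comm, div_mul_cancel₀]
    exact (pow_pos hpos D).ne'
  rw [hB, abs_div, abs_mul, abs_of_pos (pow_pos hpos D), div_le_iff₀ (pow_pos hpos D)]
  have hmD : m ^ D = m ^ (D - 1) * m := by
    rw [← pow_succ]
    congr 1
    omega
  calc |l9aWt ms N 1 D (l9kG sk ρ)| * |It| ≤ ((D * m) ^ (D - 1) * l9rVol ms n c sk) * |It| :=
        mul_le_mul_of_nonneg_right hskw (abs_nonneg _)
    _ = (D : ℝ) ^ (D - 1) / m * l9rVol ms n c sk * |It| * m ^ D := by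
        rw [hmD, mul_pow]
        field_simp

/-- **(E4) from a bound of the iterated block sums** (`Λ` = bound of the internal sums, MAIN): the coefficient `wt * G` on all the tables -/
theorem l9k_E4 {N n c : ℕ} {ms : ℕ → ℝ} (hms : IsMs N ms) (hc : c ≤ N + 1) (hpos : 0 < trPm ms c) (hn : 1 ≤ n)
    (G : (ℕ → ℕ → ℕ) → ℝ) (hG : L9Loc n G) (Λ : ℝ)
    (hIt : ∀ (D : ℕ) (β ρ : ℕ → ℕ) (sk : ℕ → ℕ → ℕ), 1 ≤ D → D ≤ n → L9kBlk N n D c sk β ρ →
      |l9It ms N c ((List.range n).map β) D (l9kG sk ρ) (fun T => G fun y z => T (D + y) (D + z))| ≤ Λ) :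
    L9rE4 ms n (l9aTab N n) (fun τ => l9aWt ms N 1 n τ * G τ) c ((n : ℝ) ^ (n - 1) / trPm ms c * Λ) := by
  classical
  intro sk
  have hvol := l9r_vol_nonneg hms n hc sk
  by_cases hsk : ∃ τ₀ ∈ l9aTab N n, l9rTc n c τ₀ = sk
  · obtain ⟨τ₀, hτ₀, rfl⟩ := hsk
    obtain ⟨D, β, ρ, hD1, hDn, hblk⟩ := l9k_blk_exists (l9a_mem_tab.mp hτ₀).1 hc hn
    refine (hblk.B_le hms hc hpos hn hD1 G hG).trans ?_
    have h1 : (D : ℝ) ^ (D - 1) ≤ (n : ℝ) ^ (n - 1) := by
      have hDn' : (D : ℝ) ≤ n := by exact_mod_cast hDn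
      have hn1 : (1 : ℝ) ≤ n := by exact_mod_cast hn
      calc (D : ℝ) ^ (D - 1) ≤ (n : ℝ) ^ (D - 1) := pow_le_pow_left₀ (Nat.cast_nonneg _) hDn' _
        _ ≤ (n : ℝ) ^ (n - 1) := pow_le_pow_right₀ hn1 (by omega)
    have h2 := hIt D β ρ _ hD1 hDn hblk
    have h3 : (D : ℝ) ^ (D - 1) / trPm ms c ≤ (n : ℝ) ^ (n - 1) / trPm ms c := div_le_div_of_nonneg_right h1 hpos.le
    have h4 : 0 ≤ (n : ℝ) ^ (n - 1) / trPm ms c := by positivity
    calc (D : ℝ) ^ (D - 1) / trPm ms c * l9rVol ms n c (l9rTc n c τ₀) *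
          |l9It ms N c ((List.range n).map β) D (l9kG (l9rTc n c τ₀) ρ) (fun T => G fun y z => T (D + y) (D + z))|
        ≤ (n : ℝ) ^ (n - 1) / trPm ms c * l9rVol ms n c (l9rTc n c τ₀) * Λ :=
          mul_le_mul (mul_le_mul_of_nonneg_right h3 hvol) h2 (abs_nonneg _) (mul_nonneg h4 hvol)
      _ = _ := by ring
  · have hΛ : 0 ≤ Λ := by
      obtain ⟨D, β, ρ, hD1, hDn, hblk⟩ := l9k_blk_exists (tr_comap_isTr (l9k_root_isTr N) (fun _ => 0) (p := n) (fun _ _ => by omega)) hc hn
      exact (abs_nonneg _).trans (hIt D β ρ _ hD1 hDn hblk)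
    have h0 : l9rB (l9aTab N n) (fun τ => l9aWt ms N 1 n τ * G τ) n c sk = 0 := by
      unfold l9rB
      refine Finset.sum_eq_zero fun τ hτ => ?_
      rw [Finset.mem_filter] at hτ
      exact absurd ⟨τ, hτ.1, hτ.2⟩ hsk
    rw [h0, abs_zero]
    have h4 : 0 ≤ (n : ℝ) ^ (n - 1) / trPm ms c := by positivity
    exact mul_nonneg (mul_nonneg h4 hΛ) hvol

theorem l9k_eqns_cite : True := by
  have := @l9kG.eq_1
  have := @l9kRot.eq_1
  trivial

end Claimed.Agent.R286
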