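import Claimed.Agent.R286.L09.Cumul

/-!
# Row 286 (S0533), LL Sec. 9, node GRID, file J: THE RING OF JETS AT A STEP      (owner helper263; head of the unit helper60; prefix `l9g`, `L9g`)

(M) of `L09/GridFD` asks for the TAYLOR DEFECT `f (t + h) - f t - h f'(t)` of a coefficient `f` which is a POLYNOMIAL (cumulants, products of clocks) of elementary numbers (tree numbers, clock values).
Instead of differentiating polynomials, compute in the commutative ring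
    `L9gJ = ℝ[ε] × ℝ`,      `X = (x₀ + x' ε, x₁)`  =  (value and derivative at `t`, value at `t + h`)
with the SUBMULTIPLICATIVE norm (for `δ² ≤ ε`)
    `l9gN h δ ε X = max |x₀| |x₁| + |x₁ - x₀| / δ + |x₁ - x₀ - h x'| / ε`      (`δ` = scale of the increments, `ε` = scale of the Taylor defects).
* `L9gR t h f X` : the function `f` REALISES the jet `X` (`f t = x₀`, `f (t + h) = x₁`, `HasDerivAt f x' t`); closed under `+, *, -`, constants, finite sums and products, `l9Cum` (271: cumulants over ANY commutative ring).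
* `L9gR.defect`  : `|f (t + h) - f t - h * deriv f t| ≤ ε * l9gN h δ ε X`.
* `l9gN_cum`     : `l9gN (l9Cum 𝕄 s) ≤ l9CumC s * K ^ |s|`  if all the moments have norm `≤ K`, `1 ≤ K`.
* `l9gInv`, `L9gR.inv`, `l9gN_inv` : inverses.
* `l9g_sc`       : a function with second differences `≤ C k²` has Taylor defect `≤ C h² / 2` at every point of differentiability (no convexity theory: dyadic iteration).
Mathlib + `L09/Cumul` only.   NO sorry.      TEX[LL:exp:prop-low-coefficients]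
-/

set_option autoImplicit false

namespace Claimed.Agent.R286

open Finset

/-- the ring of jets at a step -/
abbrev L9gJ : Type := DualNumber ℝ × ℝ

/-- value at `t` -/
def l9gV0 (X : L9gJ) : ℝ := X.1.fst
/-- derivative at `t` -/
def l9gDv (X : L9gJ) : ℝ := X.1.snd
/-- value at `t + h` -/
def l9gV1 (X : L9gJ) : ℝ := X.2
/-- the jet with the given components -/
def l9gMk (x0 x' x1 : ℝ) : L9gJ := (TrivSqZeroExt.inl x0 + TrivSqZeroExt.inr x', x1)

/-- the norm -/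
noncomputable def l9gN (h δ ε : ℝ) (X : L9gJ) : ℝ :=
  max |l9gV0 X| |l9gV1 X| + |l9gV1 X - l9gV0 X| / δ + |l9gV1 X - l9gV0 X - h * l9gDv X| / ε

/-- `f` realises the jet `X` at `(t, h)` -/
def L9gR (t h : ℝ) (f : ℝ → ℝ) (X : L9gJ) : Prop := f t = l9gV0 X ∧ f (t + h) = l9gV1 X ∧ HasDerivAt f (l9gDv X) t

theorem l9g_eqns_cite : True := by
  have := @l9gV0.eq_1
  have := @l9gDv.eq_1
  have := @l9gV1.eq_1
  have := @l9gMk.eq_1
  have := @l9gN.eq_1
  have := @L9gR.eq_1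
  trivial

/-! ## 1. components -/

theorem l9gV0_mul (X Y : L9gJ) : l9gV0 (X * Y) = l9gV0 X * l9gV0 Y := by simp [l9gV0]
theorem l9gV1_mul (X Y : L9gJ) : l9gV1 (X * Y) = l9gV1 X * l9gV1 Y := by simp [l9gV1]
theorem l9gDv_mul (X Y : L9gJ) : l9gDv (X * Y) = l9gV0 X * l9gDv Y + l9gDv X * l9gV0 Y := by
  simp [l9gDv, l9gV0, mul_comm]
theorem l9gV0_add (X Y : L9gJ) : l9gV0 (X + Y) = l9gV0 X + l9gV0 Y := by simp [l9gV0]
theorem l9gV1_add (X Y : L9gJ) : l9gV1 (X + Y) = l9gV1 X + l9gV1 Y := by simp [l9gV1]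
theorem l9gDv_add (X Y : L9gJ) : l9gDv (X + Y) = l9gDv X + l9gDv Y := by simp [l9gDv]
theorem l9gV0_neg (X : L9gJ) : l9gV0 (-X) = -l9gV0 X := by simp [l9gV0]
theorem l9gV1_neg (X : L9gJ) : l9gV1 (-X) = -l9gV1 X := by simp [l9gV1]
theorem l9gDv_neg (X : L9gJ) : l9gDv (-X) = -l9gDv X := by simp [l9gDv]
theorem l9gV0_one : l9gV0 1 = 1 := by simp [l9gV0]
theorem l9gV1_one : l9gV1 1 = 1 := by simp [l9gV1]
theorem l9gDv_one : l9gDv 1 = 0 := by simp [l9gDv]
theorem l9gV0_zero : l9gV0 0 = 0 := by simp [l9gV0]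
theorem l9gV1_zero : l9gV1 0 = 0 := by simp [l9gV1]
theorem l9gDv_zero : l9gDv 0 = 0 := by simp [l9gDv]
theorem l9gV0_nat (n : ℕ) : l9gV0 (n : L9gJ) = n := by simp [l9gV0]
theorem l9gV1_nat (n : ℕ) : l9gV1 (n : L9gJ) = n := by simp [l9gV1]
theorem l9gDv_nat (n : ℕ) : l9gDv (n : L9gJ) = 0 := by simp [l9gDv]
theorem l9gV0_mk (a b c : ℝ) : l9gV0 (l9gMk a b c) = a := by simp [l9gV0, l9gMk]
theorem l9gDv_mk (a b c : ℝ) : l9gDv (l9gMk a b c) = b := by simp [l9gDv, l9gMk]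
theorem l9gV1_mk (a b c : ℝ) : l9gV1 (l9gMk a b c) = c := by simp [l9gV1, l9gMk]

/-! ## 2. the norm -/

section norm
variable {h δ ε : ℝ}

theorem l9gN_nonneg (hδ : 0 < δ) (hε : 0 < ε) (X : L9gJ) : 0 ≤ l9gN h δ ε X := by
  unfold l9gN
  have := abs_nonneg (l9gV0 X)
  have := le_max_left |l9gV0 X| |l9gV1 X|
  positivity

theorem l9gN_v0 (hδ : 0 < δ) (hε : 0 < ε) (X : L9gJ) : |l9gV0 X| ≤ l9gN h δ ε X := by
  unfold l9gN
  have := le_max_left |l9gV0 X| |l9gV1 X|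
  have : 0 ≤ |l9gV1 X - l9gV0 X| / δ := by positivity
  have : 0 ≤ |l9gV1 X - l9gV0 X - h * l9gDv X| / ε := by positivity
  linarith

theorem l9gN_v1 (hδ : 0 < δ) (hε : 0 < ε) (X : L9gJ) : |l9gV1 X| ≤ l9gN h δ ε X := by
  unfold l9gN
  have := le_max_right |l9gV0 X| |l9gV1 X|
  have : 0 ≤ |l9gV1 X - l9gV0 X| / δ := by positivity
  have : 0 ≤ |l9gV1 X - l9gV0 X - h * l9gDv X| / ε := by positivity
  linarith

theorem l9gN_inc (hδ : 0 < δ) (hε : 0 < ε) (X : L9gJ) : |l9gV1 X - l9gV0 X| ≤ δ * l9gN h δ ε X := by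
  unfold l9gN
  have h1 : 0 ≤ max |l9gV0 X| |l9gV1 X| := (abs_nonneg _).trans (le_max_left _ _)
  have h2 : 0 ≤ |l9gV1 X - l9gV0 X - h * l9gDv X| / ε := by positivity
  have e : |l9gV1 X - l9gV0 X| = δ * (|l9gV1 X - l9gV0 X| / δ) := by field_simp
  calc |l9gV1 X - l9gV0 X| = δ * (|l9gV1 X - l9gV0 X| / δ) := e
    _ ≤ _ := mul_le_mul_of_nonneg_left (by linarith) hδ.le

theorem l9gN_def (hδ : 0 < δ) (hε : 0 < ε) (X : L9gJ) : |l9gV1 X - l9gV0 X - h * l9gDv X| ≤ ε * l9gN h δ ε X := by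
  unfold l9gN
  have h1 : 0 ≤ max |l9gV0 X| |l9gV1 X| := (abs_nonneg _).trans (le_max_left _ _)
  have h2 : 0 ≤ |l9gV1 X - l9gV0 X| / δ := by positivity
  have e : |l9gV1 X - l9gV0 X - h * l9gDv X| = ε * (|l9gV1 X - l9gV0 X - h * l9gDv X| / ε) := by field_simp
  calc |l9gV1 X - l9gV0 X - h * l9gDv X| = ε * (|l9gV1 X - l9gV0 X - h * l9gDv X| / ε) := e
    _ ≤ _ := mul_le_mul_of_nonneg_left (by linarith) hε.le

/-- how to bound the norm of a letter -/
theorem l9gN_le (hδ : 0 < δ) (hε : 0 < ε) {X : L9gJ} {A B C : ℝ} (h0 : |l9gV0 X| ≤ A) (h1 : |l9gV1 X| ≤ A)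
    (hB : |l9gV1 X - l9gV0 X| ≤ B * δ) (hC : |l9gV1 X - l9gV0 X - h * l9gDv X| ≤ C * ε) : l9gN h δ ε X ≤ A + B + C := by
  unfold l9gN
  have a1 : max |l9gV0 X| |l9gV1 X| ≤ A := max_le h0 h1
  have a2 : |l9gV1 X - l9gV0 X| / δ ≤ B := by rw [div_le_iff₀ hδ]; exact hB
  have a3 : |l9gV1 X - l9gV0 X - h * l9gDv X| / ε ≤ C := by rw [div_le_iff₀ hε]; exact hC
  linarith

/-- a larger scale of the defects gives a smaller norm -/
theorem l9gN_mono (hε : 0 < ε) {ε' : ℝ} (h' : ε ≤ ε') (X : L9gJ) : l9gN h δ ε' X ≤ l9gN h δ ε X := by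
  unfold l9gN
  have : |l9gV1 X - l9gV0 X - h * l9gDv X| / ε' ≤ |l9gV1 X - l9gV0 X - h * l9gDv X| / ε :=
    div_le_div_of_nonneg_left (abs_nonneg _) hε h'
  linarith

theorem l9gN_add (hδ : 0 < δ) (hε : 0 < ε) (X Y : L9gJ) : l9gN h δ ε (X + Y) ≤ l9gN h δ ε X + l9gN h δ ε Y := by
  unfold l9gN
  rw [l9gV0_add, l9gV1_add, l9gDv_add]
  set x0 := l9gV0 X; set x1 := l9gV1 X; set x' := l9gDv X
  set y0 := l9gV0 Y; set y1 := l9gV1 Y; set y' := l9gDv Y
  have a1 : max |x0 + y0| |x1 + y1| ≤ max |x0| |x1| + max |y0| |y1| :=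
    max_le ((abs_add_le _ _).trans (add_le_add (le_max_left _ _) (le_max_left _ _)))
      ((abs_add_le _ _).trans (add_le_add (le_max_right _ _) (le_max_right _ _)))
  have a2 : |x1 + y1 - (x0 + y0)| / δ ≤ |x1 - x0| / δ + |y1 - y0| / δ := by
    rw [← add_div]
    refine div_le_div_of_nonneg_right ?_ hδ.le
    have : x1 + y1 - (x0 + y0) = (x1 - x0) + (y1 - y0) := by ring
    rw [this]; exact abs_add_le _ _
  have a3 : |x1 + y1 - (x0 + y0) - h * (x' + y')| / ε ≤ |x1 - x0 - h * x'| / ε + |y1 - y0 - h * y'| / ε := by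
    rw [← add_div]
    refine div_le_div_of_nonneg_right ?_ hε.le
    have : x1 + y1 - (x0 + y0) - h * (x' + y') = (x1 - x0 - h * x') + (y1 - y0 - h * y') := by ring
    rw [this]; exact abs_add_le _ _
  linarith

theorem l9gN_neg (X : L9gJ) : l9gN h δ ε (-X) = l9gN h δ ε X := by
  unfold l9gN
  rw [l9gV0_neg, l9gV1_neg, l9gDv_neg, abs_neg, abs_neg]
  have e1 : -l9gV1 X - -l9gV0 X = -(l9gV1 X - l9gV0 X) := by ring
  have e2 : -(l9gV1 X - l9gV0 X) - h * -l9gDv X = -(l9gV1 X - l9gV0 X - h * l9gDv X) := by ring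
  rw [e1, e2, abs_neg, abs_neg]

theorem l9gN_zero : l9gN h δ ε 0 = 0 := by
  unfold l9gN
  simp [l9gV0_zero, l9gV1_zero, l9gDv_zero]

theorem l9gN_one : l9gN h δ ε 1 = 1 := by
  unfold l9gN
  simp [l9gV0_one, l9gV1_one, l9gDv_one]

theorem l9gN_nat (n : ℕ) : l9gN h δ ε (n : L9gJ) = n := by
  unfold l9gN
  simp [l9gV0_nat, l9gV1_nat, l9gDv_nat]

/-- **the norm is submultiplicative** as soon as `δ² ≤ ε` -/
theorem l9gN_mul (hδ : 0 < δ) (hε : 0 < ε) (hsq : δ ^ 2 ≤ ε) (X Y : L9gJ) : l9gN h δ ε (X * Y) ≤ l9gN h δ ε X * l9gN h δ ε Y := by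
  unfold l9gN
  rw [l9gV0_mul, l9gV1_mul, l9gDv_mul]
  set x0 := l9gV0 X; set x1 := l9gV1 X; set x' := l9gDv X
  set y0 := l9gV0 Y; set y1 := l9gV1 Y; set y' := l9gDv Y
  set mx := max |x0| |x1| with hmx
  set my := max |y0| |y1| with hmy
  set ix := |x1 - x0| / δ with hix
  set iy := |y1 - y0| / δ with hiy
  set tx := |x1 - x0 - h * x'| / ε with htx
  set ty := |y1 - y0 - h * y'| / ε with hty
  have hx0 : |x0| ≤ mx := le_max_left _ _
  have hx1 : |x1| ≤ mx := le_max_right _ _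
  have hy0 : |y0| ≤ my := le_max_left _ _
  have hy1 : |y1| ≤ my := le_max_right _ _
  have nmx : 0 ≤ mx := (abs_nonneg _).trans hx0
  have nmy : 0 ≤ my := (abs_nonneg _).trans hy0
  have nix : 0 ≤ ix := by positivity
  have niy : 0 ≤ iy := by positivity
  have ntx : 0 ≤ tx := by positivity
  have nty : 0 ≤ ty := by positivity
  have eix : |x1 - x0| = δ * ix := by rw [hix]; field_simp
  have eiy : |y1 - y0| = δ * iy := by rw [hiy]; field_simp
  have etx : |x1 - x0 - h * x'| = ε * tx := by rw [htx]; field_simp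
  have ety : |y1 - y0 - h * y'| = ε * ty := by rw [hty]; field_simp
  have a1 : max |x0 * y0| |x1 * y1| ≤ mx * my := by
    refine max_le ?_ ?_
    · rw [abs_mul]; exact mul_le_mul hx0 hy0 (abs_nonneg _) nmx
    · rw [abs_mul]; exact mul_le_mul hx1 hy1 (abs_nonneg _) nmx
  have a2 : |x1 * y1 - x0 * y0| / δ ≤ ix * my + mx * iy := by
    rw [div_le_iff₀ hδ]
    have e : x1 * y1 - x0 * y0 = (x1 - x0) * y1 + x0 * (y1 - y0) := by ring
    rw [e]
    refine (abs_add_le _ _).trans ?_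
    rw [abs_mul, abs_mul, eix, eiy]
    have b1 : δ * ix * |y1| ≤ δ * ix * my := mul_le_mul_of_nonneg_left hy1 (by positivity)
    have b2 : |x0| * (δ * iy) ≤ mx * (δ * iy) := mul_le_mul_of_nonneg_right hx0 (by positivity)
    nlinarith
  have a3 : |x1 * y1 - x0 * y0 - h * (x0 * y' + x' * y0)| / ε ≤ tx * my + mx * ty + ix * iy := by
    rw [div_le_iff₀ hε]
    have e : x1 * y1 - x0 * y0 - h * (x0 * y' + x' * y0)
        = (x1 - x0 - h * x') * y0 + x0 * (y1 - y0 - h * y') + (x1 - x0) * (y1 - y0) := by ring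
    rw [e]
    have c1 : |(x1 - x0 - h * x') * y0| ≤ tx * my * ε := by
      rw [abs_mul, etx]
      have := mul_le_mul_of_nonneg_left hy0 (by positivity : 0 ≤ ε * tx)
      linarith
    have c2 : |x0 * (y1 - y0 - h * y')| ≤ mx * ty * ε := by
      rw [abs_mul, ety]
      have := mul_le_mul_of_nonneg_right hx0 (by positivity : 0 ≤ ε * ty)
      linarith
    have c3 : |(x1 - x0) * (y1 - y0)| ≤ ix * iy * ε := by
      rw [abs_mul, eix, eiy]
      have e' : δ * ix * (δ * iy) = δ ^ 2 * (ix * iy) := by ring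
      rw [e']
      have := mul_le_mul_of_nonneg_right hsq (by positivity : 0 ≤ ix * iy)
      linarith
    have c4 := abs_add_le ((x1 - x0 - h * x') * y0 + x0 * (y1 - y0 - h * y')) ((x1 - x0) * (y1 - y0))
    have c5 := abs_add_le ((x1 - x0 - h * x') * y0) (x0 * (y1 - y0 - h * y'))
    linarith
  have a4 : 0 ≤ ix * ty + tx * iy + tx * ty := by positivity
  nlinarith

theorem l9gN_sum (hδ : 0 < δ) (hε : 0 < ε) {κ : Type} (s : Finset κ) (X : κ → L9gJ) :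
    l9gN h δ ε (∑ i ∈ s, X i) ≤ ∑ i ∈ s, l9gN h δ ε (X i) := by
  classical
  induction s using Finset.induction_on with
  | empty => simp [l9gN_zero]
  | insert a s ha ih =>
    rw [Finset.sum_insert ha, Finset.sum_insert ha]
    exact (l9gN_add hδ hε _ _).trans (add_le_add le_rfl ih)

theorem l9gN_prod (hδ : 0 < δ) (hε : 0 < ε) (hsq : δ ^ 2 ≤ ε) {κ : Type} (s : Finset κ) (X : κ → L9gJ) :
    l9gN h δ ε (∏ i ∈ s, X i) ≤ ∏ i ∈ s, l9gN h δ ε (X i) := by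
  classical
  induction s using Finset.induction_on with
  | empty => simp [l9gN_one]
  | insert a s ha ih =>
    rw [Finset.prod_insert ha, Finset.prod_insert ha]
    exact (l9gN_mul hδ hε hsq _ _).trans (mul_le_mul_of_nonneg_left ih (l9gN_nonneg hδ hε _))

theorem l9gN_pow_neg_one (n : ℕ) : l9gN h δ ε ((-1 : L9gJ) ^ n) = 1 := by
  rcases Nat.even_or_odd n with hn | hn
  · rw [hn.neg_one_pow, l9gN_one]
  · rw [hn.neg_one_pow, l9gN_neg, l9gN_one]

/-- **cumulants of jets** -/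
theorem l9gN_cum (hδ : 0 < δ) (hε : 0 < ε) (hsq : δ ^ 2 ≤ ε) {α : Type} [DecidableEq α] (M : Finset α → L9gJ) (s : Finset α) {K : ℝ}
    (hK : 1 ≤ K) (hM : ∀ P ⊆ s, P.Nonempty → l9gN h δ ε (M P) ≤ K) : l9gN h δ ε (l9Cum M s) ≤ l9CumC s * K ^ s.card := by
  rw [l9Cum_eq_sum]
  unfold l9CumC l9PS
  rw [Finset.sum_mul]
  refine (l9gN_sum hδ hε _ _).trans (Finset.sum_le_sum fun π _ => ?_)
  refine (l9gN_mul hδ hε hsq _ _).trans ?_
  have h1 : l9gN h δ ε ((-1 : L9gJ) ^ (π.parts.card - 1) * (((π.parts.card - 1).factorial : ℕ) : L9gJ)) ≤ ((π.parts.card - 1).factorial : ℝ) := by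
    refine (l9gN_mul hδ hε hsq _ _).trans ?_
    rw [l9gN_pow_neg_one, l9gN_nat, one_mul]
  have h2 : l9gN h δ ε (∏ P ∈ π.parts, M P) ≤ K ^ s.card := by
    refine (l9gN_prod hδ hε hsq _ _).trans ?_
    calc ∏ P ∈ π.parts, l9gN h δ ε (M P) ≤ ∏ _P ∈ π.parts, K :=
          Finset.prod_le_prod (fun P _ => l9gN_nonneg hδ hε _) fun P hP => hM P (π.le hP) (π.nonempty_of_mem_parts hP)
      _ = K ^ π.parts.card := by rw [Finset.prod_const]
      _ ≤ K ^ s.card := pow_le_pow_right₀ hK π.card_parts_le_card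
  exact mul_le_mul h1 h2 (l9gN_nonneg hδ hε _) (Nat.cast_nonneg _)

end norm

/-! ## 3. realisations -/

section real
variable {t h : ℝ}

theorem L9gR.mk' {f : ℝ → ℝ} {f' : ℝ} (hf : HasDerivAt f f' t) : L9gR t h f (l9gMk (f t) f' (f (t + h))) := by
  refine ⟨?_, ?_, ?_⟩
  · rw [l9gV0_mk]
  · rw [l9gV1_mk]
  · rw [l9gDv_mk]; exact hf

theorem L9gR.add {f g : ℝ → ℝ} {X Y : L9gJ} (hf : L9gR t h f X) (hg : L9gR t h g Y) : L9gR t h (fun s => f s + g s) (X + Y) := by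
  refine ⟨?_, ?_, ?_⟩
  · rw [l9gV0_add, ← hf.1, ← hg.1]
  · rw [l9gV1_add, ← hf.2.1, ← hg.2.1]
  · rw [l9gDv_add]; exact hf.2.2.add hg.2.2

theorem L9gR.mul {f g : ℝ → ℝ} {X Y : L9gJ} (hf : L9gR t h f X) (hg : L9gR t h g Y) : L9gR t h (fun s => f s * g s) (X * Y) := by
  refine ⟨?_, ?_, ?_⟩
  · rw [l9gV0_mul, ← hf.1, ← hg.1]
  · rw [l9gV1_mul, ← hf.2.1, ← hg.2.1]
  · rw [l9gDv_mul, ← hf.1, ← hg.1]
    have := hf.2.2.mul hg.2.2
    refine this.congr_deriv ?_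
    ring

theorem L9gR.neg {f : ℝ → ℝ} {X : L9gJ} (hf : L9gR t h f X) : L9gR t h (fun s => -f s) (-X) := by
  refine ⟨?_, ?_, ?_⟩
  · rw [l9gV0_neg, ← hf.1]
  · rw [l9gV1_neg, ← hf.2.1]
  · rw [l9gDv_neg]; exact hf.2.2.neg

theorem l9gR_one : L9gR t h (fun _ => 1) 1 :=
  ⟨l9gV0_one.symm, l9gV1_one.symm, by rw [l9gDv_one]; exact hasDerivAt_const _ _⟩

theorem l9gR_zero : L9gR t h (fun _ => 0) 0 :=
  ⟨l9gV0_zero.symm, l9gV1_zero.symm, by rw [l9gDv_zero]; exact hasDerivAt_const _ _⟩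

theorem l9gR_nat (n : ℕ) : L9gR t h (fun _ => (n : ℝ)) (n : L9gJ) :=
  ⟨(l9gV0_nat n).symm, (l9gV1_nat n).symm, by rw [l9gDv_nat]; exact hasDerivAt_const _ _⟩

theorem l9gR_const (c : ℝ) : L9gR t h (fun _ => c) (l9gMk c 0 c) :=
  ⟨(l9gV0_mk _ _ _).symm, (l9gV1_mk _ _ _).symm, by rw [l9gDv_mk]; exact hasDerivAt_const _ _⟩

theorem L9gR.congr {f g : ℝ → ℝ} {X : L9gJ} (hf : L9gR t h f X) (e : ∀ s, g s = f s) : L9gR t h g X := by
  have : g = f := funext e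
  rw [this]; exact hf

theorem L9gR.sum {κ : Type} (s : Finset κ) {f : κ → ℝ → ℝ} {X : κ → L9gJ} (hf : ∀ i ∈ s, L9gR t h (f i) (X i)) :
    L9gR t h (fun u => ∑ i ∈ s, f i u) (∑ i ∈ s, X i) := by
  classical
  induction s using Finset.induction_on with
  | empty => simpa using l9gR_zero
  | insert a s ha ih =>
    simp only [Finset.sum_insert ha]
    exact (hf a (Finset.mem_insert_self _ _)).add (ih fun i hi => hf i (Finset.mem_insert_of_mem hi))

theorem L9gR.prod {κ : Type} (s : Finset κ) {f : κ → ℝ → ℝ} {X : κ → L9gJ} (hf : ∀ i ∈ s, L9gR t h (f i) (X i)) :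
    L9gR t h (fun u => ∏ i ∈ s, f i u) (∏ i ∈ s, X i) := by
  classical
  induction s using Finset.induction_on with
  | empty => simpa using l9gR_one
  | insert a s ha ih =>
    simp only [Finset.prod_insert ha]
    exact (hf a (Finset.mem_insert_self _ _)).mul (ih fun i hi => hf i (Finset.mem_insert_of_mem hi))

theorem l9gR_pow_neg_one (n : ℕ) : L9gR t h (fun _ => (-1 : ℝ) ^ n) ((-1 : L9gJ) ^ n) := by
  rcases Nat.even_or_odd n with hn | hn
  · rw [hn.neg_one_pow]; simp only [hn.neg_one_pow]; exact l9gR_one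
  · rw [hn.neg_one_pow]; simp only [hn.neg_one_pow]; exact l9gR_one.neg

/-- cumulants -/
theorem L9gR.cum {α : Type} [DecidableEq α] {m : ℝ → Finset α → ℝ} {M : Finset α → L9gJ} (s : Finset α)
    (hm : ∀ P ⊆ s, P.Nonempty → L9gR t h (fun u => m u P) (M P)) : L9gR t h (fun u => l9Cum (m u) s) (l9Cum M s) := by
  simp only [l9Cum_eq_sum]
  refine L9gR.sum _ fun π _ => ?_
  refine ((l9gR_pow_neg_one _).mul (l9gR_nat _)).mul ?_
  exact L9gR.prod _ fun P hP => hm P (π.le hP) (π.nonempty_of_mem_parts hP)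

/-- **the Taylor defect of a realisation** -/
theorem L9gR.defect {f : ℝ → ℝ} {X : L9gJ} (hf : L9gR t h f X) {δ ε : ℝ} (hδ : 0 < δ) (hε : 0 < ε) :
    |f (t + h) - f t - h * deriv f t| ≤ ε * l9gN h δ ε X := by
  rw [hf.2.2.deriv, hf.1, hf.2.1]
  exact l9gN_def hδ hε X

end real

/-! ## 4. inverses -/

/-- the inverse jet -/
noncomputable def l9gInv (X : L9gJ) : L9gJ := l9gMk (l9gV0 X)⁻¹ (-l9gDv X / l9gV0 X ^ 2) (l9gV1 X)⁻¹

theorem l9g_eqns_cite2 : True := by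
  have := @l9gInv.eq_1
  trivial

theorem L9gR.inv {t h : ℝ} {f : ℝ → ℝ} {X : L9gJ} (hf : L9gR t h f X) (h0 : l9gV0 X ≠ 0) : L9gR t h (fun s => (f s)⁻¹) (l9gInv X) := by
  unfold l9gInv
  refine ⟨?_, ?_, ?_⟩
  · rw [l9gV0_mk, ← hf.1]
  · rw [l9gV1_mk, ← hf.2.1]
  · rw [l9gDv_mk, ← hf.1]
    exact hf.2.2.fun_inv (by rw [hf.1]; exact h0)

theorem l9gN_inv {h δ ε : ℝ} (hδ : 0 < δ) (hε : 0 < ε) (hsq : δ ^ 2 ≤ ε) {X : L9gJ} {c : ℝ} (hc : 0 < c) (h0 : c ≤ |l9gV0 X|)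
    (h1 : c ≤ |l9gV1 X|) :
    l9gN h δ ε (l9gInv X) ≤ c⁻¹ + l9gN h δ ε X / c ^ 2 + (l9gN h δ ε X / c ^ 2 + l9gN h δ ε X ^ 2 / c ^ 3) := by
  set n := l9gN h δ ε X with hn
  have hn0 : 0 ≤ n := l9gN_nonneg hδ hε X
  have hi := l9gN_inc (h := h) hδ hε X
  have hd := l9gN_def (h := h) hδ hε X
  rw [← hn] at hi hd
  set x0 := l9gV0 X
  set x1 := l9gV1 X
  set x' := l9gDv X
  have p0 : 0 < |x0| := hc.trans_le h0
  have p1 : 0 < |x1| := hc.trans_le h1
  have n0 : x0 ≠ 0 := abs_pos.1 p0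
  have n1 : x1 ≠ 0 := abs_pos.1 p1
  have q01 : c ^ 2 ≤ |x0| * |x1| := by nlinarith
  have q00 : c ^ 2 ≤ |x0| ^ 2 := by nlinarith
  have q001 : c ^ 3 ≤ |x0| ^ 2 * |x1| := by
    calc c ^ 3 = c ^ 2 * c := by ring
      _ ≤ |x0| ^ 2 * |x1| := mul_le_mul q00 h1 hc.le (by positivity)
  refine l9gN_le hδ hε ?_ ?_ ?_ ?_
  · unfold l9gInv
    rw [l9gV0_mk, abs_inv]
    exact inv_anti₀ hc h0
  · unfold l9gInv
    rw [l9gV1_mk, abs_inv]
    exact inv_anti₀ hc h1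
  · unfold l9gInv
    rw [l9gV0_mk, l9gV1_mk]
    have e : x1⁻¹ - x0⁻¹ = -(x1 - x0) / (x0 * x1) := by field_simp; ring
    rw [e, abs_div, abs_neg, abs_mul, div_le_iff₀ (by positivity)]
    calc |x1 - x0| ≤ δ * n := hi
      _ = n / c ^ 2 * δ * c ^ 2 := by field_simp
      _ ≤ n / c ^ 2 * δ * (|x0| * |x1|) := mul_le_mul_of_nonneg_left q01 (by positivity)
  · unfold l9gInv
    rw [l9gV0_mk, l9gV1_mk, l9gDv_mk]
    have e : x1⁻¹ - x0⁻¹ - h * (-x' / x0 ^ 2) = -(x1 - x0 - h * x') / x0 ^ 2 + (x1 - x0) ^ 2 / (x0 ^ 2 * x1) := by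
      field_simp; ring
    rw [e]
    refine (abs_add_le _ _).trans ?_
    rw [add_mul]
    refine add_le_add ?_ ?_
    · rw [abs_div, abs_neg, abs_pow, div_le_iff₀ (by positivity)]
      calc |x1 - x0 - h * x'| ≤ ε * n := hd
        _ = n / c ^ 2 * ε * c ^ 2 := by field_simp
        _ ≤ n / c ^ 2 * ε * |x0| ^ 2 := mul_le_mul_of_nonneg_left q00 (by positivity)
    · rw [abs_div, abs_pow, abs_mul, abs_pow, div_le_iff₀ (by positivity)]
      calc |x1 - x0| ^ 2 ≤ (δ * n) ^ 2 := pow_le_pow_left₀ (abs_nonneg _) hi 2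
        _ = δ ^ 2 * n ^ 2 := by ring
        _ ≤ ε * n ^ 2 := mul_le_mul_of_nonneg_right hsq (by positivity)
        _ = n ^ 2 / c ^ 3 * ε * c ^ 3 := by field_simp
        _ ≤ n ^ 2 / c ^ 3 * ε * (|x0| ^ 2 * |x1|) := mul_le_mul_of_nonneg_left q001 (by positivity)

/-! ## 5. second differences -/

open Filter Topology in
/-- **second differences ⟹ Taylor defect**: no convexity theory, dyadic iteration towards the point of differentiability -/
theorem l9g_sc {g : ℝ → ℝ} {t h g' C : ℝ} (hg : HasDerivAt g g' t)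
    (h2 : ∀ u : ℝ, 0 < u → u ≤ 1 / 2 → |g (t + 2 * (u * h)) + g t - 2 * g (t + u * h)| ≤ C * (u * h) ^ 2) :
    |g (t + h) - g t - h * g'| ≤ C * h ^ 2 / 2 := by
  rcases eq_or_ne h 0 with rfl | hh
  · simp
  set b : ℕ → ℝ := fun n => 2 ^ n * (g (t + h / 2 ^ n) - g t) with hb
  have hstep : ∀ n, |b n - b (n + 1)| ≤ C * h ^ 2 / 4 * (1 / 2) ^ n := by
    intro n
    have hu : (0 : ℝ) < 1 / 2 ^ (n + 1) := by positivity
    have hu2 : (1 : ℝ) / 2 ^ (n + 1) ≤ 1 / 2 := by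
      rw [pow_succ]
      have : (1 : ℝ) ≤ 2 ^ n := one_le_pow₀ (by norm_num)
      rw [div_le_div_iff₀ (by positivity) (by norm_num)]
      linarith
    have := h2 _ hu hu2
    have e1 : t + 2 * (1 / 2 ^ (n + 1) * h) = t + h / 2 ^ n := by
      rw [pow_succ]; field_simp
    have e2 : t + 1 / 2 ^ (n + 1) * h = t + h / 2 ^ (n + 1) := by ring
    rw [e1, e2] at this
    have e3 : b n - b (n + 1) = 2 ^ n * (g (t + h / 2 ^ n) + g t - 2 * g (t + h / 2 ^ (n + 1))) := by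
      simp only [hb]; rw [pow_succ]; ring
    rw [e3, abs_mul, abs_of_pos (by positivity : (0 : ℝ) < 2 ^ n)]
    calc (2 : ℝ) ^ n * |g (t + h / 2 ^ n) + g t - 2 * g (t + h / 2 ^ (n + 1))|
        ≤ 2 ^ n * (C * (1 / 2 ^ (n + 1) * h) ^ 2) := mul_le_mul_of_nonneg_left this (by positivity)
      _ = C * h ^ 2 / 4 * (1 / 2) ^ n := by
        rw [pow_succ, one_div_pow]; field_simp; ring
  have hC : 0 ≤ C * h ^ 2 / 4 := by
    have := (abs_nonneg _).trans (hstep 0)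
    simpa using this
  have hsum : ∀ n, |b 0 - b n| ≤ C * h ^ 2 / 4 * (2 - 2 * (1 / 2) ^ n) := by
    intro n
    induction n with
    | zero => simp
    | succ n ih =>
      have e : b 0 - b (n + 1) = (b 0 - b n) + (b n - b (n + 1)) := by ring
      rw [e]
      refine (abs_add_le _ _).trans ((add_le_add ih (hstep n)).trans (le_of_eq ?_))
      rw [pow_succ]; ring
  have hbd : ∀ n, |b 0 - b n| ≤ C * h ^ 2 / 2 := by
    intro n
    refine (hsum n).trans ?_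
    have : (0 : ℝ) ≤ (1 / 2) ^ n := by positivity
    nlinarith
  have hlim : Tendsto b atTop (𝓝 (h * g')) := by
    have h1 := hasDerivAt_iff_tendsto_slope_zero.1 hg
    have hk : Tendsto (fun n : ℕ => h / 2 ^ n) atTop (𝓝[≠] 0) := by
      rw [tendsto_nhdsWithin_iff]
      refine ⟨?_, Eventually.of_forall fun n => by
        have : h / 2 ^ n ≠ 0 := div_ne_zero hh (by positivity)
        exact this⟩
      have : Tendsto (fun n : ℕ => h * (1 / 2 : ℝ) ^ n) atTop (𝓝 (h * 0)) :=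
        (tendsto_pow_atTop_nhds_zero_of_lt_one (by norm_num) (by norm_num)).const_mul h
      rw [mul_zero] at this
      refine this.congr fun n => ?_
      rw [one_div_pow]; ring
    have h3 := (h1.comp hk).const_mul h
    refine h3.congr fun n => ?_
    simp only [hb, Function.comp, smul_eq_mul]
    field_simp
  have hfin : |b 0 - h * g'| ≤ C * h ^ 2 / 2 := by
    have : Tendsto (fun n => |b 0 - b n|) atTop (𝓝 |b 0 - h * g'|) := (tendsto_const_nhds.sub hlim).abs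
    exact le_of_tendsto' this hbd
  have e0 : b 0 = g (t + h) - g t := by simp [hb]
  rw [e0] at hfin
  exact hfin

end Claimed.Agent.R286
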