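import Mathlib

/-!
# Row 286, LL Section 9: CUMULANT / PARTITION KIT      (helper271; paper free, Mathlib only)

Index type `α` arbitrary (`Fin j`, `ℕ`, ...).  Values in an arbitrary commutative ring `R` (`ℝ`, the `𝕂` of `L14Calc`, ...).  `m : Finset α → R` = moment functional (`m P` = joint moment of the sub-family `P`; the value `m ∅` is never used).
* `l9PS f s = ∑_{π : Finpartition s} f π.parts`;  `l9_peel` (pairs (partition, part) = pairs (nonempty `B ⊆ s`, partition of `s \\ B`));  `l9PS_insert` (recursion on the part which contains `a`);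
* `l9Conv` = subset convolution (defeq to `jtMul` of `Defs/Jet`), `l9Conv_comm`, `l9Conv_assoc`, `l9Conv_one`;
* `l9Cum m s = ∑_π (-1)^(|π|-1) (|π|-1)! ∏_{P ∈ π} m P`  (`l9Cum_eq_sum`);   `l9Inv` = coefficients of the reciprocal series;
* `l9_moment_rec`      : `m (a ∪ s) = ∑_{t ⊆ s} κ(a ∪ t) m(s \\ t)`;
* `l9_moment_cumulant` : `m s = ∑_π ∏_{P ∈ π} κ P`;      `l9Cum_unique`;
* `l9Cum_mixed`        : mixed cumulants of independent groups vanish;
* `l9Cum_smul`, `l9Cum_congr`, `l9Cum_top`, `l9_two_le_card_parts`, `l9Cum_abs_le`, `l9Cum_hasDerivAt`;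
* `l9Cum_one .. l9Cum_four` : explicit formulas.
-/

set_option autoImplicit false

namespace Claimed.Agent.R286

open Finset

variable {α : Type} [DecidableEq α] {R : Type} [CommRing R]

/-- sum over the set partitions `π` of `s` of a function of the SET OF PARTS -/
noncomputable def l9PS (f : Finset (Finset α) → R) (s : Finset α) : R := ∑ π : Finpartition s, f π.parts

theorem l9_avoid_parts {s : Finset α} (π : Finpartition s) {B : Finset α} (hB : B ∈ π.parts) :
    (π.avoid B).parts = π.parts.erase B := by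
  ext c
  simp only [Finpartition.mem_avoid, mem_erase]
  constructor
  · rintro ⟨d, hd, hdB, rfl⟩
    have hne : d ≠ B := fun h => hdB (h ▸ le_rfl)
    have hdis : Disjoint d B := π.disjoint hd hB hne
    rw [hdis.sdiff_eq_left]
    exact ⟨hne, hd⟩
  · rintro ⟨hne, hc⟩
    have hdis : Disjoint c B := π.disjoint hc hB hne
    refine ⟨c, hc, ?_, hdis.sdiff_eq_left⟩
    intro hle
    exact π.ne_bot hc (hdis.eq_bot_of_le hle)

/-- **peeling one part**: pairs (partition of `s`, one of its parts) = pairs (nonempty `B ⊆ s`, partition of `s \ B`) -/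
theorem l9_peel (s : Finset α) (F : Finset α → Finset (Finset α) → R) :
    ∑ π : Finpartition s, ∑ B ∈ π.parts, F B (π.parts.erase B)
      = ∑ B ∈ s.powerset.filter (fun B => B.Nonempty), l9PS (F B) (s \ B) := by
  unfold l9PS
  rw [Finset.sum_sigma', Finset.sum_sigma']
  refine Finset.sum_bij'
    (i := fun x _ => (⟨x.2, x.1.avoid x.2⟩ : Σ B : Finset α, Finpartition (s \ B)))
    (j := fun y hy => (⟨y.2.extend (b := y.1) (c := s)
        (by
          have := (mem_filter.1 (mem_sigma.1 hy).1).2
          exact this.ne_empty)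
        (disjoint_sdiff_self_left)
        (by
          have := mem_powerset.1 (mem_filter.1 (mem_sigma.1 hy).1).1
          simpa using Finset.sdiff_union_of_subset this), y.1⟩ : Σ _ : Finpartition s, Finset α))
    ?_ ?_ ?_ ?_ ?_
  · rintro ⟨π, B⟩ hx
    have hB : B ∈ π.parts := (mem_sigma.1 hx).2
    simp only [mem_sigma, mem_filter, mem_powerset, mem_univ, and_true]
    exact ⟨π.le hB, π.nonempty_of_mem_parts hB⟩
  · rintro ⟨B, π'⟩ hy
    simp only [mem_sigma, mem_univ, true_and, Finpartition.extend_parts, mem_insert, true_or]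
  · rintro ⟨π, B⟩ hx
    have hB : B ∈ π.parts := (mem_sigma.1 hx).2
    simp only
    congr 1
    ext c
    simp only [Finpartition.extend_parts, l9_avoid_parts π hB, insert_erase hB]
  · rintro ⟨B, π'⟩ hy
    simp only
    congr 1
    ext c
    have hBn : B ∉ π'.parts := by
      intro h
      have h1 : B ⊆ s \ B := π'.le h
      have h2 := (mem_filter.1 (mem_sigma.1 hy).1).2
      obtain ⟨x, hx⟩ := h2
      exact (mem_sdiff.1 (h1 hx)).2 hx
    rw [l9_avoid_parts _ (by simp)]
    simp [hBn]
  · rintro ⟨π, B⟩ hx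
    have hB : B ∈ π.parts := (mem_sigma.1 hx).2
    simp only [l9_avoid_parts π hB]


theorem l9PS_congr {s : Finset α} {f g : Finset (Finset α) → R}
    (h : ∀ π : Finpartition s, f π.parts = g π.parts) : l9PS f s = l9PS g s :=
  Finset.sum_congr rfl fun π _ => h π

theorem l9PS_mul_left (c : R) (f : Finset (Finset α) → R) (s : Finset α) :
    l9PS (fun Q => c * f Q) s = c * l9PS f s := by
  unfold l9PS; rw [Finset.mul_sum]

theorem l9PS_add (f g : Finset (Finset α) → R) (s : Finset α) :
    l9PS (fun Q => f Q + g Q) s = l9PS f s + l9PS g s := by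
  unfold l9PS; rw [Finset.sum_add_distrib]

theorem l9PS_zero (s : Finset α) : l9PS (fun _ => (0 : R)) s = 0 := by
  unfold l9PS; simp

theorem l9PS_empty (f : Finset (Finset α) → R) : l9PS f (∅ : Finset α) = f ∅ := by
  unfold l9PS
  have : (Finset.univ : Finset (Finpartition (∅ : Finset α))) = {Finpartition.empty (Finset α)} := by
    ext π
    simp only [mem_univ, mem_singleton, true_iff]
    exact Subsingleton.elim (α := Finpartition (⊥ : Finset α)) _ _
  rw [this, Finset.sum_singleton]
  rfl

/-- the same sum with any `Fintype` instance -/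
theorem l9PS_eq_sum (f : Finset (Finset α) → R) (s : Finset α) (inst : Fintype (Finpartition s)) :
    l9PS f s = @Finset.sum _ _ _ (@Finset.univ _ inst) fun π : Finpartition s => f π.parts := by
  unfold l9PS
  congr!

/-- **recursion on the part which contains `a`** -/
theorem l9PS_insert {a : α} {s : Finset α} (ha : a ∉ s) (f : Finset (Finset α) → R) :
    l9PS f (insert a s) = ∑ t ∈ s.powerset, l9PS (fun Q => f (insert (insert a t) Q)) (s \ t) := by
  have h := l9_peel (insert a s) (fun B Q => if a ∈ B then f (insert B Q) else 0)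
  have hL : ∑ π : Finpartition (insert a s), ∑ B ∈ π.parts,
      (if a ∈ B then f (insert B (π.parts.erase B)) else 0) = l9PS f (insert a s) := by
    unfold l9PS
    refine Finset.sum_congr rfl fun π _ => ?_
    have hmem : π.part a ∈ π.parts := π.part_mem.2 (mem_insert_self a s)
    rw [Finset.sum_eq_single (π.part a)]
    · rw [if_pos (π.mem_part_self.2 (mem_insert_self a s)), insert_erase hmem]
    · intro B hB hne
      rw [if_neg]
      intro haB
      exact hne (π.part_eq_of_mem hB haB).symm
    · intro h; exact absurd hmem h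
  rw [← hL, h]
  have hsub : s.powerset.image (insert a) ⊆ (insert a s).powerset.filter fun B => B.Nonempty := by
    intro B hB
    obtain ⟨t, ht, rfl⟩ := mem_image.1 hB
    exact mem_filter.2 ⟨mem_powerset.2 (insert_subset_insert a (mem_powerset.1 ht)), insert_nonempty a t⟩
  rw [← Finset.sum_subset hsub]
  · rw [Finset.sum_image]
    · refine Finset.sum_congr rfl fun t ht => ?_
      have hat : a ∉ t := fun h => ha (mem_powerset.1 ht h)
      have hset : insert a s \ insert a t = s \ t := by
        ext x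
        simp only [mem_sdiff, mem_insert]
        constructor
        · rintro ⟨h1, h2⟩
          push Not at h2
          exact ⟨h1.resolve_left h2.1, h2.2⟩
        · rintro ⟨h1, h2⟩
          refine ⟨Or.inr h1, ?_⟩
          rintro (rfl | h)
          · exact ha h1
          · exact h2 h
      rw [hset]
      simp only [mem_insert_self, if_true]
    · intro t ht t' ht' hEq
      have hat : a ∉ t := fun h => ha (mem_powerset.1 ht h)
      have hat' : a ∉ t' := fun h => ha (mem_powerset.1 ht' h)
      have := congrArg (fun B => B.erase a) hEq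
      simpa [erase_insert hat, erase_insert hat'] using this
  · intro B hB hBn
    have haB : a ∉ B := by
      intro haB
      apply hBn
      refine mem_image.2 ⟨B.erase a, ?_, insert_erase haB⟩
      rw [mem_powerset]
      intro x hx
      have h1 := mem_powerset.1 (mem_filter.1 hB).1 (mem_of_mem_erase hx)
      exact (mem_insert.1 h1).resolve_left (ne_of_mem_erase hx)
    simp only [haB, if_false]
    exact l9PS_zero _

/-! ### the convolution algebra of set functions -/

/-- convolution over the splittings of `s` in two pieces -/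
def l9Conv (f g : Finset α → R) (s : Finset α) : R := ∑ t ∈ s.powerset, f t * g (s \ t)

/-- unit of the convolution -/
def l9One : Finset α → R := fun s => if s = ∅ then 1 else 0

theorem l9Conv_comm (f g : Finset α → R) (s : Finset α) : l9Conv f g s = l9Conv g f s := by
  unfold l9Conv
  refine Finset.sum_bij' (fun t _ => s \ t) (fun t _ => s \ t) ?_ ?_ ?_ ?_ ?_
  · intro t _; exact mem_powerset.2 sdiff_subset
  · intro t _; exact mem_powerset.2 sdiff_subset
  · intro t ht; exact Finset.sdiff_sdiff_eq_self (mem_powerset.1 ht)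
  · intro t ht; exact Finset.sdiff_sdiff_eq_self (mem_powerset.1 ht)
  · intro t ht; rw [Finset.sdiff_sdiff_eq_self (mem_powerset.1 ht), mul_comm]

theorem l9Conv_one (f : Finset α → R) (s : Finset α) : l9Conv f l9One s = f s := by
  unfold l9Conv l9One
  rw [Finset.sum_eq_single s]
  · simp
  · intro t ht hne
    rw [if_neg, mul_zero]
    intro h
    exact hne (Subset.antisymm (mem_powerset.1 ht) (sdiff_eq_empty_iff_subset.1 h))
  · intro h; exact absurd (mem_powerset.2 (Subset.refl s)) h

theorem l9Conv_assoc (f g h : Finset α → R) (s : Finset α) :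
    l9Conv (l9Conv f g) h s = l9Conv f (l9Conv g h) s := by
  unfold l9Conv
  simp only [Finset.sum_mul, Finset.mul_sum]
  rw [Finset.sum_sigma', Finset.sum_sigma']
  refine Finset.sum_bij'
    (i := fun x _ => (⟨x.2, x.1 \ x.2⟩ : Σ _ : Finset α, Finset α))
    (j := fun y _ => (⟨y.1 ∪ y.2, y.1⟩ : Σ _ : Finset α, Finset α)) ?_ ?_ ?_ ?_ ?_
  · rintro ⟨t, u⟩ hx
    simp only [mem_sigma, mem_powerset] at hx ⊢
    exact ⟨hx.2.trans hx.1, sdiff_subset_sdiff hx.1 (Subset.refl u)⟩
  · rintro ⟨u, v⟩ hy
    simp only [mem_sigma, mem_powerset] at hy ⊢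
    exact ⟨union_subset hy.1 (hy.2.trans sdiff_subset), subset_union_left⟩
  · rintro ⟨t, u⟩ hx
    simp only [mem_sigma, mem_powerset] at hx
    simp only [union_sdiff_of_subset hx.2]
  · rintro ⟨u, v⟩ hy
    simp only [mem_sigma, mem_powerset] at hy
    have hdis : Disjoint v u := by
      rw [Finset.disjoint_left]
      intro x hx hxu
      exact (mem_sdiff.1 (hy.2 hx)).2 hxu
    simp only [union_sdiff_cancel_left hdis.symm]
  · rintro ⟨t, u⟩ hx
    simp only [mem_sigma, mem_powerset] at hx
    have : (s \ u) \ (t \ u) = s \ t := by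
      ext x
      simp only [mem_sdiff]
      constructor
      · rintro ⟨⟨h1, h2⟩, h3⟩
        exact ⟨h1, fun h => h3 ⟨h, h2⟩⟩
      · rintro ⟨h1, h2⟩
        exact ⟨⟨h1, fun h => h2 (hx.2 h)⟩, fun h => h2 h.1⟩
    simp only [this, mul_assoc]

theorem l9Conv_congr {f f' g g' : Finset α → R} {s : Finset α} (hf : ∀ t ⊆ s, f t = f' t)
    (hg : ∀ t ⊆ s, g t = g' t) : l9Conv f g s = l9Conv f' g' s := by
  unfold l9Conv
  refine Finset.sum_congr rfl fun t ht => ?_
  rw [hf t (mem_powerset.1 ht), hg _ sdiff_subset]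


/-! ### cumulants -/

/-- **joint cumulant** of the family indexed by `s`; `m P` = the joint moment of the sub-family `P` -/
noncomputable def l9Cum (m : Finset α → R) (s : Finset α) : R :=
  l9PS (fun Q => (-1 : R) ^ (Q.card - 1) * ((Q.card - 1).factorial : R) * ∏ P ∈ Q, m P) s

/-- coefficients of the reciprocal of the moment series -/
noncomputable def l9Inv (m : Finset α → R) (s : Finset α) : R :=
  l9PS (fun Q => (-1 : R) ^ Q.card * (Q.card.factorial : R) * ∏ P ∈ Q, m P) s

/-- the moment functional normalised by `m ∅ = 1` -/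
def l9Tl (m : Finset α → R) : Finset α → R := fun s => if s = ∅ then 1 else m s

theorem l9Cum_eq_sum (m : Finset α → R) (s : Finset α) :
    l9Cum m s = ∑ π : Finpartition s,
      (-1 : R) ^ (π.parts.card - 1) * ((π.parts.card - 1).factorial : R) * ∏ P ∈ π.parts, m P := rfl

theorem l9Inv_empty (m : Finset α → R) : l9Inv m ∅ = 1 := by
  unfold l9Inv; rw [l9PS_empty]; simp

theorem l9Inv_rec (m : Finset α → R) {s : Finset α} (hs : s.Nonempty) :
    l9Inv m s = - ∑ B ∈ s.powerset.filter (fun B => B.Nonempty), m B * l9Inv m (s \ B) := by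
  have h := l9_peel s (fun B Q => -(m B * ((-1 : R) ^ Q.card * (Q.card.factorial : R) * ∏ P ∈ Q, m P)))
  have hR : ∑ B ∈ s.powerset.filter (fun B => B.Nonempty),
      l9PS (fun Q => -(m B * ((-1 : R) ^ Q.card * (Q.card.factorial : R) * ∏ P ∈ Q, m P))) (s \ B)
      = - ∑ B ∈ s.powerset.filter (fun B => B.Nonempty), m B * l9Inv m (s \ B) := by
    rw [← Finset.sum_neg_distrib]
    refine Finset.sum_congr rfl fun B _ => ?_
    unfold l9Inv
    have := l9PS_mul_left (-(m B)) (fun Q => (-1 : R) ^ Q.card * (Q.card.factorial : R) * ∏ P ∈ Q, m P) (s \ B)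
    rw [← neg_mul, ← this]
    exact l9PS_congr fun π => by ring
  rw [← hR, ← h]
  unfold l9Inv l9PS
  refine Finset.sum_congr rfl fun π _ => ?_
  beta_reduce
  have hk : 0 < π.parts.card := Finset.card_pos.2 (π.parts_nonempty hs.ne_empty)
  have hterm : ∀ B ∈ π.parts,
      -(m B * ((-1 : R) ^ (π.parts.erase B).card * ((π.parts.erase B).card.factorial : R) *
        ∏ P ∈ π.parts.erase B, m P))
      = (-1 : R) ^ π.parts.card * ((π.parts.card - 1).factorial : R) * ∏ P ∈ π.parts, m P := by
    intro B hB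
    rw [Finset.card_erase_of_mem hB, ← Finset.mul_prod_erase _ _ hB]
    obtain ⟨k, hk'⟩ : ∃ k, π.parts.card = k + 1 := ⟨π.parts.card - 1, by omega⟩
    rw [hk']
    simp only [Nat.add_sub_cancel, pow_succ]
    ring
  rw [Finset.sum_congr rfl hterm, Finset.sum_const, nsmul_eq_mul]
  obtain ⟨k, hk'⟩ : ∃ k, π.parts.card = k + 1 := ⟨π.parts.card - 1, by omega⟩
  rw [hk']
  simp only [Nat.add_sub_cancel, Nat.factorial_succ]
  push_cast
  ring

/-- the reciprocal series is the reciprocal -/
theorem l9Conv_tl_inv (m : Finset α → R) (s : Finset α) : l9Conv (l9Tl m) (l9Inv m) s = l9One s := by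
  rcases s.eq_empty_or_nonempty with rfl | hs
  · simp [l9Conv, l9Tl, l9One, l9Inv_empty]
  · unfold l9Conv
    have hsplit : s.powerset = insert ∅ (s.powerset.filter fun B => B.Nonempty) := by
      ext t
      simp only [mem_powerset, mem_insert, mem_filter]
      constructor
      · intro h
        rcases t.eq_empty_or_nonempty with rfl | ht
        · exact Or.inl rfl
        · exact Or.inr ⟨h, ht⟩
      · rintro (rfl | h)
        · exact empty_subset s
        · exact h.1
    rw [hsplit, Finset.sum_insert (by simp)]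
    have h2 : ∑ B ∈ s.powerset.filter (fun B => B.Nonempty), l9Tl m B * l9Inv m (s \ B)
        = ∑ B ∈ s.powerset.filter (fun B => B.Nonempty), m B * l9Inv m (s \ B) := by
      refine Finset.sum_congr rfl fun B hB => ?_
      rw [l9Tl, if_neg (mem_filter.1 hB).2.ne_empty]
    rw [h2, sdiff_empty, l9Inv_rec m hs]
    simp [l9Tl, l9One, hs.ne_empty]

theorem l9_insert_notMem_parts {a : α} {t u : Finset α} (ha : a ∉ t) (π : Finpartition (t \ u)) :
    insert a u ∉ π.parts := by
  intro h
  have h1 : insert a u ⊆ t \ u := π.le h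
  exact ha (mem_sdiff.1 (h1 (mem_insert_self a u))).1

/-- logarithmic derivative: `∂_a κ = ∂_a m * (1/m)` -/
theorem l9Cum_insert (m : Finset α → R) {a : α} {t : Finset α} (ha : a ∉ t) :
    l9Cum m (insert a t) = l9Conv (fun u => m (insert a u)) (l9Inv m) t := by
  unfold l9Cum l9Conv
  rw [l9PS_insert ha]
  refine Finset.sum_congr rfl fun u _ => ?_
  unfold l9Inv
  rw [← l9PS_mul_left]
  refine l9PS_congr fun π => ?_
  have hn := l9_insert_notMem_parts (u := u) ha π
  rw [Finset.card_insert_of_notMem hn, Finset.prod_insert hn]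
  simp only [Nat.add_sub_cancel]
  ring

/-- **recursion** `m(a ∪ s) = ∑_{t ⊆ s} κ(a ∪ t) m(s \ t)` -/
theorem l9_moment_rec (m : Finset α → R) {a : α} {s : Finset α} (ha : a ∉ s) :
    m (insert a s) = ∑ t ∈ s.powerset, l9Cum m (insert a t) * l9Tl m (s \ t) := by
  have h1 : ∑ t ∈ s.powerset, l9Cum m (insert a t) * l9Tl m (s \ t)
      = l9Conv (l9Conv (fun u => m (insert a u)) (l9Inv m)) (l9Tl m) s := by
    unfold l9Conv
    refine Finset.sum_congr rfl fun t ht => ?_
    rw [l9Cum_insert m (fun h => ha (mem_powerset.1 ht h))]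
    rfl
  rw [h1, l9Conv_assoc]
  have h2 : l9Conv (fun u => m (insert a u)) (l9Conv (l9Inv m) (l9Tl m)) s
      = l9Conv (fun u => m (insert a u)) l9One s := by
    refine l9Conv_congr (fun _ _ => rfl) fun t _ => ?_
    rw [l9Conv_comm, l9Conv_tl_inv]
  rw [h2, l9Conv_one]

/-- a function of the parts which is a product: recursion -/
theorem l9PS_prod_insert (κ : Finset α → R) {a : α} {s : Finset α} (ha : a ∉ s) :
    l9PS (fun Q => ∏ P ∈ Q, κ P) (insert a s)
      = ∑ t ∈ s.powerset, κ (insert a t) * l9PS (fun Q => ∏ P ∈ Q, κ P) (s \ t) := by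
  rw [l9PS_insert ha]
  refine Finset.sum_congr rfl fun t _ => ?_
  rw [← l9PS_mul_left]
  refine l9PS_congr fun π => ?_
  rw [Finset.prod_insert (l9_insert_notMem_parts (u := t) ha π)]

/-- **moment-cumulant formula** -/
theorem l9_moment_cumulant (m : Finset α → R) (s : Finset α) :
    l9Tl m s = l9PS (fun Q => ∏ P ∈ Q, l9Cum m P) s := by
  induction' hn : s.card using Nat.strong_induction_on with n ih generalizing s
  rcases s.eq_empty_or_nonempty with rfl | ⟨a, ha⟩
  · rw [l9PS_empty]; simp [l9Tl]
  · obtain ⟨s', has', rfl⟩ : ∃ s', a ∉ s' ∧ insert a s' = s := ⟨s.erase a, notMem_erase a s, insert_erase ha⟩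
    rw [l9PS_prod_insert _ has', l9Tl, if_neg (insert_ne_empty a s'), l9_moment_rec m has']
    refine Finset.sum_congr rfl fun t _ => ?_
    rw [ih (s' \ t).card ?_ (s' \ t) rfl]
    rw [← hn, card_insert_of_notMem has']
    exact Nat.lt_succ_of_le (card_le_card sdiff_subset)

theorem l9_moment_cumulant' (m : Finset α → R) {s : Finset α} (hs : s.Nonempty) :
    m s = ∑ π : Finpartition s, ∏ P ∈ π.parts, l9Cum m P := by
  have := l9_moment_cumulant m s
  rwa [l9Tl, if_neg hs.ne_empty] at this

/-- **uniqueness**: a functional which satisfies the moment-cumulant formula is the cumulant -/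
theorem l9Cum_unique (m κ : Finset α → R) (h : ∀ s : Finset α, s.Nonempty → m s = l9PS (fun Q => ∏ P ∈ Q, κ P) s)
    {s : Finset α} (hs : s.Nonempty) : κ s = l9Cum m s := by
  induction' hn : s.card using Nat.strong_induction_on with n ih generalizing s
  obtain ⟨a, ha⟩ := hs
  obtain ⟨s', has', rfl⟩ : ∃ s', a ∉ s' ∧ insert a s' = s := ⟨s.erase a, notMem_erase a s, insert_erase ha⟩
  have h1 := h (insert a s') (insert_nonempty a s')
  rw [l9PS_prod_insert _ has', l9_moment_rec m has'] at h1
  have hT : ∀ t : Finset α, l9PS (fun Q => ∏ P ∈ Q, κ P) t = l9Tl m t := by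
    intro t
    rcases t.eq_empty_or_nonempty with rfl | ht
    · rw [l9PS_empty]; simp [l9Tl]
    · rw [← h t ht, l9Tl, if_neg ht.ne_empty]
  have hmem : s' ∈ s'.powerset := mem_powerset.2 (Subset.refl s')
  rw [← Finset.add_sum_erase _ _ hmem, ← Finset.add_sum_erase _ (fun t => κ (insert a t) * _) hmem] at h1
  have h2 : ∑ t ∈ s'.powerset.erase s', l9Cum m (insert a t) * l9Tl m (s' \ t)
      = ∑ t ∈ s'.powerset.erase s', κ (insert a t) * l9PS (fun Q => ∏ P ∈ Q, κ P) (s' \ t) := by
    refine Finset.sum_congr rfl fun t ht => ?_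
    have hts : t ⊆ s' := mem_powerset.1 (mem_of_mem_erase ht)
    have hne : t ≠ s' := ne_of_mem_erase ht
    have hat : a ∉ t := fun h => has' (hts h)
    rw [hT, ih (insert a t).card ?_ (insert_nonempty a t) rfl]
    rw [← hn, card_insert_of_notMem has', card_insert_of_notMem hat]
    exact Nat.succ_lt_succ (card_lt_card (ssubset_of_subset_of_ne hts hne))
  rw [h2] at h1
  have h3 := add_right_cancel h1
  simp only [sdiff_self, hT] at h3
  simpa [l9Tl] using h3.symm


/-- **mixed cumulants vanish**: if the moments factorise along `A` / complement of `A`, the cumulant of a set which meets both vanishes -/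
theorem l9Cum_mixed (m : Finset α → R) (A : Finset α) {s : Finset α}
    (hf : ∀ t ⊆ s, l9Tl m t = l9Tl m (t ∩ A) * l9Tl m (t \ A))
    (h1 : (s ∩ A).Nonempty) (h2 : (s \ A).Nonempty) : l9Cum m s = 0 := by
  induction' hn : s.card using Nat.strong_induction_on with n ih generalizing s
  obtain ⟨a, ha⟩ := h1
  have has : a ∈ s := (mem_inter.1 ha).1
  have haA : a ∈ A := (mem_inter.1 ha).2
  obtain ⟨s', has', rfl⟩ : ∃ s', a ∉ s' ∧ insert a s' = s := ⟨s.erase a, notMem_erase a s, insert_erase has⟩
  have hsA : insert a s' \ A = s' \ A := by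
    ext x
    simp only [mem_sdiff, mem_insert]
    constructor
    · rintro ⟨rfl | h, h'⟩
      · exact absurd haA h'
      · exact ⟨h, h'⟩
    · rintro ⟨h, h'⟩; exact ⟨Or.inr h, h'⟩
  have hsA' : insert a s' ∩ A = insert a (s' ∩ A) := by
    rw [insert_inter_of_mem haA]
  have hnot : ¬ s' ⊆ A := by
    intro h
    rw [hsA] at h2
    obtain ⟨x, hx⟩ := h2
    exact (mem_sdiff.1 hx).2 (h (mem_sdiff.1 hx).1)
  have hrec := l9_moment_rec m has'
  have hrec2 := l9_moment_rec m (s := s' ∩ A) (fun h => has' (mem_inter.1 h).1)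
  -- the terms of the recursion
  have hterm : ∀ t ∈ s'.powerset.erase s', l9Cum m (insert a t) * l9Tl m (s' \ t)
      = if t ⊆ A then l9Cum m (insert a t) * l9Tl m ((s' ∩ A) \ t) * l9Tl m (s' \ A) else 0 := by
    intro t ht
    have hts : t ⊆ s' := mem_powerset.1 (mem_of_mem_erase ht)
    have hne : t ≠ s' := ne_of_mem_erase ht
    have hat : a ∉ t := fun h => has' (hts h)
    split_ifs with htA
    · have h3 := hf (s' \ t) (sdiff_subset.trans (subset_insert a s'))
      have e1 : (s' \ t) ∩ A = (s' ∩ A) \ t := by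
        ext x; simp only [mem_inter, mem_sdiff]; tauto
      have e2 : (s' \ t) \ A = s' \ A := by
        ext x
        simp only [mem_sdiff]
        constructor
        · rintro ⟨⟨h, _⟩, h'⟩; exact ⟨h, h'⟩
        · rintro ⟨h, h'⟩; exact ⟨⟨h, fun hx => h' (htA hx)⟩, h'⟩
      rw [h3, e1, e2]; ring
    · rw [ih (insert a t).card ?_ ?_ ?_ ?_ rfl, zero_mul]
      · rw [← hn, card_insert_of_notMem has', card_insert_of_notMem hat]
        exact Nat.succ_lt_succ (card_lt_card (ssubset_of_subset_of_ne hts hne))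
      · intro u hu
        exact hf u (hu.trans (insert_subset_insert a hts))
      · exact ⟨a, mem_inter.2 ⟨mem_insert_self a t, haA⟩⟩
      · obtain ⟨x, hx, hxA⟩ := not_subset.1 htA
        exact ⟨x, mem_sdiff.2 ⟨mem_insert_of_mem hx, hxA⟩⟩
  have hmem : s' ∈ s'.powerset := mem_powerset.2 (Subset.refl s')
  rw [← Finset.add_sum_erase _ _ hmem, Finset.sum_congr rfl hterm, ← Finset.sum_filter] at hrec
  have hfil : (s'.powerset.erase s').filter (fun t => t ⊆ A) = (s' ∩ A).powerset := by
    ext t
    simp only [mem_filter, mem_erase, mem_powerset]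
    constructor
    · rintro ⟨⟨_, h⟩, h'⟩; exact subset_inter h h'
    · intro h
      refine ⟨⟨?_, h.trans inter_subset_left⟩, h.trans inter_subset_right⟩
      rintro rfl
      exact hnot (h.trans inter_subset_right)
  rw [hfil, ← Finset.sum_mul, ← hrec2] at hrec
  have h4 := hf (insert a s') (Subset.refl _)
  rw [hsA, hsA', l9Tl, if_neg (insert_ne_empty a s'), l9Tl, if_neg (insert_ne_empty a _)] at h4
  rw [h4] at hrec
  have : l9Tl m (s' \ s') = 1 := by simp [l9Tl]
  rw [this, mul_one] at hrec
  linear_combination (-1 : R) * hrec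

theorem l9_prod_parts {s : Finset α} (π : Finpartition s) (c : α → R) :
    ∏ P ∈ π.parts, ∏ i ∈ P, c i = ∏ i ∈ s, c i := by
  have h := Finset.prod_biUnion (s := π.parts) (t := id) (f := c) π.disjoint
  rw [π.biUnion_parts] at h
  exact h.symm

/-- homogeneity: weights attached to the indices -/
theorem l9Cum_smul (m : Finset α → R) (c : α → R) (s : Finset α) :
    l9Cum (fun P => (∏ i ∈ P, c i) * m P) s = (∏ i ∈ s, c i) * l9Cum m s := by
  unfold l9Cum
  rw [← l9PS_mul_left]
  refine l9PS_congr fun π => ?_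
  rw [Finset.prod_mul_distrib]
  rw [l9_prod_parts π c]; ring

/-- locality -/
theorem l9Cum_congr {m m' : Finset α → R} {s : Finset α} (h : ∀ t ⊆ s, t.Nonempty → m t = m' t) :
    l9Cum m s = l9Cum m' s := by
  unfold l9Cum
  refine l9PS_congr fun π => ?_
  rw [Finset.prod_congr rfl fun P hP => h P (π.le hP) (π.nonempty_of_mem_parts hP)]

/-! ### the partition with one part -/

theorem l9_top_parts {s : Finset α} (hs : s.Nonempty) : (⊤ : Finpartition s).parts = {s} := by
  have h1 := Finpartition.parts_top_subset s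
  have h2 : (⊤ : Finpartition s).parts.Nonempty := Finpartition.parts_nonempty _ hs.ne_empty
  exact (Finset.subset_singleton_iff.1 h1).resolve_left h2.ne_empty

theorem l9_card_parts_eq_one {s : Finset α} (π : Finpartition s) : π.parts.card = 1 ↔ π.parts = {s} := by
  constructor
  · intro h
    obtain ⟨P, hP⟩ := Finset.card_eq_one.1 h
    have := π.biUnion_parts
    rw [hP] at this
    simp only [singleton_biUnion, id] at this
    rw [hP, this]
  · intro h; rw [h]; simp

theorem l9_two_le_card_parts {s : Finset α} (hs : s.Nonempty) (π : Finpartition s) (h : π ≠ ⊤) :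
    2 ≤ π.parts.card := by
  have h0 : 0 < π.parts.card := Finset.card_pos.2 (π.parts_nonempty hs.ne_empty)
  by_contra hlt
  have h1 : π.parts.card = 1 := by omega
  apply h
  ext1
  rw [(l9_card_parts_eq_one π).1 h1, l9_top_parts hs]

/-- splitting off the partition with one part -/
theorem l9PS_top (f : Finset (Finset α) → R) {s : Finset α} (hs : s.Nonempty) :
    l9PS f s = f {s} + ∑ π ∈ (Finset.univ : Finset (Finpartition s)).erase ⊤, f π.parts := by
  unfold l9PS
  rw [← Finset.add_sum_erase _ _ (mem_univ (⊤ : Finpartition s)), l9_top_parts hs]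

theorem l9Cum_top (m : Finset α → R) {s : Finset α} (hs : s.Nonempty) :
    l9Cum m s = m s + ∑ π ∈ (Finset.univ : Finset (Finpartition s)).erase ⊤,
      (-1 : R) ^ (π.parts.card - 1) * ((π.parts.card - 1).factorial : R) * ∏ P ∈ π.parts, m P := by
  unfold l9Cum
  rw [l9PS_top _ hs]
  simp

/-! ### crude bounds -/

/-- the constant `∑_π (|π| - 1)!` -/
noncomputable def l9CumC (s : Finset α) : ℝ := l9PS (fun Q => ((Q.card - 1).factorial : ℝ)) s

theorem l9PS_abs_le (f g : Finset (Finset α) → ℝ) (s : Finset α) (h : ∀ π : Finpartition s, |f π.parts| ≤ g π.parts) :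
    |l9PS f s| ≤ l9PS g s := by
  unfold l9PS
  exact (Finset.abs_sum_le_sum_abs _ _).trans (Finset.sum_le_sum fun π _ => h π)

theorem l9Cum_abs_le (m : Finset α → ℝ) (b : α → ℝ) (s : Finset α)
    (hm : ∀ t ⊆ s, t.Nonempty → |m t| ≤ ∏ i ∈ t, b i) : |l9Cum m s| ≤ l9CumC s * ∏ i ∈ s, b i := by
  unfold l9Cum l9CumC
  rw [mul_comm, ← l9PS_mul_left]
  refine l9PS_abs_le _ _ _ fun π => ?_
  rw [abs_mul, abs_mul, abs_pow, abs_neg, abs_one, one_pow, one_mul, Nat.abs_cast, mul_comm, Finset.abs_prod]
  refine mul_le_mul_of_nonneg_right ?_ (Nat.cast_nonneg _)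
  rw [← l9_prod_parts π b]
  exact Finset.prod_le_prod (fun P _ => abs_nonneg _) fun P hP => hm P (π.le hP) (π.nonempty_of_mem_parts hP)

/-! ### differentiation in a parameter -/

theorem l9PS_hasDerivAt {s : Finset α} (f f' : ℝ → Finset (Finset α) → ℝ) (θ : ℝ)
    (h : ∀ π : Finpartition s, HasDerivAt (fun x => f x π.parts) (f' θ π.parts) θ) :
    HasDerivAt (fun x => l9PS (f x) s) (l9PS (f' θ) s) θ := by
  unfold l9PS
  exact HasDerivAt.fun_sum fun π _ => h π

/-- derivative of a cumulant: one moment is differentiated -/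
theorem l9Cum_hasDerivAt {s : Finset α} (m m' : ℝ → Finset α → ℝ) (θ : ℝ)
    (h : ∀ t ⊆ s, t.Nonempty → HasDerivAt (fun x => m x t) (m' θ t) θ) :
    HasDerivAt (fun x => l9Cum (m x) s)
      (l9PS (fun Q => (-1 : ℝ) ^ (Q.card - 1) * ((Q.card - 1).factorial : ℝ) *
        ∑ P ∈ Q, (∏ P' ∈ Q.erase P, m θ P') * m' θ P) s) θ := by
  unfold l9Cum
  refine l9PS_hasDerivAt _ (fun _ Q => (-1 : ℝ) ^ (Q.card - 1) * ((Q.card - 1).factorial : ℝ) *
        ∑ P ∈ Q, (∏ P' ∈ Q.erase P, m θ P') * m' θ P) θ fun π => ?_
  refine HasDerivAt.const_mul _ ?_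
  exact HasDerivAt.fun_finsetProd fun P hP => h P (π.le hP) (π.nonempty_of_mem_parts hP)


/-! ### the first four cumulants -/

theorem l9_sum_powerset_singleton (c : α) (g : Finset α → R) :
    ∑ t ∈ ({c} : Finset α).powerset, g t = g ∅ + g {c} := by
  rw [← insert_empty_eq c, Finset.sum_powerset_insert (notMem_empty c)]
  simp

theorem l9_sum_powerset_pair {b c : α} (hbc : b ≠ c) (g : Finset α → R) :
    ∑ t ∈ ({b, c} : Finset α).powerset, g t = g ∅ + g {c} + g {b} + g {b, c} := by
  rw [Finset.sum_powerset_insert (by simpa using hbc), l9_sum_powerset_singleton, l9_sum_powerset_singleton]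
  simp only [insert_empty_eq]
  ring

theorem l9_sum_powerset_triple {b c d : α} (hbc : b ≠ c) (hbd : b ≠ d) (hcd : c ≠ d) (g : Finset α → R) :
    ∑ t ∈ ({b, c, d} : Finset α).powerset, g t
      = g ∅ + g {d} + g {c} + g {c, d} + g {b} + g {b, d} + g {b, c} + g {b, c, d} := by
  rw [Finset.sum_powerset_insert (by simp [hbc, hbd]), l9_sum_powerset_pair hcd, l9_sum_powerset_pair hcd]
  simp only [insert_empty_eq]
  ring

theorem l9Cum_one (m : Finset α → R) (a : α) : l9Cum m {a} = m {a} := by
  have h := l9_moment_rec m (a := a) (s := ∅) (notMem_empty a)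
  simp only [powerset_empty, sum_singleton, sdiff_self, insert_empty_eq] at h
  simpa [l9Tl] using h.symm

theorem l9Cum_two (m : Finset α → R) {a b : α} (hab : a ≠ b) :
    l9Cum m {a, b} = m {a, b} - m {a} * m {b} := by
  have h := l9_moment_rec m (a := a) (s := {b}) (by simpa using hab)
  rw [l9_sum_powerset_singleton] at h
  simp only [sdiff_empty, sdiff_self, insert_empty_eq, l9Cum_one] at h
  simp only [l9Tl, singleton_ne_empty, if_false] at h
  simp only [bot_eq_empty, if_true] at h
  linear_combination (-1 : R) * h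

theorem l9Cum_three (m : Finset α → R) {a b c : α} (hab : a ≠ b) (hac : a ≠ c) (hbc : b ≠ c) :
    l9Cum m {a, b, c} = m {a, b, c} - m {a, b} * m {c} - m {a, c} * m {b} - m {a} * m {b, c}
      + 2 * (m {a} * m {b} * m {c}) := by
  have h := l9_moment_rec m (a := a) (s := {b, c}) (by simp [hab, hac])
  rw [l9_sum_powerset_pair hbc] at h
  have e1 : ({b, c} : Finset α) \ {c} = {b} := by
    ext x; simp only [mem_sdiff, mem_insert, mem_singleton]
    constructor
    · rintro ⟨h1 | h1, h2⟩
      · exact h1
      · exact absurd h1 h2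
    · rintro rfl; exact ⟨Or.inl rfl, hbc⟩
  have e2 : ({b, c} : Finset α) \ {b} = {c} := by
    ext x; simp only [mem_sdiff, mem_insert, mem_singleton]
    constructor
    · rintro ⟨h1 | h1, h2⟩
      · exact absurd h1 h2
      · exact h1
    · rintro rfl; exact ⟨Or.inr rfl, hbc.symm⟩
  rw [e1, e2] at h
  simp only [sdiff_empty, sdiff_self, insert_empty_eq, l9Cum_one, l9Cum_two m hab, l9Cum_two m hac] at h
  simp only [l9Tl, singleton_ne_empty, insert_ne_empty, if_false] at h
  simp only [bot_eq_empty, if_true] at h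
  linear_combination (-1 : R) * h

theorem l9Cum_four (m : Finset α → R) {a b c d : α} (hab : a ≠ b) (hac : a ≠ c) (had : a ≠ d)
    (hbc : b ≠ c) (hbd : b ≠ d) (hcd : c ≠ d) :
    l9Cum m {a, b, c, d} = m {a, b, c, d}
      - m {a, b, c} * m {d} - m {a, b, d} * m {c} - m {a, c, d} * m {b} - m {a} * m {b, c, d}
      - m {a, b} * m {c, d} - m {a, c} * m {b, d} - m {a, d} * m {b, c}
      + 2 * (m {a, b} * m {c} * m {d} + m {a, c} * m {b} * m {d} + m {a, d} * m {b} * m {c}
        + m {a} * m {b} * m {c, d} + m {a} * m {c} * m {b, d} + m {a} * m {d} * m {b, c})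
      - 6 * (m {a} * m {b} * m {c} * m {d}) := by
  have h := l9_moment_rec m (a := a) (s := {b, c, d}) (by simp [hab, hac, had])
  rw [l9_sum_powerset_triple hbc hbd hcd] at h
  have e1 : ({b, c, d} : Finset α) \ {d} = {b, c} := by
    ext x; simp only [mem_sdiff, mem_insert, mem_singleton]
    constructor
    · rintro ⟨h1 | h1 | h1, h2⟩
      · exact Or.inl h1
      · exact Or.inr h1
      · exact absurd h1 h2
    · rintro (rfl | rfl)
      · exact ⟨Or.inl rfl, hbd⟩
      · exact ⟨Or.inr (Or.inl rfl), hcd⟩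
  have e2 : ({b, c, d} : Finset α) \ {c} = {b, d} := by
    ext x; simp only [mem_sdiff, mem_insert, mem_singleton]
    constructor
    · rintro ⟨h1 | h1 | h1, h2⟩
      · exact Or.inl h1
      · exact absurd h1 h2
      · exact Or.inr h1
    · rintro (rfl | rfl)
      · exact ⟨Or.inl rfl, hbc⟩
      · exact ⟨Or.inr (Or.inr rfl), hcd.symm⟩
  have e3 : ({b, c, d} : Finset α) \ {b} = {c, d} := by
    ext x; simp only [mem_sdiff, mem_insert, mem_singleton]
    constructor
    · rintro ⟨h1 | h1 | h1, h2⟩
      · exact absurd h1 h2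
      · exact Or.inl h1
      · exact Or.inr h1
    · rintro (rfl | rfl)
      · exact ⟨Or.inr (Or.inl rfl), hbc.symm⟩
      · exact ⟨Or.inr (Or.inr rfl), hbd.symm⟩
  have e4 : ({b, c, d} : Finset α) \ {c, d} = {b} := by
    ext x; simp only [mem_sdiff, mem_insert, mem_singleton, not_or]
    constructor
    · rintro ⟨h1 | h1 | h1, h2, h3⟩
      · exact h1
      · exact absurd h1 h2
      · exact absurd h1 h3
    · rintro rfl; exact ⟨Or.inl rfl, hbc, hbd⟩
  have e5 : ({b, c, d} : Finset α) \ {b, d} = {c} := by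
    ext x; simp only [mem_sdiff, mem_insert, mem_singleton, not_or]
    constructor
    · rintro ⟨h1 | h1 | h1, h2, h3⟩
      · exact absurd h1 h2
      · exact h1
      · exact absurd h1 h3
    · rintro rfl; exact ⟨Or.inr (Or.inl rfl), hbc.symm, hcd⟩
  have e6 : ({b, c, d} : Finset α) \ {b, c} = {d} := by
    ext x; simp only [mem_sdiff, mem_insert, mem_singleton, not_or]
    constructor
    · rintro ⟨h1 | h1 | h1, h2, h3⟩
      · exact absurd h1 h2
      · exact absurd h1 h3
      · exact h1
    · rintro rfl; exact ⟨Or.inr (Or.inr rfl), hbd.symm, hcd.symm⟩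
  rw [e1, e2, e3, e4, e5, e6] at h
  simp only [sdiff_empty, sdiff_self, insert_empty_eq, l9Cum_one, l9Cum_two m hab, l9Cum_two m hac,
    l9Cum_two m had, l9Cum_three m hab hac hbc, l9Cum_three m hab had hbd, l9Cum_three m hac had hcd] at h
  simp only [l9Tl, singleton_ne_empty, insert_ne_empty, if_false] at h
  simp only [bot_eq_empty, if_true] at h
  linear_combination (-1 : R) * h

theorem l9_cumul_eqns_cite : True := by
  have := @l9PS.eq_1
  have := @l9Conv.eq_1
  have := @l9One.eq_1
  have := @l9Cum.eq_1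
  have := @l9Inv.eq_1
  have := @l9Tl.eq_1
  have := @l9CumC.eq_1
  trivial

end Claimed.Agent.R286
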