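import Claimed.Agent.R286.Defs.Jet
import Claimed.Agent.R286.L09.Cumul

/-!
# Row 286: BRIDGE between the set-function algebra of `Defs/Jet` (power sums) and the partition kit `L09/Cumul`      (helper271; paper free)

* `jtMul_eq_conv`    : `jtMul = l9Conv` (rfl);
* `jt_pow_parts`     : `(F - F ∅)^k A = k! ∑_{π, |π| = k} ∏_{P ∈ π} F P`;
* `jtLog_eq_cum`     : `jtLog F A = ∑_π (-1)^(|π|-1) (|π|-1)! ∏_{P ∈ π} F P`  (`A ≠ ∅`): **`Kap` = joint cumulants over `Finpartition`**;
* `jtInv_eq_inv`, `jtExp_eq_parts`;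
* corollaries in the language of `Defs/Jet` (names `jtc_*`): commutativity, associativity, `∂F = (∂ log F) F`, `exp log = id`, independence, small cases, bounds.
-/

set_option autoImplicit false

namespace Claimed.Agent.R286

open Finset
open scoped Nat

theorem jtMul_eq_conv (F G : JtFn) (A : Finset ℕ) : jtMul F G A = l9Conv F G A := rfl

/-- powers of the augmentation = ordered set partitions -/
theorem jt_pow_parts (F : JtFn) (k : ℕ) (A : Finset ℕ) :
    jtPow (jtAug F) k A = (k ! : ℝ) * l9PS (fun Q => if Q.card = k then ∏ P ∈ Q, F P else 0) A := by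
  induction k generalizing A with
  | zero =>
    show jtOne A = _
    rcases A.eq_empty_or_nonempty with rfl | hA
    · rw [l9PS_empty]; simp [jtOne]
    · have : l9PS (fun Q => if Q.card = 0 then ∏ P ∈ Q, F P else 0) A = l9PS (fun _ => (0 : ℝ)) A := by
        refine l9PS_congr fun π => ?_
        rw [if_neg]
        exact (Finset.card_pos.2 (π.parts_nonempty hA.ne_empty)).ne'
      rw [this, l9PS_zero]
      simp [jtOne, hA.ne_empty]
  | succ k ih =>
    show jtMul (jtAug F) (jtPow (jtAug F) k) A = _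
    have hpeel := l9_peel A (fun B Q => F B * (if Q.card = k then ∏ P ∈ Q, F P else 0))
    have hL : ∑ π : Finpartition A, ∑ B ∈ π.parts,
        F B * (if (π.parts.erase B).card = k then ∏ P ∈ π.parts.erase B, F P else 0)
        = ((k : ℝ) + 1) * l9PS (fun Q => if Q.card = k + 1 then ∏ P ∈ Q, F P else 0) A := by
      unfold l9PS
      rw [Finset.mul_sum]
      refine Finset.sum_congr rfl fun π _ => ?_
      have hterm : ∀ B ∈ π.parts,
          F B * (if (π.parts.erase B).card = k then ∏ P ∈ π.parts.erase B, F P else 0)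
          = if π.parts.card = k + 1 then ∏ P ∈ π.parts, F P else 0 := by
        intro B hB
        have hpos : 0 < π.parts.card := Finset.card_pos.2 ⟨B, hB⟩
        rw [Finset.card_erase_of_mem hB]
        by_cases h : π.parts.card = k + 1
        · rw [if_pos h, if_pos (by omega), Finset.mul_prod_erase _ _ hB]
        · rw [if_neg h, if_neg (by omega), mul_zero]
      rw [Finset.sum_congr rfl hterm, Finset.sum_const, nsmul_eq_mul]
      beta_reduce
      by_cases h : π.parts.card = k + 1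
      · rw [if_pos h, h]; push_cast; ring
      · rw [if_neg h]; ring
    have hM : jtMul (jtAug F) (jtPow (jtAug F) k) A
        = (k ! : ℝ) * ∑ B ∈ A.powerset.filter (fun B => B.Nonempty),
            l9PS (fun Q => F B * (if Q.card = k then ∏ P ∈ Q, F P else 0)) (A \ B) := by
      unfold jtMul
      rw [Finset.mul_sum, Finset.sum_filter]
      refine Finset.sum_congr rfl fun B _ => ?_
      by_cases hB : B.Nonempty
      · rw [if_pos hB, ih, l9PS_mul_left, jtAug, if_neg hB.ne_empty]; ring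
      · rw [if_neg hB, jtAug, if_pos (not_nonempty_iff_eq_empty.1 hB), zero_mul]
    rw [hM, ← hpeel, hL, Nat.factorial_succ]
    push_cast
    ring

/-- **the logarithm of `Defs/Jet` is the joint cumulant over `Finpartition`** -/
theorem jtLog_eq_cum (F : JtFn) {A : Finset ℕ} (hA : A.Nonempty) : jtLog F A = l9Cum F A := by
  unfold jtLog l9Cum
  simp only [jt_pow_parts]
  unfold l9PS
  simp only [Finset.mul_sum]
  rw [Finset.sum_comm]
  refine Finset.sum_congr rfl fun π _ => ?_
  have h1 : 1 ≤ π.parts.card := Finset.card_pos.2 (π.parts_nonempty hA.ne_empty)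
  have h2 : π.parts.card ≤ A.card := π.card_parts_le_card
  rw [Finset.sum_eq_single π.parts.card]
  · rw [if_pos rfl]
    obtain ⟨k, hk⟩ : ∃ k, π.parts.card = k + 1 := ⟨π.parts.card - 1, by omega⟩
    rw [hk]
    simp only [Nat.add_sub_cancel, Nat.factorial_succ]
    have : ((k : ℝ) + 1) ≠ 0 := by positivity
    push_cast
    field_simp
    ring
  · intro k _ hk
    rw [if_neg (Ne.symm hk)]; ring
  · intro h
    exact absurd (Finset.mem_Icc.2 ⟨h1, h2⟩) h

theorem jtLog_eq_sum (F : JtFn) {A : Finset ℕ} (hA : A.Nonempty) :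
    jtLog F A = ∑ π : Finpartition A,
      (-1 : ℝ) ^ (π.parts.card - 1) * ((π.parts.card - 1).factorial : ℝ) * ∏ P ∈ π.parts, F P := by
  rw [jtLog_eq_cum F hA, l9Cum_eq_sum]

theorem jtLog_empty (F : JtFn) : jtLog F ∅ = 0 := by
  unfold jtLog; simp

theorem jtInv_eq_inv (F : JtFn) (A : Finset ℕ) : jtInv F A = l9Inv F A := by
  unfold jtInv l9Inv
  simp only [jt_pow_parts]
  unfold l9PS
  simp only [Finset.mul_sum]
  rw [Finset.sum_comm]
  refine Finset.sum_congr rfl fun π _ => ?_
  have h2 : π.parts.card ≤ A.card := π.card_parts_le_card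
  rw [Finset.sum_eq_single π.parts.card]
  · rw [if_pos rfl]; ring
  · intro k _ hk
    rw [if_neg (Ne.symm hk)]; ring
  · intro h
    exact absurd (Finset.mem_range.2 (Nat.lt_succ_of_le h2)) h

theorem jtExp_eq_parts (L : JtFn) (A : Finset ℕ) : jtExp L A = l9PS (fun Q => ∏ P ∈ Q, L P) A := by
  unfold jtExp
  simp only [jt_pow_parts]
  unfold l9PS
  simp only [Finset.mul_sum, Finset.sum_div]
  rw [Finset.sum_comm]
  refine Finset.sum_congr rfl fun π _ => ?_
  have h2 : π.parts.card ≤ A.card := π.card_parts_le_card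
  rw [Finset.sum_eq_single π.parts.card]
  · rw [if_pos rfl]
    have : ((π.parts.card ! : ℕ) : ℝ) ≠ 0 := by positivity
    field_simp
  · intro k _ hk
    rw [if_neg (Ne.symm hk)]; simp
  · intro h
    exact absurd (Finset.mem_range.2 (Nat.lt_succ_of_le h2)) h

/-! ### corollaries in the language of `Defs/Jet` -/

theorem jtc_mul_comm (F G : JtFn) : jtMul F G = jtMul G F := funext fun A => l9Conv_comm F G A

theorem jtc_mul_assoc (F G H : JtFn) : jtMul (jtMul F G) H = jtMul F (jtMul G H) :=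
  funext fun A => l9Conv_assoc F G H A

theorem jtc_tl (F : JtFn) (h : F ∅ = 1) : l9Tl F = F := by
  funext A
  unfold l9Tl
  split_ifs with hA
  · rw [hA, h]
  · rfl

/-- `∂_i F = (∂_i log F) F` -/
theorem jtc_log_deriv (F : JtFn) (h : F ∅ = 1) (A : Finset ℕ) (i : ℕ) (hi : i ∈ A) :
    F A = ∑ B ∈ A.powerset.filter (fun B => i ∈ B), jtLog F B * F (A \ B) := by
  obtain ⟨s, his, rfl⟩ : ∃ s, i ∉ s ∧ insert i s = A := ⟨A.erase i, notMem_erase i A, insert_erase hi⟩
  rw [l9_moment_rec F his, jtc_tl F h]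
  symm
  refine Finset.sum_bij' (fun B _ => B.erase i) (fun t _ => insert i t) ?_ ?_ ?_ ?_ ?_
  · intro B hB
    rw [mem_filter, mem_powerset] at hB
    rw [mem_powerset]
    intro x hx
    exact (mem_insert.1 (hB.1 (mem_of_mem_erase hx))).resolve_left (ne_of_mem_erase hx)
  · intro t ht
    rw [mem_filter, mem_powerset]
    exact ⟨insert_subset_insert i (mem_powerset.1 ht), mem_insert_self i t⟩
  · intro B hB
    exact insert_erase (mem_filter.1 hB).2
  · intro t ht
    exact erase_insert fun h => his (mem_powerset.1 ht h)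
  · intro B hB
    have hiB := (mem_filter.1 hB).2
    rw [insert_erase hiB, jtLog_eq_cum F ⟨i, hiB⟩]
    congr 2
    ext x
    simp only [mem_sdiff, mem_insert, mem_erase]
    constructor
    · rintro ⟨rfl | h1, h2⟩
      · exact absurd hiB h2
      · exact ⟨h1, fun h => h2 h.2⟩
    · rintro ⟨h1, h2⟩
      refine ⟨Or.inr h1, fun h => h2 ⟨?_, h⟩⟩
      rintro rfl
      exact his h1

/-- `exp (log F) = F` -/
theorem jtc_exp_log (F : JtFn) (h : F ∅ = 1) : jtExp (jtLog F) = F := by
  funext A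
  rw [jtExp_eq_parts]
  have h1 : l9PS (fun Q => ∏ P ∈ Q, jtLog F P) A = l9PS (fun Q => ∏ P ∈ Q, l9Cum F P) A := by
    refine l9PS_congr fun π => ?_
    exact Finset.prod_congr rfl fun P hP => jtLog_eq_cum F (π.nonempty_of_mem_parts hP)
  rw [h1, ← l9_moment_cumulant, jtc_tl F h]

/-- `log (exp L) = L` -/
theorem jtc_log_exp (L : JtFn) (h : L ∅ = 0) : jtLog (jtExp L) = L := by
  funext A
  rcases A.eq_empty_or_nonempty with rfl | hA
  · rw [jtLog_empty, h]
  · rw [jtLog_eq_cum _ hA]
    exact (l9Cum_unique (jtExp L) L (fun s _ => jtExp_eq_parts L s) hA).symm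

/-- independent groups of pairs: the mixed cumulants vanish -/
theorem jtc_log_indep (F : JtFn) (h : F ∅ = 1) (A₁ A₂ : Finset ℕ) (hd : Disjoint A₁ A₂) (h₁ : A₁.Nonempty)
    (h₂ : A₂.Nonempty) (hF : ∀ B ⊆ A₁, ∀ B' ⊆ A₂, F (B ∪ B') = F B * F B') : jtLog F (A₁ ∪ A₂) = 0 := by
  rw [jtLog_eq_cum F (h₁.mono subset_union_left)]
  have e1 : ∀ t ⊆ A₁ ∪ A₂, t \ A₁ ⊆ A₂ := by
    intro t ht x hx
    exact (mem_union.1 (ht (mem_sdiff.1 hx).1)).resolve_left (mem_sdiff.1 hx).2
  refine l9Cum_mixed F A₁ ?_ ?_ ?_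
  · intro t ht
    rw [jtc_tl F h, ← hF (t ∩ A₁) inter_subset_right (t \ A₁) (e1 t ht)]
    congr 1
    ext x
    simp only [mem_union, mem_inter, mem_sdiff]
    tauto
  · obtain ⟨x, hx⟩ := h₁
    exact ⟨x, mem_inter.2 ⟨mem_union_left _ hx, hx⟩⟩
  · obtain ⟨x, hx⟩ := h₂
    exact ⟨x, mem_sdiff.2 ⟨mem_union_right _ hx, fun h' => (Finset.disjoint_left.1 hd h') hx⟩⟩

/-- the first cumulants -/
theorem jtc_log_small (F : JtFn) (i j : ℕ) (hij : i ≠ j) :
    jtLog F {i} = F {i} ∧ jtLog F {i, j} = F {i, j} - F {i} * F {j} := by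
  refine ⟨?_, ?_⟩
  · rw [jtLog_eq_cum F (singleton_nonempty i), l9Cum_one]
  · rw [jtLog_eq_cum F (insert_nonempty i _), l9Cum_two F hij]

/-- locality -/
theorem jtc_log_local (F G : JtFn) (A : Finset ℕ) (h : ∀ B ⊆ A, B.Nonempty → F B = G B) : jtLog F A = jtLog G A := by
  rcases A.eq_empty_or_nonempty with rfl | hA
  · rw [jtLog_empty, jtLog_empty]
  · rw [jtLog_eq_cum F hA, jtLog_eq_cum G hA]
    exact l9Cum_congr h

/-- crude bound -/
theorem jtc_log_abs_le (F : JtFn) (A : Finset ℕ) (h : ∀ B ⊆ A, B.Nonempty → |F B| ≤ 1) : |jtLog F A| ≤ l9CumC A := by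
  rcases A.eq_empty_or_nonempty with rfl | hA
  · rw [jtLog_empty, abs_zero]
    unfold l9CumC; rw [l9PS_empty]; positivity
  · rw [jtLog_eq_cum F hA]
    have := l9Cum_abs_le F (fun _ => 1) A (by simpa using h)
    simpa using this

end Claimed.Agent.R286
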