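import Claimed.Agent.R286.Fd.TrC2
import Claimed.Agent.R286.Fd.TrCb
import Claimed.Agent.R286.Fd.CSym
import Claimed.Agent.R286.Fd.NuApiB
import Claimed.Agent.R286.L09.CumJet
import Claimed.Agent.R286.Defs.JetSk
import Claimed.Agent.R286.L02.Defs
import Claimed.Agent.R286.L08.HiCtx

/-!
# Row 286 (S0533), LL Sec. 9, node PAR, file L09/Par : SCALAR PARITY      (owner helper235; prefix `l9p`, `L9p`)      0 sorry

TEX[LL:exp:high-table] 09 l.350-358 ("immediately after its split, its two ends lie in groups with odd parity"; "An added dotted scalar pair preserves the parity argument if it splits later than v;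
if it splits earlier or at v, its own weight is O(v)"), 08 l.1563-1579 (proof of Prop. statistics-high), 09 l.398-404 (direct path: "scalar parity gives the required smaller-scale ratio").

THE ONE-SITE SCALAR MODEL on fixed masses `M`, increments `v j ≥ 0` of the reference clock `K`: `l9pNu a M v q τ T` (= `llNuS` of `L02/Defs`: `l9p_nuS`).
* `l9p_hasDeriv`   PE (2) along an affine family;  `l9pDot` = THE DOTTED MOMENT (an added scalar pair `q, q+1` with the weight `K̇` at its split);  `l9p_dot_le`, `l9p_lip` (finite differences).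
* `l9p_flip`       a test which is odd under the flip of a union of blocks of the cut of depth `k` has mean `0` if nothing is revealed before the cut (`gh_sy_nu`).
* `l9p_par`        **PAR-M**: such a test (bounded by 1) has mean `≤ C(a,q) K(k)`.      `l9p_par_dot`, `l9p_par_lip`: the same for dotted moments / finite differences, weight `l9pW β k`.
* `l9p_taylor`, `l9p_hasDerivAt`: scalar moments are differentiable along ANY differentiable family of clocks on fixed masses (increments may vanish), derivative = `l9pDot`      (the general matrix version is `ll2_ch_nu` of 73, `L02/RowI`).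
IN THE VOCABULARY OF THE JETS (`llJs n a P tl`, any ensemble):
* `l9p_scM`        `scM r q obs τ A = l9pNu .. (l9pTs q obs A)`;   `l9p_scM_abs` (`≤ 1`);   `l9p_scM_par`;
* `l9p_kap_abs`, **`l9p_kap_par`**: `|κ_K(τ)(A)| ≤ l9CumC A * (l9pC a r * K(k))` if the pair `s ∈ A` splits at the depth `k` and all the other pairs of `A` split later;
* `l9p_quo_abs`, **`l9p_quo_par`**, **`l9p_l8h_par`** = the contract `L8H_PAR` of LL08 (234) for `llJs`.
DOTTED CUMULANTS: by `rd_kap_deriv` (239, `L02/RowD`) `κ̇_n(τ) = ½ ∑_{added pair} K̇ κ_{n+1}(τ')`: apply `l9p_kap_par` to `κ_{n+1}` when the added pair splits after `k`, `l9p_kap_abs` otherwise.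
-/

set_option autoImplicit false

namespace Claimed.Agent.R286

open Finset

noncomputable section

/-- the feature of the one-site scalar model -/
def l9pFt : Unit → SkCfg 1 → Unit → ℝ := fun _ σ _ => skSp σ 0

/-- affine family of scalar hierarchies: masses `M`, increments `v j + θ w j` -/
def l9pAf (M : List ℝ) (v w : ℕ → ℝ) : List (ℝ × (Unit → ℝ) × (Unit → ℝ)) :=
  M.mapIdx fun j m => (m, fun _ => v j, fun _ => w j)

/-- the scalar hierarchy with masses `M` and increments `v j` of the clock `K` -/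
def l9pLs (M : List ℝ) (v : ℕ → ℝ) : List (GhLv (SkCfg 1) (Unit × Unit)) :=
  gcLs l9pFt (M.mapIdx fun j m => (m, fun _ => v j))

/-- scalar tree number -/
def l9pNu (a : ℝ) (M : List ℝ) (v : ℕ → ℝ) (q : ℕ) (τ : ℕ → ℕ → ℕ) (T : (ℕ → SkCfg 1) → ℝ) : ℝ :=
  trNu (skBase 1 a) (l9pLs M v) q τ 0 T

/-- cumulative clock after `t` revelations -/
def l9pCu (v : ℕ → ℝ) (t : ℕ) : ℝ := ∑ j ∈ range t, v j

/-- masses of the stages -/
def l9pMs (a : ℝ) (M : List ℝ) (j : ℕ) : ℝ := (M[j]?).getD a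

/-- admissible masses -/
structure L9pAdm (a : ℝ) (M : List ℝ) : Prop where
  pos : 0 < a
  pw : M.Pairwise (· ≤ ·)
  rg : ∀ m ∈ M, 0 ≤ m ∧ m ≤ a

theorem l9p_af_len (M : List ℝ) (v w : ℕ → ℝ) : (l9pAf M v w).length = M.length := by
  simp [l9pAf]

theorem l9p_af_aff (M : List ℝ) (v w : ℕ → ℝ) (θ : ℝ) :
    gcAff (l9pAf M v w) θ = M.mapIdx fun j m => (m, fun _ => v j + θ * w j) := by
  unfold gcAff l9pAf
  refine List.ext_getElem? fun i => ?_
  simp only [List.getElem?_map, List.getElem?_mapIdx, Option.map_map]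
  rfl

theorem l9p_gcNu (a : ℝ) (M : List ℝ) (v w : ℕ → ℝ) (θ : ℝ) (q : ℕ) (τ : ℕ → ℕ → ℕ) (T : (ℕ → SkCfg 1) → ℝ) :
    gcNu (skBase 1 a) l9pFt (l9pAf M v w) θ q τ 0 T = l9pNu a M (fun j => v j + θ * w j) q τ T := by
  unfold gcNu l9pNu l9pLs
  rw [l9p_af_aff]

theorem l9p_af_adm {a : ℝ} {M : List ℝ} (hM : L9pAdm a M) {v w : ℕ → ℝ} (hv : ∀ j, 0 ≤ v j) (hw : ∀ j, 0 ≤ v j + w j) :
    GcAffAdm (skBase 1 a).a (l9pAf M v w) := by
  have e : (l9pAf M v w).map Prod.fst = M := by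
    unfold l9pAf
    refine List.ext_getElem? fun i => ?_
    simp only [List.getElem?_map, List.getElem?_mapIdx, Option.map_map]
    cases M[i]? <;> rfl
  refine ⟨by rw [e]; exact hM.pw, ?_⟩
  intro h hh
  unfold l9pAf at hh
  rw [List.mem_mapIdx] at hh
  obtain ⟨i, hi, rfl⟩ := hh
  exact ⟨hM.rg _ (List.getElem_mem hi), fun _ => ⟨hv i, hw i⟩⟩

theorem l9p_af_ms (a : ℝ) (M : List ℝ) (v w : ℕ → ℝ) : gcMs (skBase 1 a).a (l9pAf M v w) = l9pMs a M := by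
  funext j
  unfold gcMs l9pMs l9pAf
  simp only [List.getElem?_mapIdx, Option.map_map]
  cases M[j]? <;> rfl

theorem l9p_ker (s t : SkCfg 1) : gcKer l9pFt () s t = skSp s 0 * skSp t 0 := by
  simp [gcKer, l9pFt]

theorem l9p_trV (M : List ℝ) (v w : ℕ → ℝ) (t : ℕ) (s s' : SkCfg 1) :
    trV (gcDK l9pFt (l9pAf M v w)) (l9pAf M v w).length t s s'
      = l9pCu w (min t M.length) * (skSp s 0 * skSp s' 0) := by
  unfold trV l9pCu
  rw [l9p_af_len, Finset.sum_mul]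
  refine Finset.sum_congr rfl fun j hj => ?_
  have hj' : j < M.length := lt_of_lt_of_le (Finset.mem_range.1 hj) (min_le_right _ _)
  unfold gcDK
  simp only [Finset.univ_unique, Finset.sum_singleton, PUnit.default_eq_unit, l9p_ker]
  congr 1
  unfold l9pAf
  simp [hj']

theorem l9p_ls_eq (M : List ℝ) (v : ℕ → ℝ) : l9pLs M v = gcLs l9pFt (gcAff (l9pAf M v fun _ => 0) 0) := by
  rw [l9p_af_aff]
  simp [l9pLs]

theorem l9p_ls_adm {a : ℝ} {M : List ℝ} (hM : L9pAdm a M) {v : ℕ → ℝ} (hv : ∀ j, 0 ≤ v j) :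
    GhAdm (skBase 1 a) 0 (l9pLs M v) ∧ (l9pLs M v).length = M.length ∧
      ∀ j, trMs (skBase 1 a) (l9pLs M v) j = l9pMs a M j := by
  have h := tcb_gc_adm (B := skBase 1 a) l9pFt (l9p_af_adm hM hv (w := fun _ => 0) (by simpa using hv)) 0
  rw [← l9p_ls_eq, l9p_af_len, l9p_af_ms] at h
  exact h

theorem l9p_isMs {a : ℝ} {M : List ℝ} (hM : L9pAdm a M) : IsMs M.length (l9pMs a M) ∧ l9pMs a M M.length = a := by
  have h := l9p_ls_adm hM (v := fun _ => 0) (fun _ => le_rfl)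
  have h2 := tr_ms_isMs (sk_sy_base_ok 1 hM.pos) h.1
  rw [h.2.1] at h2
  have e : trMs (skBase 1 a) (l9pLs M fun _ => 0) = l9pMs a M := funext h.2.2
  rw [e] at h2
  exact h2

theorem l9p_cov (M : List ℝ) {v : ℕ → ℝ} (hv : ∀ j, 0 ≤ v j) (j : ℕ) (h : j < (l9pLs M v).length) (s t : SkCfg 1) :
    ((l9pLs M v)[j]).cov s t = v j * (skSp s 0 * skSp t 0) := by
  have hj : j < M.length := by simpa [l9pLs, gcLs] using h
  have e : (l9pLs M v)[j] = gcLv l9pFt M[j] (fun _ => v j) := by simp [l9pLs, gcLs]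
  rw [e, tcb_gc_cov l9pFt _ _ (fun _ => hv j)]
  simp [l9p_ker]

theorem l9p_nu_smul (a : ℝ) (M : List ℝ) (v : ℕ → ℝ) (q : ℕ) (τ : ℕ → ℕ → ℕ) (c : ℝ) (T : (ℕ → SkCfg 1) → ℝ) :
    l9pNu a M v q τ (fun σ => c * T σ) = c * l9pNu a M v q τ T := by
  unfold l9pNu trNu
  exact gh_n_smul _ c _ _ _ _

theorem l9p_nu_abs_le {a : ℝ} {M : List ℝ} (hM : L9pAdm a M) {v : ℕ → ℝ} (hv : ∀ j, 0 ≤ v j) (q : ℕ) (τ : ℕ → ℕ → ℕ)
    {T : (ℕ → SkCfg 1) → ℝ} {C : ℝ} (hT : ∀ σ, |T σ| ≤ C) : |l9pNu a M v q τ T| ≤ C := by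
  unfold l9pNu trNu
  exact gh_n_abs_le _ (sk_sy_base_ok 1 hM.pos) C _ ((l9p_ls_adm hM hv).1.ghNn le_rfl) _ _ _ fun _ σ => hT _

/-- the test with the added (dotted) pair `q, q+1` -/
def l9pT2 (q : ℕ) (T : (ℕ → SkCfg 1) → ℝ) : (ℕ → SkCfg 1) → ℝ :=
  fun σ => T σ * (skSp (σ q) 0 * skSp (σ (q + 1)) 0)

/-- **the dotted moment**: derivative of the scalar tree number in the direction `w` of the increments of `K` -/
def l9pDot (a : ℝ) (M : List ℝ) (v w : ℕ → ℝ) (q : ℕ) (τ : ℕ → ℕ → ℕ) (T : (ℕ → SkCfg 1) → ℝ) : ℝ :=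
  1 / 2 * trSumK (l9pMs a M) M.length 2 q τ fun τ₂ =>
    l9pCu w (min (τ₂ q (q + 1)) M.length) * l9pNu a M v (q + 2) τ₂ (l9pT2 q T)

/-- PE (2) for the scalar model -/
theorem l9p_hasDeriv {a : ℝ} {M : List ℝ} (hM : L9pAdm a M) {v w : ℕ → ℝ} (hv : ∀ j, 0 ≤ v j) (hw : ∀ j, 0 ≤ v j + w j)
    {q : ℕ} {τ : ℕ → ℕ → ℕ} (hτ : IsTr M.length q τ) {T : (ℕ → SkCfg 1) → ℝ} (hT : TrUses q T) {θ : ℝ}
    (hθ : θ ∈ Set.Icc (0 : ℝ) 1) :
    HasDerivWithinAt (fun θ => l9pNu a M (fun j => v j + θ * w j) q τ T)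
      (l9pDot a M (fun j => v j + θ * w j) w q τ T) (Set.Icc 0 1) θ := by
  have hτ' : IsTr (l9pAf M v w).length q τ := by rw [l9p_af_len]; exact hτ
  have h := tr_cov_deriv (sk_sy_base_ok 1 hM.pos) l9pFt (l9p_af_adm hM hv hw) hτ' 0 T hT hθ
  simp only [l9p_gcNu, l9p_trV, l9p_af_ms] at h
  rw [l9p_af_len] at h
  unfold l9pDot
  simp only [trSumK]
  convert h using 7 with τ₁ τ₂
  rw [← l9p_nu_smul]
  congr 1
  funext σ
  unfold l9pT2
  ring

theorem l9p_absK_mono {N q : ℕ} {τ : ℕ → ℕ → ℕ} {ms : ℕ → ℝ} (hτ : IsTr N q τ) (k : ℕ) (Φ Ψ : (ℕ → ℕ → ℕ) → ℝ)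
    (h : ∀ τ', IsTr N (q + k) τ' → (∀ y z, y < q → z < q → τ' y z = τ y z) → Φ τ' ≤ Ψ τ') :
    trAbsK ms N k q τ Φ ≤ trAbsK ms N k q τ Ψ := by
  classical
  rw [tr_absK_congr hτ k Φ (fun τ' => if (∀ y z, y < q → z < q → τ' y z = τ y z) then Φ τ' else Ψ τ')
    (fun τ' _ hag => by rw [if_pos hag])]
  refine tr_absK_mono hτ k _ Ψ fun τ' hτ' => ?_
  by_cases hag : ∀ y z, y < q → z < q → τ' y z = τ y z
  · rw [if_pos hag]; exact h τ' hτ' hag
  · rw [if_neg hag]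

/-- majorant of a dotted moment -/
theorem l9p_dot_le {a : ℝ} {M : List ℝ} {v w : ℕ → ℝ} {q : ℕ} {τ : ℕ → ℕ → ℕ} (hτ : IsTr M.length q τ)
    {T : (ℕ → SkCfg 1) → ℝ} (b : (ℕ → ℕ → ℕ) → ℝ)
    (hb : ∀ τ₂, IsTr M.length (q + 2) τ₂ → (∀ y z, y < q → z < q → τ₂ y z = τ y z) →
      |l9pNu a M v (q + 2) τ₂ (l9pT2 q T)| ≤ b τ₂) :
    |l9pDot a M v w q τ T| ≤ 1 / 2 * trAbsK (l9pMs a M) M.length 2 q τ fun τ₂ =>
      |l9pCu w (min (τ₂ q (q + 1)) M.length)| * b τ₂ := by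
  unfold l9pDot
  rw [abs_mul, abs_of_nonneg (by norm_num : (0 : ℝ) ≤ 1 / 2)]
  refine mul_le_mul_of_nonneg_left ((tr_sumK_le 2 _).trans ?_) (by norm_num)
  refine l9p_absK_mono hτ 2 _ _ fun τ₂ h1 h2 => ?_
  rw [abs_mul]
  exact mul_le_mul_of_nonneg_left (hb τ₂ h1 h2) (abs_nonneg _)

/-- **finite difference of a scalar moment** between two clocks on the same masses -/
theorem l9p_lip {a : ℝ} {M : List ℝ} (hM : L9pAdm a M) {v w : ℕ → ℝ} (hv : ∀ j, 0 ≤ v j) (hw : ∀ j, 0 ≤ v j + w j)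
    {q : ℕ} {τ : ℕ → ℕ → ℕ} (hτ : IsTr M.length q τ) {T : (ℕ → SkCfg 1) → ℝ} (hT : TrUses q T)
    (b : (ℕ → ℕ → ℕ) → ℝ)
    (hb : ∀ θ ∈ Set.Icc (0 : ℝ) 1, ∀ τ₂, IsTr M.length (q + 2) τ₂ → (∀ y z, y < q → z < q → τ₂ y z = τ y z) →
      |l9pNu a M (fun j => v j + θ * w j) (q + 2) τ₂ (l9pT2 q T)| ≤ b τ₂) :
    |l9pNu a M (fun j => v j + w j) q τ T - l9pNu a M v q τ T| ≤
      1 / 2 * trAbsK (l9pMs a M) M.length 2 q τ fun τ₂ => |l9pCu w (min (τ₂ q (q + 1)) M.length)| * b τ₂ := by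
  have h := Convex.norm_image_sub_le_of_norm_hasDerivWithin_le (𝕜 := ℝ)
    (f := fun θ => l9pNu a M (fun j => v j + θ * w j) q τ T) (s := Set.Icc (0 : ℝ) 1) (x := 0) (y := 1)
    (fun θ hθ => l9p_hasDeriv hM hv hw hτ hT hθ)
    (fun θ hθ => by rw [Real.norm_eq_abs]; exact l9p_dot_le hτ b (hb θ hθ))
    (convex_Icc 0 1) (by simp) (by simp)
  simpa using h

/-! ### the block flip -/

/-- the flip of the scalar spin -/
def l9pFl : SkCfg 1 ≃ SkCfg 1 := skGa fun _ => false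

theorem l9p_fl_sp (σ : SkCfg 1) : skSp (l9pFl σ) 0 = - skSp σ 0 := by
  unfold l9pFl
  rw [sk_sy_ga_sp]
  simp [skSp, Claims.C0461.pmSpin]
  split_ifs <;> norm_num

/-- the flip of the labels in `A` -/
def l9pFA (A : ℕ → Prop) [DecidablePred A] (σ : ℕ → SkCfg 1) : ℕ → SkCfg 1 :=
  fun x => if A x then l9pFl (σ x) else σ x

/-- a test which is odd under the flip of a union of blocks of the cut of depth `k` has mean `0` if nothing is revealed before the cut -/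
theorem l9p_flip {a : ℝ} {M : List ℝ} (hM : L9pAdm a M) {v : ℕ → ℝ} (hv : ∀ j, 0 ≤ v j) {q : ℕ} {τ : ℕ → ℕ → ℕ}
    (hτ : IsTr M.length q τ) {k : ℕ} (hkN : k ≤ M.length) (hk : ∀ j, j < k → v j = 0)
    (A : ℕ → Prop) [DecidablePred A] (hA : ∀ x y, x < q → y < q → A x → k < τ x y → A y)
    {T : (ℕ → SkCfg 1) → ℝ} (hT : TrUses q T) (hodd : ∀ σ, T (l9pFA A σ) = - T σ) :
    l9pNu a M v q τ T = 0 := by
  have hB := sk_sy_base_ok 1 hM.pos
  have hadm := l9p_ls_adm hM hv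
  have hAiff : ∀ x y : Fin q, k < τ x.1 y.1 → (A x.1 ↔ A y.1) := fun x y h =>
    ⟨fun hx => hA _ _ x.2 y.2 hx h, fun hy => hA _ _ y.2 x.2 hy (by rwa [hτ.symm _ _ y.2 x.2])⟩
  have hφ : ∀ x y : Fin q, ∀ j, k ≤ j → trRep q τ j x = trRep q τ j y → (A x.1 ↔ A y.1) := by
    intro x y j hj h
    rcases (tb2_rep_iff hτ j x y).1 h with rfl | h
    · exact Iff.rfl
    · exact hAiff x y (by omega)
  have key := gh_sy_nu (rep := fun t => trRep q τ t)
    (φ := fun x : Fin q => if A x.1 then l9pFl else Equiv.refl _) (B := skBase 1 a) (B' := skBase 1 a)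
    (ls := l9pLs M v) (ls' := l9pLs M v) hB (hadm.1.ghNn le_rfl) (tb2_repOk hτ)
    ⟨rfl, fun _ _ => rfl, rfl, ?_, ?_⟩ (fun _ => 0) (fun _ => 0) (fun _ _ => rfl) (fun _ => rfl) (fun _ => rfl)
    (fun σ => T (trExt σ))
  · have e : ∀ σ : Fin q → SkCfg 1,
        T (trExt fun x => (if A x.1 then l9pFl else Equiv.refl _) (σ x)) = -1 * T (trExt σ) := by
      intro σ
      rw [neg_one_mul, ← hodd]
      refine hT _ _ fun i hi => ?_
      simp only [trExt, l9pFA, hi, dif_pos]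
      split_ifs <;> rfl
    simp only [e] at key
    rw [gh_n_smul] at key
    unfold l9pNu trNu
    linarith
  · intro x y j h _ hr s t
    rw [l9p_cov M hv, l9p_cov M hv]
    by_cases hj : j < k
    · rw [hk j hj, zero_mul, zero_mul]
    · have := hφ x y j (by omega) hr
      by_cases hx : A x.1
      · rw [if_pos hx, if_pos (this.1 hx), l9p_fl_sp, l9p_fl_sp]; ring
      · rw [if_neg hx, if_neg (fun hy => hx (this.2 hy))]; rfl
  · intro x y hr
    have := hφ x y _ (by rw [hadm.2.1]; exact hkN) hr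
    by_cases hx : A x.1
    · rw [if_pos hx, if_pos (this.1 hx)]
    · rw [if_neg hx, if_neg (fun hy => hx (this.2 hy))]

/-! ### PAR for moments -/

/-- the constant of two attachments on `q` labels: `½ (2a)² q (q+1)` -/
def l9pC (a : ℝ) (q : ℕ) : ℝ := 2 * a ^ 2 * ((q : ℝ) * (q + 1))

theorem l9p_C_nonneg (a : ℝ) (q : ℕ) : 0 ≤ l9pC a q := by unfold l9pC; positivity

theorem l9p_tv {a : ℝ} {M : List ℝ} (hM : L9pAdm a M) {q : ℕ} {τ : ℕ → ℕ → ℕ} (hτ : IsTr M.length q τ)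
    (Φ : (ℕ → ℕ → ℕ) → ℝ) (B : ℝ) (hΦ : ∀ τ', IsTr M.length (q + 2) τ' → |Φ τ'| ≤ B) :
    1 / 2 * trAbsK (l9pMs a M) M.length 2 q τ (fun τ' => |Φ τ'|) ≤ l9pC a q * B := by
  have h := tr_absK_le hτ (l9p_isMs hM).1 2 Φ B hΦ
  rw [(l9p_isMs hM).2] at h
  have e : ∏ i ∈ Finset.range 2, ((q : ℝ) + (i : ℕ)) = (q : ℝ) * (q + 1) := by
    simp [Finset.prod_range_succ]
  rw [e] at h
  unfold l9pC
  nlinarith [h]

theorem l9p_sp_abs (σ : SkCfg 1) : |skSp σ 0| = 1 := by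
  unfold skSp Claims.C0461.pmSpin
  split_ifs <;> simp

theorem l9p_T2_abs {q : ℕ} {T : (ℕ → SkCfg 1) → ℝ} (hT1 : ∀ σ, |T σ| ≤ 1) (σ : ℕ → SkCfg 1) : |l9pT2 q T σ| ≤ 1 := by
  unfold l9pT2
  rw [abs_mul, abs_mul, l9p_sp_abs, l9p_sp_abs]
  simpa using hT1 σ

theorem l9p_T2_uses {q : ℕ} {T : (ℕ → SkCfg 1) → ℝ} (hT : TrUses q T) : TrUses (q + 2) (l9pT2 q T) := by
  intro σ σ' h
  unfold l9pT2
  rw [hT σ σ' fun i hi => h i (by omega), h q (by omega), h (q + 1) (by omega)]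

theorem l9p_cu_cut {v : ℕ → ℝ} (hv : ∀ j, 0 ≤ v j) (k t : ℕ) :
    |l9pCu (fun j => if j < k then v j else 0) t| ≤ l9pCu v k := by
  unfold l9pCu
  rw [abs_of_nonneg (Finset.sum_nonneg fun j _ => by split_ifs; exacts [hv j, le_rfl]), ← Finset.sum_filter]
  refine Finset.sum_le_sum_of_subset_of_nonneg ?_ fun j _ _ => hv j
  intro j hj
  rw [Finset.mem_filter] at hj
  exact Finset.mem_range.2 hj.2

theorem l9p_cu_nonneg {v : ℕ → ℝ} (hv : ∀ j, 0 ≤ v j) (k : ℕ) : 0 ≤ l9pCu v k :=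
  Finset.sum_nonneg fun j _ => hv j

/-- **PAR, moments**: a bounded test which is odd under the flip of a union of blocks of the cut of depth `k` has a mean `O(K_k)` -/
theorem l9p_par {a : ℝ} {M : List ℝ} (hM : L9pAdm a M) {v : ℕ → ℝ} (hv : ∀ j, 0 ≤ v j) {q : ℕ} {τ : ℕ → ℕ → ℕ}
    (hτ : IsTr M.length q τ) {k : ℕ} (hkN : k ≤ M.length)
    (A : ℕ → Prop) [DecidablePred A] (hA : ∀ x y, x < q → y < q → A x → k < τ x y → A y)
    {T : (ℕ → SkCfg 1) → ℝ} (hT : TrUses q T) (hT1 : ∀ σ, |T σ| ≤ 1) (hodd : ∀ σ, T (l9pFA A σ) = - T σ) :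
    |l9pNu a M v q τ T| ≤ l9pC a q * l9pCu v k := by
  set v0 : ℕ → ℝ := fun j => if j < k then 0 else v j with hv0
  set w : ℕ → ℝ := fun j => if j < k then v j else 0 with hw
  have hv0n : ∀ j, 0 ≤ v0 j := fun j => by simp only [hv0]; split_ifs; exacts [le_rfl, hv j]
  have hsum : (fun j => v0 j + w j) = v := by
    funext j
    simp only [hv0, hw]
    split_ifs <;> simp
  have h0 : l9pNu a M v0 q τ T = 0 :=
    l9p_flip hM hv0n hτ hkN (fun j hj => by simp only [hv0]; rw [if_pos hj]) A hA hT hodd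
  have hl := l9p_lip hM (v := v0) (w := w) hv0n (fun j => by rw [congrFun hsum j]; exact hv j) hτ hT (fun _ => 1)
    (fun θ hθ τ₂ _ _ => l9p_nu_abs_le hM (fun j => by
      simp only [hv0, hw]
      split_ifs
      · have := mul_nonneg hθ.1 (hv j); linarith
      · simpa using hv j) _ _ (l9p_T2_abs hT1))
  rw [hsum, h0, sub_zero] at hl
  refine hl.trans ?_
  simp only [mul_one]
  exact l9p_tv hM hτ (fun τ₂ => l9pCu w (min (τ₂ q (q + 1)) M.length)) _ fun τ' _ => l9p_cu_cut hv k _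

/-- the block of the label `c` just after the cut of depth `k` -/
theorem l9p_blk {N q : ℕ} {τ : ℕ → ℕ → ℕ} (hτ : IsTr N q τ) {c : ℕ} (hc : c < q) (k : ℕ) :
    ∀ x y, x < q → y < q → k < τ c x → k < τ x y → k < τ c y := fun x y hx hy h1 h2 =>
  lt_of_lt_of_le (lt_min h1 h2) (hτ.ultra c x y hc hx hy)

/-- oddness passes to the test with the added pair, if the added pair splits after the cut -/
theorem l9p_T2_odd {N q : ℕ} {τ τ₂ : ℕ → ℕ → ℕ} (hτ₂ : IsTr N (q + 2) τ₂) (hag : ∀ y z, y < q → z < q → τ₂ y z = τ y z)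
    {c k : ℕ} (hc : c < q) {T : (ℕ → SkCfg 1) → ℝ} (hT : TrUses q T)
    (hodd : ∀ σ, T (l9pFA (fun x => k < τ c x) σ) = - T σ) (hk : k < τ₂ q (q + 1)) (σ : ℕ → SkCfg 1) :
    l9pT2 q T (l9pFA (fun x => k < τ₂ c x) σ) = - l9pT2 q T σ := by
  unfold l9pT2
  have e1 : T (l9pFA (fun x => k < τ₂ c x) σ) = - T σ := by
    rw [← hodd]
    refine hT _ _ fun i hi => ?_
    simp only [l9pFA, hag c i hc hi]
  have hiff : k < τ₂ c q ↔ k < τ₂ c (q + 1) := by
    constructor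
    · intro h
      exact l9p_blk hτ₂ (by omega) k q (q + 1) (by omega) (by omega) h hk
    · intro h
      refine l9p_blk hτ₂ (by omega) k (q + 1) q (by omega) (by omega) h ?_
      rwa [hτ₂.symm _ _ (by omega) (by omega)]
  rw [e1]
  by_cases h : k < τ₂ c q
  · simp only [l9pFA, if_pos h, if_pos (hiff.1 h), l9p_fl_sp]; ring
  · simp only [l9pFA, if_neg h, if_neg (fun h' => h (hiff.2 h'))]; ring

/-- the weight of the dotted pair in the presence of a sole low pair at the depth `k` -/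
def l9pW (β : ℝ) (k q : ℕ) (τ₂ : ℕ → ℕ → ℕ) : ℝ := if k < τ₂ q (q + 1) then β else 1

/-- **PAR, dotted moments** (LL 09 l.355-358) -/
theorem l9p_par_dot {a : ℝ} {M : List ℝ} (hM : L9pAdm a M) {v : ℕ → ℝ} (hv : ∀ j, 0 ≤ v j) (w : ℕ → ℝ) {q : ℕ}
    {τ : ℕ → ℕ → ℕ} (hτ : IsTr M.length q τ) {k : ℕ} (hkN : k ≤ M.length) {c : ℕ} (hc : c < q)
    {T : (ℕ → SkCfg 1) → ℝ} (hT : TrUses q T) (hT1 : ∀ σ, |T σ| ≤ 1)
    (hodd : ∀ σ, T (l9pFA (fun x => k < τ c x) σ) = - T σ) {β : ℝ} (hβ : l9pC a (q + 2) * l9pCu v k ≤ β) :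
    |l9pDot a M v w q τ T| ≤ 1 / 2 * trAbsK (l9pMs a M) M.length 2 q τ fun τ₂ =>
      |l9pCu w (min (τ₂ q (q + 1)) M.length)| * l9pW β k q τ₂ := by
  refine l9p_dot_le hτ _ fun τ₂ h1 h2 => ?_
  unfold l9pW
  split_ifs with hk
  · exact (l9p_par hM hv h1 hkN (fun x => k < τ₂ c x) (l9p_blk h1 (by omega) k) (l9p_T2_uses hT) (l9p_T2_abs hT1)
      (l9p_T2_odd h1 h2 hc hT hodd hk)).trans hβ
  · exact l9p_nu_abs_le hM hv _ _ (l9p_T2_abs hT1)

theorem l9p_cu_aff (v w : ℕ → ℝ) (θ : ℝ) (k : ℕ) :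
    l9pCu (fun j => v j + θ * w j) k = (1 - θ) * l9pCu v k + θ * l9pCu (fun j => v j + w j) k := by
  unfold l9pCu
  rw [Finset.mul_sum, Finset.mul_sum, ← Finset.sum_add_distrib]
  exact Finset.sum_congr rfl fun j _ => by ring

/-- **PAR, finite differences** -/
theorem l9p_par_lip {a : ℝ} {M : List ℝ} (hM : L9pAdm a M) {v w : ℕ → ℝ} (hv : ∀ j, 0 ≤ v j) (hw : ∀ j, 0 ≤ v j + w j)
    {q : ℕ} {τ : ℕ → ℕ → ℕ} (hτ : IsTr M.length q τ) {k : ℕ} (hkN : k ≤ M.length) {c : ℕ} (hc : c < q)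
    {T : (ℕ → SkCfg 1) → ℝ} (hT : TrUses q T) (hT1 : ∀ σ, |T σ| ≤ 1)
    (hodd : ∀ σ, T (l9pFA (fun x => k < τ c x) σ) = - T σ) {β : ℝ} (hβ0 : l9pC a (q + 2) * l9pCu v k ≤ β)
    (hβ1 : l9pC a (q + 2) * l9pCu (fun j => v j + w j) k ≤ β) :
    |l9pNu a M (fun j => v j + w j) q τ T - l9pNu a M v q τ T| ≤
      1 / 2 * trAbsK (l9pMs a M) M.length 2 q τ fun τ₂ =>
        |l9pCu w (min (τ₂ q (q + 1)) M.length)| * l9pW β k q τ₂ := by
  refine l9p_lip hM hv hw hτ hT _ fun θ hθ τ₂ h1 h2 => ?_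
  have hvθ : ∀ j, 0 ≤ v j + θ * w j := fun j => by
    have e : v j + θ * w j = (1 - θ) * v j + θ * (v j + w j) := by ring
    rw [e]
    exact add_nonneg (mul_nonneg (by linarith [hθ.2]) (hv j)) (mul_nonneg hθ.1 (hw j))
  unfold l9pW
  split_ifs with hk
  · refine (l9p_par hM hvθ h1 hkN (fun x => k < τ₂ c x) (l9p_blk h1 (by omega) k) (l9p_T2_uses hT) (l9p_T2_abs hT1)
      (l9p_T2_odd h1 h2 hc hT hodd hk)).trans ?_
    rw [l9p_cu_aff, mul_add, ← mul_assoc, ← mul_assoc, mul_comm _ (1 - θ), mul_comm _ θ, mul_assoc, mul_assoc]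
    have h3 := mul_le_mul_of_nonneg_left hβ0 (by linarith [hθ.2] : (0 : ℝ) ≤ 1 - θ)
    have h4 := mul_le_mul_of_nonneg_left hβ1 hθ.1
    nlinarith
  · exact l9p_nu_abs_le hM hvθ _ _ (l9p_T2_abs hT1)

/-! ### second order Taylor bound; differentiability along a family of clocks -/

theorem l9p_sumK_sub (ms : ℕ → ℝ) (N k : ℕ) : ∀ (q : ℕ) (τ : ℕ → ℕ → ℕ) (Φ Ψ : (ℕ → ℕ → ℕ) → ℝ),
    trSumK ms N k q τ (fun τ' => Φ τ' - Ψ τ') = trSumK ms N k q τ Φ - trSumK ms N k q τ Ψ := by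
  induction k with
  | zero => intro q τ Φ Ψ; rfl
  | succ k ih =>
    intro q τ Φ Ψ
    simp only [trSumK, trSum, ih, mul_sub, Finset.sum_sub_distrib]

theorem l9p_dot_sub_le {a : ℝ} {M : List ℝ} {v v₁ w : ℕ → ℝ} {q : ℕ} {τ : ℕ → ℕ → ℕ} (hτ : IsTr M.length q τ)
    {T : (ℕ → SkCfg 1) → ℝ} (b : (ℕ → ℕ → ℕ) → ℝ)
    (hb : ∀ τ₂, IsTr M.length (q + 2) τ₂ → (∀ y z, y < q → z < q → τ₂ y z = τ y z) →
      |l9pNu a M v₁ (q + 2) τ₂ (l9pT2 q T) - l9pNu a M v (q + 2) τ₂ (l9pT2 q T)| ≤ b τ₂) :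
    |l9pDot a M v₁ w q τ T - l9pDot a M v w q τ T| ≤ 1 / 2 * trAbsK (l9pMs a M) M.length 2 q τ fun τ₂ =>
      |l9pCu w (min (τ₂ q (q + 1)) M.length)| * b τ₂ := by
  unfold l9pDot
  rw [← mul_sub, ← l9p_sumK_sub, abs_mul, abs_of_nonneg (by norm_num : (0 : ℝ) ≤ 1 / 2)]
  refine mul_le_mul_of_nonneg_left ((tr_sumK_le 2 _).trans ?_) (by norm_num)
  refine l9p_absK_mono hτ 2 _ _ fun τ₂ h1 h2 => ?_
  rw [← mul_sub, abs_mul]
  exact mul_le_mul_of_nonneg_left (hb τ₂ h1 h2) (abs_nonneg _)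

theorem l9p_tv' {a : ℝ} {M : List ℝ} (hM : L9pAdm a M) {q : ℕ} {τ : ℕ → ℕ → ℕ} (hτ : IsTr M.length q τ)
    (Φ : (ℕ → ℕ → ℕ) → ℝ) (B c : ℝ) (hc : 0 ≤ c) (hΦ : ∀ τ', IsTr M.length (q + 2) τ' → |Φ τ'| ≤ B) :
    1 / 2 * trAbsK (l9pMs a M) M.length 2 q τ (fun τ' => |Φ τ'| * c) ≤ l9pC a q * (B * c) := by
  have e : (fun τ' => |Φ τ'| * c) = fun τ' => |Φ τ' * c| := by
    funext τ'; rw [abs_mul, abs_of_nonneg hc]
  rw [e]
  refine l9p_tv hM hτ (fun τ' => Φ τ' * c) _ fun τ' h => ?_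
  rw [abs_mul, abs_of_nonneg hc]
  exact mul_le_mul_of_nonneg_right (hΦ τ' h) hc

/-- crude finite difference -/
theorem l9p_lip_sup {a : ℝ} {M : List ℝ} (hM : L9pAdm a M) {v w : ℕ → ℝ} (hv : ∀ j, 0 ≤ v j) (hw : ∀ j, 0 ≤ v j + w j)
    {q : ℕ} {τ : ℕ → ℕ → ℕ} (hτ : IsTr M.length q τ) {T : (ℕ → SkCfg 1) → ℝ} (hT : TrUses q T) (hT1 : ∀ σ, |T σ| ≤ 1)
    {W : ℝ} (hW : ∀ t, t ≤ M.length → |l9pCu w t| ≤ W) :
    |l9pNu a M (fun j => v j + w j) q τ T - l9pNu a M v q τ T| ≤ l9pC a q * W := by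
  have h := l9p_lip hM hv hw hτ hT (fun _ => 1) fun θ hθ τ₂ _ _ => l9p_nu_abs_le hM (fun j => by
    have e : v j + θ * w j = (1 - θ) * v j + θ * (v j + w j) := by ring
    rw [e]
    exact add_nonneg (mul_nonneg (by linarith [hθ.2]) (hv j)) (mul_nonneg hθ.1 (hw j))) _ _ (l9p_T2_abs hT1)
  refine h.trans ?_
  have := l9p_tv' hM hτ (fun τ₂ => l9pCu w (min (τ₂ q (q + 1)) M.length)) W 1 zero_le_one
    fun τ' _ => hW _ (min_le_right _ _)
  simpa using this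

theorem l9p_cu_smul (θ : ℝ) (w : ℕ → ℝ) (t : ℕ) : l9pCu (fun j => θ * w j) t = θ * l9pCu w t := by
  unfold l9pCu; rw [Finset.mul_sum]

/-- **second order Taylor bound** in the increments of the clock -/
theorem l9p_taylor {a : ℝ} {M : List ℝ} (hM : L9pAdm a M) {v w : ℕ → ℝ} (hv : ∀ j, 0 ≤ v j) (hw : ∀ j, 0 ≤ v j + w j)
    {q : ℕ} {τ : ℕ → ℕ → ℕ} (hτ : IsTr M.length q τ) {T : (ℕ → SkCfg 1) → ℝ} (hT : TrUses q T) (hT1 : ∀ σ, |T σ| ≤ 1)
    {W : ℝ} (hW : ∀ t, t ≤ M.length → |l9pCu w t| ≤ W) :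
    |l9pNu a M (fun j => v j + w j) q τ T - l9pNu a M v q τ T - l9pDot a M v w q τ T|
      ≤ l9pC a q * (W * (l9pC a (q + 2) * W)) := by
  have hW0 : 0 ≤ W := (abs_nonneg _).trans (hW 0 (Nat.zero_le _))
  have hc0 : 0 ≤ l9pC a (q + 2) * W := mul_nonneg (l9p_C_nonneg _ _) hW0
  have h := Convex.norm_image_sub_le_of_norm_hasDerivWithin_le (𝕜 := ℝ)
    (f := fun θ => l9pNu a M (fun j => v j + θ * w j) q τ T - θ * l9pDot a M v w q τ T)
    (f' := fun θ => l9pDot a M (fun j => v j + θ * w j) w q τ T - 1 * l9pDot a M v w q τ T)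
    (s := Set.Icc (0 : ℝ) 1) (x := 0) (y := 1) (C := l9pC a q * (W * (l9pC a (q + 2) * W)))
    (fun θ hθ => (l9p_hasDeriv hM hv hw hτ hT hθ).sub ((hasDerivWithinAt_id θ _).mul_const _))
    (fun θ hθ => by
      rw [Real.norm_eq_abs, one_mul]
      refine (l9p_dot_sub_le hτ (fun _ => l9pC a (q + 2) * W) fun τ₂ h1 _ => ?_).trans
        (l9p_tv' hM hτ (fun τ₂ => l9pCu w (min (τ₂ q (q + 1)) M.length)) W _ hc0 fun τ' _ => hW _ (min_le_right _ _))
      refine l9p_lip_sup hM hv (w := fun j => θ * w j) (fun j => ?_) h1 (l9p_T2_uses hT) (l9p_T2_abs hT1) fun t ht => ?_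
      · have e : v j + θ * w j = (1 - θ) * v j + θ * (v j + w j) := by ring
        rw [e]
        exact add_nonneg (mul_nonneg (by linarith [hθ.2]) (hv j)) (mul_nonneg hθ.1 (hw j))
      · rw [l9p_cu_smul, abs_mul, abs_of_nonneg hθ.1]
        calc θ * |l9pCu w t| ≤ 1 * W := mul_le_mul hθ.2 (hW t ht) (abs_nonneg _) zero_le_one
          _ = W := one_mul _)
    (convex_Icc 0 1) (by simp) (by simp)
  have e : l9pNu a M (fun j => v j + w j) q τ T - l9pNu a M v q τ T - l9pDot a M v w q τ T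
      = (l9pNu a M (fun j => v j + 1 * w j) q τ T - 1 * l9pDot a M v w q τ T)
        - (l9pNu a M (fun j => v j + 0 * w j) q τ T - 0 * l9pDot a M v w q τ T) := by
    simp only [one_mul, zero_mul, add_zero, sub_zero]; ring
  rw [e, ← Real.norm_eq_abs]
  simpa using h

open Filter Topology Asymptotics in
/-- **the scalar moments are differentiable along any differentiable family of clocks on fixed masses**; the derivative is the dotted moment -/
theorem l9p_hasDerivAt {a : ℝ} {M : List ℝ} (hM : L9pAdm a M) {v : ℝ → ℕ → ℝ} {v' : ℕ → ℝ} {t0 : ℝ}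
    (hv : ∀ᶠ t in 𝓝 t0, ∀ j, 0 ≤ v t j) (hd : ∀ j, j < M.length → HasDerivAt (fun t => v t j) (v' j) t0)
    {q : ℕ} {τ : ℕ → ℕ → ℕ} (hτ : IsTr M.length q τ) {T : (ℕ → SkCfg 1) → ℝ} (hT : TrUses q T) (hT1 : ∀ σ, |T σ| ≤ 1) :
    HasDerivAt (fun t => l9pNu a M (v t) q τ T) (l9pDot a M (v t0) v' q τ T) t0 := by
  set w : ℝ → ℕ → ℝ := fun t j => v t j - v t0 j with hw
  set D : ℝ → ℝ := fun t => l9pDot a M (v t0) (w t) q τ T with hD
  set R : ℝ → ℝ := fun t => l9pNu a M (v t) q τ T - l9pNu a M (v t0) q τ T - D t with hR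
  set S : ℝ → ℝ := fun t => ∑ j ∈ Finset.range M.length, |v t j - v t0 j| with hS
  have hv0 : ∀ j, 0 ≤ v t0 j := hv.self_of_nhds
  -- the linear part
  have hcu : ∀ s, s ≤ M.length → HasDerivAt (fun t => l9pCu (w t) s) (l9pCu v' s) t0 := by
    intro s hs
    unfold l9pCu
    refine HasDerivAt.fun_sum fun j hj => ?_
    have := (hd j (lt_of_lt_of_le (Finset.mem_range.1 hj) hs)).sub_const (v t0 j)
    simpa [hw] using this
  have hDd : HasDerivAt D (l9pDot a M (v t0) v' q τ T) t0 := by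
    simp only [hD]
    unfold l9pDot
    refine HasDerivAt.const_mul _ ?_
    rw [← hasDerivWithinAt_univ]
    refine tcb_sumK_hasDeriv 2 hτ
      (fun t τ₂ => l9pCu (w t) (min (τ₂ q (q + 1)) M.length) * l9pNu a M (v t0) (q + 2) τ₂ (l9pT2 q T)) _ fun τ' _ => ?_
    rw [hasDerivWithinAt_univ]
    exact (hcu _ (min_le_right _ _)).mul_const _
  -- the remainder
  have hRle : ∀ᶠ t in 𝓝 t0, ‖R t‖ ≤ (l9pC a q * l9pC a (q + 2)) * ‖S t ^ 2‖ := by
    filter_upwards [hv] with t ht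
    have hsum : (fun j => v t0 j + w t j) = v t := by funext j; simp [hw]
    have h := l9p_taylor hM hv0 (w := w t) (fun j => by rw [congrFun hsum j]; exact ht j) hτ hT hT1 (W := S t)
      (fun s hs => by
        unfold l9pCu
        refine (Finset.abs_sum_le_sum_abs _ _).trans ?_
        exact Finset.sum_le_sum_of_subset_of_nonneg (Finset.range_subset_range.2 hs) fun _ _ _ => abs_nonneg _)
    rw [hsum] at h
    rw [Real.norm_eq_abs, Real.norm_eq_abs, abs_of_nonneg (sq_nonneg (S t))]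
    calc |R t| ≤ l9pC a q * (S t * (l9pC a (q + 2) * S t)) := h
      _ = _ := by ring
  have hSO : S =O[𝓝 t0] fun t => t - t0 := by
    simp only [hS]
    refine IsBigO.fun_sum fun j hj => ?_
    exact (hd j (Finset.mem_range.1 hj)).isBigO_sub.abs_left
  have hRo : R =o[𝓝 t0] fun t => t - t0 := by
    have h1 : R =O[𝓝 t0] fun t => S t ^ 2 := IsBigO.of_bound _ hRle
    have h2 : (fun t => S t ^ 2) =O[𝓝 t0] fun t => (t - t0) ^ 2 := hSO.pow 2
    have h3 : (fun t : ℝ => (t - t0) ^ 2) =o[𝓝 t0] fun t => t - t0 := by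
      have := isLittleO_pow_sub_sub t0 (m := 2) (by norm_num)
      refine (IsBigO.of_bound 1 (Filter.Eventually.of_forall fun t => ?_)).trans_isLittleO this
      simp
    exact (h1.trans h2).trans_isLittleO h3
  have hR0 : R t0 = 0 := by
    have := hRle.self_of_nhds
    simp only [hS, sub_self, abs_zero, Finset.sum_const_zero] at this
    simpa using this
  have hRd : HasDerivAt R 0 t0 := by
    rw [hasDerivAt_iff_isLittleO]
    simpa [hR0] using hRo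
  have hfin := ((hasDerivAt_const t0 (l9pNu a M (v t0) q τ T)).add hDd).add hRd
  have e : (fun t => l9pNu a M (v t) q τ T) = fun t => l9pNu a M (v t0) q τ T + D t + R t := by
    funext t; simp only [hR]; ring
  rw [e]
  have e2 : (0 : ℝ) + l9pDot a M (v t0) v' q τ T + 0 = l9pDot a M (v t0) v' q τ T := by ring
  rw [← e2]
  exact hfin

/-! ### the scalar reference of a fine LL path -/

/-- masses of a fine path -/
def l9pM (P : LlStp) : List ℝ := P.map LlInc.m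

/-- increments of the reference clock `K` -/
def l9pV (P : LlStp) (j : ℕ) : ℝ := ((P.map LlInc.dK)[j]?).getD 0

theorem l9p_M_len (P : LlStp) : (l9pM P).length = P.length := by simp [l9pM]

theorem l9p_V_get (P : LlStp) {j : ℕ} (hj : j < P.length) : l9pV P j = (P[j]).dK := by
  simp [l9pV, hj]

theorem l9p_V_out (P : LlStp) {j : ℕ} (hj : P.length ≤ j) : l9pV P j = 0 := by
  simp [l9pV, hj]

theorem l9p_adm {a : ℝ} (ha : 0 < a) {P : LlStp} (hP : SkAdm a (llSc P)) :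
    L9pAdm a (l9pM P) ∧ ∀ j, 0 ≤ l9pV P j := by
  refine ⟨⟨ha, ?_, ?_⟩, ?_⟩
  · have h := hP.1
    unfold llSc at h
    rw [List.pairwise_map] at h
    unfold l9pM
    rw [List.pairwise_map]
    exact h
  · intro m hm
    unfold l9pM at hm
    rw [List.mem_map] at hm
    obtain ⟨e, he, rfl⟩ := hm
    have := hP.2 ⟨e.m, 0, e.dK⟩ (by unfold llSc; exact List.mem_map.2 ⟨e, he, rfl⟩)
    exact ⟨this.1, this.2.1⟩
  · intro j
    by_cases hj : j < P.length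
    · rw [l9p_V_get P hj]
      have := hP.2 ⟨(P[j]).m, 0, (P[j]).dK⟩ (by unfold llSc; exact List.mem_map.2 ⟨P[j], List.getElem_mem hj, rfl⟩)
      exact this.2.2.2
    · rw [l9p_V_out P (by omega)]

theorem l9p_ms_eq (a : ℝ) (P : LlStp) : l9pMs a (l9pM P) = llMs a P := rfl

theorem l9p_cu_list (L : List ℝ) : ∀ t : ℕ, l9pCu (fun j => (L[j]?).getD 0) t = (L.take t).sum := by
  induction L with
  | nil => intro t; simp [l9pCu]
  | cons x L ih =>
    intro t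
    cases t with
    | zero => simp [l9pCu]
    | succ t =>
      have := ih t
      unfold l9pCu at this ⊢
      rw [Finset.sum_range_succ', List.take_succ_cons, List.sum_cons, ← this]
      simp [add_comm]

theorem l9p_cumK (P : LlStp) (t : ℕ) : llCumK P t = l9pCu (l9pV P) t := by
  unfold llCumK l9pV
  rw [l9p_cu_list, List.map_take]

theorem l9p_ov1 (s t : SkCfg 1) : skOv s t = skSp s 0 * skSp t 0 := by
  simp [skOv]

/-- the scalar reference of `llJs` is the scalar model of this file -/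
theorem l9p_nuS {a : ℝ} (ha : 0 < a) {P : LlStp} (hP : SkAdm a (llSc P)) (q : ℕ) (τ : ℕ → ℕ → ℕ) (T : (ℕ → Bool) → ℝ) :
    llNuS a P q τ T = l9pNu a (l9pM P) (l9pV P) q τ fun σ => T fun x => σ x 0 := by
  obtain ⟨hM, hv⟩ := l9p_adm ha hP
  have hadm := l9p_ls_adm hM hv
  unfold llNuS l9pNu
  have hlen : (skLvs 1 (llSc P)).length = (l9pLs (l9pM P) (l9pV P)).length := by
    rw [hadm.2.1, l9p_M_len]; simp [skLvs, llSc]
  refine tr_e_nu_cov_congr (sk_sy_base_ok 1 ha) hlen (fun j => ?_) (fun j h h' s t => ?_) q τ 0 _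
  · rw [hadm.2.2 j]
    unfold trMs l9pMs l9pM skLvs llSc
    simp only [List.getElem?_map, Option.map_map]
    cases P[j]? <;> rfl
  · rw [l9p_cov _ hv]
    have hj : j < P.length := by simpa [skLvs, llSc] using h
    have e : (skLvs 1 (llSc P))[j] = SkInc.lv 1 ⟨(P[j]).m, 0, (P[j]).dK⟩ := by simp [skLvs, llSc]
    have hdk : 0 ≤ (P[j]).dK := by rw [← l9p_V_get P hj]; exact hv j
    rw [e, sk_d_cov 1 one_pos _ le_rfl hdk, l9p_V_get P hj, l9p_ov1]
    simp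

/-- the scalar test of `JtCtx.scM` -/
def l9pTs (q : ℕ) (obs A : Finset ℕ) : (ℕ → SkCfg 1) → ℝ := fun σ =>
  (∏ y ∈ obs, skSp (σ y) 0) * ∏ i ∈ A, skSp (σ (jtC q i)) 0 * skSp (σ (jtD q i)) 0

theorem l9p_scM {a : ℝ} (ha : 0 < a) {P : LlStp} (hP : SkAdm a (llSc P)) (n : ℕ) (tl : Option ℕ) (r q : ℕ)
    (obs : Finset ℕ) (τ : ℕ → ℕ → ℕ) (A : Finset ℕ) :
    (llJs n a P tl).scM r q obs τ A = l9pNu a (l9pM P) (l9pV P) r τ (l9pTs q obs A) := by
  have e : (llJs n a P tl).scM r q obs τ A = llNuS a P r τ fun t =>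
      (∏ y ∈ obs, jtSp (t y)) * ∏ i ∈ A, jtSp (t (jtC q i)) * jtSp (t (jtD q i)) := rfl
  rw [e, l9p_nuS ha hP]
  rfl

theorem l9p_Ts_uses {r q : ℕ} {obs A : Finset ℕ} (ho : ∀ y ∈ obs, y < r) (hA : ∀ i ∈ A, jtD q i < r) :
    TrUses r (l9pTs q obs A) := by
  intro σ σ' h
  unfold l9pTs
  congr 1
  · exact Finset.prod_congr rfl fun y hy => by rw [h y (ho y hy)]
  · refine Finset.prod_congr rfl fun i hi => ?_
    have := hA i hi
    rw [h (jtC q i) (by unfold jtC; unfold jtD at this; omega), h (jtD q i) this]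

theorem l9p_Ts_abs (q : ℕ) (obs A : Finset ℕ) (σ : ℕ → SkCfg 1) : |l9pTs q obs A σ| ≤ 1 := by
  unfold l9pTs
  rw [abs_mul, Finset.abs_prod, Finset.abs_prod]
  simp [abs_mul, l9p_sp_abs]

/-- sign of a label under the flip of `Bk` -/
def l9pEp (Bk : ℕ → Prop) [DecidablePred Bk] (x : ℕ) : ℝ := if Bk x then -1 else 1

theorem l9p_sp_FA (Bk : ℕ → Prop) [DecidablePred Bk] (σ : ℕ → SkCfg 1) (x : ℕ) :
    skSp (l9pFA Bk σ x) 0 = l9pEp Bk x * skSp (σ x) 0 := by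
  unfold l9pFA l9pEp
  split_ifs
  · rw [l9p_fl_sp]; ring
  · ring

theorem l9p_Ts_FA (Bk : ℕ → Prop) [DecidablePred Bk] (q : ℕ) (obs A : Finset ℕ) (σ : ℕ → SkCfg 1) :
    l9pTs q obs A (l9pFA Bk σ)
      = ((∏ y ∈ obs, l9pEp Bk y) * ∏ i ∈ A, l9pEp Bk (jtC q i) * l9pEp Bk (jtD q i)) * l9pTs q obs A σ := by
  unfold l9pTs
  simp only [l9p_sp_FA, Finset.prod_mul_distrib]
  ring

/-- the parity configuration: the pair `s` splits at the depth `k`, every other pair later, the observed labels are paired after `k` -/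
theorem l9p_Ts_odd {N r q : ℕ} {τ : ℕ → ℕ → ℕ} (hτ : IsTr N r τ) {obs A : Finset ℕ} (hA : ∀ i ∈ A, jtD q i < r) {s : ℕ}
    (hs : s ∈ A) (hk : τ (jtC q s) (jtD q s) ≤ N)
    (hoth : ∀ i ∈ A, i ≠ s → τ (jtC q s) (jtD q s) < τ (jtC q i) (jtD q i))
    (hobs : ∏ y ∈ obs, l9pEp (fun x => τ (jtC q s) (jtD q s) < τ (jtC q s) x) y = 1) (σ : ℕ → SkCfg 1) :
    l9pTs q obs A (l9pFA (fun x => τ (jtC q s) (jtD q s) < τ (jtC q s) x) σ) = - l9pTs q obs A σ := by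
  have hlt : ∀ i ∈ A, jtC q i < r := fun i hi => by
    have := hA i hi; unfold jtC; unfold jtD at this; omega
  rw [l9p_Ts_FA, hobs, one_mul, Finset.prod_eq_single_of_mem s hs]
  · have h1 : l9pEp (fun x => τ (jtC q s) (jtD q s) < τ (jtC q s) x) (jtC q s) = -1 := by
      unfold l9pEp
      rw [if_pos (by show τ (jtC q s) (jtD q s) < τ (jtC q s) (jtC q s); rw [hτ.diag _ (hlt s hs)]; omega)]
    have h2 : l9pEp (fun x => τ (jtC q s) (jtD q s) < τ (jtC q s) x) (jtD q s) = 1 := by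
      unfold l9pEp
      rw [if_neg (lt_irrefl _)]
    rw [h1, h2]; ring
  · intro i hi hne
    have hb := l9p_blk hτ (hlt s hs) (τ (jtC q s) (jtD q s))
    have h3 := hoth i hi hne
    have hiff : τ (jtC q s) (jtD q s) < τ (jtC q s) (jtC q i) ↔ τ (jtC q s) (jtD q s) < τ (jtC q s) (jtD q i) :=
      ⟨fun h => hb _ _ (hlt i hi) (hA i hi) h h3,
        fun h => hb _ _ (hA i hi) (hlt i hi) h (by rwa [hτ.symm _ _ (hA i hi) (hlt i hi)])⟩
    unfold l9pEp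
    by_cases h : τ (jtC q s) (jtD q s) < τ (jtC q s) (jtC q i)
    · rw [if_pos h, if_pos (hiff.1 h)]; norm_num
    · rw [if_neg h, if_neg (fun h' => h (hiff.2 h'))]; norm_num

/-- **PAR for the scalar moments of `llJs`** -/
theorem l9p_scM_par {a : ℝ} (ha : 0 < a) {P : LlStp} (hP : SkAdm a (llSc P)) (n : ℕ) (tl : Option ℕ) {r q : ℕ}
    {obs A : Finset ℕ} {τ : ℕ → ℕ → ℕ} (hτ : IsTr P.length r τ) (ho : ∀ y ∈ obs, y < r) (hA : ∀ i ∈ A, jtD q i < r) {s : ℕ}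
    (hs : s ∈ A) (hk : τ (jtC q s) (jtD q s) ≤ P.length)
    (hoth : ∀ i ∈ A, i ≠ s → τ (jtC q s) (jtD q s) < τ (jtC q i) (jtD q i))
    (hobs : ∏ y ∈ obs, l9pEp (fun x => τ (jtC q s) (jtD q s) < τ (jtC q s) x) y = 1) :
    |(llJs n a P tl).scM r q obs τ A| ≤ l9pC a r * llCumK P (τ (jtC q s) (jtD q s)) := by
  obtain ⟨hM, hv⟩ := l9p_adm ha hP
  have hτ' : IsTr (l9pM P).length r τ := by rw [l9p_M_len]; exact hτ
  have hc : jtC q s < r := by have := hA s hs; unfold jtC; unfold jtD at this; omega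
  rw [l9p_scM ha hP, l9p_cumK]
  exact l9p_par hM hv hτ' (by rw [l9p_M_len]; exact hk) _ (l9p_blk hτ' hc _) (l9p_Ts_uses ho hA) (l9p_Ts_abs q obs A)
    (l9p_Ts_odd hτ hA hs hk hoth hobs)

theorem l9p_scM_abs {a : ℝ} (ha : 0 < a) {P : LlStp} (hP : SkAdm a (llSc P)) (n : ℕ) (tl : Option ℕ) (r q : ℕ)
    (obs A : Finset ℕ) (τ : ℕ → ℕ → ℕ) : |(llJs n a P tl).scM r q obs τ A| ≤ 1 := by
  obtain ⟨hM, hv⟩ := l9p_adm ha hP
  rw [l9p_scM ha hP]
  exact l9p_nu_abs_le hM hv _ _ (l9p_Ts_abs q obs A)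


/-! ### PAR for the cumulants and for the cavity quotients -/

/-- the constant of the reciprocal series -/
def l9pIC (s : Finset ℕ) : ℝ := l9PS (fun Q => (Q.card.factorial : ℝ)) s

theorem l9p_IC_nonneg (s : Finset ℕ) : 0 ≤ l9pIC s := by
  unfold l9pIC l9PS
  exact Finset.sum_nonneg fun _ _ => by positivity

/-- crude bound of the coefficients of the reciprocal -/
theorem l9p_inv_abs_le (m : Finset ℕ → ℝ) (b : ℕ → ℝ) (s : Finset ℕ)
    (hm : ∀ t ⊆ s, t.Nonempty → |m t| ≤ ∏ i ∈ t, b i) : |l9Inv m s| ≤ l9pIC s * ∏ i ∈ s, b i := by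
  unfold l9Inv l9pIC
  rw [mul_comm, ← l9PS_mul_left]
  refine l9PS_abs_le _ _ _ fun π => ?_
  rw [abs_mul, abs_mul, abs_pow, abs_neg, abs_one, one_pow, one_mul, Nat.abs_cast, mul_comm, Finset.abs_prod]
  refine mul_le_mul_of_nonneg_right ?_ (by positivity)
  rw [← l9_prod_parts π b]
  exact Finset.prod_le_prod (fun P _ => abs_nonneg _) fun P hP => hm P (π.le hP) (π.nonempty_of_mem_parts hP)

/-- the multiplier `β` at the pair `s`, `1` elsewhere -/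
def l9pB (s : ℕ) (β : ℝ) (i : ℕ) : ℝ := if i = s then β else 1

theorem l9p_B_prod (s : ℕ) (β : ℝ) (t : Finset ℕ) : ∏ i ∈ t, l9pB s β i = if s ∈ t then β else 1 := by
  unfold l9pB
  exact Finset.prod_ite_eq' t s fun _ => β

/-- **PAR for the joint cumulants `κ_K`** (LL 09 l.350-358, 08 l.1563-1579): if the pair `s` splits at the depth `k` and all the other pairs split later, `|κ_K| ≤ C K(k)` -/
theorem l9p_kap_par {a : ℝ} (ha : 0 < a) {P : LlStp} (hP : SkAdm a (llSc P)) (n : ℕ) (tl : Option ℕ) {r q : ℕ}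
    {A : Finset ℕ} {τ : ℕ → ℕ → ℕ} (hτ : IsTr P.length r τ) (hA : ∀ i ∈ A, jtD q i < r) {s : ℕ}
    (hs : s ∈ A) (hk : τ (jtC q s) (jtD q s) ≤ P.length)
    (hoth : ∀ i ∈ A, i ≠ s → τ (jtC q s) (jtD q s) < τ (jtC q i) (jtD q i)) :
    |(llJs n a P tl).Kap r q τ A| ≤ l9CumC A * (l9pC a r * llCumK P (τ (jtC q s) (jtD q s))) := by
  unfold JtCtx.Kap
  rw [jtLog_eq_cum _ ⟨s, hs⟩]
  have h := l9Cum_abs_le ((llJs n a P tl).Psi r q τ) (l9pB s (l9pC a r * llCumK P (τ (jtC q s) (jtD q s)))) A ?_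
  · rwa [l9p_B_prod, if_pos hs] at h
  · intro t ht _
    rw [l9p_B_prod]
    split_ifs with hst
    · exact l9p_scM_par ha hP n tl hτ (by simp) (fun i hi => hA i (ht hi)) hst hk (fun i hi => hoth i (ht hi)) (by simp)
    · exact l9p_scM_abs ha hP n tl r q ∅ t τ

/-- crude bound of the cumulants -/
theorem l9p_kap_abs {a : ℝ} (ha : 0 < a) {P : LlStp} (hP : SkAdm a (llSc P)) (n : ℕ) (tl : Option ℕ) (r q : ℕ)
    (A : Finset ℕ) (τ : ℕ → ℕ → ℕ) : |(llJs n a P tl).Kap r q τ A| ≤ l9CumC A :=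
  jtc_log_abs_le _ A fun B _ _ => l9p_scM_abs ha hP n tl r q ∅ B τ

/-- the constant of the quotient -/
def l9pQC (A : Finset ℕ) : ℝ := ∑ B ∈ A.powerset, l9pIC (A \ B)

theorem l9p_QC_nonneg (A : Finset ℕ) : 0 ≤ l9pQC A := Finset.sum_nonneg fun _ _ => l9p_IC_nonneg _

/-- product majorant of a quotient -/
theorem l9p_quo_abs_le (F G : JtFn) (b : ℕ → ℝ) (A : Finset ℕ) (hb : ∀ i ∈ A, 0 ≤ b i)
    (hF : ∀ t ⊆ A, |F t| ≤ ∏ i ∈ t, b i) (hG : ∀ t ⊆ A, t.Nonempty → |G t| ≤ ∏ i ∈ t, b i) :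
    |jtMul F (jtInv G) A| ≤ l9pQC A * ∏ i ∈ A, b i := by
  unfold jtMul l9pQC
  rw [Finset.sum_mul]
  refine (Finset.abs_sum_le_sum_abs _ _).trans (Finset.sum_le_sum fun B hB => ?_)
  have hBA := Finset.mem_powerset.1 hB
  rw [abs_mul, jtInv_eq_inv]
  have h1 := hF B hBA
  have h2 := l9p_inv_abs_le G b (A \ B) fun t ht hne => hG t (ht.trans Finset.sdiff_subset) hne
  have h0 : 0 ≤ ∏ i ∈ B, b i := Finset.prod_nonneg fun i hi => hb i (hBA hi)
  calc |F B| * |l9Inv G (A \ B)| ≤ (∏ i ∈ B, b i) * (l9pIC (A \ B) * ∏ i ∈ A \ B, b i) :=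
        mul_le_mul h1 h2 (abs_nonneg _) h0
    _ = l9pIC (A \ B) * ((∏ i ∈ A \ B, b i) * ∏ i ∈ B, b i) := by ring
    _ = _ := by rw [Finset.prod_sdiff hBA]

/-- **PAR for the cavity quotient** `N_{ij} / Ψ`: the pair `s` splits at the depth `k`; the tested pair `(i, j)` and all the other inserted pairs split later -/
theorem l9p_quo_par {a : ℝ} (ha : 0 < a) {P : LlStp} (hP : SkAdm a (llSc P)) (n : ℕ) (tl : Option ℕ) {r q i j : ℕ}
    {A : Finset ℕ} {τ : ℕ → ℕ → ℕ} (hτ : IsTr P.length r τ) (hi : i < r) (hj : j < r) (hij : i ≠ j) (hA : ∀ l ∈ A, jtD q l < r) {s : ℕ}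
    (hs : s ∈ A) (hk : τ (jtC q s) (jtD q s) ≤ P.length) (hijk : τ (jtC q s) (jtD q s) < τ i j)
    (hoth : ∀ l ∈ A, l ≠ s → τ (jtC q s) (jtD q s) < τ (jtC q l) (jtD q l)) :
    |(llJs n a P tl).Quo r q i j τ A| ≤ l9pQC A * (l9pC a r * llCumK P (τ (jtC q s) (jtD q s))) := by
  have hβ : 0 ≤ l9pC a r * llCumK P (τ (jtC q s) (jtD q s)) := by
    rw [l9p_cumK]
    exact mul_nonneg (l9p_C_nonneg _ _) (l9p_cu_nonneg (l9p_adm ha hP).2 _)
  have hc : jtC q s < r := by have := hA s hs; unfold jtC; unfold jtD at this; omega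
  have hobs : ∏ y ∈ ({i, j} : Finset ℕ), l9pEp (fun x => τ (jtC q s) (jtD q s) < τ (jtC q s) x) y = 1 := by
    rw [Finset.prod_pair hij]
    have hb := l9p_blk hτ hc (τ (jtC q s) (jtD q s))
    have hiff : τ (jtC q s) (jtD q s) < τ (jtC q s) i ↔ τ (jtC q s) (jtD q s) < τ (jtC q s) j :=
      ⟨fun h => hb _ _ hi hj h hijk, fun h => hb _ _ hj hi h (by rwa [hτ.symm _ _ hj hi])⟩
    unfold l9pEp
    by_cases h : τ (jtC q s) (jtD q s) < τ (jtC q s) i
    · rw [if_pos h, if_pos (hiff.1 h)]; norm_num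
    · rw [if_neg h, if_neg (fun h' => h (hiff.2 h'))]; norm_num
  have ho : ∀ y ∈ ({i, j} : Finset ℕ), y < r := by
    intro y hy
    rcases Finset.mem_insert.1 hy with rfl | hy
    · exact hi
    · rw [Finset.mem_singleton.1 hy]; exact hj
  unfold JtCtx.Quo
  have h := l9p_quo_abs_le ((llJs n a P tl).Nij r q i j τ) ((llJs n a P tl).Psi r q τ)
    (l9pB s (l9pC a r * llCumK P (τ (jtC q s) (jtD q s)))) A ?_ ?_ ?_
  · rwa [l9p_B_prod, if_pos hs] at h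
  · intro l _
    unfold l9pB
    split_ifs
    exacts [hβ, zero_le_one]
  · intro t ht
    rw [l9p_B_prod]
    split_ifs with hst
    · exact l9p_scM_par ha hP n tl hτ ho (fun l hl => hA l (ht hl)) hst hk (fun l hl => hoth l (ht hl)) hobs
    · exact l9p_scM_abs ha hP n tl r q _ t τ
  · intro t ht _
    rw [l9p_B_prod]
    split_ifs with hst
    · exact l9p_scM_par ha hP n tl hτ (by simp) (fun l hl => hA l (ht hl)) hst hk (fun l hl => hoth l (ht hl)) (by simp)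
    · exact l9p_scM_abs ha hP n tl r q ∅ t τ

/-- crude bound of the quotient -/
theorem l9p_quo_abs {a : ℝ} (ha : 0 < a) {P : LlStp} (hP : SkAdm a (llSc P)) (n : ℕ) (tl : Option ℕ) (r q i j : ℕ)
    (A : Finset ℕ) (τ : ℕ → ℕ → ℕ) : |(llJs n a P tl).Quo r q i j τ A| ≤ l9pQC A := by
  unfold JtCtx.Quo
  have h := l9p_quo_abs_le ((llJs n a P tl).Nij r q i j τ) ((llJs n a P tl).Psi r q τ) (fun _ => 1) A
    (fun _ _ => zero_le_one) (fun t _ => by rw [Finset.prod_const_one]; exact l9p_scM_abs ha hP n tl r q _ t τ)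
    (fun t _ _ => by rw [Finset.prod_const_one]; exact l9p_scM_abs ha hP n tl r q ∅ t τ)
  simpa using h

/-- **the contract `L8H_PAR` of LL08 (234, `L08/HiCtx`) holds for `llJs`**, with `vv ≥ K` -/
theorem l9p_l8h_par {a : ℝ} (ha : 0 < a) {P : LlStp} (hP : SkAdm a (llSc P)) (m : ℕ) (tl : Option ℕ) {ti : ℕ} (hti : ti ≤ P.length + 1)
    {vv : ℕ → ℝ} (hvv : ∀ t, t < ti → llCumK P t ≤ vv t) {q i j : ℕ} (hi : i < q) (hj : j < q) (hij : i ≠ j) (n : ℕ) :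
    L8H_PAR (llJs m a P tl) ti vv q i j n (l9pQC (range n) * l9pC a (q + 2 * n)) := by
  intro τ hτ s hs hlow hhigh hoth
  have hτ' : IsTr P.length (q + 2 * n) τ := hτ
  have h := l9p_quo_par ha hP m tl (A := range n) hτ' (by omega) (by omega) hij
    (fun l hl => by have := Finset.mem_range.1 hl; unfold jtD; omega) (Finset.mem_range.2 hs) (by omega) (by omega)
    (fun l hl hne => lt_of_lt_of_le hlow (hoth l (Finset.mem_range.1 hl) hne))
  refine h.trans ?_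
  rw [mul_assoc]
  exact mul_le_mul_of_nonneg_left (mul_le_mul_of_nonneg_left (hvv _ hlow) (l9p_C_nonneg _ _)) (l9p_QC_nonneg _)

end

end Claimed.Agent.R286
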