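import Claimed.Agent.R286.L09.GridEng
import Claimed.Agent.R286.L09.GridJ
import Claimed.Agent.R286.L09.Par
import Claimed.Agent.R286.L09.CutG

/-!
# Row 286 (S0533), LL Sec. 9, node GRID, file M: (M) FOR THE GROUPED COEFFICIENT      (owner helper263; head of the unit helper60; prefix `l9g`, `L9g`)

(M) = hypothesis `hM` of `l9f_e4` (`L09/GridFD`): the Taylor defect at the FIXED SIGNED step `h` of the coefficient, summed with the signed weights over the tables over one skeleton, is `≤ |h| η Vol`.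
NO sorry.      TEX[LL:exp:prop-low-coefficients]
* §1 `l9g_fork_sum`   FORK SUMS: `trAbsK ms N k q τ (∑_{j ∈ forks of the new tree} d j) ≤ C (∑_j μ_j d_j + ∑_{j ∈ forks of τ} d_j)`      (`trw_forks_bound` of `Fd/TrA4`).
* §2 `l9g_dot_le`     SC-dot for the scalar model of 235 (`L09/Par`);   `l9g_letter`: the JET (`L09/GridJ`) of a scalar moment `ν_τ[T]` has norm `≤ K` at the scales `δ = sup |ΔK|`, `ε ≥ δ² + ∑ μ d + ∑_{forks of τ} d`.
* §3 `L9gIn a Pf t h δ ε c0` = **INPUT FROM THE PHYSICAL LAYER**: a family `Pf` of fine paths on FIXED masses, admissible near `t` and at `t + h`, `KC j` differentiable at `t`,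
       `|KC_{t+h} j - KC_t j| ≤ δ`, `δ² ≤ ε`, `∑_j μ_j d_j ≤ ε` (`l9k2_sum` of `L09/GridK`), `d_j ≤ ε` for the LOW levels `j < c0` and at the top;      `d_j = l9gDK Pf t h j` = Taylor defect of `KC j`.
     `l9g_cf_defect`  (M) at ONE table: `y τ = κ_K(τ) ∏_{i ∈ R} g_i(split level of the pair i)`, letters `g_i j` (`j < c0`) with jets of norm `≤ Kb`:   `|T y τ| ≤ C Kb^|R| (ε + ∑_{forks of τ} d)`; differentiability.
* §4 `l9g_group`      GROUPING (CUT + SKW of 276 + FORK SUMS): `|G τ| ≤ E (ε + ∑_{forks of τ} d)` on the fibre of `sk`  ⟹  `|l9rB tab (wt * G) n c sk| ≤ C E ε / m_c * Vol`.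
* §5 **`l9g_M`**      `|l9rB (l9aTab N 2n) (wt * (φ * l9gT ..)) 2n c sk| ≤ C Kb^|R| ε / m_c * l9rVol`;   `l9gY` = the coefficient, `l9gT` = its Taylor defect, `φ` = any local factor `≤ 1` (`off`);   `l9gY_differentiableAt`.
* §6 `l9g_qC`, `l9g_qC_defect` = H1 of the DD-LINK (60, 226): `|qC_k(t+h) - qC_k(t) - h qC_k'(t)| ≤ C (ε + d_k)`, every level `k`.
USE: `ε = |h| η'`, `η' = C_N (|h| + mesh) + C e^{-cM}`; the loss `1 / m_c` and all the constants are powers of `x`; `h` and the chain are chosen after `N`.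
-/

set_option autoImplicit false

namespace Claimed.Agent.R286

open Finset

/-! ## 1. sums over the fork depths -/

/-- **FORK SUMS**: the absolute allocation measure of `k` new labels, integrated against the sum of `d` over ALL the fork depths of the new tree:
a new fork at the depth `j` has the density `μ_j`. -/
theorem l9g_fork_sum (q k : ℕ) (a : ℝ) : ∃ C : ℝ, 0 ≤ C ∧ ∀ (N : ℕ) (τ : ℕ → ℕ → ℕ) (ms : ℕ → ℝ), 1 ≤ q → IsTr N q τ → IsMs N ms → ms N ≤ a →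
    ∀ d : ℕ → ℝ, (∀ j, 0 ≤ d j) →
      trAbsK ms N k q τ (fun τ' => ∑ j ∈ l9nFk (q + k) τ', d j)
        ≤ C * (∑ j ∈ range (N + 1), (ms j - trPm ms j) * d j + ∑ j ∈ l9nFk q τ, d j) := by
  classical
  obtain ⟨C0, hC0, hfb⟩ := trw_forks_bound a 1 k q
  set C1 : ℝ := (2 * |a|) ^ k * (∏ i ∈ range k, ((q : ℝ) + i)) with hC1
  have hC1n : 0 ≤ C1 := by positivity
  refine ⟨C0 + C1, by positivity, ?_⟩
  intro N τ ms hq hτ hms ha d hd0
  have hμ : ∀ j, j ≤ N → 0 ≤ ms j - trPm ms j := fun j hj => sub_nonneg.2 (tra2_pm_le hms hj)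
  set T : ℕ → ℝ := fun j => trAbsK ms N k q τ fun τ' => if j ∈ l9nFk (q + k) τ' then 1 else 0 with hT
  have h2 : trAbsK ms N k q τ (fun τ' => ∑ j ∈ l9nFk (q + k) τ', d j)
      ≤ trAbsK ms N k q τ (fun τ' => ∑ j ∈ range (N + 2), d j * (if j ∈ l9nFk (q + k) τ' then 1 else 0)) := by
    refine tr_absK_mono hτ k _ _ fun τ' hτ' => le_of_eq ?_
    have hsub : l9nFk (q + k) τ' ⊆ range (N + 2) := by
      intro j hj
      unfold l9nFk at hj
      obtain ⟨p, hp, rfl⟩ := Finset.mem_image.1 hj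
      rw [Finset.mem_product, Finset.mem_range, Finset.mem_range] at hp
      have := hτ'.le p.1 p.2 hp.1 hp.2
      exact Finset.mem_range.2 (by omega)
    simp only [mul_ite, mul_one, mul_zero]
    rw [Finset.sum_ite_mem, Finset.inter_eq_right.2 hsub]
  rw [l9n_absK_sum] at h2
  have hT0 : ∀ j, 0 ≤ T j := fun j => tra2_absK_nonneg k _ fun τ' => by split_ifs <;> norm_num
  have hTa : ∀ j, T j ≤ C1 := by
    intro j
    have h := tr_absK_le hτ hms k (fun τ' => if j ∈ l9nFk (q + k) τ' then (1 : ℝ) else 0) 1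
      (fun τ' _ => by split_ifs <;> simp)
    have e : (fun τ' : ℕ → ℕ → ℕ => |if j ∈ l9nFk (q + k) τ' then (1 : ℝ) else 0|) = fun τ' => if j ∈ l9nFk (q + k) τ' then (1 : ℝ) else 0 := by
      funext τ'; split_ifs <;> simp
    rw [e, mul_one] at h
    refine h.trans ?_
    rw [hC1]
    have h3 : (2 * ms N) ^ k ≤ (2 * |a|) ^ k := by
      have h4 : ms N ≤ |a| := ha.trans (le_abs_self a)
      have h5 := hms.nonneg N
      gcongr
    exact mul_le_mul_of_nonneg_right h3 (by positivity)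
  have hTb : ∀ j, j ≤ N → j ∉ l9nFk q τ → T j ≤ C0 * (ms j - trPm ms j) := by
    intro j hj hjF
    have h := hfb N τ ms hτ hms ha {j} (by simp) (by simpa using hj)
      (by
        intro j' hj' y z hy hz he
        rw [Finset.mem_singleton] at hj'
        subst hj'
        exact hjF (by
          unfold l9nFk
          exact Finset.mem_image.2 ⟨(y, z), Finset.mem_product.2 ⟨Finset.mem_range.2 hy, Finset.mem_range.2 hz⟩, he⟩))
    rw [Finset.prod_singleton] at h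
    refine le_trans ?_ h
    apply trw_absK_mono
    intro τ'
    by_cases hm : j ∈ l9nFk (q + k) τ'
    · rw [if_pos hm, Set.indicator_of_mem]
      intro j' hj'
      rw [Finset.mem_singleton] at hj'
      subst hj'
      unfold l9nFk at hm
      obtain ⟨p, hp, he⟩ := Finset.mem_image.1 hm
      rw [Finset.mem_product, Finset.mem_range, Finset.mem_range] at hp
      exact ⟨p.1, p.2, hp.1, hp.2, he⟩
    · rw [if_neg hm]
      exact Set.indicator_nonneg (fun _ _ => zero_le_one) _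
  have htop : N + 1 ∈ l9nFk q τ := by
    unfold l9nFk
    exact Finset.mem_image.2 ⟨(0, 0), Finset.mem_product.2 ⟨Finset.mem_range.2 hq, Finset.mem_range.2 hq⟩, hτ.diag 0 hq⟩
  have h3 : ∑ j ∈ range (N + 2), d j * T j
      ≤ C0 * ∑ j ∈ range (N + 1), (ms j - trPm ms j) * d j + C1 * ∑ j ∈ l9nFk q τ, d j := by
    have hterm : ∀ j ∈ range (N + 2), d j * T j
        ≤ C0 * (if j ∈ range (N + 1) then (ms j - trPm ms j) * d j else 0) + C1 * (if j ∈ l9nFk q τ then d j else 0) := by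
      intro j hj
      have hj' := Finset.mem_range.1 hj
      by_cases hF : j ∈ l9nFk q τ
      · rw [if_pos hF]
        have a1 : d j * T j ≤ C1 * d j := by
          rw [mul_comm]; exact mul_le_mul_of_nonneg_right (hTa j) (hd0 j)
        have a2 : 0 ≤ C0 * (if j ∈ range (N + 1) then (ms j - trPm ms j) * d j else 0) := by
          refine mul_nonneg hC0 ?_
          split_ifs with hjr
          · exact mul_nonneg (hμ j (by have := Finset.mem_range.1 hjr; omega)) (hd0 j)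
          · exact le_rfl
        linarith
      · rw [if_neg hF, mul_zero, add_zero]
        have hjN : j ≤ N := by
          by_contra hc
          have : j = N + 1 := by omega
          exact hF (this ▸ htop)
        rw [if_pos (Finset.mem_range.2 (by omega))]
        have := mul_le_mul_of_nonneg_left (hTb j hjN hF) (hd0 j)
        linarith
    refine (Finset.sum_le_sum hterm).trans ?_
    rw [Finset.sum_add_distrib, ← Finset.mul_sum, ← Finset.mul_sum]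
    refine add_le_add ?_ ?_
    · refine mul_le_mul_of_nonneg_left (le_of_eq ?_) hC0
      rw [Finset.sum_ite_mem]
      congr 1
      ext j
      simp only [Finset.mem_inter, Finset.mem_range]
      omega
    · refine mul_le_mul_of_nonneg_left ?_ hC1n
      rw [Finset.sum_ite_mem]
      exact Finset.sum_le_sum_of_subset_of_nonneg Finset.inter_subset_right fun j _ _ => hd0 j
  have hA : 0 ≤ ∑ j ∈ range (N + 1), (ms j - trPm ms j) * d j :=
    Finset.sum_nonneg fun j hj => mul_nonneg (hμ j (by have := Finset.mem_range.1 hj; omega)) (hd0 j)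
  have hBn : 0 ≤ ∑ j ∈ l9nFk q τ, d j := Finset.sum_nonneg fun j _ => hd0 j
  refine (h2.trans h3).trans ?_
  nlinarith

/-! ## 2. the jet of a scalar moment -/

theorem l9g_cu_lin (w1 w2 : ℕ → ℝ) (h : ℝ) (s : ℕ) : l9pCu (fun j => w1 j - h * w2 j) s = l9pCu w1 s - h * l9pCu w2 s := by
  unfold l9pCu
  rw [Finset.sum_sub_distrib, Finset.mul_sum]

/-- the dotted moment is linear in the direction -/
theorem l9g_dot_lin (a : ℝ) (M : List ℝ) (v w1 w2 : ℕ → ℝ) (h : ℝ) (q : ℕ) (τ : ℕ → ℕ → ℕ) (T : (ℕ → SkCfg 1) → ℝ) :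
    l9pDot a M v (fun j => w1 j - h * w2 j) q τ T = l9pDot a M v w1 q τ T - h * l9pDot a M v w2 q τ T := by
  unfold l9pDot
  simp only [l9g_cu_lin]
  have e : (fun τ₂ : ℕ → ℕ → ℕ => (l9pCu w1 (min (τ₂ q (q + 1)) M.length) - h * l9pCu w2 (min (τ₂ q (q + 1)) M.length))
        * l9pNu a M v (q + 2) τ₂ (l9pT2 q T))
      = fun τ₂ => l9pCu w1 (min (τ₂ q (q + 1)) M.length) * l9pNu a M v (q + 2) τ₂ (l9pT2 q T)
        - h * (l9pCu w2 (min (τ₂ q (q + 1)) M.length) * l9pNu a M v (q + 2) τ₂ (l9pT2 q T)) := by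
    funext τ₂; ring
  rw [e, l9p_sumK_sub, tr_c3_sumK_const_mul]
  ring

/-- **SC-dot for the scalar model** -/
theorem l9g_dot_le (q : ℕ) (A : ℝ) : ∃ C : ℝ, 0 ≤ C ∧ ∀ (a : ℝ) (M : List ℝ), L9pAdm a M → a ≤ A → ∀ v : ℕ → ℝ, (∀ j, 0 ≤ v j) →
    ∀ (w : ℕ → ℝ) (τ : ℕ → ℕ → ℕ), 1 ≤ q → IsTr M.length q τ → ∀ T : (ℕ → SkCfg 1) → ℝ, (∀ σ, |T σ| ≤ 1) →
    ∀ d : ℕ → ℝ, (∀ s, |l9pCu w (min s M.length)| ≤ d s) →
      |l9pDot a M v w q τ T| ≤ C * (∑ j ∈ range (M.length + 1), (l9pMs a M j - trPm (l9pMs a M) j) * d j + ∑ j ∈ l9nFk q τ, d j) := by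
  obtain ⟨C, hC, hfs⟩ := l9g_fork_sum q 2 A
  refine ⟨C, hC, ?_⟩
  intro a M hM ha v hv w τ hq hτ T hT1 d hd
  obtain ⟨hms, hmsN⟩ := l9p_isMs hM
  have hd0 : ∀ s, 0 ≤ d s := fun s => (abs_nonneg _).trans (hd s)
  have h1 := l9p_dot_le (a := a) (v := v) (w := w) hτ (T := T) (fun _ => 1)
    (fun τ₂ _ _ => l9p_nu_abs_le hM hv _ _ (l9p_T2_abs hT1))
  have h2 : trAbsK (l9pMs a M) M.length 2 q τ (fun τ₂ => |l9pCu w (min (τ₂ q (q + 1)) M.length)| * 1)
      ≤ trAbsK (l9pMs a M) M.length 2 q τ (fun τ' => ∑ j ∈ l9nFk (q + 2) τ', d j) := by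
    apply trw_absK_mono
    intro τ₂
    rw [mul_one]
    refine (hd _).trans ?_
    refine Finset.single_le_sum (f := fun j => d j) (fun j _ => hd0 j) ?_
    unfold l9nFk
    exact Finset.mem_image.2 ⟨(q, q + 1), Finset.mem_product.2 ⟨Finset.mem_range.2 (by omega), Finset.mem_range.2 (by omega)⟩, rfl⟩
  have h3 := hfs M.length τ (l9pMs a M) hq hτ hms (by rw [hmsN]; exact ha) d hd0
  have h4 : 0 ≤ trAbsK (l9pMs a M) M.length 2 q τ (fun τ₂ => |l9pCu w (min (τ₂ q (q + 1)) M.length)| * 1) :=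
    tra2_absK_nonneg 2 _ fun τ' => by positivity
  linarith

theorem l9g_C_mono {a A : ℝ} (h0 : 0 < a) (h : a ≤ A) (q : ℕ) : l9pC a q ≤ l9pC A q := by
  unfold l9pC
  have : a ^ 2 ≤ A ^ 2 := by gcongr
  have hq : (0 : ℝ) ≤ (q : ℝ) * (q + 1) := by positivity
  nlinarith

/-- **THE JET OF A SCALAR MOMENT HAS BOUNDED NORM** at the scales `δ` = sup of the increments of the clock, `ε ≥ δ² + ∑ μ_j d_j + ∑_{forks of τ} d_j`, `d` = Taylor defect of the clock. -/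
theorem l9g_letter (r : ℕ) (A : ℝ) : ∃ K : ℝ, 1 ≤ K ∧ ∀ (a : ℝ) (M : List ℝ), L9pAdm a M → a ≤ A →
    ∀ v0 v1 v' : ℕ → ℝ, (∀ j, 0 ≤ v0 j) → (∀ j, 0 ≤ v1 j) → ∀ (h δ ε : ℝ) (d : ℕ → ℝ), 0 < δ → 0 < ε →
    (∀ s, s ≤ M.length → |l9pCu v1 s - l9pCu v0 s| ≤ δ) →
    (∀ s, |l9pCu v1 (min s M.length) - l9pCu v0 (min s M.length) - h * l9pCu v' (min s M.length)| ≤ d s) →
    ∀ τ : ℕ → ℕ → ℕ, 1 ≤ r → IsTr M.length r τ →
    δ ^ 2 + ∑ j ∈ range (M.length + 1), (l9pMs a M j - trPm (l9pMs a M) j) * d j + ∑ j ∈ l9nFk r τ, d j ≤ ε →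
    ∀ T : (ℕ → SkCfg 1) → ℝ, TrUses r T → (∀ σ, |T σ| ≤ 1) →
      l9gN h δ ε (l9gMk (l9pNu a M v0 r τ T) (l9pDot a M v0 v' r τ T) (l9pNu a M v1 r τ T)) ≤ K := by
  obtain ⟨C, hC, hdot⟩ := l9g_dot_le r A
  have hc1 := l9p_C_nonneg A r
  have hc2 := l9p_C_nonneg A (r + 2)
  refine ⟨1 + l9pC A r + (l9pC A r * l9pC A (r + 2) + C), by nlinarith, ?_⟩
  intro a M hM ha v0 v1 v' hv0 hv1 h δ ε d hδ hε hinc hdef τ hr hτ hle T hT hT1
  obtain ⟨hms, -⟩ := l9p_isMs hM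
  have hd0 : ∀ s, 0 ≤ d s := fun s => (abs_nonneg _).trans (hdef s)
  set w : ℕ → ℝ := fun j => v1 j - v0 j with hw
  have hsum : (fun j => v0 j + w j) = v1 := by funext j; simp [hw]
  have hcw : ∀ s, l9pCu w s = l9pCu v1 s - l9pCu v0 s := by
    intro s; unfold l9pCu; rw [Finset.sum_sub_distrib]
  have hW : ∀ s, s ≤ M.length → |l9pCu w s| ≤ δ := fun s hs => by rw [hcw]; exact hinc s hs
  have hvw : ∀ j, 0 ≤ v0 j + w j := fun j => by rw [congrFun hsum j]; exact hv1 j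
  have k1 := l9p_lip_sup hM hv0 hvw hτ hT hT1 hW
  have k2 := l9p_taylor hM hv0 hvw hτ hT hT1 hW
  rw [hsum] at k1 k2
  have k3 := hdot a M hM ha v0 hv0 (fun j => w j - h * v' j) τ hr hτ T hT1 d (fun s => by
    rw [l9g_cu_lin, hcw]; exact hdef s)
  rw [l9g_dot_lin] at k3
  have hA1 : 0 ≤ ∑ j ∈ range (M.length + 1), (l9pMs a M j - trPm (l9pMs a M) j) * d j :=
    Finset.sum_nonneg fun j hj => mul_nonneg (sub_nonneg.2 (tra2_pm_le hms (by have := Finset.mem_range.1 hj; omega))) (hd0 j)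
  have hA2 : 0 ≤ ∑ j ∈ l9nFk r τ, d j := Finset.sum_nonneg fun j _ => hd0 j
  have m1 := l9g_C_mono hM.pos ha r
  have m2 := l9g_C_mono hM.pos ha (r + 2)
  have n1 := l9p_C_nonneg a r
  have n2 := l9p_C_nonneg a (r + 2)
  refine l9gN_le hδ hε ?_ ?_ ?_ ?_
  · rw [l9gV0_mk]; exact l9p_nu_abs_le hM hv0 _ _ hT1
  · rw [l9gV1_mk]; exact l9p_nu_abs_le hM hv1 _ _ hT1
  · rw [l9gV0_mk, l9gV1_mk]
    exact k1.trans (mul_le_mul_of_nonneg_right m1 hδ.le)
  · rw [l9gV0_mk, l9gV1_mk, l9gDv_mk]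
    set ν0 := l9pNu a M v0 r τ T
    set ν1 := l9pNu a M v1 r τ T
    set D1 := l9pDot a M v0 w r τ T
    set D2 := l9pDot a M v0 v' r τ T
    have e : ν1 - ν0 - h * D2 = (ν1 - ν0 - D1) + (D1 - h * D2) := by ring
    rw [e]
    refine (abs_add_le _ _).trans ?_
    have b1 : l9pC a r * (δ * (l9pC a (r + 2) * δ)) ≤ l9pC A r * l9pC A (r + 2) * δ ^ 2 := by
      have : l9pC a r * l9pC a (r + 2) ≤ l9pC A r * l9pC A (r + 2) := mul_le_mul m1 m2 n2 hc1
      have h2 : 0 ≤ δ ^ 2 := by positivity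
      nlinarith
    have b2 : δ ^ 2 ≤ ε := by linarith
    have b3 : ∑ j ∈ range (M.length + 1), (l9pMs a M j - trPm (l9pMs a M) j) * d j + ∑ j ∈ l9nFk r τ, d j ≤ ε := by
      have : 0 ≤ δ ^ 2 := by positivity
      linarith
    have b4 : l9pC A r * l9pC A (r + 2) * δ ^ 2 ≤ l9pC A r * l9pC A (r + 2) * ε :=
      mul_le_mul_of_nonneg_left b2 (mul_nonneg hc1 hc2)
    have b5 := mul_le_mul_of_nonneg_left b3 hC
    linarith

/-! ## 3. the coefficient at one table -/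

open Filter Topology in
theorem L9gR.congr_ev {t h : ℝ} {f g : ℝ → ℝ} {X : L9gJ} (hf : L9gR t h f X) (e : g =ᶠ[𝓝 t] f) (e1 : g (t + h) = f (t + h)) : L9gR t h g X :=
  ⟨by rw [e.self_of_nhds]; exact hf.1, by rw [e1]; exact hf.2.1, hf.2.2.congr_of_eventuallyEq e⟩

/-- Taylor defect of the scalar reference clock at a pair which shares `j` stages -/
noncomputable def l9gDK (Pf : ℝ → LlStp) (t h : ℝ) (j : ℕ) : ℝ :=
  |llCumK (Pf (t + h)) j - llCumK (Pf t) j - h * deriv (fun t' => llCumK (Pf t') j) t|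

open Filter Topology in
/-- **INPUT OF (M)** from the physical layer, at the parameter `t` and the SIGNED step `h`: a family of fine paths on FIXED masses; `δ` = sup of the increments of the scalar clock `K`,
`ε` = scale of the Taylor defects (`δ² ≤ ε`): mass integral of the defect of `K` (`L09/GridK`), defect at the LOW levels (`j < c0`) and at the top. -/
structure L9gIn (a : ℝ) (Pf : ℝ → LlStp) (t h δ ε : ℝ) (c0 : ℕ) : Prop where
  a_pos : 0 < a
  ms : ∀ t', l9pM (Pf t') = l9pM (Pf t)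
  adm : ∀ᶠ t' in 𝓝 t, SkAdm a (llSc (Pf t'))
  adm1 : SkAdm a (llSc (Pf (t + h)))
  difK : ∀ j, DifferentiableAt ℝ (fun t' => llCumK (Pf t') j) t
  δ_pos : 0 < δ
  sq : δ ^ 2 ≤ ε
  K_inc : ∀ j, |llCumK (Pf (t + h)) j - llCumK (Pf t) j| ≤ δ
  K_sum : ∑ j ∈ range ((Pf t).length + 1), (llMs a (Pf t) j - trPm (llMs a (Pf t)) j) * l9gDK Pf t h j ≤ ε
  K_low : ∀ j, (j < c0 ∨ (Pf t).length < j) → l9gDK Pf t h j ≤ ε

theorem l9g_eqns_cite3 : True := by
  have := @l9gDK.eq_1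
  trivial

theorem l9gDK_nonneg (Pf : ℝ → LlStp) (t h : ℝ) (j : ℕ) : 0 ≤ l9gDK Pf t h j := abs_nonneg _

section inp
variable {a : ℝ} {Pf : ℝ → LlStp} {t h δ ε : ℝ} {c0 : ℕ}

theorem L9gIn.len (H : L9gIn a Pf t h δ ε c0) (t' : ℝ) : (Pf t').length = (Pf t).length := by
  have := congrArg List.length (H.ms t')
  rwa [l9p_M_len, l9p_M_len] at this

theorem L9gIn.ε_pos (H : L9gIn a Pf t h δ ε c0) : 0 < ε := lt_of_lt_of_le (by have := H.δ_pos; positivity) H.sq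

/-- the derivative of the increments of the clock -/
noncomputable def l9gVd (Pf : ℝ → LlStp) (t : ℝ) (j : ℕ) : ℝ :=
  deriv (fun t' => llCumK (Pf t') (j + 1)) t - deriv (fun t' => llCumK (Pf t') j) t

theorem l9g_eqns_cite4 : True := by
  have := @l9gVd.eq_1
  trivial

theorem l9g_V_eq (P : LlStp) (j : ℕ) : l9pV P j = llCumK P (j + 1) - llCumK P j := by
  rw [l9p_cumK, l9p_cumK]
  unfold l9pCu
  rw [Finset.sum_range_succ]
  ring

theorem L9gIn.V_hasDerivAt (H : L9gIn a Pf t h δ ε c0) (j : ℕ) : HasDerivAt (fun t' => l9pV (Pf t') j) (l9gVd Pf t j) t := by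
  simp only [l9g_V_eq]
  exact (H.difK (j + 1)).hasDerivAt.sub (H.difK j).hasDerivAt

theorem l9g_cu_Vd (Pf : ℝ → LlStp) (t : ℝ) (s : ℕ) : l9pCu (l9gVd Pf t) s = deriv (fun t' => llCumK (Pf t') s) t := by
  unfold l9pCu l9gVd
  rw [Finset.sum_range_sub (fun j => deriv (fun t' => llCumK (Pf t') j) t)]
  have : (fun t' => llCumK (Pf t') 0) = fun _ => (0 : ℝ) := by funext t'; simp [llCumK]
  rw [this]
  simp

theorem L9gIn.cumK_min (H : L9gIn a Pf t h δ ε c0) (s : ℕ) :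
    (fun t' => llCumK (Pf t') (min s (Pf t).length)) = fun t' => llCumK (Pf t') s := by
  funext t'
  unfold llCumK
  rcases le_total s (Pf t).length with hs | hs
  · rw [min_eq_left hs]
  · rw [min_eq_right hs, List.take_of_length_le (by rw [H.len t']), List.take_of_length_le (by rw [H.len t']; exact hs)]

end inp

open Filter Topology in
/-- **(M) AT ONE TABLE**: the coefficient `κ_K(τ) ∏_{i ∈ R} g_i(split level of the pair i)`; the letters `g_i` at the low levels have jets of norm `≤ Kb`. -/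
theorem l9g_cf_defect (n : ℕ) (A : ℝ) : ∃ C : ℝ, 0 ≤ C ∧ ∀ (m : ℕ) (tl : Option ℕ) (a : ℝ) (Pf : ℝ → LlStp) (t h δ ε : ℝ) (c0 : ℕ), a ≤ A →
    L9gIn a Pf t h δ ε c0 → ∀ (gl : ℕ → ℕ → ℝ → ℝ) (Kb : ℝ), 1 ≤ Kb →
    (∀ i j, j < c0 → ∃ X, L9gR t h (gl i j) X ∧ l9gN h δ ε X ≤ Kb) →
    ∀ R : Finset ℕ, R ⊆ range n → ∀ τ : ℕ → ℕ → ℕ, 1 ≤ n → IsTr (Pf t).length (2 * n) τ → (∀ i ∈ R, τ (jtC 0 i) (jtD 0 i) < c0) →
      DifferentiableAt ℝ (fun t' => (llJs m a (Pf t') tl).Kap (2 * n) 0 τ (range n) * ∏ i ∈ R, gl i (τ (jtC 0 i) (jtD 0 i)) t') t ∧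
      |(llJs m a (Pf (t + h)) tl).Kap (2 * n) 0 τ (range n) * ∏ i ∈ R, gl i (τ (jtC 0 i) (jtD 0 i)) (t + h)
          - (llJs m a (Pf t) tl).Kap (2 * n) 0 τ (range n) * ∏ i ∈ R, gl i (τ (jtC 0 i) (jtD 0 i)) t
          - h * deriv (fun t' => (llJs m a (Pf t') tl).Kap (2 * n) 0 τ (range n) * ∏ i ∈ R, gl i (τ (jtC 0 i) (jtD 0 i)) t') t|
        ≤ C * Kb ^ R.card * (ε + ∑ j ∈ l9nFk (2 * n) τ, l9gDK Pf t h j) := by
  obtain ⟨K, hK1, hlet⟩ := l9g_letter (2 * n) A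
  have hcc : 0 ≤ l9CumC (range n) := by
    unfold l9CumC l9PS
    exact Finset.sum_nonneg fun _ _ => Nat.cast_nonneg _
  refine ⟨2 * (l9CumC (range n) * K ^ (range n).card), by positivity, ?_⟩
  intro m tl a Pf t h δ ε c0 ha H gl Kb hKb hgl R hR τ hn hτ hlow
  have hδ := H.δ_pos
  have hε := H.ε_pos
  set N := (Pf t).length with hN
  set M := l9pM (Pf t) with hM
  have hMlen : M.length = N := l9p_M_len _
  have hadm0 : SkAdm a (llSc (Pf t)) := H.adm.self_of_nhds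
  obtain ⟨hMa, hv0⟩ := l9p_adm H.a_pos hadm0
  obtain ⟨-, hv1⟩ := l9p_adm H.a_pos H.adm1
  set Fs := ∑ j ∈ l9nFk (2 * n) τ, l9gDK Pf t h j with hFs
  have hFs0 : 0 ≤ Fs := Finset.sum_nonneg fun j _ => l9gDK_nonneg _ _ _ _
  set ε' := 2 * ε + Fs with hε'
  have hε'0 : 0 < ε' := by positivity
  have hεε' : ε ≤ ε' := by linarith
  have hsq' : δ ^ 2 ≤ ε' := H.sq.trans hεε'
  -- the jets of the moments
  set Mj : Finset ℕ → L9gJ := fun P => l9gMk (l9pNu a M (l9pV (Pf t)) (2 * n) τ (l9pTs 0 ∅ P))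
    (l9pDot a M (l9pV (Pf t)) (l9gVd Pf t) (2 * n) τ (l9pTs 0 ∅ P)) (l9pNu a M (l9pV (Pf (t + h))) (2 * n) τ (l9pTs 0 ∅ P)) with hMj
  have huses : ∀ P ⊆ range n, TrUses (2 * n) (l9pTs 0 ∅ P) := fun P hP =>
    l9p_Ts_uses (by simp) (fun i hi => by have := Finset.mem_range.1 (hP hi); unfold jtD; omega)
  have hτM : IsTr M.length (2 * n) τ := by rw [hMlen]; exact hτ
  have hreal : ∀ P ⊆ range n, P.Nonempty → L9gR t h (fun u => (llJs m a (Pf u) tl).Psi (2 * n) 0 τ P) (Mj P) := by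
    intro P hP _
    have hd : HasDerivAt (fun u => l9pNu a M (l9pV (Pf u)) (2 * n) τ (l9pTs 0 ∅ P))
        (l9pDot a M (l9pV (Pf t)) (l9gVd Pf t) (2 * n) τ (l9pTs 0 ∅ P)) t :=
      l9p_hasDerivAt hMa (v := fun u => l9pV (Pf u)) (by
        filter_upwards [H.adm] with u hu
        exact (l9p_adm H.a_pos hu).2) (fun j _ => H.V_hasDerivAt j) hτM (huses P hP) (l9p_Ts_abs 0 ∅ P)
    have h0 : L9gR t h (fun u => l9pNu a M (l9pV (Pf u)) (2 * n) τ (l9pTs 0 ∅ P)) (Mj P) := L9gR.mk' hd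
    refine h0.congr_ev ?_ ?_
    · filter_upwards [H.adm] with u hu
      show (llJs m a (Pf u) tl).scM (2 * n) 0 ∅ τ P = _
      rw [l9p_scM H.a_pos hu, H.ms u]
    · show (llJs m a (Pf (t + h)) tl).scM (2 * n) 0 ∅ τ P = _
      rw [l9p_scM H.a_pos H.adm1, H.ms (t + h)]
  have hnorm : ∀ P ⊆ range n, P.Nonempty → l9gN h δ ε' (Mj P) ≤ K := by
    intro P hP _
    refine hlet a M hMa ha (l9pV (Pf t)) (l9pV (Pf (t + h))) (l9gVd Pf t) hv0 hv1 h δ ε' (l9gDK Pf t h) hδ hε'0 ?_ ?_ τ (by omega) hτM ?_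
      (l9pTs 0 ∅ P) (huses P hP) (l9p_Ts_abs 0 ∅ P)
    · intro s _
      rw [← l9p_cumK, ← l9p_cumK]
      exact H.K_inc s
    · intro s
      rw [← l9p_cumK, ← l9p_cumK, l9g_cu_Vd, hMlen]
      have e := H.cumK_min s
      have e1 := congrFun e (t + h)
      have e2 := congrFun e t
      rw [e1, e2, e]
      exact le_rfl
    · rw [hMlen, l9p_ms_eq]
      have := H.K_sum
      have := H.sq
      linarith
  have hne : (range n).Nonempty := ⟨0, Finset.mem_range.2 hn⟩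
  have hkapR : L9gR t h (fun u => (llJs m a (Pf u) tl).Kap (2 * n) 0 τ (range n)) (l9Cum Mj (range n)) := by
    have := L9gR.cum (t := t) (h := h) (m := fun u P => (llJs m a (Pf u) tl).Psi (2 * n) 0 τ P) (M := Mj) (range n) hreal
    refine this.congr fun u => ?_
    exact jtLog_eq_cum _ hne
  have hkapN := l9gN_cum (h := h) hδ hε'0 hsq' Mj (range n) hK1 hnorm
  -- the letters
  choose! Xl hXl using hgl
  set Bj : ℕ → L9gJ := fun i => Xl i (τ (jtC 0 i) (jtD 0 i)) with hBj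
  have hBR : L9gR t h (fun u => ∏ i ∈ R, gl i (τ (jtC 0 i) (jtD 0 i)) u) (∏ i ∈ R, Bj i) :=
    L9gR.prod R fun i hi => (hXl i _ (hlow i hi)).1
  have hBN : l9gN h δ ε' (∏ i ∈ R, Bj i) ≤ Kb ^ R.card := by
    refine (l9gN_prod hδ hε'0 hsq' _ _).trans ?_
    calc ∏ i ∈ R, l9gN h δ ε' (Bj i) ≤ ∏ _i ∈ R, Kb :=
          Finset.prod_le_prod (fun i _ => l9gN_nonneg hδ hε'0 _) fun i hi =>
            (l9gN_mono hε hεε' _).trans (hXl i _ (hlow i hi)).2
      _ = Kb ^ R.card := by rw [Finset.prod_const]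
  have hall := hkapR.mul hBR
  refine ⟨hall.2.2.differentiableAt, ?_⟩
  have hdef := hall.defect hδ hε'0
  refine hdef.trans ?_
  have hN2 : l9gN h δ ε' (l9Cum Mj (range n) * ∏ i ∈ R, Bj i) ≤ l9CumC (range n) * K ^ (range n).card * Kb ^ R.card :=
    (l9gN_mul hδ hε'0 hsq' _ _).trans (mul_le_mul hkapN hBN (l9gN_nonneg hδ hε'0 _) (by positivity))
  calc ε' * l9gN h δ ε' (l9Cum Mj (range n) * ∏ i ∈ R, Bj i)
      ≤ ε' * (l9CumC (range n) * K ^ (range n).card * Kb ^ R.card) := mul_le_mul_of_nonneg_left hN2 hε'0.le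
    _ ≤ (2 * (ε + Fs)) * (l9CumC (range n) * K ^ (range n).card * Kb ^ R.card) :=
        mul_le_mul_of_nonneg_right (by linarith) (by positivity)
    _ = _ := by ring

/-! ## 4. the sum over the tables over one skeleton -/

theorem l9g_fk_card (q : ℕ) (τ : ℕ → ℕ → ℕ) : ((l9nFk q τ).card : ℝ) ≤ (q : ℝ) * q := by
  unfold l9nFk
  have h := Finset.card_image_le (s := range q ×ˢ range q) (f := fun p : ℕ × ℕ => τ p.1 p.2)
  rw [Finset.card_product, Finset.card_range] at h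
  exact_mod_cast h

/-- **GROUPING**: a local function `G` of the tables which is `≤ E (ε + ∑_{forks} d)`; `d` has mass integral `≤ ε` and is `≤ ε` below the cut and at the top.
Then the grouped coefficient of `wt * G` is `≤ C E ε / m_c * Vol`.      (CUT + SKW of 276, FORK SUMS.) -/
theorem l9g_group (n : ℕ) (A : ℝ) : ∃ C : ℝ, 0 ≤ C ∧ ∀ (N : ℕ) (ms : ℕ → ℝ), IsMs N ms → ms N ≤ A → ∀ c : ℕ, c ≤ N + 1 → 0 < trPm ms c → 1 ≤ n →
    ∀ G : (ℕ → ℕ → ℕ) → ℝ, L9Loc n G → ∀ (d : ℕ → ℝ) (E ε : ℝ), (∀ j, 0 ≤ d j) → 0 ≤ E → 0 ≤ ε →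
    ∑ j ∈ range (N + 1), (ms j - trPm ms j) * d j ≤ ε → (∀ j, (j < c ∨ N < j) → d j ≤ ε) →
    ∀ sk : ℕ → ℕ → ℕ, (∀ τ, IsTr N n τ → l9rTc n c τ = sk → |G τ| ≤ E * (ε + ∑ j ∈ l9nFk n τ, d j)) →
      |l9rB (l9aTab N n) (fun τ => l9aWt ms N 1 n τ * G τ) n c sk| ≤ C * E * ε / trPm ms c * l9rVol ms n c sk := by
  classical
  choose Cf hCf0 hCf using fun D : ℕ => l9g_fork_sum D n A
  set CF : ℝ := ∑ D ∈ range (n + 1), Cf D with hCF
  have hCF0 : 0 ≤ CF := Finset.sum_nonneg fun D _ => hCf0 D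
  set TV : ℝ := (2 * |A|) ^ n * (∏ i ∈ range n, ((n : ℝ) + i)) with hTV
  have hTV0 : 0 ≤ TV := by positivity
  set C2 : ℝ := TV + CF * (1 + (n : ℝ) * n) with hC2
  have hC20 : 0 ≤ C2 := by positivity
  refine ⟨(n : ℝ) ^ (n - 1) * C2, by positivity, ?_⟩
  intro N ms hms hA c hc hpos hn G hG d E ε hd0 hE hε hsum hlow sk hGb
  have hvol := l9r_vol_nonneg hms n hc sk
  by_cases hsk : ∃ τ₀ ∈ l9aTab N n, l9rTc n c τ₀ = sk
  swap
  · have h0 : l9rB (l9aTab N n) (fun τ => l9aWt ms N 1 n τ * G τ) n c sk = 0 := by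
      unfold l9rB
      refine Finset.sum_eq_zero fun τ hτ => ?_
      rw [Finset.mem_filter] at hτ
      exact absurd ⟨τ, hτ.1, hτ.2⟩ hsk
    rw [h0, abs_zero]
    positivity
  obtain ⟨τ₀, hτ₀, rfl⟩ := hsk
  obtain ⟨D, β, ρ, hD1, hDn, hblk⟩ := l9k_blk_exists (l9a_mem_tab.mp hτ₀).1 hc hn
  set sk := l9rTc n c τ₀ with hskdef
  refine (hblk.B_le hms hc hpos hn hD1 G hG).trans ?_
  set σ := l9kG sk ρ with hσdef
  have hσ : IsTr N D σ := hblk.g_isTr
  -- the iterated block sum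
  have hIt : |l9It ms N c ((List.range n).map β) D σ (fun T => G fun y z => T (D + y) (D + z))| ≤ C2 * E * ε := by
    rw [l9k_it_eq ms n β D σ hσ (fun i hi => hblk.bl i hi)]
    refine (tr_sumK_le n _).trans ?_
    have h1 : trAbsK ms N n D σ (fun τ' => |if ∀ i, i < n → c ≤ τ' (D + i) (β i) then G (fun y z => τ' (D + y) (D + z)) else 0|)
        ≤ trAbsK ms N n D σ (fun τ' => E * ε * |(1 : ℝ)| + E * ∑ j ∈ l9nFk (D + n) τ', d j) := by
      refine l9p_absK_mono hσ n _ _ fun τ' hτ' hag => ?_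
      have hF0 : 0 ≤ ∑ j ∈ l9nFk (D + n) τ', d j := Finset.sum_nonneg fun j _ => hd0 j
      split_ifs with hcond
      · have hc2 := (hblk.cond_iff hτ').mpr ⟨hag, hcond⟩
        have hτs : IsTr N n (fun y z => τ' (D + y) (D + z)) := tr_comap_isTr hτ' (fun y => D + y) (fun x hx => by omega)
        refine (hGb _ hτs hc2.1).trans ?_
        have hsub : l9nFk n (fun y z => τ' (D + y) (D + z)) ⊆ l9nFk (D + n) τ' := by
          intro j hj
          unfold l9nFk at hj ⊢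
          obtain ⟨p, hp, he⟩ := Finset.mem_image.1 hj
          rw [Finset.mem_product, Finset.mem_range, Finset.mem_range] at hp
          exact Finset.mem_image.2 ⟨(D + p.1, D + p.2), Finset.mem_product.2 ⟨Finset.mem_range.2 (by omega), Finset.mem_range.2 (by omega)⟩, he⟩
        have h2 := Finset.sum_le_sum_of_subset_of_nonneg hsub (f := fun j => d j) fun j _ _ => hd0 j
        rw [abs_one, mul_one, ← mul_add]
        exact mul_le_mul_of_nonneg_left (by linarith) hE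
      · rw [abs_zero, abs_one]
        positivity
    refine h1.trans ?_
    rw [l9n_absK_add, tra2_absK_const_mul, tra2_absK_const_mul]
    have h3 := tr_absK_le hσ hms n (fun _ => (1 : ℝ)) 1 (fun _ _ => by simp)
    have h4 : (2 * ms N) ^ n * (∏ i ∈ range n, ((D : ℝ) + i)) * 1 ≤ TV := by
      rw [mul_one, hTV]
      have a1 : (2 * ms N) ^ n ≤ (2 * |A|) ^ n := by
        have h4 : ms N ≤ |A| := hA.trans (le_abs_self A)
        have h5 := hms.nonneg N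
        gcongr
      have a2 : ∏ i ∈ range n, ((D : ℝ) + i) ≤ ∏ i ∈ range n, ((n : ℝ) + i) := by
        refine Finset.prod_le_prod (fun i _ => by positivity) fun i _ => ?_
        have : (D : ℝ) ≤ n := by exact_mod_cast hDn
        linarith
      exact mul_le_mul a1 a2 (by positivity) (by positivity)
    have h5 := hCf D N σ ms hD1 hσ hms hA d hd0
    have h6 : Cf D ≤ CF := Finset.single_le_sum (f := fun D => Cf D) (fun D _ => hCf0 D) (Finset.mem_range.2 (by omega))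
    have h7 : ∑ j ∈ l9nFk D σ, d j ≤ (n : ℝ) * n * ε := by
      have hle : ∀ j ∈ l9nFk D σ, d j ≤ ε := by
        intro j hj
        unfold l9nFk at hj
        obtain ⟨p, hp, rfl⟩ := Finset.mem_image.1 hj
        rw [Finset.mem_product, Finset.mem_range, Finset.mem_range] at hp
        refine hlow _ ?_
        by_cases hpe : p.1 = p.2
        · right
          rw [← hpe, hσ.diag _ hp.1]
          omega
        · left
          by_contra hcon
          have := (hblk.eq _ _ (hblk.rl _ hp.1) (hblk.rl _ hp.2)).mp (not_lt.mp hcon)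
          rw [hblk.br _ hp.1, hblk.br _ hp.2] at this
          exact hpe this
      calc ∑ j ∈ l9nFk D σ, d j ≤ ∑ _j ∈ l9nFk D σ, ε := Finset.sum_le_sum hle
        _ = (l9nFk D σ).card * ε := by rw [Finset.sum_const, nsmul_eq_mul]
        _ ≤ ((D : ℝ) * D) * ε := mul_le_mul_of_nonneg_right (l9g_fk_card D σ) hε
        _ ≤ (n : ℝ) * n * ε := by
          have : (D : ℝ) ≤ n := by exact_mod_cast hDn
          have hD0 : (0 : ℝ) ≤ D := Nat.cast_nonneg _
          refine mul_le_mul_of_nonneg_right ?_ hε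
          nlinarith
    have h8 : trAbsK ms N n D σ (fun τ' => ∑ j ∈ l9nFk (D + n) τ', d j) ≤ CF * ((1 + (n : ℝ) * n) * ε) := by
      refine h5.trans ?_
      have hs0 : 0 ≤ ∑ j ∈ range (N + 1), (ms j - trPm ms j) * d j + ∑ j ∈ l9nFk D σ, d j := by
        refine add_nonneg (Finset.sum_nonneg fun j hj => mul_nonneg (sub_nonneg.2 (tra2_pm_le hms (by have := Finset.mem_range.1 hj; omega))) (hd0 j))
          (Finset.sum_nonneg fun j _ => hd0 j)
      calc Cf D * (∑ j ∈ range (N + 1), (ms j - trPm ms j) * d j + ∑ j ∈ l9nFk D σ, d j)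
          ≤ CF * (∑ j ∈ range (N + 1), (ms j - trPm ms j) * d j + ∑ j ∈ l9nFk D σ, d j) := mul_le_mul_of_nonneg_right h6 hs0
        _ ≤ CF * ((1 + (n : ℝ) * n) * ε) := mul_le_mul_of_nonneg_left (by linarith) hCF0
    have h9 : E * ε * trAbsK ms N n D σ (fun _ => |(1 : ℝ)|) ≤ E * ε * TV :=
      mul_le_mul_of_nonneg_left (h3.trans h4) (by positivity)
    have h10 := mul_le_mul_of_nonneg_left h8 hE
    calc _ ≤ E * ε * TV + E * (CF * ((1 + (n : ℝ) * n) * ε)) := add_le_add h9 h10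
      _ = C2 * E * ε := by rw [hC2]; ring
  have h1 : (D : ℝ) ^ (D - 1) ≤ (n : ℝ) ^ (n - 1) := by
    have hDn' : (D : ℝ) ≤ n := by exact_mod_cast hDn
    have hn1 : (1 : ℝ) ≤ n := by exact_mod_cast hn
    calc (D : ℝ) ^ (D - 1) ≤ (n : ℝ) ^ (D - 1) := pow_le_pow_left₀ (Nat.cast_nonneg _) hDn' _
      _ ≤ (n : ℝ) ^ (n - 1) := pow_le_pow_right₀ hn1 (by omega)
  have h3 : (D : ℝ) ^ (D - 1) / trPm ms c ≤ (n : ℝ) ^ (n - 1) / trPm ms c := div_le_div_of_nonneg_right h1 hpos.le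
  have h4 : 0 ≤ (n : ℝ) ^ (n - 1) / trPm ms c := by positivity
  calc (D : ℝ) ^ (D - 1) / trPm ms c * l9rVol ms n c sk *
        |l9It ms N c ((List.range n).map β) D σ (fun T => G fun y z => T (D + y) (D + z))|
      ≤ (n : ℝ) ^ (n - 1) / trPm ms c * l9rVol ms n c sk * (C2 * E * ε) :=
        mul_le_mul (mul_le_mul_of_nonneg_right h3 hvol) hIt (abs_nonneg _) (mul_nonneg h4 hvol)
    _ = _ := by ring

/-! ## 5. (M) for the grouped coefficient -/

/-- the coefficient `κ_K(τ) ∏_{i ∈ R} g_i(split level of the pair i)` as a function of the path parameter -/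
noncomputable def l9gY (m : ℕ) (tl : Option ℕ) (a : ℝ) (Pf : ℝ → LlStp) (gl : ℕ → ℕ → ℝ → ℝ) (n : ℕ) (R : Finset ℕ) (τ : ℕ → ℕ → ℕ) (t' : ℝ) : ℝ :=
  (llJs m a (Pf t') tl).Kap (2 * n) 0 τ (range n) * ∏ i ∈ R, gl i (τ (jtC 0 i) (jtD 0 i)) t'

/-- its Taylor defect at the signed step `h` -/
noncomputable def l9gT (m : ℕ) (tl : Option ℕ) (a : ℝ) (Pf : ℝ → LlStp) (gl : ℕ → ℕ → ℝ → ℝ) (n : ℕ) (R : Finset ℕ) (t h : ℝ) (τ : ℕ → ℕ → ℕ) : ℝ :=
  l9gY m tl a Pf gl n R τ (t + h) - l9gY m tl a Pf gl n R τ t - h * deriv (l9gY m tl a Pf gl n R τ) t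

theorem l9g_eqns_cite5 : True := by
  have := @l9gY.eq_1
  have := @l9gT.eq_1
  trivial

theorem l9gY_loc (m : ℕ) (tl : Option ℕ) (a : ℝ) (Pf : ℝ → LlStp) (gl : ℕ → ℕ → ℝ → ℝ) {n : ℕ} {R : Finset ℕ} (hR : R ⊆ range n)
    {τ₁ τ₂ : ℕ → ℕ → ℕ} (H : ∀ y z, y < 2 * n → z < 2 * n → τ₁ y z = τ₂ y z) :
    l9gY m tl a Pf gl n R τ₁ = l9gY m tl a Pf gl n R τ₂ := by
  funext t'
  unfold l9gY
  have e1 : (llJs m a (Pf t') tl).Psi (2 * n) 0 τ₁ = (llJs m a (Pf t') tl).Psi (2 * n) 0 τ₂ := by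
    funext P
    have e0 : ∀ τ : ℕ → ℕ → ℕ, (llJs m a (Pf t') tl).Psi (2 * n) 0 τ P = llNuS a (Pf t') (2 * n) τ fun t =>
        (∏ y ∈ (∅ : Finset ℕ), jtSp (t y)) * ∏ i ∈ P, jtSp (t (jtC 0 i)) * jtSp (t (jtD 0 i)) := fun _ => rfl
    rw [e0, e0]
    unfold llNuS
    exact tr_nu_congr _ _ H _ _
  have e2 : (llJs m a (Pf t') tl).Kap (2 * n) 0 τ₁ = (llJs m a (Pf t') tl).Kap (2 * n) 0 τ₂ := by
    unfold JtCtx.Kap
    rw [e1]
  rw [e2]
  congr 1
  refine Finset.prod_congr rfl fun i hi => ?_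
  have := Finset.mem_range.1 (hR hi)
  rw [H _ _ (by unfold jtC; omega) (by unfold jtD; omega)]

/-- **(M) FOR THE GROUPED COEFFICIENT** (hypothesis `hM` of `l9f_e4`).   `φ` = any local factor bounded by `1` (`off`). -/
theorem l9g_M (n : ℕ) (A : ℝ) : ∃ C : ℝ, 0 ≤ C ∧ ∀ (m : ℕ) (tl : Option ℕ) (a : ℝ) (Pf : ℝ → LlStp) (t h δ ε : ℝ) (c0 : ℕ), a ≤ A →
    L9gIn a Pf t h δ ε c0 → ∀ (gl : ℕ → ℕ → ℝ → ℝ) (Kb : ℝ), 1 ≤ Kb →
    (∀ i j, j < c0 → ∃ X, L9gR t h (gl i j) X ∧ l9gN h δ ε X ≤ Kb) →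
    ∀ R : Finset ℕ, R ⊆ range n → 1 ≤ n → ∀ φ : (ℕ → ℕ → ℕ) → ℝ, L9Loc (2 * n) φ → (∀ τ, |φ τ| ≤ 1) →
    ∀ c : ℕ, c ≤ c0 → c ≤ (Pf t).length + 1 → 0 < trPm (llMs a (Pf t)) c → ∀ sk : ℕ → ℕ → ℕ, (∀ i, i < n → sk (2 * i) (2 * i + 1) < c) →
      |l9rB (l9aTab (Pf t).length (2 * n))
          (fun τ => l9aWt (llMs a (Pf t)) (Pf t).length 1 (2 * n) τ * (φ τ * l9gT m tl a Pf gl n R t h τ)) (2 * n) c sk|
        ≤ C * Kb ^ R.card * ε / trPm (llMs a (Pf t)) c * l9rVol (llMs a (Pf t)) (2 * n) c sk := by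
  obtain ⟨C1, hC1, hcf⟩ := l9g_cf_defect n A
  obtain ⟨C2, hC2, hgr⟩ := l9g_group (2 * n) A
  refine ⟨C2 * C1, by positivity, ?_⟩
  intro m tl a Pf t h δ ε c0 ha H gl Kb hKb hgl R hR hn φ hφ hφ1 c hc0 hcN hpos sk hsp
  have hadm0 : SkAdm a (llSc (Pf t)) := H.adm.self_of_nhds
  obtain ⟨hMa, -⟩ := l9p_adm H.a_pos hadm0
  obtain ⟨hms, hmsN⟩ := l9p_isMs hMa
  rw [l9p_M_len, l9p_ms_eq] at hms hmsN
  have hG : L9Loc (2 * n) (fun τ => φ τ * l9gT m tl a Pf gl n R t h τ) := by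
    intro τ₁ τ₂ Hag
    have e := l9gY_loc m tl a Pf gl hR Hag
    show φ τ₁ * l9gT m tl a Pf gl n R t h τ₁ = φ τ₂ * l9gT m tl a Pf gl n R t h τ₂
    unfold l9gT
    rw [hφ τ₁ τ₂ Hag, e]
  have key := hgr (Pf t).length (llMs a (Pf t)) hms (by rw [hmsN]; exact ha) c hcN hpos (by omega) _ hG (l9gDK Pf t h) (C1 * Kb ^ R.card) ε
    (l9gDK_nonneg Pf t h) (by positivity) H.ε_pos.le H.K_sum
    (fun j hj => H.K_low j (by rcases hj with hj | hj; · left; omega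
                               · right; exact hj)) sk
    (fun τ hτ hsk => by
      have hlow : ∀ i ∈ R, τ (jtC 0 i) (jtD 0 i) < c0 := by
        intro i hi
        have hi' := Finset.mem_range.1 (hR hi)
        have h1 := hsp i hi'
        rw [← hsk, l9r_tc_apply τ (by omega) (by omega) (by omega)] at h1
        have e1 : jtC 0 i = 2 * i := by unfold jtC; omega
        have e2 : jtD 0 i = 2 * i + 1 := by unfold jtD; omega
        rw [e1, e2]
        omega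
      have h2 := (hcf m tl a Pf t h δ ε c0 ha H gl Kb hKb hgl R hR τ hn hτ hlow).2
      rw [abs_mul]
      calc |φ τ| * |l9gT m tl a Pf gl n R t h τ| ≤ 1 * |l9gT m tl a Pf gl n R t h τ| :=
            mul_le_mul_of_nonneg_right (hφ1 τ) (abs_nonneg _)
        _ = |l9gT m tl a Pf gl n R t h τ| := one_mul _
        _ ≤ _ := h2)
  refine key.trans (le_of_eq ?_)
  ring

/-- differentiability of the coefficient -/
theorem l9gY_differentiableAt {n : ℕ} {a : ℝ} {Pf : ℝ → LlStp} {t h δ ε : ℝ} {c0 : ℕ} (H : L9gIn a Pf t h δ ε c0) (m : ℕ) (tl : Option ℕ)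
    {gl : ℕ → ℕ → ℝ → ℝ} (hgl : ∀ i j, j < c0 → DifferentiableAt ℝ (gl i j) t) {R : Finset ℕ} (hR : R ⊆ range n) (hn : 1 ≤ n)
    {τ : ℕ → ℕ → ℕ} (hτ : IsTr (Pf t).length (2 * n) τ) (hlow : ∀ i ∈ R, τ (jtC 0 i) (jtD 0 i) < c0) :
    DifferentiableAt ℝ (l9gY m tl a Pf gl n R τ) t := by
  obtain ⟨C1, -, hcf⟩ := l9g_cf_defect n a
  have hδ := H.δ_pos
  have hε := H.ε_pos
  set Kb : ℝ := 1 + ∑ i ∈ range n, ∑ j ∈ range c0, l9gN h δ ε (l9gMk (gl i j t) (deriv (gl i j) t) (gl i j (t + h))) with hKb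
  set gl' : ℕ → ℕ → ℝ → ℝ := fun i j => if i < n then gl i j else fun _ => 1 with hgl'
  have hs0 : 0 ≤ ∑ i ∈ range n, ∑ j ∈ range c0, l9gN h δ ε (l9gMk (gl i j t) (deriv (gl i j) t) (gl i j (t + h))) :=
    Finset.sum_nonneg fun i _ => Finset.sum_nonneg fun j _ => l9gN_nonneg hδ hε _
  have h1 := (hcf m tl a Pf t h δ ε c0 le_rfl H gl' Kb (by linarith) (fun i j hj => by
    by_cases hi : i < n
    · refine ⟨l9gMk (gl i j t) (deriv (gl i j) t) (gl i j (t + h)), ?_, ?_⟩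
      · simp only [hgl', if_pos hi]
        exact L9gR.mk' (hgl i j hj).hasDerivAt
      · have a1 : l9gN h δ ε (l9gMk (gl i j t) (deriv (gl i j) t) (gl i j (t + h)))
            ≤ ∑ j ∈ range c0, l9gN h δ ε (l9gMk (gl i j t) (deriv (gl i j) t) (gl i j (t + h))) :=
          Finset.single_le_sum (f := fun j => l9gN h δ ε (l9gMk (gl i j t) (deriv (gl i j) t) (gl i j (t + h))))
            (fun j _ => l9gN_nonneg hδ hε _) (Finset.mem_range.2 hj)
        have a2 : ∑ j ∈ range c0, l9gN h δ ε (l9gMk (gl i j t) (deriv (gl i j) t) (gl i j (t + h)))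
            ≤ ∑ i ∈ range n, ∑ j ∈ range c0, l9gN h δ ε (l9gMk (gl i j t) (deriv (gl i j) t) (gl i j (t + h))) :=
          Finset.single_le_sum (f := fun i => ∑ j ∈ range c0, l9gN h δ ε (l9gMk (gl i j t) (deriv (gl i j) t) (gl i j (t + h))))
            (fun i _ => Finset.sum_nonneg fun j _ => l9gN_nonneg hδ hε _) (Finset.mem_range.2 hi)
        linarith
    · refine ⟨1, ?_, ?_⟩
      · simp only [hgl', if_neg hi]
        exact l9gR_one
      · rw [l9gN_one]; linarith) R hR τ hn hτ hlow).1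
  have e : l9gY m tl a Pf gl n R τ = fun t' => (llJs m a (Pf t') tl).Kap (2 * n) 0 τ (range n) * ∏ i ∈ R, gl' i (τ (jtC 0 i) (jtD 0 i)) t' := by
    funext t'
    unfold l9gY
    congr 1
    refine Finset.prod_congr rfl fun i hi => ?_
    simp only [hgl', if_pos (Finset.mem_range.1 (hR hi))]
  rw [e]
  exact h1

/-! ## 6. the reference overlap `qC k` (a 2-label number): H1 of the DD-LINK -/

theorem l9gN_scale {h δ ε c : ℝ} (hδ : 0 < δ) (hε : 0 < ε) (hc : 1 ≤ c) (X : L9gJ) : l9gN h δ ε X ≤ c * l9gN h δ (c * ε) X := by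
  unfold l9gN
  have h1 : 0 ≤ max |l9gV0 X| |l9gV1 X| := (abs_nonneg _).trans (le_max_left _ _)
  have h2 : 0 ≤ |l9gV1 X - l9gV0 X| / δ := by positivity
  have e : |l9gV1 X - l9gV0 X - h * l9gDv X| / ε = c * (|l9gV1 X - l9gV0 X - h * l9gDv X| / (c * ε)) := by
    have : c ≠ 0 := by positivity
    field_simp
  rw [e]
  nlinarith

open Filter Topology in
/-- **the jet of `qC k`**: norm `≤ K` at the scale `2 ε + ∑_{j ∈ {k, N + 1}} d_j` of the defects -/
theorem l9g_qC (A : ℝ) : ∃ K : ℝ, 1 ≤ K ∧ ∀ (m : ℕ) (tl : Option ℕ) (a : ℝ) (Pf : ℝ → LlStp) (t h δ ε : ℝ) (c0 : ℕ), a ≤ A →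
    L9gIn a Pf t h δ ε c0 → ∀ k : ℕ, k ≤ (Pf t).length + 1 →
      ∃ X, L9gR t h (fun t' => (llJs m a (Pf t') tl).qC k) X ∧ l9gN h δ (4 * (ε + l9gDK Pf t h k)) X ≤ K := by
  obtain ⟨K, hK1, hlet⟩ := l9g_letter 2 A
  refine ⟨K, hK1, ?_⟩
  intro m tl a Pf t h δ ε c0 ha H k hk
  have hδ := H.δ_pos
  have hε := H.ε_pos
  set N := (Pf t).length with hN
  set M := l9pM (Pf t) with hM
  have hMlen : M.length = N := l9p_M_len _
  have hadm0 : SkAdm a (llSc (Pf t)) := H.adm.self_of_nhds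
  obtain ⟨hMa, hv0⟩ := l9p_adm H.a_pos hadm0
  obtain ⟨-, hv1⟩ := l9p_adm H.a_pos H.adm1
  set τ : ℕ → ℕ → ℕ := trPair N k with hτdef
  have hτ : IsTr N 2 τ := l9r_t2_isTr hk
  have hτM : IsTr M.length 2 τ := by rw [hMlen]; exact hτ
  set T : (ℕ → SkCfg 1) → ℝ := fun σ => jtSp (σ 0 0) * jtSp (σ 1 0) with hT
  have hTu : TrUses 2 T := by
    intro σ σ' hh
    simp only [hT]
    rw [hh 0 (by norm_num), hh 1 (by norm_num)]
  have hT1 : ∀ σ, |T σ| ≤ 1 := by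
    intro σ
    simp only [hT, abs_mul]
    have : ∀ b : Bool, |jtSp b| = 1 := by intro b; cases b <;> simp [jtSp]
    rw [this, this]; norm_num
  have hdk0 := l9gDK_nonneg Pf t h k
  set ε' := 4 * (ε + l9gDK Pf t h k) with hε'
  have hε'0 : 0 < ε' := by positivity
  refine ⟨l9gMk (l9pNu a M (l9pV (Pf t)) 2 τ T) (l9pDot a M (l9pV (Pf t)) (l9gVd Pf t) 2 τ T) (l9pNu a M (l9pV (Pf (t + h))) 2 τ T), ?_, ?_⟩
  · have hd : HasDerivAt (fun u => l9pNu a M (l9pV (Pf u)) 2 τ T) (l9pDot a M (l9pV (Pf t)) (l9gVd Pf t) 2 τ T) t :=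
      l9p_hasDerivAt hMa (v := fun u => l9pV (Pf u)) (by
        filter_upwards [H.adm] with u hu
        exact (l9p_adm H.a_pos hu).2) (fun j _ => H.V_hasDerivAt j) hτM hTu hT1
    have h0 : L9gR t h (fun u => l9pNu a M (l9pV (Pf u)) 2 τ T) _ := L9gR.mk' hd
    refine h0.congr_ev ?_ ?_
    · filter_upwards [H.adm] with u hu
      show llQs a (Pf u) k = _
      unfold llQs
      rw [l9p_nuS H.a_pos hu, H.ms u, H.len u]
    · show llQs a (Pf (t + h)) k = _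
      unfold llQs
      rw [l9p_nuS H.a_pos H.adm1, H.ms (t + h), H.len (t + h)]
  · refine hlet a M hMa ha (l9pV (Pf t)) (l9pV (Pf (t + h))) (l9gVd Pf t) hv0 hv1 h δ ε' (l9gDK Pf t h) hδ hε'0 ?_ ?_ τ (by omega) hτM ?_ T hTu hT1
    · intro s _
      rw [← l9p_cumK, ← l9p_cumK]
      exact H.K_inc s
    · intro s
      rw [← l9p_cumK, ← l9p_cumK, l9g_cu_Vd, hMlen]
      have e := H.cumK_min s
      have e1 := congrFun e (t + h)
      have e2 := congrFun e t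
      rw [e1, e2, e]
      exact le_rfl
    · rw [hMlen, l9p_ms_eq]
      have h1 := H.K_sum
      have h2 := H.sq
      have h3 : ∑ j ∈ l9nFk 2 τ, l9gDK Pf t h j ≤ l9gDK Pf t h k + l9gDK Pf t h (N + 1) := by
        have hsub : l9nFk 2 τ ⊆ {k, N + 1} := by
          intro j hj
          unfold l9nFk at hj
          obtain ⟨p, _, rfl⟩ := Finset.mem_image.1 hj
          simp only [hτdef, trPair]
          split_ifs <;> simp
        refine (Finset.sum_le_sum_of_subset_of_nonneg hsub fun j _ _ => l9gDK_nonneg _ _ _ _).trans ?_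
        by_cases hkN : k = N + 1
        · rw [hkN]
          simp only [Finset.pair_eq_singleton, Finset.sum_singleton]
          have := l9gDK_nonneg Pf t h (N + 1)
          linarith
        · rw [Finset.sum_pair hkN]
      have h4 := H.K_low (N + 1) (Or.inr (by omega))
      linarith

/-- **H1**: second order Taylor defect of the reference overlap of the chain -/
theorem l9g_qC_defect (A : ℝ) : ∃ C : ℝ, 0 ≤ C ∧ ∀ (m : ℕ) (tl : Option ℕ) (a : ℝ) (Pf : ℝ → LlStp) (t h δ ε : ℝ) (c0 : ℕ), a ≤ A →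
    L9gIn a Pf t h δ ε c0 → ∀ k : ℕ, k ≤ (Pf t).length + 1 →
      DifferentiableAt ℝ (fun t' => (llJs m a (Pf t') tl).qC k) t ∧
      |(llJs m a (Pf (t + h)) tl).qC k - (llJs m a (Pf t) tl).qC k - h * deriv (fun t' => (llJs m a (Pf t') tl).qC k) t|
        ≤ C * (ε + l9gDK Pf t h k) := by
  obtain ⟨K, hK1, hq⟩ := l9g_qC A
  refine ⟨4 * K, by positivity, ?_⟩
  intro m tl a Pf t h δ ε c0 ha H k hk
  obtain ⟨X, hX, hN⟩ := hq m tl a Pf t h δ ε c0 ha H k hk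
  have hdk0 := l9gDK_nonneg Pf t h k
  have hε := H.ε_pos
  refine ⟨hX.2.2.differentiableAt, ?_⟩
  have := hX.defect H.δ_pos (by positivity : 0 < 4 * (ε + l9gDK Pf t h k))
  refine this.trans ?_
  calc 4 * (ε + l9gDK Pf t h k) * l9gN h δ (4 * (ε + l9gDK Pf t h k)) X ≤ 4 * (ε + l9gDK Pf t h k) * K :=
        mul_le_mul_of_nonneg_left hN (by positivity)
    _ = _ := by ring

end Claimed.Agent.R286
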