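import Claimed.Agent.R286.L09.Contract
import Claimed.Agent.R286.L09.RedMain

/-!
# Row 286 (S0533), unit L09, file Bnd: REGIONS OF (E1), THE FLAT COEFFICIENTS, GLUE OF `L9BndS`, `L9BndD`      (owner helper282; head of the unit helper60; prefix `l9b`, `L9Q`, `L9Rg`)

The nodes HI, W5, RED (+ MAIN, LC1, CC) must END in `L9BndS`, `L9BndD` of `L09/Contract.lean` (216).   This file types the decomposition of `DOE1` by REGIONS of the masses of the base pairs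
(09-expansion.tex l.327-409: "terms with a base pair at mass at least `V_2`" | "degree `j ≥ 5`" | "It remains to treat only low-region terms of degrees 2, 3, 4").

* `Q : L9Q`               one POINT of Sec. 9: instance `I : L9I`, family `pf`, operator `(u, e)`, parameter `t`.      `Q.p, Q.N, Q.ms, Q.X en` = path point, number of stages, masses, context.
* `Q.co n R τ`            `O` applied to the coefficient of `∏_{i ∈ R} Δ_i` in the degree `n` part of (E1), at the table `τ` (a NUMBER);      `Q.coq τ` the same for the square counterterm.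
* `Q.vm τ i`              mass of the base pair `i` (slots `2 i, 2 i + 1`) = mass of the stage at which they separate.
* `Rg : L9Rg`             a region = predicate on (degree `n`, masses of the `n` base pairs).   The square term counts as two base factors on the same pair.
                          `l9RgHi V` some base pair `≥ V`;   `l9RgL5 V` all `< V`, `n ≥ 5`;   `l9RgL4 V` all `< V`, `n ≤ 4`.
* `Q.OEg Rg J0 en`        (E1) restricted to the region;   `Q.DOEg` tilted minus untilted.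
* `Q.H n R τ`, `Q.Hq τ`   THE FLAT COEFFICIENTS on `l9aTab Q.N (2 n)` (276): `(2^n n!)⁻¹ wt(τ) off(τ) co(τ)`;  `Hq` = the square counterterm carried by the 4-slot tables with a REPEATED pair
                          (`-1/8` on each of the two labellings `0~2, 1~3` and `0~3, 1~2`);      `Q.Ht n R = H (+ Hq if n = 2, R = {0,1})`.
## GLUE (second half of the file; everything is proved)
    L9BndS  <=  L9BndSg (Hi V_2)  [HI: 235]   +  L9BndSg (L5 V_2)  [W5: 235]  +  L9BndSg (L4 V_2)  [RED: 282, `L09/RedC.lean`],      V_2 = x^(a_2)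
    L9BndD  <=  L9BndDg (Hi c_D)  [W5 (i): 235]  +  L9BndDg (L5 c_D)  [W5 (ii): 235]  +  L9BndDg (L4 c_D)  [RED: 282],              c_D = a fixed small mass
`l9b_bndS`, `l9b_bndD`;   TEX[LL:exp:prop-low-coefficients] l.327-409 (the case distinction), l.487-492 ("There are only fixedly many degrees and shapes ..").
-/

set_option autoImplicit false

namespace Claimed.Agent.R286

open scoped BigOperators Nat

noncomputable section

/-- one point of Sec. 9 -/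
structure L9Q where
  I : L9I
  pf : ℝ → LlPt
  u : ℝ
  e : ℝ
  t : ℝ

/-- a region of (E1): degree, masses of the base pairs -/
abbrev L9Rg := ℕ → (ℕ → ℝ) → Prop

/-- some base pair at mass at least `V` -/
def l9RgHi (V : ℝ) : L9Rg := fun n v => ∃ i, i < n ∧ V ≤ v i
/-- all base pairs below `V`, degree at least five -/
def l9RgL5 (V : ℝ) : L9Rg := fun n v => (∀ i, i < n → v i < V) ∧ 5 ≤ n
/-- all base pairs below `V`, degree at most four -/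
def l9RgL4 (V : ℝ) : L9Rg := fun n v => (∀ i, i < n → v i < V) ∧ n ≤ 4
/-- everything -/
def l9RgT : L9Rg := fun _ _ => True

namespace L9Q

variable (Q : L9Q)

/-- the path point -/
def p : LlPt := Q.pf Q.t
/-- number of Gaussian stages -/
def N : ℕ := (Q.I.P Q.p).length
/-- masses of the stages -/
def ms : ℕ → ℝ := llMs Q.p.a (Q.I.P Q.p)
/-- the context of the ensemble -/
def X (en : Bool) : JtCtx (SkCfg Q.I.m) := Q.I.X en Q.p
/-- `O` applied to the coefficient of `∏_{i ∈ R} Δ_i` -/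
def co (n : ℕ) (R : Finset ℕ) (τ : JtTopo) : ℝ := l9O Q.u Q.e R.card (fun t' => (Q.I.X0 (Q.pf t')).cf n R τ) Q.t
/-- `O` applied to the coefficient of the square counterterm -/
def coq (τ : JtTopo) : ℝ := l9O Q.u Q.e 2 (fun t' => (Q.I.X0 (Q.pf t')).bC (τ 0 1)) Q.t
/-- mass of the base pair `i` -/
def vm (τ : JtTopo) (i : ℕ) : ℝ := Q.ms (τ (2 * i) (2 * i + 1))

open Classical in
/-- (E1) restricted to a region, ensemble `en` -/
def OEg (Rg : L9Rg) (J0 : ℕ) (en : Bool) : ℝ :=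
  (∑ n ∈ Finset.Icc 2 J0, ∑ R ∈ (Finset.range n).powerset, (Q.X en).mon n R fun τ => if Rg n (Q.vm τ) then Q.co n R τ else 0)
    - (Q.X en).sq fun τ => if Rg 2 (fun _ => Q.vm τ 0) then Q.coq τ else 0

/-- tilted minus untilted -/
def DOEg (Rg : L9Rg) (J0 : ℕ) : ℝ := Q.OEg Rg J0 true - Q.OEg Rg J0 false

/-- the flat coefficient of `∏_{i ∈ R} Δ_i`, degree `n` -/
def H (n : ℕ) (R : Finset ℕ) (τ : JtTopo) : ℝ :=
  ((2 : ℝ) ^ n * (n ! : ℝ))⁻¹ * l9aWt Q.ms Q.N 1 (2 * n) τ * (Q.X false).off 0 n τ * Q.co n R τ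

/-- the square counterterm on the 4-slot tables with a repeated pair -/
def Hq (τ : JtTopo) : ℝ :=
  if (τ 0 2 = Q.N + 1 ∧ τ 1 3 = Q.N + 1) ∨ (τ 0 3 = Q.N + 1 ∧ τ 1 2 = Q.N + 1) then
    -(8 : ℝ)⁻¹ * l9aWt Q.ms Q.N 1 2 τ * (Q.X false).off 0 1 τ * Q.coq τ
  else 0

/-- the total flat coefficient -/
def Ht (n : ℕ) (R : Finset ℕ) (τ : JtTopo) : ℝ := Q.H n R τ + if n = 2 ∧ R = {0, 1} then Q.Hq τ else 0

open Classical in
/-- the tables of a region -/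
def Tb (Rg : L9Rg) (n : ℕ) : Finset JtTopo := (l9aTab Q.N (2 * n)).filter fun τ => Rg n (Q.vm τ)

end L9Q

/-- the point of the size segment -/
def l9QS (F : LlFix) (𝔹 : LlBase) (s : ℝ) (Fs : Finset GhPos) (m N : ℕ) (γ : Fin (N + 1) → ℝ) (θ : ℝ) : L9Q :=
  ⟨⟨F, 𝔹, s, Fs, m⟩, l9PtS F N γ, 1, 1 / 6, θ⟩

/-- the point of the strength sweep -/
def l9QD (F : LlFix) (𝔹 : LlBase) (s : ℝ) (Fs : Finset GhPos) (m N : ℕ) (ell : ℝ) (γ : Fin (N + 1) → ℝ) (t : ℝ) : L9Q :=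
  ⟨⟨F, 𝔹, s, Fs, m⟩, l9PtL N ell γ, 0, 0, t⟩

/-- hypotheses on a point of the size segment (those of `L9BndS`) -/
def L9HyS (F : LlFix) (𝔹 : LlBase) (N : ℕ) (s L : ℝ) (Fs : Finset GhPos) (m : ℕ) (γ : Fin (N + 1) → ℝ) (θ : ℝ) : Prop :=
  N ≤ 2 * m ∧ m ≤ 3 * N ∧ θ ∈ Set.Ioo (0 : ℝ) (Real.log 2) ∧ (⟨F, 𝔹, s, Fs, m⟩ : L9I).Dif (l9PtS F N γ) θ ∧
    s * (m : ℝ) * (⟨F, 𝔹, s, Fs, m⟩ : L9I).psi (l9PtS F N γ θ) m ≤ 4 * L

/-- hypotheses on a point of the strength sweep (those of `L9BndD`) -/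
def L9HyD (F : LlFix) (𝔹 : LlBase) (Mj : L9Mj) (κ : ℝ) (N : ℕ) (s L : ℝ) (Fs : Finset GhPos) (m : ℕ) (ell : ℝ) (γ : Fin (N + 1) → ℝ)
    (t : ℝ) : Prop :=
  N ≤ 2 * m ∧ m ≤ 3 * N ∧ ell ∈ Set.Icc (1 : ℝ) ((2 : ℝ) ^ (1 / 6 : ℝ)) ∧ t ∈ l9LamRg F N ∧ (⟨F, 𝔹, s, Fs, m⟩ : L9I).Dif (l9PtL N ell γ) t ∧
    s * (m : ℝ) * (⟨F, 𝔹, s, Fs, m⟩ : L9I).psi (l9PtL N ell γ t) m ≤ 4 * L ∧
    (l9PtL N ell γ t).U F * Mj.Z F 𝔹 Fs (l9PtL N ell γ t) m ≤ skX N ^ κ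

/-- the right side of `L9BndS` without `C x^(5+c0)` -/
def l9WS (F : LlFix) (𝔹 : LlBase) (Mj : L9Mj) (N : ℕ) (s : ℝ) (Fs : Finset GhPos) (m : ℕ) (γ : Fin (N + 1) → ℝ) (θ : ℝ) : ℝ :=
  (Mj.Z F 𝔹 Fs (l9PtS F N γ θ) m ^ 4 + Mj.Zg F 𝔹 Fs (l9PtS F N γ θ) m * Mj.Z F 𝔹 Fs (l9PtS F N γ θ) m ^ 2)
    * (1 + (⟨F, 𝔹, s, Fs, m⟩ : L9I).dot (l9PtS F N γ) θ)

/-- **BndS restricted to a region** (`Rg x` = the region at the scale `x = skX N`) -/
def L9BndSg (𝔹 : LlBase) (Mj : L9Mj) (J0 : ℕ) (F : LlFix) (Rg : ℝ → L9Rg) : Prop :=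
  L9Pw fun c0 C N s L Fs =>
    ∀ (m : ℕ) (γ : Fin (N + 1) → ℝ) (θ : ℝ), L9HyS F 𝔹 N s L Fs m γ θ →
      |(l9QS F 𝔹 s Fs m N γ θ).DOEg (Rg (skX N)) J0| ≤ C * skX N ^ (5 + c0) * l9WS F 𝔹 Mj N s Fs m γ θ

/-- **BndD restricted to a region** -/
def L9BndDg (𝔹 : LlBase) (Mj : L9Mj) (κ : ℝ) (J0 : ℕ) (F : LlFix) (Rg : ℝ → L9Rg) : Prop :=
  L9Pw fun c0 C N s L Fs =>
    ∀ (m : ℕ) (ell : ℝ) (γ : Fin (N + 1) → ℝ) (t : ℝ), L9HyD F 𝔹 Mj κ N s L Fs m ell γ t →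
      |(l9QD F 𝔹 s Fs m N ell γ t).DOEg (Rg (skX N)) J0| ≤ C * skX N ^ (5 + c0) * Mj.Z F 𝔹 Fs (l9PtL N ell γ t) m ^ 4

end

theorem l9b_defs_eqns_cite : True := by
  have := @l9RgHi.eq_1
  have := @l9RgL5.eq_1
  have := @l9RgL4.eq_1
  have := @l9RgT.eq_1
  have := @L9Q.p.eq_1
  have := @L9Q.N.eq_1
  have := @L9Q.ms.eq_1
  have := @L9Q.X.eq_1
  have := @L9Q.co.eq_1
  have := @L9Q.coq.eq_1
  have := @L9Q.vm.eq_1
  have := @L9Q.OEg.eq_1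
  have := @L9Q.DOEg.eq_1
  have := @L9Q.H.eq_1
  have := @L9Q.Hq.eq_1
  have := @L9Q.Ht.eq_1
  have := @L9Q.Tb.eq_1
  have := @l9QS.eq_1
  have := @l9QD.eq_1
  have := @L9HyS.eq_1
  have := @L9HyD.eq_1
  have := @l9WS.eq_1
  have := @L9BndSg.eq_1
  have := @L9BndDg.eq_1
  trivial

open Filter

/-! ### linearity of the signed sums -/

theorem l9b_sumK_add (ms : ℕ → ℝ) (N : ℕ) (k : ℕ) : ∀ (q : ℕ) (τ : ℕ → ℕ → ℕ) (Φ Ψ : (ℕ → ℕ → ℕ) → ℝ),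
    trSumK ms N k q τ (fun τ' => Φ τ' + Ψ τ') = trSumK ms N k q τ Φ + trSumK ms N k q τ Ψ := by
  induction k with
  | zero => intro q τ Φ Ψ; simp [trSumK]
  | succ k ih =>
    intro q τ Φ Ψ
    simp only [trSumK, trSum, ih, mul_add, Finset.sum_add_distrib]

section ctx
variable {n : ℕ} {a : ℝ} {P : LlStp} {tl : Option ℕ}

theorem l9b_mon_add (d : ℕ) (R : Finset ℕ) (c c' : JtTopo → ℝ) :
    (llJs n a P tl).mon d R (fun τ => c τ + c' τ) = (llJs n a P tl).mon d R c + (llJs n a P tl).mon d R c' := by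
  unfold JtCtx.mon
  rw [← mul_add]
  congr 1
  show trSumK _ _ _ _ _ _ = trSumK _ _ _ _ _ _ + trSumK _ _ _ _ _ _
  rw [← l9b_sumK_add]
  congr 1
  funext τ
  ring

theorem l9b_sq_add (c c' : JtTopo → ℝ) :
    (llJs n a P tl).sq (fun τ => c τ + c' τ) = (llJs n a P tl).sq c + (llJs n a P tl).sq c' := by
  unfold JtCtx.sq
  rw [← mul_add]
  congr 1
  show trSumK _ _ _ _ _ _ = trSumK _ _ _ _ _ _ + trSumK _ _ _ _ _ _
  rw [← l9b_sumK_add]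
  congr 1
  funext τ
  ring

end ctx

/-! ### the regions -/

theorem l9b_rg_cases (V : ℝ) (n : ℕ) (v : ℕ → ℝ) (z : ℝ) [Decidable (l9RgHi V n v)] [Decidable (l9RgL5 V n v)] [Decidable (l9RgL4 V n v)] :
    z = ((if l9RgHi V n v then z else 0) + if l9RgL5 V n v then z else 0) + if l9RgL4 V n v then z else 0 := by
  by_cases h : ∃ i, i < n ∧ V ≤ v i
  · have h1 : l9RgHi V n v := h
    have h2 : ¬ l9RgL5 V n v := by
      rintro ⟨h2, -⟩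
      obtain ⟨i, hi, hv⟩ := h
      exact absurd (h2 i hi) (not_lt.2 hv)
    have h3 : ¬ l9RgL4 V n v := by
      rintro ⟨h2, -⟩
      obtain ⟨i, hi, hv⟩ := h
      exact absurd (h2 i hi) (not_lt.2 hv)
    simp [h1, h2, h3]
  · have h1 : ¬ l9RgHi V n v := h
    have h0 : ∀ i, i < n → v i < V := by
      intro i hi
      by_contra hh
      exact h ⟨i, hi, not_lt.1 hh⟩
    by_cases hn : 5 ≤ n
    · have h2 : l9RgL5 V n v := ⟨h0, hn⟩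
      have h3 : ¬ l9RgL4 V n v := by rintro ⟨-, h3⟩; omega
      simp [h1, h2, h3]
    · have h2 : ¬ l9RgL5 V n v := by rintro ⟨-, h3⟩; omega
      have h3 : l9RgL4 V n v := ⟨h0, by omega⟩
      simp [h1, h2, h3]

theorem l9b_ite_true {α : Type} (n : ℕ) (v : ℕ → ℝ) [Decidable (l9RgT n v)] (a b : α) : (if l9RgT n v then a else b) = a :=
  if_pos trivial

namespace L9Q
variable (Q : L9Q)

theorem OEg_top (J0 : ℕ) (en : Bool) : Q.OEg l9RgT J0 en = Q.I.OE1 Q.pf Q.u Q.e J0 en Q.t := by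
  simp only [OEg, l9b_ite_true]
  rfl

theorem DOEg_top (J0 : ℕ) : Q.DOEg l9RgT J0 = Q.I.DOE1 Q.pf Q.u Q.e J0 Q.t := by
  simp only [DOEg, OEg_top]
  rfl

/-- the three regions exhaust (E1) -/
theorem OEg_split (V : ℝ) (J0 : ℕ) (en : Bool) :
    Q.OEg l9RgT J0 en = Q.OEg (l9RgHi V) J0 en + Q.OEg (l9RgL5 V) J0 en + Q.OEg (l9RgL4 V) J0 en := by
  classical
  have hm : ∀ (d : ℕ) (R : Finset ℕ), (Q.X en).mon d R (fun τ => if l9RgT d (Q.vm τ) then Q.co d R τ else 0)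
      = (Q.X en).mon d R (fun τ => if l9RgHi V d (Q.vm τ) then Q.co d R τ else 0)
        + (Q.X en).mon d R (fun τ => if l9RgL5 V d (Q.vm τ) then Q.co d R τ else 0)
        + (Q.X en).mon d R (fun τ => if l9RgL4 V d (Q.vm τ) then Q.co d R τ else 0) := by
    intro d R
    unfold L9Q.X L9I.X
    rw [← l9b_mon_add, ← l9b_mon_add]
    congr 1
    funext τ
    simp only [l9b_ite_true]
    exact l9b_rg_cases V d (Q.vm τ) _
  have hq : (Q.X en).sq (fun τ => if l9RgT 2 (fun _ => Q.vm τ 0) then Q.coq τ else 0)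
      = (Q.X en).sq (fun τ => if l9RgHi V 2 (fun _ => Q.vm τ 0) then Q.coq τ else 0)
        + (Q.X en).sq (fun τ => if l9RgL5 V 2 (fun _ => Q.vm τ 0) then Q.coq τ else 0)
        + (Q.X en).sq (fun τ => if l9RgL4 V 2 (fun _ => Q.vm τ 0) then Q.coq τ else 0) := by
    unfold L9Q.X L9I.X
    rw [← l9b_sq_add, ← l9b_sq_add]
    congr 1
    funext τ
    simp only [l9b_ite_true]
    exact l9b_rg_cases V 2 (fun _ => Q.vm τ 0) _
  unfold OEg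
  simp only [hm, hq, Finset.sum_add_distrib]
  ring

theorem DOE1_split (V : ℝ) (J0 : ℕ) :
    Q.I.DOE1 Q.pf Q.u Q.e J0 Q.t = Q.DOEg (l9RgHi V) J0 + Q.DOEg (l9RgL5 V) J0 + Q.DOEg (l9RgL4 V) J0 := by
  rw [← DOEg_top]
  unfold DOEg
  rw [OEg_split Q V, OEg_split Q V]
  ring

end L9Q

/-! ### combination of three pointwise nodes -/

theorem l9b_pw_three {Φ₁ Φ₂ Φ₃ Φ : ℝ → ℝ → ℕ → ℝ → ℝ → Finset GhPos → Prop}
    (h : ∀ c₁ c₂ c₃ C₁ C₂ C₃ N s L Fs, 0 < c₁ → 0 < c₂ → 0 < c₃ → 1 ≤ N → Φ₁ c₁ C₁ N s L Fs → Φ₂ c₂ C₂ N s L Fs → Φ₃ c₃ C₃ N s L Fs →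
      Φ (min c₁ (min c₂ c₃)) (C₁ + C₂ + C₃) N s L Fs)
    (h₁ : L9Pw Φ₁) (h₂ : L9Pw Φ₂) (h₃ : L9Pw Φ₃) : L9Pw Φ := by
  obtain ⟨c₁, hc₁, e₁, he₁, H₁⟩ := h₁
  obtain ⟨c₂, hc₂, e₂, he₂, H₂⟩ := h₂
  obtain ⟨c₃, hc₃, e₃, he₃, H₃⟩ := h₃
  refine ⟨min c₁ (min c₂ c₃), lt_min hc₁ (lt_min hc₂ hc₃), min e₁ (min e₂ e₃), lt_min he₁ (lt_min he₂ he₃), ?_⟩
  intro ε hε hε' q hq
  obtain ⟨C₁, N₁, K₁⟩ := H₁ ε hε (hε'.trans_le (min_le_left _ _)) q hq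
  obtain ⟨C₂, N₂, K₂⟩ := H₂ ε hε (hε'.trans_le ((min_le_right _ _).trans (min_le_left _ _))) q hq
  obtain ⟨C₃, N₃, K₃⟩ := H₃ ε hε (hε'.trans_le ((min_le_right _ _).trans (min_le_right _ _))) q hq
  refine ⟨C₁ + C₂ + C₃, max 1 (max N₁ (max N₂ N₃)), ?_⟩
  intro N hN
  have g0 : 1 ≤ N := (le_max_left _ _).trans hN
  have g1 : N₁ ≤ N := ((le_max_left _ _).trans (le_max_right _ _)).trans hN
  have g2 : N₂ ≤ N := (((le_max_left _ _).trans (le_max_right _ _)).trans (le_max_right _ _)).trans hN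
  have g3 : N₃ ≤ N := (((le_max_right _ _).trans (le_max_right _ _)).trans (le_max_right _ _)).trans hN
  filter_upwards [K₁ N g1, K₂ N g2, K₃ N g3] with Fs a₁ a₂ a₃
  exact h _ _ _ _ _ _ _ _ _ _ hc₁ hc₂ hc₃ g0 a₁ a₂ a₃

theorem l9b_skX_pos {N : ℕ} (hN : 1 ≤ N) : 0 < skX N := by
  unfold skX
  exact Real.rpow_pos_of_pos (by exact_mod_cast hN) _

theorem l9b_skX_le_one {N : ℕ} (hN : 1 ≤ N) : skX N ≤ 1 := by
  unfold skX
  exact Real.rpow_le_one_of_one_le_of_nonpos (by exact_mod_cast hN) (by norm_num)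

/-- three bounds `|a_i| ≤ C_i x^(5+c_i) W` add up (no sign condition on `C_i`, `W`) -/
theorem l9b_three_bounds {x : ℝ} (hx : 0 < x) (hx1 : x ≤ 1) {c₁ c₂ c₃ C₁ C₂ C₃ W a₁ a₂ a₃ : ℝ}
    (h₁ : |a₁| ≤ C₁ * x ^ (5 + c₁) * W) (h₂ : |a₂| ≤ C₂ * x ^ (5 + c₂) * W) (h₃ : |a₃| ≤ C₃ * x ^ (5 + c₃) * W) :
    |a₁ + a₂ + a₃| ≤ (C₁ + C₂ + C₃) * x ^ (5 + min c₁ (min c₂ c₃)) * W := by
  have key : ∀ {c C a : ℝ}, min c₁ (min c₂ c₃) ≤ c → |a| ≤ C * x ^ (5 + c) * W → |a| ≤ C * x ^ (5 + min c₁ (min c₂ c₃)) * W := by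
    intro c C a hc ha
    have hp : 0 < x ^ (5 + c) := Real.rpow_pos_of_pos hx _
    have hle : x ^ (5 + c) ≤ x ^ (5 + min c₁ (min c₂ c₃)) := Real.rpow_le_rpow_of_exponent_ge hx hx1 (by linarith)
    have hCW : 0 ≤ C * W := by
      have h0 : 0 ≤ (C * W) * x ^ (5 + c) := by
        have := (abs_nonneg a).trans ha
        calc (0 : ℝ) ≤ C * x ^ (5 + c) * W := this
          _ = (C * W) * x ^ (5 + c) := by ring
      exact nonneg_of_mul_nonneg_left h0 hp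
    calc |a| ≤ C * x ^ (5 + c) * W := ha
      _ = (C * W) * x ^ (5 + c) := by ring
      _ ≤ (C * W) * x ^ (5 + min c₁ (min c₂ c₃)) := mul_le_mul_of_nonneg_left hle hCW
      _ = _ := by ring
  have k₁ := key (min_le_left _ _) h₁
  have k₂ := key ((min_le_right _ _).trans (min_le_left _ _)) h₂
  have k₃ := key ((min_le_right _ _).trans (min_le_right _ _)) h₃
  calc |a₁ + a₂ + a₃| ≤ |a₁| + |a₂| + |a₃| := abs_add_three _ _ _
    _ ≤ _ := by nlinarith [k₁, k₂, k₃]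

/-- **BndS from the three regions**, threshold `V_2 = x^(a_2)` -/
theorem l9b_bndS (𝔹 : LlBase) (Mj : L9Mj) (J0 : ℕ) (F : LlFix) (Vf : ℝ → ℝ)
    (hHi : L9BndSg 𝔹 Mj J0 F fun x => l9RgHi (Vf x)) (hL5 : L9BndSg 𝔹 Mj J0 F fun x => l9RgL5 (Vf x))
    (hL4 : L9BndSg 𝔹 Mj J0 F fun x => l9RgL4 (Vf x)) : L9BndS 𝔹 Mj J0 F := by
  refine l9b_pw_three ?_ hHi hL5 hL4
  intro c₁ c₂ c₃ C₁ C₂ C₃ N s L Fs _ _ _ hN a₁ a₂ a₃ m hm1 hm2 γ θ hθ hD hst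
  have hy : L9HyS F 𝔹 N s L Fs m γ θ := ⟨hm1, hm2, hθ, hD, hst⟩
  have e := (l9QS F 𝔹 s Fs m N γ θ).DOE1_split (Vf (skX N)) J0
  have b := l9b_three_bounds (l9b_skX_pos hN) (l9b_skX_le_one hN) (a₁ m γ θ hy) (a₂ m γ θ hy) (a₃ m γ θ hy)
  rw [← e] at b
  have b2 : |(⟨F, 𝔹, s, Fs, m⟩ : L9I).DOE1 (l9PtS F N γ) 1 (1 / 6) J0 θ|
      ≤ (C₁ + C₂ + C₃) * skX N ^ (5 + min c₁ (min c₂ c₃)) * l9WS F 𝔹 Mj N s Fs m γ θ := b
  simpa only [l9WS, mul_assoc] using b2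

/-- **BndD from the three regions**, threshold = a fixed mass -/
theorem l9b_bndD (𝔹 : LlBase) (Mj : L9Mj) (κ : ℝ) (J0 : ℕ) (F : LlFix) (Vf : ℝ → ℝ)
    (hHi : L9BndDg 𝔹 Mj κ J0 F fun x => l9RgHi (Vf x)) (hL5 : L9BndDg 𝔹 Mj κ J0 F fun x => l9RgL5 (Vf x))
    (hL4 : L9BndDg 𝔹 Mj κ J0 F fun x => l9RgL4 (Vf x)) : L9BndD 𝔹 Mj κ J0 F := by
  refine l9b_pw_three ?_ hHi hL5 hL4
  intro c₁ c₂ c₃ C₁ C₂ C₃ N s L Fs _ _ _ hN a₁ a₂ a₃ m hm1 hm2 ell hell γ t ht hD hst hY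
  have hy : L9HyD F 𝔹 Mj κ N s L Fs m ell γ t := ⟨hm1, hm2, hell, ht, hD, hst, hY⟩
  have e := (l9QD F 𝔹 s Fs m N ell γ t).DOE1_split (Vf (skX N)) J0
  have b := l9b_three_bounds (l9b_skX_pos hN) (l9b_skX_le_one hN) (a₁ m ell γ t hy) (a₂ m ell γ t hy) (a₃ m ell γ t hy)
  rw [← e] at b
  exact b

end Claimed.Agent.R286
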