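import Claimed.Agent.R286.L09.Cumul

/-!
# Row 286, LL Section 9: BLOCK GRAPHS, `k_{A,P}`, `D_π`, the internal coefficient (E5)      (helper271; paper free)

LL 09-expansion.tex l.516-556 ("The objects in the compression formula") and the combinatorial facts used in "The low-degree cases".
* `L9Gr j D`       : `j` labelled edges without loops on `D` blocks, every block is used;
* `Γ.k A P`        : number of end points of the edges of the part `P` in the block `A`;
* `Γ.used P`       : the blocks used by `P`;   `Γ.dpi Q = ∑_{P ∈ Q} #used P` (`= D_π` for `Q = π.parts`);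
* `Γ.IG c E`       : `∑_π (-1)^(|π|-1) (|π|-1)! c^(D_π) ∏_{P ∈ π} E P`  (E5), `E P` = the expectation `E_low ∏_A s_{k_{A,P}}`;
* `IG_eq_cum`      : it is the joint cumulant of the moments `c^(#used P) E P`; hence the explicit formulas for `j = 2, 3, 4`;
* `IG_top`, `IG_sub_top_le` : one part (power `c^D`) + all the others (`D_π ≥ 4`).
-/

set_option autoImplicit false

namespace Claimed.Agent.R286

open Finset

/-- block graph: `j` labelled edges on `D` blocks, no loops, every block is used -/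
structure L9Gr (j D : ℕ) where
  src : Fin j → Fin D
  tgt : Fin j → Fin D
  ne : ∀ i, src i ≠ tgt i
  surj : ∀ A, ∃ i, src i = A ∨ tgt i = A

namespace L9Gr

variable {j D : ℕ} (Γ : L9Gr j D)

/-- `k_{A,P}`: number of end points of the part `P` in the block `A` -/
def k (A : Fin D) (P : Finset (Fin j)) : ℕ :=
  (P.filter fun i => Γ.src i = A).card + (P.filter fun i => Γ.tgt i = A).card

/-- the blocks used by the part `P` -/
def used (P : Finset (Fin j)) : Finset (Fin D) := univ.filter fun A => 0 < Γ.k A P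

/-- `D_π`, as a function of the set of parts -/
def dpi (Q : Finset (Finset (Fin j))) : ℕ := ∑ P ∈ Q, (Γ.used P).card

theorem sum_k (P : Finset (Fin j)) : ∑ A, Γ.k A P = 2 * P.card := by
  unfold k
  rw [Finset.sum_add_distrib]
  have h1 : ∑ A, (P.filter fun i => Γ.src i = A).card = P.card :=
    (Finset.card_eq_sum_card_fiberwise (f := Γ.src) (s := P) (t := univ) (fun _ _ => mem_coe.2 (mem_univ _))).symm
  have h2 : ∑ A, (P.filter fun i => Γ.tgt i = A).card = P.card :=
    (Finset.card_eq_sum_card_fiberwise (f := Γ.tgt) (s := P) (t := univ) (fun _ _ => mem_coe.2 (mem_univ _))).symm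
  rw [h1, h2]; ring

/-- no loops: an edge has at most one end in `A` -/
theorem k_le (A : Fin D) (P : Finset (Fin j)) : Γ.k A P ≤ P.card := by
  unfold k
  rw [← Finset.card_union_of_disjoint]
  · exact card_le_card (union_subset (filter_subset _ _) (filter_subset _ _))
  · rw [Finset.disjoint_left]
    intro i h1 h2
    exact Γ.ne i ((mem_filter.1 h1).2.trans (mem_filter.1 h2).2.symm)

theorem mem_used {A : Fin D} {P : Finset (Fin j)} : A ∈ Γ.used P ↔ ∃ i ∈ P, Γ.src i = A ∨ Γ.tgt i = A := by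
  unfold used k
  simp only [mem_filter, mem_univ, true_and, Nat.add_pos_iff_pos_or_pos, card_pos]
  constructor
  · rintro (⟨i, hi⟩ | ⟨i, hi⟩)
    · exact ⟨i, (mem_filter.1 hi).1, Or.inl (mem_filter.1 hi).2⟩
    · exact ⟨i, (mem_filter.1 hi).1, Or.inr (mem_filter.1 hi).2⟩
  · rintro ⟨i, hi, h | h⟩
    · exact Or.inl ⟨i, mem_filter.2 ⟨hi, h⟩⟩
    · exact Or.inr ⟨i, mem_filter.2 ⟨hi, h⟩⟩

theorem used_eq (P : Finset (Fin j)) : Γ.used P = P.image Γ.src ∪ P.image Γ.tgt := by
  ext A
  rw [mem_used, mem_union, mem_image, mem_image]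
  constructor
  · rintro ⟨i, hi, h | h⟩
    · exact Or.inl ⟨i, hi, h⟩
    · exact Or.inr ⟨i, hi, h⟩
  · rintro (⟨i, hi, h⟩ | ⟨i, hi, h⟩)
    · exact ⟨i, hi, Or.inl h⟩
    · exact ⟨i, hi, Or.inr h⟩

theorem used_mono {P P' : Finset (Fin j)} (h : P ⊆ P') : Γ.used P ⊆ Γ.used P' := by
  intro A hA
  obtain ⟨i, hi, h'⟩ := Γ.mem_used.1 hA
  exact Γ.mem_used.2 ⟨i, h hi, h'⟩

theorem two_le_used {P : Finset (Fin j)} (hP : P.Nonempty) : 2 ≤ (Γ.used P).card := by
  obtain ⟨i, hi⟩ := hP
  have h1 : Γ.src i ∈ Γ.used P := Γ.mem_used.2 ⟨i, hi, Or.inl rfl⟩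
  have h2 : Γ.tgt i ∈ Γ.used P := Γ.mem_used.2 ⟨i, hi, Or.inr rfl⟩
  have : ({Γ.src i, Γ.tgt i} : Finset (Fin D)) ⊆ Γ.used P := by
    intro x hx
    rcases mem_insert.1 hx with rfl | hx
    · exact h1
    · rw [mem_singleton.1 hx]; exact h2
  calc 2 = ({Γ.src i, Γ.tgt i} : Finset (Fin D)).card := (card_pair (Γ.ne i)).symm
    _ ≤ _ := card_le_card this

theorem used_card_le (P : Finset (Fin j)) : (Γ.used P).card ≤ 2 * P.card := by
  rw [used_eq]
  calc _ ≤ (P.image Γ.src).card + (P.image Γ.tgt).card := card_union_le _ _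
    _ ≤ P.card + P.card := Nat.add_le_add card_image_le card_image_le
    _ = 2 * P.card := by ring

theorem used_univ : Γ.used univ = univ := by
  ext A
  simp only [mem_univ, iff_true]
  obtain ⟨i, hi⟩ := Γ.surj A
  exact Γ.mem_used.2 ⟨i, mem_univ i, hi⟩

theorem used_univ_card : (Γ.used univ).card = D := by
  rw [used_univ]; simp

theorem dpi_top : Γ.dpi {univ} = D := by
  unfold dpi; rw [sum_singleton, used_univ_card]

theorem one_le_k_univ (A : Fin D) : 1 ≤ Γ.k A univ := by
  have : A ∈ Γ.used univ := by rw [used_univ]; exact mem_univ A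
  exact (mem_filter.1 this).2

theorem k_univ_le (A : Fin D) : Γ.k A univ ≤ j := by
  simpa using Γ.k_le A univ

theorem two_mul_card_le_dpi {s : Finset (Fin j)} (π : Finpartition s) : 2 * π.parts.card ≤ Γ.dpi π.parts := by
  unfold dpi
  calc 2 * π.parts.card = ∑ _P ∈ π.parts, 2 := by simp [mul_comm]
    _ ≤ _ := Finset.sum_le_sum fun P hP => Γ.two_le_used (π.nonempty_of_mem_parts hP)

theorem dpi_le {s : Finset (Fin j)} (π : Finpartition s) : Γ.dpi π.parts ≤ 2 * s.card := by
  unfold dpi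
  calc _ ≤ ∑ P ∈ π.parts, 2 * P.card := Finset.sum_le_sum fun P _ => Γ.used_card_le P
    _ = 2 * s.card := by rw [← Finset.mul_sum, π.sum_card_parts]

/-- a partition with at least two parts has `D_π ≥ 4` -/
theorem four_le_dpi {s : Finset (Fin j)} (hs : s.Nonempty) (π : Finpartition s) (h : π ≠ ⊤) :
    4 ≤ Γ.dpi π.parts := by
  have h1 := l9_two_le_card_parts hs π h
  have h2 := Γ.two_mul_card_le_dpi π
  omega

/-- every block is counted at least once -/
theorem D_le_dpi (π : Finpartition (univ : Finset (Fin j))) : D ≤ Γ.dpi π.parts := by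
  unfold dpi
  have h : (univ : Finset (Fin D)) ⊆ π.parts.biUnion Γ.used := by
    intro A _
    obtain ⟨i, hi⟩ := Γ.surj A
    obtain ⟨P, hP, hiP⟩ := π.exists_mem (mem_univ i)
    exact mem_biUnion.2 ⟨P, hP, Γ.mem_used.2 ⟨i, hiP, hi⟩⟩
  calc D = (univ : Finset (Fin D)).card := by simp
    _ ≤ (π.parts.biUnion Γ.used).card := card_le_card h
    _ ≤ _ := card_biUnion_le

include Γ in
theorem two_le_D (hj : 0 < j) : 2 ≤ D := by
  have := Γ.two_le_used (P := univ) ⟨⟨0, hj⟩, mem_univ _⟩
  rwa [used_univ_card] at this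

include Γ in
theorem D_le : D ≤ 2 * j := by
  have := Γ.used_card_le univ
  rwa [used_univ_card, card_univ, Fintype.card_fin] at this

/-- two blocks: every edge joins them, both have the degree `|P|` -/
theorem k_of_two (hD : D = 2) (A : Fin D) (P : Finset (Fin j)) : Γ.k A P = P.card := by
  subst hD
  refine le_antisymm (Γ.k_le A P) ?_
  unfold k
  rw [← Finset.card_union_of_disjoint]
  · refine card_le_card fun i hi => ?_
    rw [mem_union, mem_filter, mem_filter]
    by_cases h : Γ.src i = A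
    · exact Or.inl ⟨hi, h⟩
    · refine Or.inr ⟨hi, ?_⟩
      have h1 := Γ.ne i
      revert h h1
      generalize Γ.src i = x
      generalize Γ.tgt i = y
      revert x y A
      decide
  · rw [Finset.disjoint_left]
    intro i h1 h2
    exact Γ.ne i ((mem_filter.1 h1).2.trans (mem_filter.1 h2).2.symm)

/-- `j = 3`: a block of even degree has the degree two -/
theorem k_three (Γ : L9Gr 3 D) (A : Fin D) : Γ.k A univ = 2 ∨ Odd (Γ.k A univ) := by
  have h1 := Γ.one_le_k_univ A
  have h2 := Γ.k_univ_le A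
  generalize Γ.k A univ = n at h1 h2
  interval_cases n
  · exact Or.inr (by decide)
  · exact Or.inl rfl
  · exact Or.inr (by decide)

/-! ### the internal coefficient (E5) -/

/-- (E5): `∑_π (-1)^(|π|-1) (|π|-1)! c^(D_π) ∏_{P ∈ π} E P` -/
noncomputable def IG (c : ℝ) (E : Finset (Fin j) → ℝ) : ℝ :=
  ∑ π : Finpartition (univ : Finset (Fin j)),
    (-1 : ℝ) ^ (π.parts.card - 1) * ((π.parts.card - 1).factorial : ℝ) * c ^ Γ.dpi π.parts * ∏ P ∈ π.parts, E P

/-- (E5) is the joint cumulant of the moments `c^(#used P) E P` -/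
theorem IG_eq_cum (c : ℝ) (E : Finset (Fin j) → ℝ) :
    Γ.IG c E = l9Cum (fun P => c ^ (Γ.used P).card * E P) univ := by
  rw [l9Cum_eq_sum]
  unfold IG dpi
  refine Finset.sum_congr rfl fun π _ => ?_
  rw [Finset.prod_mul_distrib, Finset.prod_pow_eq_pow_sum]
  ring

/-- one part + the others -/
theorem IG_top (hj : 0 < j) (c : ℝ) (E : Finset (Fin j) → ℝ) :
    Γ.IG c E = c ^ D * E univ + ∑ π ∈ (Finset.univ : Finset (Finpartition (univ : Finset (Fin j)))).erase ⊤,
      (-1 : ℝ) ^ (π.parts.card - 1) * ((π.parts.card - 1).factorial : ℝ) * c ^ Γ.dpi π.parts * ∏ P ∈ π.parts, E P := by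
  unfold IG
  have hs : (univ : Finset (Fin j)).Nonempty := ⟨⟨0, hj⟩, mem_univ _⟩
  rw [← Finset.add_sum_erase _ _ (mem_univ (⊤ : Finpartition (univ : Finset (Fin j)))), l9_top_parts hs, dpi_top]
  simp

/-- the partitions with at least two parts carry `c^4` -/
theorem IG_sub_top_le (hj : 0 < j) {c : ℝ} (hc0 : 0 ≤ c) (hc1 : c ≤ 1) (E : Finset (Fin j) → ℝ) (B : ℝ)
    (hB : ∀ π : Finpartition (univ : Finset (Fin j)), ∏ P ∈ π.parts, |E P| ≤ B) :
    |Γ.IG c E - c ^ D * E univ| ≤ l9CumC (univ : Finset (Fin j)) * (c ^ 4 * B) := by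
  have hs : (univ : Finset (Fin j)).Nonempty := ⟨⟨0, hj⟩, mem_univ _⟩
  rw [Γ.IG_top hj, add_sub_cancel_left]
  have hB0 : 0 ≤ B := le_trans (Finset.prod_nonneg fun _ _ => abs_nonneg _) (hB ⊤)
  calc _ ≤ ∑ π ∈ (Finset.univ : Finset (Finpartition (univ : Finset (Fin j)))).erase ⊤,
        ((π.parts.card - 1).factorial : ℝ) * (c ^ 4 * B) := by
        refine (Finset.abs_sum_le_sum_abs _ _).trans (Finset.sum_le_sum fun π hπ => ?_)
        rw [abs_mul, abs_mul, abs_mul, abs_pow, abs_neg, abs_one, one_pow, one_mul, Nat.abs_cast, Finset.abs_prod,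
          abs_of_nonneg (pow_nonneg hc0 _), mul_assoc]
        refine mul_le_mul_of_nonneg_left ?_ (Nat.cast_nonneg _)
        refine mul_le_mul (pow_le_pow_of_le_one hc0 hc1 (Γ.four_le_dpi hs π (ne_of_mem_erase hπ))) (hB π)
          (Finset.prod_nonneg fun _ _ => abs_nonneg _) (pow_nonneg hc0 _)
    _ ≤ ∑ π : Finpartition (univ : Finset (Fin j)), ((π.parts.card - 1).factorial : ℝ) * (c ^ 4 * B) := by
        refine Finset.sum_le_sum_of_subset_of_nonneg (erase_subset _ _) fun π _ _ => ?_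
        exact mul_nonneg (Nat.cast_nonneg _) (mul_nonneg (pow_nonneg hc0 _) hB0)
    _ = _ := by
        unfold l9CumC l9PS
        rw [Finset.sum_mul]

end L9Gr

theorem l9_blockgr_eqns_cite : True := by
  have := @L9Gr.k.eq_1
  have := @L9Gr.used.eq_1
  have := @L9Gr.dpi.eq_1
  have := @L9Gr.IG.eq_1
  trivial

end Claimed.Agent.R286
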