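import Claimed.Agent.R286.L09.K16
import Claimed.Agent.R286.L09.BlockGr

/-!
# Row 286, LL Section 9: the internal coefficient `L14Gr.coef` (E5) through the partition kit      (helper271; paper free)

* `L14Gr.toL9`, `deg_eq_k`      : 242's block graphs are the `L9Gr` of `BlockGr.lean`: all the facts on `k`, `used`, `dpi` apply;
* `coef_eq_cum`                 : `Γ.coef L c s = l9Cum (Γ.mom L c s) univ`;
* `coef_two, coef_three, coef_four` : explicit formulas;      `coef_top` : one part + the partitions with `≥ 2` parts;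
* `L14Sk.Elow_cst_mul`          : constants come out of `E_low` (one factor per block of the skeleton);
* `mom_eq_pow`                  : `mom P = c^(#used P) E_low ∏_A s_{k_{A,P}}`, hence `∏_{P ∈ π} mom P = c^(D_π) ∏ ..` (`prod_mom_eq_pow`);
* `l14_K2_pf`, `l14_K3_pf`      : the contracts K2 (crude bound of a tree) and K3 (collapse of the forks of mass `≤ h`) of `Stm.lean`;
  tools `L14Sk.k23_one_le_size, k23_mass_le, k23_amp_nonneg, k23_W_leaf, k23_W_fork, k23_W_mass, k23_Wc_leaf, k23_Wc_fork`.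
-/

set_option autoImplicit false

namespace Claimed.Agent.R286

open Finset

namespace L14Gr

variable {j D : ℕ} (Γ : L14Gr j D)

/-- the same graph in the language of `BlockGr.lean` -/
def toL9 : L9Gr j D where
  src := fun i => (Γ.e i).1
  tgt := fun i => (Γ.e i).2
  ne := Γ.ne
  surj := Γ.used

theorem deg_eq_k (P : Finset (Fin j)) (A : Fin D) : Γ.deg P A = Γ.toL9.k A P := rfl

variable {bd : L14Bd} {𝕂 𝓕 : Type} [CommRing 𝕂] [CommRing 𝓕]

/-- (E5) is a joint cumulant -/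
theorem coef_eq_cum (L : L14Calc bd 𝕂 𝓕) (c : ℝ) (s : L14Sk D) :
    Γ.coef L c s = l9Cum (Γ.mom L c s) univ := by
  rw [l9Cum_eq_sum]
  unfold coef
  refine Finset.sum_congr rfl fun π _ => ?_
  rw [map_mul, map_pow, map_neg, map_one, map_natCast]

theorem coef_top (hj : 0 < j) (L : L14Calc bd 𝕂 𝓕) (c : ℝ) (s : L14Sk D) :
    Γ.coef L c s = Γ.mom L c s univ +
      ∑ π ∈ (Finset.univ : Finset (Finpartition (univ : Finset (Fin j)))).erase ⊤,
        (-1 : 𝕂) ^ (π.parts.card - 1) * ((π.parts.card - 1).factorial : 𝕂) * ∏ P ∈ π.parts, Γ.mom L c s P := by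
  rw [coef_eq_cum, l9Cum_top _ ⟨⟨0, hj⟩, mem_univ _⟩]

theorem coef_two (Γ : L14Gr 2 D) (L : L14Calc bd 𝕂 𝓕) (c : ℝ) (s : L14Sk D) :
    Γ.coef L c s = Γ.mom L c s {0, 1} - Γ.mom L c s {0} * Γ.mom L c s {1} := by
  have h : (univ : Finset (Fin 2)) = {0, 1} := by decide
  rw [coef_eq_cum, h, l9Cum_two _ (by decide)]

theorem coef_three (Γ : L14Gr 3 D) (L : L14Calc bd 𝕂 𝓕) (c : ℝ) (s : L14Sk D) :
    Γ.coef L c s = Γ.mom L c s {0, 1, 2} - Γ.mom L c s {0, 1} * Γ.mom L c s {2}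
      - Γ.mom L c s {0, 2} * Γ.mom L c s {1} - Γ.mom L c s {0} * Γ.mom L c s {1, 2}
      + 2 * (Γ.mom L c s {0} * Γ.mom L c s {1} * Γ.mom L c s {2}) := by
  have h : (univ : Finset (Fin 3)) = {0, 1, 2} := by decide
  rw [coef_eq_cum, h, l9Cum_three _ (by decide) (by decide) (by decide)]

theorem coef_four (Γ : L14Gr 4 D) (L : L14Calc bd 𝕂 𝓕) (c : ℝ) (s : L14Sk D) :
    Γ.coef L c s = Γ.mom L c s {0, 1, 2, 3}
      - Γ.mom L c s {0, 1, 2} * Γ.mom L c s {3} - Γ.mom L c s {0, 1, 3} * Γ.mom L c s {2}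
      - Γ.mom L c s {0, 2, 3} * Γ.mom L c s {1} - Γ.mom L c s {0} * Γ.mom L c s {1, 2, 3}
      - Γ.mom L c s {0, 1} * Γ.mom L c s {2, 3} - Γ.mom L c s {0, 2} * Γ.mom L c s {1, 3}
      - Γ.mom L c s {0, 3} * Γ.mom L c s {1, 2}
      + 2 * (Γ.mom L c s {0, 1} * Γ.mom L c s {2} * Γ.mom L c s {3} + Γ.mom L c s {0, 2} * Γ.mom L c s {1} * Γ.mom L c s {3}
        + Γ.mom L c s {0, 3} * Γ.mom L c s {1} * Γ.mom L c s {2} + Γ.mom L c s {0} * Γ.mom L c s {1} * Γ.mom L c s {2, 3}
        + Γ.mom L c s {0} * Γ.mom L c s {2} * Γ.mom L c s {1, 3} + Γ.mom L c s {0} * Γ.mom L c s {3} * Γ.mom L c s {1, 2})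
      - 6 * (Γ.mom L c s {0} * Γ.mom L c s {1} * Γ.mom L c s {2} * Γ.mom L c s {3}) := by
  have h : (univ : Finset (Fin 4)) = {0, 1, 2, 3} := by decide
  rw [coef_eq_cum, h, l9Cum_four _ (by decide) (by decide) (by decide) (by decide) (by decide) (by decide)]

end L14Gr

namespace L14Sk

variable {D : ℕ} {bd : L14Bd} {𝕂 𝓕 : Type} [CommRing 𝕂] [CommRing 𝓕]

/-- constants come out of `Ψ` -/
theorem Psi_cst_mul (L : L14Calc bd 𝕂 𝓕) (c : ℝ) (x : Fin D → 𝕂) (φ : Fin D → 𝓕) (s : L14Sk D) (hs : s.Ok c) :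
    s.Psi L c (fun A => L.cst (x A) * φ A) = L.cst (∏ A ∈ s.labels, x A) * s.Psi L c φ := by
  induction s with
  | leaf A =>
    show L.cst (x A) * φ A = L.cst (∏ A' ∈ ({A} : Finset (Fin D)), x A') * φ A
    rw [Finset.prod_singleton]
  | fork v l r ihl ihr =>
    obtain ⟨_, _, _, hd, hl, hr⟩ := hs
    show L.T v (l.mass c) (l.Psi L c fun A => L.cst (x A) * φ A) * L.T v (r.mass c) (r.Psi L c fun A => L.cst (x A) * φ A)
      = L.cst (∏ A ∈ l.labels ∪ r.labels, x A) * (L.T v (l.mass c) (l.Psi L c φ) * L.T v (r.mass c) (r.Psi L c φ))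
    rw [ihl hl, ihr hr, L.T_cst_mul, L.T_cst_mul, Finset.prod_union hd, map_mul]
    ring

/-- constants come out of `E_low`: one factor for each block of the skeleton -/
theorem Elow_cst_mul (L : L14Calc bd 𝕂 𝓕) (c : ℝ) (x : Fin D → 𝕂) (φ : Fin D → 𝓕) (s : L14Sk D) (hs : s.Ok c) :
    s.Elow L c (fun A => L.cst (x A) * φ A) = (∏ A ∈ s.labels, x A) * s.Elow L c φ := by
  unfold Elow W
  rw [Psi_cst_mul L c x φ s hs, L.T_cst_mul, map_mul, L.ev_cst]

end L14Sk

namespace L14Calc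

variable {bd : L14Bd} {𝕂 𝓕 : Type} [CommRing 𝕂] [CommRing 𝓕] (L : L14Calc bd 𝕂 𝓕)

/-- the normalised source sum `s_k` at the cut (`1` for `k = 0`) -/
def sn (c : ℝ) : ℕ → 𝓕
  | 0 => 1
  | k + 1 => L.st c k c

theorem sig_eq (c : ℝ) (k : ℕ) : L.sig c k = L.cst (if k = 0 then 1 else L.re c) * L.sn c k := by
  cases k with
  | zero =>
    show (1 : 𝓕) = L.cst (if 0 = 0 then 1 else L.re c) * 1
    simp
  | succ k =>
    show L.cst (L.re c) * L.st c k c = L.cst (if k + 1 = 0 then 1 else L.re c) * L.st c k c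
    simp

end L14Calc

namespace L14Gr

variable {j D : ℕ} (Γ : L14Gr j D) {bd : L14Bd} {𝕂 𝓕 : Type} [CommRing 𝕂] [CommRing 𝓕]

/-- `mom P = c^(#used P) E_low ∏_A s_{k_{A,P}}(ζ^A_c)` on a skeleton which carries all the blocks -/
theorem mom_eq_pow (L : L14Calc bd 𝕂 𝓕) (c : ℝ) (s : L14Sk D) (hs : s.Ok c) (hl : s.labels = univ)
    (P : Finset (Fin j)) :
    Γ.mom L c s P = L.re c ^ (Γ.toL9.used P).card * s.Elow L c (fun A => L.sn c (Γ.deg P A)) := by
  unfold mom
  have h1 : (fun A => L.sig c (Γ.deg P A))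
      = fun A => L.cst (if Γ.deg P A = 0 then 1 else L.re c) * L.sn c (Γ.deg P A) := by
    funext A; exact L.sig_eq c _
  rw [h1, L14Sk.Elow_cst_mul L c _ _ s hs, hl]
  congr 1
  rw [Finset.prod_ite, Finset.prod_const_one, one_mul, Finset.prod_const]
  congr 2
  ext A
  rw [mem_filter, L9Gr.used, mem_filter, deg_eq_k]
  simp only [mem_univ, true_and]
  exact Nat.pos_iff_ne_zero.symm

/-- `∏_{P ∈ π} mom P = c^(D_π) ∏_{P ∈ π} E_low ∏_A s_{k_{A,P}}` -/
theorem prod_mom_eq_pow (L : L14Calc bd 𝕂 𝓕) (c : ℝ) (s : L14Sk D) (hs : s.Ok c) (hl : s.labels = univ)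
    (Q : Finset (Finset (Fin j))) :
    ∏ P ∈ Q, Γ.mom L c s P
      = L.re c ^ Γ.toL9.dpi Q * ∏ P ∈ Q, s.Elow L c (fun A => L.sn c (Γ.deg P A)) := by
  rw [Finset.prod_congr rfl fun P _ => Γ.mom_eq_pow L c s hs hl P, Finset.prod_mul_distrib,
    Finset.prod_pow_eq_pow_sum]
  rfl

theorem l14_skelcum_eqns_cite : True := by
  have := @L14Gr.toL9.eq_1
  have := @L14Calc.sn.eq_1
  have := @L14Calc.sn.eq_2
  have := @L14Calc.sn.eq_def
  trivial

end L14Gr

/-! ### the contracts K2 and K3 -/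

namespace L14Sk

variable {D : ℕ}

theorem k23_one_le_size (s : L14Sk D) : 1 ≤ s.size := by
  induction s with
  | leaf A => exact le_refl 1
  | fork v l r ihl ihr =>
    show 1 ≤ l.size + r.size
    omega

theorem k23_mass_le {c : ℝ} (s : L14Sk D) (h : s.Ok c) : s.mass c ≤ c := by
  induction s with
  | leaf A => exact le_refl c
  | fork v l r ihl ihr =>
    obtain ⟨_, h1, _, _, h2, _⟩ := h
    exact le_trans h1 (ihl h2)

theorem k23_amp_nonneg {K : Fin D → ℝ} (hK : ∀ A, 0 ≤ K A) (s : L14Sk D) : 0 ≤ s.amp K := by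
  induction s with
  | leaf A => exact hK A
  | fork v l r ihl ihr => exact mul_nonneg ihl ihr

variable {bd : L14Bd} {𝕂 𝓕 : Type} [CommRing 𝕂] [CommRing 𝓕]

theorem k23_W_leaf (L : L14Calc bd 𝕂 𝓕) (c : ℝ) (φ : Fin D → 𝓕) (A : Fin D) (u : ℝ) :
    (leaf A : L14Sk D).W L c φ u = L.T u c (φ A) := rfl

theorem k23_W_fork (L : L14Calc bd 𝕂 𝓕) (c : ℝ) (φ : Fin D → 𝓕) (v : ℝ) (l r : L14Sk D) (u : ℝ) :
    (fork v l r).W L c φ u = L.T u v (l.W L c φ v * r.W L c φ v) := rfl

theorem k23_W_mass (L : L14Calc bd 𝕂 𝓕) (c : ℝ) (φ : Fin D → 𝓕) (s : L14Sk D) :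
    s.W L c φ (s.mass c) = s.Psi L c φ := L.T_refl _ _

theorem k23_Wc_leaf (L : L14Calc bd 𝕂 𝓕) (c : ℝ) (φ : Fin D → 𝓕) (h : ℝ) (A : Fin D) (u : ℝ) :
    (leaf A : L14Sk D).Wc L c φ h u = (leaf A : L14Sk D).W L c φ u := rfl

theorem k23_Wc_fork (L : L14Calc bd 𝕂 𝓕) (c : ℝ) (φ : Fin D → 𝓕) (h v : ℝ) (l r : L14Sk D) (u : ℝ) :
    (fork v l r).Wc L c φ h u =
      if v ≤ h then l.Wc L c φ h u * r.Wc L c φ h u else (fork v l r).W L c φ u := rfl

end L14Sk

open L14Sk in
theorem l14_K2_pf : l14_K2 := by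
  intro bd k n
  induction n with
  | zero =>
    refine ⟨0, le_refl 0, ?_⟩
    intro 𝕂 𝓕 _ _ L D c φ K s hs
    have := s.k23_one_le_size
    omega
  | succ n ih =>
    obtain ⟨C, hC, ih⟩ := ih
    have hb := bd.C_nonneg k
    refine ⟨bd.C k + bd.C k * (bd.C k * (C * C)), by positivity, ?_⟩
    intro 𝕂 𝓕 _ _ L D c φ K s hs hok hc hφ u hu hum
    have hK : ∀ A, 0 ≤ K A := fun A => L.B_nonneg (hφ A)
    cases s with
    | leaf A =>
      rw [k23_W_leaf]
      refine L.B_mono ?_ (L.T_B u c hu hum hc (hφ A))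
      show bd.C k * K A ≤ (bd.C k + bd.C k * (bd.C k * (C * C))) * K A
      have : 0 ≤ bd.C k * (bd.C k * (C * C)) * K A := mul_nonneg (by positivity) (hK A)
      nlinarith
    | fork v l r =>
      obtain ⟨hv, hvl, hvr, _, hl, hr⟩ := hok
      have hs' : l.size + r.size ≤ n + 1 := hs
      have h1 := l.k23_one_le_size
      have h2 := r.k23_one_le_size
      have hum' : u ≤ v := hum
      have hvc : v ≤ bd.c0 := le_trans hvl (le_trans (l.k23_mass_le hl) hc)
      have bl := ih 𝕂 𝓕 L D c φ K l (by omega) hl hc hφ v hv hvl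
      have br := ih 𝕂 𝓕 L D c φ K r (by omega) hr hc hφ v hv hvr
      rw [k23_W_fork]
      refine L.B_mono ?_ (L.T_B u v hu hum' hvc (L.B_mul bl br))
      show _ ≤ (bd.C k + bd.C k * (bd.C k * (C * C))) * (l.amp K * r.amp K)
      have : 0 ≤ bd.C k * (l.amp K * r.amp K) :=
        mul_nonneg hb (mul_nonneg (k23_amp_nonneg hK l) (k23_amp_nonneg hK r))
      nlinarith

open L14Sk in
theorem l14_K3_pf : l14_K3 := by
  intro bd k n
  obtain ⟨C1, hC1, K1⟩ := l14_K1_pf bd k
  induction n with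
  | zero =>
    refine ⟨0, le_refl 0, ?_⟩
    intro 𝕂 𝓕 _ _ L D c h φ K s hs
    have := s.k23_one_le_size
    omega
  | succ n ih =>
    obtain ⟨C3, hC3, ih⟩ := ih
    obtain ⟨C2, hC2, K2⟩ := l14_K2_pf bd (k + 1) n
    have hb := bd.C_nonneg k
    refine ⟨C1 * (C2 * C2) + bd.C k * (C3 * C2) + bd.C k * (C2 * C3)
      + bd.C k * (bd.C k * (C3 * C3)), by positivity, ?_⟩
    intro 𝕂 𝓕 _ _ L D c h φ K s hs hok hc hh hh1 hφ u hu hum
    have hK : ∀ A, 0 ≤ K A := fun A => L.B_nonneg (hφ A)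
    have hz : ∀ x : 𝓕, L.B k ((C1 * (C2 * C2) + bd.C k * (C3 * C2) + bd.C k * (C2 * C3)
      + bd.C k * (bd.C k * (C3 * C3))) * (h * s.amp K)) (x - x) := by
      intro x
      rw [sub_self]
      refine L.B_mono ?_ (L.B_zero k)
      have := k23_amp_nonneg hK s
      positivity
    cases s with
    | leaf A =>
      rw [k23_Wc_leaf]
      exact hz _
    | fork v l r =>
      rw [k23_Wc_fork]
      by_cases hvh : v ≤ h
      · rw [if_pos hvh]
        obtain ⟨hv, hvl, hvr, _, hl, hr⟩ := hok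
        have hs' : l.size + r.size ≤ n + 1 := hs
        have h1 := l.k23_one_le_size
        have h2 := r.k23_one_le_size
        have hum' : u ≤ v := hum
        have hlc : l.mass c ≤ bd.c0 := le_trans (l.k23_mass_le hl) hc
        have hrc : r.mass c ≤ bd.c0 := le_trans (r.k23_mass_le hr) hc
        have al := k23_amp_nonneg hK l
        have ar := k23_amp_nonneg hK r
        -- level `k+1` bounds of the two `Ψ`
        have pl := K2 𝕂 𝓕 L D c φ K l (by omega) hl hc hφ (l.mass c) (le_trans hv hvl) (le_refl _)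
        have pr := K2 𝕂 𝓕 L D c φ K r (by omega) hr hc hφ (r.mass c) (le_trans hv hvr) (le_refl _)
        rw [k23_W_mass] at pl pr
        -- level `k` bounds of `W` at `u`
        have wl := L.B_down (K2 𝕂 𝓕 L D c φ K l (by omega) hl hc hφ u hu (le_trans hum' hvl))
        have wr := L.B_down (K2 𝕂 𝓕 L D c φ K r (by omega) hr hc hφ u hu (le_trans hum' hvr))
        -- induction hypothesis
        have dl := ih 𝕂 𝓕 L D c h φ K l (by omega) hl hc hh hh1 hφ u hu (le_trans hum' hvl)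
        have dr := ih 𝕂 𝓕 L D c h φ K r (by omega) hr hc hh hh1 hφ u hu (le_trans hum' hvr)
        have X := K1 𝕂 𝓕 L u v (l.mass c) (r.mass c) _ _ _ _ hu hum' hvl hvr hlc hrc pl pr
        have Y := L.B_mul dl wr
        have Z := L.B_mul wl dr
        have V := L.B_neg (L.B_mul dl dr)
        have S := L.B_add (L.B_add (L.B_add X Y) Z) V
        have e : (fork v l r).W L c φ u - l.Wc L c φ h u * r.Wc L c φ h u
            = L.T u v (L.T v (l.mass c) (l.Psi L c φ) * L.T v (r.mass c) (r.Psi L c φ))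
                - L.T u (l.mass c) (l.Psi L c φ) * L.T u (r.mass c) (r.Psi L c φ)
              + (l.W L c φ u - l.Wc L c φ h u) * r.W L c φ u
              + l.W L c φ u * (r.W L c φ u - r.Wc L c φ h u)
              + -((l.W L c φ u - l.Wc L c φ h u) * (r.W L c φ u - r.Wc L c φ h u)) := by
          have e1 : (fork v l r).W L c φ u
              = L.T u v (L.T v (l.mass c) (l.Psi L c φ) * L.T v (r.mass c) (r.Psi L c φ)) := rfl
          have e2 : L.T u (l.mass c) (l.Psi L c φ) = l.W L c φ u := rfl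
          have e3 : L.T u (r.mass c) (r.Psi L c φ) = r.W L c φ u := rfl
          rw [e1, e2, e3]
          ring
        rw [e]
        refine L.B_mono ?_ S
        show _ ≤ (C1 * (C2 * C2) + bd.C k * (C3 * C2) + bd.C k * (C2 * C3)
          + bd.C k * (bd.C k * (C3 * C3))) * (h * (l.amp K * r.amp K))
        have hvu : v - u ≤ h := by linarith
        have hvu0 : 0 ≤ v - u := by linarith
        have hA : 0 ≤ l.amp K * r.amp K := mul_nonneg al ar
        have t1 : C1 * ((v - u) * (C2 * l.amp K * (C2 * r.amp K)))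
            ≤ C1 * (C2 * C2) * (h * (l.amp K * r.amp K)) := by
          have : C1 * ((v - u) * (C2 * l.amp K * (C2 * r.amp K)))
              = (C1 * (C2 * C2) * (l.amp K * r.amp K)) * (v - u) := by ring
          rw [this]
          have : C1 * (C2 * C2) * (h * (l.amp K * r.amp K))
              = (C1 * (C2 * C2) * (l.amp K * r.amp K)) * h := by ring
          rw [this]
          exact mul_le_mul_of_nonneg_left hvu (by positivity)
        have t4 : bd.C k * (bd.C k * (C3 * (h * l.amp K) * (C3 * (h * r.amp K))))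
            ≤ bd.C k * (bd.C k * (C3 * C3)) * (h * (l.amp K * r.amp K)) := by
          have : bd.C k * (bd.C k * (C3 * (h * l.amp K) * (C3 * (h * r.amp K))))
              = (bd.C k * (bd.C k * (C3 * C3)) * (h * (l.amp K * r.amp K))) * h := by ring
          rw [this]
          exact mul_le_of_le_one_right (by positivity) hh1
        have t2 : bd.C k * (C3 * (h * l.amp K) * (C2 * r.amp K))
            = bd.C k * (C3 * C2) * (h * (l.amp K * r.amp K)) := by ring
        have t3 : bd.C k * (C2 * l.amp K * (C3 * (h * r.amp K)))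
            = bd.C k * (C2 * C3) * (h * (l.amp K * r.amp K)) := by ring
        rw [t2, t3]
        linarith
      · rw [if_neg hvh]
        exact hz _

end Claimed.Agent.R286
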