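/-
Row 286 (S0533), package L14 = LL 09-expansion l.493-888.      OWNER: helper242 (ADV helper285).

ABSTRACT LOW-MASS CALCULUS.   Mathlib only.

`L14Calc bd 𝕂 𝓕` = everything the proof of Prop. 9.3 (scalar compression at a fixed cut) uses of the
scalar reference near mass `0`:
* `𝕂` "numbers", `𝓕` "functions of the field `z`" (commutative rings), `cst : 𝕂 → 𝓕`, `ev : 𝓕 → 𝕂`
  (value at `z = 0`), `D` (`∂_z`), `sg` (`z ↦ -z`);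
* `nrm` on `𝕂`, graded bounds `B k K φ` on `𝓕`;
* `kap u = t'(u)`, jets `g j u = ∂_z^j G(u,·)`, transition operators `T u v`;
* `Gen a b f h` : "`(∂_u + L_u) f = h` on `[a,b]`", `L_u = ½ t' ∂_zz + μ(u) t' G_z ∂_z`;
  `μ(u) = mu u` = drift mass, `u ≤ μ(u) ≤ u + eps` (v2, attack of 285 / 288 / 120: `μ(u) = u`, `eps = 0` for a continuous clock;
  FILLED STEP MODEL: `μ(u)` = next grid mass, `eps` = mesh, `∂_u G = -½ t' (G_zz + μ(u) G_z²)`);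
* two forms of the Dynkin formula: `dynB` (graded bound), `dynE` (at the root `u = 0`, `z = 0`).

TWO intended models:
 (1) ONE reference:  `𝕂 = ℝ`, `𝓕 = C_b^∞(ℝ)`, `B k K φ = ∀ i ≤ k+2, sup |φ^(i)| ≤ K`;
 (2) TWO references at distance `δ` (this gives the parameter derivatives, the `O_*` of the paper, in
     Lipschitz form): `𝕂 = ℝ × ℝ`, `nrm (x,x') = max |x| |x'| + |x - x'| / δ`, `𝓕 = C_b^∞ × C_b^∞`,
     `B k K (φ,φ')` = (1) for both and `∀ i ≤ k, |(φ - φ')^(i) z| ≤ δ K (1+|z|)^m`.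
No positivity, no moments, no path space are used.
-/
import Mathlib

set_option autoImplicit false

namespace Claimed.Agent.R286

/-- uniform constants of a low-mass calculus. -/
structure L14Bd where
  /-- upper end of the regular low region -/
  c0 : ℝ
  /-- `C n` bounds every constant of level / order `≤ n` -/
  C : ℕ → ℝ
  c0_pos : 0 < c0
  c0_le : c0 ≤ 1
  C_ge : ∀ n, 1 ≤ C n
  C_mono : Monotone C

/-- the abstract low-mass calculus (see the header). -/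
structure L14Calc (bd : L14Bd) (𝕂 𝓕 : Type) [CommRing 𝕂] [CommRing 𝓕] where
  /-- real numbers (masses) as numbers -/
  re : ℝ →+* 𝕂
  /-- numbers as constant functions -/
  cst : 𝕂 →+* 𝓕
  /-- size of a number -/
  nrm : 𝕂 → ℝ
  nrm_nonneg : ∀ x, 0 ≤ nrm x
  nrm_add : ∀ x y, nrm (x + y) ≤ nrm x + nrm y
  nrm_mul : ∀ x y, nrm (x * y) ≤ nrm x * nrm y
  nrm_re : ∀ r, nrm (re r) ≤ |r|
  /-- `B k K φ`: the level `k` size of `φ` is at most `K` -/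
  B : ℕ → ℝ → 𝓕 → Prop
  B_nonneg : ∀ {k : ℕ} {K : ℝ} {φ : 𝓕}, B k K φ → 0 ≤ K
  B_mono : ∀ {k : ℕ} {K K' : ℝ} {φ : 𝓕}, K ≤ K' → B k K φ → B k K' φ
  B_down : ∀ {k : ℕ} {K : ℝ} {φ : 𝓕}, B (k + 1) K φ → B k K φ
  B_add : ∀ {k : ℕ} {K K' : ℝ} {φ ψ : 𝓕}, B k K φ → B k K' ψ → B k (K + K') (φ + ψ)
  B_mul : ∀ {k : ℕ} {K K' : ℝ} {φ ψ : 𝓕}, B k K φ → B k K' ψ → B k (bd.C k * (K * K')) (φ * ψ)
  B_cst : ∀ (k : ℕ) (x : 𝕂), B k (nrm x) (cst x)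
  /-- `∂_z` -/
  D : 𝓕 → 𝓕
  D_add : ∀ φ ψ, D (φ + ψ) = D φ + D ψ
  D_mul : ∀ φ ψ, D (φ * ψ) = φ * D ψ + D φ * ψ
  D_cst : ∀ x, D (cst x) = 0
  B_D : ∀ {k : ℕ} {K : ℝ} {φ : 𝓕}, B (k + 1) K φ → B k (bd.C k * K) (D φ)
  /-- value at `z = 0` -/
  ev : 𝓕 →+* 𝕂
  ev_cst : ∀ x, ev (cst x) = x
  ev_B : ∀ {K : ℝ} {φ : 𝓕}, B 0 K φ → nrm (ev φ) ≤ bd.C 0 * K
  /-- reflection `z ↦ -z` -/
  sg : 𝓕 →+* 𝓕
  sg_cst : ∀ x, sg (cst x) = cst x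
  ev_sg : ∀ φ, ev (sg φ) = ev φ
  sg_D : ∀ φ, sg (D φ) = - D (sg φ)
  /-- mesh of the mass grid (`0` for a continuous clock) -/
  eps : ℝ
  eps_nonneg : 0 ≤ eps
  eps_le : eps ≤ 1
  /-- drift mass at the label `u` (`u` itself for a continuous clock, the NEXT grid mass for a filled step model) -/
  mu : ℝ → ℝ
  mu_ge : ∀ u, 0 ≤ u → u ≤ bd.c0 → u ≤ mu u
  mu_le : ∀ u, 0 ≤ u → u ≤ bd.c0 → mu u ≤ u + eps
  /-- clock speed `t'(u)` -/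
  kap : ℝ → 𝕂
  kap_bd : ∀ u, 0 ≤ u → u ≤ bd.c0 → nrm (kap u) ≤ bd.C 0
  kap_lip : ∀ u, 0 ≤ u → u ≤ bd.c0 → nrm (kap u - kap 0) ≤ bd.C 0 * (u + eps)
  /-- jets `∂_z^j G(u,·)` (only `j ≥ 1` is used) -/
  g : ℕ → ℝ → 𝓕
  g_D : ∀ j u, 1 ≤ j → D (g j u) = g (j + 1) u
  g_B : ∀ j k u, 1 ≤ j → 0 ≤ u → u ≤ bd.c0 → B k (bd.C (j + k)) (g j u)
  g_sg : ∀ j u, sg (g j u) = cst (re ((-1) ^ j)) * g j u
  /-- `b∘ = χ⁻²` -/
  bo : 𝕂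
  bo_mul : bo * (ev (g 2 0)) ^ 2 = 1
  bo_bd : nrm bo ≤ bd.C 0
  /-- transition operators of the low prefix field -/
  T : ℝ → ℝ → 𝓕 → 𝓕
  T_add : ∀ u v φ ψ, T u v (φ + ψ) = T u v φ + T u v ψ
  T_cst_mul : ∀ u v x φ, T u v (cst x * φ) = cst x * T u v φ
  T_one : ∀ u v, T u v 1 = 1
  T_refl : ∀ u φ, T u u φ = φ
  T_comp : ∀ u v w φ, 0 ≤ u → u ≤ v → v ≤ w → w ≤ bd.c0 → T u v (T v w φ) = T u w φ
  T_B : ∀ {k : ℕ} {K : ℝ} {φ : 𝓕} (u v : ℝ), 0 ≤ u → u ≤ v → v ≤ bd.c0 →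
    B k K φ → B k (bd.C k * K) (T u v φ)
  T_sg : ∀ u v φ, sg (T u v φ) = T u v (sg φ)
  /-- `Gen a b f h`: `f` is an admissible time dependent function on `[a,b]` and `(∂_u + L_u) f = h` -/
  Gen : ℝ → ℝ → (ℝ → 𝓕) → (ℝ → 𝓕) → Prop
  gen_sub : ∀ {a b a' b' : ℝ} {f h : ℝ → 𝓕}, Gen a b f h → a ≤ a' → a' ≤ b' → b' ≤ b → Gen a' b' f h
  gen_add : ∀ {a b : ℝ} {f h f' h' : ℝ → 𝓕}, Gen a b f h → Gen a b f' h' →
    Gen a b (fun u => f u + f' u) (fun u => h u + h' u)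
  gen_mul : ∀ {a b : ℝ} {f h f' h' : ℝ → 𝓕}, Gen a b f h → Gen a b f' h' →
    Gen a b (fun u => f u * f' u)
      (fun u => f u * h' u + h u * f' u + cst (kap u) * (D (f u) * D (f' u)))
  gen_cst : ∀ (a b : ℝ) (x : 𝕂), 0 ≤ a → a ≤ b → b ≤ bd.c0 → Gen a b (fun _ => cst x) (fun _ => 0)
  gen_time : ∀ (a b : ℝ), 0 ≤ a → a ≤ b → b ≤ bd.c0 → Gen a b (fun u => cst (re u)) (fun _ => 1)
  gen_g1 : ∀ (a b : ℝ), 0 ≤ a → a ≤ b → b ≤ bd.c0 → Gen a b (g 1) (fun _ => 0)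
  gen_D : ∀ {a b : ℝ} {f h : ℝ → 𝓕}, Gen a b f h →
    Gen a b (fun u => D (f u)) (fun u => D (h u) - cst (re (mu u) * kap u) * (g 2 u * D (f u)))
  gen_back : ∀ (a b : ℝ) (φ : 𝓕), 0 ≤ a → a ≤ b → b ≤ bd.c0 → Gen a b (fun u => T u b φ) (fun _ => 0)
  /-- Dynkin formula, graded bound -/
  dynB : ∀ {k : ℕ} {K a b : ℝ} {f h : ℝ → 𝓕}, 0 ≤ a → a ≤ b → b ≤ bd.c0 → Gen a b f h →
    (∀ r, a ≤ r → r ≤ b → B k K (h r)) → B k (bd.C k * ((b - a) * K)) (T a b (f b) - f a)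
  /-- Dynkin formula at the root -/
  dynE : ∀ {K b : ℝ} {f h : ℝ → 𝓕}, 0 ≤ b → b ≤ bd.c0 → Gen 0 b f h →
    (∀ r, 0 ≤ r → r ≤ b → nrm (ev (T 0 r (h r))) ≤ K) →
    nrm (ev (T 0 b (f b)) - ev (f 0)) ≤ bd.C 0 * (b * K)

end Claimed.Agent.R286
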