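/-
Row 286 (S0533), package L14.      OWNER: helper242.
Elementary consequences of `L14Calc` and the UNIFORM `O`-calculus over an index family:
`l14OB L k φ A` : `∃ C ≥ 0, ∀ i, (L i).B k (C * A i) (φ i)`;   `l14ON L x A` : the same for numbers.
-/
import Claimed.Agent.R286.L09.Calc

set_option autoImplicit false

namespace Claimed.Agent.R286

namespace L14Calc

variable {bd : L14Bd} {𝕂 𝓕 : Type} [CommRing 𝕂] [CommRing 𝓕] (L : L14Calc bd 𝕂 𝓕)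

theorem nrm_zero : L.nrm 0 = 0 := by
  have h := L.nrm_re 0
  simp only [map_zero, abs_zero] at h
  exact le_antisymm h (L.nrm_nonneg 0)

theorem nrm_one_le : L.nrm 1 ≤ 1 := by
  have h := L.nrm_re 1
  simpa using h

theorem nrm_neg_le (x : 𝕂) : L.nrm (-x) ≤ L.nrm x := by
  have h := L.nrm_mul (L.re (-1)) x
  have h1 := L.nrm_re (-1)
  have h2 : L.re (-1) * x = -x := by simp
  rw [h2] at h
  have h3 : |(-1 : ℝ)| = 1 := by simp
  rw [h3] at h1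
  nlinarith [L.nrm_nonneg x, L.nrm_nonneg (L.re (-1))]

theorem nrm_sub_le (x y : 𝕂) : L.nrm (x - y) ≤ L.nrm x + L.nrm y := by
  have h := L.nrm_add x (-y)
  have h1 := L.nrm_neg_le y
  rw [sub_eq_add_neg]
  linarith

theorem T_zero (u v : ℝ) : L.T u v 0 = 0 := by
  have h := L.T_cst_mul u v 0 0
  simpa using h

theorem T_neg (u v : ℝ) (φ : 𝓕) : L.T u v (-φ) = - L.T u v φ := by
  have h := L.T_cst_mul u v (-1) φ
  simpa using h

theorem T_sub (u v : ℝ) (φ ψ : 𝓕) : L.T u v (φ - ψ) = L.T u v φ - L.T u v ψ := by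
  rw [sub_eq_add_neg, L.T_add, L.T_neg, ← sub_eq_add_neg]

theorem T_cst (u v : ℝ) (x : 𝕂) : L.T u v (L.cst x) = L.cst x := by
  have h := L.T_cst_mul u v x 1
  simpa [L.T_one] using h

theorem D_zero : L.D 0 = 0 := by
  have h := L.D_cst 0
  simpa using h

theorem D_one : L.D 1 = 0 := by
  have h := L.D_cst 1
  simpa using h

theorem D_cst_mul (x : 𝕂) (φ : 𝓕) : L.D (L.cst x * φ) = L.cst x * L.D φ := by
  rw [L.D_mul, L.D_cst]; ring

theorem D_neg (φ : 𝓕) : L.D (-φ) = - L.D φ := by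
  have h := L.D_cst_mul (-1) φ
  simpa using h

theorem D_sub (φ ψ : 𝓕) : L.D (φ - ψ) = L.D φ - L.D ψ := by
  rw [sub_eq_add_neg, L.D_add, L.D_neg, ← sub_eq_add_neg]

theorem D_sq (φ : 𝓕) : L.D (φ ^ 2) = 2 * φ * L.D φ := by
  rw [sq, L.D_mul]; ring

theorem B_zero (k : ℕ) : L.B k 0 0 := by
  have h := L.B_cst k 0
  simpa [L.nrm_zero] using h

theorem B_one (k : ℕ) : L.B k 1 1 := by
  have h := L.B_cst k 1
  rw [map_one] at h
  exact L.B_mono L.nrm_one_le h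

theorem B_neg {k : ℕ} {K : ℝ} {φ : 𝓕} (h : L.B k K φ) : L.B k (bd.C k * K) (-φ) := by
  have h1 := L.B_mul (L.B_cst k (-1)) h
  have h2 : L.cst (-1) * φ = -φ := by simp
  rw [h2] at h1
  refine L.B_mono ?_ h1
  have h3 : L.nrm (-1) ≤ 1 := le_trans (L.nrm_neg_le 1) L.nrm_one_le
  have h4 := L.B_nonneg h
  have h5 : 0 ≤ bd.C k := le_trans zero_le_one (bd.C_ge k)
  have : L.nrm (-1) * K ≤ 1 * K := mul_le_mul_of_nonneg_right h3 h4
  nlinarith

/-- an odd function vanishes at `0`. -/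
theorem ev_of_odd {φ : 𝓕} (h : L.sg φ = -φ) : L.ev φ = 0 := by
  have h1 := L.ev_sg φ
  rw [h, map_neg] at h1
  have h2 : L.re 2 * L.ev φ = 0 := by
    have : L.re 2 = 2 := map_ofNat L.re 2
    rw [this]
    linear_combination (-1 : 𝕂) * h1
  have h3 : L.re (1 / 2) * (L.re 2 * L.ev φ) = L.ev φ := by
    rw [← mul_assoc, ← map_mul]; norm_num
  rw [← h3, h2, mul_zero]

end L14Calc

/-! ### uniform `O` over a family -/

section fam

variable {bd : L14Bd} {𝕂 𝓕 : Type} [CommRing 𝕂] [CommRing 𝓕] {ι : Type}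

/-- `φ i = O(A i)` at level `k`, uniformly in `i`. -/
def l14OB (L : ι → L14Calc bd 𝕂 𝓕) (k : ℕ) (φ : ι → 𝓕) (A : ι → ℝ) : Prop :=
  ∃ C : ℝ, 0 ≤ C ∧ ∀ i, (L i).B k (C * A i) (φ i)

/-- `x i = O(A i)`, uniformly in `i`. -/
def l14ON (L : ι → L14Calc bd 𝕂 𝓕) (x : ι → 𝕂) (A : ι → ℝ) : Prop :=
  ∃ C : ℝ, 0 ≤ C ∧ ∀ i, (L i).nrm (x i) ≤ C * A i

variable {L : ι → L14Calc bd 𝕂 𝓕} {k : ℕ} {φ ψ : ι → 𝓕} {x y : ι → 𝕂} {A A' : ι → ℝ}

theorem L14Bd.C_nonneg (bd : L14Bd) (n : ℕ) : 0 ≤ bd.C n := le_trans zero_le_one (bd.C_ge n)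

theorem l14OB.congr (h : l14OB L k φ A) (e : ∀ i, φ i = ψ i) : l14OB L k ψ A := by
  obtain ⟨C, hC, hB⟩ := h
  exact ⟨C, hC, fun i => e i ▸ hB i⟩

theorem l14ON.congr (h : l14ON L x A) (e : ∀ i, x i = y i) : l14ON L y A := by
  obtain ⟨C, hC, hB⟩ := h
  exact ⟨C, hC, fun i => e i ▸ hB i⟩

theorem l14OB.mono (h : l14OB L k φ A) (C' : ℝ) (hC' : 0 ≤ C') (e : ∀ i, A i ≤ C' * A' i) :
    l14OB L k φ A' := by
  obtain ⟨C, hC, hB⟩ := h
  refine ⟨C * C', mul_nonneg hC hC', fun i => (L i).B_mono ?_ (hB i)⟩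
  have := mul_le_mul_of_nonneg_left (e i) hC
  linarith [mul_assoc C C' (A' i)]

theorem l14OB.mono1 (h : l14OB L k φ A) (e : ∀ i, A i ≤ A' i) : l14OB L k φ A' :=
  h.mono 1 zero_le_one (fun i => by simpa using e i)

theorem l14ON.mono (h : l14ON L x A) (C' : ℝ) (hC' : 0 ≤ C') (e : ∀ i, A i ≤ C' * A' i) :
    l14ON L x A' := by
  obtain ⟨C, hC, hB⟩ := h
  refine ⟨C * C', mul_nonneg hC hC', fun i => le_trans (hB i) ?_⟩
  have := mul_le_mul_of_nonneg_left (e i) hC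
  linarith [mul_assoc C C' (A' i)]

theorem l14ON.mono1 (h : l14ON L x A) (e : ∀ i, A i ≤ A' i) : l14ON L x A' :=
  h.mono 1 zero_le_one (fun i => by simpa using e i)

theorem l14OB.down (h : l14OB L (k + 1) φ A) : l14OB L k φ A := by
  obtain ⟨C, hC, hB⟩ := h
  exact ⟨C, hC, fun i => (L i).B_down (hB i)⟩

theorem l14OB.down_le {k' : ℕ} (h : l14OB L k φ A) (hk : k' ≤ k) : l14OB L k' φ A := by
  induction k, hk using Nat.le_induction with
  | base => exact h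
  | succ n _ ih => exact ih h.down

theorem l14OB.add (h : l14OB L k φ A) (h' : l14OB L k ψ A) :
    l14OB L k (fun i => φ i + ψ i) A := by
  obtain ⟨C, hC, hB⟩ := h
  obtain ⟨C', hC', hB'⟩ := h'
  refine ⟨C + C', add_nonneg hC hC', fun i => ?_⟩
  have := (L i).B_add (hB i) (hB' i)
  rwa [← add_mul] at this

theorem l14OB.mul (h : l14OB L k φ A) (h' : l14OB L k ψ A') :
    l14OB L k (fun i => φ i * ψ i) (fun i => A i * A' i) := by
  obtain ⟨C, hC, hB⟩ := h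
  obtain ⟨C', hC', hB'⟩ := h'
  refine ⟨bd.C k * C * C', mul_nonneg (mul_nonneg (bd.C_nonneg k) hC) hC', fun i => ?_⟩
  have := (L i).B_mul (hB i) (hB' i)
  have e : bd.C k * (C * A i * (C' * A' i)) = bd.C k * C * C' * (A i * A' i) := by ring
  rwa [e] at this

theorem l14OB.neg (h : l14OB L k φ A) : l14OB L k (fun i => - φ i) A := by
  obtain ⟨C, hC, hB⟩ := h
  refine ⟨bd.C k * C, mul_nonneg (bd.C_nonneg k) hC, fun i => ?_⟩
  have := (L i).B_neg (hB i)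
  rwa [← mul_assoc] at this

theorem l14OB.sub (h : l14OB L k φ A) (h' : l14OB L k ψ A) :
    l14OB L k (fun i => φ i - ψ i) A :=
  (h.add h'.neg).congr (fun i => by ring)

theorem l14OB.D (h : l14OB L (k + 1) φ A) : l14OB L k (fun i => (L i).D (φ i)) A := by
  obtain ⟨C, hC, hB⟩ := h
  refine ⟨bd.C k * C, mul_nonneg (bd.C_nonneg k) hC, fun i => ?_⟩
  have := (L i).B_D (hB i)
  rwa [← mul_assoc] at this

theorem l14OB.T (h : l14OB L k φ A) {u v : ι → ℝ} (hu : ∀ i, 0 ≤ u i) (huv : ∀ i, u i ≤ v i)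
    (hv : ∀ i, v i ≤ bd.c0) : l14OB L k (fun i => (L i).T (u i) (v i) (φ i)) A := by
  obtain ⟨C, hC, hB⟩ := h
  refine ⟨bd.C k * C, mul_nonneg (bd.C_nonneg k) hC, fun i => ?_⟩
  have := (L i).T_B (u i) (v i) (hu i) (huv i) (hv i) (hB i)
  rwa [← mul_assoc] at this

theorem l14OB.ev (h : l14OB L 0 φ A) : l14ON L (fun i => (L i).ev (φ i)) A := by
  obtain ⟨C, hC, hB⟩ := h
  refine ⟨bd.C 0 * C, mul_nonneg (bd.C_nonneg 0) hC, fun i => ?_⟩
  have := (L i).ev_B (hB i)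
  rwa [← mul_assoc] at this

theorem l14ON.cst (h : l14ON L x A) (k : ℕ) : l14OB L k (fun i => (L i).cst (x i)) A := by
  obtain ⟨C, hC, hB⟩ := h
  exact ⟨C, hC, fun i => (L i).B_mono (hB i) ((L i).B_cst k (x i))⟩

theorem l14ON.add (h : l14ON L x A) (h' : l14ON L y A) : l14ON L (fun i => x i + y i) A := by
  obtain ⟨C, hC, hB⟩ := h
  obtain ⟨C', hC', hB'⟩ := h'
  refine ⟨C + C', add_nonneg hC hC', fun i => ?_⟩
  have := (L i).nrm_add (x i) (y i)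
  rw [add_mul]
  linarith [hB i, hB' i]

theorem l14ON.mul (h : l14ON L x A) (h' : l14ON L y A') :
    l14ON L (fun i => x i * y i) (fun i => A i * A' i) := by
  obtain ⟨C, hC, hB⟩ := h
  obtain ⟨C', hC', hB'⟩ := h'
  refine ⟨C * C', mul_nonneg hC hC', fun i => ?_⟩
  have h1 := (L i).nrm_mul (x i) (y i)
  have h2 : (L i).nrm (x i) * (L i).nrm (y i) ≤ (C * A i) * (C' * A' i) :=
    mul_le_mul (hB i) (hB' i) ((L i).nrm_nonneg _) (le_trans ((L i).nrm_nonneg _) (hB i))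
  have e : (C * A i) * (C' * A' i) = C * C' * (A i * A' i) := by ring
  linarith

theorem l14ON.neg (h : l14ON L x A) : l14ON L (fun i => - x i) A := by
  obtain ⟨C, hC, hB⟩ := h
  exact ⟨C, hC, fun i => le_trans ((L i).nrm_neg_le _) (hB i)⟩

theorem l14ON.sub (h : l14ON L x A) (h' : l14ON L y A) : l14ON L (fun i => x i - y i) A :=
  (h.add h'.neg).congr (fun i => by ring)

theorem l14ON_re (L : ι → L14Calc bd 𝕂 𝓕) (r : ι → ℝ) :
    l14ON L (fun i => (L i).re (r i)) (fun i => |r i|) :=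
  ⟨1, zero_le_one, fun i => by simpa using (L i).nrm_re (r i)⟩

theorem l14ON_re_le (L : ι → L14Calc bd 𝕂 𝓕) (r : ι → ℝ) (h : ∀ i, |r i| ≤ A i) :
    l14ON L (fun i => (L i).re (r i)) A :=
  (l14ON_re L r).mono1 h

theorem l14ON_zero (L : ι → L14Calc bd 𝕂 𝓕) (A : ι → ℝ) : l14ON L (fun _ => 0) A :=
  ⟨0, le_refl 0, fun i => by simp [(L i).nrm_zero]⟩

theorem l14OB_zero (L : ι → L14Calc bd 𝕂 𝓕) (k : ℕ) (A : ι → ℝ) : l14OB L k (fun _ => 0) A :=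
  ⟨0, le_refl 0, fun i => by simpa using (L i).B_zero k⟩

theorem l14OB_one (L : ι → L14Calc bd 𝕂 𝓕) (k : ℕ) : l14OB L k (fun _ => 1) (fun _ => 1) :=
  ⟨1, zero_le_one, fun i => by simpa using (L i).B_one k⟩

theorem l14ON_kap (L : ι → L14Calc bd 𝕂 𝓕) {u : ι → ℝ} (hu : ∀ i, 0 ≤ u i)
    (hu' : ∀ i, u i ≤ bd.c0) : l14ON L (fun i => (L i).kap (u i)) (fun _ => 1) :=
  ⟨bd.C 0, bd.C_nonneg 0, fun i => by simpa using (L i).kap_bd (u i) (hu i) (hu' i)⟩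

theorem l14ON_kap_sub (L : ι → L14Calc bd 𝕂 𝓕) {u : ι → ℝ} (hu : ∀ i, 0 ≤ u i)
    (hu' : ∀ i, u i ≤ bd.c0) :
    l14ON L (fun i => (L i).kap (u i) - (L i).kap 0) (fun i => u i + (L i).eps) :=
  ⟨bd.C 0, bd.C_nonneg 0, fun i => (L i).kap_lip (u i) (hu i) (hu' i)⟩

theorem l14ON_mu (L : ι → L14Calc bd 𝕂 𝓕) {u : ι → ℝ} (hu : ∀ i, 0 ≤ u i)
    (hu' : ∀ i, u i ≤ bd.c0) : l14ON L (fun i => (L i).re ((L i).mu (u i))) (fun _ => 1) := by
  refine ⟨2, by norm_num, fun i => le_trans ((L i).nrm_re _) ?_⟩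
  have h1 := (L i).mu_ge (u i) (hu i) (hu' i)
  have h2 := (L i).mu_le (u i) (hu i) (hu' i)
  have h3 := (L i).eps_le
  have h4 := bd.c0_le
  rw [abs_of_nonneg (le_trans (hu i) h1)]
  linarith [hu' i]

theorem l14ON_mu_sub (L : ι → L14Calc bd 𝕂 𝓕) {u : ι → ℝ} (hu : ∀ i, 0 ≤ u i)
    (hu' : ∀ i, u i ≤ bd.c0) :
    l14ON L (fun i => (L i).re ((L i).mu (u i)) - (L i).re (u i)) (fun i => (L i).eps) := by
  refine ⟨1, zero_le_one, fun i => ?_⟩
  show (L i).nrm ((L i).re ((L i).mu (u i)) - (L i).re (u i)) ≤ 1 * (L i).eps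
  rw [← map_sub]
  refine le_trans ((L i).nrm_re _) ?_
  have h1 := (L i).mu_ge (u i) (hu i) (hu' i)
  have h2 := (L i).mu_le (u i) (hu i) (hu' i)
  rw [abs_of_nonneg (by linarith)]
  linarith

theorem l14ON_bo (L : ι → L14Calc bd 𝕂 𝓕) : l14ON L (fun i => (L i).bo) (fun _ => 1) :=
  ⟨bd.C 0, bd.C_nonneg 0, fun i => by simpa using (L i).bo_bd⟩

theorem l14OB_g (L : ι → L14Calc bd 𝕂 𝓕) (j k : ℕ) (hj : 1 ≤ j) {u : ι → ℝ} (hu : ∀ i, 0 ≤ u i)
    (hu' : ∀ i, u i ≤ bd.c0) : l14OB L k (fun i => (L i).g j (u i)) (fun _ => 1) :=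
  ⟨bd.C (j + k), bd.C_nonneg _, fun i => by simpa using (L i).g_B j k (u i) hj (hu i) (hu' i)⟩

/-- reindexing -/
theorem l14OB.comp {ι' : Type} (h : l14OB L k φ A) (e : ι' → ι) :
    l14OB (fun p => L (e p)) k (fun p => φ (e p)) (fun p => A (e p)) := by
  obtain ⟨C, hC, hB⟩ := h
  exact ⟨C, hC, fun p => hB (e p)⟩

theorem l14ON.comp {ι' : Type} (h : l14ON L x A) (e : ι' → ι) :
    l14ON (fun p => L (e p)) (fun p => x (e p)) (fun p => A (e p)) := by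
  obtain ⟨C, hC, hB⟩ := h
  exact ⟨C, hC, fun p => hB (e p)⟩

/-- the index family `(i, r)`, `a i ≤ r ≤ b i`. -/
abbrev L14Ix (a b : ι → ℝ) : Type := {p : ι × ℝ // a p.1 ≤ p.2 ∧ p.2 ≤ b p.1}

/-- Dynkin formula, graded bound, uniform version. -/
theorem l14_dynB {a b : ι → ℝ} {f h : ι → ℝ → 𝓕} (ha : ∀ i, 0 ≤ a i) (hab : ∀ i, a i ≤ b i)
    (hb : ∀ i, b i ≤ bd.c0) (hG : ∀ i, (L i).Gen (a i) (b i) (f i) (h i))
    (hh : l14OB (fun p : L14Ix a b => L p.1.1) k (fun p => h p.1.1 p.1.2) (fun p => A p.1.1)) :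
    l14OB L k (fun i => (L i).T (a i) (b i) (f i (b i)) - f i (a i)) (fun i => (b i - a i) * A i) := by
  obtain ⟨C, hC, hB⟩ := hh
  refine ⟨bd.C k * C, mul_nonneg (bd.C_nonneg k) hC, fun i => ?_⟩
  have := (L i).dynB (k := k) (K := C * A i) (ha i) (hab i) (hb i) (hG i)
    (fun r h1 h2 => hB ⟨(i, r), h1, h2⟩)
  have e : bd.C k * ((b i - a i) * (C * A i)) = bd.C k * C * ((b i - a i) * A i) := by ring
  rwa [e] at this

/-- Dynkin formula at the root, uniform version. -/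
theorem l14_dynE {b : ι → ℝ} {f h : ι → ℝ → 𝓕} (hb0 : ∀ i, 0 ≤ b i)
    (hb : ∀ i, b i ≤ bd.c0) (hG : ∀ i, (L i).Gen 0 (b i) (f i) (h i))
    (hh : l14ON (fun p : L14Ix (fun _ => 0) b => L p.1.1)
      (fun p => (L p.1.1).ev ((L p.1.1).T 0 p.1.2 (h p.1.1 p.1.2))) (fun p => A p.1.1)) :
    l14ON L (fun i => (L i).ev ((L i).T 0 (b i) (f i (b i))) - (L i).ev (f i 0))
      (fun i => b i * A i) := by
  obtain ⟨C, hC, hB⟩ := hh
  refine ⟨bd.C 0 * C, mul_nonneg (bd.C_nonneg 0) hC, fun i => ?_⟩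
  have := (L i).dynE (K := C * A i) (hb0 i) (hb i) (hG i) (fun r h1 h2 => hB ⟨(i, r), h1, h2⟩)
  have e : bd.C 0 * (b i * (C * A i)) = bd.C 0 * C * (b i * A i) := by ring
  rwa [e] at this

/-- first order expansion at the root from a level `0` bound of the generator image. -/
theorem l14_dynE1 {b : ι → ℝ} {f h : ι → ℝ → 𝓕} (hb0 : ∀ i, 0 ≤ b i)
    (hb : ∀ i, b i ≤ bd.c0) (hG : ∀ i, (L i).Gen 0 (b i) (f i) (h i))
    (hh : l14OB (fun p : L14Ix (fun _ => 0) b => L p.1.1) 0 (fun p => h p.1.1 p.1.2)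
      (fun p => A p.1.1)) :
    l14ON L (fun i => (L i).ev ((L i).T 0 (b i) (f i (b i))) - (L i).ev (f i 0))
      (fun i => b i * A i) := by
  refine l14_dynE hb0 hb hG ?_
  exact (hh.T (u := fun _ => 0) (v := fun p => p.1.2) (fun _ => le_refl 0) (fun p => p.2.1)
    (fun p => le_trans p.2.2 (hb p.1.1))).ev

end fam

end Claimed.Agent.R286
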