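/-
Row 286 (S0533), package L14.      OWNER: helper242.
SKELETONS, `E_low`, block source functions, block graphs, the internal coefficient (E5).
Definitions only (Mathlib + `L14Calc`).

* `L14Sk D` : binary tree, leaves = blocks `A : Fin D` (at mass `c`), forks carry masses.  A fork with more
  than two children = consecutive binary forks with EQUAL masses (`T u u = id`).
* `Psi`, `W`, `Elow` : `Ψ_leaf = φ_A`, `Ψ_fork(z) = (T_{v,m(l)} Ψ_l)(z) (T_{v,m(r)} Ψ_r)(z)`,
  `E_low ∏ φ_A(ζ^A_c) = (T_{0,m(root)} Ψ_root)(0)`.   A block that is not used gets `φ_A = 1`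
  (`T 1 = 1`: restriction of the skeleton to the used blocks is automatic).
* `sig c k = e^{-cG} ∂_z^k e^{cG}` at mass `c` (`= c s_k` for `k ≥ 1`, `= 1` for `k = 0`).
-/
import Claimed.Agent.R286.L09.CalcO

set_option autoImplicit false

namespace Claimed.Agent.R286

/-- skeleton on the blocks `Fin D`. -/
inductive L14Sk (D : ℕ) : Type
  | leaf : Fin D → L14Sk D
  | fork : ℝ → L14Sk D → L14Sk D → L14Sk D

namespace L14Sk

variable {D : ℕ}

/-- mass of the root of a (sub)tree; the leaves sit at the cut `c`. -/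
def mass (c : ℝ) : L14Sk D → ℝ
  | leaf _ => c
  | fork v _ _ => v

/-- number of leaves -/
def size : L14Sk D → ℕ
  | leaf _ => 1
  | fork _ l r => l.size + r.size

/-- set of blocks -/
def labels : L14Sk D → Finset (Fin D)
  | leaf A => {A}
  | fork _ l r => l.labels ∪ r.labels

/-- masses are nonnegative and nondecreasing towards the leaves; every block occurs at most once. -/
def Ok (c : ℝ) : L14Sk D → Prop
  | leaf _ => True
  | fork v l r => 0 ≤ v ∧ v ≤ l.mass c ∧ v ≤ r.mass c ∧ Disjoint l.labels r.labels ∧ l.Ok c ∧ r.Ok c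

/-- mass of the last common node of two blocks (junk `c` if not both present / equal). -/
noncomputable def split (c : ℝ) : L14Sk D → Fin D → Fin D → ℝ
  | leaf _, _, _ => c
  | fork v l r, A, B =>
      if A ∈ l.labels ∧ B ∈ l.labels then l.split c A B
      else if A ∈ r.labels ∧ B ∈ r.labels then r.split c A B
      else v

/-- product of amplitudes over the leaves -/
def amp (K : Fin D → ℝ) : L14Sk D → ℝ
  | leaf A => K A
  | fork _ l r => l.amp K * r.amp K

variable {bd : L14Bd} {𝕂 𝓕 : Type} [CommRing 𝕂] [CommRing 𝓕]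

/-- the function `Ψ` of a (sub)tree at its root mass. -/
def Psi (L : L14Calc bd 𝕂 𝓕) (c : ℝ) (φ : Fin D → 𝓕) : L14Sk D → 𝓕
  | leaf A => φ A
  | fork v l r => L.T v (l.mass c) (l.Psi L c φ) * L.T v (r.mass c) (r.Psi L c φ)

/-- conditional expectation of the (sub)tree given the field at the earlier mass `u`. -/
def W (L : L14Calc bd 𝕂 𝓕) (c : ℝ) (φ : Fin D → 𝓕) (s : L14Sk D) (u : ℝ) : 𝓕 :=
  L.T u (s.mass c) (s.Psi L c φ)

/-- `E_low ∏_A φ_A(ζ^A_c)` on the skeleton `s`. -/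
def Elow (L : L14Calc bd 𝕂 𝓕) (c : ℝ) (φ : Fin D → 𝓕) (s : L14Sk D) : 𝕂 :=
  L.ev (s.W L c φ 0)

/-- all forks of mass `≤ h` moved to the mass `u`: product of the components above `h`. -/
noncomputable def Wc (L : L14Calc bd 𝕂 𝓕) (c : ℝ) (φ : Fin D → 𝓕) (h : ℝ) : L14Sk D → ℝ → 𝓕
  | leaf A, u => (leaf A : L14Sk D).W L c φ u
  | fork v l r, u =>
      if v ≤ h then l.Wc L c φ h u * r.Wc L c φ h u else (fork v l r).W L c φ u

end L14Sk

namespace L14Calc

variable {bd : L14Bd} {𝕂 𝓕 : Type} [CommRing 𝕂] [CommRing 𝓕] (L : L14Calc bd 𝕂 𝓕)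

/-- `χ = G_zz(0,0)` -/
def chi : 𝕂 := L.ev (L.g 2 0)
/-- `g = G_zzzz(0,0)` -/
def gg : 𝕂 := L.ev (L.g 4 0)
/-- `k_0 = t'(0)` -/
def k0 : 𝕂 := L.kap 0

/-- `s_{k+1}` with the cut parameter `c` and the jets at mass `u`:
`s_1 = G_z`, `s_{k+1} = ∂_z s_k + c G_z s_k`. -/
def st (c : ℝ) : ℕ → ℝ → 𝓕
  | 0, u => L.g 1 u
  | k + 1, u => L.D (st c k u) + L.cst (L.re c) * (L.g 1 u * st c k u)

/-- `e^{-cG} ∂_z^k e^{cG}` at the cut: `1` for `k = 0`, `c s_k` for `k ≥ 1`. -/
def sig (c : ℝ) : ℕ → 𝓕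
  | 0 => 1
  | k + 1 => L.cst (L.re c) * L.st c k c

end L14Calc

/-- block graph: `j` labelled edges without loops on the blocks `Fin D`. -/
structure L14Gr (j D : ℕ) where
  e : Fin j → Fin D × Fin D
  ne : ∀ i, (e i).1 ≠ (e i).2
  used : ∀ A, ∃ i, (e i).1 = A ∨ (e i).2 = A

namespace L14Gr

variable {j D : ℕ} (Γ : L14Gr j D)

/-- number of end points of the edges of `P` in the block `A`. -/
def deg (P : Finset (Fin j)) (A : Fin D) : ℕ :=
  (P.filter (fun i => (Γ.e i).1 = A)).card + (P.filter (fun i => (Γ.e i).2 = A)).card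

variable {bd : L14Bd} {𝕂 𝓕 : Type} [CommRing 𝕂] [CommRing 𝓕]

/-- the scalar moment of the part `P` after the internal summation. -/
def mom (L : L14Calc bd 𝕂 𝓕) (c : ℝ) (s : L14Sk D) (P : Finset (Fin j)) : 𝕂 :=
  s.Elow L c (fun A => L.sig c (Γ.deg P A))

/-- the internal coefficient (E5):
`∑_π (-1)^(|π|-1) (|π|-1)! ∏_{P ∈ π} E_low ∏_A σ_{k_{A,P}}(ζ^A_c)`  (`= ∑ .. c^{D_π} ∏ E_low ∏ s_k`). -/
noncomputable def coef (L : L14Calc bd 𝕂 𝓕) (c : ℝ) (s : L14Sk D) : 𝕂 :=
  ∑ π : Finpartition (Finset.univ : Finset (Fin j)),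
    L.re ((-1) ^ (π.parts.card - 1) * ((π.parts.card - 1).factorial : ℝ)) *
      ∏ P ∈ π.parts, Γ.mom L c s P

end L14Gr

/-- forces the equation lemmas of the definitions of this file to live in this module. -/
theorem l14_skel_eqns_cite : True := by
  have := @L14Sk.mass.eq_1; have := @L14Sk.mass.eq_2; have := @L14Sk.mass.eq_def
  have := @L14Sk.size.eq_1; have := @L14Sk.size.eq_2; have := @L14Sk.size.eq_def
  have := @L14Sk.labels.eq_1; have := @L14Sk.labels.eq_2; have := @L14Sk.labels.eq_def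
  have := @L14Sk.Ok.eq_1; have := @L14Sk.Ok.eq_2; have := @L14Sk.Ok.eq_def
  have := @L14Sk.split.eq_1; have := @L14Sk.split.eq_2; have := @L14Sk.split.eq_def
  have := @L14Sk.amp.eq_1; have := @L14Sk.amp.eq_2; have := @L14Sk.amp.eq_def
  have := @L14Sk.Psi.eq_1; have := @L14Sk.Psi.eq_2; have := @L14Sk.Psi.eq_def
  have := @L14Sk.W.eq_1; have := @L14Sk.Elow.eq_1
  have := @L14Sk.Wc.eq_1; have := @L14Sk.Wc.eq_2; have := @L14Sk.Wc.eq_def
  have := @L14Calc.chi.eq_1; have := @L14Calc.gg.eq_1; have := @L14Calc.k0.eq_1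
  have := @L14Calc.st.eq_1; have := @L14Calc.st.eq_2; have := @L14Calc.st.eq_def
  have := @L14Calc.sig.eq_1; have := @L14Calc.sig.eq_2; have := @L14Calc.sig.eq_def
  have := @L14Gr.deg.eq_1; have := @L14Gr.mom.eq_1; have := @L14Gr.coef.eq_1
  have := @L14Sk.size.induct; have := @L14Sk.labels.induct
  have := @L14Sk.Ok.induct; have := @L14Sk.split.induct; have := @L14Sk.amp.induct
  have := @L14Sk.Psi.induct; have := @L14Sk.Wc.induct
  have := @L14Calc.st.induct
  have := @L14Sk.mass.fun_cases; have := @L14Calc.sig.fun_cases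
  trivial

end Claimed.Agent.R286
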