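/-
Row 286 (S0533), package L14.      OWNER: helper242 (ADV helper285).
CONTRACTS on the abstract calculus `L14Calc` (`def l14_K.. : Prop`; a prover proves `theorem l14_K.._pf : l14_K..`
in his own file `L09/K...lean`).   Everything is uniform: tree lemmas in the plain form `∃ C, ∀ ..`,
expansions in the family form (`l14ON L x A` = `∃ C, ∀ i, nrm (x i) ≤ C A i`).

RECIPES (no integrals, no positivity).   `A f` = the `h` of `Gen a b f h`.   `e_f(r) := ev (T 0 r (f r))`.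
 R1  `A g1 = 0`, `A (D f) = D (A f) - μ kap g2 D f` (`gen_D`, `μ = mu u`), so `A g2 = - μ kap g2²`,  `A (g1²) = kap g2²`,
     `A (g2 + c g1²) = (c-μ) kap g2²`,  `A (g2²) = kap (g3² - 2 μ g2³)`;  every generator image is `kap(u) * (kap-free)`.
     v2 (03:15Z): drift mass `μ(u) ∈ [u, u+eps]`; replace `μ` by `u` at the cost `eps` (`l14ON_mu_sub`); `kap r = k0 + O(r + eps)`.
 R2  scalar correctors: `Gen (cst (re u)) 1`; to get `e_f(v) = ev f(0) + α v + β v²/2 + O(v³)` apply `l14_dynE` to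
     `f(u) - cst (α u + β u²/2)` and show `e_{A f}(r) - α - β r = O(r²)`.
 R3  function correctors: to get `T v c (f c)` to second order apply `l14_dynB` to `f(u) + cst (k0 (c-u)²/2) * Y(u)`.
 R4  freeze the clock: `kap r = k0 + O(r)` (`l14ON_kap_sub`).   `kap` is never differentiated.
 R5  products of backward solutions `w_i(u) = T u m_i Φ_i`: `A (w1 w2) = kap D w1 D w2` (`gen_back`, `gen_mul`).
 R6  parity: `sg φ = - φ → ev φ = 0` (`L14Calc.ev_of_odd`).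
(E8):  `P := T v c s2 = F(v) + O(c³)` (level 0), `F(u) = H(u) + β g2(u)²`, `H = g2 + c g1²`, `β = k0 (c-v)²/2` (R3 with
 `H(u) + k0 (c-u)²/2 g2(u)²`);  `Φ = F²`, `A Φ = kap W`, `W = 2 (c-u) F g2² + 2 β F (g3² - 2u g2³) + (D F)²`,
 `e_W(r) = 2 (c-r) χ³ + k0 g² r + O(c²)`,  `ev Φ(0) = χ² + k0 (c-v)² χ³ + O(c⁴)`;  sum `= χ² + χ³ k0 c² + g² k0² v²/2`.
-/
import Claimed.Agent.R286.L09.Skel

set_option autoImplicit false

namespace Claimed.Agent.R286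

namespace L14Sk

variable {D : ℕ} {bd : L14Bd} {𝕂 𝓕 : Type} [CommRing 𝕂] [CommRing 𝓕]

/-- `∏_A w_A(u)`, `w_A(u) = T u c φ_A` (all forks moved to `u`). -/
def Pt (L : L14Calc bd 𝕂 𝓕) (c : ℝ) (φ : Fin D → 𝓕) : L14Sk D → ℝ → 𝓕
  | leaf A, u => L.T u c (φ A)
  | fork _ l r, u => l.Pt L c φ u * r.Pt L c φ u

/-- `∑_{A<B} (v_AB - u) D w_A D w_B ∏_{others} w` (first order in the fork masses). -/
def Qt (L : L14Calc bd 𝕂 𝓕) (c : ℝ) (φ : Fin D → 𝓕) : L14Sk D → ℝ → 𝓕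
  | leaf _, _ => 0
  | fork v l r, u => l.Qt L c φ u * r.Pt L c φ u + l.Pt L c φ u * r.Qt L c φ u
      + L.cst (L.re (v - u)) * (L.D (l.Pt L c φ u) * L.D (r.Pt L c φ u))

end L14Sk

/-- forces the equation lemmas of the definitions of this file to live in this module. -/
theorem l14_stm_eqns_cite : True := by
  have := @L14Sk.Pt.eq_1; have := @L14Sk.Pt.eq_2; have := @L14Sk.Pt.eq_def
  have := @L14Sk.Qt.eq_1; have := @L14Sk.Qt.eq_2; have := @L14Sk.Qt.eq_def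
  have := @L14Sk.Pt.induct; have := @L14Sk.Qt.induct
  trivial

/-- **K1** two factor collapse: moving a fork from `v` to `u` costs `(v-u)`. -/
def l14_K1 : Prop :=
  ∀ (bd : L14Bd) (k : ℕ), ∃ C : ℝ, 0 ≤ C ∧
    ∀ (𝕂 𝓕 : Type) [CommRing 𝕂] [CommRing 𝓕] (L : L14Calc bd 𝕂 𝓕) (u v m1 m2 K1 K2 : ℝ) (Φ1 Φ2 : 𝓕),
      0 ≤ u → u ≤ v → v ≤ m1 → v ≤ m2 → m1 ≤ bd.c0 → m2 ≤ bd.c0 →
      L.B (k + 1) K1 Φ1 → L.B (k + 1) K2 Φ2 →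
      L.B k (C * ((v - u) * (K1 * K2)))
        (L.T u v (L.T v m1 Φ1 * L.T v m2 Φ2) - L.T u m1 Φ1 * L.T u m2 Φ2)

/-- **K2** crude bound of a (sub)tree at every level. -/
def l14_K2 : Prop :=
  ∀ (bd : L14Bd) (k n : ℕ), ∃ C : ℝ, 0 ≤ C ∧
    ∀ (𝕂 𝓕 : Type) [CommRing 𝕂] [CommRing 𝓕] (L : L14Calc bd 𝕂 𝓕) (D : ℕ) (c : ℝ) (φ : Fin D → 𝓕)
      (K : Fin D → ℝ) (s : L14Sk D), s.size ≤ n → s.Ok c → c ≤ bd.c0 →
      (∀ A, L.B k (K A) (φ A)) → ∀ u, 0 ≤ u → u ≤ s.mass c →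
      L.B k (C * s.amp K) (s.W L c φ u)

/-- **K3** all forks of mass `≤ h` may be moved to `u` at the cost `h`. -/
def l14_K3 : Prop :=
  ∀ (bd : L14Bd) (k n : ℕ), ∃ C : ℝ, 0 ≤ C ∧
    ∀ (𝕂 𝓕 : Type) [CommRing 𝕂] [CommRing 𝓕] (L : L14Calc bd 𝕂 𝓕) (D : ℕ) (c h : ℝ) (φ : Fin D → 𝓕)
      (K : Fin D → ℝ) (s : L14Sk D), s.size ≤ n → s.Ok c → c ≤ bd.c0 → 0 ≤ h → h ≤ 1 →
      (∀ A, L.B (k + 1) (K A) (φ A)) → ∀ u, 0 ≤ u → u ≤ s.mass c →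
      L.B k (C * (h * s.amp K)) (s.W L c φ u - s.Wc L c φ h u)

/-- **K3p** parity: if the component (above `h`) of some block has odd total degree, the collapsed
product vanishes at `z = 0`. -/
def l14_K3p : Prop :=
  ∀ (bd : L14Bd) (𝕂 𝓕 : Type) [CommRing 𝕂] [CommRing 𝓕] (L : L14Calc bd 𝕂 𝓕) (D : ℕ) (c h : ℝ)
    (φ : Fin D → 𝓕) (d : Fin D → ℕ) (s : L14Sk D) (A : Fin D), s.Ok c →
    (∀ X, L.sg (φ X) = L.cst (L.re ((-1) ^ d X)) * φ X) → A ∈ s.labels →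
    Odd (∑ X ∈ s.labels.filter (fun X => X = A ∨ h < s.split c A X), d X) →
    L.ev (s.Wc L c φ h 0) = 0

/-- **K4** first order cluster expansion on an arbitrary skeleton. -/
def l14_K4 : Prop :=
  ∀ (bd : L14Bd) (k n : ℕ), ∃ C : ℝ, 0 ≤ C ∧
    ∀ (𝕂 𝓕 : Type) [CommRing 𝕂] [CommRing 𝓕] (L : L14Calc bd 𝕂 𝓕) (D : ℕ) (c : ℝ) (φ : Fin D → 𝓕)
      (K : Fin D → ℝ) (s : L14Sk D), s.size ≤ n → s.Ok c → c ≤ bd.c0 → L.eps ≤ c →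
      (∀ A, L.B (k + 3) (K A) (φ A)) → ∀ u, 0 ≤ u → u ≤ s.mass c →
      L.B k (C * (c ^ 2 * s.amp K))
        (s.W L c φ u - s.Pt L c φ u - L.cst L.k0 * s.Qt L c φ u)

/-- **K4e** evaluation of the first order term when exactly two blocks `X0, Y0` are odd. -/
def l14_K4e : Prop :=
  ∀ (bd : L14Bd) (𝕂 𝓕 : Type) [CommRing 𝕂] [CommRing 𝓕] (L : L14Calc bd 𝕂 𝓕) (D : ℕ) (c : ℝ)
    (φ : Fin D → 𝓕) (s : L14Sk D) (X0 Y0 : Fin D), s.Ok c → X0 ≠ Y0 →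
    X0 ∈ s.labels → Y0 ∈ s.labels →
    L.ev (L.T 0 c (φ X0)) = 0 → L.ev (L.T 0 c (φ Y0)) = 0 →
    (∀ Z ∈ s.labels, Z ≠ X0 → Z ≠ Y0 → L.ev (L.D (L.T 0 c (φ Z))) = 0) →
    L.ev (s.Pt L c φ 0) = 0 ∧
    L.ev (s.Qt L c φ 0) = L.re (s.split c X0 Y0) * (L.ev (L.D (L.T 0 c (φ X0))) *
      L.ev (L.D (L.T 0 c (φ Y0)))) * ∏ Z ∈ (s.labels.erase X0).erase Y0, L.ev (L.T 0 c (φ Z))

/-- **K5** = (E8). -/
def l14_K5 : Prop :=
  ∀ (bd : L14Bd) (𝕂 𝓕 : Type) [CommRing 𝕂] [CommRing 𝓕] (ι : Type) (L : ι → L14Calc bd 𝕂 𝓕)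
    (c v : ι → ℝ), (∀ i, 0 ≤ v i) → (∀ i, v i ≤ c i) → (∀ i, c i ≤ bd.c0) →
    (∀ i, (L i).eps ≤ c i ^ 2) →
    l14ON L (fun i => (L i).ev ((L i).T 0 (v i)
        ((L i).T (v i) (c i) ((L i).st (c i) 1 (c i)) * (L i).T (v i) (c i) ((L i).st (c i) 1 (c i))))
      - ((L i).chi ^ 2 + (L i).chi ^ 3 * (L i).k0 * (L i).re (c i ^ 2)
          + (L i).re (1 / 2) * (L i).gg ^ 2 * (L i).k0 ^ 2 * (L i).re (v i ^ 2)))
      (fun i => c i ^ 3)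

/-- **K6** second order collapse of the ROOT fork (gives the refined (E9)). -/
def l14_K6 : Prop :=
  ∀ (bd : L14Bd) (𝕂 𝓕 : Type) [CommRing 𝕂] [CommRing 𝓕] (ι : Type) (L : ι → L14Calc bd 𝕂 𝓕)
    (v m1 m2 A1 A2 : ι → ℝ) (Φ1 Φ2 : ι → 𝓕), (∀ i, 0 ≤ v i) → (∀ i, v i ≤ m1 i) → (∀ i, v i ≤ m2 i) →
    (∀ i, m1 i ≤ bd.c0) → (∀ i, m2 i ≤ bd.c0) → (∀ i, 0 ≤ A1 i) → (∀ i, 0 ≤ A2 i) →
    l14OB L 2 Φ1 A1 → l14OB L 2 Φ2 A2 →
    l14ON L (fun i => (L i).ev ((L i).T 0 (v i)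
        ((L i).T (v i) (m1 i) (Φ1 i) * (L i).T (v i) (m2 i) (Φ2 i)))
      - (L i).ev ((L i).T 0 (m1 i) (Φ1 i)) * (L i).ev ((L i).T 0 (m2 i) (Φ2 i))
      - (L i).k0 * (L i).re (v i) * ((L i).ev ((L i).D ((L i).T 0 (m1 i) (Φ1 i))) *
          (L i).ev ((L i).D ((L i).T 0 (m2 i) (Φ2 i)))))
      (fun i => v i * (v i + (L i).eps) * (A1 i * A2 i))

/-- **K7** block functions: bounds at every level, parity, first order transport to an earlier mass. -/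
def l14_K7 : Prop :=
  ∀ (bd : L14Bd) (𝕂 𝓕 : Type) [CommRing 𝕂] [CommRing 𝓕],
    (∀ (L : L14Calc bd 𝕂 𝓕) (c u : ℝ) (k : ℕ),
      L.sg (L.st c k u) = L.cst (L.re ((-1) ^ (k + 1))) * L.st c k u) ∧
    (∀ (ι : Type) (L : ι → L14Calc bd 𝕂 𝓕) (c u : ι → ℝ) (k n : ℕ), (∀ i, 0 ≤ u i) → (∀ i, u i ≤ c i) →
      (∀ i, c i ≤ bd.c0) →
      l14OB L n (fun i => (L i).st (c i) k (u i)) (fun _ => 1) ∧
      l14OB L n (fun i => (L i).T (u i) (c i) ((L i).st (c i) k (c i)) - (L i).st (c i) k (u i)) c)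

/-- **K7e** jets of the block functions at `(0,0)`:
`ω_2 = χ + O(c)`, `ω_4 = g + O(c)`, `η_1 = χ + O(c)`, `η_3 = g + O(c)`. -/
def l14_K7e : Prop :=
  ∀ (bd : L14Bd) (𝕂 𝓕 : Type) [CommRing 𝕂] [CommRing 𝓕] (ι : Type) (L : ι → L14Calc bd 𝕂 𝓕)
    (c : ι → ℝ), (∀ i, 0 ≤ c i) → (∀ i, c i ≤ bd.c0) →
    l14ON L (fun i => (L i).ev ((L i).T 0 (c i) ((L i).st (c i) 1 (c i))) - (L i).chi) c ∧
    l14ON L (fun i => (L i).ev ((L i).T 0 (c i) ((L i).st (c i) 3 (c i))) - (L i).gg) c ∧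
    l14ON L (fun i => (L i).ev ((L i).D ((L i).T 0 (c i) ((L i).st (c i) 0 (c i)))) - (L i).chi) c ∧
    l14ON L (fun i => (L i).ev ((L i).D ((L i).T 0 (c i) ((L i).st (c i) 2 (c i)))) - (L i).gg) c

end Claimed.Agent.R286
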