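/-
Row 286 (S0533), package L14.      OWNER: helper242 (ADV helper285).
CONTRACT **K8** = the case analysis of LL 09 l.790-880 on the abstract calculus:
  `∏ b_e · I_Γ - [j = D = 2] c² b  =  a · mono1(j) + a' · mono2(j) + O(c^(7-j) + ε c^(4-j))`,
`a, a'` = REAL mass factors (they do not depend on the reference), `mono1, mono2` = the five monomials of the scaling
table, `ε` = bound of `b_e - b∘`.   Refined form for `j = 2` and distinct designated forks, earlier mass `h'`.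
Use: size path `ε = C λ c²`, `c ≤ C λ`, the monomials are killed by `1 - j/6 + ∂_θ` (L09/Jets.lean, `l9j_tab_*`);
direct path `ε = C c²` (parameter `p = λ`), `|a| + |a'| ≤ 2 c^(6-j)`.
-/
import Claimed.Agent.R286.L09.Stm

set_option autoImplicit false

namespace Claimed.Agent.R286

namespace L14Gr

variable {j D : ℕ} (Γ : L14Gr j D)

/-- split mass of the two ends of the edge `i` (the designated fork of the pair `i`). -/
noncomputable def vs (c : ℝ) (s : L14Sk D) (i : Fin j) : ℝ := s.split c (Γ.e i).1 (Γ.e i).2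

/-- sum of the split masses over the pairs of blocks of total degree `p`. -/
noncomputable def ps (c : ℝ) (s : L14Sk D) (p : ℕ) : ℝ :=
  ∑ X : Fin D, ∑ Y : Fin D,
    if X < Y ∧ Γ.deg Finset.univ X = p ∧ Γ.deg Finset.univ Y = p then s.split c X Y else 0

open Classical in
/-- mass factor of the first monomial. -/
noncomputable def ma (c : ℝ) (s : L14Sk D) : ℝ :=
  if j = 2 ∧ D = 2 then c ^ 4
  else if j = 2 ∧ D = 3 then c ^ 3 * Γ.ps c s 1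
  else if j = 3 ∧ D = 3 ∧ ∀ A, Γ.deg Finset.univ A = 2 then c ^ 3
  else if j = 4 ∧ D = 2 then c ^ 2
  else 0

/-- mass factor of the second monomial. -/
noncomputable def mb (c : ℝ) (s : L14Sk D) : ℝ :=
  if j = 2 ∧ D = 2 then c ^ 2 * (Γ.ps c s 2) ^ 2 / 2
  else if j = 3 ∧ D = 2 then c ^ 2 * Γ.ps c s 3
  else 0

/-- `j = 2`: the two designated forks are DISTINCT vertices of the skeleton: different masses, or equal masses on
incomparable branches (attack A3 of 285: on a grid this has positive weight). -/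
def Dist (Γ : L14Gr 2 D) (c : ℝ) (s : L14Sk D) : Prop :=
  Γ.vs c s 0 ≠ Γ.vs c s 1 ∨ s.split c (Γ.e 0).1 (Γ.e 1).1 < min (Γ.vs c s 0) (Γ.vs c s 1)

end L14Gr

namespace L14Calc

variable {bd : L14Bd} {𝕂 𝓕 : Type} [CommRing 𝕂] [CommRing 𝓕] (L : L14Calc bd 𝕂 𝓕)

/-- `b∘²χ³k0`, `b∘³χ³`, `b∘⁴g²`. -/
def mono1 (j : ℕ) : 𝕂 :=
  if j = 2 then L.bo ^ 2 * L.chi ^ 3 * L.k0 else if j = 3 then L.bo ^ 3 * L.chi ^ 3
  else L.bo ^ 4 * L.gg ^ 2

/-- `b∘²g²k0²`, `b∘³g²k0`, `0`. -/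
def mono2 (j : ℕ) : 𝕂 :=
  if j = 2 then L.bo ^ 2 * L.gg ^ 2 * L.k0 ^ 2 else if j = 3 then L.bo ^ 3 * L.gg ^ 2 * L.k0 else 0

end L14Calc

/-- the combined coefficient: edge weights times (E5), minus the square counter term. -/
noncomputable def l14X {bd : L14Bd} {𝕂 𝓕 : Type} [CommRing 𝕂] [CommRing 𝓕] {j D : ℕ}
    (L : L14Calc bd 𝕂 𝓕) (Γ : L14Gr j D) (c : ℝ) (s : L14Sk D) (b : Fin j → 𝕂) (bc : 𝕂) : 𝕂 :=
  (∏ i, b i) * Γ.coef L c s - (if j = 2 ∧ D = 2 then L.re (c ^ 2) * bc else 0)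

/-- forces the equation lemmas of the definitions of this file to live in this module. -/
theorem l14_stmM_eqns_cite : True := by
  have := @L14Gr.vs.eq_1; have := @L14Gr.ps.eq_1; have := @L14Gr.ma.eq_1; have := @L14Gr.mb.eq_1
  have := @L14Gr.Dist.eq_1; have := @L14Calc.mono1.eq_1; have := @L14Calc.mono2.eq_1
  have := @l14X.eq_1
  trivial

/-- common hypotheses of K8 on a family. -/
structure L14Hyp {bd : L14Bd} {𝕂 𝓕 : Type} [CommRing 𝕂] [CommRing 𝓕] {ι : Type} {j D : ℕ}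
    (L : ι → L14Calc bd 𝕂 𝓕) (Γ : ι → L14Gr j D) (c ε : ι → ℝ) (s : ι → L14Sk D)
    (b : ι → Fin j → 𝕂) (bc : ι → 𝕂) : Prop where
  c_pos : ∀ i, 0 < c i
  c_le : ∀ i, c i ≤ bd.c0
  mesh : ∀ i, (L i).eps ≤ c i ^ 4
  ok : ∀ i, (s i).Ok (c i)
  full : ∀ i, (s i).labels = Finset.univ
  e_le : ∀ i, ε i ≤ 1
  b_bd : ∀ i e, (L i).nrm (b i e - (L i).bo) ≤ ε i
  bc_bd : ∀ i, (L i).nrm (bc i - (L i).bo) ≤ ε i

/-- **K8** (E4) before the operator: main monomials + remainder. -/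
def l14_K8 : Prop :=
  ∀ (bd : L14Bd) (𝕂 𝓕 : Type) [CommRing 𝕂] [CommRing 𝓕] (ι : Type) (j D : ℕ) (L : ι → L14Calc bd 𝕂 𝓕)
    (Γ : ι → L14Gr j D) (c ε : ι → ℝ) (s : ι → L14Sk D) (b : ι → Fin j → 𝕂) (bc : ι → 𝕂),
    2 ≤ j → j ≤ 4 → L14Hyp L Γ c ε s b bc →
    l14ON L (fun i => l14X (L i) (Γ i) (c i) (s i) (b i) (bc i)
        - ((L i).re ((Γ i).ma (c i) (s i)) * (L i).mono1 j + (L i).re ((Γ i).mb (c i) (s i)) * (L i).mono2 j))
      (fun i => c i ^ (7 - j) + ε i * c i ^ (4 - j))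

/-- **K8r** refined form, `j = 2`, the two designated forks are distinct, the earlier one at `h'`. -/
def l14_K8r : Prop :=
  ∀ (bd : L14Bd) (𝕂 𝓕 : Type) [CommRing 𝕂] [CommRing 𝓕] (ι : Type) (D : ℕ) (L : ι → L14Calc bd 𝕂 𝓕)
    (Γ : ι → L14Gr 2 D) (c ε h' : ι → ℝ) (s : ι → L14Sk D) (b : ι → Fin 2 → 𝕂) (bc : ι → 𝕂),
    L14Hyp L Γ c ε s b bc →
    (∀ i, (Γ i).Dist (c i) (s i)) →
    (∀ i, h' i = min ((Γ i).vs (c i) (s i) 0) ((Γ i).vs (c i) (s i) 1)) →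
    l14ON L (fun i => l14X (L i) (Γ i) (c i) (s i) (b i) (bc i)
        - ((L i).re ((Γ i).ma (c i) (s i)) * (L i).mono1 2 + (L i).re ((Γ i).mb (c i) (s i)) * (L i).mono2 2))
      (fun i => c i ^ 4 * h' i + ε i * (c i * h' i))

/-- **K8m** size of the mass factors. -/
def l14_K8m : Prop :=
  ∀ (j D : ℕ) (Γ : L14Gr j D) (c : ℝ) (s : L14Sk D), 2 ≤ j → j ≤ 4 → 0 < c → c ≤ 1 → s.Ok c →
    s.labels = Finset.univ →
    (0 ≤ Γ.ma c s ∧ Γ.ma c s ≤ c ^ (6 - j) ∧ 0 ≤ Γ.mb c s ∧ Γ.mb c s ≤ c ^ (6 - j))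

/-- **K8mr** size of the mass factors, refined case. -/
def l14_K8mr : Prop :=
  ∀ (D : ℕ) (Γ : L14Gr 2 D) (c : ℝ) (s : L14Sk D), 0 < c → c ≤ 1 → s.Ok c →
    s.labels = Finset.univ → Γ.Dist c s →
    (Γ.ma c s ≤ c ^ 3 * min (Γ.vs c s 0) (Γ.vs c s 1) ∧ Γ.mb c s = 0)

/-- **K8d** crude bounds of (E5) (terms with a defect factor). -/
def l14_K8d : Prop :=
  ∀ (bd : L14Bd) (𝕂 𝓕 : Type) [CommRing 𝕂] [CommRing 𝓕] (ι : Type) (j D : ℕ) (L : ι → L14Calc bd 𝕂 𝓕)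
    (Γ : ι → L14Gr j D) (c : ι → ℝ) (s : ι → L14Sk D), 1 ≤ j →
    (∀ i, 0 < c i) → (∀ i, c i ≤ bd.c0) → (∀ i, (s i).Ok (c i)) → (∀ i, (s i).labels = Finset.univ) →
    l14ON L (fun i => (Γ i).coef (L i) (c i) (s i)) (fun i => c i ^ 2)

/-- **K8dr** the same, refined (`j = 2`, distinct designated forks). -/
def l14_K8dr : Prop :=
  ∀ (bd : L14Bd) (𝕂 𝓕 : Type) [CommRing 𝕂] [CommRing 𝓕] (ι : Type) (D : ℕ) (L : ι → L14Calc bd 𝕂 𝓕)
    (Γ : ι → L14Gr 2 D) (c : ι → ℝ) (s : ι → L14Sk D),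
    (∀ i, 0 < c i) → (∀ i, c i ≤ bd.c0) → (∀ i, (s i).Ok (c i)) → (∀ i, (s i).labels = Finset.univ) →
    (∀ i, (Γ i).Dist (c i) (s i)) →
    l14ON L (fun i => (Γ i).coef (L i) (c i) (s i))
      (fun i => c i ^ 3 * min ((Γ i).vs (c i) (s i) 0) ((Γ i).vs (c i) (s i) 1))

end Claimed.Agent.R286
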