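import Claimed.Agent.R286.L09.Cut
import Claimed.Agent.R286.L09.CumJet
import Claimed.Agent.R286.L09.SkelCum
import Claimed.Agent.R286.L09.StmM
import Claimed.Agent.R286.L09.Bnd
import Claimed.Agent.R286.L09.GridFD
import Claimed.Agent.R286.Fd.CSym
import Claimed.Agent.R286.Fd.TrB2

/-!
# Row 286 (S0533), LL Sec. 9, node LC1: ASSEMBLY      (owner helper276; head of the unit helper60; prefix `l9l`, `L9l`)

TEX[LL:exp:prop-low-coefficients] 09 l.505-611 ("The objects in the compression formula", (E5), "The finite signed identity", "Evaluation of the internal source sums").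

FROM  `l9c_lc1_cum` (285, `L09/Cut`), `l9k_cut`, `L9kBlk.skw` (276, `L09/CutG`), `jtLog_eq_cum`, `coef_eq_cum` (271)  AND  **KEY as a hypothesis** (`L9lKey`; producers 219 `L09/Key`, 285 `L09/KeyA`)
TO    the hypotheses `hLC0`, `hLC1`, `hW` of `l9f_e4` (263, `L09/GridFD`), with `X = l14X` of 242 (`L09/StmM`).

ONE context `Y : JtCtx S` = the reference at ONE value of the path parameter (use it at `t` and at `t + h`);   `ms`, `N` = masses and number of stages of the chain (they do not move).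
* `L9lK N Y`              what is used of the scalar laws `Y.nuK`: MARGINALS (`tr_nu_comap` of 150).
* `l9lH ms N Y n R τ`, `l9lHq`, `l9lHt`   the flat coefficients of 282 (`L9Q.H, Hq, Ht`, `L09/Bnd`) BEFORE the operator `O`: VALUES at the context `Y`.
* `l9l_Ht_eq`             `Q.Ht n R τ = (u - e |R|) * l9lHt .. (Y t) .. τ + l9lHd Q n R τ`   (`l9lHd` = the same combination of the dotted numbers; pure algebra, no differentiability).
* `l9lGr h hsp : L14Gr j D`   THE BLOCK GRAPH: the edge `i` joins the blocks `β (2 i)`, `β (2 i + 1)`.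
* `L9lKey ms N c D skG Y L cm s`   **KEY** (S5): for every list `as` of anchors `< D`
        `l9It ms N c as D skG (fun T => Y.nuK (D + as.length) T [∏_{m < as.length} spin (D + m)]) = s.Elow L cm (fun A => L.sig cm (as.count A))`.
* `l9l_mo`                `l9Mo .. P = Γ.mom L cm s P`  (marginals + counting).
* `l9lW ms N j D c skG`   `W = (2^j j!)⁻¹ wt(skG) / m_c^D`;      `l9l_W_le` = SKW.
* **`l9l_lc1`**           `∑_{τ ∈ l9aTab N (2 j), τ ∧ c = sk} l9lHt ms N Y j R τ = W * l14X L Γ cm s b bc`      (the square counterterm is merged: `j = 2`, `D = 2`).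
* `l9l_vm`                on the fibre of `sk` the masses of the base pairs are those of `sk`: a region keeps the whole fibre or nothing (`l9l_B_region`).
* **`l9l_e4`**            (E4) at one skeleton from (M) + KEY at `t`, `t + h` + the finite difference bound of `l14X`.
* `l9l_K_llJs`, `l9l_K_X0`   the instance of `L9lK` for `llJs`.      0 sorry.
-/

set_option autoImplicit false

namespace Claimed.Agent.R286

open scoped BigOperators Nat
open Finset

/-! ## 0. transport of partition sums along an embedding -/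

section transport
variable {α γ : Type} [DecidableEq α] [DecidableEq γ] {R : Type} [CommRing R]

omit [DecidableEq α] [DecidableEq γ] in
theorem l9l_sum_powerset_map (g : α ↪ γ) (s : Finset α) (F : Finset γ → R) :
    ∑ t ∈ (s.map g).powerset, F t = ∑ t ∈ s.powerset, F (t.map g) := by
  refine (Finset.sum_bij (fun t _ => t.map g) ?_ ?_ ?_ ?_).symm
  · intro t ht
    rw [mem_powerset] at ht ⊢
    exact Finset.map_subset_map.mpr ht
  · intro t _ t' _ h
    exact Finset.map_injective g h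
  · intro u hu
    rw [mem_powerset] at hu
    obtain ⟨t, ht, rfl⟩ := Finset.subset_map_iff.mp hu
    exact ⟨t, mem_powerset.mpr ht, rfl⟩
  · intro t _
    rfl

theorem l9l_PS_map (g : α ↪ γ) (s : Finset α) : ∀ f : Finset (Finset γ) → R,
    l9PS f (s.map g) = l9PS (fun Q => f (Q.map (Finset.mapEmbedding g).toEmbedding)) s := by
  induction' hn : s.card using Nat.strong_induction_on with n ih generalizing s
  intro f
  rcases s.eq_empty_or_nonempty with rfl | ⟨a, ha⟩
  · rw [Finset.map_empty, l9PS_empty, l9PS_empty, Finset.map_empty]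
  · obtain ⟨s', has', rfl⟩ : ∃ s', a ∉ s' ∧ insert a s' = s := ⟨s.erase a, notMem_erase a s, insert_erase ha⟩
    have hg : g a ∉ s'.map g := by
      rw [Finset.mem_map']
      exact has'
    rw [Finset.map_insert, l9PS_insert hg, l9PS_insert has', l9l_sum_powerset_map]
    refine Finset.sum_congr rfl fun t ht => ?_
    rw [← Finset.map_sdiff, ih (s' \ t).card ?_ (s' \ t) rfl]
    · refine l9PS_congr fun π => ?_
      rw [Finset.map_insert]
      congr 2
      show _ = (insert a t).map g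
      rw [Finset.map_insert]
    · rw [← hn, card_insert_of_notMem has']
      exact Nat.lt_succ_of_le (card_le_card sdiff_subset)

theorem l9l_cum_map (g : α ↪ γ) (m : Finset γ → R) (s : Finset α) :
    l9Cum m (s.map g) = l9Cum (fun P => m (P.map g)) s := by
  unfold l9Cum
  rw [l9l_PS_map]
  refine l9PS_congr fun π => ?_
  rw [Finset.card_map, Finset.prod_map]
  rfl

end transport

/-! ## 1. the flat coefficients before `O` -/

section defs
variable {S : Type}

/-- the marginals of the scalar reference laws -/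
structure L9lK (N : ℕ) (Y : JtCtx S) : Prop where
  comap : ∀ (q p : ℕ) (τ : JtTopo), IsTr N q τ → ∀ f : ℕ → ℕ, (∀ x, x < p → f x < q) → ∀ P : (ℕ → Bool) → ℝ, TrUses p P →
    Y.nuK q τ (fun σ => P fun x => σ (f x)) = Y.nuK p (fun x y => τ (f x) (f y)) P

/-- the two ends of each pair are different leaves -/
def l9lOff (N n : ℕ) (τ : JtTopo) : ℝ := ∏ i ∈ Finset.range n, if τ (jtC 0 i) (jtD 0 i) ≤ N then (1 : ℝ) else 0

/-- weight of the table in the degree `n` part -/
noncomputable def l9lA (ms : ℕ → ℝ) (N n : ℕ) (τ : JtTopo) : ℝ :=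
  ((2 : ℝ) ^ n * (n ! : ℝ))⁻¹ * l9aWt ms N 1 (2 * n) τ * l9lOff N n τ

/-- weight of the table in the square counterterm -/
noncomputable def l9lAq (ms : ℕ → ℝ) (N : ℕ) (τ : JtTopo) : ℝ :=
  if (τ 0 2 = N + 1 ∧ τ 1 3 = N + 1) ∨ (τ 0 3 = N + 1 ∧ τ 1 2 = N + 1) then -(8 : ℝ)⁻¹ * l9aWt ms N 1 2 τ * l9lOff N 1 τ else 0

/-- the flat coefficient of `∏_{i ∈ R} Δ_i`, value at the context `Y` -/
noncomputable def l9lH (ms : ℕ → ℝ) (N : ℕ) (Y : JtCtx S) (n : ℕ) (R : Finset ℕ) (τ : JtTopo) : ℝ := l9lA ms N n τ * Y.cf n R τ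

/-- the square counterterm, value at the context `Y` -/
noncomputable def l9lHq (ms : ℕ → ℝ) (N : ℕ) (Y : JtCtx S) (τ : JtTopo) : ℝ := l9lAq ms N τ * Y.bC (τ 0 1)

/-- the total flat coefficient, value at the context `Y` -/
noncomputable def l9lHt (ms : ℕ → ℝ) (N : ℕ) (Y : JtCtx S) (n : ℕ) (R : Finset ℕ) (τ : JtTopo) : ℝ :=
  l9lH ms N Y n R τ + if n = 2 ∧ R = {0, 1} then l9lHq ms N Y τ else 0

/-- the dotted part of `Q.Ht` -/
noncomputable def l9lHd (Q : L9Q) (n : ℕ) (R : Finset ℕ) (τ : JtTopo) : ℝ :=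
  l9lA Q.ms Q.N n τ * deriv (fun t' => (Q.I.X0 (Q.pf t')).cf n R τ) Q.t
    + if n = 2 ∧ R = {0, 1} then l9lAq Q.ms Q.N τ * deriv (fun t' => (Q.I.X0 (Q.pf t')).bC (τ 0 1)) Q.t else 0

/-- `Q.Ht` = `O` applied to the values -/
theorem l9l_Ht_eq (Q : L9Q) (n : ℕ) (R : Finset ℕ) (τ : JtTopo) :
    Q.Ht n R τ = (Q.u - Q.e * R.card) * l9lHt Q.ms Q.N (Q.I.X0 (Q.pf Q.t)) n R τ + l9lHd Q n R τ := by
  have hoff : ∀ m, (Q.X false).off 0 m τ = l9lOff Q.N m τ := fun _ => rfl
  unfold L9Q.Ht l9lHt l9lHd L9Q.H L9Q.Hq l9lH l9lHq l9lA l9lAq L9Q.co L9Q.coq l9O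
  rw [hoff, hoff]
  by_cases h : n = 2 ∧ R = {0, 1}
  · have hc : (R.card : ℝ) = ((2 : ℕ) : ℝ) := by
      rw [h.2]
      rfl
    rw [if_pos h, if_pos h, if_pos h, hc]
    by_cases h2 : (τ 0 2 = Q.N + 1 ∧ τ 1 3 = Q.N + 1) ∨ (τ 0 3 = Q.N + 1 ∧ τ 1 2 = Q.N + 1)
    · rw [if_pos h2, if_pos h2]
      ring
    · rw [if_neg h2, if_neg h2]
      ring
  · rw [if_neg h, if_neg h, if_neg h]
    ring

/-- **KEY** (S5) -/
def L9lKey (ms : ℕ → ℝ) (N c D : ℕ) (skG : JtTopo) (Y : JtCtx S) {bd : L14Bd} {𝓕 : Type} [CommRing 𝓕] (L : L14Calc bd ℝ 𝓕) (cm : ℝ)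
    (s : L14Sk D) : Prop :=
  ∀ as : List ℕ, (∀ A ∈ as, A < D) →
    l9It ms N c as D skG (fun T => Y.nuK (D + as.length) T fun t => ∏ m ∈ Finset.range as.length, jtSp (t (D + m)))
      = s.Elow L cm fun A => L.sig cm (as.count (A : ℕ))

/-- the moments of the pair products -/
def l9lM (Y : JtCtx S) (j : ℕ) : Finset ℕ → JtTopo → ℝ := fun P τ => Y.Psi (2 * j) 0 τ P

/-- the skeleton weight -/
noncomputable def l9lW (ms : ℕ → ℝ) (N j D c : ℕ) (skG : JtTopo) : ℝ :=
  ((2 : ℝ) ^ j * (j ! : ℝ))⁻¹ * l9aWt ms N 1 D skG / trPm ms c ^ D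

/-- the edge weights: `b` on the pairs of `R`, `d` on the others -/
def l9lB (Y : JtCtx S) (sk : JtTopo) (R : Finset ℕ) {j : ℕ} (i : Fin j) : ℝ :=
  if (i : ℕ) ∈ R then Y.bC (sk (2 * i) (2 * i + 1)) else Y.dC (sk (2 * i) (2 * i + 1))

/-- the weight of the square counterterm -/
def l9lBc (Y : JtCtx S) (sk : JtTopo) (R : Finset ℕ) : ℝ := if R = {0, 1} then Y.bC (sk 0 1) else 0

end defs

/-- **the block graph** -/
def l9lGr {N j D c : ℕ} {sk : JtTopo} {β ρ : ℕ → ℕ} (h : L9kBlk N (2 * j) D c sk β ρ) (hsp : ∀ i, i < j → sk (2 * i) (2 * i + 1) < c) :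
    L14Gr j D where
  e := fun i => (⟨β (2 * i), h.bl _ (by have := i.2; omega)⟩, ⟨β (2 * i + 1), h.bl _ (by have := i.2; omega)⟩)
  ne := by
    intro i hi
    have h1 : β (2 * i) = β (2 * i + 1) := congrArg Fin.val hi
    have h2 := (h.eq (2 * i) (2 * i + 1) (by have := i.2; omega) (by have := i.2; omega)).mpr h1
    have h3 := hsp i i.2
    omega
  used := by
    intro A
    have h1 := h.rl A A.2
    have h2 := h.br A A.2
    refine ⟨⟨ρ A / 2, by omega⟩, ?_⟩
    rcases Nat.even_or_odd' (ρ A) with ⟨k, hk | hk⟩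
    · left
      apply Fin.ext
      show β (2 * (ρ A / 2)) = A
      rw [show 2 * (ρ A / 2) = ρ A by omega]
      exact h2
    · right
      apply Fin.ext
      show β (2 * (ρ A / 2) + 1) = A
      rw [show 2 * (ρ A / 2) + 1 = ρ A by omega]
      exact h2

theorem l9l_eqns_cite : True := by
  have := @l9lOff.eq_1
  have := @l9lA.eq_1
  have := @l9lAq.eq_1
  have := @l9lH.eq_1
  have := @l9lHq.eq_1
  have := @l9lHt.eq_1
  have := @l9lHd.eq_1
  have := @L9lKey.eq_1
  have := @l9lM.eq_1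
  have := @l9lW.eq_1
  have := @l9lB.eq_1
  have := @l9lBc.eq_1
  have := @l9lGr.eq_1
  trivial

/-- on the fibre of `sk` the base pairs have the depths of `sk` -/
theorem l9l_pair {N n c : ℕ} {sk τ : JtTopo} (hτ : τ ∈ l9aTab N (2 * n)) (hsk : l9rTc (2 * n) c τ = sk)
    (hsp : ∀ i, i < n → sk (2 * i) (2 * i + 1) < c) (i : ℕ) : τ (2 * i) (2 * i + 1) = sk (2 * i) (2 * i + 1) := by
  by_cases hi : i < n
  · have h1 := hsp i hi
    rw [← hsk, l9r_tc_apply τ (by omega) (by omega) (by omega)] at h1 ⊢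
    omega
  · have h2 := (l9a_mem_tab.mp hτ).2
    rw [← hsk, ← h2]
    unfold l9rTc l9rCut l9aNm
    rw [if_neg (by omega), if_neg (by omega)]

/-! ## 2. the internal moments -/

section main
variable {S : Type} {N j D c : ℕ} {sk : JtTopo} {β ρ : ℕ → ℕ}

/-- the slots of the pairs of `P` -/
theorem l9l_sl_succ (P : Finset ℕ) (j : ℕ) :
    (List.range (2 * (j + 1))).filter (fun s => s / 2 ∈ P)
      = (List.range (2 * j)).filter (fun s => s / 2 ∈ P) ++ if j ∈ P then [2 * j, 2 * j + 1] else [] := by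
  have e : 2 * (j + 1) = 2 * j + 1 + 1 := by ring
  have h1 : (2 * j) / 2 = j := by omega
  have h2 : (2 * j + 1) / 2 = j := by omega
  rw [e, List.range_succ, List.range_succ, List.filter_append, List.filter_append, List.append_assoc]
  congr 1
  by_cases h : j ∈ P
  · simp [h1, h2, h]
  · simp [h1, h2, h]

theorem l9l_sl_prod (P : Finset ℕ) (g : ℕ → ℝ) (j : ℕ) :
    (((List.range (2 * j)).filter (fun s => s / 2 ∈ P)).map g).prod = ∏ i ∈ range j, if i ∈ P then g (2 * i) * g (2 * i + 1) else 1 := by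
  induction j with
  | zero => simp
  | succ j ih =>
    rw [l9l_sl_succ, List.map_append, List.prod_append, ih, Finset.prod_range_succ]
    congr 1
    by_cases h : j ∈ P
    · simp [h]
    · simp [h]

theorem l9l_sl_count (P : Finset ℕ) (β : ℕ → ℕ) (A : ℕ) (j : ℕ) :
    (((List.range (2 * j)).filter (fun s => s / 2 ∈ P)).map β).count A
      = ∑ i ∈ range j, if i ∈ P then (if β (2 * i) = A then 1 else 0) + (if β (2 * i + 1) = A then 1 else 0) else 0 := by
  induction j with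
  | zero => simp
  | succ j ih =>
    rw [l9l_sl_succ, List.map_append, List.count_append, ih, Finset.sum_range_succ]
    congr 1
    by_cases h : j ∈ P
    · simp only [h, if_true, List.map_cons, List.map_nil, List.count_cons, List.count_nil, beq_iff_eq]
      ring
    · simp [h]

/-- ranks: the `m`-th element of a filtered range has rank `m` -/
theorem l9l_rank_prod (p : ℕ → Bool) (g : ℕ → ℝ) (n : ℕ) :
    (((List.range n).filter p).map fun s => g ((List.range s).filter p).length).prod = ∏ m ∈ range ((List.range n).filter p).length, g m := by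
  induction n with
  | zero => simp
  | succ n ih =>
    rw [List.range_succ, List.filter_append, List.map_append, List.prod_append, ih]
    by_cases h : p n = true
    · simp [h, Finset.prod_range_succ]
    · simp [h]

theorem l9l_rank_lt (p : ℕ → Bool) {s n : ℕ} (hs : s < n) (h : p s = true) :
    ((List.range s).filter p).length < ((List.range n).filter p).length := by
  induction n with
  | zero => omega
  | succ n ih =>
    rw [List.range_succ, List.filter_append, List.length_append]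
    rcases Nat.lt_succ_iff_lt_or_eq.mp hs with h1 | h1
    · have := ih h1
      omega
    · subst h1
      simp [h]

/-- iterated block sums see their summand on the trees only -/
theorem l9l_it_congr (ms : ℕ → ℝ) {N t : ℕ} (xs : List ℕ) : ∀ (q : ℕ) (τ : ℕ → ℕ → ℕ) (Φ Φ' : (ℕ → ℕ → ℕ) → ℝ), IsTr N q τ →
    (∀ x ∈ xs, x < q) → (∀ T, IsTr N (q + xs.length) T → Φ T = Φ' T) → l9It ms N t xs q τ Φ = l9It ms N t xs q τ Φ' := by
  induction xs with
  | nil =>
    intro q τ Φ Φ' hτ _ h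
    exact h τ (by simpa using hτ)
  | cons x xs ih =>
    intro q τ Φ Φ' hτ hxs h
    unfold l9It
    apply l9p_in_congr
    intro j y _ hj hy _
    apply ih (q + 1) _ _ _ (l9p_att_isTr hτ hy hj) (fun x' hx' => lt_trans (hxs x' (by simp [hx'])) (Nat.lt_succ_self q))
    intro T hT
    apply h
    have : q + 1 + xs.length = q + (x :: xs).length := by simp; omega
    rwa [this] at hT

/-- the moment of a part at a pulled back tree -/
theorem l9l_M_pb {Y : JtCtx S} (hY : L9lK N Y) {q : ℕ} {T : JtTopo} (hT : IsTr N q T) (f : ℕ → ℕ) (hf : ∀ x, x < 2 * j → f x < q)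
    {P : Finset ℕ} (hP : P ⊆ Finset.range j) :
    l9lM Y j P (l9Pb T f) = Y.nuK q T fun t => ∏ i ∈ P, jtSp (t (f (2 * i))) * jtSp (t (f (2 * i + 1))) := by
  have huses : TrUses (2 * j) (fun t : ℕ → Bool => (∏ y ∈ (∅ : Finset ℕ), jtSp (t y)) * ∏ i ∈ P, jtSp (t (jtC 0 i)) * jtSp (t (jtD 0 i))) := by
    intro σ σ' h
    simp only [Finset.prod_empty, one_mul]
    refine Finset.prod_congr rfl fun i hi => ?_
    have hi' := Finset.mem_range.mp (hP hi)
    rw [h (jtC 0 i) (by unfold jtC; omega), h (jtD 0 i) (by unfold jtD; omega)]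
  have h1 := hY.comap q (2 * j) T hT f hf _ huses
  show Y.nuK (2 * j) (fun x y => T (f x) (f y)) _ = _
  rw [← h1]
  congr 1
  funext t
  rw [Finset.prod_empty, one_mul]
  refine Finset.prod_congr rfl fun i _ => ?_
  unfold jtC jtD
  rw [Nat.zero_add]

/-- the product of the spins of the slots of `P`, renumbered -/
theorem l9l_spin_prod (D : ℕ) {P : Finset ℕ} (hP : P ⊆ Finset.range j) (G : ℕ → ℝ) :
    ∏ i ∈ P, G (l9Re (fun x => x / 2) D P (2 * i)) * G (l9Re (fun x => x / 2) D P (2 * i + 1))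
      = ∏ m ∈ Finset.range ((List.range (2 * j)).filter (fun s => s / 2 ∈ P)).length, G (D + m) := by
  have h1 := l9l_sl_prod P (fun s => G (l9Re (fun x => x / 2) D P s)) j
  have h2 : ∏ i ∈ Finset.range j, (if i ∈ P then G (l9Re (fun x => x / 2) D P (2 * i)) * G (l9Re (fun x => x / 2) D P (2 * i + 1)) else 1)
      = ∏ i ∈ P, G (l9Re (fun x => x / 2) D P (2 * i)) * G (l9Re (fun x => x / 2) D P (2 * i + 1)) := by
    rw [Finset.prod_ite_mem, Finset.inter_eq_right.mpr hP]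
  rw [← h2, ← h1, ← l9l_rank_prod (fun s => decide (s / 2 ∈ P)) (fun m => G (D + m)) (2 * j)]
  congr 1
  apply List.map_congr_left
  intro s hs
  have hs' : s / 2 ∈ P := by simpa using (List.mem_filter.mp hs).2
  unfold l9Re
  rw [if_pos hs']

/-- the internal moment of a part is the moment of the block graph -/
theorem l9l_mo (ms : ℕ → ℝ) (h : L9kBlk N (2 * j) D c sk β ρ) (hc : c ≤ N + 1) (hD : 1 ≤ D) (hsp : ∀ i, i < j → sk (2 * i) (2 * i + 1) < c)
    {Y : JtCtx S} (hY : L9lK N Y) {bd : L14Bd} {𝓕 : Type} [CommRing 𝓕] {L : L14Calc bd ℝ 𝓕} {cm : ℝ} {s : L14Sk D}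
    (KEY : L9lKey ms N c D (l9kG sk ρ) Y L cm s) (P : Finset (Fin j)) :
    l9Mo ms N c D (2 * j) (l9kG sk ρ) β (fun x => x / 2) (l9lM Y j) (P.map Fin.valEmbedding) = (l9lGr h hsp).mom L cm s P := by
  classical
  set P' : Finset ℕ := P.map Fin.valEmbedding with hP'
  have hPr : P' ⊆ Finset.range j := by
    intro i hi
    rw [hP', Finset.mem_map] at hi
    obtain ⟨a, _, rfl⟩ := hi
    exact Finset.mem_range.mpr a.2
  set sl := (List.range (2 * j)).filter (fun s => s / 2 ∈ P') with hsl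
  have has : ∀ A ∈ sl.map β, A < D := by
    intro A hA
    obtain ⟨s, hs, rfl⟩ := List.mem_map.mp hA
    exact h.bl s (List.mem_range.mp (List.mem_filter.mp hs).1)
  have hk := KEY (sl.map β) has
  have hlen : (sl.map β).length = sl.length := List.length_map _
  unfold l9Mo L14Gr.mom
  have e1 : l9It ms N c (sl.map β) D (l9kG sk ρ) (fun T => l9lM Y j P' (l9Pb T (l9Re (fun x => x / 2) D P')))
      = l9It ms N c (sl.map β) D (l9kG sk ρ)
        (fun T => Y.nuK (D + (sl.map β).length) T fun t => ∏ m ∈ Finset.range (sl.map β).length, jtSp (t (D + m))) := by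
    apply l9l_it_congr ms (sl.map β) D _ _ _ h.g_isTr has
    intro T hT
    have hf : ∀ x, x < 2 * j → l9Re (fun x => x / 2) D P' x < D + (sl.map β).length := by
      intro x hx
      unfold l9Re
      split_ifs with hxp
      · have := l9l_rank_lt (fun s => decide (s / 2 ∈ P')) hx (by simpa using hxp)
        rw [hlen]
        exact Nat.add_lt_add_left this D
      · omega
    rw [l9l_M_pb hY hT _ hf hPr]
    congr 1
    funext t
    rw [hlen]
    exact l9l_spin_prod D hPr (fun x => jtSp (t x))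
  rw [e1, hk]
  congr 1
  funext A
  congr 1
  rw [l9l_sl_count]
  unfold L14Gr.deg
  rw [Finset.card_filter, Finset.card_filter, ← Finset.sum_add_distrib]
  rw [← Fin.sum_univ_eq_sum_range (fun i => if i ∈ P' then (if β (2 * i) = (A : ℕ) then 1 else 0) + (if β (2 * i + 1) = (A : ℕ) then 1 else 0) else 0) j]
  rw [← Finset.sum_filter, Finset.sum_congr (s₂ := P) ?_ fun _ _ => rfl]
  · refine Finset.sum_congr rfl fun i _ => ?_
    congr 1
    · refine if_congr ?_ rfl rfl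
      exact (Fin.ext_iff (a := ((l9lGr h hsp).e i).1) (b := A)).symm
    · refine if_congr ?_ rfl rfl
      exact (Fin.ext_iff (a := ((l9lGr h hsp).e i).2) (b := A)).symm
  · ext i
    simp only [hP', Finset.mem_filter, Finset.mem_univ, true_and, Finset.mem_map, Fin.valEmbedding_apply]
    constructor
    · rintro ⟨a, ha, hai⟩
      rwa [← Fin.ext hai]
    · exact fun hi => ⟨i, hi, rfl⟩

open Classical in
/-- retraction of the slots on the slots of `P` -/
noncomputable def l9lF (j : ℕ) (P : Finset ℕ) : ℕ → ℕ := fun x =>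
  if x < 2 * j ∧ x / 2 ∈ P then x else if h : ∃ i, i ∈ P ∧ i < j then 2 * Nat.find h else 0

open Classical in
/-- the moment of `P`, local by construction (also on the tables which are not trees) -/
noncomputable def l9lMt (Y : JtCtx S) (j : ℕ) : Finset ℕ → JtTopo → ℝ := fun P τ =>
  if ∃ i, i ∈ P ∧ i < j then l9lM Y j P (l9Pb τ (l9lF j P)) else 0

theorem l9l_eqns_cite2 : True := by
  have := @l9lF.eq_1
  have := @l9lMt.eq_1
  trivial

theorem l9l_F_spec {P : Finset ℕ} (h : ∃ i, i ∈ P ∧ i < j) (x : ℕ) : l9lF j P x < 2 * j ∧ l9lF j P x / 2 ∈ P := by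
  classical
  unfold l9lF
  split_ifs with h1
  · exact h1
  · have := Nat.find_spec h
    refine ⟨by omega, ?_⟩
    rw [Nat.mul_div_cancel_left _ (by norm_num)]
    exact this.1

theorem l9l_F_id {P : Finset ℕ} {x : ℕ} (hx : x < 2 * j) (hp : x / 2 ∈ P) : l9lF j P x = x := by
  unfold l9lF
  rw [if_pos ⟨hx, hp⟩]

theorem l9l_Mt_loc (Y : JtCtx S) (P : Finset ℕ) (τ₁ τ₂ : JtTopo)
    (h : ∀ s s', s < 2 * j → s' < 2 * j → s / 2 ∈ P → s' / 2 ∈ P → τ₁ s s' = τ₂ s s') : l9lMt Y j P τ₁ = l9lMt Y j P τ₂ := by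
  unfold l9lMt
  split_ifs with h1
  · congr 1
    funext x y
    exact h _ _ (l9l_F_spec h1 x).1 (l9l_F_spec h1 y).1 (l9l_F_spec h1 x).2 (l9l_F_spec h1 y).2
  · rfl

theorem l9l_Mt_eq {Y : JtCtx S} (hY : L9lK N Y) {τ : JtTopo} (hτ : IsTr N (2 * j) τ) {P : Finset ℕ} (hP : P ⊆ Finset.range j)
    (hne : P.Nonempty) : l9lMt Y j P τ = l9lM Y j P τ := by
  obtain ⟨i0, hi0⟩ := hne
  have h1 : ∃ i, i ∈ P ∧ i < j := ⟨i0, hi0, Finset.mem_range.mp (hP hi0)⟩
  unfold l9lMt
  rw [if_pos h1, l9l_M_pb hY hτ _ (fun x _ => (l9l_F_spec h1 x).1) hP]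
  have h2 := l9l_M_pb hY hτ id (fun x hx => hx) hP
  have h3 : l9Pb τ id = τ := rfl
  rw [h3] at h2
  rw [h2]
  congr 1
  funext t
  refine Finset.prod_congr rfl fun i hi => ?_
  have hi' := Finset.mem_range.mp (hP hi)
  rw [l9l_F_id (by omega) (by rw [show 2 * i / 2 = i by omega]; exact hi),
    l9l_F_id (by omega) (by rw [show (2 * i + 1) / 2 = i by omega]; exact hi)]
  rfl

theorem l9l_re_lt {D : ℕ} (hD : 1 ≤ D) (P : Finset ℕ) {x : ℕ} (hx : x < 2 * j) :
    l9Re (fun x => x / 2) D P x < D + ((List.range (2 * j)).filter (fun s => s / 2 ∈ P)).length := by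
  unfold l9Re
  split_ifs with hxp
  · have := l9l_rank_lt (fun s => decide (s / 2 ∈ P)) hx (by simpa using hxp)
    exact Nat.add_lt_add_left this D
  · omega

theorem l9l_range_eq (j : ℕ) : Finset.range j = (Finset.univ : Finset (Fin j)).map Fin.valEmbedding := by
  ext i
  simp only [Finset.mem_range, Finset.mem_map, Finset.mem_univ, true_and, Fin.valEmbedding_apply]
  constructor
  · exact fun hi => ⟨⟨i, hi⟩, rfl⟩
  · rintro ⟨a, rfl⟩
    exact a.2

open Classical in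
/-- LC1 for the cumulants: the coefficient `κ_K` grouped by the skeleton -/
theorem l9l_kap (ms : ℕ → ℝ) (h : L9kBlk N (2 * j) D c sk β ρ) (hc : c ≤ N + 1) (hj : 1 ≤ j) (hD : 1 ≤ D)
    (hsp : ∀ i, i < j → sk (2 * i) (2 * i + 1) < c) {Y : JtCtx S} (hY : L9lK N Y) {bd : L14Bd} {𝓕 : Type} [CommRing 𝓕]
    {L : L14Calc bd ℝ 𝓕} {cm : ℝ} {s : L14Sk D} (KEY : L9lKey ms N c D (l9kG sk ρ) Y L cm s) :
    trPm ms c ^ D * ∑ τ ∈ (l9aTab N (2 * j)).filter (fun τ => l9rTc (2 * j) c τ = sk), l9aWt ms N 1 (2 * j) τ * Y.Kap (2 * j) 0 τ (Finset.range j)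
      = l9aWt ms N 1 D (l9kG sk ρ) * (l9lGr h hsp).coef L cm s := by
  have hA : (Finset.range j).Nonempty := ⟨0, Finset.mem_range.mpr hj⟩
  have key := l9c_lc1_cum ms h hc (by omega : 1 ≤ 2 * j) hD (Finset.range j) (fun x => x / 2)
    (fun s hs => Finset.mem_range.mpr (by omega)) (l9lMt Y j) (l9l_Mt_loc Y)
  have e1 : ∑ τ ∈ (l9aTab N (2 * j)).filter (fun τ => l9rTc (2 * j) c τ = sk), l9aWt ms N 1 (2 * j) τ * l9Cum (fun P => l9lMt Y j P τ) (Finset.range j)
      = ∑ τ ∈ (l9aTab N (2 * j)).filter (fun τ => l9rTc (2 * j) c τ = sk), l9aWt ms N 1 (2 * j) τ * Y.Kap (2 * j) 0 τ (Finset.range j) := by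
    refine Finset.sum_congr rfl fun τ hτ => ?_
    have hτ' : IsTr N (2 * j) τ := (l9a_mem_tab.mp (Finset.mem_filter.mp hτ).1).1
    congr 1
    unfold JtCtx.Kap
    rw [jtLog_eq_cum _ hA]
    exact l9Cum_congr fun t ht hne => l9l_Mt_eq hY hτ' ht hne
  have e2 : l9Cum (l9Mo ms N c D (2 * j) (l9kG sk ρ) β (fun x => x / 2) (l9lMt Y j)) (Finset.range j) = (l9lGr h hsp).coef L cm s := by
    have a1 : l9Cum (l9Mo ms N c D (2 * j) (l9kG sk ρ) β (fun x => x / 2) (l9lMt Y j)) (Finset.range j)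
        = l9Cum (l9Mo ms N c D (2 * j) (l9kG sk ρ) β (fun x => x / 2) (l9lM Y j)) (Finset.range j) := by
      refine l9Cum_congr fun t ht hne => ?_
      unfold l9Mo
      apply l9l_it_congr ms _ D _ _ _ h.g_isTr
      · intro A hA
        obtain ⟨x, hx, rfl⟩ := List.mem_map.mp hA
        exact h.bl x (List.mem_range.mp (List.mem_filter.mp hx).1)
      · intro T hT
        rw [List.length_map] at hT
        exact l9l_Mt_eq hY (tr_comap_isTr hT _ fun x hx => l9l_re_lt hD t hx) ht hne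
    rw [a1, l9l_range_eq, l9l_cum_map, L14Gr.coef_eq_cum]
    congr 1
    funext P
    exact l9l_mo ms h hc hD hsp hY KEY P
  rw [e1, e2] at key
  exact key.symm

open Classical in
/-- the part `H` -/
theorem l9l_sum_H (ms : ℕ → ℝ) (h : L9kBlk N (2 * j) D c sk β ρ) (hc : c ≤ N + 1) (hpos : trPm ms c ≠ 0) (hj : 1 ≤ j) (hD : 1 ≤ D)
    (hsp : ∀ i, i < j → sk (2 * i) (2 * i + 1) < c) {Y : JtCtx S} (hY : L9lK N Y) {R : Finset ℕ} (hR : R ⊆ Finset.range j)
    {bd : L14Bd} {𝓕 : Type} [CommRing 𝓕] {L : L14Calc bd ℝ 𝓕} {cm : ℝ} {s : L14Sk D} (KEY : L9lKey ms N c D (l9kG sk ρ) Y L cm s) :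
    ∑ τ ∈ (l9aTab N (2 * j)).filter (fun τ => l9rTc (2 * j) c τ = sk), l9lH ms N Y j R τ
      = l9lW ms N j D c (l9kG sk ρ) * ((∏ i : Fin j, l9lB Y sk R i) * (l9lGr h hsp).coef L cm s) := by
  have hkap := l9l_kap ms h hc hj hD hsp hY KEY
  set Bsk : ℝ := (∏ i ∈ R, Y.bC (sk (2 * i) (2 * i + 1))) * ∏ i ∈ Finset.range j \ R, Y.dC (sk (2 * i) (2 * i + 1)) with hBsk
  have hB : ∏ i : Fin j, l9lB Y sk R i = Bsk := by
    unfold l9lB
    rw [Fin.prod_univ_eq_prod_range (fun i => if i ∈ R then Y.bC (sk (2 * i) (2 * i + 1)) else Y.dC (sk (2 * i) (2 * i + 1))) j,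
      Finset.prod_ite, hBsk]
    congr 1
    · refine Finset.prod_congr ?_ fun _ _ => rfl
      ext i
      simp only [Finset.mem_filter, Finset.mem_range]
      exact ⟨fun hh => hh.2, fun hh => ⟨Finset.mem_range.mp (hR hh), hh⟩⟩
    · refine Finset.prod_congr ?_ fun _ _ => rfl
      ext i
      simp only [Finset.mem_filter, Finset.mem_range, Finset.mem_sdiff]
  have e1 : ∀ τ ∈ (l9aTab N (2 * j)).filter (fun τ => l9rTc (2 * j) c τ = sk),
      l9lH ms N Y j R τ = (((2 : ℝ) ^ j * (j ! : ℝ))⁻¹ * Bsk) * (l9aWt ms N 1 (2 * j) τ * Y.Kap (2 * j) 0 τ (Finset.range j)) := by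
    intro τ hτ
    rw [Finset.mem_filter] at hτ
    have hp : ∀ i, τ (jtC 0 i) (jtD 0 i) = sk (2 * i) (2 * i + 1) := by
      intro i
      unfold jtC jtD
      rw [Nat.zero_add]
      exact l9l_pair hτ.1 hτ.2 hsp i
    have hoff : l9lOff N j τ = 1 := by
      unfold l9lOff
      refine Finset.prod_eq_one fun i hi => ?_
      rw [hp i, if_pos]
      have := hsp i (Finset.mem_range.mp hi)
      omega
    unfold l9lH l9lA JtCtx.cf
    rw [hoff]
    simp only [hp]
    rw [hBsk]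
    ring
  rw [Finset.sum_congr rfl e1, ← Finset.mul_sum, hB]
  unfold l9lW
  have hm : trPm ms c ^ D ≠ 0 := pow_ne_zero _ hpos
  have h2 : ∑ τ ∈ (l9aTab N (2 * j)).filter (fun τ => l9rTc (2 * j) c τ = sk), l9aWt ms N 1 (2 * j) τ * Y.Kap (2 * j) 0 τ (Finset.range j)
      = l9aWt ms N 1 D (l9kG sk ρ) * (l9lGr h hsp).coef L cm s / trPm ms c ^ D := by
    rw [eq_div_iff hm, mul_comm]
    exact hkap
  rw [h2]
  field_simp

/-- the table over `sk` in which all the slots of a block coincide -/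
def l9lRp (n : ℕ) (sk : JtTopo) (β ρ : ℕ → ℕ) : JtTopo := l9aNm n fun x y => l9kG sk ρ (β x) (β y)

theorem l9l_eqns_cite3 : True := by
  have := @l9lRp.eq_1
  trivial

theorem l9l_rp_apply {n : ℕ} (h : L9kBlk N n D c sk β ρ) {x y : ℕ} (hx : x < n) (hy : y < n) :
    l9lRp n sk β ρ x y = if β x = β y then N + 1 else sk x y := by
  have e : l9lRp n sk β ρ x y = sk (ρ (β x)) (ρ (β y)) := by
    unfold l9lRp l9aNm l9kG
    rw [if_pos ⟨hx, hy⟩]
  have hbx := h.bl x hx
  have hby := h.bl y hy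
  rw [e]
  split_ifs with hb
  · rw [hb]
    exact h.tr.diag _ (h.rl _ hby)
  · refine l9k_transfer h.tr hx (h.rl _ hbx) hy (h.rl _ hby) (c := c) ?_ ?_ ?_
    · exact (h.eq _ _ hx (h.rl _ hbx)).mpr (h.br _ hbx).symm
    · exact (h.eq _ _ hy (h.rl _ hby)).mpr (h.br _ hby).symm
    · by_contra hcon
      exact hb ((h.eq _ _ hx hy).mp (not_lt.mp hcon))

theorem l9l_rp_mem {n : ℕ} (h : L9kBlk N n D c sk β ρ) : l9lRp n sk β ρ ∈ l9aTab N n :=
  l9a_nm_mem_tab (tr_comap_isTr h.g_isTr β h.bl)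

theorem l9l_rp_tc {n : ℕ} (h : L9kBlk N n D c sk β ρ) (hc : c ≤ N + 1) : l9rTc n c (l9lRp n sk β ρ) = sk := by
  funext x y
  by_cases hxy : x < n ∧ y < n
  · obtain ⟨hx, hy⟩ := hxy
    by_cases e : x = y
    · subst e
      have : l9rTc n c (l9lRp n sk β ρ) x x = l9lRp n sk β ρ x x := by simp [l9rTc, l9rCut, hx]
      rw [this, l9l_rp_apply h hx hx, if_pos rfl, h.tr.diag x hx]
    · rw [l9r_tc_apply _ hx hy e, l9l_rp_apply h hx hy]
      have h1 := h.le x y hx hy e
      have h2 := h.eq x y hx hy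
      split_ifs with hb
      · have := h2.mpr hb
        omega
      · have : ¬ c ≤ sk x y := fun hh => hb (h2.mp hh)
        omega
  · have h1 : l9rTc n c (l9lRp n sk β ρ) x y = 0 := by simp [l9rTc, l9rCut, hxy]
    rw [h1, ← h.nm]
    unfold l9aNm
    rw [if_neg hxy]

/-- a table of the fibre: the slots of different blocks -/
theorem l9l_fib_ne {n : ℕ} (h : L9kBlk N n D c sk β ρ) {τ : JtTopo} (hsk : l9rTc n c τ = sk) {x y : ℕ} (hx : x < n) (hy : y < n)
    (hb : β x ≠ β y) : τ x y = sk x y := by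
  have e : x ≠ y := fun e => hb (by rw [e])
  have h1 : ¬ c ≤ sk x y := fun hh => hb ((h.eq x y hx hy).mp hh)
  rw [← hsk, l9r_tc_apply τ hx hy e] at h1 ⊢
  omega

/-- a table of the fibre: coincident slots lie in one block -/
theorem l9l_fib_eq {n : ℕ} (h : L9kBlk N n D c sk β ρ) (hc : c ≤ N + 1) {τ : JtTopo} (hsk : l9rTc n c τ = sk) {x y : ℕ} (hx : x < n)
    (hy : y < n) (hxy : x ≠ y) (ht : τ x y = N + 1) : β x = β y := by
  refine (h.eq x y hx hy).mp ?_
  rw [← hsk, l9r_tc_apply τ hx hy hxy, ht]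
  omega

/-- a repeated pair: two blocks, and the table is the table with coincident slots -/
theorem l9l_rep {τ : JtTopo} (h : L9kBlk N 4 D c sk β ρ) (hc : c ≤ N + 1) (hsp : ∀ i, i < 2 → sk (2 * i) (2 * i + 1) < c)
    (hτ : τ ∈ l9aTab N 4) (hsk : l9rTc 4 c τ = sk)
    (hcond : (τ 0 2 = N + 1 ∧ τ 1 3 = N + 1) ∨ (τ 0 3 = N + 1 ∧ τ 1 2 = N + 1)) : D = 2 ∧ τ = l9lRp 4 sk β ρ := by
  obtain ⟨htr, hnm⟩ := l9a_mem_tab.mp hτ
  have hb01 : β 0 ≠ β 1 := by
    intro e
    have h1 := (h.eq 0 1 (by norm_num) (by norm_num)).mpr e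
    have h2 := hsp 0 (by norm_num)
    simp only [Nat.mul_zero, Nat.zero_add] at h2
    omega
  have hall : ∀ x, x < 4 → β x = β 0 ∨ β x = β 1 := by
    intro x hx
    rcases hcond with ⟨a1, a2⟩ | ⟨a1, a2⟩
    · have e02 := l9l_fib_eq h hc hsk (x := 0) (y := 2) (by norm_num) (by norm_num) (by norm_num) a1
      have e13 := l9l_fib_eq h hc hsk (x := 1) (y := 3) (by norm_num) (by norm_num) (by norm_num) a2
      interval_cases x
      · exact Or.inl rfl
      · exact Or.inr rfl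
      · exact Or.inl e02.symm
      · exact Or.inr e13.symm
    · have e03 := l9l_fib_eq h hc hsk (x := 0) (y := 3) (by norm_num) (by norm_num) (by norm_num) a1
      have e12 := l9l_fib_eq h hc hsk (x := 1) (y := 2) (by norm_num) (by norm_num) (by norm_num) a2
      interval_cases x
      · exact Or.inl rfl
      · exact Or.inr rfl
      · exact Or.inr e12.symm
      · exact Or.inl e03.symm
  have hD2 : D = 2 := by
    have hA : ∀ A, A < D → A = β 0 ∨ A = β 1 := by
      intro A hA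
      have := hall (ρ A) (h.rl A hA)
      rwa [h.br A hA] at this
    have b0 := h.bl 0 (by norm_num)
    have b1 := h.bl 1 (by norm_num)
    by_contra hne
    have h3 : 3 ≤ D := by omega
    have c0 := hA 0 (by omega)
    have c1 := hA 1 (by omega)
    have c2 := hA 2 (by omega)
    omega
  refine ⟨hD2, ?_⟩
  have hag : L9aAg 4 τ (l9lRp 4 sk β ρ) := by
    intro x y hx hy
    rw [l9l_rp_apply h hx hy]
    split_ifs with hb
    · have s02 := htr.symm 0 2 (by norm_num) (by norm_num)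
      have s13 := htr.symm 1 3 (by norm_num) (by norm_num)
      have s03 := htr.symm 0 3 (by norm_num) (by norm_num)
      have s12 := htr.symm 1 2 (by norm_num) (by norm_num)
      have d0 := htr.diag 0 (by norm_num)
      have d1 := htr.diag 1 (by norm_num)
      have d2 := htr.diag 2 (by norm_num)
      have d3 := htr.diag 3 (by norm_num)
      rcases hcond with ⟨a1, a2⟩ | ⟨a1, a2⟩
      · have e02 := l9l_fib_eq h hc hsk (x := 0) (y := 2) (by norm_num) (by norm_num) (by norm_num) a1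
        have e13 := l9l_fib_eq h hc hsk (x := 1) (y := 3) (by norm_num) (by norm_num) (by norm_num) a2
        interval_cases x <;> interval_cases y <;> omega
      · have e03 := l9l_fib_eq h hc hsk (x := 0) (y := 3) (by norm_num) (by norm_num) (by norm_num) a1
        have e12 := l9l_fib_eq h hc hsk (x := 1) (y := 2) (by norm_num) (by norm_num) (by norm_num) a2
        interval_cases x <;> interval_cases y <;> omega
    · exact l9l_fib_ne h hsk hx hy hb
  rw [← hnm, l9a_nm_eq hag]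
  exact (l9a_mem_tab.mp (l9l_rp_mem h)).2

open Classical in
/-- the square counterterm: one table (the repeated pair) over a double edge, none over the other skeletons -/
theorem l9l_sum_Hq (ms : ℕ → ℝ) (h : L9kBlk N 4 D c sk β ρ) (hc : c ≤ N + 1) (hpos : trPm ms c ≠ 0)
    (hsp : ∀ i, i < 2 → sk (2 * i) (2 * i + 1) < c) (Y : JtCtx S) :
    ∑ τ ∈ (l9aTab N 4).filter (fun τ => l9rTc 4 c τ = sk), l9lHq ms N Y τ
      = l9lW ms N 2 D c (l9kG sk ρ) * -(if D = 2 then trPm ms c ^ 2 * Y.bC (sk 0 1) else 0) := by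
  by_cases hD2 : D = 2
  · subst hD2
    rw [if_pos rfl]
    have hmem : l9lRp 4 sk β ρ ∈ (l9aTab N 4).filter (fun τ => l9rTc 4 c τ = sk) :=
      Finset.mem_filter.mpr ⟨l9l_rp_mem h, l9l_rp_tc h hc⟩
    rw [Finset.sum_eq_single_of_mem _ hmem]
    · have b0 := h.bl 0 (by norm_num)
      have b1 := h.bl 1 (by norm_num)
      have b2 := h.bl 2 (by norm_num)
      have b3 := h.bl 3 (by norm_num)
      have hb01 : β 0 ≠ β 1 := by
        intro e
        have h1 := (h.eq 0 1 (by norm_num) (by norm_num)).mpr e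
        have h2 := hsp 0 (by norm_num)
        simp only [Nat.mul_zero, Nat.zero_add] at h2
        omega
      have hb23 : β 2 ≠ β 3 := by
        intro e
        have h1 := (h.eq 2 3 (by norm_num) (by norm_num)).mpr e
        have h2 : sk 2 3 < c := hsp 1 (by norm_num)
        omega
      have h01 : l9lRp 4 sk β ρ 0 1 = sk 0 1 := by
        rw [l9l_rp_apply h (by norm_num) (by norm_num), if_neg hb01]
      have hcond : (l9lRp 4 sk β ρ 0 2 = N + 1 ∧ l9lRp 4 sk β ρ 1 3 = N + 1) ∨ (l9lRp 4 sk β ρ 0 3 = N + 1 ∧ l9lRp 4 sk β ρ 1 2 = N + 1) := by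
        rw [l9l_rp_apply h (by norm_num) (by norm_num), l9l_rp_apply h (by norm_num) (by norm_num),
          l9l_rp_apply h (by norm_num) (by norm_num), l9l_rp_apply h (by norm_num) (by norm_num)]
        by_cases e : β 0 = β 2
        · left
          rw [if_pos e, if_pos (by omega)]
          exact ⟨rfl, rfl⟩
        · right
          rw [if_pos (by omega), if_pos (by omega)]
          exact ⟨rfl, rfl⟩
      have hoff : l9lOff N 1 (l9lRp 4 sk β ρ) = 1 := by
        unfold l9lOff jtC jtD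
        rw [Finset.prod_range_one]
        simp only [Nat.mul_zero, Nat.zero_add]
        rw [h01, if_pos]
        have h2 := hsp 0 (by norm_num)
        simp only [Nat.mul_zero, Nat.zero_add] at h2
        omega
      have hwt : l9aWt ms N 1 2 (l9lRp 4 sk β ρ) = l9aWt ms N 1 2 (l9kG sk ρ) := by
        refine l9a_wt_congr ms h.g_isTr le_rfl ?_
        intro A B hA hB
        rw [l9l_rp_apply h (by omega) (by omega)]
        have hg := h.g_isTr
        have e01 : l9kG sk ρ (β 0) (β 1) = sk 0 1 := by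
          have := l9l_rp_apply h (x := 0) (y := 1) (by norm_num) (by norm_num)
          rw [if_neg hb01] at this
          rw [← this]
          unfold l9lRp l9aNm
          rw [if_pos ⟨by norm_num, by norm_num⟩]
        have s01 := hg.symm 0 1 (by norm_num) (by norm_num)
        have t01 := h.tr.symm 0 1 (by norm_num) (by norm_num)
        have g01 : l9kG sk ρ 0 1 = sk 0 1 := by
          rcases Nat.lt_or_ge (β 0) 1 with hh | hh
          · have z0 : β 0 = 0 := by omega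
            have z1 : β 1 = 1 := by omega
            rw [z0, z1] at e01
            exact e01
          · have z0 : β 0 = 1 := by omega
            have z1 : β 1 = 0 := by omega
            rw [z0, z1] at e01
            rw [s01]
            exact e01
        interval_cases A <;> interval_cases B
        · rw [if_pos rfl]; exact hg.diag 0 (by norm_num)
        · rw [if_neg hb01]; exact g01
        · rw [if_neg (Ne.symm hb01), ← s01, g01, t01]
        · rw [if_pos rfl]; exact hg.diag 1 (by norm_num)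
      unfold l9lHq l9lAq l9lW
      rw [if_pos hcond, hoff, h01, hwt]
      have hf : ((2 : ℕ) ! : ℝ) = 2 := by norm_num [Nat.factorial]
      rw [hf]
      field_simp
      ring
    · intro τ hτ hne
      rw [Finset.mem_filter] at hτ
      unfold l9lHq l9lAq
      rw [if_neg, zero_mul]
      intro hcond
      exact hne (l9l_rep h hc hsp hτ.1 hτ.2 hcond).2
  · rw [if_neg hD2, neg_zero, mul_zero]
    refine Finset.sum_eq_zero fun τ hτ => ?_
    rw [Finset.mem_filter] at hτ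
    unfold l9lHq l9lAq
    rw [if_neg, zero_mul]
    intro hcond
    exact hD2 (l9l_rep h hc hsp hτ.1 hτ.2 hcond).1

theorem l9l_re {bd : L14Bd} {𝓕 : Type} [CommRing 𝓕] (L : L14Calc bd ℝ 𝓕) (x : ℝ) : L.re x = x :=
  RingHom.congr_fun (Subsingleton.elim L.re (RingHom.id ℝ)) x

open Classical in
/-- **LC1**: the total flat coefficient grouped by the skeleton `= W * l14X` -/
theorem l9l_lc1 (ms : ℕ → ℝ) (h : L9kBlk N (2 * j) D c sk β ρ) (hc : c ≤ N + 1) (hpos : trPm ms c ≠ 0) (hj : 1 ≤ j) (hD : 1 ≤ D)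
    (hsp : ∀ i, i < j → sk (2 * i) (2 * i + 1) < c) {Y : JtCtx S} (hY : L9lK N Y) {R : Finset ℕ} (hR : R ⊆ Finset.range j)
    {bd : L14Bd} {𝓕 : Type} [CommRing 𝓕] {L : L14Calc bd ℝ 𝓕} {s : L14Sk D}
    (KEY : L9lKey ms N c D (l9kG sk ρ) Y L (trPm ms c) s) :
    ∑ τ ∈ (l9aTab N (2 * j)).filter (fun τ => l9rTc (2 * j) c τ = sk), l9lHt ms N Y j R τ
      = l9lW ms N j D c (l9kG sk ρ) * l14X L (l9lGr h hsp) (trPm ms c) s (l9lB Y sk R) (l9lBc Y sk R) := by
  unfold l9lHt l14X l9lBc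
  rw [Finset.sum_add_distrib, l9l_sum_H ms h hc hpos hj hD hsp hY hR KEY, l9l_re]
  by_cases hcase : j = 2 ∧ R = {0, 1}
  · obtain ⟨rfl, hR2⟩ := hcase
    simp only [hR2, and_self, if_true, true_and]
    have hq := l9l_sum_Hq ms (h : L9kBlk N 4 D c sk β ρ) hc hpos hsp Y
    have hq' : ∑ τ ∈ (l9aTab N (2 * 2)).filter (fun τ => l9rTc (2 * 2) c τ = sk), l9lHq ms N Y τ
        = l9lW ms N 2 D c (l9kG sk ρ) * -(if D = 2 then trPm ms c ^ 2 * Y.bC (sk 0 1) else 0) := hq
    rw [hq']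
    ring
  · simp only [if_neg hcase, Finset.sum_const_zero, add_zero]
    by_cases h2 : j = 2 ∧ D = 2
    · have hR2 : R ≠ {0, 1} := fun hh => hcase ⟨h2.1, hh⟩
      rw [if_pos h2, if_neg hR2, mul_zero, sub_zero]
    · rw [if_neg h2, sub_zero]

/-- **SKW** for `W` -/
theorem l9l_W_le {ms : ℕ → ℝ} (hms : IsMs N ms) (h : L9kBlk N (2 * j) D c sk β ρ) (hc : c ≤ N + 1) (hpos : 0 < trPm ms c) (hD : 1 ≤ D) :
    |l9lW ms N j D c (l9kG sk ρ)| ≤ (((2 : ℝ) ^ j * (j ! : ℝ))⁻¹ * (D : ℝ) ^ (D - 1) / trPm ms c) * l9rVol ms (2 * j) c sk := by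
  have hskw := h.skw hms hc hpos
  set m := trPm ms c with hm
  have hK : 0 ≤ ((2 : ℝ) ^ j * (j ! : ℝ))⁻¹ := by positivity
  have hmD : m ^ D = m ^ (D - 1) * m := by
    rw [← pow_succ]
    congr 1
    omega
  unfold l9lW
  rw [abs_div, abs_mul, abs_of_nonneg hK, abs_of_pos (pow_pos hpos D), div_le_iff₀ (pow_pos hpos D)]
  calc ((2 : ℝ) ^ j * (j ! : ℝ))⁻¹ * |l9aWt ms N 1 D (l9kG sk ρ)|
      ≤ ((2 : ℝ) ^ j * (j ! : ℝ))⁻¹ * ((D * m) ^ (D - 1) * l9rVol ms (2 * j) c sk) := mul_le_mul_of_nonneg_left hskw hK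
    _ = _ := by
        rw [hmD, mul_pow]
        field_simp

end main

/-! ## 3. regions, (E4) at one skeleton -/

open Classical in
/-- a region keeps the whole fibre or nothing -/
theorem l9l_B_region (Q : L9Q) (Rg : L9Rg) (n c : ℕ) (H : JtTopo → ℝ) {sk : JtTopo} (hsp : ∀ i, i < n → sk (2 * i) (2 * i + 1) < c) :
    l9rB (Q.Tb Rg n) H (2 * n) c sk = if Rg n (Q.vm sk) then l9rB (l9aTab Q.N (2 * n)) H (2 * n) c sk else 0 := by
  have hvm : ∀ τ ∈ l9aTab Q.N (2 * n), l9rTc (2 * n) c τ = sk → Q.vm τ = Q.vm sk := by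
    intro τ hτ hsk
    funext i
    unfold L9Q.vm
    rw [l9l_pair hτ hsk hsp i]
  unfold l9rB L9Q.Tb
  rw [Finset.filter_filter]
  split_ifs with hR
  · refine Finset.sum_congr ?_ fun _ _ => rfl
    ext τ
    simp only [Finset.mem_filter]
    constructor
    · rintro ⟨h1, _, h3⟩
      exact ⟨h1, h3⟩
    · rintro ⟨h1, h3⟩
      exact ⟨h1, by rw [hvm τ h1 h3]; exact hR, h3⟩
  · refine Finset.sum_eq_zero fun τ hτ => ?_
    rw [Finset.mem_filter] at hτ
    exact absurd (by rw [← hvm τ hτ.1 hτ.2.2]; exact hτ.2.1) hR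

open Classical in
/-- **(E4) at one skeleton**: (M) for the grouped coefficient + KEY at the parameters `t`, `t + hh` + the finite difference bound of `l14X` (242: `l14_fd_main`, ..) -/
theorem l9l_e4 (Q : L9Q) {n D c : ℕ} {sk : JtTopo} {β ρ : ℕ → ℕ} (h : L9kBlk Q.N (2 * n) D c sk β ρ) (hms : IsMs Q.N Q.ms) (hc : c ≤ Q.N + 1)
    (hpos : 0 < trPm Q.ms c) (hn : 1 ≤ n) (hD : 1 ≤ D) (hsp : ∀ i, i < n → sk (2 * i) (2 * i + 1) < c) {R : Finset ℕ} (hR : R ⊆ Finset.range n)
    {hh η E : ℝ} (hh0 : hh ≠ 0) (hK0 : L9lK Q.N (Q.I.X0 (Q.pf Q.t))) (hK1 : L9lK Q.N (Q.I.X0 (Q.pf (Q.t + hh))))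
    {bda bdb : L14Bd} {𝓕a 𝓕b : Type} [CommRing 𝓕a] [CommRing 𝓕b] {La : L14Calc bda ℝ 𝓕a} {Lb : L14Calc bdb ℝ 𝓕b} {s : L14Sk D}
    (KEY0 : L9lKey Q.ms Q.N c D (l9kG sk ρ) (Q.I.X0 (Q.pf Q.t)) La (trPm Q.ms c) s)
    (KEY1 : L9lKey Q.ms Q.N c D (l9kG sk ρ) (Q.I.X0 (Q.pf (Q.t + hh))) Lb (trPm Q.ms c) s)
    (hM : |∑ τ ∈ (l9aTab Q.N (2 * n)).filter (fun τ => l9rTc (2 * n) c τ = sk),
        (l9lHt Q.ms Q.N (Q.I.X0 (Q.pf (Q.t + hh))) n R τ - l9lHt Q.ms Q.N (Q.I.X0 (Q.pf Q.t)) n R τ - hh * l9lHd Q n R τ)|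
      ≤ |hh| * (η * l9rVol Q.ms (2 * n) c sk))
    (hX : |l9fO (Q.u - Q.e * R.card) hh
        (l14X La (l9lGr h hsp) (trPm Q.ms c) s (l9lB (Q.I.X0 (Q.pf Q.t)) sk R) (l9lBc (Q.I.X0 (Q.pf Q.t)) sk R),
          l14X Lb (l9lGr h hsp) (trPm Q.ms c) s (l9lB (Q.I.X0 (Q.pf (Q.t + hh))) sk R) (l9lBc (Q.I.X0 (Q.pf (Q.t + hh))) sk R))| ≤ E) :
    |l9rB (l9aTab Q.N (2 * n)) (Q.Ht n R) (2 * n) c sk|
      ≤ ((((2 : ℝ) ^ n * (n ! : ℝ))⁻¹ * (D : ℝ) ^ (D - 1) / trPm Q.ms c) * E + η) * l9rVol Q.ms (2 * n) c sk := by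
  set Xa := l14X La (l9lGr h hsp) (trPm Q.ms c) s (l9lB (Q.I.X0 (Q.pf Q.t)) sk R) (l9lBc (Q.I.X0 (Q.pf Q.t)) sk R) with hXa
  set Xb := l14X Lb (l9lGr h hsp) (trPm Q.ms c) s (l9lB (Q.I.X0 (Q.pf (Q.t + hh))) sk R) (l9lBc (Q.I.X0 (Q.pf (Q.t + hh))) sk R) with hXb
  have hne : Q.t + hh ≠ Q.t := by
    intro h0
    exact hh0 (by linarith)
  have key := l9f_e4 ((l9aTab Q.N (2 * n)).filter (fun τ => l9rTc (2 * n) c τ = sk)) (fun _ => (1 : ℝ))
    (fun τ t' => l9lHt Q.ms Q.N (Q.I.X0 (Q.pf t')) n R τ) (l9lHd Q n R) (fun t' => if t' = Q.t then Xa else Xb)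
    (t := Q.t) (h := hh) (ρ := Q.u - Q.e * R.card) (W := l9lW Q.ms Q.N n D c (l9kG sk ρ))
    (CW := ((2 : ℝ) ^ n * (n ! : ℝ))⁻¹ * (D : ℝ) ^ (D - 1) / trPm Q.ms c) (Vol := l9rVol Q.ms (2 * n) c sk) (η := η) (E := E) hh0
    (by positivity) (l9r_vol_nonneg hms (2 * n) hc sk)
    (by simpa only [one_mul] using hM)
    (by
      simp only [one_mul, if_true]
      exact l9l_lc1 Q.ms h hc hpos.ne' hn hD hsp hK0 hR KEY0)
    (by
      simp only [one_mul, if_neg hne]
      exact l9l_lc1 Q.ms h hc hpos.ne' hn hD hsp hK1 hR KEY1)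
    (l9l_W_le hms h hc hpos hD)
    (by
      simp only [if_true, if_neg hne]
      exact hX)
  unfold l9rB
  have e : ∑ τ ∈ (l9aTab Q.N (2 * n)).filter (fun τ => l9rTc (2 * n) c τ = sk), Q.Ht n R τ
      = ∑ τ ∈ (l9aTab Q.N (2 * n)).filter (fun τ => l9rTc (2 * n) c τ = sk),
        (1 : ℝ) * ((Q.u - Q.e * R.card) * l9lHt Q.ms Q.N (Q.I.X0 (Q.pf Q.t)) n R τ + l9lHd Q n R τ) := by
    refine Finset.sum_congr rfl fun τ _ => ?_
    rw [one_mul, l9l_Ht_eq]
  rw [e]
  exact key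

/-! ## 4. the instance of `L9lK` -/

/-- **the scalar reference of `llJs` has the marginals** -/
theorem l9l_K_llJs {a : ℝ} (ha : 0 < a) {P : LlStp} (hP : SkAdm a (llSc P)) (n : ℕ) (tl : Option ℕ) : L9lK P.length (llJs n a P tl) := by
  refine ⟨fun q p τ hτ f hf T hT => ?_⟩
  have hlen : (skLvs 1 (llSc P)).length = P.length := by simp [skLvs, llSc]
  have hτ' : IsTr (skLvs 1 (llSc P)).length q τ := by rw [hlen]; exact hτ
  have hU : TrUses p (fun σ : ℕ → SkCfg 1 => T fun x => σ x 0) := by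
    intro σ σ' h
    apply hT
    intro i hi
    rw [h i hi]
  exact tr_nu_comap (sk_sy_base_ok 1 ha) (sk_sy_adm hP) hτ' 0 f hf _ hU

/-- the same at a point of Sec. 9 -/
theorem l9l_K_X0 (I : L9I) (p : LlPt) (ha : 0 < p.a) (hP : SkAdm p.a (llSc (I.P p))) : L9lK (I.P p).length (I.X0 p) :=
  l9l_K_llJs ha hP I.m none

/-! ## 5. reduction of `Q.E4` (282, `L09/RedC`) to the skeletons with their blocks -/

/-- separated designated splits lie strictly below the cut -/
theorem l9l_sep {N n c : ℕ} {ms : ℕ → ℝ} (hms : IsMs N ms) (hc : c ≤ N) (hpos : 0 < trPm ms c) {Cs : ℝ} (hCs : 1 < Cs) (τ₀ : JtTopo)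
    (hsep : ∀ i, i < n → Cs * ms (l9rTc (2 * n) c τ₀ (2 * i) (2 * i + 1)) ≤ trPm ms c) (i : ℕ) (hi : i < n) :
    l9rTc (2 * n) c τ₀ (2 * i) (2 * i + 1) < c := by
  have h1 := hsep i hi
  have h2 : l9rTc (2 * n) c τ₀ (2 * i) (2 * i + 1) ≤ c := by
    rw [l9r_tc_apply τ₀ (by omega) (by omega) (by omega)]
    exact min_le_right _ _
  rcases Nat.lt_or_ge (l9rTc (2 * n) c τ₀ (2 * i) (2 * i + 1)) c with h3 | h3
  · exact h3
  · exfalso
    have e : l9rTc (2 * n) c τ₀ (2 * i) (2 * i + 1) = c := le_antisymm h2 h3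
    rw [e] at h1
    have hc0 : c ≠ 0 := by
      intro h0
      rw [h0] at hpos
      simp [trPm] at hpos
    have h4 : trPm ms c ≤ ms c := by
      unfold trPm
      rw [if_neg hc0]
      exact hms.mono _ _ (by omega) hc
    nlinarith

open Classical in
/-- **(E4) may be checked on the truncated tables with their blocks**      (`hsep` = `Q.Sep Cs n c sk` of 282, unfolded) -/
theorem l9l_E4_of_blk (Q : L9Q) {n c : ℕ} (H : JtTopo → ℝ) (hms : IsMs Q.N Q.ms) (hc : c ≤ Q.N) (hpos : 0 < trPm Q.ms c) (hn : 1 ≤ n) {Cs : ℝ}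
    (hCs : 1 < Cs) (Bd : JtTopo → ℝ) (hBd0 : ∀ sk, 0 ≤ Bd sk)
    (hblk : ∀ (D : ℕ) (β ρ : ℕ → ℕ) (sk : JtTopo), 1 ≤ D → D ≤ 2 * n → L9kBlk Q.N (2 * n) D c sk β ρ → (∀ i, i < n → sk (2 * i) (2 * i + 1) < c) →
      (∀ i, i < n → Cs * Q.vm sk i ≤ trPm Q.ms c) → |l9rB (l9aTab Q.N (2 * n)) H (2 * n) c sk| ≤ Bd sk)
    (sk : JtTopo) (hsep : ∀ i, i < n → Cs * Q.vm sk i ≤ trPm Q.ms c) : |l9rB (l9aTab Q.N (2 * n)) H (2 * n) c sk| ≤ Bd sk := by
  by_cases hsk : ∃ τ₀ ∈ l9aTab Q.N (2 * n), l9rTc (2 * n) c τ₀ = sk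
  · obtain ⟨τ₀, hτ₀, rfl⟩ := hsk
    obtain ⟨D, β, ρ, hD1, hDn, hb⟩ := l9k_blk_exists (l9a_mem_tab.mp hτ₀).1 (by omega : c ≤ Q.N + 1) (by omega : 1 ≤ 2 * n)
    exact hblk D β ρ _ hD1 hDn hb (l9l_sep hms hc hpos hCs τ₀ hsep) hsep
  · have h0 : l9rB (l9aTab Q.N (2 * n)) H (2 * n) c sk = 0 := by
      unfold l9rB
      refine Finset.sum_eq_zero fun τ hτ => ?_
      rw [Finset.mem_filter] at hτ
      exact absurd ⟨τ, hτ.1, hτ.2⟩ hsk
    rw [h0, abs_zero]
    exact hBd0 sk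

end Claimed.Agent.R286
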