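import Claimed.Agent.R286.L09.GridM
import Claimed.Agent.R286.L09.Lc1

/-!
# Row 286 (S0533), LL Sec. 9, node GRID, file P: (M) AT A POINT `Q : L9Q`, EXIT SHAPES OF THE PHYSICAL LAYER      (owner helper263; head of the unit helper60; prefix `l9g`, `L9g`)

TEX[LL:exp:prop-low-coefficients]   (M) = "the derivative in the path parameter of the grouped coefficients is their difference quotient up to `η Vol`" (debt `hM` of `l9f_e4` / `l9l_e4`).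
CONTENTS (all proved, 0 debts):
* `L9Q.Pf`, `L9Q.MIn Q h ε Kb c0`   THE INPUT at a point: terminal mass fixed, `L9gIn` (`L09/GridM`) for the scalar clock of the chain, jets of norm `≤ Kb` for the matrix clock `bC j`, `j < c0`.
* `L9Q.yR n R τ t' = κ_K(τ) ∏_{i ∈ R} b(v_i)`;   `l9g_M_y`: `|∑_{τ ↦ sk} l9lA τ (y(t+h) - y(t) - h y'(t))| ≤ C Kb^|R| ε / m_c Vol`   (form asked by 242, 11: `cf = y ∏ d`, Leibniz exact in `d`).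
* `l9g_M_sq`: the same for the square counterterm;   `l9g_hM_all`: `hM` of `l9l_e4` (276) verbatim for `R = range n`.
* EXIT SHAPES of the physical layer: `L9gPhS 𝔹 F v1` (size segment), `L9gPhD 𝔹 F v1` (strength sweep, `U ≤ 1/2`): for every power `K0`: `∃ Kb N0, ∀ N ≥ N0, ∃ h0 > 0, ∀ 0 < |h| ≤ h0, ∀ᶠ Fs`, all points `t, t + h` of the
  segment, `Dif` at `t`, all `c0` with `m_{c0} ≤ v1`:   `Q.MIn h (|h| x^K0) Kb c0`.      PRODUCERS: scalar clock 156, 229 (size), 245 (direct), head 226;   letters `b`: 263.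
* `l9g_ph_yS`, `l9g_ph_yD`: (M) on the two segments from the shapes.
* Sec. 6: the physical layer SPLIT: K-part `L9gKS`, `L9gKD` (229, 156) | `b`-part `L9gBS`, `L9gBD`, `L9gB0S`, `L9gB0D` (263, 209) | assembly `l9g_phS_of`, `l9g_phD_of`.
-/

set_option autoImplicit false

namespace Claimed.Agent.R286

open Finset
open scoped Nat

/-! ## 1. the input of (M) at a point -/

namespace L9Q

/-- the family of fine paths of the point -/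
noncomputable def Pf (Q : L9Q) : ℝ → LlStp := fun t' => Q.I.P (Q.pf t')

/-- **INPUT OF (M) AT THE POINT `Q`**, signed step `h`, scale `ε` of the Taylor defects, low levels `j < c0`: the terminal mass does not move; `L9gIn` for the scalar clock;
the matrix clock `bC j` at the low levels has a jet of norm `≤ Kb`. -/
structure MIn (Q : L9Q) (h ε Kb : ℝ) (c0 : ℕ) : Prop where
  a_eq : ∀ t', (Q.pf t').a = Q.p.a
  ex : ∃ δ : ℝ, L9gIn Q.p.a Q.Pf Q.t h δ ε c0 ∧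
    ∀ j, j < c0 → ∃ X, L9gR Q.t h (fun t' => (Q.I.X0 (Q.pf t')).bC j) X ∧ l9gN h δ ε X ≤ Kb

/-- the coefficient without the defect factors: `κ_K(τ) ∏_{i ∈ R} b(v_i)` -/
noncomputable def yR (Q : L9Q) (n : ℕ) (R : Finset ℕ) (τ : JtTopo) (t' : ℝ) : ℝ :=
  (Q.I.X0 (Q.pf t')).Kap (2 * n) 0 τ (range n) * ∏ i ∈ R, (Q.I.X0 (Q.pf t')).bC (τ (jtC 0 i) (jtD 0 i))

end L9Q

theorem l9g_eqns_cite6 : True := by
  have := @L9Q.Pf.eq_1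
  have := @L9Q.yR.eq_1
  trivial

theorem l9g_off_loc (N n : ℕ) : L9Loc (2 * n) (l9lOff N n) := by
  intro τ₁ τ₂ H
  unfold l9lOff
  refine Finset.prod_congr rfl fun i hi => ?_
  have := Finset.mem_range.1 hi
  rw [H _ _ (by unfold jtC; omega) (by unfold jtD; omega)]

theorem l9g_off_abs (N n : ℕ) (τ : JtTopo) : |l9lOff N n τ| ≤ 1 := by
  unfold l9lOff
  rw [Finset.abs_prod]
  refine Finset.prod_le_one (fun i _ => abs_nonneg _) fun i _ => ?_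
  split_ifs <;> simp

theorem L9Q.MIn.yR_eq {Q : L9Q} {h ε Kb : ℝ} {c0 : ℕ} (H : Q.MIn h ε Kb c0) (n : ℕ) (R : Finset ℕ) (τ : JtTopo) :
    Q.yR n R τ = l9gY Q.I.m none Q.p.a Q.Pf (fun _ j t' => (Q.I.X0 (Q.pf t')).bC j) n R τ := by
  funext t'
  unfold L9Q.yR l9gY
  have e : Q.I.X0 (Q.pf t') = llJs Q.I.m Q.p.a (Q.Pf t') none := by
    show llJs Q.I.m (Q.pf t').a (Q.I.P (Q.pf t')) none = _
    rw [H.a_eq t']
    rfl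
  simp only [e]

open Classical in
/-- **(M) for `y = κ_K ∏_R b`** (the form asked by 242, `L09/E4`) -/
theorem l9g_M_y (n : ℕ) (A : ℝ) : ∃ C : ℝ, 0 ≤ C ∧ ∀ (Q : L9Q) (h ε Kb : ℝ) (c0 : ℕ), Q.p.a ≤ A → 1 ≤ Kb → Q.MIn h ε Kb c0 →
    ∀ R : Finset ℕ, R ⊆ range n → 1 ≤ n → ∀ c : ℕ, c ≤ c0 → c ≤ Q.N + 1 → 0 < trPm Q.ms c →
    ∀ sk : JtTopo, (∀ i, i < n → sk (2 * i) (2 * i + 1) < c) →
      |∑ τ ∈ (l9aTab Q.N (2 * n)).filter (fun τ => l9rTc (2 * n) c τ = sk),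
          l9lA Q.ms Q.N n τ * (Q.yR n R τ (Q.t + h) - Q.yR n R τ Q.t - h * deriv (Q.yR n R τ) Q.t)|
        ≤ C * Kb ^ R.card * ε / trPm Q.ms c * l9rVol Q.ms (2 * n) c sk := by
  obtain ⟨C, hC, hM⟩ := l9g_M n A
  refine ⟨C, hC, ?_⟩
  intro Q h ε Kb c0 hA hKb H R hR hn c hc0 hcN hpos sk hsp
  obtain ⟨δ, hIn, hlet⟩ := H.ex
  have key := hM Q.I.m none Q.p.a Q.Pf Q.t h δ ε c0 hA hIn (fun _ j t' => (Q.I.X0 (Q.pf t')).bC j) Kb hKb (fun _ j hj => hlet j hj) R hR hn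
    (l9lOff Q.N n) (l9g_off_loc Q.N n) (l9g_off_abs Q.N n) c hc0 hcN hpos sk hsp
  have hvol : 0 ≤ C * Kb ^ R.card * ε / trPm Q.ms c * l9rVol Q.ms (2 * n) c sk := (abs_nonneg _).trans key
  have hc1 : 0 < ((2 : ℝ) ^ n * (n ! : ℝ))⁻¹ := by positivity
  have hc2 : ((2 : ℝ) ^ n * (n ! : ℝ))⁻¹ ≤ 1 := by
    apply inv_le_one_of_one_le₀
    have h1 : (1 : ℝ) ≤ 2 ^ n := one_le_pow₀ (by norm_num)
    have h2 : (1 : ℝ) ≤ (n ! : ℝ) := by exact_mod_cast Nat.one_le_iff_ne_zero.2 (Nat.factorial_ne_zero n)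
    nlinarith
  have e : ∑ τ ∈ (l9aTab Q.N (2 * n)).filter (fun τ => l9rTc (2 * n) c τ = sk),
        l9lA Q.ms Q.N n τ * (Q.yR n R τ (Q.t + h) - Q.yR n R τ Q.t - h * deriv (Q.yR n R τ) Q.t)
      = ((2 : ℝ) ^ n * (n ! : ℝ))⁻¹ * l9rB (l9aTab Q.N (2 * n))
          (fun τ => l9aWt Q.ms Q.N 1 (2 * n) τ * (l9lOff Q.N n τ *
            l9gT Q.I.m none Q.p.a Q.Pf (fun _ j t' => (Q.I.X0 (Q.pf t')).bC j) n R Q.t h τ)) (2 * n) c sk := by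
    unfold l9rB
    rw [Finset.mul_sum]
    refine Finset.sum_congr rfl fun τ _ => ?_
    rw [H.yR_eq]
    unfold l9lA l9gT
    ring
  rw [e, abs_mul, abs_of_pos hc1]
  calc ((2 : ℝ) ^ n * (n ! : ℝ))⁻¹ * _ ≤ 1 * _ := mul_le_mul_of_nonneg_right hc2 (abs_nonneg _)
    _ = _ := one_mul _
    _ ≤ _ := key

/-! ## 2. the square counterterm -/

/-- a label which coincides with an earlier one is attached with the weight `ms N` -/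
theorem l9g_w1_top (ms : ℕ → ℝ) {N s : ℕ} {τ : ℕ → ℕ → ℕ} (hτ : IsTr N (s + 1) τ) (hs : 1 ≤ s) {y : ℕ} (hy : y < s) (he : τ s y = N + 1) :
    l9aW1 ms N τ s = ms N := by
  obtain ⟨-, b2, b3, -, -⟩ := l9a_birth hτ hs
  have hBj : l9aBj τ s = N + 1 := by
    refine le_antisymm b2 ?_
    rw [← he]
    exact Finset.le_sup (f := fun y => τ s y) (Finset.mem_range.2 hy)
  unfold l9aW1 trWt
  rw [if_pos b3, if_pos hBj]

/-- the weight of the square counterterm in terms of the weight of the 4-slot table -/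
theorem l9g_Aq_eq (ms : ℕ → ℝ) {N : ℕ} (h0 : ms N ≠ 0) {τ : ℕ → ℕ → ℕ} (hτ : IsTr N 4 τ) :
    l9lAq ms N τ = l9aWt ms N 1 4 τ *
      (if (τ 0 2 = N + 1 ∧ τ 1 3 = N + 1) ∨ (τ 0 3 = N + 1 ∧ τ 1 2 = N + 1) then -(8 : ℝ)⁻¹ * (ms N ^ 2)⁻¹ * l9lOff N 1 τ else 0) := by
  unfold l9lAq
  split_ifs with hc
  · have h2 : l9aW1 ms N τ 2 = ms N := by
      rcases hc with hc | hc
      · exact l9g_w1_top ms (tr_isTr_mono hτ (by omega)) (by omega) (y := 0) (by omega) (by rw [hτ.symm 2 0 (by omega) (by omega)]; exact hc.1)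
      · exact l9g_w1_top ms (tr_isTr_mono hτ (by omega)) (by omega) (y := 1) (by omega) (by rw [hτ.symm 2 1 (by omega) (by omega)]; exact hc.2)
    have h3 : l9aW1 ms N τ 3 = ms N := by
      rcases hc with hc | hc
      · exact l9g_w1_top ms hτ (by omega) (y := 1) (by omega) (by rw [hτ.symm 3 1 (by omega) (by omega)]; exact hc.2)
      · exact l9g_w1_top ms hτ (by omega) (y := 0) (by omega) (by rw [hτ.symm 3 0 (by omega) (by omega)]; exact hc.1)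
    have e4 : l9aWt ms N 1 4 τ = l9aWt ms N 1 2 τ * ms N ^ 2 := by
      rw [l9a_wt_top ms N (by omega : 1 ≤ 3) τ, l9a_wt_top ms N (by omega : 1 ≤ 2) τ, h2, h3]
      ring
    rw [e4]
    field_simp
  · rw [mul_zero]

open Classical in
/-- **(M) for the square counterterm** -/
theorem l9g_M_sq (A : ℝ) : ∃ C : ℝ, 0 ≤ C ∧ ∀ (Q : L9Q) (h ε Kb : ℝ) (c0 : ℕ), 1 ≤ Q.p.a → Q.p.a ≤ A → 1 ≤ Kb → Q.MIn h ε Kb c0 →
    ∀ c : ℕ, c ≤ c0 → c ≤ Q.N + 1 → 0 < trPm Q.ms c → ∀ sk : JtTopo, sk 0 1 < c →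
      |∑ τ ∈ (l9aTab Q.N 4).filter (fun τ => l9rTc 4 c τ = sk),
          l9lAq Q.ms Q.N τ * ((Q.I.X0 (Q.pf (Q.t + h))).bC (τ 0 1) - (Q.I.X0 (Q.pf Q.t)).bC (τ 0 1)
            - h * deriv (fun t' => (Q.I.X0 (Q.pf t')).bC (τ 0 1)) Q.t)|
        ≤ C * Kb * ε / trPm Q.ms c * l9rVol Q.ms 4 c sk := by
  obtain ⟨C, hC, hgr⟩ := l9g_group 4 A
  refine ⟨C, hC, ?_⟩
  intro Q h ε Kb c0 ha1 hA hKb H c hc0 hcN hpos sk hsp
  obtain ⟨δ, hIn, hlet⟩ := H.ex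
  have hadm0 : SkAdm Q.p.a (llSc (Q.Pf Q.t)) := hIn.adm.self_of_nhds
  obtain ⟨hMa, -⟩ := l9p_adm hIn.a_pos hadm0
  obtain ⟨hms, hmsN⟩ := l9p_isMs hMa
  rw [l9p_M_len, l9p_ms_eq] at hms hmsN
  have hms' : IsMs Q.N Q.ms := hms
  have hmsN' : Q.ms Q.N = Q.p.a := hmsN
  set Tb : ℕ → ℝ := fun j => (Q.I.X0 (Q.pf (Q.t + h))).bC j - (Q.I.X0 (Q.pf Q.t)).bC j - h * deriv (fun t' => (Q.I.X0 (Q.pf t')).bC j) Q.t with hTb
  set G : (ℕ → ℕ → ℕ) → ℝ := fun τ =>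
    (if (τ 0 2 = Q.N + 1 ∧ τ 1 3 = Q.N + 1) ∨ (τ 0 3 = Q.N + 1 ∧ τ 1 2 = Q.N + 1) then -(8 : ℝ)⁻¹ * (Q.ms Q.N ^ 2)⁻¹ * l9lOff Q.N 1 τ else 0)
      * Tb (τ 0 1) with hG
  have hGloc : L9Loc 4 G := by
    intro τ₁ τ₂ Hag
    simp only [hG]
    rw [Hag 0 2 (by omega) (by omega), Hag 1 3 (by omega) (by omega), Hag 0 3 (by omega) (by omega), Hag 1 2 (by omega) (by omega),
      Hag 0 1 (by omega) (by omega), l9g_off_loc Q.N 1 τ₁ τ₂ (fun y z hy hz => Hag y z (by omega) (by omega))]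
  have key := hgr Q.N Q.ms hms' (by rw [hmsN']; exact hA) c hcN hpos (by omega) G hGloc (l9gDK Q.Pf Q.t h) Kb ε
    (l9gDK_nonneg _ _ _) (by linarith) hIn.ε_pos.le hIn.K_sum
    (fun j hj => hIn.K_low j (by rcases hj with hj | hj
                                 · left; omega
                                 · right; exact hj)) sk
    (fun τ hτ hsk => by
      have hF0 : 0 ≤ ∑ j ∈ l9nFk 4 τ, l9gDK Q.Pf Q.t h j := Finset.sum_nonneg fun j _ => l9gDK_nonneg _ _ _ _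
      have h01 : τ 0 1 < c0 := by
        have h1 := hsp
        rw [← hsk, l9r_tc_apply τ (by omega) (by omega) (by omega)] at h1
        omega
      obtain ⟨X, hX, hN⟩ := hlet _ h01
      have hd := hX.defect hIn.δ_pos hIn.ε_pos
      have hTb1 : |Tb (τ 0 1)| ≤ ε * Kb := hd.trans (mul_le_mul_of_nonneg_left hN hIn.ε_pos.le)
      have hfac : |if (τ 0 2 = Q.N + 1 ∧ τ 1 3 = Q.N + 1) ∨ (τ 0 3 = Q.N + 1 ∧ τ 1 2 = Q.N + 1) then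
          -(8 : ℝ)⁻¹ * (Q.ms Q.N ^ 2)⁻¹ * l9lOff Q.N 1 τ else 0| ≤ 1 := by
        split_ifs
        · rw [abs_mul, abs_mul, abs_neg, hmsN']
          have a1 : |(8 : ℝ)⁻¹| ≤ 1 := by rw [abs_of_pos (by norm_num)]; norm_num
          have a2 : |(Q.p.a ^ 2)⁻¹| ≤ 1 := by
            rw [abs_of_pos (by positivity)]
            exact inv_le_one_of_one_le₀ (by nlinarith)
          have a3 := l9g_off_abs Q.N 1 τ
          calc |(8 : ℝ)⁻¹| * |(Q.p.a ^ 2)⁻¹| * |l9lOff Q.N 1 τ| ≤ 1 * 1 * 1 :=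
                mul_le_mul (mul_le_mul a1 a2 (abs_nonneg _) zero_le_one) a3 (abs_nonneg _) (by norm_num)
            _ = 1 := by norm_num
        · simp
      simp only [hG]
      rw [abs_mul]
      calc _ ≤ 1 * (ε * Kb) := mul_le_mul hfac hTb1 (abs_nonneg _) zero_le_one
        _ ≤ Kb * (ε + ∑ j ∈ l9nFk 4 τ, l9gDK Q.Pf Q.t h j) := by nlinarith)
  have e : ∑ τ ∈ (l9aTab Q.N 4).filter (fun τ => l9rTc 4 c τ = sk), l9lAq Q.ms Q.N τ * Tb (τ 0 1)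
      = l9rB (l9aTab Q.N 4) (fun τ => l9aWt Q.ms Q.N 1 4 τ * G τ) 4 c sk := by
    unfold l9rB
    refine Finset.sum_congr rfl fun τ hτ => ?_
    rw [Finset.mem_filter] at hτ
    rw [l9g_Aq_eq Q.ms (by rw [hmsN']; positivity) (l9a_mem_tab.mp hτ.1).1]
    simp only [hG]
    ring
  rw [e]
  exact key

/-! ## 3. `hM` of `l9l_e4` (276), all the factors are `Δ` -/

theorem l9g_cf_all (Q : L9Q) (n : ℕ) (τ : JtTopo) : (fun t' => (Q.I.X0 (Q.pf t')).cf n (range n) τ) = Q.yR n (range n) τ := by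
  funext t'
  unfold JtCtx.cf L9Q.yR
  rw [Finset.sdiff_self, Finset.prod_empty, mul_one]

open Classical in
/-- **`hM` of `l9l_e4`** for `R = range n` (square counterterm included) -/
theorem l9g_hM_all (n : ℕ) (A : ℝ) : ∃ C : ℝ, 0 ≤ C ∧ ∀ (Q : L9Q) (h ε Kb : ℝ) (c0 : ℕ), 1 ≤ Q.p.a → Q.p.a ≤ A → 1 ≤ Kb → Q.MIn h ε Kb c0 →
    1 ≤ n → ∀ c : ℕ, c ≤ c0 → c ≤ Q.N + 1 → 0 < trPm Q.ms c → ∀ sk : JtTopo, (∀ i, i < n → sk (2 * i) (2 * i + 1) < c) →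
      |∑ τ ∈ (l9aTab Q.N (2 * n)).filter (fun τ => l9rTc (2 * n) c τ = sk),
          (l9lHt Q.ms Q.N (Q.I.X0 (Q.pf (Q.t + h))) n (range n) τ - l9lHt Q.ms Q.N (Q.I.X0 (Q.pf Q.t)) n (range n) τ - h * l9lHd Q n (range n) τ)|
        ≤ C * Kb ^ n * ε / trPm Q.ms c * l9rVol Q.ms (2 * n) c sk := by
  obtain ⟨C1, hC1, h1⟩ := l9g_M_y n A
  obtain ⟨C2, hC2, h2⟩ := l9g_M_sq A
  refine ⟨C1 + C2, by positivity, ?_⟩
  intro Q h ε Kb c0 ha1 hA hKb H hn c hc0 hcN hpos sk hsp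
  obtain ⟨δ, hIn, -⟩ := H.ex
  have hε := hIn.ε_pos
  have hadm0 : SkAdm Q.p.a (llSc (Q.Pf Q.t)) := hIn.adm.self_of_nhds
  obtain ⟨hMa, -⟩ := l9p_adm hIn.a_pos hadm0
  obtain ⟨hms, -⟩ := l9p_isMs hMa
  rw [l9p_M_len, l9p_ms_eq] at hms
  have hvol : 0 ≤ l9rVol Q.ms (2 * n) c sk := l9r_vol_nonneg (N := Q.N) hms (2 * n) hcN sk
  have k1 := h1 Q h ε Kb c0 hA hKb H (range n) (Finset.Subset.refl _) hn c hc0 hcN hpos sk hsp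
  rw [Finset.card_range] at k1
  have hy : ∀ τ, l9lH Q.ms Q.N (Q.I.X0 (Q.pf (Q.t + h))) n (range n) τ - l9lH Q.ms Q.N (Q.I.X0 (Q.pf Q.t)) n (range n) τ
      - h * (l9lA Q.ms Q.N n τ * deriv (fun t' => (Q.I.X0 (Q.pf t')).cf n (range n) τ) Q.t)
      = l9lA Q.ms Q.N n τ * (Q.yR n (range n) τ (Q.t + h) - Q.yR n (range n) τ Q.t - h * deriv (Q.yR n (range n) τ) Q.t) := by
    intro τ
    have e := l9g_cf_all Q n τ
    have e1 := congrFun e (Q.t + h)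
    have e2 := congrFun e Q.t
    unfold l9lH
    rw [e, ← e1, ← e2]
    ring
  have hKn : Kb ≤ Kb ^ n := by
    calc Kb = Kb ^ 1 := (pow_one _).symm
      _ ≤ Kb ^ n := pow_le_pow_right₀ hKb hn
  by_cases hc : n = 2 ∧ range n = {0, 1}
  · obtain ⟨rfl, hr⟩ := hc
    have k2 := h2 Q h ε Kb c0 ha1 hA hKb H c hc0 hcN hpos sk (hsp 0 (by omega))
    have e : ∑ τ ∈ (l9aTab Q.N (2 * 2)).filter (fun τ => l9rTc (2 * 2) c τ = sk),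
          (l9lHt Q.ms Q.N (Q.I.X0 (Q.pf (Q.t + h))) 2 (range 2) τ - l9lHt Q.ms Q.N (Q.I.X0 (Q.pf Q.t)) 2 (range 2) τ - h * l9lHd Q 2 (range 2) τ)
        = ∑ τ ∈ (l9aTab Q.N (2 * 2)).filter (fun τ => l9rTc (2 * 2) c τ = sk),
            l9lA Q.ms Q.N 2 τ * (Q.yR 2 (range 2) τ (Q.t + h) - Q.yR 2 (range 2) τ Q.t - h * deriv (Q.yR 2 (range 2) τ) Q.t)
          + ∑ τ ∈ (l9aTab Q.N 4).filter (fun τ => l9rTc 4 c τ = sk),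
            l9lAq Q.ms Q.N τ * ((Q.I.X0 (Q.pf (Q.t + h))).bC (τ 0 1) - (Q.I.X0 (Q.pf Q.t)).bC (τ 0 1)
              - h * deriv (fun t' => (Q.I.X0 (Q.pf t')).bC (τ 0 1)) Q.t) := by
      show _ = _ + ∑ τ ∈ (l9aTab Q.N (2 * 2)).filter (fun τ => l9rTc (2 * 2) c τ = sk), _
      rw [← Finset.sum_add_distrib]
      refine Finset.sum_congr rfl fun τ _ => ?_
      rw [← hy τ]
      unfold l9lHt l9lHd l9lHq
      rw [if_pos ⟨rfl, hr⟩, if_pos ⟨rfl, hr⟩, if_pos ⟨rfl, hr⟩]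
      ring
    rw [e]
    refine (abs_add_le _ _).trans ((add_le_add k1 k2).trans ?_)
    have hb : C2 * Kb * ε / trPm Q.ms c * l9rVol Q.ms 4 c sk ≤ C2 * Kb ^ 2 * ε / trPm Q.ms c * l9rVol Q.ms (2 * 2) c sk := by
      refine mul_le_mul_of_nonneg_right ?_ hvol
      refine div_le_div_of_nonneg_right ?_ hpos.le
      exact mul_le_mul_of_nonneg_right (mul_le_mul_of_nonneg_left hKn hC2) hε.le
    refine (add_le_add le_rfl hb).trans (le_of_eq ?_)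
    ring
  · have e : ∑ τ ∈ (l9aTab Q.N (2 * n)).filter (fun τ => l9rTc (2 * n) c τ = sk),
          (l9lHt Q.ms Q.N (Q.I.X0 (Q.pf (Q.t + h))) n (range n) τ - l9lHt Q.ms Q.N (Q.I.X0 (Q.pf Q.t)) n (range n) τ - h * l9lHd Q n (range n) τ)
        = ∑ τ ∈ (l9aTab Q.N (2 * n)).filter (fun τ => l9rTc (2 * n) c τ = sk),
            l9lA Q.ms Q.N n τ * (Q.yR n (range n) τ (Q.t + h) - Q.yR n (range n) τ Q.t - h * deriv (Q.yR n (range n) τ) Q.t) := by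
      refine Finset.sum_congr rfl fun τ _ => ?_
      rw [← hy τ]
      unfold l9lHt l9lHd
      rw [if_neg hc, if_neg hc, if_neg hc]
      ring
    rw [e]
    refine k1.trans ?_
    refine mul_le_mul_of_nonneg_right ?_ hvol
    refine div_le_div_of_nonneg_right ?_ hpos.le
    refine mul_le_mul_of_nonneg_right ?_ hε.le
    refine mul_le_mul_of_nonneg_right (by linarith) (by positivity)

/-! ## 4. exit shapes of the physical layer -/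

open Filter in
/-- **physical layer, size segment** -/
def L9gPhS (𝔹 : LlBase) (F : LlFix) (v1 : ℝ) : Prop :=
  ∀ K0 : ℝ, ∃ (Kb : ℝ) (N0 : ℕ), 1 ≤ Kb ∧ ∀ N : ℕ, N0 ≤ N → ∃ h0 : ℝ, 0 < h0 ∧ ∀ h : ℝ, h ≠ 0 → |h| ≤ h0 → ∀ᶠ Fs : Finset GhPos in atTop,
    ∀ (s : ℝ) (m : ℕ) (γ : Fin (N + 1) → ℝ) (θ : ℝ), θ ∈ Set.Icc (0 : ℝ) (Real.log 2) → θ + h ∈ Set.Icc (0 : ℝ) (Real.log 2) →
      (⟨F, 𝔹, s, Fs, m⟩ : L9I).Dif (l9PtS F N γ) θ →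
      ∀ c0 : ℕ, trPm (l9QS F 𝔹 s Fs m N γ θ).ms c0 ≤ v1 → (l9QS F 𝔹 s Fs m N γ θ).MIn h (|h| * skX N ^ K0) Kb c0

open Filter in
/-- **physical layer, strength sweep** (away from the kink of `U = min 1 (x λ^(-s/2))`) -/
def L9gPhD (𝔹 : LlBase) (F : LlFix) (v1 : ℝ) : Prop :=
  ∀ K0 : ℝ, ∃ (Kb : ℝ) (N0 : ℕ), 1 ≤ Kb ∧ ∀ N : ℕ, N0 ≤ N → ∃ h0 : ℝ, 0 < h0 ∧ ∀ h : ℝ, h ≠ 0 → |h| ≤ h0 → ∀ᶠ Fs : Finset GhPos in atTop,
    ∀ (s : ℝ) (m : ℕ) (ell : ℝ) (γ : Fin (N + 1) → ℝ) (t : ℝ), ell ∈ Set.Icc (1 : ℝ) ((2 : ℝ) ^ (1 / 6 : ℝ)) → t ∈ l9LamRg F N → t + h ∈ l9LamRg F N →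
      (l9PtL N ell γ t).U F ≤ 1 / 2 → (⟨F, 𝔹, s, Fs, m⟩ : L9I).Dif (l9PtL N ell γ) t →
      ∀ c0 : ℕ, trPm (l9QD F 𝔹 s Fs m N ell γ t).ms c0 ≤ v1 → (l9QD F 𝔹 s Fs m N ell γ t).MIn h (|h| * skX N ^ K0) Kb c0

theorem l9g_eqns_cite7 : True := by
  have := @L9gPhS.eq_1
  have := @L9gPhD.eq_1
  trivial

/-! ## 5. (M) on the two segments -/

theorem l9g_QS_a (F : LlFix) (𝔹 : LlBase) (s : ℝ) (Fs : Finset GhPos) (m N : ℕ) (γ : Fin (N + 1) → ℝ) (θ : ℝ) : (l9QS F 𝔹 s Fs m N γ θ).p.a = 4 := by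
  simp [l9QS, L9Q.p, l9PtS, ll04Pt, LlPt.a]

theorem l9g_QD_a (F : LlFix) (𝔹 : LlBase) (s : ℝ) (Fs : Finset GhPos) (m N : ℕ) (ell : ℝ) (γ : Fin (N + 1) → ℝ) (t : ℝ) : (l9QD F 𝔹 s Fs m N ell γ t).p.a = ell := by
  simp [l9QD, L9Q.p, l9PtL, ll04Pt, LlPt.a]

open Filter Classical in
/-- **(M) on the size segment** -/
theorem l9g_ph_yS {𝔹 : LlBase} {F : LlFix} {v1 : ℝ} (hP : L9gPhS 𝔹 F v1) (n : ℕ) (hn : 1 ≤ n) (K0 : ℝ) :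
    ∃ (C : ℝ) (N0 : ℕ), 0 ≤ C ∧ ∀ N : ℕ, N0 ≤ N → ∃ h0 : ℝ, 0 < h0 ∧ ∀ h : ℝ, h ≠ 0 → |h| ≤ h0 → ∀ᶠ Fs : Finset GhPos in atTop,
    ∀ (s : ℝ) (m : ℕ) (γ : Fin (N + 1) → ℝ) (θ : ℝ), θ ∈ Set.Icc (0 : ℝ) (Real.log 2) → θ + h ∈ Set.Icc (0 : ℝ) (Real.log 2) →
      (⟨F, 𝔹, s, Fs, m⟩ : L9I).Dif (l9PtS F N γ) θ → ∀ Q : L9Q, Q = l9QS F 𝔹 s Fs m N γ θ →
      ∀ R : Finset ℕ, R ⊆ range n → ∀ c : ℕ, c ≤ Q.N + 1 → 0 < trPm Q.ms c → trPm Q.ms c ≤ v1 →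
      ∀ sk : JtTopo, (∀ i, i < n → sk (2 * i) (2 * i + 1) < c) →
        |∑ τ ∈ (l9aTab Q.N (2 * n)).filter (fun τ => l9rTc (2 * n) c τ = sk),
            l9lA Q.ms Q.N n τ * (Q.yR n R τ (Q.t + h) - Q.yR n R τ Q.t - h * deriv (Q.yR n R τ) Q.t)|
          ≤ C * (|h| * skX N ^ K0) / trPm Q.ms c * l9rVol Q.ms (2 * n) c sk := by
  obtain ⟨C, hC, hM⟩ := l9g_M_y n 4
  obtain ⟨Kb, N0, hKb, hP⟩ := hP K0
  refine ⟨C * Kb ^ n, N0, by positivity, fun N hN => ?_⟩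
  obtain ⟨h0, hh0, hP⟩ := hP N hN
  refine ⟨h0, hh0, fun h hne hh => ?_⟩
  filter_upwards [hP h hne hh] with Fs hFs
  intro s m γ θ hθ hθh hD Q hQ R hR c hcN hpos hv1 sk hsp
  subst hQ
  have hIn := hFs s m γ θ hθ hθh hD c hv1
  have key := hM _ h _ Kb c (by rw [l9g_QS_a]) hKb hIn R hR hn c le_rfl hcN hpos sk hsp
  refine key.trans ?_
  obtain ⟨δ, hI, -⟩ := hIn.ex
  have hadm0 := hI.adm.self_of_nhds
  obtain ⟨hMa, -⟩ := l9p_adm hI.a_pos hadm0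
  obtain ⟨hms, -⟩ := l9p_isMs hMa
  rw [l9p_M_len, l9p_ms_eq] at hms
  have hvol : 0 ≤ l9rVol (l9QS F 𝔹 s Fs m N γ θ).ms (2 * n) c sk := l9r_vol_nonneg (N := (l9QS F 𝔹 s Fs m N γ θ).N) hms (2 * n) hcN sk
  refine mul_le_mul_of_nonneg_right ?_ hvol
  refine div_le_div_of_nonneg_right ?_ hpos.le
  refine mul_le_mul_of_nonneg_right ?_ hI.ε_pos.le
  refine mul_le_mul_of_nonneg_left ?_ hC
  refine pow_le_pow_right₀ hKb ?_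
  calc R.card ≤ (range n).card := Finset.card_le_card hR
    _ = n := Finset.card_range n

open Filter Classical in
/-- **(M) on the strength sweep** -/
theorem l9g_ph_yD {𝔹 : LlBase} {F : LlFix} {v1 : ℝ} (hP : L9gPhD 𝔹 F v1) (n : ℕ) (hn : 1 ≤ n) (K0 : ℝ) :
    ∃ (C : ℝ) (N0 : ℕ), 0 ≤ C ∧ ∀ N : ℕ, N0 ≤ N → ∃ h0 : ℝ, 0 < h0 ∧ ∀ h : ℝ, h ≠ 0 → |h| ≤ h0 → ∀ᶠ Fs : Finset GhPos in atTop,
    ∀ (s : ℝ) (m : ℕ) (ell : ℝ) (γ : Fin (N + 1) → ℝ) (t : ℝ), ell ∈ Set.Icc (1 : ℝ) ((2 : ℝ) ^ (1 / 6 : ℝ)) → t ∈ l9LamRg F N → t + h ∈ l9LamRg F N →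
      (l9PtL N ell γ t).U F ≤ 1 / 2 → (⟨F, 𝔹, s, Fs, m⟩ : L9I).Dif (l9PtL N ell γ) t → ∀ Q : L9Q, Q = l9QD F 𝔹 s Fs m N ell γ t →
      ∀ R : Finset ℕ, R ⊆ range n → ∀ c : ℕ, c ≤ Q.N + 1 → 0 < trPm Q.ms c → trPm Q.ms c ≤ v1 →
      ∀ sk : JtTopo, (∀ i, i < n → sk (2 * i) (2 * i + 1) < c) →
        |∑ τ ∈ (l9aTab Q.N (2 * n)).filter (fun τ => l9rTc (2 * n) c τ = sk),
            l9lA Q.ms Q.N n τ * (Q.yR n R τ (Q.t + h) - Q.yR n R τ Q.t - h * deriv (Q.yR n R τ) Q.t)|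
          ≤ C * (|h| * skX N ^ K0) / trPm Q.ms c * l9rVol Q.ms (2 * n) c sk := by
  obtain ⟨C, hC, hM⟩ := l9g_M_y n 2
  obtain ⟨Kb, N0, hKb, hP⟩ := hP K0
  refine ⟨C * Kb ^ n, N0, by positivity, fun N hN => ?_⟩
  obtain ⟨h0, hh0, hP⟩ := hP N hN
  refine ⟨h0, hh0, fun h hne hh => ?_⟩
  filter_upwards [hP h hne hh] with Fs hFs
  intro s m ell γ t hell ht hth hU hD Q hQ R hR c hcN hpos hv1 sk hsp
  subst hQ
  have hIn := hFs s m ell γ t hell ht hth hU hD c hv1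
  have hell2 : ell ≤ 2 := by
    refine hell.2.trans ?_
    calc (2 : ℝ) ^ (1 / 6 : ℝ) ≤ (2 : ℝ) ^ (1 : ℝ) := Real.rpow_le_rpow_of_exponent_le (by norm_num) (by norm_num)
      _ = 2 := Real.rpow_one 2
  have key := hM _ h _ Kb c (by rw [l9g_QD_a]; exact hell2) hKb hIn R hR hn c le_rfl hcN hpos sk hsp
  refine key.trans ?_
  obtain ⟨δ, hI, -⟩ := hIn.ex
  have hadm0 := hI.adm.self_of_nhds
  obtain ⟨hMa, -⟩ := l9p_adm hI.a_pos hadm0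
  obtain ⟨hms, -⟩ := l9p_isMs hMa
  rw [l9p_M_len, l9p_ms_eq] at hms
  have hvol : 0 ≤ l9rVol (l9QD F 𝔹 s Fs m N ell γ t).ms (2 * n) c sk := l9r_vol_nonneg (N := (l9QD F 𝔹 s Fs m N ell γ t).N) hms (2 * n) hcN sk
  refine mul_le_mul_of_nonneg_right ?_ hvol
  refine div_le_div_of_nonneg_right ?_ hpos.le
  refine mul_le_mul_of_nonneg_right ?_ hI.ε_pos.le
  refine mul_le_mul_of_nonneg_left ?_ hC
  refine pow_le_pow_right₀ hKb ?_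
  calc R.card ≤ (range n).card := Finset.card_le_card hR
    _ = n := Finset.card_range n

/-! ## 6. the physical layer split in two: scalar clock | letters `b`; assembly

* `L9gIn.mono`: the input `L9gIn` of (M) is monotone in `(δ, ε)` as long as `δ² ≤ ε`.
* `L9gKS 𝔹 F v1`, `L9gKD 𝔹 F v1`   **K-PART** (producers 229, 156): `∀ K0 ∃ N0, ∀ N ≥ N0, ∃ D h0 > 0, ∀ 0 < |h| ≤ h0, ∀ᶠ Fs`, all points `t, t + h` of the segment, all `c0` with `m_{c0} ≤ v1`: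
                                    `L9gIn a Q.Pf t h (D |h|) (|h| x^K0) c0`.      Size segment: `Dif` at `t` may be used.   Strength sweep: NO `Dif` (the clock is differentiable everywhere: `l9t2_ptL_hasDeriv` of 156);
                                    this is used on AUXILIARY finer chains in the proof of the `b`-part.
* `L9gBS 𝔹 F`, `L9gBD 𝔹 F`         **`b`-PART** (producers 263, 209): on EVERY chain, every level `j`, every `δ ≥ D |h|` with `δ² ≤ |h| x^K0`: a jet of `bC j` of norm `≤ Kb` at the scales `(δ, |h| x^K0)`.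
* `L9gB0S 𝔹 F`, `L9gB0D 𝔹 F`       the same for the number `b_∘ = 1 / Γ'(0)` alone, at a point of differentiability.
* `l9g_phS_of`, `l9g_phD_of`        K-part + `b`-part ⟹ `L9gPhS`, `L9gPhD`. -/

open Filter

/-- the input of (M) is monotone in the two scales -/
theorem L9gIn.mono {a : ℝ} {Pf : ℝ → LlStp} {t h δ ε δ' ε' : ℝ} {c0 : ℕ} (H : L9gIn a Pf t h δ ε c0) (hδ : δ ≤ δ') (hε : ε ≤ ε') (hsq : δ' ^ 2 ≤ ε') :
    L9gIn a Pf t h δ' ε' c0 where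
  a_pos := H.a_pos
  ms := H.ms
  adm := H.adm
  adm1 := H.adm1
  difK := H.difK
  δ_pos := H.δ_pos.trans_le hδ
  sq := hsq
  K_inc := fun j => (H.K_inc j).trans hδ
  K_sum := H.K_sum.trans hε
  K_low := fun j hj => (H.K_low j hj).trans hε

/-- **K-part, size segment** -/
def L9gKS (𝔹 : LlBase) (F : LlFix) (v1 : ℝ) : Prop :=
  ∀ K0 : ℝ, ∃ N0 : ℕ, ∀ N : ℕ, N0 ≤ N → ∃ D h0 : ℝ, 0 < D ∧ 0 < h0 ∧ ∀ h : ℝ, h ≠ 0 → |h| ≤ h0 → ∀ᶠ Fs : Finset GhPos in atTop,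
    ∀ (s : ℝ) (m : ℕ) (γ : Fin (N + 1) → ℝ) (θ : ℝ), θ ∈ Set.Icc (0 : ℝ) (Real.log 2) → θ + h ∈ Set.Icc (0 : ℝ) (Real.log 2) →
      (⟨F, 𝔹, s, Fs, m⟩ : L9I).Dif (l9PtS F N γ) θ →
      ∀ c0 : ℕ, trPm (l9QS F 𝔹 s Fs m N γ θ).ms c0 ≤ v1 → L9gIn 4 (l9QS F 𝔹 s Fs m N γ θ).Pf θ h (D * |h|) (|h| * skX N ^ K0) c0

/-- **K-part, strength sweep** (no differentiability is assumed) -/
def L9gKD (𝔹 : LlBase) (F : LlFix) (v1 : ℝ) : Prop :=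
  ∀ K0 : ℝ, ∃ N0 : ℕ, ∀ N : ℕ, N0 ≤ N → ∃ D h0 : ℝ, 0 < D ∧ 0 < h0 ∧ ∀ h : ℝ, h ≠ 0 → |h| ≤ h0 → ∀ᶠ Fs : Finset GhPos in atTop,
    ∀ (s : ℝ) (m : ℕ) (ell : ℝ) (γ : Fin (N + 1) → ℝ) (t : ℝ), ell ∈ Set.Icc (1 : ℝ) ((2 : ℝ) ^ (1 / 6 : ℝ)) → t ∈ l9LamRg F N → t + h ∈ l9LamRg F N →
      ∀ c0 : ℕ, trPm (l9QD F 𝔹 s Fs m N ell γ t).ms c0 ≤ v1 → L9gIn ell (l9QD F 𝔹 s Fs m N ell γ t).Pf t h (D * |h|) (|h| * skX N ^ K0) c0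

/-- **`b`-part, size segment** -/
def L9gBS (𝔹 : LlBase) (F : LlFix) : Prop :=
  ∀ K0 : ℝ, ∃ (Kb : ℝ) (N0 : ℕ), 1 ≤ Kb ∧ ∀ N : ℕ, N0 ≤ N → ∃ D h0 : ℝ, 0 < D ∧ 0 < h0 ∧ ∀ h : ℝ, h ≠ 0 → |h| ≤ h0 →
    ∀ (Fs : Finset GhPos) (s : ℝ) (m : ℕ) (γ : Fin (N + 1) → ℝ) (θ : ℝ), θ ∈ Set.Icc (0 : ℝ) (Real.log 2) → θ + h ∈ Set.Icc (0 : ℝ) (Real.log 2) →
      (⟨F, 𝔹, s, Fs, m⟩ : L9I).Dif (l9PtS F N γ) θ → ∀ δ : ℝ, D * |h| ≤ δ → δ ^ 2 ≤ |h| * skX N ^ K0 → ∀ j : ℕ,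
        ∃ X, L9gR θ h (fun t' => ((⟨F, 𝔹, s, Fs, m⟩ : L9I).X0 (l9PtS F N γ t')).bC j) X ∧ l9gN h δ (|h| * skX N ^ K0) X ≤ Kb

/-- **`b`-part, strength sweep** -/
def L9gBD (𝔹 : LlBase) (F : LlFix) : Prop :=
  ∀ K0 : ℝ, ∃ (Kb : ℝ) (N0 : ℕ), 1 ≤ Kb ∧ ∀ N : ℕ, N0 ≤ N → ∃ D h0 : ℝ, 0 < D ∧ 0 < h0 ∧ ∀ h : ℝ, h ≠ 0 → |h| ≤ h0 →
    ∀ (Fs : Finset GhPos) (s : ℝ) (m : ℕ) (ell : ℝ) (γ : Fin (N + 1) → ℝ) (t : ℝ), ell ∈ Set.Icc (1 : ℝ) ((2 : ℝ) ^ (1 / 6 : ℝ)) → t ∈ l9LamRg F N → t + h ∈ l9LamRg F N →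
      (l9PtL N ell γ t).U F ≤ 1 / 2 → (⟨F, 𝔹, s, Fs, m⟩ : L9I).Dif (l9PtL N ell γ) t → ∀ δ : ℝ, D * |h| ≤ δ → δ ^ 2 ≤ |h| * skX N ^ K0 → ∀ j : ℕ,
        ∃ X, L9gR t h (fun t' => ((⟨F, 𝔹, s, Fs, m⟩ : L9I).X0 (l9PtL N ell γ t')).bC j) X ∧ l9gN h δ (|h| * skX N ^ K0) X ≤ Kb

/-- **jet of `b_∘`, size segment** -/
def L9gB0S (𝔹 : LlBase) (F : LlFix) : Prop :=
  ∀ K0 : ℝ, ∃ (Kb : ℝ) (N0 : ℕ), 1 ≤ Kb ∧ ∀ N : ℕ, N0 ≤ N → ∃ D h0 : ℝ, 0 < D ∧ 0 < h0 ∧ ∀ h : ℝ, h ≠ 0 → |h| ≤ h0 →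
    ∀ (γ : Fin (N + 1) → ℝ) (θ : ℝ), θ ∈ Set.Icc (0 : ℝ) (Real.log 2) → θ + h ∈ Set.Icc (0 : ℝ) (Real.log 2) →
      DifferentiableAt ℝ (fun t' => (l9PtS F N γ t').b0 F 𝔹) θ → ∀ δ : ℝ, D * |h| ≤ δ → δ ^ 2 ≤ |h| * skX N ^ K0 →
        ∃ X, L9gR θ h (fun t' => (l9PtS F N γ t').b0 F 𝔹) X ∧ l9gN h δ (|h| * skX N ^ K0) X ≤ Kb

/-- **jet of `b_∘`, strength sweep** -/
def L9gB0D (𝔹 : LlBase) (F : LlFix) : Prop :=
  ∀ K0 : ℝ, ∃ (Kb : ℝ) (N0 : ℕ), 1 ≤ Kb ∧ ∀ N : ℕ, N0 ≤ N → ∃ D h0 : ℝ, 0 < D ∧ 0 < h0 ∧ ∀ h : ℝ, h ≠ 0 → |h| ≤ h0 →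
    ∀ (ell : ℝ) (γ : Fin (N + 1) → ℝ) (t : ℝ), ell ∈ Set.Icc (1 : ℝ) ((2 : ℝ) ^ (1 / 6 : ℝ)) → t ∈ l9LamRg F N → t + h ∈ l9LamRg F N →
      DifferentiableAt ℝ (fun t' => (l9PtL N ell γ t').b0 F 𝔹) t → ∀ δ : ℝ, D * |h| ≤ δ → δ ^ 2 ≤ |h| * skX N ^ K0 →
        ∃ X, L9gR t h (fun t' => (l9PtL N ell γ t').b0 F 𝔹) X ∧ l9gN h δ (|h| * skX N ^ K0) X ≤ Kb

theorem l9g_eqns_cite8 : True := by
  have := @L9gB0S.eq_1
  have := @L9gB0D.eq_1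
  have := @L9gKS.eq_1
  have := @L9gKD.eq_1
  have := @L9gBS.eq_1
  have := @L9gBD.eq_1
  trivial

theorem l9g_skX_pos {N : ℕ} (hN : 1 ≤ N) : 0 < skX N := by
  unfold skX
  exact Real.rpow_pos_of_pos (by exact_mod_cast hN) _

/-- choice of the common `δ = max D₁ D₂ |h|` -/
theorem l9g_common {D1 D2 x h : ℝ} (h1 : 0 < D1) (hh : |h| ≤ x / (max D1 D2) ^ 2) :
    D1 * |h| ≤ max D1 D2 * |h| ∧ D2 * |h| ≤ max D1 D2 * |h| ∧ (max D1 D2 * |h|) ^ 2 ≤ |h| * x := by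
  have hm : 0 < max D1 D2 := h1.trans_le (le_max_left _ _)
  refine ⟨mul_le_mul_of_nonneg_right (le_max_left _ _) (abs_nonneg _), mul_le_mul_of_nonneg_right (le_max_right _ _) (abs_nonneg _), ?_⟩
  rw [le_div_iff₀ (by positivity)] at hh
  calc (max D1 D2 * |h|) ^ 2 = |h| * (|h| * max D1 D2 ^ 2) := by ring
    _ ≤ |h| * x := mul_le_mul_of_nonneg_left hh (abs_nonneg _)

/-- **assembly, size segment** -/
theorem l9g_phS_of {𝔹 : LlBase} {F : LlFix} {v1 : ℝ} (hK : L9gKS 𝔹 F v1) (hB : L9gBS 𝔹 F) : L9gPhS 𝔹 F v1 := by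
  intro K0
  obtain ⟨N1, hK⟩ := hK K0
  obtain ⟨Kb, N2, hKb, hB⟩ := hB K0
  refine ⟨Kb, max 1 (max N1 N2), hKb, fun N hN => ?_⟩
  have hN1 : 1 ≤ N := (le_max_left _ _).trans hN
  obtain ⟨D1, h1, hD1, hh1, hK⟩ := hK N ((le_max_left _ _).trans ((le_max_right _ _).trans hN))
  obtain ⟨D2, h2, hD2, hh2, hB⟩ := hB N ((le_max_right _ _).trans ((le_max_right _ _).trans hN))
  have hx : 0 < skX N ^ K0 := Real.rpow_pos_of_pos (l9g_skX_pos hN1) _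
  have hm : 0 < max D1 D2 := hD1.trans_le (le_max_left _ _)
  refine ⟨min (min h1 h2) (skX N ^ K0 / (max D1 D2) ^ 2), by positivity, fun h hne hh => ?_⟩
  obtain ⟨c1, c2, c3⟩ := l9g_common (D2 := D2) hD1 (hh.trans (min_le_right _ _))
  filter_upwards [hK h hne (hh.trans ((min_le_left _ _).trans (min_le_left _ _)))] with Fs hFs
  intro s m γ θ hθ hθh hD c0 hc0
  refine ⟨fun t' => ?_, max D1 D2 * |h|, ?_, fun j _ => ?_⟩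
  · simp [l9QS, L9Q.p, l9PtS, ll04Pt, LlPt.a]
  · rw [l9g_QS_a]
    exact (hFs s m γ θ hθ hθh hD c0 hc0).mono c1 le_rfl c3
  · exact hB h hne (hh.trans ((min_le_left _ _).trans (min_le_right _ _))) Fs s m γ θ hθ hθh hD _ c2 c3 j

/-- **assembly, strength sweep** -/
theorem l9g_phD_of {𝔹 : LlBase} {F : LlFix} {v1 : ℝ} (hK : L9gKD 𝔹 F v1) (hB : L9gBD 𝔹 F) : L9gPhD 𝔹 F v1 := by
  intro K0
  obtain ⟨N1, hK⟩ := hK K0
  obtain ⟨Kb, N2, hKb, hB⟩ := hB K0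
  refine ⟨Kb, max 1 (max N1 N2), hKb, fun N hN => ?_⟩
  have hN1 : 1 ≤ N := (le_max_left _ _).trans hN
  obtain ⟨D1, h1, hD1, hh1, hK⟩ := hK N ((le_max_left _ _).trans ((le_max_right _ _).trans hN))
  obtain ⟨D2, h2, hD2, hh2, hB⟩ := hB N ((le_max_right _ _).trans ((le_max_right _ _).trans hN))
  have hx : 0 < skX N ^ K0 := Real.rpow_pos_of_pos (l9g_skX_pos hN1) _
  have hm : 0 < max D1 D2 := hD1.trans_le (le_max_left _ _)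
  refine ⟨min (min h1 h2) (skX N ^ K0 / (max D1 D2) ^ 2), by positivity, fun h hne hh => ?_⟩
  obtain ⟨c1, c2, c3⟩ := l9g_common (D2 := D2) hD1 (hh.trans (min_le_right _ _))
  filter_upwards [hK h hne (hh.trans ((min_le_left _ _).trans (min_le_left _ _)))] with Fs hFs
  intro s m ell γ t hell ht hth hU hD c0 hc0
  refine ⟨fun t' => ?_, max D1 D2 * |h|, ?_, fun j _ => ?_⟩
  · simp [l9QD, L9Q.p, l9PtL, ll04Pt, LlPt.a]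
  · rw [l9g_QD_a]
    exact (hFs s m ell γ t hell ht hth c0 hc0).mono c1 le_rfl c3
  · exact hB h hne (hh.trans ((min_le_left _ _).trans (min_le_right _ _))) Fs s m ell γ t hell ht hth hU hD _ c2 c3 j

end Claimed.Agent.R286
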