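import Claimed.Agent.R286.L09.Phys
import Claimed.Agent.R286.LL.PathsKk
import Claimed.Agent.R286.Defs.Clk

/-!
# Row 286 (S0533), LL 09, PHYSICAL LAYER of INST[L14Calc], CLOCK PART, file 2: (K2) = THE CLOCK `K` IS `C^{1,1}` NEAR THE MASS `0`      (owner helper47; prefix `l9ph`, `L9ph`)

`K(v) = ℓ⁻² A⁻¹(v/ℓ)`, `A(ξ) = A_0(ξ) + β ξ` near `0` (`β = λ` direct, `β = λ + ω` smoothed; `P(ξ) = ξ` on `[0, z0/2]`), `A_0 ∈ C²` with `A_0'(0) = κ_T/T > 0`.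
On a cell `[v, v']`:   `K v' - K v = (v' - v) / (ℓ³ (D + β))`,   `D` = divided difference of `A_0` between `A⁻¹(v/ℓ)` and `A⁻¹(v'/ℓ)`.
* `L9phBase f f1 R cl Ch L`   what is used of `A_0` on `[0,R]`;   `L9phProf A f β R τ J` : the profile `A`;
* `l9ph_dd_bd`, `l9ph_dd0`, `l9ph_dd2`  divided differences of a `C^{1,1}` function;
* `l9ph_rep`       the representation above;   `l9ph_K2_of` : `L9phK2`;   `l9ph_K2P_of` : `L9phK2P` for two points at distance `δ ≥ |ℓ - ℓ'| + |β - β'|`;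
* EXIT `l9ph_K2_core`, `l9ph_K2_main` at the path points (`LlBaseProfile`, `F.Ok`, `LlDirProf 𝔹 F` = field `dirProf` of `LlSec3`; NO smallness of `z_0`; constants depend on `𝔹, F` only).
TEX[LL:paths:lem-lift] (03 l.113-128, the clock) TEX[LL:exp:prop-low-coefficients]
-/

set_option autoImplicit false
set_option linter.unusedSectionVars false

namespace Claimed.Agent.R286

open MeasureTheory Set Filter Topology

/-! ## 1. divided differences -/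

/-- divided difference -/
noncomputable def l9phDD (f : ℝ → ℝ) (x y : ℝ) : ℝ := (f y - f x) / (y - x)

/-- what is used of the base profile on `[0,R]` -/
structure L9phBase (f f1 : ℝ → ℝ) (R cl Ch L : ℝ) : Prop where
  R0 : 0 < R
  cl0 : 0 < cl
  L0 : 0 ≤ L
  f0 : f 0 = 0
  der : ∀ x ∈ Icc 0 R, HasDerivWithinAt f (f1 x) (Icc 0 R) x
  lo : ∀ x ∈ Icc 0 R, cl ≤ f1 x
  hi : ∀ x ∈ Icc 0 R, f1 x ≤ Ch
  lip : ∀ x ∈ Icc 0 R, ∀ y ∈ Icc 0 R, |f1 x - f1 y| ≤ L * |x - y|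

section dd

variable {f f1 : ℝ → ℝ} {R cl Ch L : ℝ} (hB : L9phBase f f1 R cl Ch L)

include hB

theorem l9ph_dd_mvt {x y : ℝ} (h0 : 0 ≤ x) (hxy : x < y) (hy : y ≤ R) : ∃ ζ ∈ Ioo x y, f1 ζ = l9phDD f x y := by
  have hsub : Icc x y ⊆ Icc 0 R := Icc_subset_Icc h0 hy
  refine exists_hasDerivAt_eq_slope f f1 hxy (fun z hz => ((hB.der z (hsub hz)).continuousWithinAt).mono hsub) ?_
  intro z hz
  exact (hB.der z (hsub (Ioo_subset_Icc_self hz))).hasDerivAt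
    (Icc_mem_nhds (lt_of_le_of_lt h0 hz.1) (lt_of_lt_of_le hz.2 hy))

theorem l9ph_dd_bd {x y : ℝ} (h0 : 0 ≤ x) (hxy : x < y) (hy : y ≤ R) : cl ≤ l9phDD f x y ∧ l9phDD f x y ≤ Ch := by
  obtain ⟨ζ, hζ, e⟩ := l9ph_dd_mvt hB h0 hxy hy
  have hm : ζ ∈ Icc 0 R := ⟨h0.trans hζ.1.le, hζ.2.le.trans hy⟩
  rw [← e]
  exact ⟨hB.lo ζ hm, hB.hi ζ hm⟩

theorem l9ph_dd0 {x y : ℝ} (h0 : 0 ≤ x) (hxy : x < y) (hy : y ≤ R) : |l9phDD f x y - f1 0| ≤ L * y := by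
  obtain ⟨ζ, hζ, e⟩ := l9ph_dd_mvt hB h0 hxy hy
  have hm : ζ ∈ Icc 0 R := ⟨h0.trans hζ.1.le, hζ.2.le.trans hy⟩
  rw [← e]
  refine (hB.lip ζ hm 0 ⟨le_rfl, hB.R0.le⟩).trans (mul_le_mul_of_nonneg_left ?_ hB.L0)
  rw [sub_zero, abs_of_nonneg hm.1]
  exact hζ.2.le

theorem l9ph_inc_lo {x y : ℝ} (h0 : 0 ≤ x) (hxy : x ≤ y) (hy : y ≤ R) : cl * (y - x) ≤ f y - f x := by
  rcases hxy.eq_or_lt with rfl | hxy
  · simp
  · have := (l9ph_dd_bd hB h0 hxy hy).1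
    rwa [l9phDD, le_div_iff₀ (by linarith)] at this

theorem l9ph_inc_hi {x y : ℝ} (h0 : 0 ≤ x) (hxy : x ≤ y) (hy : y ≤ R) : f y - f x ≤ Ch * (y - x) := by
  rcases hxy.eq_or_lt with rfl | hxy
  · simp
  · have := (l9ph_dd_bd hB h0 hxy hy).2
    rwa [l9phDD, div_le_iff₀ (by linarith)] at this

/-- two cells at distance `η` -/
theorem l9ph_dd2 {x y x' y' η : ℝ} (h0 : 0 ≤ x) (hxy : x < y) (hy : y ≤ R) (h0' : 0 ≤ x') (hxy' : x' < y') (hy' : y' ≤ R)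
    (hx : |x - x'| ≤ η) (hyy : |y - y'| ≤ η) : |l9phDD f x y - l9phDD f x' y'| ≤ L * η := by
  have aux : ∀ {x y : ℝ}, 0 ≤ x → x < y → y ≤ R → ∀ t ∈ Icc (0 : ℝ) 1,
      x + t * (y - x) ∈ Icc 0 R ∧
      HasDerivWithinAt (fun t => (y - x)⁻¹ * f (x + t * (y - x))) (f1 (x + t * (y - x))) (Icc 0 1) t := by
    intro x y h0 hxy hy t ht
    have hmap : MapsTo (fun t : ℝ => x + t * (y - x)) (Icc 0 1) (Icc 0 R) := by
      intro s hs
      have h1 : 0 ≤ s * (y - x) := mul_nonneg hs.1 (by linarith)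
      have h2 : s * (y - x) ≤ 1 * (y - x) := mul_le_mul_of_nonneg_right hs.2 (by linarith)
      exact ⟨by simp only; linarith, by simp only; linarith⟩
    refine ⟨hmap ht, ?_⟩
    have hh : HasDerivWithinAt (fun t : ℝ => x + t * (y - x)) (y - x) (Icc 0 1) t := by
      have := ((hasDerivAt_id t).mul_const (y - x)).const_add x
      simpa using this.hasDerivWithinAt
    have hc := (hB.der _ (hmap ht)).comp t hh hmap
    have := hc.const_mul (y - x)⁻¹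
    have e : (y - x)⁻¹ * (f1 (x + t * (y - x)) * (y - x)) = f1 (x + t * (y - x)) := by
      have : y - x ≠ 0 := by linarith
      field_simp
    rw [e] at this
    exact this
  have hη : 0 ≤ η := (abs_nonneg _).trans hx
  have key := Convex.norm_image_sub_le_of_norm_hasDerivWithin_le
    (f := fun t => (y - x)⁻¹ * f (x + t * (y - x)) - (y' - x')⁻¹ * f (x' + t * (y' - x')))
    (f' := fun t => f1 (x + t * (y - x)) - f1 (x' + t * (y' - x'))) (C := L * η) (s := Icc (0 : ℝ) 1) (x := 0) (y := 1)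
    (fun t ht => (aux h0 hxy hy t ht).2.sub (aux h0' hxy' hy' t ht).2)
    (fun t ht => by
      rw [Real.norm_eq_abs]
      refine (hB.lip _ (aux h0 hxy hy t ht).1 _ (aux h0' hxy' hy' t ht).1).trans (mul_le_mul_of_nonneg_left ?_ hB.L0)
      have e : x + t * (y - x) - (x' + t * (y' - x')) = (1 - t) * (x - x') + t * (y - y') := by ring
      rw [e]
      calc |(1 - t) * (x - x') + t * (y - y')| ≤ |(1 - t) * (x - x')| + |t * (y - y')| := abs_add_le _ _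
        _ = (1 - t) * |x - x'| + t * |y - y'| := by
            rw [abs_mul, abs_mul, abs_of_nonneg ht.1, abs_of_nonneg (by linarith [ht.2] : 0 ≤ 1 - t)]
        _ ≤ (1 - t) * η + t * η :=
            add_le_add (mul_le_mul_of_nonneg_left hx (by linarith [ht.2])) (mul_le_mul_of_nonneg_left hyy ht.1)
        _ = η := by ring)
    (convex_Icc _ _) (left_mem_Icc.2 zero_le_one) (right_mem_Icc.2 zero_le_one)
  rw [Real.norm_eq_abs, Real.norm_eq_abs, sub_zero, abs_one, mul_one] at key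
  have e : l9phDD f x y - l9phDD f x' y' =
      (y - x)⁻¹ * f (x + 1 * (y - x)) - (y' - x')⁻¹ * f (x' + 1 * (y' - x')) -
        ((y - x)⁻¹ * f (x + 0 * (y - x)) - (y' - x')⁻¹ * f (x' + 0 * (y' - x'))) := by
    have e1 : x + 1 * (y - x) = y := by ring
    have e2 : x' + 1 * (y' - x') = y' := by ring
    rw [e1, e2, zero_mul, zero_mul, add_zero, add_zero, l9phDD, l9phDD, div_eq_inv_mul, div_eq_inv_mul]
    ring
  rw [e]
  exact key

end dd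

/-! ## 2. the inverse of the profile near `0` -/

/-- the profile `A = f + β ξ` on `[0,R]` -/
structure L9phProf (A f : ℝ → ℝ) (β R τ J : ℝ) : Prop where
  prof : LpqProf A τ J
  beta0 : 0 ≤ β
  eq : ∀ ξ ∈ Icc 0 R, A ξ = f ξ + β * ξ

section inv

variable {f f1 : ℝ → ℝ} {R cl Ch L : ℝ} (hB : L9phBase f f1 R cl Ch L) {A : ℝ → ℝ} {β τ J : ℝ} (hP : L9phProf A f β R τ J)

include hB hP

theorem l9ph_A_zero : A 0 = 0 := by
  rw [hP.eq 0 ⟨le_rfl, hB.R0.le⟩, hB.f0, mul_zero, add_zero]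

theorem l9ph_A_lo (ξ ξ' : ℝ) (h0 : 0 ≤ ξ) (h1 : ξ ≤ ξ') (h2 : ξ' ≤ R) : cl * (ξ' - ξ) ≤ A ξ' - A ξ := by
  rw [hP.eq ξ ⟨h0, h1.trans h2⟩, hP.eq ξ' ⟨h0.trans h1, h2⟩]
  have := l9ph_inc_lo hB h0 h1 h2
  have := mul_nonneg hP.beta0 (sub_nonneg.2 h1)
  linarith

theorem l9ph_A_hi (ξ ξ' : ℝ) (h0 : 0 ≤ ξ) (h1 : ξ ≤ ξ') (h2 : ξ' ≤ R) : A ξ' - A ξ ≤ (Ch + β) * (ξ' - ξ) := by
  rw [hP.eq ξ ⟨h0, h1.trans h2⟩, hP.eq ξ' ⟨h0.trans h1, h2⟩]
  have := l9ph_inc_hi hB h0 h1 h2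
  linarith

theorem l9ph_A_top : cl * R ≤ A R := by
  have := l9ph_A_lo hB hP 0 R le_rfl hB.R0.le le_rfl
  rwa [l9ph_A_zero hB hP, sub_zero, sub_zero] at this

/-- the inverse below the level `cl R` -/
theorem l9ph_inv {w : ℝ} (h0 : 0 ≤ w) (hw : w ≤ cl * R) :
    A (llInv A w) = w ∧ 0 ≤ llInv A w ∧ cl * llInv A w ≤ w ∧ llInv A w ≤ R := by
  have h1 : A (llInv A w) = w := lpq_at_inv_eq hP.prof (Ch + β) R (l9ph_A_hi hB hP) hB.R0.le w
    (by rw [l9ph_A_zero hB hP]; exact h0) (hw.trans (l9ph_A_top hB hP))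
  have hq0 : 0 ≤ w / cl := div_nonneg h0 hB.cl0.le
  have hqR : w / cl ≤ R := by rw [div_le_iff₀ hB.cl0]; linarith
  have h2 : llInv A w ≤ w / cl := by
    refine lpq_inv_le A w _ hq0 ?_
    have := l9ph_A_lo hB hP 0 (w / cl) le_rfl hq0 hqR
    rw [l9ph_A_zero hB hP, sub_zero, sub_zero, mul_div_cancel₀ _ hB.cl0.ne'] at this
    exact this
  refine ⟨h1, lpq_inv_nonneg A w, ?_, h2.trans hqR⟩
  rw [le_div_iff₀ hB.cl0] at h2
  linarith

theorem l9ph_inv_lt {w w' : ℝ} (h0 : 0 ≤ w) (hww : w < w') (hw : w' ≤ cl * R) : llInv A w < llInv A w' := by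
  obtain ⟨a1, a2, -, -⟩ := l9ph_inv hB hP h0 (hww.le.trans hw)
  obtain ⟨b1, b2, -, -⟩ := l9ph_inv hB hP (h0.trans hww.le) hw
  by_contra hcon
  push Not at hcon
  have := hP.prof.mono (mem_Ici.2 b2) (mem_Ici.2 a2) hcon
  rw [a1, b1] at this
  linarith

/-- the increment of the inverse on a cell -/
theorem l9ph_inv_inc {w w' : ℝ} (h0 : 0 ≤ w) (hww : w < w') (hw : w' ≤ cl * R) :
    llInv A w' - llInv A w = (w' - w) * (l9phDD f (llInv A w) (llInv A w') + β)⁻¹ := by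
  obtain ⟨a1, a2, -, a4⟩ := l9ph_inv hB hP h0 (hww.le.trans hw)
  obtain ⟨b1, b2, -, b4⟩ := l9ph_inv hB hP (h0.trans hww.le) hw
  have hlt := l9ph_inv_lt hB hP h0 hww hw
  have hD := (l9ph_dd_bd hB a2 hlt b4).1
  have hpos : 0 < l9phDD f (llInv A w) (llInv A w') + β := by linarith [hB.cl0, hP.beta0]
  rw [eq_mul_inv_iff_mul_eq₀ hpos.ne']
  have e1 := hP.eq _ ⟨a2, a4⟩
  have e2 := hP.eq _ ⟨b2, b4⟩
  rw [a1] at e1
  rw [b1] at e2
  have hne : llInv A w' - llInv A w ≠ 0 := by linarith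
  have hdd : l9phDD f (llInv A w) (llInv A w') * (llInv A w' - llInv A w) = f (llInv A w') - f (llInv A w) :=
    div_mul_cancel₀ _ hne
  linear_combination hdd - e2 + e1

/-- **the representation of the clock on a cell** -/
theorem l9ph_rep {ell : ℝ} (hl1 : 1 ≤ ell) {v v' : ℝ} (h0 : 0 ≤ v) (hvv : v < v') (hv' : v' ≤ cl * R) :
    0 ≤ llInv A (v / ell) ∧ llInv A (v / ell) < llInv A (v' / ell) ∧ llInv A (v' / ell) ≤ R ∧ cl * llInv A (v' / ell) ≤ v' ∧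
      lkkK A ell v' - lkkK A ell v =
        (v' - v) * (ell ^ 3 * (l9phDD f (llInv A (v / ell)) (llInv A (v' / ell)) + β))⁻¹ := by
  have hl : 0 < ell := by linarith
  have w0 : 0 ≤ v / ell := div_nonneg h0 hl.le
  have ww : v / ell < v' / ell := div_lt_div_of_pos_right hvv hl
  have wle : v' / ell ≤ v' := div_le_self (h0.trans hvv.le) hl1
  have wR : v' / ell ≤ cl * R := wle.trans hv'
  obtain ⟨-, b2, b3, b4⟩ := l9ph_inv hB hP (w0.trans ww.le) wR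
  refine ⟨lpq_inv_nonneg A _, l9ph_inv_lt hB hP w0 ww wR, b4, b3.trans wle, ?_⟩
  unfold lkkK
  rw [← mul_sub, l9ph_inv_inc hB hP w0 ww wR, mul_inv, ← sub_div]
  field_simp

end inv

/-! ## 3. (K2) at one point -/

theorem l9ph_inv_sub {y y' m : ℝ} (hm : 0 < m) (hy : m ≤ y) (hy' : m ≤ y') : |y⁻¹ - y'⁻¹| ≤ |y - y'| / m ^ 2 := by
  have h1 : 0 < y := lt_of_lt_of_le hm hy
  have h2 : 0 < y' := lt_of_lt_of_le hm hy'
  have e : y⁻¹ - y'⁻¹ = (y' - y) / (y * y') := by field_simp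
  rw [e, abs_div, abs_of_pos (mul_pos h1 h2), abs_sub_comm]
  refine div_le_div_of_nonneg_left (abs_nonneg _) (by positivity) ?_
  rw [sq]
  exact mul_le_mul hy hy' hm.le h1.le

theorem l9ph_inv_le {y m : ℝ} (hm : 0 < m) (hy : m ≤ y) : y⁻¹ ≤ 1 / m := by
  rw [one_div]; exact inv_anti₀ hm hy

section one

variable {f f1 : ℝ → ℝ} {R cl Ch L : ℝ} (hB : L9phBase f f1 R cl Ch L) {A : ℝ → ℝ} {β τ J : ℝ} (hP : L9phProf A f β R τ J)

include hB hP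

/-- **(K2) for an abstract profile** -/
theorem l9ph_K2_of {ell : ℝ} (hl1 : 1 ≤ ell) (hl3 : ell ^ 3 ≤ 2) (hβ : β ≤ 2) :
    L9phK2 (lkkK A ell) ((ell ^ 3 * (f1 0 + β))⁻¹) (1 / (2 * (Ch + 2))) (1 / cl + 2 * L / cl ^ 3) (cl * R) := by
  have hcl := hB.cl0
  have hL := hB.L0
  have he1 : 1 ≤ ell ^ 3 := one_le_pow₀ hl1
  have h00 : (0 : ℝ) ∈ Icc 0 R := ⟨le_rfl, hB.R0.le⟩
  have ht : cl ≤ ell ^ 3 * (f1 0 + β) := by
    have : cl ≤ f1 0 + β := by linarith [hB.lo 0 h00, hP.beta0]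
    nlinarith
  have hCh : cl ≤ Ch := (hB.lo 0 h00).trans (hB.hi 0 h00)
  have hC2 : 0 ≤ 2 * L / cl ^ 3 := by positivity
  have hrep : ∀ v v', 0 ≤ v → v < v' → v' ≤ cl * R → ∃ D : ℝ, cl ≤ D ∧ D ≤ Ch ∧ |D - f1 0| ≤ L * v' / cl ∧
      lkkK A ell v' - lkkK A ell v = (v' - v) * (ell ^ 3 * (D + β))⁻¹ := by
    intro v v' h0 hvv hv'
    obtain ⟨a1, a2, a3, a4, a5⟩ := l9ph_rep hB hP hl1 h0 hvv hv'
    refine ⟨_, (l9ph_dd_bd hB a1 a2 a3).1, (l9ph_dd_bd hB a1 a2 a3).2, (l9ph_dd0 hB a1 a2 a3).trans ?_, a5⟩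
    rw [mul_div_assoc]
    refine mul_le_mul_of_nonneg_left ?_ hL
    rw [le_div_iff₀ hcl]; linarith
  refine ⟨lkk_K_zero hP.prof (l9ph_A_zero hB hP) hl1, inv_nonneg.2 (hcl.le.trans ht), ?_, ?_, ?_, ?_⟩
  · have := l9ph_inv_le hcl ht
    linarith
  · intro v v' h0 hvv hv'
    rcases hvv.eq_or_lt with rfl | hvv
    · simp
    obtain ⟨D, d1, d2, -, e⟩ := hrep v v' h0 hvv hv'
    rw [e, mul_comm]
    refine mul_le_mul_of_nonneg_left ?_ (by linarith)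
    rw [one_div]
    have h1 : D + β ≤ Ch + 2 := by linarith
    have h2 : 0 < D + β := by linarith [hP.beta0]
    refine inv_anti₀ (mul_pos (by linarith) h2) ?_
    exact mul_le_mul hl3 h1 h2.le (by norm_num)
  · intro v v' h0 hvv hv'
    rcases hvv.eq_or_lt with rfl | hvv
    · simp
    obtain ⟨D, d1, d2, -, e⟩ := hrep v v' h0 hvv hv'
    rw [e, mul_comm]
    refine mul_le_mul_of_nonneg_right ?_ (by linarith)
    have h2 : cl ≤ ell ^ 3 * (D + β) := by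
      have : cl ≤ D + β := by linarith [hP.beta0]
      nlinarith
    have := l9ph_inv_le hcl h2
    linarith
  · intro v v' h0 hvv hv'
    rcases hvv.eq_or_lt with rfl | hvv
    · simp
    obtain ⟨D, d1, d2, d3, e⟩ := hrep v v' h0 hvv hv'
    have h2 : cl ≤ ell ^ 3 * (D + β) := by
      have : cl ≤ D + β := by linarith [hP.beta0]
      nlinarith
    have hv0 : 0 ≤ v' := h0.trans hvv.le
    have e1 : (v' - v) * (ell ^ 3 * (D + β))⁻¹ - (ell ^ 3 * (f1 0 + β))⁻¹ * (v' - v) =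
        ((ell ^ 3 * (D + β))⁻¹ - (ell ^ 3 * (f1 0 + β))⁻¹) * (v' - v) := by ring
    rw [e, e1, abs_mul, abs_of_pos (by linarith : 0 < v' - v)]
    refine mul_le_mul_of_nonneg_right ?_ (by linarith)
    refine (l9ph_inv_sub hcl h2 ht).trans ?_
    have e2 : ell ^ 3 * (D + β) - ell ^ 3 * (f1 0 + β) = ell ^ 3 * (D - f1 0) := by ring
    rw [e2, abs_mul, abs_of_pos (by linarith : 0 < ell ^ 3), div_le_iff₀ (by positivity)]
    have h3 : ell ^ 3 * |D - f1 0| ≤ 2 * (L * v' / cl) := mul_le_mul hl3 d3 (abs_nonneg _) (by norm_num)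
    refine h3.trans ?_
    have e3 : (1 / cl + 2 * L / cl ^ 3) * v' * cl ^ 2 = cl * v' + 2 * (L * v' / cl) := by
      field_simp
    rw [e3]
    have := mul_nonneg hcl.le hv0
    linarith

end one

/-! ## 4. (K2) for two points -/

theorem l9ph_alg2 {e e' s s' B δ1 δ2 : ℝ} (he : |e| ≤ 2) (hs' : |s'| ≤ B) (h1 : |e - e'| ≤ δ1) (h2 : |s - s'| ≤ δ2) :
    |e * s - e' * s'| ≤ δ1 * B + 2 * δ2 := by
  have e1 : e * s - e' * s' = (e - e') * s' + e * (s - s') := by ring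
  rw [e1]
  refine (abs_add_le _ _).trans ?_
  rw [abs_mul, abs_mul]
  exact add_le_add (mul_le_mul h1 hs' (abs_nonneg _) ((abs_nonneg _).trans h1))
    (mul_le_mul he h2 (abs_nonneg _) (by norm_num))

theorem l9ph_cube_sub {a b : ℝ} (ha1 : 1 ≤ a) (ha : a ≤ 2) (hb1 : 1 ≤ b) (hb : b ≤ 2) : |a ^ 3 - b ^ 3| ≤ 12 * |a - b| := by
  have e : a ^ 3 - b ^ 3 = (a ^ 2 + a * b + b ^ 2) * (a - b) := by ring
  rw [e, abs_mul]
  refine mul_le_mul_of_nonneg_right ?_ (abs_nonneg _)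
  rw [abs_of_nonneg (by positivity)]
  nlinarith

theorem l9ph_le_two {ell : ℝ} (hl1 : 1 ≤ ell) (hl3 : ell ^ 3 ≤ 2) : ell ≤ 2 := by
  have : ell ^ 1 ≤ ell ^ 3 := pow_le_pow_right₀ hl1 (by norm_num)
  linarith

section two

variable {f f1 : ℝ → ℝ} {R cl Ch L : ℝ} (hB : L9phBase f f1 R cl Ch L) {A A' : ℝ → ℝ} {β β' τ τ' J J' : ℝ}
  (hP : L9phProf A f β R τ J) (hP' : L9phProf A' f β' R τ' J')

include hB hP

theorem l9ph_inv_lip {w w' : ℝ} (h0 : 0 ≤ w) (hw : w ≤ cl * R) (h0' : 0 ≤ w') (hw' : w' ≤ cl * R) :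
    |llInv A w - llInv A w'| ≤ |w - w'| / cl := by
  wlog hww : w ≤ w' generalizing w w'
  · rw [abs_sub_comm, abs_sub_comm w]
    exact this h0' hw' h0 hw (le_of_not_ge hww)
  have h1 := lpq_inv_lip hP.prof cl R (l9ph_A_lo hB hP) hB.R0.le w w' hww (hw'.trans (l9ph_A_top hB hP))
  have h2 := lpq_inv_mono hP.prof w w' hww ((hw'.trans (l9ph_A_top hB hP)).trans (hP.prof.mem_Icc R hB.R0.le).2)
  rw [abs_sub_comm, abs_sub_comm w, abs_of_nonneg (by linarith), abs_of_nonneg (by linarith), le_div_iff₀ hB.cl0]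
  linarith

include hP'

theorem l9ph_inv_beta {w : ℝ} (h0 : 0 ≤ w) (hw : w ≤ cl * R) : |llInv A w - llInv A' w| ≤ |β - β'| * w / cl ^ 2 := by
  obtain ⟨a1, a2, a3, a4⟩ := l9ph_inv hB hP h0 hw
  obtain ⟨b1, b2, b3, b4⟩ := l9ph_inv hB hP' h0 hw
  have e1 := hP.eq _ ⟨a2, a4⟩
  have e2 := hP'.eq _ ⟨b2, b4⟩
  rw [a1] at e1
  rw [b1] at e2
  have hcl := hB.cl0
  set x := llInv A w
  set x' := llInv A' w
  have hd := abs_nonneg (β - β')
  have key : cl * |x - x'| ≤ |β - β'| * (w / cl) := by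
    have hx : x ≤ w / cl := by rw [le_div_iff₀ hcl]; linarith
    have hx' : x' ≤ w / cl := by rw [le_div_iff₀ hcl]; linarith
    rcases le_total x' x with c | c
    · have h1 := l9ph_inc_lo hB b2 c a4
      rw [abs_of_nonneg (by linarith)]
      have h2 : (β' - β) * x' ≤ |β - β'| * (w / cl) :=
        (mul_le_mul_of_nonneg_right ((le_abs_self _).trans (abs_sub_comm _ _).le) b2).trans
          (mul_le_mul_of_nonneg_left hx' hd)
      have h3 := mul_nonneg hP.beta0 (sub_nonneg.2 c)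
      nlinarith
    · have h1 := l9ph_inc_lo hB a2 c b4
      rw [abs_sub_comm, abs_of_nonneg (by linarith)]
      have h2 : (β - β') * x ≤ |β - β'| * (w / cl) :=
        (mul_le_mul_of_nonneg_right (le_abs_self _) a2).trans (mul_le_mul_of_nonneg_left hx hd)
      have h3 := mul_nonneg hP'.beta0 (sub_nonneg.2 c)
      nlinarith
  rw [le_div_iff₀ (by positivity)]
  have e : |β - β'| * (w / cl) * cl = |β - β'| * w := by field_simp
  nlinarith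

/-- the two inverses at the same mass -/
theorem l9ph_inv_close {ell ell' δ : ℝ} (hl1 : 1 ≤ ell) (hl1' : 1 ≤ ell') (hδ : |ell - ell'| + |β - β'| ≤ δ) {v : ℝ} (h0 : 0 ≤ v)
    (hv : v ≤ cl * R) : |llInv A (v / ell) - llInv A' (v / ell')| ≤ v * δ * (1 / cl + 1 / cl ^ 2) := by
  have hl : 0 < ell := by linarith
  have hl' : 0 < ell' := by linarith
  have hcl := hB.cl0
  have w0 : 0 ≤ v / ell := div_nonneg h0 hl.le
  have w0' : 0 ≤ v / ell' := div_nonneg h0 hl'.le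
  have wl : v / ell ≤ cl * R := (div_le_self h0 hl1).trans hv
  have wl' : v / ell' ≤ cl * R := (div_le_self h0 hl1').trans hv
  have h1 := l9ph_inv_lip hB hP w0 wl w0' wl'
  have h2 := l9ph_inv_beta hB hP hP' w0' wl'
  have h3 : |v / ell - v / ell'| ≤ v * |ell - ell'| := by
    have e : v / ell - v / ell' = v * ((ell' - ell) / (ell * ell')) := by field_simp
    rw [e, abs_mul, abs_of_nonneg h0, abs_div, abs_sub_comm, abs_of_pos (mul_pos hl hl')]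
    refine mul_le_mul_of_nonneg_left (div_le_self (abs_nonneg _) ?_) h0
    nlinarith
  have a1 := abs_nonneg (ell - ell')
  have a2 := abs_nonneg (β - β')
  have h4 : |v / ell - v / ell'| / cl ≤ v * δ * (1 / cl) := by
    rw [mul_one_div]
    refine div_le_div_of_nonneg_right (h3.trans (mul_le_mul_of_nonneg_left (by linarith) h0)) hcl.le
  have h5 : |β - β'| * (v / ell') / cl ^ 2 ≤ v * δ * (1 / cl ^ 2) := by
    rw [mul_one_div]
    refine div_le_div_of_nonneg_right ?_ (by positivity)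
    rw [mul_comm v δ]
    exact mul_le_mul (by linarith) (div_le_self h0 hl1') w0' (by linarith)
  calc |llInv A (v / ell) - llInv A' (v / ell')|
      ≤ |llInv A (v / ell) - llInv A (v / ell')| + |llInv A (v / ell') - llInv A' (v / ell')| := abs_sub_le _ _ _
    _ ≤ v * δ * (1 / cl) + v * δ * (1 / cl ^ 2) := add_le_add (h1.trans h4) (h2.trans h5)
    _ = v * δ * (1 / cl + 1 / cl ^ 2) := by ring

/-- the constants of the pair estimate -/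
noncomputable def l9phG (cl : ℝ) : ℝ := 1 / cl + 1 / cl ^ 2
noncomputable def l9phQ (cl Ch L R : ℝ) : ℝ := 12 * (Ch + 2) + 2 * (L * (cl * R * l9phG cl) + 1)
noncomputable def l9phCP (cl Ch L R : ℝ) : ℝ :=
  l9phQ cl Ch L R / cl ^ 2 + L * l9phG cl / cl ^ 2 + L / cl * ((2 * (Ch + 2) + l9phQ cl Ch L R * (Ch + 2)) / cl ^ 4)

omit hB hP hP' in
/-- pure algebra of the pair estimate -/
theorem l9ph_alg_pair {m B Q δ e e' s s' t t' ε1 ε2 : ℝ} (hm : 0 < m) (hδ : 0 ≤ δ) (hQ : 0 ≤ Q)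
    (he1 : 1 ≤ e) (he2 : e ≤ 2) (he1' : 1 ≤ e') (hs1 : m ≤ s) (hs2 : s ≤ B) (hs1' : m ≤ s')
    (ht1 : m ≤ t) (ht1' : m ≤ t') (ht2' : t' ≤ B)
    (h1 : |e * s - e' * s'| ≤ δ * Q) (h3 : |t - t'| ≤ δ) (hE' : |t' - s'| ≤ ε1) (hEE : |(t - s) - (t' - s')| ≤ ε2) :
    |((e * s)⁻¹ - (e * t)⁻¹) - ((e' * s')⁻¹ - (e' * t')⁻¹)| ≤ ε2 / m ^ 2 + ε1 * (δ * (2 * B + Q * B) / m ^ 4) := by
  have hs : 0 < s := lt_of_lt_of_le hm hs1
  have hs' : 0 < s' := lt_of_lt_of_le hm hs1'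
  have ht : 0 < t := lt_of_lt_of_le hm ht1
  have ht' : 0 < t' := lt_of_lt_of_le hm ht1'
  have he : 0 < e := by linarith
  have he' : 0 < e' := by linarith
  have hB : 0 ≤ B := hs.le.trans hs2
  have r1 : (e * s)⁻¹ - (e * t)⁻¹ = (t - s) * (e * s * t)⁻¹ := by field_simp
  have r2 : (e' * s')⁻¹ - (e' * t')⁻¹ = (t' - s') * (e' * s' * t')⁻¹ := by field_simp
  have d1 : m ^ 2 ≤ e * s * t := by
    have : m * m ≤ s * t := mul_le_mul hs1 ht1 hm.le hs.le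
    have h2 : s * t ≤ e * (s * t) := le_mul_of_one_le_left (by positivity) he1
    nlinarith
  have d2 : m ^ 2 ≤ e' * s' * t' := by
    have : m * m ≤ s' * t' := mul_le_mul hs1' ht1' hm.le hs'.le
    have h2 : s' * t' ≤ e' * (s' * t') := le_mul_of_one_le_left (by positivity) he1'
    nlinarith
  have hm2 : 0 < m ^ 2 := by positivity
  have z1 : |(e * s * t)⁻¹| ≤ 1 / m ^ 2 := by
    rw [abs_of_nonneg (by positivity)]; exact l9ph_inv_le hm2 d1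
  have z2 : |(e * s * t)⁻¹ - (e' * s' * t')⁻¹| ≤ δ * (2 * B + Q * B) / m ^ 4 := by
    refine (l9ph_inv_sub hm2 d1 d2).trans ?_
    have e4 : (m ^ 2) ^ 2 = m ^ 4 := by ring
    rw [e4]
    refine div_le_div_of_nonneg_right ?_ (by positivity)
    have e5 : e * s * t - e' * s' * t' = (e * s - e' * s') * t' + e * s * (t - t') := by ring
    rw [e5]
    refine (abs_add_le _ _).trans ?_
    rw [abs_mul, abs_mul, abs_of_pos ht', abs_of_pos (mul_pos he hs)]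
    have g1 : |e * s - e' * s'| * t' ≤ δ * Q * B := mul_le_mul h1 ht2' ht'.le (by positivity)
    have g2 : e * s * |t - t'| ≤ 2 * B * δ := mul_le_mul (mul_le_mul he2 hs2 hs.le (by norm_num)) h3 (abs_nonneg _) (by positivity)
    nlinarith
  rw [r1, r2]
  have e6 : (t - s) * (e * s * t)⁻¹ - (t' - s') * (e' * s' * t')⁻¹ =
      ((t - s) - (t' - s')) * (e * s * t)⁻¹ + (t' - s') * ((e * s * t)⁻¹ - (e' * s' * t')⁻¹) := by ring
  rw [e6]
  refine (abs_add_le _ _).trans ?_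
  rw [abs_mul, abs_mul]
  refine add_le_add ?_ (mul_le_mul hE' z2 (abs_nonneg _) ((abs_nonneg _).trans hE'))
  rw [div_eq_mul_one_div]
  exact mul_le_mul hEE z1 (abs_nonneg _) ((abs_nonneg _).trans hEE)

/-- the two clocks on one cell -/
theorem l9ph_rep2 {ell ell' δ : ℝ} (hl1 : 1 ≤ ell) (hl1' : 1 ≤ ell') (hδ : |ell - ell'| + |β - β'| ≤ δ) (v v' : ℝ) (h0 : 0 ≤ v)
    (hvv : v < v') (hv' : v' ≤ cl * R) :
    ∃ D D' : ℝ, cl ≤ D ∧ D ≤ Ch ∧ cl ≤ D' ∧ D' ≤ Ch ∧ |D' - f1 0| ≤ L * v' / cl ∧ |D - D'| ≤ L * (v' * δ * l9phG cl) ∧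
      lkkK A ell v' - lkkK A ell v = (v' - v) * (ell ^ 3 * (D + β))⁻¹ ∧
      lkkK A' ell' v' - lkkK A' ell' v = (v' - v) * (ell' ^ 3 * (D' + β'))⁻¹ := by
  have hcl := hB.cl0
  have hL := hB.L0
  have a1 := abs_nonneg (ell - ell')
  have a2 := abs_nonneg (β - β')
  have hδ0 : 0 ≤ δ := by linarith
  have hG : 0 ≤ l9phG cl := by unfold l9phG; positivity
  obtain ⟨p1, p2, p3, p4, p5⟩ := l9ph_rep hB hP hl1 h0 hvv hv'
  obtain ⟨q1, q2, q3, q4, q5⟩ := l9ph_rep hB hP' hl1' h0 hvv hv'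
  refine ⟨_, _, (l9ph_dd_bd hB p1 p2 p3).1, (l9ph_dd_bd hB p1 p2 p3).2, (l9ph_dd_bd hB q1 q2 q3).1, (l9ph_dd_bd hB q1 q2 q3).2,
    (l9ph_dd0 hB q1 q2 q3).trans ?_, l9ph_dd2 hB p1 p2 p3 q1 q2 q3 ?_ ?_, p5, q5⟩
  · rw [mul_div_assoc]
    refine mul_le_mul_of_nonneg_left ?_ hL
    rw [le_div_iff₀ hcl]; linarith
  · refine (l9ph_inv_close hB hP hP' hl1 hl1' hδ h0 (hvv.le.trans hv')).trans ?_
    exact mul_le_mul_of_nonneg_right (mul_le_mul_of_nonneg_right hvv.le hδ0) hG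
  · exact l9ph_inv_close hB hP hP' hl1 hl1' hδ (h0.trans hvv.le) hv'

theorem l9ph_es {ell ell' δ : ℝ} (hl1 : 1 ≤ ell) (hl3 : ell ^ 3 ≤ 2) (hl1' : 1 ≤ ell') (hl3' : ell' ^ 3 ≤ 2)
    (hβ' : β' ≤ 2) (hδ : |ell - ell'| + |β - β'| ≤ δ) {D D' x : ℝ} (hx : x ≤ L * (cl * R * l9phG cl)) (d3 : cl ≤ D') (d4 : D' ≤ Ch)
    (d6 : |D - D'| ≤ δ * x) : |ell ^ 3 * (D + β) - ell' ^ 3 * (D' + β')| ≤ δ * l9phQ cl Ch L R := by
  have hcl := hB.cl0
  have a1 := abs_nonneg (ell - ell')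
  have a2 := abs_nonneg (β - β')
  have hδ0 : 0 ≤ δ := by linarith
  have he1 : 1 ≤ ell ^ 3 := one_le_pow₀ hl1
  have hee : |ell ^ 3 - ell' ^ 3| ≤ 12 * δ :=
    (l9ph_cube_sub hl1 (l9ph_le_two hl1 hl3) hl1' (l9ph_le_two hl1' hl3')).trans (by linarith)
  have g1 : |(D + β) - (D' + β')| ≤ δ * (L * (cl * R * l9phG cl) + 1) := by
    have e : (D + β) - (D' + β') = (D - D') + (β - β') := by ring
    rw [e]
    refine (abs_add_le _ _).trans ?_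
    have := mul_le_mul_of_nonneg_left hx hδ0
    rw [mul_add, mul_one]
    linarith
  have g2 := l9ph_alg2 (e := ell ^ 3) (e' := ell' ^ 3) (s := D + β) (s' := D' + β') (B := Ch + 2)
    (by rw [abs_of_nonneg (by linarith)]; exact hl3)
    (by rw [abs_of_nonneg (by linarith [hP'.beta0])]; linarith) hee g1
  refine g2.trans (le_of_eq ?_)
  unfold l9phQ; ring

omit hP hP' in
theorem l9ph_CP_ge : 0 ≤ l9phQ cl Ch L R ∧ l9phQ cl Ch L R / cl ^ 2 ≤ l9phCP cl Ch L R ∧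
    L * l9phG cl / cl ^ 2 + L / cl * ((2 * (Ch + 2) + l9phQ cl Ch L R * (Ch + 2)) / cl ^ 4) ≤ l9phCP cl Ch L R := by
  have hcl := hB.cl0
  have hL := hB.L0
  have hR := hB.R0
  have h00 : (0 : ℝ) ∈ Icc 0 R := ⟨le_rfl, hB.R0.le⟩
  have hf1 := hB.lo 0 h00
  have hf2 := hB.hi 0 h00
  have hG : 0 ≤ l9phG cl := by unfold l9phG; positivity
  have hB0 : 0 ≤ Ch + 2 := by linarith
  have hQ : 0 ≤ l9phQ cl Ch L R := by unfold l9phQ; positivity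
  have c1 : 0 ≤ l9phQ cl Ch L R / cl ^ 2 := by positivity
  have c2 : 0 ≤ L * l9phG cl / cl ^ 2 := by positivity
  have c3 : 0 ≤ L / cl * ((2 * (Ch + 2) + l9phQ cl Ch L R * (Ch + 2)) / cl ^ 4) := by positivity
  refine ⟨hQ, ?_, ?_⟩ <;> unfold l9phCP <;> linarith

theorem l9ph_K2P_dk0 {ell ell' δ : ℝ} (hl1 : 1 ≤ ell) (hl3 : ell ^ 3 ≤ 2) (hl1' : 1 ≤ ell') (hl3' : ell' ^ 3 ≤ 2)
    (hβ' : β' ≤ 2) (hδ : |ell - ell'| + |β - β'| ≤ δ) :
    |(ell ^ 3 * (f1 0 + β))⁻¹ - (ell' ^ 3 * (f1 0 + β'))⁻¹| ≤ l9phCP cl Ch L R * δ := by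
  have hcl := hB.cl0
  have a1 := abs_nonneg (ell - ell')
  have a2 := abs_nonneg (β - β')
  have hδ0 : 0 ≤ δ := by linarith
  have he1 : 1 ≤ ell ^ 3 := one_le_pow₀ hl1
  have he1' : 1 ≤ ell' ^ 3 := one_le_pow₀ hl1'
  have h00 : (0 : ℝ) ∈ Icc 0 R := ⟨le_rfl, hB.R0.le⟩
  have hf1 := hB.lo 0 h00
  have hf2 := hB.hi 0 h00
  have ht1 : cl ≤ f1 0 + β := by linarith [hP.beta0]
  have ht1' : cl ≤ f1 0 + β' := by linarith [hP'.beta0]
  have t1 : cl ≤ ell ^ 3 * (f1 0 + β) := by nlinarith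
  have t2 : cl ≤ ell' ^ 3 * (f1 0 + β') := by nlinarith
  have hG : 0 ≤ l9phG cl := by unfold l9phG; positivity
  have g3 := l9ph_es hB hP hP' hl1 hl3 hl1' hl3' hβ' hδ (D := f1 0) (D' := f1 0) (x := 0)
    (by have := hB.L0; have := hB.R0; positivity) hf1 hf2 (by simp)
  refine (l9ph_inv_sub hcl t1 t2).trans ?_
  calc |ell ^ 3 * (f1 0 + β) - ell' ^ 3 * (f1 0 + β')| / cl ^ 2 ≤ δ * l9phQ cl Ch L R / cl ^ 2 :=
        div_le_div_of_nonneg_right g3 (by positivity)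
    _ = l9phQ cl Ch L R / cl ^ 2 * δ := by ring
    _ ≤ l9phCP cl Ch L R * δ := mul_le_mul_of_nonneg_right (l9ph_CP_ge hB).2.1 hδ0

theorem l9ph_K2P_one {ell ell' δ : ℝ} (hl1 : 1 ≤ ell) (hl3 : ell ^ 3 ≤ 2) (hl1' : 1 ≤ ell') (hl3' : ell' ^ 3 ≤ 2)
    (hβ' : β' ≤ 2) (hδ : |ell - ell'| + |β - β'| ≤ δ) (v v' : ℝ) (h0 : 0 ≤ v) (hvv : v ≤ v') (hv' : v' ≤ cl * R) :
    |(lkkK A ell v' - lkkK A ell v) - (lkkK A' ell' v' - lkkK A' ell' v)| ≤ l9phCP cl Ch L R * δ * (v' - v) := by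
  rcases hvv.eq_or_lt with rfl | hvv
  · simp
  have hcl := hB.cl0
  have hL := hB.L0
  have a1 := abs_nonneg (ell - ell')
  have a2 := abs_nonneg (β - β')
  have hδ0 : 0 ≤ δ := by linarith
  have he1 : 1 ≤ ell ^ 3 := one_le_pow₀ hl1
  have he1' : 1 ≤ ell' ^ 3 := one_le_pow₀ hl1'
  have hG : 0 ≤ l9phG cl := by unfold l9phG; positivity
  obtain ⟨D, D', d1, d2, d3, d4, d5, d6, e1, e2⟩ := l9ph_rep2 hB hP hP' hl1 hl1' hδ v v' h0 hvv hv'
  have s1 : cl ≤ ell ^ 3 * (D + β) := by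
    have : cl ≤ D + β := by linarith [hP.beta0]
    nlinarith
  have s2 : cl ≤ ell' ^ 3 * (D' + β') := by
    have : cl ≤ D' + β' := by linarith [hP'.beta0]
    nlinarith
  have g3 := l9ph_es hB hP hP' hl1 hl3 hl1' hl3' hβ' hδ (D := D) (D' := D') (x := L * (v' * l9phG cl))
    (mul_le_mul_of_nonneg_left (mul_le_mul_of_nonneg_right hv' hG) hL) d3 d4 (d6.trans (le_of_eq (by ring)))
  rw [e1, e2, ← mul_sub, abs_mul, abs_of_pos (by linarith : 0 < v' - v), mul_comm]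
  refine mul_le_mul_of_nonneg_right ?_ (by linarith)
  refine (l9ph_inv_sub hcl s1 s2).trans ?_
  calc |ell ^ 3 * (D + β) - ell' ^ 3 * (D' + β')| / cl ^ 2 ≤ δ * l9phQ cl Ch L R / cl ^ 2 :=
        div_le_div_of_nonneg_right g3 (by positivity)
    _ = l9phQ cl Ch L R / cl ^ 2 * δ := by ring
    _ ≤ l9phCP cl Ch L R * δ := mul_le_mul_of_nonneg_right (l9ph_CP_ge hB).2.1 hδ0

theorem l9ph_K2P_two {ell ell' δ : ℝ} (hl1 : 1 ≤ ell) (hl3 : ell ^ 3 ≤ 2) (hl1' : 1 ≤ ell') (hl3' : ell' ^ 3 ≤ 2) (hβ : β ≤ 2)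
    (hβ' : β' ≤ 2) (hδ : |ell - ell'| + |β - β'| ≤ δ) (v v' : ℝ) (h0 : 0 ≤ v) (hvv : v ≤ v') (hv' : v' ≤ cl * R) :
    |(lkkK A ell v' - lkkK A ell v - (ell ^ 3 * (f1 0 + β))⁻¹ * (v' - v)) -
      (lkkK A' ell' v' - lkkK A' ell' v - (ell' ^ 3 * (f1 0 + β'))⁻¹ * (v' - v))| ≤ l9phCP cl Ch L R * δ * v' * (v' - v) := by
  rcases hvv.eq_or_lt with rfl | hvv
  · simp
  have hcl := hB.cl0
  have hL := hB.L0
  have a1 := abs_nonneg (ell - ell')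
  have a2 := abs_nonneg (β - β')
  have hδ0 : 0 ≤ δ := by linarith
  have he1 : 1 ≤ ell ^ 3 := one_le_pow₀ hl1
  have he1' : 1 ≤ ell' ^ 3 := one_le_pow₀ hl1'
  have h00 : (0 : ℝ) ∈ Icc 0 R := ⟨le_rfl, hB.R0.le⟩
  have hf1 := hB.lo 0 h00
  have hf2 := hB.hi 0 h00
  have hG : 0 ≤ l9phG cl := by unfold l9phG; positivity
  have ht1 : cl ≤ f1 0 + β := by linarith [hP.beta0]
  have ht1' : cl ≤ f1 0 + β' := by linarith [hP'.beta0]
  have htt : |(f1 0 + β) - (f1 0 + β')| ≤ δ := by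
    rw [add_sub_add_left_eq_sub]; linarith
  obtain ⟨D, D', d1, d2, d3, d4, d5, d6, e1, e2⟩ := l9ph_rep2 hB hP hP' hl1 hl1' hδ v v' h0 hvv hv'
  have hv0 : 0 ≤ v' := h0.trans hvv.le
  have g3 := l9ph_es hB hP hP' hl1 hl3 hl1' hl3' hβ' hδ (D := D) (D' := D') (x := L * (v' * l9phG cl))
    (mul_le_mul_of_nonneg_left (mul_le_mul_of_nonneg_right hv' hG) hL) d3 d4 (d6.trans (le_of_eq (by ring)))
  have key := l9ph_alg_pair (m := cl) (B := Ch + 2) (Q := l9phQ cl Ch L R) (δ := δ) (e := ell ^ 3) (e' := ell' ^ 3)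
    (s := D + β) (s' := D' + β') (t := f1 0 + β) (t' := f1 0 + β') (ε1 := L * v' / cl) (ε2 := L * (v' * δ * l9phG cl))
    hcl hδ0 (l9ph_CP_ge hB).1 he1 hl3 he1' (by linarith [hP.beta0]) (by linarith) (by linarith [hP'.beta0]) ht1 ht1' (by linarith)
    g3 htt
    (by rw [add_sub_add_right_eq_sub, abs_sub_comm]; exact d5)
    (by
      have e : (f1 0 + β - (D + β)) - (f1 0 + β' - (D' + β')) = -(D - D') := by ring
      rw [e, abs_neg]; exact d6)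
  generalize (ell ^ 3 * (D + β))⁻¹ = W1 at *
  generalize (ell ^ 3 * (f1 0 + β))⁻¹ = W2 at *
  generalize (ell' ^ 3 * (D' + β'))⁻¹ = W3 at *
  generalize (ell' ^ 3 * (f1 0 + β'))⁻¹ = W4 at *
  have e3 : (v' - v) * W1 - W2 * (v' - v) - ((v' - v) * W3 - W4 * (v' - v)) = ((W1 - W2) - (W3 - W4)) * (v' - v) := by ring
  rw [e1, e2, e3, abs_mul, abs_of_pos (by linarith : 0 < v' - v)]
  refine mul_le_mul_of_nonneg_right (key.trans ?_) (by linarith)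
  have e4 : L * (v' * δ * l9phG cl) / cl ^ 2 + L * v' / cl * (δ * (2 * (Ch + 2) + l9phQ cl Ch L R * (Ch + 2)) / cl ^ 4) =
      (L * l9phG cl / cl ^ 2 + L / cl * ((2 * (Ch + 2) + l9phQ cl Ch L R * (Ch + 2)) / cl ^ 4)) * (δ * v') := by
    ring
  rw [e4, mul_assoc]
  exact mul_le_mul_of_nonneg_right (l9ph_CP_ge hB).2.2 (mul_nonneg hδ0 hv0)

/-- **(K2) for two abstract profiles** -/
theorem l9ph_K2P_of {ell ell' δ : ℝ} (hl1 : 1 ≤ ell) (hl3 : ell ^ 3 ≤ 2) (hl1' : 1 ≤ ell') (hl3' : ell' ^ 3 ≤ 2) (hβ : β ≤ 2)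
    (hβ' : β' ≤ 2) (hδ : |ell - ell'| + |β - β'| ≤ δ) :
    L9phK2P (lkkK A ell) (lkkK A' ell') ((ell ^ 3 * (f1 0 + β))⁻¹) ((ell' ^ 3 * (f1 0 + β'))⁻¹) (l9phCP cl Ch L R) (cl * R) δ :=
  ⟨l9ph_K2P_dk0 hB hP hP' hl1 hl3 hl1' hl3' hβ' hδ, l9ph_K2P_one hB hP hP' hl1 hl3 hl1' hl3' hβ' hδ,
    l9ph_K2P_two hB hP hP' hl1 hl3 hl1' hl3' hβ hβ' hδ⟩

end two

/-! ## 5. the path points -/

/-- the base profile near `0` -/
theorem l9ph_base (𝔹 : LlBase) (T : ℝ) (hb : LlBaseProfile 𝔹 T) :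
    ∃ (f f1 : ℝ → ℝ) (R0 cl Ch L : ℝ), 0 < R0 ∧ R0 < 𝔹.xiS T ∧ f1 0 = 𝔹.kapT T / T ∧ (∀ ξ ∈ Icc 0 R0, 𝔹.A0 T ξ = f ξ) ∧
      ∀ R, 0 < R → R ≤ R0 → L9phBase f f1 R cl Ch L := by
  obtain ⟨a, ha0, _, ha1, hder⟩ := hb.tower
  have hxs := hb.xi_pos
  set ξs := 𝔹.xiS T with hξs
  have hT : 0 < T := lt_of_lt_of_le hxs hb.xi_le
  have hk : 0 < a 1 0 := by rw [ha1]; exact div_pos hb.kap_pos hT
  have hc2 : ContinuousOn (a 2) (Icc 0 ξs) := fun ξ hξ => (hder 2 ξ hξ).continuousWithinAt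
  obtain ⟨B, hB⟩ := isCompact_Icc.exists_bound_of_continuousOn hc2
  have hlip : ∀ x ∈ Icc 0 ξs, ∀ y ∈ Icc 0 ξs, |a 1 x - a 1 y| ≤ |B| * |x - y| := by
    intro x hx y hy
    have := Convex.norm_image_sub_le_of_norm_hasDerivWithin_le (f := a 1) (f' := a 2) (C := |B|)
      (s := Icc 0 ξs) (x := y) (y := x) (fun z hz => hder 1 z hz)
      (fun z hz => (hB z hz).trans (le_abs_self _)) (convex_Icc _ _) hy hx
    rwa [Real.norm_eq_abs, Real.norm_eq_abs] at this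
  have h00 : (0 : ℝ) ∈ Icc 0 ξs := ⟨le_rfl, hxs.le⟩
  set R0 := min (ξs / 2) (a 1 0 / (2 * (|B| + 1))) with hR0
  have hBp : 0 < 2 * (|B| + 1) := by positivity
  have hR0pos : 0 < R0 := lt_min (by linarith) (div_pos hk hBp)
  have hR0s : R0 < ξs := lt_of_le_of_lt (min_le_left _ _) (by linarith)
  refine ⟨a 0, a 1, R0, a 1 0 / 2, a 1 0 + |B| * ξs, |B|, hR0pos, hR0s, ha1,
    fun ξ hξ => ha0 ξ ⟨hξ.1, lt_of_le_of_lt hξ.2 hR0s⟩, fun R hR hRR => ?_⟩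
  have hsub : Icc 0 R ⊆ Icc 0 ξs := Icc_subset_Icc_right (hRR.trans hR0s.le)
  refine ⟨hR, by linarith, abs_nonneg _, ?_, fun x hx => (hder 0 x (hsub hx)).mono hsub, fun x hx => ?_, fun x hx => ?_,
    fun x hx y hy => hlip x (hsub hx) y (hsub hy)⟩
  · rw [← ha0 0 ⟨le_rfl, hxs⟩]; exact hb.zero 0 le_rfl
  · have h1 := hlip x (hsub hx) 0 h00
    rw [sub_zero, abs_of_nonneg hx.1] at h1
    have h2 : x ≤ a 1 0 / (2 * (|B| + 1)) := (hx.2.trans hRR).trans (min_le_right _ _)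
    rw [le_div_iff₀ hBp] at h2
    have h3 := (abs_le.1 h1).1
    have := abs_nonneg B
    nlinarith [hx.1]
  · have h1 := hlip x (hsub hx) 0 h00
    rw [sub_zero, abs_of_nonneg hx.1] at h1
    have h3 := (abs_le.1 h1).2
    have h4 : |B| * x ≤ |B| * ξs := mul_le_mul_of_nonneg_left (hsub hx).2 (abs_nonneg _)
    linarith

/-- the strength of the linear part of the profile near `0` -/
noncomputable def LlPt.bet (p : LlPt) : ℝ := p.lam + if p.sm then p.om else 0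

/-- the speed of the clock at the mass `0`:   `k_0 = 1 / (ℓ³ (κ_T/T + λ + ω 1_sm))` -/
noncomputable def LlPt.k0 (p : LlPt) (F : LlFix) (𝔹 : LlBase) : ℝ := (p.ell ^ 3 * (𝔹.kapT F.T / F.T + p.bet))⁻¹

/-! ### the smoothed profile from the DIRECT profile (`LlDirProf`, a field of `LlSec3`): no smallness of `z_0` is used -/

section smD

variable {A0 P : ℝ → ℝ} {ξs pT lam om M J : ℝ}
  (hD : LpqProf (lkkDir A0 P lam) ξs 1) (hT : ∀ ξ, 0 ≤ ξ → ξ < ξs → lkkDir A0 P lam ξ ≤ pT) (hp0 : 0 ≤ pT) (hp1 : pT ≤ 1)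
  (ho : 0 < om) (hM : ξs < M) (hJ : 1 + om * M ≤ J)

include hD hT hp0 hp1 ho

theorem l9ph_br_mono : MonotoneOn (lkkBr A0 P lam ξs pT om) (Ici 0) := by
  intro ξ h0 ξ' h0' h1
  unfold lkkBr
  by_cases c' : ξ' < ξs
  · rw [if_pos c', if_pos (lt_of_le_of_lt h1 c')]
    exact hD.mono h0 h0' h1
  · rw [if_neg c']
    rw [not_lt] at c'
    by_cases c : ξ < ξs
    · rw [if_pos c]
      have a1 := hT ξ h0 c
      have a2 : 0 ≤ (1 - pT) * min 1 ((ξ' - ξs) / om) :=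
        mul_nonneg (by linarith) (le_min zero_le_one (div_nonneg (by linarith) ho.le))
      linarith
    · rw [if_neg c]
      have : min 1 ((ξ - ξs) / om) ≤ min 1 ((ξ' - ξs) / om) :=
        min_le_min_left _ (div_le_div_of_nonneg_right (by linarith) ho.le)
      have := mul_le_mul_of_nonneg_left this (by linarith : 0 ≤ 1 - pT)
      linarith

theorem l9ph_br_le_one (ξ : ℝ) (h0 : 0 ≤ ξ) : lkkBr A0 P lam ξs pT om ξ ≤ 1 := by
  unfold lkkBr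
  split_ifs with c
  · exact (hT ξ h0 c).trans hp1
  · have : (1 - pT) * min 1 ((ξ - ξs) / om) ≤ (1 - pT) * 1 :=
      mul_le_mul_of_nonneg_left (min_le_left _ _) (by linarith)
    linarith

theorem l9ph_br_rc (ξ : ℝ) (h0 : 0 ≤ ξ) : ContinuousWithinAt (lkkBr A0 P lam ξs pT om) (Ici ξ) ξ := by
  rcases lt_or_ge ξ ξs with h | h
  · refine (hD.rc ξ h0).congr_of_eventuallyEq ?_ (by unfold lkkBr; rw [if_pos h])
    filter_upwards [Ico_mem_nhdsGE h] with y hy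
    unfold lkkBr; rw [if_pos hy.2]
  · have hc : Continuous fun y : ℝ => pT + (1 - pT) * min 1 ((y - ξs) / om) := by fun_prop
    refine hc.continuousWithinAt.congr (fun y hy => ?_) ?_
    · unfold lkkBr; rw [if_neg (not_lt.2 (h.trans hy))]
    · unfold lkkBr; rw [if_neg (not_lt.2 h)]

include hM hJ

theorem l9ph_sm_low (ξ : ℝ) (h : ξ < ξs) : lkkSm A0 P lam ξs pT om M J ξ = lkkDir A0 P lam ξ + om * ξ := by
  unfold lkkSm lkkBr
  rw [if_neg (not_le.2 (h.trans hM)), if_pos h]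

theorem l9ph_sm_mono : MonotoneOn (lkkSm A0 P lam ξs pT om M J) (Ici 0) := by
  intro ξ h0 ξ' h0' h1
  have h00 : (0 : ℝ) ≤ ξ := h0
  unfold lkkSm
  by_cases c' : M ≤ ξ'
  · rw [if_pos c']
    by_cases c : M ≤ ξ
    · rw [if_pos c]
    · rw [if_neg c]
      rw [not_le] at c
      have a1 := l9ph_br_le_one hD hT hp0 hp1 ho ξ h0
      have a2 : om * ξ ≤ om * M := mul_le_mul_of_nonneg_left c.le ho.le
      linarith
  · rw [if_neg c', if_neg (fun c => c' (c.trans h1))]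
    have a1 := l9ph_br_mono hD hT hp0 hp1 ho h0 h0' h1
    have a2 : om * ξ ≤ om * ξ' := mul_le_mul_of_nonneg_left h1 ho.le
    linarith

theorem l9ph_sm_rc (ξ : ℝ) (h0 : 0 ≤ ξ) : ContinuousWithinAt (lkkSm A0 P lam ξs pT om M J) (Ici ξ) ξ := by
  rcases lt_or_ge ξ M with h | h
  · have hc : ContinuousWithinAt (fun y => lkkBr A0 P lam ξs pT om y + om * y) (Ici ξ) ξ :=
      (l9ph_br_rc hD hT hp0 hp1 ho ξ h0).add (by fun_prop)
    refine hc.congr_of_eventuallyEq ?_ (by unfold lkkSm; rw [if_neg (not_le.2 h)])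
    filter_upwards [Ico_mem_nhdsGE h] with y hy
    unfold lkkSm; rw [if_neg (not_le.2 hy.2)]
  · refine (continuousWithinAt_const (b := J)).congr (fun y hy => ?_) ?_
    · unfold lkkSm; rw [if_pos (h.trans hy)]
    · unfold lkkSm; rw [if_pos h]

theorem l9ph_sm_nn : 0 ≤ lkkSm A0 P lam ξs pT om M J 0 := by
  have hM0 : (0 : ℝ) < M := lt_of_le_of_lt hD.tau hM
  unfold lkkSm lkkBr
  rw [if_neg (not_le.2 hM0), mul_zero, add_zero]
  split_ifs with c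
  · exact hD.nn
  · have a2 : 0 ≤ (1 - pT) * min 1 ((0 - ξs) / om) := by
      have h0 : ξs = 0 := le_antisymm (not_lt.1 c) hD.tau
      rw [h0, sub_zero, zero_div, min_eq_right zero_le_one, mul_zero]
    linarith

theorem l9ph_sm_prof : LpqProf (lkkSm A0 P lam ξs pT om M J) M J where
  mono := l9ph_sm_mono hD hT hp0 hp1 ho hM hJ
  rc := l9ph_sm_rc hD hT hp0 hp1 ho hM hJ
  nn := l9ph_sm_nn hD hT hp0 hp1 ho hM hJ
  top := fun ξ h => by unfold lkkSm; rw [if_pos h]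
  tau := (hD.tau.trans hM.le)

theorem l9ph_sm_lo_glob (ξ ξ' : ℝ) (h0 : 0 ≤ ξ) (h1 : ξ ≤ ξ') (h2 : ξ' < M) :
    om * (ξ' - ξ) ≤ lkkSm A0 P lam ξs pT om M J ξ' - lkkSm A0 P lam ξs pT om M J ξ := by
  unfold lkkSm
  rw [if_neg (not_le.2 h2), if_neg (not_le.2 (lt_of_le_of_lt h1 h2))]
  have a1 := l9ph_br_mono hD hT hp0 hp1 ho (mem_Ici.2 h0) (mem_Ici.2 (h0.trans h1)) h1
  nlinarith

theorem l9ph_sm_lo_clo (ξ ξ' : ℝ) (h0 : 0 ≤ ξ) (h1 : ξ ≤ ξ') (h2 : ξ' ≤ M) :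
    om * (ξ' - ξ) ≤ lkkSm A0 P lam ξs pT om M J ξ' - lkkSm A0 P lam ξs pT om M J ξ := by
  rcases lt_or_eq_of_le h2 with c | c
  · exact l9ph_sm_lo_glob hD hT hp0 hp1 ho hM hJ ξ ξ' h0 h1 c
  · subst c
    rcases lt_or_eq_of_le h1 with d | d
    · have a1 := l9ph_br_le_one hD hT hp0 hp1 ho ξ h0
      unfold lkkSm
      rw [if_pos le_rfl, if_neg (not_le.2 d)]
      nlinarith
    · subst d; simp

theorem l9ph_sm_inv_lip_glob (w w' : ℝ) (hww : w ≤ w') (hw' : w' ≤ J) :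
    om * (llInv (lkkSm A0 P lam ξs pT om M J) w' - llInv (lkkSm A0 P lam ξs pT om M J) w) ≤ w' - w := by
  have hA := l9ph_sm_prof hD hT hp0 hp1 ho hM hJ
  exact lpq_inv_lip hA om M (l9ph_sm_lo_clo hD hT hp0 hp1 ho hM hJ) hA.tau w w' hww (by rw [hA.top M le_rfl]; exact hw')

end smD

/-- the profile at a path point: from the DIRECT profile of the P-list (`LlDirProf`) -/
theorem l9ph_prof {p : LlPt} {F : LlFix} {𝔹 : LlBase} {R : ℝ} {f : ℝ → ℝ}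
    (hD : LpqProf (p.Adir F 𝔹) (𝔹.xiS F.T) 1) (hT : ∀ ξ, 0 ≤ ξ → ξ < 𝔹.xiS F.T → p.Adir F 𝔹 ξ ≤ 𝔹.pTop F.T)
    (hp0 : 0 ≤ 𝔹.pTop F.T) (hp1 : 𝔹.pTop F.T ≤ 1) (hF : F.Ok)
    (hp : p.Ok F) (hM : 𝔹.xiS F.T < p.M) (hRz : R ≤ F.z0 / 2) (hRs : R < 𝔹.xiS F.T)
    (hf : ∀ ξ ∈ Icc 0 R, 𝔹.A0 F.T ξ = f ξ) :
    ∃ τ J : ℝ, L9phProf (p.Aprof F 𝔹) f p.bet R τ J ∧ p.a = p.ell * J ∧ τ = (if p.sm then p.M else 𝔹.xiS F.T) ∧
      ∀ ξ, 0 ≤ ξ → ξ < τ → ∀ w, (if p.sm then J ≤ w else 𝔹.pTop F.T < w) → p.Aprof F 𝔹 ξ < w := by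
  have hl0 := (lkk_lam_pos hp).le
  have hell : 0 < p.ell := by linarith [hp.ell1]
  have ho := lkk_om_pos hp.N2
  have hJ : 1 + p.om * p.M ≤ 4 / p.ell := by
    rw [le_div_iff₀ hell]
    have h1 := lkk_omM hp.N2
    have h2 := lkk_ell_le_two hp
    have h3 : 0 ≤ p.om * p.M := mul_nonneg ho.le (lkk_M_nonneg hp.N2)
    nlinarith
  have hD' : LpqProf (lkkDir (𝔹.A0 F.T) F.P p.lam) (𝔹.xiS F.T) 1 := hD
  have hT' : ∀ ξ, 0 ≤ ξ → ξ < 𝔹.xiS F.T → lkkDir (𝔹.A0 F.T) F.P p.lam ξ ≤ 𝔹.pTop F.T := hT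
  cases hsm : p.sm with
  | false =>
    have eA : p.Aprof F 𝔹 = lkkDir (𝔹.A0 F.T) F.P p.lam := by unfold LlPt.Aprof; rw [hsm]; rfl
    have eb : p.bet = p.lam := by unfold LlPt.bet; rw [hsm]; simp
    refine ⟨𝔹.xiS F.T, 1, ⟨?_, ?_, ?_⟩, by unfold LlPt.a; rw [hsm]; simp, by simp, ?_⟩
    · rw [eA]; exact hD'
    · rw [eb]; exact hl0
    · intro ξ hξ
      rw [eA, eb, lkkDir, hf ξ hξ, hF.P_lin ξ ⟨hξ.1, hξ.2.trans hRz⟩]
    · intro ξ h0 h1 w hw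
      rw [eA]
      exact lt_of_le_of_lt (hT' ξ h0 h1) (by simpa using hw)
  | true =>
    have eA : p.Aprof F 𝔹 = lkkSm (𝔹.A0 F.T) F.P p.lam (𝔹.xiS F.T) (𝔹.pTop F.T) p.om p.M (4 / p.ell) := by
      unfold LlPt.Aprof; rw [hsm]; rfl
    have eb : p.bet = p.lam + p.om := by unfold LlPt.bet; rw [hsm]; simp
    refine ⟨p.M, 4 / p.ell, ⟨?_, ?_, ?_⟩, by unfold LlPt.a; rw [hsm]; field_simp; simp, by simp, ?_⟩
    · rw [eA]; exact l9ph_sm_prof hD' hT' hp0 hp1 ho hM hJ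
    · rw [eb]; linarith
    · intro ξ hξ
      rw [eA, eb, l9ph_sm_low hD' hT' hp0 hp1 ho hM hJ ξ (lt_of_le_of_lt hξ.2 hRs), lkkDir, hf ξ hξ,
        hF.P_lin ξ ⟨hξ.1, hξ.2.trans hRz⟩]
      ring
    · intro ξ h0 h1 w hw
      have hw' : 4 / p.ell ≤ w := by simpa using hw
      rw [eA]
      unfold lkkSm
      rw [if_neg (not_le.2 h1)]
      have a1 := l9ph_br_le_one hD' hT' hp0 hp1 ho ξ h0
      have a2 : p.om * ξ < p.om * p.M := mul_lt_mul_of_pos_left h1 ho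
      linarith

theorem l9ph_bet_le {p : LlPt} {F : LlFix} (hF : F.Ok) (hp : p.Ok F) : p.bet ≤ 2 := by
  have h1 : p.lam ≤ 1 := hp.lam_hi.trans (Real.rpow_le_one (lkk_x_pos hp.N2).le (lkk_x_lt_one hp.N2).le hF.pS0.le)
  have h2 := lkk_om_le_one hp.N2
  have h3 := (lkk_om_pos hp.N2).le
  unfold LlPt.bet
  split_ifs <;> linarith

/-- **EXIT (K2)**, with the admissibility of the clock and its FLAT TOP: near the mass `0` the clock is `C^{1,1}`, uniformly in the path point; two points are compared at first and second order.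
HYPOTHESES = the P-list only (`LlDirProf` = field `dirProf` of `LlSec3`): NO smallness of `z_0` (table-N item of helper11, 15 Oct 06:05Z).   `c, C, v2, N0` depend on `𝔹, F`. -/
theorem l9ph_K2_core (𝔹 : LlBase) (F : LlFix) (hb : LlBaseProfile 𝔹 F.T) (hF : F.Ok) (hDP : LlDirProf 𝔹 F) :
    ∃ c C v2 : ℝ, 0 < c ∧ 1 ≤ C ∧ 0 < v2 ∧ ∃ N0 : ℕ,
      (∀ p : LlPt, p.Ok F → N0 ≤ p.N → L9phK2 (p.K F 𝔹) (p.k0 F 𝔹) c C v2 ∧ GhClk1 p.a (p.K F 𝔹) ∧
        ∀ v, (if p.sm then 4 ≤ v else p.ell * 𝔹.pTop F.T < v) → v ≤ p.a →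
          p.K F 𝔹 v = (p.ell ^ 2)⁻¹ * (if p.sm then p.M else 𝔹.xiS F.T)) ∧
      ∀ p p' : LlPt, p.Ok F → p'.Ok F → N0 ≤ p.N → N0 ≤ p'.N → ∀ δ : ℝ, |p.ell - p'.ell| + |p.bet - p'.bet| ≤ δ →
        L9phK2P (p.K F 𝔹) (p'.K F 𝔹) (p.k0 F 𝔹) (p'.k0 F 𝔹) C v2 δ := by
  obtain ⟨f, f1, R0, cl, Ch, L, hR0, hR0s, hf1, hf, hbase⟩ := l9ph_base 𝔹 F.T hb
  obtain ⟨hpT, N1, hN1⟩ := hDP
  obtain ⟨N2, hN2⟩ := lkk_M_large (𝔹.xiS F.T)
  set R := min R0 (F.z0 / 2) with hR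
  have hRpos : 0 < R := lt_min hR0 (by linarith [hF.z00])
  have hb' := hbase R hRpos (min_le_left _ _)
  have hprof : ∀ p : LlPt, p.Ok F → max N1 N2 ≤ p.N → ∃ τ J : ℝ, L9phProf (p.Aprof F 𝔹) f p.bet R τ J ∧ p.a = p.ell * J ∧
      τ = (if p.sm then p.M else 𝔹.xiS F.T) ∧
      ∀ ξ, 0 ≤ ξ → ξ < τ → ∀ w, (if p.sm then J ≤ w else 𝔹.pTop F.T < w) → p.Aprof F 𝔹 ξ < w := by
    intro p hp hN
    have h := hN1 p hp ((le_max_left _ _).trans hN)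
    exact l9ph_prof h.1 h.2 hpT.1.le hpT.2.le hF hp (hN2 p hp.N2 ((le_max_right _ _).trans hN)) (min_le_right _ _)
      (lt_of_le_of_lt (min_le_left _ _) hR0s) (fun ξ hξ => hf ξ ⟨hξ.1, hξ.2.trans (min_le_left _ _)⟩)
  have hcl := hb'.cl0
  have h00 : (0 : ℝ) ∈ Icc 0 R := ⟨le_rfl, hRpos.le⟩
  have hCh : 0 < Ch := lt_of_lt_of_le hcl ((hb'.lo 0 h00).trans (hb'.hi 0 h00))
  have hC1 : 0 ≤ 1 / cl + 2 * L / cl ^ 3 := by have := hb'.L0; positivity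
  have hC2 : 0 ≤ l9phCP cl Ch L R := (div_nonneg (l9ph_CP_ge hb').1 (by positivity)).trans (l9ph_CP_ge hb').2.1
  set C := 1 + (1 / cl + 2 * L / cl ^ 3) + l9phCP cl Ch L R with hC
  refine ⟨1 / (2 * (Ch + 2)), C, cl * R, by positivity, by linarith, by positivity, max N1 N2, fun p hp hN => ?_,
    fun p p' hp hp' hN hN' δ hδ => ?_⟩
  · obtain ⟨τ, J, hA, haJ, hτ, hflat⟩ := hprof p hp hN
    have h := l9ph_K2_of hb' hA hp.ell1 (lkk_ell3 hp) (l9ph_bet_le hF hp)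
    rw [hf1] at h
    have hle : 1 / cl + 2 * L / cl ^ 3 ≤ C := by linarith
    refine ⟨⟨h.zero, h.k0_nn, h.k0_le.trans hle, h.lo, fun v v' h0 hvv hv' => (h.hi v v' h0 hvv hv').trans
      (mul_le_mul_of_nonneg_right hle (by linarith)), fun v v' h0 hvv hv' => (h.two v v' h0 hvv hv').trans ?_⟩,
      ⟨(lkk_K_mono hA.prof hp.ell1).mono (fun v hv => by rw [mem_Iic, ← haJ]; exact hv.2), h.zero.ge⟩, fun v hv hva => ?_⟩
    · exact mul_le_mul_of_nonneg_right (mul_le_mul_of_nonneg_right hle (h0.trans hvv)) (by linarith)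
    · have hell : 0 < p.ell := by linarith [hp.ell1]
      have e1 : v / p.ell ≤ J := by rw [div_le_iff₀ hell, mul_comm]; rw [← haJ]; exact hva
      have e2 : (if p.sm then J ≤ v / p.ell else 𝔹.pTop F.T < v / p.ell) := by
        cases hsm : p.sm with
        | false =>
          rw [hsm] at hv
          simp only [Bool.false_eq_true, if_false] at hv ⊢
          rw [lt_div_iff₀ hell, mul_comm]; exact hv
        | true =>
          rw [hsm] at hv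
          simp only [if_true] at hv ⊢
          have ea : p.a = 4 := by unfold LlPt.a; rw [hsm]; simp
          rw [le_div_iff₀ hell, mul_comm, ← haJ, ea]; exact hv
      show (p.ell ^ 2)⁻¹ * llInv (p.Aprof F 𝔹) (v / p.ell) = _
      rw [← hτ]
      congr 1
      refine le_antisymm (lpq_inv_le_tau hA.prof _ e1) ?_
      by_contra hc
      rw [not_le] at hc
      have a1 := hflat _ (lpq_inv_nonneg _ _) hc (v / p.ell) e2
      have a2 := lpq_le_at_inv hA.prof _ e1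
      linarith
  · obtain ⟨τ, J, hA, -⟩ := hprof p hp hN
    obtain ⟨τ', J', hA', -⟩ := hprof p' hp' hN'
    have h := l9ph_K2P_of hb' hA hA' hp.ell1 (lkk_ell3 hp) hp'.ell1 (lkk_ell3 hp') (l9ph_bet_le hF hp) (l9ph_bet_le hF hp') hδ
    rw [hf1] at h
    have hδ0 : 0 ≤ δ := le_trans (add_nonneg (abs_nonneg _) (abs_nonneg _)) hδ
    have hle : l9phCP cl Ch L R ≤ C := by linarith
    have hle2 : l9phCP cl Ch L R * δ ≤ C * δ := mul_le_mul_of_nonneg_right hle hδ0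
    refine ⟨h.dk0.trans hle2, fun v v' h0 hvv hv' => (h.one v v' h0 hvv hv').trans
      (mul_le_mul_of_nonneg_right hle2 (by linarith)), fun v v' h0 hvv hv' => (h.two v v' h0 hvv hv').trans ?_⟩
    exact mul_le_mul_of_nonneg_right (mul_le_mul_of_nonneg_right hle2 (h0.trans hvv)) (by linarith)

/-- **EXIT (K2)** -/
theorem l9ph_K2_main (𝔹 : LlBase) (F : LlFix) (hb : LlBaseProfile 𝔹 F.T) (hF : F.Ok) (hDP : LlDirProf 𝔹 F) :
    ∃ c C v2 : ℝ, 0 < c ∧ 1 ≤ C ∧ 0 < v2 ∧ ∃ N0 : ℕ,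
      (∀ p : LlPt, p.Ok F → N0 ≤ p.N → L9phK2 (p.K F 𝔹) (p.k0 F 𝔹) c C v2) ∧
      ∀ p p' : LlPt, p.Ok F → p'.Ok F → N0 ≤ p.N → N0 ≤ p'.N → ∀ δ : ℝ, |p.ell - p'.ell| + |p.bet - p'.bet| ≤ δ →
        L9phK2P (p.K F 𝔹) (p'.K F 𝔹) (p.k0 F 𝔹) (p'.k0 F 𝔹) C v2 δ := by
  obtain ⟨c, C, v2, h1, h2, h3, N0, h4, h5⟩ := l9ph_K2_core 𝔹 F hb hF hDP
  exact ⟨c, C, v2, h1, h2, h3, N0, fun p hp hN => (h4 p hp hN).1, h5⟩

/-- exact scaling of `k_0` along the size segment -/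
theorem l9ph_k0_scale (p p' : LlPt) (F : LlFix) (𝔹 : LlBase) (h : ℝ) (hb : p'.bet = p.bet) (hl : p'.ell = Real.exp (h / 6) * p.ell) :
    p'.k0 F 𝔹 = Real.exp (-h / 2) * p.k0 F 𝔹 := by
  unfold LlPt.k0
  rw [hb, hl, mul_pow, ← Real.exp_nat_mul, mul_assoc, mul_inv, ← Real.exp_neg]
  congr 2
  push_cast
  ring

theorem l9ph_physK_eqns_cite : True := by
  have := @LlPt.bet.eq_1
  have := @LlPt.k0.eq_1
  have := @l9phDD.eq_1
  have := @l9phG.eq_1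
  have := @l9phQ.eq_1
  have := @l9phCP.eq_1
  trivial

end Claimed.Agent.R286
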