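import Claimed.Agent.R286.L09.GridK
import Claimed.Agent.R286.L09.PhysK
import Claimed.Agent.R286.L09.Contract

/-!
# Row 286 (S0533), LL 09, PHYSICAL LAYER, file T: K-TAYLOR = THE SIZE CLOCK AT THE REAL PROFILE IS PIECEWISE `C^{1,1}`      (owner helper156; head of the unit helper60; prefix `l9t2_`, `L9t2`)

`K_θ(v) = ℓ⁻² Ψ(v/ℓ)`, `ℓ = e^{θ/6}`, `Ψ = Â⁻¹` (LL 03 l.119-135).   INSTANCE of `L9k2Prof` (`L09/GridK.lean`, 263) at the real smoothed profile.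
* `L9t2Pc A g g1 α β c L`   an increasing `C^{1,1}` piece `[α, β)` of a mass profile `A`;   `l9t2_pc_inv`, `l9t2_pc_deriv`, `l9t2_pc_lip'` : the generalised inverse on `(g α, g β)`;
* `l9t2Psi`, `l9t2Psd`      `Ψ` (terminal mass `5`: it does not depend on `ℓ`) and `Ψ'`;   kinks `w1 = p_top + ω ξ_*`, `w2 = 1 + ω (ξ_* + ω)`, `w3 = 1 + ω M`;
* `l9t2_prof_abs`           `L9k2Prof Ψ Ψ' 5 M (1/ω) (L/ω³) {w1, w2, w3}` for the abstract smoothed profile `lkkSm`;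
* `l9t2_K_eq`               `p.K F 𝔹 v = l9k2K Ψ θ v` for `v ≤ 4`, `v e^{-θ/6} ≤ 5`;
* EXIT (size) `l9t2_main`;   `l9t2_siz_const`: `Ψ, Ψ'`, the kinks are constant along the size segment.
DIRECT PATH (§4): `φ(λ) = (A_0 + λ P)⁻¹(w)`:   `l9t2_dir_taylor` : `|φ(λ') - φ(λ) + (λ' - λ) P(φ)/A_λ'(φ)| ≤ C (λ' - λ)² w` (no implicit function theorem: `g_λ(ξ') - g_λ(ξ) = - (λ' - λ) P(ξ')` + Taylor of `g_λ`);
* EXIT (direct) `l9t2_main_dir` : `|K_{t+h}(v) - K_t(v) - h K̇_t(v)| ≤ C λ h² v`, `|K_{t+h}(v) - K_t(v)| ≤ C λ |h| v`, `|K̇_t(v)| ≤ C λ v`, ALL `v ∈ [0, ℓ]`, signed `|h| ≤ 1`, `t = log λ`, `K̇ = p.KdL`;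
  `l9t2_ptL_shift`, `l9t2_ptL_hasDeriv` : the same along `l9PtL`.      0 sorry.
TEX[LL:paths:parameter-regularity]
-/

set_option autoImplicit false
set_option linter.unusedSectionVars false

namespace Claimed.Agent.R286

open MeasureTheory Set Filter Topology

/-! ## 1. the generalised inverse on an increasing `C^{1,1}` piece -/

/-- an increasing `C^{1,1}` piece `[α, β)` of the mass profile `A` -/
structure L9t2Pc (A g g1 : ℝ → ℝ) (α β c L : ℝ) : Prop where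
  a0 : 0 ≤ α
  ab : α < β
  c0 : 0 < c
  L0 : 0 ≤ L
  mono : MonotoneOn A (Ici 0)
  eq : ∀ ξ ∈ Ico α β, A ξ = g ξ
  der : ∀ ξ ∈ Icc α β, HasDerivWithinAt g (g1 ξ) (Icc α β) ξ
  inc : ∀ ξ ξ', α ≤ ξ → ξ ≤ ξ' → ξ' ≤ β → c * (ξ' - ξ) ≤ g ξ' - g ξ
  lip : ∀ ξ ∈ Icc α β, ∀ ξ' ∈ Icc α β, |g1 ξ - g1 ξ'| ≤ L * |ξ - ξ'|

section pc

variable {A g g1 : ℝ → ℝ} {α β c L : ℝ} (H : L9t2Pc A g g1 α β c L)

include H

theorem l9t2_pc_lo {ξ : ℝ} (hξ : ξ ∈ Icc α β) : c ≤ g1 ξ := by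
  have hd : HasDerivWithinAt (fun y => g y - c * y) (g1 ξ - c) (Icc α β) ξ := by
    have := (H.der ξ hξ).sub ((hasDerivWithinAt_id ξ (Icc α β)).const_mul c)
    rw [mul_one] at this
    exact this
  have hm : MonotoneOn (fun y => g y - c * y) (Icc α β) := by
    intro y hy y' hy' hyy
    have := H.inc y y' hy.1 hyy hy'.2
    show g y - c * y ≤ g y' - c * y'
    linarith
  have := hd.nonneg_of_monotoneOn (uniqueDiffOn_Icc H.ab ξ hξ).accPt hm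
  linarith

theorem l9t2_pc_inv {w : ℝ} (hw : w ∈ Ioo (g α) (g β)) : llInv A w ∈ Ioo α β ∧ g (llInv A w) = w := by
  have hc : ContinuousOn g (Icc α β) := fun ξ hξ => (H.der ξ hξ).continuousWithinAt
  obtain ⟨ξ, hξ, rfl⟩ := intermediate_value_Ioo H.ab.le hc hw
  have hξ0 : 0 ≤ ξ := H.a0.trans hξ.1.le
  have e : llInv A (g ξ) = ξ := by
    refine le_antisymm (lpq_inv_le A _ ξ hξ0 (H.eq ξ ⟨hξ.1.le, hξ.2⟩).ge) ?_
    refine le_csInf ⟨ξ, hξ0, (H.eq ξ ⟨hξ.1.le, hξ.2⟩).ge⟩ ?_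
    rintro η ⟨h0, hη⟩
    by_contra hlt
    rw [not_le] at hlt
    rcases le_or_gt α η with h | h
    · have := H.inc η ξ h hlt.le hξ.2.le
      rw [H.eq η ⟨h, hlt.trans hξ.2⟩] at hη
      nlinarith [H.c0]
    · have h1 := H.mono (mem_Ici.2 h0) (mem_Ici.2 H.a0) h.le
      rw [H.eq α ⟨le_rfl, H.ab⟩] at h1
      linarith [hw.1]
  rw [e]
  exact ⟨hξ, rfl⟩

theorem l9t2_pc_lip {w w' : ℝ} (hw : w ∈ Ioo (g α) (g β)) (hw' : w' ∈ Ioo (g α) (g β)) :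
    c * |llInv A w - llInv A w'| ≤ |w - w'| := by
  obtain ⟨h1, e1⟩ := l9t2_pc_inv H hw
  obtain ⟨h2, e2⟩ := l9t2_pc_inv H hw'
  rcases le_total (llInv A w) (llInv A w') with h | h
  · have := H.inc _ _ h1.1.le h h2.2.le
    rw [e1, e2] at this
    rw [abs_sub_comm, abs_of_nonneg (sub_nonneg.2 h), abs_sub_comm]
    exact this.trans (le_abs_self _)
  · have := H.inc _ _ h2.1.le h h1.2.le
    rw [e1, e2] at this
    rw [abs_of_nonneg (sub_nonneg.2 h)]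
    exact this.trans (le_abs_self _)

theorem l9t2_pc_deriv {w : ℝ} (hw : w ∈ Ioo (g α) (g β)) : HasDerivAt (llInv A) (g1 (llInv A w))⁻¹ w := by
  obtain ⟨h1, -⟩ := l9t2_pc_inv H hw
  have hc0 := H.c0
  have hU : Ioo (g α) (g β) ∈ 𝓝 w := isOpen_Ioo.mem_nhds hw
  obtain ⟨r, hr, hball⟩ := Metric.mem_nhds_iff.1 hU
  have hcont : ContinuousAt (llInv A) w := by
    refine continuousAt_of_locally_lipschitz hr c⁻¹ fun y hy => ?_
    have := l9t2_pc_lip H (hball hy) hw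
    rw [Real.dist_eq, Real.dist_eq, inv_mul_eq_div, le_div_iff₀ hc0]
    linarith
  refine HasDerivAt.of_local_left_inverse hcont ((H.der _ ⟨h1.1.le, h1.2.le⟩).hasDerivAt (Icc_mem_nhds h1.1 h1.2)) ?_ ?_
  · have := l9t2_pc_lo H (ξ := llInv A w) ⟨h1.1.le, h1.2.le⟩
    linarith
  · filter_upwards [hU] with y hy using (l9t2_pc_inv H hy).2

theorem l9t2_pc_lip' {w w' : ℝ} (hw : w ∈ Ioo (g α) (g β)) (hw' : w' ∈ Ioo (g α) (g β)) :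
    |(g1 (llInv A w))⁻¹ - (g1 (llInv A w'))⁻¹| ≤ L / c ^ 3 * |w - w'| := by
  obtain ⟨h1, -⟩ := l9t2_pc_inv H hw
  obtain ⟨h2, -⟩ := l9t2_pc_inv H hw'
  have m1 : llInv A w ∈ Icc α β := ⟨h1.1.le, h1.2.le⟩
  have m2 : llInv A w' ∈ Icc α β := ⟨h2.1.le, h2.2.le⟩
  have hc0 := H.c0
  have a1 := l9ph_inv_sub hc0 (l9t2_pc_lo H m1) (l9t2_pc_lo H m2)
  have a2 := H.lip _ m1 _ m2
  have a3 := l9t2_pc_lip H hw hw'
  have a4 : |llInv A w - llInv A w'| ≤ |w - w'| / c := by rw [le_div_iff₀ hc0]; linarith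
  calc _ ≤ |g1 (llInv A w) - g1 (llInv A w')| / c ^ 2 := a1
    _ ≤ L * (|w - w'| / c) / c ^ 2 := by
        refine div_le_div_of_nonneg_right (a2.trans (mul_le_mul_of_nonneg_left a4 H.L0)) (by positivity)
    _ = L / c ^ 3 * |w - w'| := by field_simp

end pc

/-! ## 2. the smoothed profile -/

/-- what is used of the direct profile on `[0, ξ_*]`: a `C^{1,1}` extension `f` to the closed interval -/
structure L9t2Dir (A0 P : ℝ → ℝ) (lam ξs pT : ℝ) (f f1 : ℝ → ℝ) (L : ℝ) : Prop where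
  L0 : 0 ≤ L
  eq : ∀ ξ ∈ Ico 0 ξs, lkkDir A0 P lam ξ = f ξ
  top : f ξs = pT
  der : ∀ ξ ∈ Icc 0 ξs, HasDerivWithinAt f (f1 ξ) (Icc 0 ξs) ξ
  lip : ∀ ξ ∈ Icc 0 ξs, ∀ ξ' ∈ Icc 0 ξs, |f1 ξ - f1 ξ'| ≤ L * |ξ - ξ'|

/-- the derivative of `Ψ = Â⁻¹` off the kinks -/
noncomputable def l9t2Psd (Ψ f1 : ℝ → ℝ) (ξs pT om M : ℝ) (w : ℝ) : ℝ :=
  if w < pT + om * ξs then (f1 (Ψ w) + om)⁻¹
  else if w < 1 + om * (ξs + om) then ((1 - pT) / om + om)⁻¹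
  else if w < 1 + om * M then om⁻¹ else 0

/-- the kinks of `Ψ` -/
noncomputable def l9t2Kk (ξs pT om M : ℝ) : Finset ℝ := {pT + om * ξs, 1 + om * (ξs + om), 1 + om * M}

section sm

variable {A0 P : ℝ → ℝ} {ξs pT ca Ca ξ1 z0 LP lam om M J : ℝ}
  (hb : LkkBase A0 ξs pT ca Ca ξ1) (hP : LkkCut P z0 LP) (hz : z0 ≤ ξ1) (hl0 : 0 ≤ lam) (hl : lam * LP ≤ ca / 2)
  (ho : 0 < om) (hM : ξs + om < M) (hJ : 1 + om * M ≤ J) {f f1 : ℝ → ℝ} {L : ℝ} (hD : L9t2Dir A0 P lam ξs pT f f1 L)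

include hb hP hz hl0 hl ho hM hJ

theorem l9t2_sm_at (ξ : ℝ) (h1 : ξs ≤ ξ) (h2 : ξ < M) :
    lkkSm A0 P lam ξs pT om M J ξ = pT + (1 - pT) * min 1 ((ξ - ξs) / om) + om * ξ := by
  unfold lkkSm lkkBr
  rw [if_neg (not_le.2 h2), if_neg (not_lt.2 h1)]

include hD

/-- the piece `[0, ξ_*)` -/
theorem l9t2_pc1 : L9t2Pc (lkkSm A0 P lam ξs pT om M J) (fun ξ => f ξ + om * ξ) (fun ξ => f1 ξ + om) 0 ξs om L := by
  have hM' : ξs < M := by linarith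
  have hxs : 0 < ξs := hb.x10.trans hb.x1s
  have heq : ∀ ξ ∈ Icc 0 ξs, lkkSm A0 P lam ξs pT om M J ξ = f ξ + om * ξ := by
    intro ξ hξ
    rcases lt_or_eq_of_le hξ.2 with h | h
    · rw [lkk_sm_low hb hP hz hl0 hl ho hM' hJ ξ h, hD.eq ξ ⟨hξ.1, h⟩]
    · subst h
      rw [l9t2_sm_at hb hP hz hl0 hl ho hM hJ ξ le_rfl hM', hD.top]
      simp
  refine ⟨le_rfl, hxs, ho, hD.L0, lkk_sm_mono hb hP hz hl0 hl ho hM' hJ, fun ξ hξ => heq ξ ⟨hξ.1, hξ.2.le⟩, fun ξ hξ => ?_,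
    fun ξ ξ' h0 h1 h2 => ?_, fun ξ hξ ξ' hξ' => ?_⟩
  · have := (hD.der ξ hξ).add ((hasDerivWithinAt_id ξ (Icc 0 ξs)).const_mul om)
    rw [mul_one] at this
    exact this
  · rw [← heq ξ' ⟨h0.trans h1, h2⟩, ← heq ξ ⟨h0, h1.trans h2⟩]
    exact lkk_sm_lo_glob hb hP hz hl0 hl ho hM' hJ ξ ξ' h0 h1 (lt_of_le_of_lt h2 hM')
  · have := hD.lip ξ hξ ξ' hξ'
    rwa [add_sub_add_right_eq_sub]

omit hD

/-- the piece `[ξ_*, ξ_* + ω)` -/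
theorem l9t2_pc2 : L9t2Pc (lkkSm A0 P lam ξs pT om M J) (fun ξ => pT + (1 - pT) * ((ξ - ξs) / om) + om * ξ)
    (fun _ => (1 - pT) / om + om) ξs (ξs + om) om 0 := by
  have hM' : ξs < M := by linarith
  have hxs : 0 < ξs := hb.x10.trans hb.x1s
  have hp1 := hb.pT1
  refine ⟨hxs.le, by linarith, ho, le_rfl, lkk_sm_mono hb hP hz hl0 hl ho hM' hJ, fun ξ hξ => ?_, fun ξ _ => ?_,
    fun ξ ξ' _ h1 _ => ?_, fun ξ _ ξ' _ => by simp⟩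
  · rw [l9t2_sm_at hb hP hz hl0 hl ho hM hJ ξ hξ.1 (hξ.2.trans hM), min_eq_right]
    rw [div_le_one ho]
    linarith [hξ.2]
  · have h1 : HasDerivAt (fun ξ : ℝ => pT + (1 - pT) * ((ξ - ξs) / om) + om * ξ) ((1 - pT) * (1 / om) + om * 1) ξ :=
      (((((hasDerivAt_id ξ).sub_const ξs).div_const om).const_mul (1 - pT)).const_add pT).add ((hasDerivAt_id ξ).const_mul om)
    exact (h1.congr_deriv (by ring)).hasDerivWithinAt
  · have e : pT + (1 - pT) * ((ξ' - ξs) / om) + om * ξ' - (pT + (1 - pT) * ((ξ - ξs) / om) + om * ξ)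
        = (1 - pT) / om * (ξ' - ξ) + om * (ξ' - ξ) := by field_simp; ring
    rw [e]
    have : 0 ≤ (1 - pT) / om * (ξ' - ξ) := mul_nonneg (div_nonneg (by linarith) ho.le) (by linarith)
    linarith

/-- the piece `[ξ_* + ω, M)` -/
theorem l9t2_pc3 : L9t2Pc (lkkSm A0 P lam ξs pT om M J) (fun ξ => 1 + om * ξ) (fun _ => om) (ξs + om) M om 0 := by
  have hM' : ξs < M := by linarith
  have hxs : 0 < ξs := hb.x10.trans hb.x1s
  refine ⟨by linarith, hM, ho, le_rfl, lkk_sm_mono hb hP hz hl0 hl ho hM' hJ, fun ξ hξ => ?_, fun ξ _ => ?_,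
    fun ξ ξ' _ _ _ => ?_, fun ξ _ ξ' _ => by simp⟩
  · rw [l9t2_sm_at hb hP hz hl0 hl ho hM hJ ξ (by linarith [hξ.1]) hξ.2, min_eq_left]
    · ring
    · rw [le_div_iff₀ ho]
      linarith [hξ.1]
  · have h1 : HasDerivAt (fun ξ : ℝ => 1 + om * ξ) (om * 1) ξ := ((hasDerivAt_id ξ).const_mul om).const_add 1
    exact (h1.congr_deriv (by ring)).hasDerivWithinAt
  · exact le_of_eq (by ring)

/-- the flat part: above `1 + ω M` the inverse is `M` -/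
theorem l9t2_flat {w : ℝ} (h1 : 1 + om * M < w) (h2 : w ≤ J) : llInv (lkkSm A0 P lam ξs pT om M J) w = M := by
  have hM' : ξs < M := by linarith
  have hM0 : 0 ≤ M := ((hb.x10.trans hb.x1s).trans hM').le
  have hAM : lkkSm A0 P lam ξs pT om M J M = J := by unfold lkkSm; rw [if_pos le_rfl]
  refine le_antisymm (lpq_inv_le _ w M hM0 (by rw [hAM]; exact h2)) ?_
  refine le_csInf ⟨M, hM0, by rw [hAM]; exact h2⟩ ?_
  rintro η ⟨h0, hη⟩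
  by_contra hlt
  rw [not_le] at hlt
  have a1 := lkk_br_le_one hb hP hz hl0 hl ho η h0
  unfold lkkSm at hη
  rw [if_neg (not_le.2 hlt)] at hη
  nlinarith

include hD

/-- **the smoothed inverse is piecewise `C^{1,1}`**, kinks `p_top + ω ξ_*`, `1 + ω (ξ_* + ω)`, `1 + ω M` -/
theorem l9t2_prof_abs : L9k2Prof (llInv (lkkSm A0 P lam ξs pT om M J)) (l9t2Psd (llInv (lkkSm A0 P lam ξs pT om M J)) f1 ξs pT om M)
    J M (1 / om) (L / om ^ 3) (l9t2Kk ξs pT om M) := by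
  have hM' : ξs < M := by linarith
  have hxs : 0 < ξs := hb.x10.trans hb.x1s
  have hA := lkk_sm_prof hb hP hz hl0 hl ho hM' hJ
  have p1 := l9t2_pc1 hb hP hz hl0 hl ho hM hJ hD
  have p2 := l9t2_pc2 hb hP hz hl0 hl ho hM hJ
  have p3 := l9t2_pc3 hb hP hz hl0 hl ho hM hJ
  set Ψ := llInv (lkkSm A0 P lam ξs pT om M J) with hΨ
  have hf0 : f 0 = 0 := by rw [← hD.eq 0 ⟨le_rfl, hxs⟩]; exact lkk_dir_zero hb hP hz hl0 hl
  -- the end points of the pieces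
  have e10 : f 0 + om * 0 = 0 := by simp [hf0]
  have e11 : f ξs + om * ξs = pT + om * ξs := by simp [hD.top]
  have e20 : pT + (1 - pT) * ((ξs - ξs) / om) + om * ξs = pT + om * ξs := by simp
  have e21 : pT + (1 - pT) * ((ξs + om - ξs) / om) + om * (ξs + om) = 1 + om * (ξs + om) := by
    have : (ξs + om - ξs) / om = 1 := by rw [add_sub_cancel_left, div_self ho.ne']
    rw [this]; ring
  have hL2 : 0 ≤ L / om ^ 3 := div_nonneg hD.L0 (by positivity)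
  have hw12 : pT + om * ξs < 1 + om * (ξs + om) := by nlinarith [hb.pT1, mul_pos ho ho]
  have hw23 : 1 + om * (ξs + om) < 1 + om * M := by nlinarith
  refine ⟨fun w hw => ?_, fun w hw w' hw' => ?_, fun w hw hk => ?_, fun w w' h0 hww hW hk => ?_⟩
  · rw [abs_of_nonneg (lpq_inv_nonneg _ _)]
    exact lpq_inv_le_tau hA w hw.2.le
  · rw [one_div, inv_mul_eq_div, le_div_iff₀ ho]
    rcases le_total w w' with h | h
    · have a1 := lkk_sm_inv_lip_glob hb hP hz hl0 hl ho hM' hJ w w' h hw'.2.le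
      have a2 := lpq_inv_mono hA w w' h hw'.2.le
      rw [abs_sub_comm, abs_of_nonneg (sub_nonneg.2 a2), abs_sub_comm, abs_of_nonneg (sub_nonneg.2 h)]
      linarith
    · have a1 := lkk_sm_inv_lip_glob hb hP hz hl0 hl ho hM' hJ w' w h hw.2.le
      have a2 := lpq_inv_mono hA w' w h hw.2.le
      rw [abs_of_nonneg (sub_nonneg.2 a2), abs_of_nonneg (sub_nonneg.2 h)]
      linarith
  · simp only [l9t2Kk, Finset.mem_insert, Finset.mem_singleton, not_or] at hk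
    obtain ⟨k1, k2, k3⟩ := hk
    unfold l9t2Psd
    by_cases c1 : w < pT + om * ξs
    · rw [if_pos c1]
      exact l9t2_pc_deriv p1 (w := w) (by rw [e10, e11]; exact ⟨hw.1, c1⟩)
    rw [if_neg c1]
    have c1' : pT + om * ξs < w := lt_of_le_of_ne (not_lt.1 c1) (Ne.symm k1)
    by_cases c2 : w < 1 + om * (ξs + om)
    · rw [if_pos c2]
      exact l9t2_pc_deriv p2 (w := w) (by rw [e20, e21]; exact ⟨c1', c2⟩)
    rw [if_neg c2]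
    have c2' : 1 + om * (ξs + om) < w := lt_of_le_of_ne (not_lt.1 c2) (Ne.symm k2)
    by_cases c3 : w < 1 + om * M
    · rw [if_pos c3]
      exact l9t2_pc_deriv p3 (w := w) ⟨c2', c3⟩
    rw [if_neg c3]
    have c3' : 1 + om * M < w := lt_of_le_of_ne (not_lt.1 c3) (Ne.symm k3)
    refine (hasDerivAt_const w M).congr_of_eventuallyEq ?_
    filter_upwards [isOpen_Ioo.mem_nhds (show w ∈ Ioo (1 + om * M) J from ⟨c3', hw.2⟩)] with y hy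
    exact l9t2_flat hb hP hz hl0 hl ho hM hJ hy.1 hy.2.le
  · have k1 := hk (pT + om * ξs) (by simp [l9t2Kk])
    have k2 := hk (1 + om * (ξs + om)) (by simp [l9t2Kk])
    have k3 := hk (1 + om * M) (by simp [l9t2Kk])
    have hnn : 0 ≤ L / om ^ 3 * |w - w'| := mul_nonneg hL2 (abs_nonneg _)
    unfold l9t2Psd
    by_cases c1 : w' < pT + om * ξs
    · rw [if_pos c1, if_pos (lt_of_le_of_lt hww c1)]
      exact l9t2_pc_lip' p1 (w := w) (w' := w') (by rw [e10, e11]; exact ⟨h0, lt_of_le_of_lt hww c1⟩)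
        (by rw [e10, e11]; exact ⟨lt_of_lt_of_le h0 hww, c1⟩)
    have d1 : ¬ w < pT + om * ξs := fun h => k1 ⟨h.le, not_lt.1 c1⟩
    rw [if_neg c1, if_neg d1]
    by_cases c2 : w' < 1 + om * (ξs + om)
    · rw [if_pos c2, if_pos (lt_of_le_of_lt hww c2), sub_self, abs_zero]
      exact hnn
    have d2 : ¬ w < 1 + om * (ξs + om) := fun h => k2 ⟨h.le, not_lt.1 c2⟩
    rw [if_neg c2, if_neg d2]
    by_cases c3 : w' < 1 + om * M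
    · rw [if_pos c3, if_pos (lt_of_le_of_lt hww c3), sub_self, abs_zero]
      exact hnn
    have d3 : ¬ w < 1 + om * M := fun h => k3 ⟨h.le, not_lt.1 c3⟩
    rw [if_neg c3, if_neg d3, sub_self, abs_zero]
    exact hnn

/-- the bound of `Ψ'` holds EVERYWHERE (also at the kinks and outside `[0, J)`) -/
theorem l9t2_psd_le (w : ℝ) : |l9t2Psd (llInv (lkkSm A0 P lam ξs pT om M J)) f1 ξs pT om M w| ≤ 1 / om := by
  have hM' : ξs < M := by linarith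
  have hxs : 0 < ξs := hb.x10.trans hb.x1s
  have p1 := l9t2_pc1 hb hP hz hl0 hl ho hM hJ hD
  have hp1 := hb.pT1
  have key : ∀ y : ℝ, om ≤ y → |y⁻¹| ≤ 1 / om := fun y hy => by
    rw [abs_of_nonneg (inv_nonneg.2 (ho.le.trans hy)), one_div]
    exact inv_anti₀ ho hy
  unfold l9t2Psd
  split_ifs with c1 c2 c3
  · refine key _ (l9t2_pc_lo p1 (ξ := llInv (lkkSm A0 P lam ξs pT om M J) w) ⟨lpq_inv_nonneg _ _, ?_⟩)
    refine lpq_inv_le _ w ξs hxs.le ?_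
    rw [l9t2_sm_at hb hP hz hl0 hl ho hM hJ ξs le_rfl hM']
    simp only [sub_self, zero_div]
    rw [min_eq_right zero_le_one]
    linarith
  · refine key _ ?_
    have : 0 ≤ (1 - pT) / om := div_nonneg (by linarith) ho.le
    linarith
  · exact key _ le_rfl
  · rw [abs_zero]; positivity

omit hD

theorem l9t2_psi_zero : llInv (lkkSm A0 P lam ξs pT om M J) 0 = 0 :=
  lpq_inv_zero 0 (lkk_sm_zero hb hP hz hl0 hl ho (by linarith) hJ).ge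

end sm

theorem l9t2_kk_card (ξs pT om M : ℝ) : (l9t2Kk ξs pT om M).card ≤ 3 := Finset.card_le_three

/-! ## 3. the real profile -/

/-- `Ψ = Â⁻¹` with the terminal mass `5`:   it depends on the point through `N`, `λ` only -/
noncomputable def LlPt.Psi5 (p : LlPt) (F : LlFix) (𝔹 : LlBase) : ℝ → ℝ :=
  llInv (lkkSm (𝔹.A0 F.T) F.P p.lam (𝔹.xiS F.T) (𝔹.pTop F.T) p.om p.M 5)

/-- `Ψ'`;   `a1` = the density of `A_0` on `[0, ξ_*]` -/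
noncomputable def LlPt.Psd5 (p : LlPt) (F : LlFix) (𝔹 : LlBase) (a1 : ℝ → ℝ) : ℝ → ℝ :=
  l9t2Psd (p.Psi5 F 𝔹) (fun ξ => a1 ξ + p.lam * deriv F.P ξ) (𝔹.xiS F.T) (𝔹.pTop F.T) p.om p.M

/-- the kinks -/
noncomputable def LlPt.Kk5 (p : LlPt) (F : LlFix) (𝔹 : LlBase) : Finset ℝ := l9t2Kk (𝔹.xiS F.T) (𝔹.pTop F.T) p.om p.M

/-- the clock of a smoothed point read on `Ψ` -/
theorem l9t2_K_eq (p : LlPt) (F : LlFix) (𝔹 : LlBase) (hsm : p.sm = true) (hell : 0 < p.ell) {v : ℝ} (hv : v ≤ 4) (hw : v / p.ell ≤ 5) :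
    p.K F 𝔹 v = (p.ell ^ 2)⁻¹ * p.Psi5 F 𝔹 (v / p.ell) := by
  unfold LlPt.K LlPt.xi LlPt.Aprof LlPt.Psi5
  rw [hsm, if_pos rfl, lkk_Asm_eq]
  congr 1
  exact lkk_sm_inv_congr _ _ _ _ _ _ _ (v / p.ell) hw (div_le_div_of_nonneg_right hv hell.le)

/-- the clock along the smoothed size segment is the clock `l9k2K` of `L09/GridK.lean` -/
theorem l9t2_K_siz (F : LlFix) (𝔹 : LlBase) (N : ℕ) (γ : Fin (N + 1) → ℝ) (θ θ0 : ℝ) {v : ℝ} (hv : v ≤ 4) (hw : v * Real.exp (-θ / 6) ≤ 5) :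
    (l9PtS F N γ θ).K F 𝔹 v = l9k2K ((l9PtS F N γ θ0).Psi5 F 𝔹) θ v := by
  have e1 : (l9PtS F N γ θ).ell = Real.exp (θ / 6) := rfl
  have e2 : v / Real.exp (θ / 6) = v * Real.exp (-θ / 6) := by rw [div_eq_mul_inv, ← Real.exp_neg]; congr 2; ring
  have e3 : (Real.exp (θ / 6) ^ 2)⁻¹ = Real.exp (-θ / 3) := by rw [← Real.exp_nat_mul, ← Real.exp_neg]; congr 1; push_cast; ring
  rw [l9t2_K_eq _ F 𝔹 rfl (by rw [e1]; exact Real.exp_pos _) hv (by rw [e1, e2]; exact hw), e1, e2, e3]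
  rfl

/-- the direct profile is `C^{1,1}` on the closed interval `[0, ξ_*]` -/
theorem l9t2_dir (𝔹 : LlBase) (T : ℝ) (hb : LlBaseProfile 𝔹 T) : ∃ a0 a1 : ℝ → ℝ, ∀ F : LlFix, F.Ok → F.T = T → F.z0 ≤ 𝔹.xiS T →
    ∃ L : ℝ, ∀ lam : ℝ, 0 ≤ lam → lam ≤ 1 →
      L9t2Dir (𝔹.A0 T) F.P lam (𝔹.xiS T) (𝔹.pTop T) (fun ξ => a0 ξ + lam * F.P ξ) (fun ξ => a1 ξ + lam * deriv F.P ξ) L := by
  obtain ⟨a, ha0, hatop, _, hder⟩ := hb.tower
  refine ⟨a 0, a 1, fun F hF _ hz => ?_⟩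
  set ξs := 𝔹.xiS T with hξs
  have hc2 : ContinuousOn (a 2) (Icc 0 ξs) := fun ξ hξ => (hder 2 ξ hξ).continuousWithinAt
  obtain ⟨B, hB⟩ := isCompact_Icc.exists_bound_of_continuousOn hc2
  have hlip : ∀ x ∈ Icc 0 ξs, ∀ y ∈ Icc 0 ξs, |a 1 x - a 1 y| ≤ |B| * |x - y| := by
    intro x hx y hy
    have := Convex.norm_image_sub_le_of_norm_hasDerivWithin_le (f := a 1) (f' := a 2) (C := |B|)
      (s := Icc 0 ξs) (x := y) (y := x) (fun z hz => hder 1 z hz)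
      (fun z hz => (hB z hz).trans (le_abs_self _)) (convex_Icc _ _) hy hx
    rwa [Real.norm_eq_abs, Real.norm_eq_abs] at this
  have hdP : Differentiable ℝ F.P := hF.P_sm.differentiable (by simp)
  have hP1 : ContDiff ℝ 1 (deriv F.P) := by
    have h0 : ContDiff ℝ (⊤ : ℕ∞) (deriv F.P) := ContDiff.deriv' hF.P_sm
    exact h0.of_le (by simp)
  have hdP1 : Differentiable ℝ (deriv F.P) := hP1.differentiable (by simp)
  have hcP2 : Continuous (deriv (deriv F.P)) := hP1.continuous_deriv (by simp)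
  obtain ⟨B2, hB2⟩ := (isCompact_Icc (a := (0 : ℝ)) (b := ξs)).exists_bound_of_continuousOn hcP2.continuousOn
  have hlipP : ∀ x ∈ Icc 0 ξs, ∀ y ∈ Icc 0 ξs, |deriv F.P x - deriv F.P y| ≤ |B2| * |x - y| := by
    intro x hx y hy
    have := Convex.norm_image_sub_le_of_norm_deriv_le (f := deriv F.P) (C := |B2|) (s := Icc 0 ξs) (x := y) (y := x)
      (fun z _ => hdP1 z) (fun z hz => (hB2 z hz).trans (le_abs_self _)) (convex_Icc _ _) hy hx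
    rwa [Real.norm_eq_abs, Real.norm_eq_abs] at this
  refine ⟨|B| + |B2|, fun lam hl0 hl1 => ⟨by positivity, fun ξ hξ => ?_, ?_, fun ξ hξ => ?_, fun x hx y hy => ?_⟩⟩
  · unfold lkkDir; rw [ha0 ξ hξ]
  · show a 0 ξs + lam * F.P ξs = _
    rw [hatop, hF.P_zero ξs hz, mul_zero, add_zero]
  · exact (hder 0 ξ hξ).add ((hdP ξ).hasDerivAt.hasDerivWithinAt.const_mul lam)
  · have e : a 1 x + lam * deriv F.P x - (a 1 y + lam * deriv F.P y) = (a 1 x - a 1 y) + lam * (deriv F.P x - deriv F.P y) := by ring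
    rw [e, add_mul]
    refine (abs_add_le _ _).trans (add_le_add (hlip x hx y hy) ?_)
    rw [abs_mul, abs_of_nonneg hl0]
    exact (mul_le_of_le_one_left (abs_nonneg _) hl1).trans (hlipP x hx y hy)

/-- the raw density fact: `z_0` lies where `A_0` has a positive density      (= VERBATIM the field `dens` asked by 226 in `LlSec3`; it follows from `F.z0 ≤ zb(T)`: `l9t2_dens_of_z0`) -/
def L9t2Dens (𝔹 : LlBase) (F : LlFix) : Prop :=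
  ∃ ca ξ1 : ℝ, 0 < ca ∧ F.z0 ≤ ξ1 ∧ ξ1 < 𝔹.xiS F.T ∧
    ∀ ξ ξ' : ℝ, 0 ≤ ξ → ξ ≤ ξ' → ξ' ≤ ξ1 → ca * (ξ' - ξ) ≤ 𝔹.A0 F.T ξ' - 𝔹.A0 F.T ξ

theorem l9t2_base_of_dens {𝔹 : LlBase} {F : LlFix} (hb : LlBaseProfile 𝔹 F.T) (hF : F.Ok) (hd : L9t2Dens 𝔹 F) :
    ∃ ca Ca ξ1 : ℝ, LkkBase (𝔹.A0 F.T) (𝔹.xiS F.T) (𝔹.pTop F.T) ca Ca ξ1 ∧ F.z0 ≤ ξ1 := by
  obtain ⟨ca', Ca, ξ1', h⟩ := lkk_base 𝔹 F.T hb
  obtain ⟨ca, ξ1, hca, hz, hs, hlo⟩ := hd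
  exact ⟨ca, Ca, ξ1, ⟨h.pT0, h.pT1, hca, h.Ca0, lt_of_lt_of_le hF.z00 hz, hs, h.mono, h.zero, h.top, h.lt_top, h.rc, hlo, h.hi⟩, hz⟩

theorem l9t2_dens_of_z0 (𝔹 : LlBase) (T : ℝ) (hb : LlBaseProfile 𝔹 T) : ∃ zb : ℝ, 0 < zb ∧ ∀ F : LlFix, F.T = T → F.z0 ≤ zb → L9t2Dens 𝔹 F := by
  obtain ⟨ca, Ca, ξ1, hB⟩ := lkk_base 𝔹 T hb
  refine ⟨ξ1, hB.x10, fun F hT hz => ?_⟩
  subst hT
  exact ⟨ca, ξ1, hB.ca0, hz, hB.x1s, hB.lo⟩

/-- **(K-TAYLOR, size)** as a named `Prop`: at the smoothed points the inverse profile `Ψ` is piecewise `C^{1,1}` on `[0, 5)` with three kinks -/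
def L9t2S (𝔹 : LlBase) (F : LlFix) (a1 : ℝ → ℝ) : Prop :=
  ∃ L : ℝ, 0 ≤ L ∧ LlUnif F fun p =>
    L9k2Prof (p.Psi5 F 𝔹) (p.Psd5 F 𝔹 a1) 5 p.M (1 / p.om) (L / p.om ^ 3) (p.Kk5 F 𝔹) ∧
      (∀ w, |p.Psd5 F 𝔹 a1 w| ≤ 1 / p.om) ∧ p.Psi5 F 𝔹 0 = 0 ∧ (p.Kk5 F 𝔹).card ≤ 3

theorem l9t2_S_core {𝔹 : LlBase} {F : LlFix} {ca Ca ξ1 L : ℝ} {a0 a1 : ℝ → ℝ} (hF : F.Ok)
    (hB : LkkBase (𝔹.A0 F.T) (𝔹.xiS F.T) (𝔹.pTop F.T) ca Ca ξ1) (hz : F.z0 ≤ ξ1)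
    (hL : ∀ lam : ℝ, 0 ≤ lam → lam ≤ 1 →
      L9t2Dir (𝔹.A0 F.T) F.P lam (𝔹.xiS F.T) (𝔹.pTop F.T) (fun ξ => a0 ξ + lam * F.P ξ) (fun ξ => a1 ξ + lam * deriv F.P ξ) L) :
    L9t2S 𝔹 F a1 := by
  obtain ⟨LP, hP⟩ := lkk_cut F hF
  obtain ⟨N1, hN1⟩ := lkk_lam_small hF (ε := ca / 2 / (LP + 1)) (by have := hP.LP0; have := hB.ca0; positivity)
  obtain ⟨N2, hN2⟩ := lkk_M_large (𝔹.xiS F.T + 1)
  refine ⟨L, (hL 0 le_rfl zero_le_one).L0, max N1 N2, fun p hp hN => ?_⟩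
  have hl0 := (lkk_lam_pos hp).le
  have hl1 : p.lam ≤ 1 := hp.lam_hi.trans (Real.rpow_le_one (lkk_x_pos hp.N2).le (lkk_x_lt_one hp.N2).le hF.pS0.le)
  have ho := lkk_om_pos hp.N2
  have hM : 𝔹.xiS F.T + p.om < p.M := by
    have := hN2 p hp.N2 ((le_max_right _ _).trans hN)
    have := lkk_om_le_one hp.N2
    linarith
  have hJ : 1 + p.om * p.M ≤ 5 := by have := lkk_omM hp.N2; linarith
  have hl : p.lam * LP ≤ ca / 2 := by
    have a1 := hN1 p hp ((le_max_left _ _).trans hN)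
    have hLP := hP.LP0
    have a2 : p.lam * (LP + 1) ≤ ca / 2 := by rwa [le_div_iff₀ (by linarith)] at a1
    nlinarith
  exact ⟨l9t2_prof_abs hB hP hz hl0 hl ho hM hJ (hL p.lam hl0 hl1), l9t2_psd_le hB hP hz hl0 hl ho hM hJ (hL p.lam hl0 hl1),
    l9t2_psi_zero hB hP hz hl0 hl ho hM hJ, l9t2_kk_card _ _ _ _⟩

/-- **EXIT (K-TAYLOR, size)**.   `zb`, `a1` depend on `𝔹, T` only;   `L` on `F`;   `Ψ, Ψ'`, the kinks depend on the point through `N`, `λ` only (they are CONSTANT along the size segment: `l9t2_siz_const`). -/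
theorem l9t2_main (𝔹 : LlBase) (T : ℝ) (hb : LlBaseProfile 𝔹 T) :
    ∃ (zb : ℝ) (a1 : ℝ → ℝ), 0 < zb ∧ ∀ F : LlFix, F.Ok → F.T = T → F.z0 ≤ zb → ∃ L : ℝ, 0 ≤ L ∧ LlUnif F fun p =>
      L9k2Prof (p.Psi5 F 𝔹) (p.Psd5 F 𝔹 a1) 5 p.M (1 / p.om) (L / p.om ^ 3) (p.Kk5 F 𝔹) ∧
        (∀ w, |p.Psd5 F 𝔹 a1 w| ≤ 1 / p.om) ∧ p.Psi5 F 𝔹 0 = 0 ∧ (p.Kk5 F 𝔹).card ≤ 3 := by
  obtain ⟨ca, Ca, ξ1, hB⟩ := lkk_base 𝔹 T hb
  obtain ⟨a0, a1, hdir⟩ := l9t2_dir 𝔹 T hb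
  refine ⟨ξ1, a1, hB.x10, fun F hF hT hz => ?_⟩
  subst hT
  obtain ⟨L, hL⟩ := hdir F hF rfl (hz.trans hB.x1s.le)
  exact l9t2_S_core hF hB hz hL

/-- `Ψ, Ψ'` and the kinks do not move along the size segment -/
theorem l9t2_siz_const (F : LlFix) (𝔹 : LlBase) (N : ℕ) (γ γ' : Fin (N + 1) → ℝ) (θ θ' : ℝ) (a1 : ℝ → ℝ) :
    (l9PtS F N γ θ).Psi5 F 𝔹 = (l9PtS F N γ' θ').Psi5 F 𝔹 ∧ (l9PtS F N γ θ).Psd5 F 𝔹 a1 = (l9PtS F N γ' θ').Psd5 F 𝔹 a1 ∧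
      (l9PtS F N γ θ).Kk5 F 𝔹 = (l9PtS F N γ' θ').Kk5 F 𝔹 := ⟨rfl, rfl, rfl⟩

/-! ## 4. the direct clock as a function of the strength: second order -/

/-- a quadratic bound of the Taylor defect gives the derivative -/
theorem l9t2_hasDeriv_of_sq {f : ℝ → ℝ} {f' x C : ℝ} (H : ∀ h : ℝ, |h| ≤ 1 → |f (x + h) - f x - h * f'| ≤ C * h ^ 2) : HasDerivAt f f' x := by
  rw [hasDerivAt_iff_isLittleO_nhds_zero]
  have h1 : (fun h : ℝ => f (x + h) - f x - h • f') =O[𝓝 0] fun h : ℝ => h ^ 2 := by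
    refine Asymptotics.IsBigO.of_bound C ?_
    filter_upwards [Metric.ball_mem_nhds (0 : ℝ) one_pos] with h hh
    rw [Real.norm_eq_abs, Real.norm_eq_abs, abs_of_nonneg (sq_nonneg h), smul_eq_mul]
    refine H h ?_
    rw [Metric.mem_ball, Real.dist_eq, sub_zero] at hh
    exact hh.le
  exact h1.trans_isLittleO (Asymptotics.isLittleO_pow_id one_lt_two)

/-- second order Taylor bound of a `C^{1,1}` function on an interval -/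
theorem l9t2_taylor {f f1 : ℝ → ℝ} {R L : ℝ} (hder : ∀ ξ ∈ Icc 0 R, HasDerivWithinAt f (f1 ξ) (Icc 0 R) ξ)
    (hlip : ∀ ξ ∈ Icc 0 R, ∀ ξ' ∈ Icc 0 R, |f1 ξ - f1 ξ'| ≤ L * |ξ - ξ'|) {ξ ξ' : ℝ} (hξ : ξ ∈ Icc 0 R) (hξ' : ξ' ∈ Icc 0 R) :
    |f ξ' - f ξ - f1 ξ * (ξ' - ξ)| ≤ L * (ξ' - ξ) ^ 2 := by
  have hsub : uIcc ξ ξ' ⊆ Icc 0 R := ordConnected_Icc.uIcc_subset hξ hξ'
  have hL : 0 ≤ L * |ξ' - ξ| := (abs_nonneg _).trans (hlip ξ' hξ' ξ hξ)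
  have hd : ∀ y ∈ uIcc ξ ξ', HasDerivWithinAt (fun y => f y - f1 ξ * y) (f1 y - f1 ξ) (uIcc ξ ξ') y := by
    intro y hy
    have := ((hder y (hsub hy)).mono hsub).sub ((hasDerivWithinAt_id y (uIcc ξ ξ')).const_mul (f1 ξ))
    rw [mul_one] at this
    exact this
  have hb : ∀ y ∈ uIcc ξ ξ', ‖f1 y - f1 ξ‖ ≤ L * |ξ' - ξ| := by
    intro y hy
    rw [Real.norm_eq_abs]
    have h1 := hlip y (hsub hy) ξ hξ
    have h2 : |y - ξ| ≤ |ξ' - ξ| := abs_sub_left_of_mem_uIcc hy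
    rcases le_or_gt 0 L with h | h
    · exact h1.trans (mul_le_mul_of_nonneg_left h2 h)
    · have h3 : |ξ' - ξ| = 0 := le_antisymm (by nlinarith [abs_nonneg (ξ' - ξ)]) (abs_nonneg _)
      have h4 : |y - ξ| = 0 := le_antisymm (h3 ▸ h2) (abs_nonneg _)
      rw [h4] at h1; rw [h3]; exact h1
  have := Convex.norm_image_sub_le_of_norm_hasDerivWithin_le hd hb (convex_uIcc ξ ξ') left_mem_uIcc right_mem_uIcc
  rw [Real.norm_eq_abs, Real.norm_eq_abs] at this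
  calc |f ξ' - f ξ - f1 ξ * (ξ' - ξ)| = |f ξ' - f1 ξ * ξ' - (f ξ - f1 ξ * ξ)| := by congr 1; ring
    _ ≤ L * |ξ' - ξ| * |ξ' - ξ| := this
    _ = L * (ξ' - ξ) ^ 2 := by rw [mul_assoc, ← sq, sq_abs]

section dirT

variable {A0 P : ℝ → ℝ} {ξs pT ca Ca ξ1 z0 LP lam lam' : ℝ}
  (hb : LkkBase A0 ξs pT ca Ca ξ1) (hP : LkkCut P z0 LP) (hz : z0 ≤ ξ1) (hl0 : 0 ≤ lam) (hl : lam * LP ≤ ca / 2)
  (hl0' : 0 ≤ lam') (hl' : lam' * LP ≤ ca / 2) {f f1 : ℝ → ℝ} {L : ℝ} (hD : L9t2Dir A0 P lam ξs pT f f1 L)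

include hb hP hz hl0 hl hD

/-- the piece `[0, ξ_1)` of the direct profile -/
theorem l9t2_dpc : L9t2Pc (lkkDir A0 P lam) f f1 0 ξ1 (ca / 2) L := by
  have hs : Icc 0 ξ1 ⊆ Icc 0 ξs := Icc_subset_Icc_right hb.x1s.le
  have heq : ∀ ξ ∈ Icc 0 ξ1, lkkDir A0 P lam ξ = f ξ := fun ξ hξ => hD.eq ξ ⟨hξ.1, lt_of_le_of_lt hξ.2 hb.x1s⟩
  refine ⟨le_rfl, hb.x10, by have := hb.ca0; positivity, hD.L0, lkk_dir_mono hb hP hz hl0 hl, fun ξ hξ => heq ξ ⟨hξ.1, hξ.2.le⟩,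
    fun ξ hξ => (hD.der ξ (hs hξ)).mono hs, fun ξ ξ' h0 h1 h2 => ?_, fun ξ hξ ξ' hξ' => hD.lip ξ (hs hξ) ξ' (hs hξ')⟩
  rw [← heq ξ' ⟨h0.trans h1, h2⟩, ← heq ξ ⟨h0, h1.trans h2⟩]
  exact lkk_dir_lo hb hP hz hl0 hl ξ ξ' h0 h1 h2

/-- the speed `- P(ξ) / A_λ'(ξ)` of the inverse is `O(w)` -/
theorem l9t2_dir_speed (w : ℝ) (hw0 : 0 ≤ w) (hw : w ≤ 1) :
    |-(P (llInv (lkkDir A0 P lam) w)) / f1 (llInv (lkkDir A0 P lam) w)| ≤ (2 / ca) ^ 2 * w := by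
  have hca := hb.ca0
  set ξ := llInv (lkkDir A0 P lam) w with hξ
  have h0 : 0 ≤ ξ := lpq_inv_nonneg _ _
  rcases le_or_gt z0 ξ with c | c
  · rw [hP.zero ξ c, neg_zero, zero_div, abs_zero]; positivity
  have hA := lkk_dir_prof hb hP hz hl0 hl
  have e1 : lkkDir A0 P lam ξ = w := by
    refine lpq_at_inv_eq hA (Ca + ca / 2) ξ1 (fun η η' a b d => lkk_dir_hi hb hP hz hl0 hl η η' a b (lt_of_le_of_lt d hb.x1s)) hb.x10.le w
      (by rw [lkk_dir_zero hb hP hz hl0 hl]; exact hw0) ?_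
    exact (lpq_le_at_inv hA w hw).trans (hA.mono (mem_Ici.2 h0) (mem_Ici.2 hb.x10.le) (c.le.trans hz))
  have hx : ca / 2 * ξ ≤ w := by
    have := lkk_dir_lo hb hP hz hl0 hl 0 ξ le_rfl h0 (c.le.trans hz)
    rw [lkk_dir_zero hb hP hz hl0 hl, e1] at this
    linarith
  have hf1 := l9t2_pc_lo (l9t2_dpc hb hP hz hl0 hl hD) (ξ := ξ) ⟨h0, c.le.trans hz⟩
  have hf1p : 0 < f1 ξ := lt_of_lt_of_le (by positivity) hf1
  rw [abs_div, abs_neg, abs_of_nonneg (hP.nn ξ h0), abs_of_pos hf1p, div_le_iff₀ hf1p]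
  have h3 := hP.le ξ h0
  have e5 : (2 / ca) ^ 2 * w * (ca / 2) = 2 / ca * w := by field_simp
  have h4 : (2 / ca) ^ 2 * w * (ca / 2) ≤ (2 / ca) ^ 2 * w * f1 ξ := mul_le_mul_of_nonneg_left hf1 (by positivity)
  have h5 : ξ ≤ 2 / ca * w := by rw [div_mul_eq_mul_div, le_div_iff₀ hca]; linarith
  linarith

include hl0' hl'

/-- **second order expansion of the inverse of the direct profile in the strength** -/
theorem l9t2_dir_taylor (w : ℝ) (hw0 : 0 ≤ w) (hw : w ≤ 1) :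
    |llInv (lkkDir A0 P lam') w - llInv (lkkDir A0 P lam) w
        - (lam' - lam) * (-(P (llInv (lkkDir A0 P lam) w)) / f1 (llInv (lkkDir A0 P lam) w))|
      ≤ 2 / ca * (LP * (2 / ca) ^ 2 + L * ((2 / ca) ^ 2) ^ 2) * (lam' - lam) ^ 2 * w := by
  have hca := hb.ca0
  have hLP := hP.LP0
  have hL := hD.L0
  have hr : 0 ≤ 2 / ca * (LP * (2 / ca) ^ 2 + L * ((2 / ca) ^ 2) ^ 2) * (lam' - lam) ^ 2 * w := by positivity
  rcases le_or_gt z0 (llInv (lkkDir A0 P lam) w) with c | c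
  · rw [lkk_dir_inv_far hb hP hz hl0 hl hl0' hl' w hw c, hP.zero _ c]; simpa using hr
  rcases le_or_gt z0 (llInv (lkkDir A0 P lam') w) with c' | c'
  · have e := lkk_dir_inv_far hb hP hz hl0' hl' hl0 hl w hw c'
    rw [e] at c
    exact absurd c' (not_le.2 c)
  have hlip := lkk_dir_inv_lip hb hP hz hl0 hl hl0' hl' w hw0 hw
  have hA := lkk_dir_prof hb hP hz hl0 hl
  have hA' := lkk_dir_prof hb hP hz hl0' hl'
  set ξ := llInv (lkkDir A0 P lam) w with hξ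
  set ξ' := llInv (lkkDir A0 P lam') w with hξ'
  have h0 : 0 ≤ ξ := lpq_inv_nonneg _ _
  have h0' : 0 ≤ ξ' := lpq_inv_nonneg _ _
  have hi : ∀ (l : ℝ), 0 ≤ l → l * LP ≤ ca / 2 → ∀ η η', 0 ≤ η → η ≤ η' → η' ≤ ξ1 →
      lkkDir A0 P l η' - lkkDir A0 P l η ≤ (Ca + ca / 2) * (η' - η) := fun l a b η η' c d e =>
    lkk_dir_hi hb hP hz a b η η' c d (lt_of_le_of_lt e hb.x1s)
  have e1 : lkkDir A0 P lam ξ = w := by
    refine lpq_at_inv_eq hA (Ca + ca / 2) ξ1 (hi lam hl0 hl) hb.x10.le w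
      (by rw [lkk_dir_zero hb hP hz hl0 hl]; exact hw0) ?_
    exact (lpq_le_at_inv hA w hw).trans (hA.mono (mem_Ici.2 h0) (mem_Ici.2 hb.x10.le) (c.le.trans hz))
  have e2 : lkkDir A0 P lam' ξ' = w := by
    refine lpq_at_inv_eq hA' (Ca + ca / 2) ξ1 (hi lam' hl0' hl') hb.x10.le w
      (by rw [lkk_dir_zero hb hP hz hl0' hl']; exact hw0) ?_
    exact (lpq_le_at_inv hA' w hw).trans (hA'.mono (mem_Ici.2 h0') (mem_Ici.2 hb.x10.le) (c'.le.trans hz))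
  have e3 : lkkDir A0 P lam ξ' - lkkDir A0 P lam ξ = (lam - lam') * P ξ' := by
    rw [e1, ← e2]; unfold lkkDir; ring
  have m1 : ξ ∈ Icc 0 ξs := ⟨h0, ((c.le.trans hz).trans hb.x1s.le)⟩
  have m2 : ξ' ∈ Icc 0 ξs := ⟨h0', ((c'.le.trans hz).trans hb.x1s.le)⟩
  rw [hD.eq ξ' ⟨h0', lt_of_le_of_lt (c'.le.trans hz) hb.x1s⟩, hD.eq ξ ⟨h0, lt_of_le_of_lt (c.le.trans hz) hb.x1s⟩] at e3
  have hT := l9t2_taylor hD.der hD.lip m1 m2
  have hf1 := l9t2_pc_lo (l9t2_dpc hb hP hz hl0 hl hD) (ξ := ξ) ⟨h0, c.le.trans hz⟩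
  have hf1p : 0 < f1 ξ := lt_of_lt_of_le (by positivity) hf1
  have hPP : |P ξ' - P ξ| ≤ LP * |ξ' - ξ| := by
    rcases le_total ξ ξ' with d | d
    · rw [abs_of_nonneg (sub_nonneg.2 d)]; exact hP.lip ξ ξ' h0 d
    · rw [abs_sub_comm, abs_sub_comm ξ' ξ, abs_of_nonneg (sub_nonneg.2 d)]; exact hP.lip ξ' ξ h0' d
  set κ := (2 / ca) ^ 2 with hκ
  have hκ0 : 0 ≤ κ := by positivity
  set dl := |lam' - lam| with hdl
  have hdl0 : 0 ≤ dl := abs_nonneg _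
  have hdl2 : dl ^ 2 = (lam' - lam) ^ 2 := sq_abs _
  have hx : |ξ' - ξ| ≤ κ * dl * w := hlip
  have hx1 : |ξ' - ξ| ≤ κ * dl := hx.trans (mul_le_of_le_one_right (by positivity) hw)
  -- the main identity
  have key : f1 ξ * (ξ' - ξ - (lam' - lam) * (-(P ξ) / f1 ξ)) = (lam - lam') * (P ξ' - P ξ) - (f ξ' - f ξ - f1 ξ * (ξ' - ξ)) := by
    rw [e3]; field_simp; ring
  have b1 : |(lam - lam') * (P ξ' - P ξ)| ≤ LP * κ * dl ^ 2 * w := by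
    rw [abs_mul, abs_sub_comm lam lam']
    calc dl * |P ξ' - P ξ| ≤ dl * (LP * (κ * dl * w)) := mul_le_mul_of_nonneg_left (hPP.trans (mul_le_mul_of_nonneg_left hx hLP)) hdl0
      _ = LP * κ * dl ^ 2 * w := by ring
  have b2 : |f ξ' - f ξ - f1 ξ * (ξ' - ξ)| ≤ L * κ ^ 2 * dl ^ 2 * w := by
    refine hT.trans ?_
    rw [← sq_abs (ξ' - ξ), sq]
    calc L * (|ξ' - ξ| * |ξ' - ξ|) ≤ L * ((κ * dl) * (κ * dl * w)) :=
          mul_le_mul_of_nonneg_left (mul_le_mul hx1 hx (abs_nonneg _) (by positivity)) hL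
      _ = L * κ ^ 2 * dl ^ 2 * w := by ring
  have b3 : f1 ξ * |ξ' - ξ - (lam' - lam) * (-(P ξ) / f1 ξ)| ≤ (LP * κ + L * κ ^ 2) * dl ^ 2 * w := by
    have e7 : f1 ξ * |ξ' - ξ - (lam' - lam) * (-(P ξ) / f1 ξ)| = |f1 ξ * (ξ' - ξ - (lam' - lam) * (-(P ξ) / f1 ξ))| := by
      rw [abs_mul, abs_of_pos hf1p]
    rw [e7, key]
    refine (abs_sub _ _).trans ?_
    linarith
  have b4 : ca / 2 * |ξ' - ξ - (lam' - lam) * (-(P ξ) / f1 ξ)| ≤ (LP * κ + L * κ ^ 2) * dl ^ 2 * w :=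
    (mul_le_mul_of_nonneg_right hf1 (abs_nonneg _)).trans b3
  rw [← hdl2]
  have e6 : 2 / ca * (LP * κ + L * κ ^ 2) * dl ^ 2 * w = ((LP * κ + L * κ ^ 2) * dl ^ 2 * w) / (ca / 2) := by field_simp
  rw [e6, le_div_iff₀ (by positivity)]
  linarith

end dirT

/-- the derivative of the direct clock in `log λ`:   `ℓ⁻² λ (- P(ξ) / A_λ'(ξ))`, `ξ = ξ(v)`;   `a1` = the density of `A_0` on `[0, ξ_*]` -/
noncomputable def LlPt.KdL (p : LlPt) (F : LlFix) (𝔹 : LlBase) (a1 : ℝ → ℝ) (v : ℝ) : ℝ :=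
  (p.ell ^ 2)⁻¹ * (p.lam * (-(F.P (p.xi F 𝔹 v)) / (a1 (p.xi F 𝔹 v) + p.lam * deriv F.P (p.xi F 𝔹 v))))

/-- the clock of a direct point at another strength -/
theorem l9t2_K_dir (p : LlPt) (F : LlFix) (𝔹 : LlBase) (hsm : p.sm = false) (l' v : ℝ) :
    (p.wLm l').K F 𝔹 v = (p.ell ^ 2)⁻¹ * llInv (lkkDir (𝔹.A0 F.T) F.P l') (v / p.ell) := by
  have e : (p.wLm l').sm = false := hsm
  unfold LlPt.K LlPt.xi LlPt.Aprof
  rw [e, if_neg (by simp)]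
  rfl

theorem l9t2_xi_dir (p : LlPt) (F : LlFix) (𝔹 : LlBase) (hsm : p.sm = false) (v : ℝ) :
    p.xi F 𝔹 v = llInv (lkkDir (𝔹.A0 F.T) F.P p.lam) (v / p.ell) := by
  unfold LlPt.xi LlPt.Aprof
  rw [hsm, if_neg (by simp)]
  rfl

/-- arithmetic of the passage `λ → log λ` -/
theorem l9t2_log_arith {X X' D lam h Cd κ w e2 : ℝ} (hl0 : 0 ≤ lam) (hl1 : lam ≤ 1) (hh : |h| ≤ 1) (hw : 0 ≤ w) (hCd : 0 ≤ Cd) (_hκ : 0 ≤ κ)
    (he0 : 0 ≤ e2) (he1 : e2 ≤ 1)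
    (hT : |X' - X - (lam * Real.exp h - lam) * D| ≤ Cd * (lam * Real.exp h - lam) ^ 2 * w) (hD : |D| ≤ κ * w) :
    |e2 * X' - e2 * X - h * (e2 * (lam * D))| ≤ (4 * Cd + κ) * lam * h ^ 2 * w := by
  have a1 : |Real.exp h - 1| ≤ 2 * |h| := Real.abs_exp_sub_one_le hh
  have a2 : |Real.exp h - 1 - h| ≤ h ^ 2 := Real.abs_exp_sub_one_sub_id_le hh
  have e : e2 * X' - e2 * X - h * (e2 * (lam * D))
      = e2 * ((X' - X - (lam * Real.exp h - lam) * D) + lam * (Real.exp h - 1 - h) * D) := by ring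
  have b1 : (lam * Real.exp h - lam) ^ 2 ≤ 4 * lam * h ^ 2 := by
    have e1 : (lam * Real.exp h - lam) ^ 2 = lam ^ 2 * |Real.exp h - 1| ^ 2 := by rw [sq_abs]; ring
    have h2 : |Real.exp h - 1| ^ 2 ≤ (2 * |h|) ^ 2 := pow_le_pow_left₀ (abs_nonneg _) a1 2
    have h3 : (2 * |h|) ^ 2 = 4 * h ^ 2 := by rw [mul_pow, sq_abs]; norm_num
    have h4 : lam ^ 2 ≤ lam := by nlinarith
    rw [e1]
    calc lam ^ 2 * |Real.exp h - 1| ^ 2 ≤ lam * (4 * h ^ 2) := mul_le_mul h4 (h2.trans h3.le) (by positivity) hl0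
      _ = 4 * lam * h ^ 2 := by ring
  have b2 : |lam * (Real.exp h - 1 - h) * D| ≤ lam * h ^ 2 * (κ * w) := by
    rw [abs_mul, abs_mul, abs_of_nonneg hl0]
    exact mul_le_mul (mul_le_mul_of_nonneg_left a2 hl0) hD (abs_nonneg _) (by positivity)
  have b3 : Cd * (lam * Real.exp h - lam) ^ 2 * w ≤ Cd * (4 * lam * h ^ 2) * w :=
    mul_le_mul_of_nonneg_right (mul_le_mul_of_nonneg_left b1 hCd) hw
  rw [e, abs_mul, abs_of_nonneg he0]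
  have b4 : |(X' - X - (lam * Real.exp h - lam) * D) + lam * (Real.exp h - 1 - h) * D| ≤ (4 * Cd + κ) * lam * h ^ 2 * w := by
    refine (abs_add_le _ _).trans ?_
    calc _ ≤ Cd * (4 * lam * h ^ 2) * w + lam * h ^ 2 * (κ * w) := add_le_add (hT.trans b3) b2
      _ = (4 * Cd + κ) * lam * h ^ 2 * w := by ring
  exact (mul_le_of_le_one_left (abs_nonneg _) he1).trans b4

/-- **(K-TAYLOR, direct)** as a named `Prop`: at the direct points the clock is `C^{1,1}` in `log λ`, uniformly, at ALL masses (no kink) -/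
def L9t2D (𝔹 : LlBase) (F : LlFix) (a1 : ℝ → ℝ) : Prop :=
  ∃ C : ℝ, 0 ≤ C ∧ LlUnif F fun p => p.sm = false →
    ∀ v ∈ Icc 0 p.ell, |p.KdL F 𝔹 a1 v| ≤ C * p.lam * v ∧ ∀ h : ℝ, |h| ≤ 1 →
      |(p.wLm (p.lam * Real.exp h)).K F 𝔹 v - p.K F 𝔹 v - h * p.KdL F 𝔹 a1 v| ≤ C * p.lam * h ^ 2 * v ∧
      |(p.wLm (p.lam * Real.exp h)).K F 𝔹 v - p.K F 𝔹 v| ≤ C * p.lam * |h| * v

theorem l9t2_D_core {𝔹 : LlBase} {F : LlFix} {ca Ca ξ1 L : ℝ} {a0 a1 : ℝ → ℝ} (hF : F.Ok)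
    (hB : LkkBase (𝔹.A0 F.T) (𝔹.xiS F.T) (𝔹.pTop F.T) ca Ca ξ1) (hz : F.z0 ≤ ξ1)
    (hL : ∀ lam : ℝ, 0 ≤ lam → lam ≤ 1 →
      L9t2Dir (𝔹.A0 F.T) F.P lam (𝔹.xiS F.T) (𝔹.pTop F.T) (fun ξ => a0 ξ + lam * F.P ξ) (fun ξ => a1 ξ + lam * deriv F.P ξ) L) :
    L9t2D 𝔹 F a1 := by
  obtain ⟨LP, hP⟩ := lkk_cut F hF
  have hca := hB.ca0
  have hLP := hP.LP0
  have hL0 := (hL 0 le_rfl zero_le_one).L0
  obtain ⟨N1, hN1⟩ := lkk_lam_small hF (ε := ca / 2 / (3 * (LP + 1))) (by positivity)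
  set κ : ℝ := (2 / ca) ^ 2 with hκ
  set Cd : ℝ := 2 / ca * (LP * κ + L * κ ^ 2) with hCd
  have hκ0 : 0 ≤ κ := by positivity
  have hCd0 : 0 ≤ Cd := by positivity
  refine ⟨4 * Cd + 2 * κ, by positivity, N1, fun p hp hN hsm v hv => ?_⟩
  have hlp := lkk_lam_pos hp
  have hl0 := hlp.le
  have hl1 : p.lam ≤ 1 := hp.lam_hi.trans (Real.rpow_le_one (lkk_x_pos hp.N2).le (lkk_x_lt_one hp.N2).le hF.pS0.le)
  have hell : 0 < p.ell := by linarith [hp.ell1]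
  have a2 : p.lam * (3 * (LP + 1)) ≤ ca / 2 := by
    have := hN1 p hp hN
    rwa [le_div_iff₀ (by positivity)] at this
  have hl : p.lam * LP ≤ ca / 2 := by nlinarith
  have hw0 : 0 ≤ v / p.ell := div_nonneg hv.1 hell.le
  have hw1 : v / p.ell ≤ 1 := by rw [div_le_one hell]; exact hv.2
  have hwv : v / p.ell ≤ v := div_le_self hv.1 hp.ell1
  have he0 : 0 ≤ (p.ell ^ 2)⁻¹ := by positivity
  have he1 : (p.ell ^ 2)⁻¹ ≤ 1 := inv_le_one_of_one_le₀ (by nlinarith [hp.ell1])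
  have hD := hL p.lam hl0 hl1
  have hsp := l9t2_dir_speed hB hP hz hl0 hl hD (v / p.ell) hw0 hw1
  have eK : p.K F 𝔹 v = (p.ell ^ 2)⁻¹ * llInv (lkkDir (𝔹.A0 F.T) F.P p.lam) (v / p.ell) := l9t2_K_dir p F 𝔹 hsm p.lam v
  have eKd : p.KdL F 𝔹 a1 v = (p.ell ^ 2)⁻¹ * (p.lam * (-(F.P (llInv (lkkDir (𝔹.A0 F.T) F.P p.lam) (v / p.ell)))
      / (a1 (llInv (lkkDir (𝔹.A0 F.T) F.P p.lam) (v / p.ell)) + p.lam * deriv F.P (llInv (lkkDir (𝔹.A0 F.T) F.P p.lam) (v / p.ell))))) := by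
    unfold LlPt.KdL
    rw [l9t2_xi_dir p F 𝔹 hsm v]
  refine ⟨?_, fun h hh => ?_⟩
  · rw [eKd, abs_mul, abs_mul, abs_of_nonneg he0, abs_of_nonneg hl0]
    calc _ ≤ 1 * (p.lam * (κ * (v / p.ell))) := mul_le_mul he1 (mul_le_mul_of_nonneg_left hsp hl0) (by positivity) zero_le_one
      _ ≤ 1 * (p.lam * (κ * v)) := by gcongr
      _ ≤ (4 * Cd + 2 * κ) * p.lam * v := by nlinarith [mul_nonneg (mul_nonneg hCd0 hl0) hv.1, mul_nonneg (mul_nonneg hκ0 hl0) hv.1]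
  have hex : Real.exp h ≤ 3 := by
    have h1 : Real.exp h ≤ Real.exp 1 := Real.exp_le_exp.2 ((le_abs_self h).trans hh)
    have := Real.exp_one_lt_d9
    linarith
  have hl0' : 0 ≤ p.lam * Real.exp h := by positivity
  have hl' : p.lam * Real.exp h * LP ≤ ca / 2 := by
    have : p.lam * Real.exp h * LP ≤ p.lam * 3 * LP := by gcongr
    nlinarith
  have hT := l9t2_dir_taylor hB hP hz hl0 hl hl0' hl' hD (v / p.ell) hw0 hw1
  have hI := lkk_dir_inv_lip hB hP hz hl0 hl hl0' hl' (v / p.ell) hw0 hw1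
  rw [l9t2_K_dir p F 𝔹 hsm, eK, eKd]
  constructor
  · have := l9t2_log_arith hl0 hl1 hh hw0 hCd0 hκ0 he0 he1 hT hsp
    refine this.trans ?_
    have h2 : 0 ≤ (4 * Cd + κ) * p.lam * h ^ 2 := by positivity
    calc (4 * Cd + κ) * p.lam * h ^ 2 * (v / p.ell) ≤ (4 * Cd + κ) * p.lam * h ^ 2 * v := mul_le_mul_of_nonneg_left hwv h2
      _ ≤ (4 * Cd + 2 * κ) * p.lam * h ^ 2 * v := by
        have : 0 ≤ κ * p.lam * h ^ 2 * v := by have := hv.1; positivity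
        nlinarith
  · rw [← mul_sub, abs_mul, abs_of_nonneg he0]
    have a1' : |Real.exp h - 1| ≤ 2 * |h| := Real.abs_exp_sub_one_le hh
    have e1 : |p.lam * Real.exp h - p.lam| = p.lam * |Real.exp h - 1| := by
      rw [← abs_of_nonneg hl0, ← abs_mul, abs_of_nonneg hl0]; congr 1; ring
    rw [e1] at hI
    calc _ ≤ 1 * (κ * (p.lam * (2 * |h|)) * v) := by
          refine mul_le_mul he1 (hI.trans ?_) (abs_nonneg _) zero_le_one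
          have := hv.1
          gcongr
      _ ≤ (4 * Cd + 2 * κ) * p.lam * |h| * v := by
        have : 0 ≤ Cd * p.lam * |h| * v := by have := hv.1; positivity
        nlinarith

/-- **EXIT (K-TAYLOR, direct)**.   `zb`, `a1` depend on `𝔹, T` only;   `C` on `F`.   The step `h` is SIGNED; `p.wLm (λ e^h)` need not be in the range (P1). -/
theorem l9t2_main_dir (𝔹 : LlBase) (T : ℝ) (hb : LlBaseProfile 𝔹 T) :
    ∃ (zb : ℝ) (a1 : ℝ → ℝ), 0 < zb ∧ ∀ F : LlFix, F.Ok → F.T = T → F.z0 ≤ zb → ∃ C : ℝ, 0 ≤ C ∧ LlUnif F fun p => p.sm = false →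
      ∀ v ∈ Icc 0 p.ell, |p.KdL F 𝔹 a1 v| ≤ C * p.lam * v ∧ ∀ h : ℝ, |h| ≤ 1 →
        |(p.wLm (p.lam * Real.exp h)).K F 𝔹 v - p.K F 𝔹 v - h * p.KdL F 𝔹 a1 v| ≤ C * p.lam * h ^ 2 * v ∧
        |(p.wLm (p.lam * Real.exp h)).K F 𝔹 v - p.K F 𝔹 v| ≤ C * p.lam * |h| * v := by
  obtain ⟨ca, Ca, ξ1, hB⟩ := lkk_base 𝔹 T hb
  obtain ⟨a0, a1, hdir⟩ := l9t2_dir 𝔹 T hb
  refine ⟨ξ1, a1, hB.x10, fun F hF hT hz => ?_⟩
  subst hT
  obtain ⟨L, hL⟩ := hdir F hF rfl (hz.trans hB.x1s.le)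
  exact l9t2_D_core hF hB hz hL

/-- **EXIT on the raw density fact**: both halves of K-TAYLOR, SAME `a1` (it depends on `𝔹, T` only) -/
theorem l9t2_of_dens (𝔹 : LlBase) (T : ℝ) (hb : LlBaseProfile 𝔹 T) :
    ∃ a1 : ℝ → ℝ, ∀ F : LlFix, F.Ok → F.T = T → L9t2Dens 𝔹 F → L9t2S 𝔹 F a1 ∧ L9t2D 𝔹 F a1 := by
  obtain ⟨a0, a1, hdir⟩ := l9t2_dir 𝔹 T hb
  refine ⟨a1, fun F hF hT hd => ?_⟩
  subst hT
  obtain ⟨ca, Ca, ξ1, hB, hz⟩ := l9t2_base_of_dens hb hF hd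
  obtain ⟨L, hL⟩ := hdir F hF rfl (hz.trans hB.x1s.le)
  exact ⟨l9t2_S_core hF hB hz hL, l9t2_D_core hF hB hz hL⟩

/-- the strength sweep: a step of `t = log λ` -/
theorem l9t2_ptL_shift (F : LlFix) (𝔹 : LlBase) (N : ℕ) (ell : ℝ) (γ : Fin (N + 1) → ℝ) (t h v : ℝ) :
    (l9PtL N ell γ (t + h)).K F 𝔹 v = ((l9PtL N ell γ t).wLm ((l9PtL N ell γ t).lam * Real.exp h)).K F 𝔹 v := by
  have e : (l9PtL N ell γ t).lam * Real.exp h = Real.exp (t + h) := by rw [Real.exp_add]; rfl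
  rw [e]
  rfl

/-- the derivative of the direct clock along the strength sweep, from the quadratic bound -/
theorem l9t2_ptL_hasDeriv {F : LlFix} {𝔹 : LlBase} {N : ℕ} {ell : ℝ} {γ : Fin (N + 1) → ℝ} {t v C : ℝ} {a1 : ℝ → ℝ}
    (H : ∀ h : ℝ, |h| ≤ 1 → |((l9PtL N ell γ t).wLm ((l9PtL N ell γ t).lam * Real.exp h)).K F 𝔹 v - (l9PtL N ell γ t).K F 𝔹 v
      - h * (l9PtL N ell γ t).KdL F 𝔹 a1 v| ≤ C * h ^ 2) :
    HasDerivAt (fun t' => (l9PtL N ell γ t').K F 𝔹 v) ((l9PtL N ell γ t).KdL F 𝔹 a1 v) t :=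
  l9t2_hasDeriv_of_sq (C := C) fun h hh => by
    show |(l9PtL N ell γ (t + h)).K F 𝔹 v - _ - _| ≤ _
    rw [l9t2_ptL_shift]
    exact H h hh

theorem l9t2_eqns_cite : True := by
  have := @l9t2Psd.eq_1
  have := @l9t2Kk.eq_1
  have := @LlPt.Psi5.eq_1
  have := @LlPt.Psd5.eq_1
  have := @LlPt.Kk5.eq_1
  have := @LlPt.KdL.eq_1
  have := @L9t2Dens.eq_1
  have := @L9t2S.eq_1
  have := @L9t2D.eq_1
  trivial

end Claimed.Agent.R286
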