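import Claimed.Agent.R286.LL04.Clk
import Claimed.Agent.R286.L09.ChDQ

/-!
# Row 286 (S0533), unit L09, node REG, SIZE HALF OF THE PRODUCER, clock level      (owner helper151; head of REG helper260; prefix `l9sz_`, `L9sz`)

The envelope (d) of `L9Reg` cannot come from the pointwise Lipschitz constant `C/ω` of `RegT.Kpt, qpt`.   It comes from MONOTONICITY IN `θ` (design note REG_216, TRAP 1):
on the smoothed segment `ξ_θ(v) = Â_θ⁻¹(v/ℓ)`, and `Â_θ` does not depend on `θ` below `M`, is `4/ℓ ≥ v/ℓ` above `M`: so `ξ_θ(v)` and `K_θ(v) = ξ_θ(v)/ℓ²` are ANTITONE in `θ`, with values in `[0,M]`, at EVERY `v ∈ [0,4]`.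
* `l9sz_xi_anti`, `l9sz_xi_mem`, `l9sz_K_le`, `l9sz_K_mem`, `l9sz_K_anti` (`(ξ_θ - ξ_θ')/ℓ² ≤ K_θ - K_θ'`)      : elementary, from the definitions
* `l9sz_Gam1_le`, `l9sz_Gam_lip` (`0 ≤ Γ(t') - Γ(t) ≤ (t'-t)/c`), `l9sz_q_mem`, `l9sz_q_eq` (`q = Γ̂(ξ(v))`)      : from `LlPt.Ref`
* `l9sz_q_dom` : `|q_θ' - q_θ|(v) ≤ (K_θ - K_θ')(v)/c + C (1+M) (θ'-θ)`      (`RegT.gamN`)
* **`L9szDom 𝔹 F A p θ θ'`**, **`l9sz_dom`** : `LlSec3 𝔹 F → ∃ A N0, ∀ p` smoothed, `θ ≤ θ'` in `[0, log 2]`, ALL `v ∈ [0,4]`: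
      `K_θ' ≤ K_θ`, `K ∈ [0,M]`, `|b' - b| ≤ A (θ'-θ)`, `|q' - q|, |h' - h| ≤ A (K_θ - K_θ') + A (1+M) (θ'-θ)`;      `l9sz_dom_S` : the same on `l9PtS F N γ ·`
* `l9sz_clk` : `GhClk1 p.a` of `p.b, p.h, p.K`;   `l9sz_adm` : `LlStpAdm p.a (I.P p)` on every chain      (every admissible point of a large dyad)
0 sorry.
-/

set_option autoImplicit false

namespace Claimed.Agent.R286

open MeasureTheory Set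

/-! ### 1. the size move: elementary facts -/

theorem l9sz_ell (p : LlPt) (θ : ℝ) : (p.wTh θ).ell = Real.exp (θ / 6) := rfl

theorem l9sz_ell_mem {θ : ℝ} (h : θ ∈ Icc 0 (Real.log 2)) : 1 ≤ Real.exp (θ / 6) ∧ Real.exp (θ / 6) ≤ (2 : ℝ) ^ (1 / 6 : ℝ) := by
  refine ⟨Real.one_le_exp (by linarith [h.1]), ?_⟩
  rw [Real.rpow_def_of_pos (by norm_num : (0 : ℝ) < 2)]
  exact Real.exp_le_exp.2 (by linarith [h.2])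

theorem l9sz_ok {F : LlFix} {p : LlPt} (hp : p.Ok F) {θ : ℝ} (h : θ ∈ Icc 0 (Real.log 2)) : (p.wTh θ).Ok F :=
  { hp with ell1 := (l9sz_ell_mem h).1, ell2 := (l9sz_ell_mem h).2 }

/-- below `M` the smoothed profile does not depend on the size coordinate -/
theorem l9sz_Asm_lt (F : LlFix) (𝔹 : LlBase) (p : LlPt) (θ θ' : ℝ) {ξ : ℝ} (h : ξ < p.M) :
    (p.wTh θ').Asm F 𝔹 ξ = (p.wTh θ).Asm F 𝔹 ξ := by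
  have h' : ¬ p.M ≤ ξ := not_le.2 h
  show (if p.M ≤ ξ then 4 / (p.wTh θ').ell else _) = (if p.M ≤ ξ then 4 / (p.wTh θ).ell else _)
  rw [if_neg h', if_neg h']
  rfl

theorem l9sz_Asm_ge (F : LlFix) (𝔹 : LlBase) (p : LlPt) (θ : ℝ) {ξ : ℝ} (h : p.M ≤ ξ) :
    (p.wTh θ).Asm F 𝔹 ξ = 4 / Real.exp (θ / 6) := by
  show (if p.M ≤ ξ then 4 / (p.wTh θ).ell else _) = _
  rw [if_pos h]
  rfl

theorem l9sz_xi_eq (F : LlFix) (𝔹 : LlBase) (p : LlPt) (hsm : p.sm = true) (θ v : ℝ) :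
    (p.wTh θ).xi F 𝔹 v = sInf {ξ : ℝ | 0 ≤ ξ ∧ v / Real.exp (θ / 6) ≤ (p.wTh θ).Asm F 𝔹 ξ} := by
  have : (p.wTh θ).Aprof F 𝔹 = (p.wTh θ).Asm F 𝔹 := by
    show (if p.sm then (p.wTh θ).Asm F 𝔹 else (p.wTh θ).Adir F 𝔹) = _
    rw [hsm]; rfl
  unfold LlPt.xi llInv
  rw [this]
  rfl

theorem l9sz_M_mem (F : LlFix) (𝔹 : LlBase) (p : LlPt) (hM : 0 ≤ p.M) (θ : ℝ) {v : ℝ} (hv : v ≤ 4) :
    p.M ∈ {ξ : ℝ | 0 ≤ ξ ∧ v / Real.exp (θ / 6) ≤ (p.wTh θ).Asm F 𝔹 ξ} := by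
  refine ⟨hM, ?_⟩
  rw [l9sz_Asm_ge F 𝔹 p θ le_rfl]
  exact div_le_div_of_nonneg_right hv (Real.exp_pos _).le

/-- `0 ≤ ξ_θ(v) ≤ M` -/
theorem l9sz_xi_mem (F : LlFix) (𝔹 : LlBase) (p : LlPt) (hsm : p.sm = true) (hM : 0 ≤ p.M) (θ : ℝ) {v : ℝ} (hv : v ≤ 4) :
    (p.wTh θ).xi F 𝔹 v ∈ Icc 0 p.M := by
  rw [l9sz_xi_eq F 𝔹 p hsm]
  exact ⟨Real.sInf_nonneg fun ξ hξ => hξ.1, csInf_le ⟨0, fun ξ hξ => hξ.1⟩ (l9sz_M_mem F 𝔹 p hM θ hv)⟩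

/-- **`ξ_θ(v)` is antitone in `θ`** -/
theorem l9sz_xi_anti (F : LlFix) (𝔹 : LlBase) (p : LlPt) (hsm : p.sm = true) (hM : 0 ≤ p.M) {θ θ' : ℝ} (h : θ ≤ θ') {v : ℝ}
    (hv : v ∈ Icc (0 : ℝ) 4) : (p.wTh θ').xi F 𝔹 v ≤ (p.wTh θ).xi F 𝔹 v := by
  rw [l9sz_xi_eq F 𝔹 p hsm, l9sz_xi_eq F 𝔹 p hsm]
  refine csInf_le_csInf ⟨0, fun ξ hξ => hξ.1⟩ ⟨p.M, l9sz_M_mem F 𝔹 p hM θ hv.2⟩ ?_
  rintro ξ ⟨h0, h1⟩
  refine ⟨h0, ?_⟩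
  rcases le_or_gt p.M ξ with hc | hc
  · rw [l9sz_Asm_ge F 𝔹 p θ' hc]
    exact div_le_div_of_nonneg_right hv.2 (Real.exp_pos _).le
  · rw [l9sz_Asm_lt F 𝔹 p θ θ' hc]
    refine le_trans ?_ h1
    exact div_le_div_of_nonneg_left hv.1 (Real.exp_pos _) (Real.exp_le_exp.2 (by linarith))

theorem l9sz_K_eq (F : LlFix) (𝔹 : LlBase) (p : LlPt) (θ v : ℝ) :
    (p.wTh θ).K F 𝔹 v = (Real.exp (θ / 6) ^ 2)⁻¹ * (p.wTh θ).xi F 𝔹 v := rfl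

/-- **`K_θ(v)` is antitone in `θ`**, and it dominates the move of `ξ` -/
theorem l9sz_K_anti (F : LlFix) (𝔹 : LlBase) (p : LlPt) (hsm : p.sm = true) (hM : 0 ≤ p.M) {θ θ' : ℝ} (h : θ ≤ θ') {v : ℝ}
    (hv : v ∈ Icc (0 : ℝ) 4) :
    (Real.exp (θ / 6) ^ 2)⁻¹ * ((p.wTh θ).xi F 𝔹 v - (p.wTh θ').xi F 𝔹 v) ≤ (p.wTh θ).K F 𝔹 v - (p.wTh θ').K F 𝔹 v := by
  rw [l9sz_K_eq, l9sz_K_eq]
  have h1 := (l9sz_xi_mem F 𝔹 p hsm hM θ' hv.2).1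
  have h2 : (Real.exp (θ' / 6) ^ 2)⁻¹ ≤ (Real.exp (θ / 6) ^ 2)⁻¹ := by
    refine inv_anti₀ (by positivity) ?_
    exact pow_le_pow_left₀ (Real.exp_pos _).le (Real.exp_le_exp.2 (by linarith)) 2
  nlinarith

theorem l9sz_K_mem (F : LlFix) (𝔹 : LlBase) (p : LlPt) (hsm : p.sm = true) (hM : 0 ≤ p.M) {θ : ℝ} (h : 0 ≤ θ) {v : ℝ} (hv : v ≤ 4) :
    (p.wTh θ).K F 𝔹 v ∈ Icc 0 p.M := by
  rw [l9sz_K_eq]
  obtain ⟨h1, h2⟩ := l9sz_xi_mem F 𝔹 p hsm hM θ hv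
  have h3 : (Real.exp (θ / 6) ^ 2)⁻¹ ≤ 1 := by
    refine inv_le_one_of_one_le₀ ?_
    have : 1 ≤ Real.exp (θ / 6) := Real.one_le_exp (by linarith)
    nlinarith
  have h4 : 0 ≤ (Real.exp (θ / 6) ^ 2)⁻¹ := by positivity
  exact ⟨mul_nonneg h4 h1, by nlinarith⟩

theorem l9sz_K_le (F : LlFix) (𝔹 : LlBase) (p : LlPt) (hsm : p.sm = true) (hM : 0 ≤ p.M) {θ θ' : ℝ} (h : θ ≤ θ') {v : ℝ}
    (hv : v ∈ Icc (0 : ℝ) 4) : (p.wTh θ').K F 𝔹 v ≤ (p.wTh θ).K F 𝔹 v := by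
  have h1 := l9sz_K_anti F 𝔹 p hsm hM h hv
  have h2 := l9sz_xi_anti F 𝔹 p hsm hM h hv
  have h4 : 0 ≤ (Real.exp (θ / 6) ^ 2)⁻¹ := by positivity
  nlinarith [mul_nonneg h4 (sub_nonneg.2 h2)]

/-! ### 2. the response -/

theorem l9sz_q_eq (F : LlFix) (𝔹 : LlBase) (r : LlPt) (hl : r.ell ≠ 0) (v : ℝ) : r.q F 𝔹 v = r.GamN F 𝔹 (r.xi F 𝔹 v) := by
  unfold LlPt.q LlPt.Gam LlPt.K
  rw [mul_inv_cancel_left₀ (pow_ne_zero 2 hl)]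

theorem l9sz_GamN_eq (F : LlFix) (𝔹 : LlBase) (r : LlPt) (hl : r.ell ≠ 0) (ξ : ℝ) : r.GamN F 𝔹 ξ = r.Gam F 𝔹 ((r.ell ^ 2)⁻¹ * ξ) := by
  unfold LlPt.Gam
  rw [mul_inv_cancel_left₀ (pow_ne_zero 2 hl)]

/-- `0 < Γ' ≤ 1 / c` -/
theorem l9sz_Gam1_le {F : LlFix} {𝔹 : LlBase} {r : LlPt} {c C v0 : ℝ} (hc : 0 < c) (hlam : 0 ≤ r.lam) (hR : r.Ref F 𝔹 c C v0) {s : ℝ} (hs : 0 ≤ s) :
    0 < r.Gam1 F 𝔹 s ∧ r.Gam1 F 𝔹 s ≤ 1 / c := by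
  have h1 := hR.g1_pos s hs
  refine ⟨h1, ?_⟩
  have h2 : 0 ≤ r.gap F 𝔹 s := le_trans (by positivity) (hR.gap_lo s hs)
  unfold LlPt.gap at h2
  have h3 := hR.b0_lo
  rw [le_div_iff₀ hc]
  nlinarith

/-- the response is nondecreasing and `1/c`-Lipschitz in the physical time -/
theorem l9sz_Gam_lip {F : LlFix} {𝔹 : LlBase} {r : LlPt} {c C v0 : ℝ} (hc : 0 < c) (hlam : 0 ≤ r.lam) (hR : r.Ref F 𝔹 c C v0) {t t' : ℝ}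
    (ht : 0 ≤ t) (htt : t ≤ t') : 0 ≤ r.Gam F 𝔹 t' - r.Gam F 𝔹 t ∧ r.Gam F 𝔹 t' - r.Gam F 𝔹 t ≤ 1 / c * (t' - t) := by
  rw [hR.gam_ftc t t' ht htt]
  constructor
  · exact intervalIntegral.integral_nonneg htt fun s hs => (l9sz_Gam1_le hc hlam hR (ht.trans hs.1)).1.le
  · have h := intervalIntegral.norm_integral_le_of_norm_le_const (a := t) (b := t') (f := r.Gam1 F 𝔹) (C := 1 / c) (fun s hs => by
      rw [uIoc_of_le htt] at hs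
      obtain ⟨h1, h2⟩ := l9sz_Gam1_le hc hlam hR (ht.trans hs.1.le)
      rw [Real.norm_eq_abs, abs_of_pos h1]
      exact h2)
    rw [abs_of_nonneg (sub_nonneg.2 htt)] at h
    exact (le_abs_self _).trans h

theorem l9sz_q_mem {F : LlFix} {𝔹 : LlBase} {r : LlPt} {c C v0 : ℝ} (hc : 0 < c) (hlam : 0 ≤ r.lam) (hR : r.Ref F 𝔹 c C v0) {v : ℝ}
    (hK : 0 ≤ r.K F 𝔹 v) : |r.q F 𝔹 v| ≤ 1 := by
  have h1 := (l9sz_Gam_lip hc hlam hR le_rfl hK).1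
  rw [hR.gam_zero, sub_zero] at h1
  unfold LlPt.q
  rw [abs_of_nonneg h1]
  exact hR.gam_le _ hK

/-- **the move of `q` is dominated by the move of the antitone `K`** -/
theorem l9sz_q_dom (F : LlFix) (𝔹 : LlBase) (p : LlPt) (hp : p.Ok F) (hsm : p.sm = true) {c C v0 CT : ℝ} (hc : 0 < c) {θ θ' : ℝ}
    (h : θ ≤ θ') (hR : (p.wTh θ).Ref F 𝔹 c C v0)
    (hG : ∀ ξ ∈ Icc 0 p.M, |(p.wTh θ').GamN F 𝔹 ξ - (p.wTh θ).GamN F 𝔹 ξ| ≤ CT * (1 + p.M) * |θ' - θ|) {v : ℝ} (hv : v ∈ Icc (0 : ℝ) 4) :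
    |(p.wTh θ').q F 𝔹 v - (p.wTh θ).q F 𝔹 v|
      ≤ 1 / c * ((p.wTh θ).K F 𝔹 v - (p.wTh θ').K F 𝔹 v) + CT * (1 + p.M) * (θ' - θ) := by
  have hM := ll04c_M_nn p hp.N2
  have hl : ∀ t : ℝ, (p.wTh t).ell ≠ 0 := fun t => (Real.exp_pos _).ne'
  have hlam : 0 ≤ (p.wTh θ).lam := (lce_lam_pos hp).le
  rw [l9sz_q_eq F 𝔹 _ (hl θ'), l9sz_q_eq F 𝔹 _ (hl θ)]
  set ξ' := (p.wTh θ').xi F 𝔹 v with hξ'
  set ξ := (p.wTh θ).xi F 𝔹 v with hξ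
  have m' : ξ' ∈ Icc 0 p.M := l9sz_xi_mem F 𝔹 p hsm hM θ' hv.2
  have hle : ξ' ≤ ξ := l9sz_xi_anti F 𝔹 p hsm hM h hv
  have h1 := hG ξ' m'
  rw [abs_of_nonneg (sub_nonneg.2 h)] at h1
  have hi : 0 ≤ ((p.wTh θ).ell ^ 2)⁻¹ := by positivity
  have h2 := l9sz_Gam_lip hc hlam hR (t := ((p.wTh θ).ell ^ 2)⁻¹ * ξ') (t' := ((p.wTh θ).ell ^ 2)⁻¹ * ξ) (mul_nonneg hi m'.1)
    (mul_le_mul_of_nonneg_left hle hi)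
  rw [← l9sz_GamN_eq F 𝔹 _ (hl θ), ← l9sz_GamN_eq F 𝔹 _ (hl θ), ← mul_sub] at h2
  have h3 := l9sz_K_anti F 𝔹 p hsm hM h hv
  have h4 : 1 / c * (((p.wTh θ).ell ^ 2)⁻¹ * (ξ - ξ')) ≤ 1 / c * ((p.wTh θ).K F 𝔹 v - (p.wTh θ').K F 𝔹 v) :=
    mul_le_mul_of_nonneg_left h3 (by positivity)
  have e : (p.wTh θ').GamN F 𝔹 ξ' - (p.wTh θ).GamN F 𝔹 ξ
      = ((p.wTh θ').GamN F 𝔹 ξ' - (p.wTh θ).GamN F 𝔹 ξ') - ((p.wTh θ).GamN F 𝔹 ξ - (p.wTh θ).GamN F 𝔹 ξ') := by ring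
  rw [e]
  refine (abs_sub _ _).trans ?_
  rw [abs_of_nonneg h2.1]
  linarith [h2.2]

/-! ### 3. the domination of the size move -/

/-- **the size move `θ ≤ θ'` of the clocks is dominated by the move of the ANTITONE clock `K`** (all `v ∈ [0,4]`, no `1/ω`) -/
structure L9szDom (𝔹 : LlBase) (F : LlFix) (A : ℝ) (p : LlPt) (θ θ' : ℝ) : Prop where
  K_le : ∀ v ∈ Icc (0 : ℝ) 4, (p.wTh θ').K F 𝔹 v ≤ (p.wTh θ).K F 𝔹 v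
  K_mem : ∀ v ∈ Icc (0 : ℝ) 4, (p.wTh θ).K F 𝔹 v ∈ Icc 0 p.M ∧ (p.wTh θ').K F 𝔹 v ∈ Icc 0 p.M
  b : ∀ v, |(p.wTh θ').b F 𝔹 v - (p.wTh θ).b F 𝔹 v| ≤ A * (θ' - θ)
  q : ∀ v ∈ Icc (0 : ℝ) 4, |(p.wTh θ').q F 𝔹 v - (p.wTh θ).q F 𝔹 v|
    ≤ A * ((p.wTh θ).K F 𝔹 v - (p.wTh θ').K F 𝔹 v) + A * (1 + p.M) * (θ' - θ)
  h : ∀ v ∈ Icc (0 : ℝ) 4, |(p.wTh θ').h F 𝔹 v - (p.wTh θ).h F 𝔹 v|
    ≤ A * ((p.wTh θ).K F 𝔹 v - (p.wTh θ').K F 𝔹 v) + A * (1 + p.M) * (θ' - θ)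

theorem l9sz_a (p : LlPt) (hsm : p.sm = true) (θ : ℝ) : (p.wTh θ).a = 4 := by
  show (if p.sm then (4 : ℝ) else (p.wTh θ).ell) = 4
  rw [hsm]; rfl

/-- **the P-list gives the domination** -/
theorem l9sz_dom (𝔹 : LlBase) (F : LlFix) (h3 : LlSec3 𝔹 F) (he : 0 ≤ F.eta) :
    ∃ (A : ℝ) (N0 : ℕ), 0 ≤ A ∧ ∀ p : LlPt, p.Ok F → p.sm = true → N0 ≤ p.N →
      ∀ θ ∈ Icc 0 (Real.log 2), ∀ θ' ∈ Icc 0 (Real.log 2), θ ≤ θ' → L9szDom 𝔹 F A p θ θ' := by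
  obtain ⟨Cb, CR, CT, ξ0, N1, env⟩ := ll04c_env 𝔹 F h3
  obtain ⟨c, C, v0, hc, _, N2, hRef⟩ := h3.ref
  obtain ⟨_, _, _, _, hRT⟩ := h3.regT
  obtain ⟨cT, CG, hcT, N3, hRT⟩ := hRT 0
  have hCb := env.Cb0
  have hCT := env.CT0
  have hic : 0 ≤ 1 / c := by positivity
  refine ⟨(CT + Cb) + 1 / c + |CG| + 1 + Cb * (1 / c) + Cb * |CG| + 2, max N1 (max N2 N3), by positivity, ?_⟩
  intro p hp hsm hN θ hθ θ' hθ' hle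
  have n1 : N1 ≤ p.N := (le_max_left _ _).trans hN
  have n2 : N2 ≤ p.N := ((le_max_left _ _).trans (le_max_right _ _)).trans hN
  have n3 : N3 ≤ p.N := ((le_max_right _ _).trans (le_max_right _ _)).trans hN
  have hM := ll04c_M_nn p hp.N2
  have hd : 0 ≤ θ' - θ := sub_nonneg.2 hle
  have hok := l9sz_ok hp hθ
  have hok' := l9sz_ok hp hθ'
  have hR : (p.wTh θ).Ref F 𝔹 c C v0 := hRef _ hok n2
  have hT := hRT p hp n3 hsm θ hθ θ' hθ'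
  have hG : ∀ ξ ∈ Icc 0 p.M, |(p.wTh θ').GamN F 𝔹 ξ - (p.wTh θ).GamN F 𝔹 ξ| ≤ |CG| * (1 + p.M) * |θ' - θ| := fun ξ hξ =>
    (hT.gamN ξ hξ).trans (mul_le_mul_of_nonneg_right (mul_le_mul_of_nonneg_right (le_abs_self _) (by linarith)) (abs_nonneg _))
  have hb0 := ll04c_th_b0 F 𝔹 p hθ hθ' (env.regTb p hp n1 hsm θ hθ θ' hθ') (env.b0_rg _ hok n1)
  have hKd : ∀ v ∈ Icc (0 : ℝ) 4, 0 ≤ (p.wTh θ).K F 𝔹 v - (p.wTh θ').K F 𝔹 v := fun v hv =>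
    sub_nonneg.2 (l9sz_K_le F 𝔹 p hsm hM hle hv)
  have hq : ∀ v ∈ Icc (0 : ℝ) 4, |(p.wTh θ').q F 𝔹 v - (p.wTh θ).q F 𝔹 v|
      ≤ 1 / c * ((p.wTh θ).K F 𝔹 v - (p.wTh θ').K F 𝔹 v) + |CG| * (1 + p.M) * (θ' - θ) := fun v hv =>
    l9sz_q_dom F 𝔹 p hp hsm hc hle hR hG hv
  have hG0 := abs_nonneg CG
  refine ⟨fun v hv => l9sz_K_le F 𝔹 p hsm hM hle hv,
    fun v hv => ⟨l9sz_K_mem F 𝔹 p hsm hM hθ.1 hv.2, l9sz_K_mem F 𝔹 p hsm hM hθ'.1 hv.2⟩, fun v => ?_, fun v hv => ?_, fun v hv => ?_⟩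
  · rw [ll04c_th_b, ← abs_of_nonneg hd]
    refine hb0.trans (mul_le_mul_of_nonneg_right ?_ (abs_nonneg _))
    have : 0 ≤ Cb * (1 / c) := by positivity
    have : 0 ≤ Cb * |CG| := by positivity
    linarith
  · refine (hq v hv).trans (add_le_add (mul_le_mul_of_nonneg_right ?_ (hKd v hv))
      (mul_le_mul_of_nonneg_right (mul_le_mul_of_nonneg_right ?_ (by linarith)) hd))
    · have : 0 ≤ Cb * (1 / c) := by positivity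
      have : 0 ≤ Cb * |CG| := by positivity
      linarith
    · have : 0 ≤ Cb * (1 / c) := by positivity
      have : 0 ≤ Cb * |CG| := by positivity
      linarith
  · rcases eq_or_lt_of_le hv.1 with h0 | h0
    · have hx := lce_x_pos hp.N2
      have e : ∀ t : ℝ, (p.wTh t).h F 𝔹 v = 0 := fun t => by
        show (if v < p.x then (0 : ℝ) else _) = 0
        rw [if_pos (by rw [← h0]; exact hx)]
      rw [e, e, sub_self, abs_zero]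
      have := hKd v hv
      positivity
    · have k := ll04c_th_h F h3.ok 𝔹 p hp he (hp.sm_fin hsm).2 hθ hθ' (C0 := CT + Cb) (Cb := Cb) hb0 v h0
        (by
          obtain ⟨b0, b1⟩ := env.b_rg _ hok' n1 v (by rw [l9sz_a p hsm]; exact hv)
          rw [abs_of_nonneg b0]; exact b1)
        (l9sz_q_mem hc (lce_lam_pos hok).le hR (l9sz_K_mem F 𝔹 p hsm hM hθ.1 hv.2).1)
      rw [abs_sub_comm ((p.wTh θ').K F 𝔹 v), abs_of_nonneg (hKd v hv), abs_of_nonneg hd] at k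
      have k2 := mul_le_mul_of_nonneg_left (hq v hv) hCb
      set D := (p.wTh θ).K F 𝔹 v - (p.wTh θ').K F 𝔹 v with hD
      have hD0 : 0 ≤ D := hKd v hv
      set δ := θ' - θ with hδ
      have t1 : 0 ≤ (CT + Cb + 1 / c + |CG| + 2 + Cb * |CG|) * D := by positivity
      have t2 : 0 ≤ (1 / c + |CG| + 1 + Cb * (1 / c)) * ((1 + p.M) * δ) := by positivity
      have t3 : 0 ≤ (CT + Cb + 2) * (p.M * δ) := by positivity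
      nlinarith

/-! ### 4. the size segment of the contract; admissibility -/

theorem l9sz_PtS (F : LlFix) (N : ℕ) (γ : Fin (N + 1) → ℝ) (θ₀ θ : ℝ) : (l9PtS F N γ θ₀).wTh θ = l9PtS F N γ θ := rfl

theorem l9sz_PtS_ok (F : LlFix) (hp : F.pS ≤ 12) {N : ℕ} (hN : 2 ≤ N) (γ : Fin (N + 1) → ℝ) {θ : ℝ} (hθ : θ ∈ Icc 0 (Real.log 2)) :
    (l9PtS F N γ θ).Ok F := by
  have h := ll04w_ok F hp hN (Θ := Real.log 2) ⟨Real.log_nonneg (by norm_num), le_rfl⟩ γ θ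
  have e : ll04Siz F N (Real.log 2) γ θ = l9PtS F N γ θ := by
    unfold ll04Siz l9PtS
    rw [ll04w_U_of_mem hθ]
  rwa [e] at h

/-- the domination on the size segment `l9PtS F N γ ·` (`(l9PtS F N γ 0).wTh θ = l9PtS F N γ θ` by `rfl`: `l9sz_PtS`) -/
theorem l9sz_dom_S (𝔹 : LlBase) (F : LlFix) (h3 : LlSec3 𝔹 F) (he : 0 ≤ F.eta) (hp : F.pS ≤ 12) :
    ∃ (A : ℝ) (N0 : ℕ), 0 ≤ A ∧ ∀ N : ℕ, N0 ≤ N → ∀ γ : Fin (N + 1) → ℝ,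
      ∀ θ ∈ Icc 0 (Real.log 2), ∀ θ' ∈ Icc 0 (Real.log 2), θ ≤ θ' → L9szDom 𝔹 F A (l9PtS F N γ 0) θ θ' := by
  obtain ⟨A, N0, hA, h⟩ := l9sz_dom 𝔹 F h3 he
  refine ⟨A, max N0 2, hA, fun N hN γ θ hθ θ' hθ' hle => ?_⟩
  exact h _ (l9sz_PtS_ok F hp ((le_max_right _ _).trans hN) γ ⟨le_rfl, Real.log_nonneg (by norm_num)⟩) rfl ((le_max_left _ _).trans hN)
    θ hθ θ' hθ' hle

theorem l9sz_a_pos {F : LlFix} {p : LlPt} (hp : p.Ok F) : 0 < p.a := by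
  unfold LlPt.a
  split_ifs
  · norm_num
  · linarith [hp.ell1]

/-- **admissibility of the three clocks** at every admissible point of a large dyad -/
theorem l9sz_clk (𝔹 : LlBase) (F : LlFix) (h3 : LlSec3 𝔹 F) :
    ∃ N0 : ℕ, ∀ p : LlPt, p.Ok F → N0 ≤ p.N → GhClk1 p.a (p.b F 𝔹) ∧ GhClk1 p.a (p.h F 𝔹) ∧ GhClk1 p.a (p.K F 𝔹) := by
  obtain ⟨c, C, hc, N0, hA⟩ := h3.adm
  refine ⟨N0, fun p hp hN => ?_⟩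
  obtain ⟨m1, m2, -, m4, -, hv, -⟩ := hA p hp hN
  have h0 := hv 0 ⟨le_rfl, (l9sz_a_pos hp).le⟩
  exact ⟨⟨m1, hc.le.trans h0.1⟩, ⟨m2, h0.2.2.1⟩, ⟨m4, h0.2.2.2.2⟩⟩

/-- the fine path of every chain at an admissible point of a large dyad is admissible -/
theorem l9sz_adm (𝔹 : LlBase) (F : LlFix) (h3 : LlSec3 𝔹 F) :
    ∃ N0 : ℕ, ∀ p : LlPt, p.Ok F → N0 ≤ p.N → ∀ (s : ℝ) (Fs : Finset GhPos) (m : ℕ), LlStpAdm p.a ((⟨F, 𝔹, s, Fs, m⟩ : L9I).P p) := by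
  obtain ⟨N0, h⟩ := l9sz_clk 𝔹 F h3
  refine ⟨N0, fun p hp hN s Fs m => ?_⟩
  obtain ⟨h1, h2, h3⟩ := h p hp hN
  exact l9q_I_adm ⟨F, 𝔹, s, Fs, m⟩ p (l9sz_a_pos hp).le h1 h2 h3

theorem l9sz_eqns_cite : True := by
  have := @L9szDom.K_le
  trivial

end Claimed.Agent.R286
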