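import Claimed.Agent.R286.L09.GridK
import Claimed.Agent.R286.L09.GridM
import Claimed.Agent.R286.L09.ChDQ
import Claimed.Agent.R286.L08.FineA
import Claimed.Agent.R286.L09.PhysT
import Claimed.Agent.R286.LL.Chain
import Claimed.Agent.R286.L09.GridP
import Claimed.Agent.R286.L09.RegSz
import Claimed.Agent.R286.L09.GridBS

/-!
# Row 286 (S0533), LL Sec. 9, node GRID, file KI: THE INPUT `L9gIn` OF (M) ON THE SIZE PATH, CHAIN FORM      (owner helper229; heads 263 (GRID), 226 (DD-LINK), 60; prefix `l9ki_`, `l9kiM`; 0 sorry)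

* §1 (Mathlib level, complements of `L09/GridK`)   `l9k2_bad1`: the size clock `l9k2K Ψ θ v` is Lipschitz in `θ` (no hypothesis on `Ψ'`); first order bound of the Taylor defect at ANY base point where `|Ψ'| ≤ |L1|`;
     `l9k2_km` = (A) + (B) + (C) in one statement, at EVERY `θ` (a level may sit on a kink: only `|Ψ'| ≤ |L1|` there).
* §2 THE CHAIN DICTIONARY, any chain `ps`, any clocks:   `l9kiM a ps j` = LEFT mass of the cut `j`;   `l9ki_ms`, `l9ki_pm` (`llMs`, `trPm (llMs ..)` of `l9Stp a b h K 0 0 0 ps`), `l9ki_M_mono`, `l9ki_M_mem`;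
     `l9ki_at` (a Lipschitz clock with `c 0 = 0` has `ghAt a c p = c p.u`), **`l9ki_cum`**: `llCumK (l9Stp a b h K 0 0 0 ps) j = K (l9kiM a ps (min j ps.length))`;   `l9ki_sc`, `l9ki_adm` (`SkAdm a (llSc ..)` needs the clock `K` only).
* §3 `l9ki_clk`;   `l9ki_in0` (core), `l9ki_prof_mod`, `l9ki_dif_psi`, **`l9ki_in2`** (the same at EVERY `t` where the clock values of the chain are differentiable: a level may sit on a kink);   **`l9ki_in`**: `L9gIn a (fun θ => l9Stp a (b θ) (h θ) (K θ) 0 0 0 ps) t s (C |s|) (C² |s| (|s| + mesh)) c0` for a family with `K θ = l9k2K Ψ θ` on `[0,a]` near `t` and at `t + s`.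
* §4 PATH LEVEL (no chain): `l9kiW t t' κ` = the window of the masses which cross the kink `κ` between `t` and `t'`; `l9ki_W_mem`, `l9ki_W_len`; `l9ki_kp` = Lipschitz + first order everywhere + second order off the windows.
* §5 THE PHYSICAL SIZE CLOCK: `l9ki_base` (`LkkBase` with `ξ1 = 2 z_0` from `LlcSmall`: no new field of `LlSec3`), `l9ki_prof` (`l9t2_main` of 156 on any `LkkBase`), `l9ki_K_th` (`(p.wTh θ).K F 𝔹 v = l9k2K (p.Psi5 F 𝔹) θ v`),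
     **`l9ki_kp_siz`, `l9ki_kp_top`** = the body of `L8ddKP 4 (fun t => (p.wTh t).K F 𝔹) (6 log ℓ) σ (1/3) LK C p_top 3 3` (size half of (KP), `L08/DdLink`, `l8dd_supKS` of `L08/DdExit`).
* §6 `l9ki_mesh` (mass mesh of the chains `ghPs a (l9Fl Fs)`), `l9ki_kk_mem` (kinks in `(p_top, 2]`), **`l9ki_KS : L9gKS 𝔹 F p_top`** = the K-part of the physical layer of (M) on the size segment (`L09/GridP` sec. 6, 263);
     **`l9ki_PhS : L9gPhS 𝔹 F p_top`** (with `l9g_BS` of 263) = the whole physical layer on the size segment.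
TEX[LL:paths:parameter-regularity] TEX[LL:exp:prop-low-coefficients]
-/

set_option autoImplicit false

namespace Claimed.Agent.R286

open Set Filter Topology

/-! ## 1. the bounds of `L09/GridK` at EVERY `θ` (a level may sit on a kink): only a bound of `Ψ'` at the base point is used -/

/-- **K3'** the clock is Lipschitz in `θ`;   first order bound of the Taylor defect, base point anywhere: `|Ψ'| ≤ |L1|` at the base point is all that is used -/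
theorem l9k2_bad1 (W L0 L1 L2 : ℝ) : ∃ C : ℝ, 0 ≤ C ∧ ∀ (Ψ Ψ' : ℝ → ℝ) (Kk : Finset ℝ), L9k2Prof Ψ Ψ' W L0 L1 L2 Kk →
    ∀ θ h v : ℝ, |θ| ≤ 2 → |h| ≤ 1 → 0 ≤ v → v * Real.exp (-θ / 6) < W → v * Real.exp (-(θ + h) / 6) < W →
      (|l9k2K Ψ (θ + h) v - l9k2K Ψ θ v| ≤ C * |h|) ∧
      ((0 < v * Real.exp (-θ / 6) → |Ψ' (v * Real.exp (-θ / 6))| ≤ |L1|) → |l9k2T Ψ Ψ' θ h v| ≤ C * |h|) := by
  refine ⟨Real.exp 1 * (2 * |L0| + 2 * (|L1| * |W|)), by positivity, ?_⟩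
  intro Ψ Ψ' Kk H θ h v hθ hh hv hW0 hW1
  rw [l9k2_good_w1] at hW1
  have hT : l9k2T Ψ Ψ' θ h v = Real.exp (-θ / 3) * ((Real.exp (-h / 3) - 1) * Ψ (v * Real.exp (-θ / 6) * Real.exp (-h / 6))
      + (Ψ (v * Real.exp (-θ / 6) * Real.exp (-h / 6)) - Ψ (v * Real.exp (-θ / 6)))
      + h / 3 * Ψ (v * Real.exp (-θ / 6))
      + h / 6 * (v * Real.exp (-θ / 6) * Ψ' (v * Real.exp (-θ / 6)))) := by
    unfold l9k2T l9k2Kd
    rw [l9k2_good_shift]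
    unfold l9k2K
    ring
  have hK : l9k2K Ψ (θ + h) v - l9k2K Ψ θ v = Real.exp (-θ / 3) * ((Real.exp (-h / 3) - 1) * Ψ (v * Real.exp (-θ / 6) * Real.exp (-h / 6))
      + (Ψ (v * Real.exp (-θ / 6) * Real.exp (-h / 6)) - Ψ (v * Real.exp (-θ / 6)))) := by
    rw [l9k2_good_shift]
    unfold l9k2K
    ring
  rw [hT, hK]
  have hw0 : 0 ≤ v * Real.exp (-θ / 6) := mul_nonneg hv (Real.exp_pos _).le
  rw [abs_mul, abs_mul, abs_of_pos (Real.exp_pos _), mul_assoc (Real.exp 1)]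
  generalize v * Real.exp (-θ / 6) = w0 at hW0 hW1 hw0 ⊢
  obtain ⟨-, -, e3, e4⟩ := l9k2_good_exp hh
  have hbpos : 0 < Real.exp (-h / 6) := Real.exp_pos _
  have hw1 : 0 ≤ w0 * Real.exp (-h / 6) := mul_nonneg hw0 hbpos.le
  have hWpos : 0 < W := lt_of_le_of_lt hw0 hW0
  have hWa : |W| = W := abs_of_pos hWpos
  have n0 := abs_nonneg h
  have hdw : |w0 * Real.exp (-h / 6) - w0| ≤ W * |h| := by
    have : w0 * Real.exp (-h / 6) - w0 = w0 * (Real.exp (-h / 6) - 1) := by ring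
    rw [this, abs_mul, abs_of_nonneg hw0]
    exact mul_le_mul hW0.le e4 (abs_nonneg _) hWpos.le
  have b1 : |(Real.exp (-h / 3) - 1) * Ψ (w0 * Real.exp (-h / 6))| ≤ |L0| * |h| := by
    rw [abs_mul, mul_comm]
    exact mul_le_mul ((H.bd _ ⟨hw1, hW1⟩).trans (le_abs_self _)) e3 (abs_nonneg _) (abs_nonneg _)
  have b2 : |Ψ (w0 * Real.exp (-h / 6)) - Ψ w0| ≤ |L1| * (W * |h|) :=
    (H.lip _ ⟨hw1, hW1⟩ _ ⟨hw0, hW0⟩).trans
      (mul_le_mul (le_abs_self _) hdw (abs_nonneg _) (abs_nonneg _))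
  have b3 : |h / 3 * Ψ w0| ≤ |L0| * |h| := by
    rw [abs_mul, abs_div, mul_comm]
    have : |h| / |(3 : ℝ)| ≤ |h| := by
      rw [abs_of_pos (by norm_num : (0 : ℝ) < 3)]; linarith
    exact mul_le_mul ((H.bd _ ⟨hw0, hW0⟩).trans (le_abs_self _)) this (by positivity) (abs_nonneg _)
  have t3 := abs_add_le ((Real.exp (-h / 3) - 1) * Ψ (w0 * Real.exp (-h / 6))) (Ψ (w0 * Real.exp (-h / 6)) - Ψ w0)
  have z1 : 0 ≤ |L0| * |h| := by positivity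
  have z2 : 0 ≤ |L1| * (W * |h|) := by positivity
  rw [hWa]
  constructor
  · refine mul_le_mul (l9k2_good_e3 hθ) ?_ (abs_nonneg _) (Real.exp_pos _).le
    nlinarith
  · intro hk
    have hP : |w0 * Ψ' w0| ≤ W * |L1| := by
      rcases hw0.eq_or_lt with rfl | hpos
      · simp only [zero_mul, abs_zero]; positivity
      · rw [abs_mul, abs_of_pos hpos]
        exact mul_le_mul hW0.le (hk hpos) (abs_nonneg _) hWpos.le
    have b4 : |h / 6 * (w0 * Ψ' w0)| ≤ |L1| * (W * |h|) := by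
      rw [abs_mul, abs_div]
      have : |h| / |(6 : ℝ)| ≤ |h| := by
        rw [abs_of_pos (by norm_num : (0 : ℝ) < 6)]; linarith
      calc |h| / |(6 : ℝ)| * |w0 * Ψ' w0| ≤ |h| * (W * |L1|) := mul_le_mul this hP (abs_nonneg _) n0
        _ = |L1| * (W * |h|) := by ring
    have t1 := abs_add_le ((Real.exp (-h / 3) - 1) * Ψ (w0 * Real.exp (-h / 6)) + (Ψ (w0 * Real.exp (-h / 6)) - Ψ w0)
      + h / 3 * Ψ w0) (h / 6 * (w0 * Ψ' w0))
    have t2 := abs_add_le ((Real.exp (-h / 3) - 1) * Ψ (w0 * Real.exp (-h / 6)) + (Ψ (w0 * Real.exp (-h / 6)) - Ψ w0))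
      (h / 3 * Ψ w0)
    refine mul_le_mul (l9k2_good_e3 hθ) ?_ (abs_nonneg _) (Real.exp_pos _).le
    nlinarith

/-- **K5'** = (A) + (B) + (C) of (M) for the size clock on a chain, at EVERY `θ`.   `m 0 .. m N` = masses (`m j` = the mass at which the clock value number `j` is read, `m (j+1) - m j` = its weight). -/
theorem l9k2_km (W L0 L1 L2 : ℝ) (r : ℕ) : ∃ C : ℝ, 0 ≤ C ∧ ∀ (Ψ Ψ' : ℝ → ℝ) (Kk : Finset ℝ), L9k2Prof Ψ Ψ' W L0 L1 L2 Kk → Kk.card ≤ r →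
    ∀ (N : ℕ) (m : ℕ → ℝ) (mesh θ h : ℝ), Monotone m → 0 ≤ m 0 → (∀ j, j < N → m (j + 1) - m j ≤ mesh) → 0 ≤ mesh →
      |θ| ≤ 2 → |h| ≤ 1 → (∀ j, j ≤ N → m j * Real.exp (-θ / 6) < W ∧ m j * Real.exp (-(θ + h) / 6) < W) →
      (∀ j, j < N → m j * Real.exp (-θ / 6) ∈ Kk → |Ψ' (m j * Real.exp (-θ / 6))| ≤ |L1|) →
      (∀ j, j ≤ N → |l9k2K Ψ (θ + h) (m j) - l9k2K Ψ θ (m j)| ≤ C * |h|) ∧
      ∑ j ∈ Finset.range N, (m (j + 1) - m j) * |l9k2T Ψ Ψ' θ h (m j)| ≤ C * |h| * (|h| + mesh) ∧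
      (∀ j, j ≤ N → (∀ κ ∈ Kk, κ ∉ uIcc (m j * Real.exp (-θ / 6)) (m j * Real.exp (-(θ + h) / 6))) → |l9k2T Ψ Ψ' θ h (m j)| ≤ C * h ^ 2) := by
  classical
  obtain ⟨Cg, hCg, hg⟩ := l9k2_good W L0 L1 L2
  obtain ⟨Cb, hCb, hb⟩ := l9k2_bad1 W L0 L1 L2
  have hA0 : 0 ≤ |W| * Real.exp 1 := by positivity
  have hr0 : (0 : ℝ) ≤ r := Nat.cast_nonneg r
  refine ⟨Cg * (|W| * Real.exp 1) + Cb * r * (|W| * Real.exp 1 + 1) + Cg + Cb, by positivity, ?_⟩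
  intro Ψ Ψ' Kk H hcard N m mesh θ h hm hm0 hmesh h0 hθ hh hW hkk
  have hμ : ∀ j, 0 ≤ m (j + 1) - m j := fun j => sub_nonneg.2 (hm (Nat.le_succ j))
  have hmn : ∀ j, 0 ≤ m j := fun j => hm0.trans (hm (Nat.zero_le j))
  have n0 := abs_nonneg h
  have hder : ∀ j, j < N → 0 < m j * Real.exp (-θ / 6) → |Ψ' (m j * Real.exp (-θ / 6))| ≤ |L1| := by
    intro j hj hpos
    by_cases hin : m j * Real.exp (-θ / 6) ∈ Kk
    · exact hkk j hj hin
    · exact l9k2_good_der_le H ⟨hpos, (hW j hj.le).1⟩ hin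
  have hbig : 0 ≤ Cg * (|W| * Real.exp 1) + Cb * r * (|W| * Real.exp 1 + 1) := by positivity
  refine ⟨fun j hj => ?_, ?_, fun j hj hgood => ?_⟩
  · refine (hb Ψ Ψ' Kk H θ h (m j) hθ hh (hmn j) (hW j hj).1 (hW j hj).2).1.trans ?_
    exact mul_le_mul_of_nonneg_right (by linarith) n0
  swap
  · refine (hg Ψ Ψ' Kk H θ h (m j) hθ hh (hmn j) (hW j hj).1 (hW j hj).2 hgood).trans ?_
    exact mul_le_mul_of_nonneg_right (by linarith) (sq_nonneg _)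
  -- pointwise bound
  have hpt : ∀ j ∈ Finset.range N, |l9k2T Ψ Ψ' θ h (m j)| ≤ Cg * h ^ 2
      + ∑ κ ∈ Kk, (if κ ∈ uIcc (m j * Real.exp (-θ / 6)) (m j * Real.exp (-(θ + h) / 6)) then Cb * |h| else 0) := by
    intro j hj
    have hjN : j < N := Finset.mem_range.1 hj
    have hnn : ∀ κ ∈ Kk, (0 : ℝ) ≤ (if κ ∈ uIcc (m j * Real.exp (-θ / 6)) (m j * Real.exp (-(θ + h) / 6)) then Cb * |h| else 0) := by
      intro κ _
      split_ifs
      · positivity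
      · exact le_rfl
    by_cases hgood : ∀ κ ∈ Kk, κ ∉ uIcc (m j * Real.exp (-θ / 6)) (m j * Real.exp (-(θ + h) / 6))
    · have := hg Ψ Ψ' Kk H θ h (m j) hθ hh (hmn j) (hW j hjN.le).1 (hW j hjN.le).2 hgood
      linarith [Finset.sum_nonneg hnn]
    · push Not at hgood
      obtain ⟨κ, hκ, hc⟩ := hgood
      have h1 := (hb Ψ Ψ' Kk H θ h (m j) hθ hh (hmn j) (hW j hjN.le).1 (hW j hjN.le).2).2 (hder j hjN)
      have h2 := Finset.single_le_sum hnn hκ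
      rw [if_pos hc] at h2
      have h3 : 0 ≤ Cg * h ^ 2 := by positivity
      linarith
  -- total mass
  have hmass : ∑ j ∈ Finset.range N, (m (j + 1) - m j) ≤ |W| * Real.exp 1 := by
    rw [Finset.sum_range_sub]
    have h1 := l9k2_sum_mv.1 (hW N le_rfl).1.le
    have h2 : W * Real.exp (θ / 6) ≤ |W| * Real.exp 1 :=
      mul_le_mul (le_abs_self W) (Real.exp_le_exp.2 (by linarith [(abs_le.1 hθ).2])) (Real.exp_pos _).le (abs_nonneg _)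
    linarith
  have hkink := fun κ => l9k2_sum_kink (W := W) hm hm0 hmesh h0 hθ hh hW κ
  calc ∑ j ∈ Finset.range N, (m (j + 1) - m j) * |l9k2T Ψ Ψ' θ h (m j)|
      ≤ ∑ j ∈ Finset.range N, (m (j + 1) - m j) * (Cg * h ^ 2
        + ∑ κ ∈ Kk, (if κ ∈ uIcc (m j * Real.exp (-θ / 6)) (m j * Real.exp (-(θ + h) / 6)) then Cb * |h| else 0)) :=
        Finset.sum_le_sum fun j hj => mul_le_mul_of_nonneg_left (hpt j hj) (hμ j)
    _ = Cg * h ^ 2 * ∑ j ∈ Finset.range N, (m (j + 1) - m j)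
        + ∑ κ ∈ Kk, Cb * |h| * ∑ j ∈ (Finset.range N).filter
            (fun j => κ ∈ uIcc (m j * Real.exp (-θ / 6)) (m j * Real.exp (-(θ + h) / 6))), (m (j + 1) - m j) := by
        simp only [mul_add, Finset.sum_add_distrib, Finset.mul_sum]
        congr 1
        · exact Finset.sum_congr rfl fun j _ => by ring
        · rw [Finset.sum_comm]
          refine Finset.sum_congr rfl fun κ _ => ?_
          rw [Finset.sum_filter]
          refine Finset.sum_congr rfl fun j _ => ?_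
          split_ifs <;> ring
    _ ≤ Cg * h ^ 2 * (|W| * Real.exp 1) + ∑ κ ∈ Kk, Cb * |h| * (|W| * Real.exp 1 * |h| + mesh) := by
        refine add_le_add (mul_le_mul_of_nonneg_left hmass (by positivity)) (Finset.sum_le_sum fun κ _ => ?_)
        exact mul_le_mul_of_nonneg_left (by convert hkink κ) (by positivity)
    _ = Cg * h ^ 2 * (|W| * Real.exp 1) + Kk.card * (Cb * |h| * (|W| * Real.exp 1 * |h| + mesh)) := by
        rw [Finset.sum_const, nsmul_eq_mul]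
    _ ≤ Cg * h ^ 2 * (|W| * Real.exp 1) + r * (Cb * |h| * (|W| * Real.exp 1 * |h| + mesh)) := by
        have : (Kk.card : ℝ) ≤ r := by exact_mod_cast hcard
        exact add_le_add le_rfl (mul_le_mul_of_nonneg_right this (by positivity))
    _ ≤ (Cg * (|W| * Real.exp 1) + Cb * r * (|W| * Real.exp 1 + 1)) * |h| * (|h| + mesh) := by
        have s : h ^ 2 = |h| * |h| := by rw [← sq, sq_abs]
        rw [s]
        have z1 : 0 ≤ Cg * (|W| * Real.exp 1) * |h| * mesh := by positivity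
        have z2 : 0 ≤ Cb * r * |h| * (|h| + |W| * Real.exp 1 * mesh) := by positivity
        nlinarith
    _ ≤ (Cg * (|W| * Real.exp 1) + Cb * r * (|W| * Real.exp 1 + 1) + Cg + Cb) * |h| * (|h| + mesh) := by
        have hz : 0 ≤ |h| * (|h| + mesh) := by positivity
        have hz2 : 0 ≤ (Cg + Cb) * (|h| * (|h| + mesh)) := mul_nonneg (by linarith) hz
        nlinarith

/-! ## 2. the chain dictionary -/

/-- LEFT mass of the cut `j` of the chain `ps` (`0` for `j = 0`, the mass of the position number `j - 1`, `a` after the end) -/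
noncomputable def l9kiM (a : ℝ) (ps : List GhPos) (j : ℕ) : ℝ := if j = 0 then 0 else (ps.map GhPos.u).getD (j - 1) a

theorem l9ki_eqns_cite : True := by
  have := @l9kiM.eq_1
  trivial

theorem l9ki_M_zero (a : ℝ) (ps : List GhPos) : l9kiM a ps 0 = 0 := by simp [l9kiM]

theorem l9ki_M_succ (a : ℝ) (ps : List GhPos) (j : ℕ) : l9kiM a ps (j + 1) = (ps.map GhPos.u).getD j a := by simp [l9kiM]

theorem l9ki_M_lt (a : ℝ) (ps : List GhPos) {j : ℕ} (hj : j < ps.length) : l9kiM a ps (j + 1) = ps[j].u := by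
  rw [l9ki_M_succ, List.getD_eq_getElem _ _ (by simpa using hj), List.getElem_map]

theorem l9ki_M_ge (a : ℝ) (ps : List GhPos) {j : ℕ} (hj : ps.length ≤ j) : l9kiM a ps (j + 1) = a := by
  rw [l9ki_M_succ, List.getD_eq_default _ _ (by simpa using hj)]

theorem l9ki_ms (a : ℝ) (b h K : ℝ → ℝ) (ps : List GhPos) (j : ℕ) : llMs a (l9Stp a b h K 0 0 0 ps) j = l9kiM a ps (j + 1) := by
  unfold llMs
  rw [l9d_stp_m, l9ki_M_succ, List.getD_eq_getElem?_getD]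

theorem l9ki_pm (a : ℝ) (b h K : ℝ → ℝ) (ps : List GhPos) (j : ℕ) : trPm (llMs a (l9Stp a b h K 0 0 0 ps)) j = l9kiM a ps j := by
  unfold trPm
  rcases j with _ | j
  · simp [l9kiM]
  · rw [if_neg (Nat.succ_ne_zero j), Nat.add_sub_cancel, l9ki_ms]

theorem l9ki_M_mem {a : ℝ} (ha : 0 ≤ a) {ps : List GhPos} (hok : ∀ p ∈ ps, p.Ok a) (j : ℕ) : l9kiM a ps j ∈ Icc 0 a := by
  rcases j with _ | j
  · rw [l9ki_M_zero]; exact ⟨le_rfl, ha⟩
  · by_cases hj : j < ps.length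
    · rw [l9ki_M_lt a ps hj]
      exact ⟨(hok _ (List.getElem_mem _)).1, (hok _ (List.getElem_mem _)).2.1⟩
    · rw [l9ki_M_ge a ps (not_lt.1 hj)]; exact ⟨ha, le_rfl⟩

theorem l9ki_M_mono {a : ℝ} (ha : 0 ≤ a) {ps : List GhPos} (hs : ps.Pairwise (· ≤ ·)) (hok : ∀ p ∈ ps, p.Ok a) : Monotone (l9kiM a ps) := by
  refine monotone_nat_of_le_succ fun j => ?_
  rcases j with _ | j
  · rw [l9ki_M_zero]; exact (l9ki_M_mem ha hok 1).1
  · by_cases hj : j + 1 < ps.length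
    · rw [l9ki_M_lt a ps hj, l9ki_M_lt a ps (by omega)]
      rcases (gh_os_pos_le_iff _ _).1 (List.pairwise_iff_getElem.1 hs j (j + 1) (by omega) hj (by omega)) with h | h
      · exact h.le
      · exact h.1.le
    · rw [l9ki_M_ge a ps (not_lt.1 hj)]
      exact (l9ki_M_mem ha hok (j + 1)).2

/-- a Lipschitz clock which starts at `0` has no jump: its value at a position is its value at the mass -/
theorem l9ki_at {a Lc : ℝ} (ha : 0 ≤ a) {c : ℝ → ℝ} (hc : GhClk1 a c) (h0 : c 0 = 0)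
    (hl : ∀ v ∈ Icc 0 a, ∀ v' ∈ Icc 0 a, v ≤ v' → c v' - c v ≤ Lc * (v' - v)) {p : GhPos} (hp : p.Ok a) : ghAt a c p = c p.u := by
  refine l8f_at_cont ha hc (J := ∅) (fun η hη => ?_) hp (Or.inl (by simp))
  refine ⟨η / (|Lc| + 1), by positivity, fun w w' hww hd _ => ?_⟩
  have hL : Lc * (w' - w) ≤ η := by
    have h1 : Lc * (w' - w) ≤ (|Lc| + 1) * (w' - w) := mul_le_mul_of_nonneg_right (by linarith [le_abs_self Lc]) (by linarith)
    have h2 : (|Lc| + 1) * (w' - w) ≤ (|Lc| + 1) * (η / (|Lc| + 1)) := mul_le_mul_of_nonneg_left hd (by positivity)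
    rw [mul_div_cancel₀ _ (by positivity : (|Lc| + 1) ≠ 0)] at h2
    linarith
  have hLn : 0 ≤ |Lc| + 1 := by positivity
  have key : ∀ v ∈ Icc 0 a, ∀ v' ∈ Icc 0 a, v ≤ v' → v' - v ≤ w' - w → c v' - c v ≤ η := by
    intro v hv v' hv' hvv hle
    have h1 := hl v hv v' hv' hvv
    have h2 : Lc * (v' - v) ≤ (|Lc| + 1) * (v' - v) := mul_le_mul_of_nonneg_right (by linarith [le_abs_self Lc]) (by linarith)
    have h3 : (|Lc| + 1) * (v' - v) ≤ (|Lc| + 1) * (η / (|Lc| + 1)) := mul_le_mul_of_nonneg_left (hle.trans hd) hLn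
    rw [mul_div_cancel₀ _ (by positivity : (|Lc| + 1) ≠ 0)] at h3
    linarith
  unfold ghClamp
  by_cases hw' : w' < 0
  · rw [if_pos hw', if_pos (lt_of_le_of_lt hww hw')]; linarith
  · rw [if_neg hw']
    have hw'0 : 0 ≤ w' := not_lt.1 hw'
    have m' : min w' a ∈ Icc 0 a := ⟨le_min hw'0 ha, min_le_right _ _⟩
    by_cases hw : w < 0
    · rw [if_pos hw]
      have := key 0 ⟨le_rfl, ha⟩ _ m' m'.1 (by linarith [min_le_left w' a])
      rw [h0] at this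
      exact this
    · rw [if_neg hw]
      have hw0 : 0 ≤ w := not_lt.1 hw
      have m : min w a ∈ Icc 0 a := ⟨le_min hw0 ha, min_le_right _ _⟩
      refine key _ m _ m' (min_le_min_right a hww) ?_
      rcases le_total w' a with h1 | h1
      · rw [min_eq_left h1, min_eq_left (hww.trans h1)]
      · rw [min_eq_right h1]
        rcases le_total w a with h2 | h2
        · rw [min_eq_left h2]; linarith
        · rw [min_eq_right h2]; linarith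

/-- only the scalar clock enters the scalar reference of a chain -/
theorem l9ki_sc (a : ℝ) (b h K : ℝ → ℝ) : ∀ (ps : List GhPos) (b0 h0 K0 : ℝ),
    llSc (l9Stp a b h K b0 h0 K0 ps) = llSc (l9Stp a K K K K0 K0 K0 ps)
  | [], _, _, _ => rfl
  | p :: ps, b0, h0, K0 => by
      rw [l9Stp, l9Stp]
      show _ :: llSc (l9Stp a b h K (ghAt a b p) (ghAt a h p) (ghAt a K p) ps) = _ :: llSc (l9Stp a K K K (ghAt a K p) (ghAt a K p) (ghAt a K p) ps)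
      rw [l9ki_sc a b h K ps]

theorem l9ki_adm {a : ℝ} (ha : 0 ≤ a) (b h : ℝ → ℝ) {K : ℝ → ℝ} (hK : GhClk1 a K) {ps : List GhPos}
    (hs : ps.Pairwise (· ≤ ·)) (hok : ∀ p ∈ ps, p.Ok a) : SkAdm a (llSc (l9Stp a b h K 0 0 0 ps)) := by
  rw [l9ki_sc]
  exact (l9q_stp_adm ha hK hK hK hs hok).2

/-- the cumulative scalar clock of the chain = the clock at the LEFT mass of the cut -/
theorem l9ki_cum {a Lc : ℝ} (ha : 0 ≤ a) (b h : ℝ → ℝ) {K : ℝ → ℝ} (hK : GhClk1 a K) (h0 : K 0 = 0)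
    (hl : ∀ v ∈ Icc 0 a, ∀ v' ∈ Icc 0 a, v ≤ v' → K v' - K v ≤ Lc * (v' - v)) {ps : List GhPos} (hok : ∀ p ∈ ps, p.Ok a) (j : ℕ) :
    llCumK (l9Stp a b h K 0 0 0 ps) j = K (l9kiM a ps (min j ps.length)) := by
  have hlen := l9d_stp_length a b h K ps 0 0 0
  have hle : ∀ j, j ≤ ps.length → llCumK (l9Stp a b h K 0 0 0 ps) j = K (l9kiM a ps j) := by
    intro j hj
    rcases j with _ | j
    · rw [l9ki_M_zero, h0]; simp [llCumK]
    · rw [(l8f_cum a b h K ps j hj).2.2, l9ki_M_lt a ps hj]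
      exact l9ki_at ha hK h0 hl (hok _ (List.getElem_mem _))
  rcases le_total j ps.length with hj | hj
  · rw [min_eq_left hj]; exact hle j hj
  · rw [min_eq_right hj, ← hle _ le_rfl]
    unfold llCumK
    rw [List.take_of_length_le (by rw [hlen]; exact hj), List.take_of_length_le (by rw [hlen])]

/-! ## 3. the instance of `L9gIn` -/

/-- the size clock at one parameter is a Lipschitz clock which starts at `0` -/
theorem l9ki_clk {Ψ Ψ' : ℝ → ℝ} {W L0 L1 L2 : ℝ} {Kk : Finset ℝ} (H : L9k2Prof Ψ Ψ' W L0 L1 L2 Kk) (hmo : MonotoneOn Ψ (Ico 0 W)) (h0 : Ψ 0 = 0)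
    {a θ : ℝ} (hW : a * Real.exp (-θ / 6) < W) {c : ℝ → ℝ} (hc : ∀ v ∈ Icc 0 a, c v = l9k2K Ψ θ v) (ha : 0 ≤ a) :
    GhClk1 a c ∧ c 0 = 0 ∧ ∀ v ∈ Icc 0 a, ∀ v' ∈ Icc 0 a, v ≤ v' → c v' - c v ≤ Real.exp (-θ / 3) * L1 * Real.exp (-θ / 6) * (v' - v) := by
  have he := Real.exp_pos (-θ / 6)
  have he3 := Real.exp_pos (-θ / 3)
  have hin : ∀ v ∈ Icc 0 a, v * Real.exp (-θ / 6) ∈ Ico 0 W := fun v hv =>
    ⟨mul_nonneg hv.1 he.le, lt_of_le_of_lt (mul_le_mul_of_nonneg_right hv.2 he.le) hW⟩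
  have hc0 : c 0 = 0 := by
    rw [hc 0 ⟨le_rfl, ha⟩]
    unfold l9k2K
    rw [zero_mul, h0, mul_zero]
  refine ⟨⟨fun v hv v' hv' hvv => ?_, hc0.ge⟩, hc0, fun v hv v' hv' hvv => ?_⟩
  · rw [hc v hv, hc v' hv']
    unfold l9k2K
    exact mul_le_mul_of_nonneg_left (hmo (hin v hv) (hin v' hv') (mul_le_mul_of_nonneg_right hvv he.le)) he3.le
  · rw [hc v hv, hc v' hv']
    unfold l9k2K
    have h1 := (le_abs_self _).trans (H.lip _ (hin v' hv') _ (hin v hv))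
    have e : |v' * Real.exp (-θ / 6) - v * Real.exp (-θ / 6)| = Real.exp (-θ / 6) * (v' - v) := by
      rw [← sub_mul, abs_of_nonneg (mul_nonneg (by linarith) he.le)]; ring
    rw [e] at h1
    have := mul_le_mul_of_nonneg_left h1 he3.le
    nlinarith

/-- **CORE of the instance**: at the levels of the chain the clock has the derivative `l9k2Kd Ψ Ψ' t` in `θ`; at a level which sits on a kink only `|Ψ'| ≤ |L1|` is used -/
theorem l9ki_in0 (W L0 L1 L2 : ℝ) (r : ℕ) : ∃ C : ℝ, 1 ≤ C ∧ ∀ (Ψ Ψ' : ℝ → ℝ) (Kk : Finset ℝ), L9k2Prof Ψ Ψ' W L0 L1 L2 Kk → Kk.card ≤ r →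
    MonotoneOn Ψ (Ico 0 W) → Ψ 0 = 0 →
    ∀ (a : ℝ) (ps : List GhPos), 0 < a → ps.Pairwise (· ≤ ·) → (∀ p ∈ ps, p.Ok a) →
    ∀ (b h K : ℝ → ℝ → ℝ) (t s mesh : ℝ) (c0 : ℕ), |t| ≤ 2 → |s| ≤ 1 → s ≠ 0 → 0 ≤ mesh →
      (∀ᶠ t' in 𝓝 t, ∀ v ∈ Icc 0 a, K t' v = l9k2K Ψ t' v) → (∀ v ∈ Icc 0 a, K (t + s) v = l9k2K Ψ (t + s) v) →
      a * Real.exp (-t / 6) < W → a * Real.exp (-(t + s) / 6) < W →
      (∀ j, j ≤ ps.length → l9kiM a ps (j + 1) - l9kiM a ps j ≤ mesh) →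
      (∀ j, j ≤ ps.length → HasDerivAt (fun θ => l9k2K Ψ θ (l9kiM a ps j)) (l9k2Kd Ψ Ψ' t (l9kiM a ps j)) t) →
      (∀ j, j ≤ ps.length → l9kiM a ps j * Real.exp (-t / 6) ∈ Kk → |Ψ' (l9kiM a ps j * Real.exp (-t / 6))| ≤ |L1|) →
      (∀ j, j ≤ ps.length → (j < c0 ∨ j = ps.length) →
        ∀ κ ∈ Kk, κ ∉ uIcc (l9kiM a ps j * Real.exp (-t / 6)) (l9kiM a ps j * Real.exp (-(t + s) / 6))) →
      L9gIn a (fun θ => l9Stp a (b θ) (h θ) (K θ) 0 0 0 ps) t s (C * |s|) (C ^ 2 * |s| * (|s| + mesh)) c0 := by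
  obtain ⟨C0, hC0, hkm⟩ := l9k2_km W L0 L1 L2 r
  refine ⟨C0 + 1, by linarith, ?_⟩
  intro Ψ Ψ' Kk H hcard hmo h0 a ps ha hs hok b h K t s mesh c0 ht hs1 hs0 hmesh0 hnear hfar hW0 hW1 hmesh hd0 hkk hlow
  set m := l9kiM a ps with hm
  set n := ps.length with hn
  have hmm : Monotone m := l9ki_M_mono ha.le hs hok
  have hmem : ∀ j, m j ∈ Icc 0 a := l9ki_M_mem ha.le hok
  have hWj : ∀ θ : ℝ, a * Real.exp (-θ / 6) < W → ∀ j, m j * Real.exp (-θ / 6) < W := fun θ hθ j =>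
    lt_of_le_of_lt (mul_le_mul_of_nonneg_right (hmem j).2 (Real.exp_pos _).le) hθ
  have sp : 0 < |s| := abs_pos.2 hs0
  -- the clock values of the chain
  have hval : ∀ θ : ℝ, a * Real.exp (-θ / 6) < W → (∀ v ∈ Icc 0 a, K θ v = l9k2K Ψ θ v) →
      GhClk1 a (K θ) ∧ ∀ j, llCumK (l9Stp a (b θ) (h θ) (K θ) 0 0 0 ps) j = l9k2K Ψ θ (m (min j n)) := by
    intro θ hθ hK
    obtain ⟨c1, c2, c3⟩ := l9ki_clk H hmo h0 hθ hK ha.le
    refine ⟨c1, fun j => ?_⟩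
    rw [l9ki_cum ha.le (b θ) (h θ) c1 c2 c3 hok j, hK _ (hmem _)]
  have hWev : ∀ᶠ t' in 𝓝 t, a * Real.exp (-t' / 6) < W := by
    have hc : Continuous fun t' : ℝ => a * Real.exp (-t' / 6) := by fun_prop
    exact hc.continuousAt.eventually (gt_mem_nhds hW0)
  have hev : ∀ᶠ t' in 𝓝 t, GhClk1 a (K t') ∧ ∀ j, llCumK (l9Stp a (b t') (h t') (K t') 0 0 0 ps) j = l9k2K Ψ t' (m (min j n)) := by
    filter_upwards [hWev, hnear] with t' h1 h2 using hval t' h1 h2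
  have hv0 := hev.self_of_nhds
  have hv1 := hval (t + s) hW1 hfar
  -- derivatives
  have hder : ∀ j, HasDerivAt (fun t' => llCumK (l9Stp a (b t') (h t') (K t') 0 0 0 ps) j) (l9k2Kd Ψ Ψ' t (m (min j n))) t := by
    intro j
    refine (hd0 _ (min_le_right _ _)).congr_of_eventuallyEq ?_
    filter_upwards [hev] with t' h1 using h1.2 j
  have hDK : ∀ j, l9gDK (fun θ => l9Stp a (b θ) (h θ) (K θ) 0 0 0 ps) t s j = |l9k2T Ψ Ψ' t s (m (min j n))| := by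
    intro j
    unfold l9gDK l9k2T
    rw [(hder j).deriv, hv1.2 j, hv0.2 j]
  obtain ⟨kA, kB, kC⟩ := hkm Ψ Ψ' Kk H hcard (n + 1) m mesh t s hmm (hmem 0).1 (fun j hj => hmesh j (by omega)) hmesh0 ht hs1
    (fun j _ => ⟨hWj t hW0 j, hWj (t + s) hW1 j⟩) (fun j hj hin => hkk j (Nat.lt_succ_iff.1 hj) hin)
  have hCC : C0 ≤ (C0 + 1) ^ 2 := by nlinarith
  have hz : 0 ≤ |s| * (|s| + mesh) := by positivity
  have hle : C0 * |s| * (|s| + mesh) ≤ (C0 + 1) ^ 2 * |s| * (|s| + mesh) := by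
    rw [mul_assoc, mul_assoc]; exact mul_le_mul_of_nonneg_right hCC hz
  refine ⟨ha, fun t' => ?_, ?_, ?_, fun j => (hder j).differentiableAt, by positivity, ?_, fun j => ?_, ?_, fun j hj => ?_⟩
  · show l9pM _ = l9pM _
    unfold l9pM
    rw [l9d_stp_m, l9d_stp_m]
  · filter_upwards [hev] with t' h1 using l9ki_adm ha.le _ _ h1.1 hs hok
  · exact l9ki_adm ha.le _ _ hv1.1 hs hok
  · have : (C0 + 1) ^ 2 * |s| * (|s| + mesh) = ((C0 + 1) * |s|) ^ 2 + (C0 + 1) ^ 2 * |s| * mesh := by ring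
    rw [this]
    have : 0 ≤ (C0 + 1) ^ 2 * |s| * mesh := by positivity
    linarith
  · show |llCumK (l9Stp a (b (t + s)) (h (t + s)) (K (t + s)) 0 0 0 ps) j - llCumK (l9Stp a (b t) (h t) (K t) 0 0 0 ps) j| ≤ _
    rw [hv1.2 j, hv0.2 j]
    refine (kA _ ((min_le_right _ _).trans (Nat.le_succ n))).trans ?_
    exact mul_le_mul_of_nonneg_right (by linarith) sp.le
  · refine le_trans (le_of_eq ?_) (kB.trans hle)
    show ∑ j ∈ Finset.range ((l9Stp a (b t) (h t) (K t) 0 0 0 ps).length + 1), _ = _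
    rw [l9d_stp_length]
    refine Finset.sum_congr rfl fun j hj => ?_
    have hj' : j ≤ n := Nat.lt_succ_iff.1 (Finset.mem_range.1 hj)
    rw [hDK j, min_eq_left hj', l9ki_ms, l9ki_pm]
  · rw [hDK j]
    have hlen : (l9Stp a (b t) (h t) (K t) 0 0 0 ps).length = n := l9d_stp_length _ _ _ _ _ _ _ _
    have hcase : min j n < c0 ∨ min j n = n := by
      rcases hj with h1 | h1
      · exact Or.inl (lt_of_le_of_lt (min_le_left _ _) h1)
      · right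
        have h1' : n < j := by
          have : (l9Stp a (b t) (h t) (K t) 0 0 0 ps).length < j := h1
          rwa [hlen] at this
        exact min_eq_right h1'.le
    refine (kC _ ((min_le_right _ _).trans (Nat.le_succ n)) (hlow _ (min_le_right _ _) hcase)).trans ?_
    have e : s ^ 2 = |s| * |s| := by rw [← sq, sq_abs]
    have h2 : C0 * s ^ 2 ≤ C0 * |s| * (|s| + mesh) := by
      rw [e]
      have : 0 ≤ C0 * |s| * mesh := by positivity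
      nlinarith
    exact h2.trans hle

/-- **THE INPUT `L9gIn` OF (M) ON THE SIZE PATH** (chain form of KM, DD-LINK): a family of clocks `K θ` which IS the size clock `l9k2K Ψ θ` on `[0,a]` near `t` and at `t + s`, sampled on ANY chain `ps`.
`δ = C |s|`, `ε = C² |s| (|s| + mesh)`;   `t` = a parameter at which no level of the chain sits on a kink (all but finitely many `t`);   LOW levels `j < c0` and the top level: no kink is crossed between `t` and `t + s`. -/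
theorem l9ki_in (W L0 L1 L2 : ℝ) (r : ℕ) : ∃ C : ℝ, 1 ≤ C ∧ ∀ (Ψ Ψ' : ℝ → ℝ) (Kk : Finset ℝ), L9k2Prof Ψ Ψ' W L0 L1 L2 Kk → Kk.card ≤ r →
    MonotoneOn Ψ (Ico 0 W) → Ψ 0 = 0 →
    ∀ (a : ℝ) (ps : List GhPos), 0 < a → ps.Pairwise (· ≤ ·) → (∀ p ∈ ps, p.Ok a) →
    ∀ (b h K : ℝ → ℝ → ℝ) (t s mesh : ℝ) (c0 : ℕ), |t| ≤ 2 → |s| ≤ 1 → s ≠ 0 → 0 ≤ mesh →
      (∀ᶠ t' in 𝓝 t, ∀ v ∈ Icc 0 a, K t' v = l9k2K Ψ t' v) → (∀ v ∈ Icc 0 a, K (t + s) v = l9k2K Ψ (t + s) v) →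
      a * Real.exp (-t / 6) < W → a * Real.exp (-(t + s) / 6) < W →
      (∀ j, j ≤ ps.length → l9kiM a ps (j + 1) - l9kiM a ps j ≤ mesh) →
      (∀ j, j ≤ ps.length → l9kiM a ps j * Real.exp (-t / 6) ∉ Kk) →
      (∀ j, j ≤ ps.length → (j < c0 ∨ j = ps.length) →
        ∀ κ ∈ Kk, κ ∉ uIcc (l9kiM a ps j * Real.exp (-t / 6)) (l9kiM a ps j * Real.exp (-(t + s) / 6))) →
      L9gIn a (fun θ => l9Stp a (b θ) (h θ) (K θ) 0 0 0 ps) t s (C * |s|) (C ^ 2 * |s| * (|s| + mesh)) c0 := by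
  obtain ⟨C, hC, H0⟩ := l9ki_in0 W L0 L1 L2 r
  refine ⟨C, hC, ?_⟩
  intro Ψ Ψ' Kk H hcard hmo h0 a ps ha hs hok b h K t s mesh c0 ht hs1 hs0 hmesh0 hnear hfar hW0 hW1 hmesh hnk hlow
  refine H0 Ψ Ψ' Kk H hcard hmo h0 a ps ha hs hok b h K t s mesh c0 ht hs1 hs0 hmesh0 hnear hfar hW0 hW1 hmesh (fun j hj => ?_)
    (fun j hj hin => absurd hin (hnk j hj)) hlow
  have hmem := l9ki_M_mem ha.le hok j
  exact l9k2_deriv H hmem.1 (lt_of_le_of_lt (mul_le_mul_of_nonneg_right hmem.2 (Real.exp_pos _).le) hW0) (hnk j hj)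

/-- the values of `Ψ'` at the kinks are free -/
theorem l9ki_prof_mod {Ψ Ψ' : ℝ → ℝ} {W L0 L1 L2 : ℝ} {Kk : Finset ℝ} (H : L9k2Prof Ψ Ψ' W L0 L1 L2 Kk) (g : ℝ → ℝ) [DecidablePred (· ∈ Kk)] :
    L9k2Prof Ψ (fun w => if w ∈ Kk then g w else Ψ' w) W L0 L1 L2 Kk where
  bd := H.bd
  lip := H.lip
  der := fun w hw hk => by
    simp only [if_neg hk]
    exact H.der w hw hk
  lip' := fun w w' h0 hww hW hk => by
    have k1 : w ∉ Kk := fun hc => hk w hc ⟨le_rfl, hww⟩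
    have k2 : w' ∉ Kk := fun hc => hk w' hc ⟨hww, le_rfl⟩
    simp only [if_neg k1, if_neg k2]
    exact H.lip' w w' h0 hww hW hk

/-- if the size clock at the mass `v > 0` is differentiable in `θ` then `Ψ` is differentiable at the rescaled mass -/
theorem l9ki_dif_psi {Ψ : ℝ → ℝ} {t v : ℝ} (hv : 0 < v) (hd : DifferentiableAt ℝ (fun θ => l9k2K Ψ θ v) t) :
    DifferentiableAt ℝ Ψ (v * Real.exp (-t / 6)) := by
  set w := v * Real.exp (-t / 6) with hw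
  have hw0 : 0 < w := mul_pos hv (Real.exp_pos _)
  have hθ : -6 * Real.log (w / v) = t := by
    rw [hw, mul_div_cancel_left₀ _ hv.ne', Real.log_exp]; ring
  have d0 : DifferentiableAt ℝ (fun w' : ℝ => w' / v) w := differentiableAt_fun_id.div_const v
  have d1 : DifferentiableAt ℝ (fun w' : ℝ => -6 * Real.log (w' / v)) w := (d0.log (div_pos hw0 hv).ne').const_mul _
  have d2 : DifferentiableAt ℝ (fun w' : ℝ => l9k2K Ψ (-6 * Real.log (w' / v)) v) w :=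
    DifferentiableAt.comp (g := fun θ => l9k2K Ψ θ v) w (by rw [hθ]; exact hd) d1
  have d3 : DifferentiableAt ℝ (fun w' : ℝ => Real.exp ((-6 * Real.log (w' / v)) / 3) * l9k2K Ψ (-6 * Real.log (w' / v)) v) w :=
    ((d1.div_const 3).exp).mul d2
  refine d3.congr_of_eventuallyEq ?_
  filter_upwards [lt_mem_nhds hw0] with w' hw'
  unfold l9k2K
  have e1 : v * Real.exp (-(-6 * Real.log (w' / v)) / 6) = w' := by
    have : -(-6 * Real.log (w' / v)) / 6 = Real.log (w' / v) := by ring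
    rw [this, Real.exp_log (by positivity), mul_div_cancel₀ _ hv.ne']
  rw [e1, ← mul_assoc, ← Real.exp_add]
  have : -6 * Real.log (w' / v) / 3 + -(-6 * Real.log (w' / v)) / 3 = 0 := by ring
  rw [this, Real.exp_zero, one_mul]

/-- chain rule at a point where `Ψ` has a derivative -/
theorem l9ki_deriv_at {Ψ Ψ' : ℝ → ℝ} {θ v : ℝ} (hΨ : HasDerivAt Ψ (Ψ' (v * Real.exp (-θ / 6))) (v * Real.exp (-θ / 6))) :
    HasDerivAt (fun θ => l9k2K Ψ θ v) (l9k2Kd Ψ Ψ' θ v) θ := by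
  have hE3 : HasDerivAt (fun θ : ℝ => Real.exp (-θ / 3)) (Real.exp (-θ / 3) * (-1 / 3)) θ :=
    ((hasDerivAt_id θ).neg.div_const 3).exp
  have hw : HasDerivAt (fun θ : ℝ => v * Real.exp (-θ / 6)) (v * (Real.exp (-θ / 6) * (-1 / 6))) θ :=
    (((hasDerivAt_id θ).neg.div_const 6).exp).const_mul v
  unfold l9k2Kd
  have hc : HasDerivAt (fun θ : ℝ => Ψ (v * Real.exp (-θ / 6)))
      (Ψ' (v * Real.exp (-θ / 6)) * (v * (Real.exp (-θ / 6) * (-1 / 6)))) θ := hΨ.comp θ hw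
  exact (hE3.mul hc).congr_deriv (by ring)

/-- **THE INPUT `L9gIn` OF (M) ON THE SIZE PATH, at EVERY `t` where the clock values of the chain are differentiable** (`L9I.Dif`): a level may sit on a kink. -/
theorem l9ki_in2 (W L0 L1 L2 : ℝ) (r : ℕ) : ∃ C : ℝ, 1 ≤ C ∧ ∀ (Ψ Ψ' : ℝ → ℝ) (Kk : Finset ℝ), L9k2Prof Ψ Ψ' W L0 L1 L2 Kk → Kk.card ≤ r →
    (∀ κ ∈ Kk, 0 < κ) → MonotoneOn Ψ (Ico 0 W) → Ψ 0 = 0 →
    ∀ (a : ℝ) (ps : List GhPos), 0 < a → ps.Pairwise (· ≤ ·) → (∀ p ∈ ps, p.Ok a) →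
    ∀ (b h K : ℝ → ℝ → ℝ) (t s mesh : ℝ) (c0 : ℕ), |t| ≤ 2 → |s| ≤ 1 → s ≠ 0 → 0 ≤ mesh →
      (∀ᶠ t' in 𝓝 t, ∀ v ∈ Icc 0 a, K t' v = l9k2K Ψ t' v) → (∀ v ∈ Icc 0 a, K (t + s) v = l9k2K Ψ (t + s) v) →
      a * Real.exp (-t / 6) < W → a * Real.exp (-(t + s) / 6) < W →
      (∀ j, j ≤ ps.length → l9kiM a ps (j + 1) - l9kiM a ps j ≤ mesh) →
      (∀ j, DifferentiableAt ℝ (fun t' => llCumK (l9Stp a (b t') (h t') (K t') 0 0 0 ps) j) t) →
      (∀ j, j ≤ ps.length → (j < c0 ∨ j = ps.length) →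
        ∀ κ ∈ Kk, κ ∉ uIcc (l9kiM a ps j * Real.exp (-t / 6)) (l9kiM a ps j * Real.exp (-(t + s) / 6))) →
      L9gIn a (fun θ => l9Stp a (b θ) (h θ) (K θ) 0 0 0 ps) t s (C * |s|) (C ^ 2 * |s| * (|s| + mesh)) c0 := by
  classical
  obtain ⟨C, hC, H0⟩ := l9ki_in0 W L0 L1 L2 r
  refine ⟨C, hC, ?_⟩
  intro Ψ Ψ' Kk H hcard hpos hmo h0 a ps ha hs hok b h K t s mesh c0 ht hs1 hs0 hmesh0 hnear hfar hW0 hW1 hmesh hdif hlow
  have H2 := l9ki_prof_mod H (deriv Ψ)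
  have hmem : ∀ j, l9kiM a ps j ∈ Icc 0 a := l9ki_M_mem ha.le hok
  have hWj : ∀ j, l9kiM a ps j * Real.exp (-t / 6) < W := fun j =>
    lt_of_le_of_lt (mul_le_mul_of_nonneg_right (hmem j).2 (Real.exp_pos _).le) hW0
  -- the clock at a level is differentiable
  have hWev : ∀ᶠ t' in 𝓝 t, a * Real.exp (-t' / 6) < W := by
    have hc : Continuous fun t' : ℝ => a * Real.exp (-t' / 6) := by fun_prop
    exact hc.continuousAt.eventually (gt_mem_nhds hW0)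
  have hlev : ∀ j, j ≤ ps.length → DifferentiableAt ℝ (fun θ => l9k2K Ψ θ (l9kiM a ps j)) t := by
    intro j hj
    refine (hdif j).congr_of_eventuallyEq ?_
    filter_upwards [hWev, hnear] with t' h1 h2
    obtain ⟨c1, c2, c3⟩ := l9ki_clk H hmo h0 h1 h2 ha.le
    rw [l9ki_cum ha.le (b t') (h t') c1 c2 c3 hok j, h2 _ (hmem _), min_eq_left hj]
  have hkink : ∀ j, j ≤ ps.length → l9kiM a ps j * Real.exp (-t / 6) ∈ Kk →
      HasDerivAt Ψ (deriv Ψ (l9kiM a ps j * Real.exp (-t / 6))) (l9kiM a ps j * Real.exp (-t / 6)) := by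
    intro j hj hin
    have hv : 0 < l9kiM a ps j := by
      have := hpos _ hin
      exact (pos_iff_pos_of_mul_pos this).2 (Real.exp_pos _)
    exact (l9ki_dif_psi hv (hlev j hj)).hasDerivAt
  refine H0 Ψ _ Kk H2 hcard hmo h0 a ps ha hs hok b h K t s mesh c0 ht hs1 hs0 hmesh0 hnear hfar hW0 hW1 hmesh (fun j hj => ?_)
    (fun j hj hin => ?_) hlow
  · by_cases hin : l9kiM a ps j * Real.exp (-t / 6) ∈ Kk
    · refine l9ki_deriv_at ?_
      simp only [if_pos hin]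
      exact hkink j hj hin
    · exact l9k2_deriv H2 (hmem j).1 (hWj j) hin
  · simp only [if_pos hin]
    have hw : l9kiM a ps j * Real.exp (-t / 6) ∈ Ioo 0 W := ⟨hpos _ hin, hWj j⟩
    have hh := (hkink j hj hin).le_of_lip' (abs_nonneg L1) (by
      filter_upwards [isOpen_Ioo.mem_nhds hw] with x hx
      have := H.lip x ⟨hx.1.le, hx.2⟩ _ ⟨hw.1.le, hw.2⟩
      rw [Real.norm_eq_abs, Real.norm_eq_abs]
      exact this.trans (mul_le_mul_of_nonneg_right (le_abs_self L1) (abs_nonneg _)))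
    rwa [Real.norm_eq_abs] at hh

/-! ## 4. PATH LEVEL: second order regularity of the size clock in `θ` with WINDOWS (`L8ddKP` of `L08/DdLink`, 226) -/

/-- the window of the masses which cross the kink `κ` between `t` and `t'` -/
noncomputable def l9kiW (t t' κ : ℝ) : ℝ × ℝ :=
  (min (κ * Real.exp (t / 6)) (κ * Real.exp (t' / 6)), max (κ * Real.exp (t / 6)) (κ * Real.exp (t' / 6)))

theorem l9ki_eqns_cite2 : True := by
  have := @l9kiW.eq_1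
  trivial

/-- a mass whose rescaled position crosses `κ` lies in the window -/
theorem l9ki_W_mem {t t' κ v : ℝ} (h : κ ∈ uIcc (v * Real.exp (-t / 6)) (v * Real.exp (-t' / 6))) :
    v ∈ Icc (l9kiW t t' κ).1 (l9kiW t t' κ).2 := by
  unfold l9kiW
  rcases mem_uIcc.1 h with ⟨c1, c2⟩ | ⟨c1, c2⟩
  · exact ⟨(min_le_right _ _).trans (l9k2_sum_mv.2 c2), (l9k2_sum_mv.1 c1).trans (le_max_left _ _)⟩
  · exact ⟨(min_le_left _ _).trans (l9k2_sum_mv.2 c2), (l9k2_sum_mv.1 c1).trans (le_max_right _ _)⟩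

/-- **abstract form**: constants of `(W, L0, L1, L2)` only -/
theorem l9ki_kp (W L0 L1 L2 : ℝ) : ∃ C : ℝ, 0 ≤ C ∧ ∀ (Ψ Ψ' : ℝ → ℝ) (Kk : Finset ℝ), L9k2Prof Ψ Ψ' W L0 L1 L2 Kk → (∀ w, |Ψ' w| ≤ |L1|) →
    ∀ (a t s : ℝ), |t| ≤ 2 → |s| ≤ 1 → a * Real.exp (-t / 6) < W → a * Real.exp (-(t + s) / 6) < W →
      (∀ v ∈ Icc 0 a, |l9k2K Ψ (t + s) v - l9k2K Ψ t v| ≤ C * |s|) ∧
      (∀ v ∈ Icc 0 a, |l9k2K Ψ (t + s) v - l9k2K Ψ t v - s * l9k2Kd Ψ Ψ' t v| ≤ C * |s|) ∧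
      (∀ v ∈ Icc 0 a, (∀ κ ∈ Kk, v ∉ Icc (l9kiW t (t + s) κ).1 (l9kiW t (t + s) κ).2) →
        |l9k2K Ψ (t + s) v - l9k2K Ψ t v - s * l9k2Kd Ψ Ψ' t v| ≤ C * s ^ 2) := by
  obtain ⟨Cg, hCg, hg⟩ := l9k2_good W L0 L1 L2
  obtain ⟨Cb, hCb, hb⟩ := l9k2_bad1 W L0 L1 L2
  refine ⟨Cg + Cb, by positivity, ?_⟩
  intro Ψ Ψ' Kk H hΨ' a t s ht hs hW0 hW1
  have hWv : ∀ θ : ℝ, a * Real.exp (-θ / 6) < W → ∀ v ∈ Icc 0 a, v * Real.exp (-θ / 6) < W := fun θ hθ v hv =>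
    lt_of_le_of_lt (mul_le_mul_of_nonneg_right hv.2 (Real.exp_pos _).le) hθ
  have n0 := abs_nonneg s
  refine ⟨fun v hv => ?_, fun v hv => ?_, fun v hv hout => ?_⟩
  · exact (hb Ψ Ψ' Kk H t s v ht hs hv.1 (hWv t hW0 v hv) (hWv _ hW1 v hv)).1.trans (mul_le_mul_of_nonneg_right (by linarith) n0)
  · exact ((hb Ψ Ψ' Kk H t s v ht hs hv.1 (hWv t hW0 v hv) (hWv _ hW1 v hv)).2 fun _ => hΨ' _).trans
      (mul_le_mul_of_nonneg_right (by linarith) n0)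
  · exact (hg Ψ Ψ' Kk H t s v ht hs hv.1 (hWv t hW0 v hv) (hWv _ hW1 v hv) fun κ hκ hc => hout κ hκ (l9ki_W_mem hc)).trans
      (mul_le_mul_of_nonneg_right (by linarith) (sq_nonneg _))

/-- size of a window -/
theorem l9ki_W_len {t s κ : ℝ} (hκ : 0 ≤ κ) (hs : |s| ≤ 1) :
    (l9kiW t (t + s) κ).1 ≤ (l9kiW t (t + s) κ).2 ∧ (l9kiW t (t + s) κ).2 - (l9kiW t (t + s) κ).1 ≤ κ * Real.exp (t / 6) * |s| := by
  unfold l9kiW
  refine ⟨min_le_max, ?_⟩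
  rw [max_sub_min_eq_abs]
  have e : κ * Real.exp ((t + s) / 6) - κ * Real.exp (t / 6) = κ * Real.exp (t / 6) * (Real.exp (s / 6) - 1) := by
    rw [add_div, Real.exp_add]; ring
  rw [e, abs_mul, abs_of_nonneg (mul_nonneg hκ (Real.exp_pos _).le)]
  refine mul_le_mul_of_nonneg_left ?_ (mul_nonneg hκ (Real.exp_pos _).le)
  have a6 : |s / 6| = |s| / 6 := by rw [abs_div]; norm_num
  refine (Real.abs_exp_sub_one_le (by rw [a6]; linarith)).trans ?_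
  rw [a6]; linarith [abs_nonneg s]

/-! ## 5. the physical size clock -/

/-- `LkkBase` with `ξ1 = 2 z_0` from the smallness record of the LL chain (`LlcSmall`, 246): NO new field of `LlSec3` is needed -/
theorem l9ki_base {𝔹 : LlBase} {F : LlFix} (hb : LlBaseProfile 𝔹 F.T) (hF : F.Ok) (hS : LlcSmall 𝔹 F) :
    ∃ ca Ca : ℝ, LkkBase (𝔹.A0 F.T) (𝔹.xiS F.T) (𝔹.pTop F.T) ca Ca (2 * F.z0) := by
  obtain ⟨ca, Ca, ξ1, hB⟩ := lkk_base 𝔹 F.T hb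
  obtain ⟨cA, hcA, hd⟩ := hS.z0d
  have hz := hF.z00
  exact ⟨cA, Ca, ⟨hB.pT0, hB.pT1, hcA, hB.Ca0, by linarith, by linarith [hS.z0s], hB.mono, hB.zero, hB.top, hB.lt_top, hB.rc, hd, hB.hi⟩⟩

/-- `l9t2_main` of 156 with the threshold of `z_0` read on ANY record `LkkBase` -/
theorem l9ki_prof {𝔹 : LlBase} {F : LlFix} (hb : LlBaseProfile 𝔹 F.T) (hF : F.Ok) {ca Ca ξ1 : ℝ}
    (hB : LkkBase (𝔹.A0 F.T) (𝔹.xiS F.T) (𝔹.pTop F.T) ca Ca ξ1) (hz : F.z0 ≤ ξ1) :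
    ∃ (a1 : ℝ → ℝ) (L : ℝ), 0 ≤ L ∧ LlUnif F fun p =>
      L9k2Prof (p.Psi5 F 𝔹) (p.Psd5 F 𝔹 a1) 5 p.M (1 / p.om) (L / p.om ^ 3) (p.Kk5 F 𝔹) ∧
        (∀ w, |p.Psd5 F 𝔹 a1 w| ≤ 1 / p.om) ∧ p.Psi5 F 𝔹 0 = 0 ∧ (p.Kk5 F 𝔹).card ≤ 3 ∧ 𝔹.xiS F.T + p.om < p.M ∧
        MonotoneOn (p.Psi5 F 𝔹) (Iic 5) := by
  obtain ⟨a0, a1, hdir⟩ := l9t2_dir 𝔹 F.T hb
  obtain ⟨L, hL⟩ := hdir F hF rfl (hz.trans hB.x1s.le)
  obtain ⟨LP, hP⟩ := lkk_cut F hF
  obtain ⟨N1, hN1⟩ := lkk_lam_small hF (ε := ca / 2 / (LP + 1)) (by have := hP.LP0; have := hB.ca0; positivity)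
  obtain ⟨N2, hN2⟩ := lkk_M_large (𝔹.xiS F.T + 1)
  refine ⟨a1, L, (hL 0 le_rfl zero_le_one).L0, max N1 N2, fun p hp hN => ?_⟩
  have hl0 := (lkk_lam_pos hp).le
  have hl1 : p.lam ≤ 1 := hp.lam_hi.trans (Real.rpow_le_one (lkk_x_pos hp.N2).le (lkk_x_lt_one hp.N2).le hF.pS0.le)
  have ho := lkk_om_pos hp.N2
  have hM : 𝔹.xiS F.T + p.om < p.M := by
    have := hN2 p hp.N2 ((le_max_right _ _).trans hN)
    have := lkk_om_le_one hp.N2
    linarith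
  have hJ : 1 + p.om * p.M ≤ 5 := by have := lkk_omM hp.N2; linarith
  have hl : p.lam * LP ≤ ca / 2 := by
    have a1 := hN1 p hp ((le_max_left _ _).trans hN)
    have hLP := hP.LP0
    have a2 : p.lam * (LP + 1) ≤ ca / 2 := by rwa [le_div_iff₀ (by linarith)] at a1
    nlinarith
  exact ⟨l9t2_prof_abs hB hP hz hl0 hl ho hM hJ (hL p.lam hl0 hl1), l9t2_psd_le hB hP hz hl0 hl ho hM hJ (hL p.lam hl0 hl1),
    l9t2_psi_zero hB hP hz hl0 hl ho hM hJ, l9t2_kk_card _ _ _ _, hM, lpq_inv_monoOn (lkk_sm_prof hB hP hz hl0 hl ho (by linarith) hJ)⟩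

/-- the clock of a smoothed point at the size coordinate `θ` -/
theorem l9ki_K_th (p : LlPt) (F : LlFix) (𝔹 : LlBase) (hsm : p.sm = true) {θ v : ℝ} (hv : v ≤ 4) (hw : v * Real.exp (-θ / 6) ≤ 5) :
    (p.wTh θ).K F 𝔹 v = l9k2K (p.Psi5 F 𝔹) θ v := by
  have e1 : (p.wTh θ).ell = Real.exp (θ / 6) := rfl
  have e2 : v / Real.exp (θ / 6) = v * Real.exp (-θ / 6) := by rw [div_eq_mul_inv, ← Real.exp_neg]; congr 2; ring
  have e3 : (Real.exp (θ / 6) ^ 2)⁻¹ = Real.exp (-θ / 3) := by rw [← Real.exp_nat_mul, ← Real.exp_neg]; congr 1; push_cast; ring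
  rw [l9t2_K_eq _ F 𝔹 (show (p.wTh θ).sm = true from hsm) (by rw [e1]; exact Real.exp_pos _) hv (by rw [e1, e2]; exact hw), e1, e2, e3]
  rfl

theorem l9ki_two_sixth : (2 : ℝ) ^ (1 / 6 : ℝ) < 3 / 2 := by
  by_contra hc
  have h1 : ((2 : ℝ) ^ (1 / 6 : ℝ)) ^ 6 = 2 := by
    rw [← Real.rpow_natCast, ← Real.rpow_mul (by norm_num)]; norm_num
  have h2 : ((3 : ℝ) / 2) ^ 6 ≤ ((2 : ℝ) ^ (1 / 6 : ℝ)) ^ 6 := pow_le_pow_left₀ (by norm_num) (not_lt.1 hc) 6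
  rw [h1] at h2
  norm_num at h2

/-- **(KP), SIZE HALF** = the body of `L8ddKP 4 (fun t => (p.wTh t).K F 𝔹) (6 log ℓ) σ (1/3) LK C p_top 3 3` (`L08/DdLink`, 226), constants of `N` only. -/
theorem l9ki_kp_siz {𝔹 : LlBase} {F : LlFix} (hb : LlBaseProfile 𝔹 F.T) (hF : F.Ok) {ca Ca ξ1 : ℝ}
    (hB : LkkBase (𝔹.A0 F.T) (𝔹.xiS F.T) (𝔹.pTop F.T) ca Ca ξ1) (hz : F.z0 ≤ ξ1) :
    ∃ N0 : ℕ, ∀ N, N0 ≤ N → ∃ LK C : ℝ, 0 ≤ LK ∧ 0 ≤ C ∧ ∀ p : LlPt, p.N = N → p.Ok F → p.sm = true → ∀ σ : ℝ, |σ| = 1 →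
      (∀ h, 0 ≤ h → h ≤ 1 / 3 → (p.wTh (6 * Real.log p.ell + σ * h)).Ok F) →
      ∃ Kd : ℝ → ℝ, ∀ h, 0 < h → h ≤ 1 / 3 →
        (∀ v ∈ Icc (0 : ℝ) 4, |(p.wTh (6 * Real.log p.ell + σ * h)).K F 𝔹 v - (p.wTh (6 * Real.log p.ell)).K F 𝔹 v| ≤ LK * h) ∧
        (∀ v ∈ Icc (0 : ℝ) 4, |(p.wTh (6 * Real.log p.ell + σ * h)).K F 𝔹 v - (p.wTh (6 * Real.log p.ell)).K F 𝔹 v - σ * h * Kd v| ≤ C * h) ∧
        ∃ W : Finset (ℝ × ℝ), W.card ≤ 3 ∧ (∀ w ∈ W, w.1 ≤ w.2 ∧ w.2 - w.1 ≤ C * h ∧ 𝔹.pTop F.T < w.1 ∧ w.2 < 3) ∧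
          ∀ v ∈ Icc (0 : ℝ) 4, (∀ w ∈ W, v ∉ Icc w.1 w.2) →
            |(p.wTh (6 * Real.log p.ell + σ * h)).K F 𝔹 v - (p.wTh (6 * Real.log p.ell)).K F 𝔹 v - σ * h * Kd v| ≤ C * h ^ 2 := by
  classical
  obtain ⟨a1, L, hL, N1, hN1⟩ := l9ki_prof hb hF hB hz
  refine ⟨N1, fun N hN => ?_⟩
  obtain ⟨C0, hC0, hkp⟩ := l9ki_kp 5 (Real.log (1 / (N : ℝ) ^ (-(1 / 6) : ℝ)) ^ 3) (1 / ((N : ℝ) ^ (-(1 / 6) : ℝ)) ^ (5 + 1 / 4 : ℝ))
    (L / (((N : ℝ) ^ (-(1 / 6) : ℝ)) ^ (5 + 1 / 4 : ℝ)) ^ 3)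
  refine ⟨C0, C0 + 3, hC0, by positivity, fun p hpN hp hsm σ hσ hside => ?_⟩
  have eom : ((N : ℝ) ^ (-(1 / 6) : ℝ)) ^ (5 + 1 / 4 : ℝ) = p.om := by unfold LlPt.om LlPt.x; rw [hpN]
  have eM : Real.log (1 / (N : ℝ) ^ (-(1 / 6) : ℝ)) ^ 3 = p.M := by unfold LlPt.M LlPt.x; rw [hpN]
  rw [eom, eM] at hkp
  obtain ⟨H, hΨ', -, hcard, hM, -⟩ := hN1 p hp (by rw [hpN]; exact hN)
  have ho := lkk_om_pos hp.N2
  have hoM := lkk_omM hp.N2
  have hxs := hb.xi_pos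
  have hpT := hb.pTop_mem
  set t0 := 6 * Real.log p.ell with ht0
  refine ⟨l9k2Kd (p.Psi5 F 𝔹) (p.Psd5 F 𝔹 a1) t0, fun h hh hh1 => ?_⟩
  -- the two parameters
  have hrange : ∀ h', 0 ≤ h' → h' ≤ 1 / 3 → 1 ≤ Real.exp ((t0 + σ * h') / 6) ∧ Real.exp ((t0 + σ * h') / 6) < 3 / 2 := fun h' a b =>
    ⟨(hside h' a b).ell1, lt_of_le_of_lt (hside h' a b).ell2 l9ki_two_sixth⟩
  have r0 := hrange 0 le_rfl (by norm_num)
  rw [mul_zero, add_zero] at r0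
  have r1 := hrange h hh.le hh1
  have hneg : ∀ θ : ℝ, 1 ≤ Real.exp (θ / 6) → Real.exp (-θ / 6) ≤ 1 := by
    intro θ hθ
    rw [neg_div, Real.exp_neg]
    exact inv_le_one_of_one_le₀ hθ
  have hK : ∀ θ : ℝ, 1 ≤ Real.exp (θ / 6) → ∀ v ∈ Icc (0 : ℝ) 4, (p.wTh θ).K F 𝔹 v = l9k2K (p.Psi5 F 𝔹) θ v := by
    intro θ hθ v hv
    refine l9ki_K_th p F 𝔹 hsm hv.2 ?_
    have := mul_le_mul hv.2 (hneg θ hθ) (Real.exp_pos _).le (by norm_num : (0 : ℝ) ≤ 4)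
    linarith
  have hW : ∀ θ : ℝ, 1 ≤ Real.exp (θ / 6) → 4 * Real.exp (-θ / 6) < 5 := fun θ hθ => by have := hneg θ hθ; linarith
  have ht2 : |t0| ≤ 2 := by
    have h1 : 0 ≤ t0 / 6 := by
      have := Real.log_nonneg r0.1
      rwa [Real.log_exp] at this
    have h2 : t0 / 6 ≤ 1 / 6 := by
      have h3 : Real.exp (t0 / 6) ≤ (2 : ℝ) ^ (1 / 6 : ℝ) := by
        have := (hside 0 le_rfl (by norm_num)).ell2
        rwa [mul_zero, add_zero] at this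
      have h4 := Real.log_le_log (Real.exp_pos _) h3
      rw [Real.log_exp, Real.log_rpow (by norm_num)] at h4
      have := Real.log_two_lt_d9
      linarith
    rw [abs_le]; constructor <;> linarith
  have hs : |σ * h| = h := by rw [abs_mul, hσ, one_mul, abs_of_pos hh]
  have hs2 : (σ * h) ^ 2 = h ^ 2 := by rw [← sq_abs, hs]
  obtain ⟨k1, k2, k3⟩ := hkp _ _ _ H (fun w => (hΨ' w).trans (le_abs_self _)) 4 t0 (σ * h) ht2 (by rw [hs]; linarith) (hW _ r0.1) (hW _ r1.1)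
  rw [hs] at k1 k2
  rw [hs2] at k3
  have hkk : ∀ κ ∈ p.Kk5 F 𝔹, 𝔹.pTop F.T < κ ∧ κ ≤ 2 := by
    intro κ hκ
    unfold LlPt.Kk5 l9t2Kk at hκ
    simp only [Finset.mem_insert, Finset.mem_singleton] at hκ
    have q1 : 0 < p.om * 𝔹.xiS F.T := mul_pos ho hxs
    have q2 : p.om * 𝔹.xiS F.T ≤ p.om * p.M := mul_le_mul_of_nonneg_left (by linarith) ho.le
    have q3 : p.om * (𝔹.xiS F.T + p.om) ≤ p.om * p.M := mul_le_mul_of_nonneg_left hM.le ho.le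
    have q4 : 0 < p.om * (𝔹.xiS F.T + p.om) := mul_pos ho (by linarith)
    have q5 : 0 < p.om * p.M := lt_of_lt_of_le q1 q2
    rcases hκ with rfl | rfl | rfl
    · exact ⟨by linarith, by linarith [hpT.2]⟩
    · exact ⟨by linarith [hpT.2], by linarith⟩
    · exact ⟨by linarith [hpT.2], by linarith⟩
  refine ⟨fun v hv => ?_, fun v hv => ?_, (p.Kk5 F 𝔹).image (l9kiW t0 (t0 + σ * h)), Finset.card_image_le.trans hcard, fun w hw => ?_, fun v hv hout => ?_⟩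
  · rw [hK _ r1.1 v hv, hK _ r0.1 v hv]; exact k1 v hv
  · rw [hK _ r1.1 v hv, hK _ r0.1 v hv]
    exact (k2 v hv).trans (mul_le_mul_of_nonneg_right (by linarith) hh.le)
  · obtain ⟨κ, hκ, rfl⟩ := Finset.mem_image.1 hw
    obtain ⟨c1, c2⟩ := hkk κ hκ
    have hκ0 : 0 < κ := hpT.1.trans c1
    obtain ⟨l1, l2⟩ := l9ki_W_len (t := t0) (s := σ * h) hκ0.le (by rw [hs]; linarith)
    rw [hs] at l2
    refine ⟨l1, l2.trans ?_, ?_, ?_⟩
    · have : κ * Real.exp (t0 / 6) ≤ 2 * (3 / 2) := mul_le_mul c2 r0.2.le (Real.exp_pos _).le (by norm_num)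
      exact mul_le_mul_of_nonneg_right (by linarith) hh.le
    · unfold l9kiW
      refine lt_min ?_ ?_
      · exact lt_of_lt_of_le c1 (le_mul_of_one_le_right hκ0.le r0.1)
      · exact lt_of_lt_of_le c1 (le_mul_of_one_le_right hκ0.le r1.1)
    · unfold l9kiW
      refine max_lt ?_ ?_
      · have : κ * Real.exp (t0 / 6) < 2 * (3 / 2) := by
          calc κ * Real.exp (t0 / 6) < κ * (3 / 2) := mul_lt_mul_of_pos_left r0.2 hκ0
            _ ≤ 2 * (3 / 2) := mul_le_mul_of_nonneg_right c2 (by norm_num)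
        linarith
      · have : κ * Real.exp ((t0 + σ * h) / 6) < 2 * (3 / 2) := by
          calc κ * Real.exp ((t0 + σ * h) / 6) < κ * (3 / 2) := mul_lt_mul_of_pos_left r1.2 hκ0
            _ ≤ 2 * (3 / 2) := mul_le_mul_of_nonneg_right c2 (by norm_num)
        linarith
  · rw [hK _ r1.1 v hv, hK _ r0.1 v hv]
    refine (k3 v hv fun κ hκ => hout _ (Finset.mem_image_of_mem _ hκ)).trans ?_
    exact mul_le_mul_of_nonneg_right (by linarith) (sq_nonneg _)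

/-- **(KP), SIZE HALF, from the records of the LL chain**: `v_l = p_top` -/
theorem l9ki_kp_top {𝔹 : LlBase} {F : LlFix} (hb : LlBaseProfile 𝔹 F.T) (hF : F.Ok) (hS : LlcSmall 𝔹 F) :
    ∃ N0 : ℕ, ∀ N, N0 ≤ N → ∃ LK C : ℝ, 0 ≤ LK ∧ 0 ≤ C ∧ ∀ p : LlPt, p.N = N → p.Ok F → p.sm = true → ∀ σ : ℝ, |σ| = 1 →
      (∀ h, 0 ≤ h → h ≤ 1 / 3 → (p.wTh (6 * Real.log p.ell + σ * h)).Ok F) →
      ∃ Kd : ℝ → ℝ, ∀ h, 0 < h → h ≤ 1 / 3 →
        (∀ v ∈ Icc (0 : ℝ) 4, |(p.wTh (6 * Real.log p.ell + σ * h)).K F 𝔹 v - (p.wTh (6 * Real.log p.ell)).K F 𝔹 v| ≤ LK * h) ∧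
        (∀ v ∈ Icc (0 : ℝ) 4, |(p.wTh (6 * Real.log p.ell + σ * h)).K F 𝔹 v - (p.wTh (6 * Real.log p.ell)).K F 𝔹 v - σ * h * Kd v| ≤ C * h) ∧
        ∃ W : Finset (ℝ × ℝ), W.card ≤ 3 ∧ (∀ w ∈ W, w.1 ≤ w.2 ∧ w.2 - w.1 ≤ C * h ∧ 𝔹.pTop F.T < w.1 ∧ w.2 < 3) ∧
          ∀ v ∈ Icc (0 : ℝ) 4, (∀ w ∈ W, v ∉ Icc w.1 w.2) →
            |(p.wTh (6 * Real.log p.ell + σ * h)).K F 𝔹 v - (p.wTh (6 * Real.log p.ell)).K F 𝔹 v - σ * h * Kd v| ≤ C * h ^ 2 := by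
  obtain ⟨ca, Ca, hB⟩ := l9ki_base hb hF hS
  exact l9ki_kp_siz hb hF hB (by linarith [hF.z00])

/-! ## 6. THE K-PART OF THE PHYSICAL LAYER OF (M), SIZE SEGMENT (`L9gKS` of 263) -/

/-- mass mesh of the chains in use -/
theorem l9ki_mesh {μ : ℝ} (hμ : 0 < μ) : ∀ᶠ Fs : Finset GhPos in atTop, ∀ a : ℝ, 0 < a → a ≤ 4 →
    ∀ j, j ≤ (ghPs a (l9Fl Fs)).length → l9kiM a (ghPs a (l9Fl Fs)) (j + 1) - l9kiM a (ghPs a (l9Fl Fs)) j ≤ μ := by
  obtain ⟨n, hn⟩ := exists_nat_ge (4 / μ)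
  have hn4 : 4 ≤ (n : ℝ) * μ := by rwa [div_le_iff₀ hμ] at hn
  refine eventually_atTop.2 ⟨l8fReq μ n 1 ∅ 0, fun Fs hFs a ha ha4 j hj => ?_⟩
  have hFs' : l8fReq μ n 1 ∅ 0 ⊆ l9Fl Fs := by
    intro q hq
    exact l9_fl_mem.2 ⟨hFs hq, l8f_req_fl (Finset.notMem_empty _) q hq⟩
  have hf : L8fFine a μ 1 ∅ (ghPs a (l9Fl Fs)) := l8f_fine_of_req hμ hn4 ha4 hFs'
  have h0 : ghPosA 0 ∈ ghPs a (l9Fl Fs) := l8f_req_zero ha.le hFs'
  have hne : ghPs a (l9Fl Fs) ≠ [] := List.ne_nil_of_mem h0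
  rw [l9ki_M_succ]
  unfold l9kiM
  refine l8f_gap hf.lt (fun p p' hn => l8f_next_mass hf one_pos hμ.le hn) (fun p l hpl => ?_) (fun p hp hmx => ?_) hne j hj
  · have h1 : p ≤ ghPosA 0 := by
      rw [hpl] at h0
      rcases List.mem_cons.1 h0 with h | h
      · exact h.ge
      · have := hf.lt
        rw [hpl] at this
        exact ((List.pairwise_cons.1 this).1 _ h).le
    rcases (gh_os_pos_le_iff _ _).1 h1 with h | h
    · exact (le_of_lt h).trans hμ.le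
    · rw [h.1]; exact hμ.le
  · by_contra hcon
    push Not at hcon
    obtain ⟨g, hg1, hg2, hg⟩ := hf.grid p.u a (hf.ok p hp).1 le_rfl hcon
    have h1 := hmx _ hg
    rcases (gh_os_pos_le_iff _ _).1 h1 with h | h
    · exact absurd h (not_lt.2 hg1.le)
    · exact absurd h.1 (ne_of_gt hg1)

/-- the kinks lie in `(p_top, 2]` -/
theorem l9ki_kk_mem {𝔹 : LlBase} {F : LlFix} (hb : LlBaseProfile 𝔹 F.T) {p : LlPt} (hN2 : 2 ≤ p.N) (hM : 𝔹.xiS F.T + p.om < p.M) :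
    ∀ κ ∈ p.Kk5 F 𝔹, 𝔹.pTop F.T < κ ∧ κ ≤ 2 := by
  intro κ hκ
  have ho := lkk_om_pos hN2
  have hoM := lkk_omM hN2
  have hxs := hb.xi_pos
  have hpT := hb.pTop_mem
  unfold LlPt.Kk5 l9t2Kk at hκ
  simp only [Finset.mem_insert, Finset.mem_singleton] at hκ
  have q1 : 0 < p.om * 𝔹.xiS F.T := mul_pos ho hxs
  have q2 : p.om * 𝔹.xiS F.T ≤ p.om * p.M := mul_le_mul_of_nonneg_left (by linarith) ho.le
  have q3 : p.om * (𝔹.xiS F.T + p.om) ≤ p.om * p.M := mul_le_mul_of_nonneg_left hM.le ho.le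
  have q4 : 0 < p.om * (𝔹.xiS F.T + p.om) := mul_pos ho (by linarith)
  have q5 : 0 < p.om * p.M := lt_of_lt_of_le q1 q2
  rcases hκ with rfl | rfl | rfl
  · exact ⟨by linarith, by linarith [hpT.2]⟩
  · exact ⟨by linarith [hpT.2], by linarith⟩
  · exact ⟨by linarith [hpT.2], by linarith⟩

theorem l9ki_exp_rg {θ : ℝ} (h0 : -1 ≤ θ) (h1 : θ ≤ Real.log 2) : 5 / 6 ≤ Real.exp (-θ / 6) ∧ Real.exp (-θ / 6) ≤ 6 / 5 := by
  have l2 := Real.log_two_lt_d9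
  constructor
  · have := Real.add_one_le_exp (-θ / 6)
    linarith
  · have h2 : 5 / 6 ≤ Real.exp (θ / 6) := by
      have := Real.add_one_le_exp (θ / 6)
      linarith
    have e : Real.exp (-θ / 6) = (Real.exp (θ / 6))⁻¹ := by rw [← Real.exp_neg]; congr 1; ring
    rw [e]
    calc (Real.exp (θ / 6))⁻¹ ≤ (5 / 6 : ℝ)⁻¹ := inv_anti₀ (by norm_num) h2
      _ = 6 / 5 := by norm_num

/-- **K-PART, SIZE SEGMENT**: `L9gKS 𝔹 F p_top` (`L09/GridP` sec. 6, 263), from the records of the LL chain -/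
theorem l9ki_KS {𝔹 : LlBase} {F : LlFix} (hb : LlBaseProfile 𝔹 F.T) (hF : F.Ok) (hS : LlcSmall 𝔹 F) (hp12 : F.pS ≤ 12) :
    L9gKS 𝔹 F (𝔹.pTop F.T) := by
  classical
  intro K0
  obtain ⟨ca, Ca, hB⟩ := l9ki_base hb hF hS
  obtain ⟨a1, L, hL, N1, hN1⟩ := l9ki_prof hb hF hB (by linarith [hF.z00])
  refine ⟨max 2 N1, fun N hN => ?_⟩
  have hN2 : 2 ≤ N := (le_max_left _ _).trans hN
  set p0 : LlPt := l9PtS F N (fun _ => 0) 0 with hp0
  obtain ⟨C, hC, hin⟩ := l9ki_in2 5 p0.M (1 / p0.om) (L / p0.om ^ 3) 3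
  have hx : 0 < skX N ^ K0 := by
    unfold skX
    exact Real.rpow_pos_of_pos (Real.rpow_pos_of_pos (by exact_mod_cast (by omega : 0 < N)) _) _
  have hC0 : 0 < C := by linarith
  set μ : ℝ := min 1 (skX N ^ K0 / (2 * C ^ 2)) with hμd
  have hμ : 0 < μ := lt_min one_pos (by positivity)
  have hμ1 : μ ≤ 1 := min_le_left _ _
  have hμ2 : 2 * C ^ 2 * μ ≤ skX N ^ K0 := by
    have := min_le_right 1 (skX N ^ K0 / (2 * C ^ 2))
    rw [← hμd, le_div_iff₀ (by positivity)] at this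
    linarith
  refine ⟨C, μ, hC0, hμ, fun h hne hh => ?_⟩
  filter_upwards [l9ki_mesh hμ] with Fs hFs
  intro s m γ θ hθ hθh hD c0 hc0
  set p : LlPt := l9PtS F N γ θ with hp
  have hpOk : p.Ok F := l9sz_PtS_ok F hp12 hN2 γ hθ
  obtain ⟨H, -, hz, hcard, hM, hmo⟩ := hN1 p hpOk ((le_max_right _ _).trans hN)
  have hkk := l9ki_kk_mem hb hpOk.N2 hM
  have hpT := hb.pTop_mem
  set ps := ghPs 4 (l9Fl Fs) with hps
  have hsorted : ps.Pairwise (· ≤ ·) := (gh_os_ps_lt 4 (l9Fl Fs)).imp fun h => h.le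
  have hok : ∀ q ∈ ps, q.Ok 4 := fun q hq => (gh_os_ps_mem.1 hq).2
  have hmesh := hFs 4 (by norm_num) le_rfl
  have l2 := Real.log_two_lt_d9
  have r0 := l9ki_exp_rg (by linarith [hθ.1]) hθ.2
  have r1 := l9ki_exp_rg (by linarith [hθh.1]) hθh.2
  have u0 : Real.exp (-θ / 6) ≤ 1 := Real.exp_le_one_iff.2 (by linarith [hθ.1])
  have u1 : Real.exp (-(θ + h) / 6) ≤ 1 := Real.exp_le_one_iff.2 (by linarith [hθh.1])
  have hmm : Monotone (l9kiM 4 ps) := l9ki_M_mono (by norm_num) hsorted hok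
  have hmem : ∀ j, l9kiM 4 ps j ∈ Icc (0 : ℝ) 4 := l9ki_M_mem (by norm_num) hok
  have key := hin (p.Psi5 F 𝔹) (p.Psd5 F 𝔹 a1) (p.Kk5 F 𝔹) H hcard (fun κ hκ => hpT.1.trans (hkk κ hκ).1) (hmo.mono fun w hw => hw.2.le) hz
    4 ps (by norm_num) hsorted hok (fun t' => (l9PtS F N γ t').b F 𝔹) (fun t' => (l9PtS F N γ t').h F 𝔹) (fun t' => (l9PtS F N γ t').K F 𝔹)
    θ h μ c0 (by rw [abs_le]; constructor <;> linarith [hθ.1, hθ.2]) (hh.trans hμ1) hne hμ.le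
    (by
      filter_upwards [lt_mem_nhds (show -1 < θ by linarith [hθ.1]), gt_mem_nhds (show θ < 1 by linarith [hθ.2])] with t' ht' ht'' v hv
      refine l9t2_K_siz F 𝔹 N γ t' θ hv.2 ?_
      have e : Real.exp (-t' / 6) ≤ 6 / 5 := by
        have h2 : 5 / 6 ≤ Real.exp (t' / 6) := by
          have := Real.add_one_le_exp (t' / 6)
          linarith
        have e : Real.exp (-t' / 6) = (Real.exp (t' / 6))⁻¹ := by rw [← Real.exp_neg]; congr 1; ring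
        rw [e]
        calc (Real.exp (t' / 6))⁻¹ ≤ (5 / 6 : ℝ)⁻¹ := inv_anti₀ (by norm_num) h2
          _ = 6 / 5 := by norm_num
      have := mul_le_mul hv.2 e (Real.exp_pos _).le (by norm_num : (0 : ℝ) ≤ 4)
      linarith)
    (fun v hv => l9t2_K_siz F 𝔹 N γ (θ + h) θ hv.2 (by
      have := mul_le_mul hv.2 u1 (Real.exp_pos _).le (by norm_num : (0 : ℝ) ≤ 4)
      linarith))
    (by linarith) (by linarith) hmesh (fun j => (hD j).2.2)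
    (by
      intro j hj hcase κ hκ hmemU
      obtain ⟨k1, k2⟩ := hkk κ hκ
      have hm0 := (hmem j).1
      rcases hcase with hlt | rfl
      · -- low level
        have h1 : l9kiM 4 ps j ≤ 𝔹.pTop F.T := by
          refine (hmm hlt.le).trans ?_
          rw [← l9ki_pm 4 (p.b F 𝔹) (p.h F 𝔹) (p.K F 𝔹)]
          exact hc0
        have a0 : l9kiM 4 ps j * Real.exp (-θ / 6) ≤ l9kiM 4 ps j := mul_le_of_le_one_right hm0 u0
        have a1 : l9kiM 4 ps j * Real.exp (-(θ + h) / 6) ≤ l9kiM 4 ps j := mul_le_of_le_one_right hm0 u1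
        rcases mem_uIcc.1 hmemU with ⟨_, c⟩ | ⟨_, c⟩ <;> linarith
      · -- top level
        have h1 : 3 ≤ l9kiM 4 ps ps.length := by
          have := hmesh ps.length le_rfl
          rw [l9ki_M_ge 4 ps le_rfl] at this
          linarith
        have a0 : 3 * (5 / 6) ≤ l9kiM 4 ps ps.length * Real.exp (-θ / 6) := mul_le_mul h1 r0.1 (by norm_num) hm0
        have a1 : 3 * (5 / 6) ≤ l9kiM 4 ps ps.length * Real.exp (-(θ + h) / 6) := mul_le_mul h1 r1.1 (by norm_num) hm0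
        rcases mem_uIcc.1 hmemU with ⟨c, _⟩ | ⟨c, _⟩ <;> linarith)
  have hab := abs_pos.2 hne
  have e1 : C ^ 2 * |h| * (|h| + μ) ≤ |h| * skX N ^ K0 := by
    have : C ^ 2 * (|h| + μ) ≤ skX N ^ K0 := by nlinarith [sq_nonneg C]
    calc C ^ 2 * |h| * (|h| + μ) = |h| * (C ^ 2 * (|h| + μ)) := by ring
      _ ≤ |h| * skX N ^ K0 := mul_le_mul_of_nonneg_left this hab.le
  refine key.mono le_rfl e1 (le_trans ?_ e1)
  have : 0 ≤ C ^ 2 * |h| * μ := by positivity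
  nlinarith

/-- **THE PHYSICAL LAYER OF (M), SIZE SEGMENT, COMPLETE**: K-part (`l9ki_KS`) + `b`-part (`l9g_BS` of 263, `L09/GridBS`);   `v_1 = p_top` -/
theorem l9ki_PhS {𝔹 : LlBase} {F : LlFix} (hb : LlBaseProfile 𝔹 F.T) (hE : LlExpOk F.sS F.eta F.pS) (hTop : LlcTop3 𝔹 F) : L9gPhS 𝔹 F (𝔹.pTop F.T) :=
  l9g_phS_of (l9ki_KS hb hTop.sec3.ok hTop.small (by linarith [hE.p_hi])) (l9g_BS 𝔹 F hE hTop.sec3)

end Claimed.Agent.R286
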