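import Claimed.Agent.R286.L09.RedTab

/-!
# Row 286 (S0533), LL Sec. 9, node RED: AT LEAST TWO CHANGES      (owner helper282; prefix `l9r`)

TEX[LL:exp:prop-low-coefficients] l.459-468: "Expand a product as projected factors plus changes.  Terms with just one change have zero conditional mean,
so every error contains at least two changes."
* `l9r_holder`      : generalised Hoelder for finite probability weights (AM-GM form).
* `l9r_nu_holder`   : the same under `X.nu q τ`.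
* `l9r_two_changes` : `|ν_τ[∏ Δ] - ν_{τ ∧ c}[∏ Δ]| ≤ ∑_{|A| ≥ 2} ∏_A ζ ∏_{R \ A} E`.
PROOF of the last: on the doubled table `l9rBig` put `F i` = pair `i` on the originals, `F' i` = on the copies, `G = F - F'`;   `∏ F = ∑_A ∏_A G ∏_{R \ A} F'` (`Finset.prod_add`);
`A = ∅` gives `ν_{τ ∧ c}`;   `A = {i}`: `ν[F i ∏ F'] = ν[∏ F']` since BOTH restricted tables are `τ ∧ c` (`l9r_big_mixed`);   `|A| ≥ 2`: Hoelder + marginals (`l9r_big_four`, `l9r_pair_two`).
-/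

set_option autoImplicit false

namespace Claimed.Agent.R286

open scoped BigOperators

/-- AM-GM: `∏ a_i ≤ (1/r) ∑ a_i^r`, `r` = number of factors -/
theorem l9r_amgm (R : Finset ℕ) (hr1 : 1 ≤ R.card) (a : ℕ → ℝ) (ha : ∀ i ∈ R, 0 ≤ a i) :
    ∏ i ∈ R, a i ≤ (R.card : ℝ)⁻¹ * ∑ i ∈ R, a i ^ R.card := by
  have hr0 : (0 : ℝ) < R.card := by exact_mod_cast hr1
  have h := Real.geom_mean_le_arith_mean_weighted R (fun _ => (R.card : ℝ)⁻¹) (fun i => a i ^ R.card)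
    (fun i _ => (inv_pos.2 hr0).le) (by rw [Finset.sum_const, nsmul_eq_mul]; field_simp)
    (fun i hi => pow_nonneg (ha i hi) _)
  have e : ∏ i ∈ R, (a i ^ R.card) ^ ((R.card : ℝ)⁻¹) = ∏ i ∈ R, a i := by
    refine Finset.prod_congr rfl fun i hi => ?_
    rw [← Real.rpow_natCast, ← Real.rpow_mul (ha i hi), mul_inv_cancel₀ hr0.ne', Real.rpow_one]
  rw [e] at h
  rw [Finset.mul_sum]
  exact h

/-- generalised Hoelder inequality, exponent = number of factors -/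
theorem l9r_holder_eq {Ω : Type} [Fintype Ω] (w : Ω → ℝ) (hw : ∀ ω, 0 ≤ w ω) (R : Finset ℕ)
    (hr1 : 1 ≤ R.card) (Y : ℕ → Ω → ℝ) (α : ℕ → ℝ) (hα : ∀ i ∈ R, 0 ≤ α i)
    (h : ∀ i ∈ R, ∑ ω, w ω * |Y i ω| ^ R.card ≤ α i ^ R.card) :
    |∑ ω, w ω * ∏ i ∈ R, Y i ω| ≤ ∏ i ∈ R, α i := by
  have hr0 : (0 : ℝ) < R.card := by exact_mod_cast hr1
  by_cases hz : ∃ i ∈ R, α i = 0
  · obtain ⟨i0, hi0, h0⟩ := hz
    have h1 := h i0 hi0
    rw [h0, zero_pow (by omega)] at h1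
    have h2 : ∀ ω, w ω * |Y i0 ω| ^ R.card = 0 := by
      have := (Finset.sum_eq_zero_iff_of_nonneg (s := Finset.univ) (f := fun ω => w ω * |Y i0 ω| ^ R.card)
        (fun ω _ => mul_nonneg (hw ω) (pow_nonneg (abs_nonneg _) _))).1 (le_antisymm h1
          (Finset.sum_nonneg fun ω _ => mul_nonneg (hw ω) (pow_nonneg (abs_nonneg _) _)))
      exact fun ω => this ω (Finset.mem_univ ω)
    have h3 : ∀ ω, w ω * ∏ i ∈ R, Y i ω = 0 := by
      intro ω
      rcases mul_eq_zero.1 (h2 ω) with e | e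
      · rw [e, zero_mul]
      · have : Y i0 ω = 0 := by
          have := pow_eq_zero_iff (n := R.card) (by omega) |>.1 e
          exact abs_eq_zero.1 this
        rw [Finset.prod_eq_zero hi0 this, mul_zero]
    simp only [h3, Finset.sum_const_zero, abs_zero]
    exact Finset.prod_nonneg hα
  · push Not at hz
    have hpos : ∀ i ∈ R, 0 < α i := fun i hi => lt_of_le_of_ne (hα i hi) (Ne.symm (hz i hi))
    have hP : 0 < ∏ i ∈ R, α i := Finset.prod_pos hpos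
    have key : ∀ ω, w ω * ∏ i ∈ R, |Y i ω| ≤ (∏ i ∈ R, α i) * ((R.card : ℝ)⁻¹ * ∑ i ∈ R, (w ω * |Y i ω| ^ R.card) / α i ^ R.card) := by
      intro ω
      have h1 := l9r_amgm R hr1 (fun i => |Y i ω| / α i) (fun i hi => div_nonneg (abs_nonneg _) (hα i hi))
      rw [Finset.prod_div_distrib, div_le_iff₀ hP] at h1
      calc w ω * ∏ i ∈ R, |Y i ω| ≤ w ω * ((R.card : ℝ)⁻¹ * ∑ i ∈ R, (|Y i ω| / α i) ^ R.card * ∏ i ∈ R, α i) := by
            refine mul_le_mul_of_nonneg_left ?_ (hw ω)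
            rw [← Finset.sum_mul, ← mul_assoc]
            exact h1
        _ = _ := by
            rw [← Finset.sum_mul]
            simp only [div_pow, mul_div_assoc]
            rw [← Finset.mul_sum]
            ring
    calc |∑ ω, w ω * ∏ i ∈ R, Y i ω| ≤ ∑ ω, |w ω * ∏ i ∈ R, Y i ω| := Finset.abs_sum_le_sum_abs _ _
      _ = ∑ ω, w ω * ∏ i ∈ R, |Y i ω| := by
          refine Finset.sum_congr rfl fun ω _ => ?_
          rw [abs_mul, abs_of_nonneg (hw ω), Finset.abs_prod]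
      _ ≤ ∑ ω, (∏ i ∈ R, α i) * ((R.card : ℝ)⁻¹ * ∑ i ∈ R, (w ω * |Y i ω| ^ R.card) / α i ^ R.card) :=
          Finset.sum_le_sum fun ω _ => key ω
      _ = (∏ i ∈ R, α i) * ((R.card : ℝ)⁻¹ * ∑ i ∈ R, (∑ ω, w ω * |Y i ω| ^ R.card) / α i ^ R.card) := by
          rw [← Finset.mul_sum, ← Finset.mul_sum, Finset.sum_comm]
          simp only [Finset.sum_div]
      _ ≤ (∏ i ∈ R, α i) * ((R.card : ℝ)⁻¹ * ∑ i ∈ R, 1) := by
          refine mul_le_mul_of_nonneg_left (mul_le_mul_of_nonneg_left (Finset.sum_le_sum fun i hi => ?_) (inv_pos.2 hr0).le) hP.le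
          rw [div_le_one (pow_pos (hpos i hi) _)]
          exact h i hi
      _ = ∏ i ∈ R, α i := by
          rw [Finset.sum_const, nsmul_eq_mul, mul_one, inv_mul_cancel₀ hr0.ne', mul_one]

/-- generalised Hoelder inequality, finite probability space -/
theorem l9r_holder {Ω : Type} [Fintype Ω] (w : Ω → ℝ) (hw : ∀ ω, 0 ≤ w ω) (hs : ∑ ω, w ω = 1) (R : Finset ℕ) (r : ℕ)
    (hr : R.card ≤ r) (hr1 : 1 ≤ r) (Y : ℕ → Ω → ℝ) (α : ℕ → ℝ) (hα : ∀ i ∈ R, 0 ≤ α i)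
    (h : ∀ i ∈ R, ∑ ω, w ω * |Y i ω| ^ r ≤ α i ^ r) :
    |∑ ω, w ω * ∏ i ∈ R, Y i ω| ≤ ∏ i ∈ R, α i := by
  classical
  obtain ⟨R', hsub, hcard⟩ := Infinite.exists_superset_card_eq R r hr
  have h1 := l9r_holder_eq w hw R' (by omega) (fun i ω => if i ∈ R then Y i ω else 1) (fun i => if i ∈ R then α i else 1)
    (fun i _ => by by_cases hi : i ∈ R <;> simp [hi, hα]) (fun i _ => by
      rw [hcard]
      by_cases hi : i ∈ R
      · simpa [hi] using h i hi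
      · simp [hi, hs])
  have e1 : ∀ ω, ∏ i ∈ R', (if i ∈ R then Y i ω else 1) = ∏ i ∈ R, Y i ω := by
    intro ω
    rw [Finset.prod_ite_mem, Finset.inter_eq_right.2 hsub]
  have e2 : ∏ i ∈ R', (if i ∈ R then α i else 1) = ∏ i ∈ R, α i := by
    rw [Finset.prod_ite_mem, Finset.inter_eq_right.2 hsub]
  simpa only [e1, e2] using h1

section
variable {S : Type} [Fintype S] [Inhabited S] {X : JtCtx S}

/-- generalised Hoelder inequality under a positive law -/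
theorem l9r_nu_holder (hX : L9rPos X) {q : ℕ} {τ : ℕ → ℕ → ℕ} (hτ : IsTr X.N q τ) (R : Finset ℕ) (r : ℕ)
    (hr : R.card ≤ r) (hr1 : 1 ≤ r) (Y : ℕ → (ℕ → S) → ℝ) (α : ℕ → ℝ) (hα : ∀ i ∈ R, 0 ≤ α i)
    (h : ∀ i ∈ R, X.nu q τ (fun σ => |Y i σ| ^ r) ≤ α i ^ r) :
    |X.nu q τ fun σ => ∏ i ∈ R, Y i σ| ≤ ∏ i ∈ R, α i := by
  obtain ⟨w, hw, hs, hrep⟩ := hX.rep q τ hτ
  rw [hrep]
  exact l9r_holder w hw hs R r hr hr1 (fun i σ => Y i (trExt σ)) α hα fun i hi => by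
    have := h i hi
    rwa [hrep] at this

/-- linearity: finite sums -/
theorem l9r_nu_sum (hX : L9rPos X) {q : ℕ} {τ : ℕ → ℕ → ℕ} (hτ : IsTr X.N q τ) {ι : Type} (s : Finset ι) (P : ι → (ℕ → S) → ℝ) :
    X.nu q τ (fun σ => ∑ a ∈ s, P a σ) = ∑ a ∈ s, X.nu q τ (P a) := by
  obtain ⟨w, -, -, hrep⟩ := hX.rep q τ hτ
  simp only [hrep, Finset.mul_sum]
  rw [Finset.sum_comm]

/-- linearity: differences -/
theorem l9r_nu_sub (hX : L9rPos X) {q : ℕ} {τ : ℕ → ℕ → ℕ} (hτ : IsTr X.N q τ) (P P' : (ℕ → S) → ℝ) :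
    X.nu q τ (fun σ => P σ - P' σ) = X.nu q τ P - X.nu q τ P' := by
  obtain ⟨w, -, -, hrep⟩ := hX.rep q τ hτ
  simp only [hrep, mul_sub, Finset.sum_sub_distrib]

/-- marginal along a map of labels, table identified on the labels -/
theorem l9r_nu_pull (hX : L9rPos X) {q p : ℕ} {T T' : ℕ → ℕ → ℕ} (hT : IsTr X.N q T) (f : ℕ → ℕ) (hf : ∀ x, x < p → f x < q)
    (hag : L9aAg p (fun x y => T (f x) (f y)) T') (P : (ℕ → S) → ℝ) (hP : TrUses p P) :
    X.nu q T (fun σ => P fun x => σ (f x)) = X.nu p T' P := by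
  rw [hX.comap q p T hT f hf P hP, hX.congr p _ T' P hag]

/-- the product of the pair tests with FROZEN split depths `v` -/
def l9rP (X : JtCtx S) (R : Finset ℕ) (v : ℕ → ℕ) : (ℕ → S) → ℝ := fun σ =>
  ∏ i ∈ R, (X.msk (v i) * X.ov (σ (2 * i)) (σ (2 * i + 1)) - X.qC (v i))

omit [Fintype S] [Inhabited S] in
theorem l9r_P_uses (X : JtCtx S) {R : Finset ℕ} {n : ℕ} (hR : ∀ i ∈ R, 2 * i + 1 < n) (v : ℕ → ℕ) : TrUses n (l9rP X R v) := by
  intro σ σ' h
  unfold l9rP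
  refine Finset.prod_congr rfl fun i hi => ?_
  rw [h (2 * i) (by have := hR i hi; omega), h (2 * i + 1) (hR i hi)]

omit [Fintype S] [Inhabited S] in
theorem l9r_num_eq (X : JtCtx S) (R : Finset ℕ) (n : ℕ) (τ : ℕ → ℕ → ℕ) (v : ℕ → ℕ) (hv : ∀ i ∈ R, τ (2 * i) (2 * i + 1) = v i) :
    l9rNum X R n τ = X.nu n τ (l9rP X R v) := by
  unfold l9rNum l9rP
  congr 1
  funext σ
  refine Finset.prod_congr rfl fun i hi => ?_
  simp only [JtCtx.Dl, JtCtx.Qs, hv i hi]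

/-- **at least two changes** -/
theorem l9r_two_changes (hX : L9rPos X) {n r : ℕ} {R : Finset ℕ} (hR : ∀ i ∈ R, 2 * i + 1 < n) (hr : R.card ≤ r) (hr1 : 1 ≤ r)
    {τ : ℕ → ℕ → ℕ} (hτ : IsTr X.N n τ) {c : ℕ} (hc : c ≤ X.N + 1) (hv : ∀ i ∈ R, τ (2 * i) (2 * i + 1) ≤ c)
    (ζ E : ℕ → ℝ) (hζ0 : ∀ i ∈ R, 0 ≤ ζ i) (hE0 : ∀ i ∈ R, 0 ≤ E i)
    (hζ : ∀ i ∈ R, L9rChg X r (τ (2 * i) (2 * i + 1)) c (ζ i))
    (hE : ∀ i ∈ R, L9rEnv X r (τ (2 * i) (2 * i + 1)) (E i)) :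
    |l9rNum X R n τ - l9rNum X R n (l9rTc n c τ)| ≤ l9rBd R ζ E := by
  classical
  obtain ⟨v, hvd⟩ : ∃ v : ℕ → ℕ, v = fun i => τ (2 * i) (2 * i + 1) := ⟨_, rfl⟩
  have hvi : ∀ i, τ (2 * i) (2 * i + 1) = v i := fun i => by rw [hvd]
  obtain ⟨𝕋, h𝕋d⟩ : ∃ 𝕋, 𝕋 = l9rBig X.N n c τ := ⟨_, rfl⟩
  have h𝕋 : IsTr X.N (2 * n) 𝕋 := h𝕋d ▸ l9r_big_isTr hτ c
  -- the factors
  let F' : ℕ → (ℕ → S) → ℝ := fun i σ => X.msk (v i) * X.ov (σ (n + (2 * i))) (σ (n + (2 * i + 1))) - X.qC (v i)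
  let G : ℕ → (ℕ → S) → ℝ := fun i σ => X.msk (v i) * (X.ov (σ (2 * i)) (σ (2 * i + 1)) - X.ov (σ (n + (2 * i))) (σ (n + (2 * i + 1))))
  let T : Finset ℕ → ℝ := fun A => X.nu (2 * n) 𝕋 fun σ => (∏ i ∈ A, G i σ) * ∏ i ∈ R \ A, F' i σ
  have hPu := l9r_P_uses X hR v
  have hcut : l9rNum X R n (l9rTc n c τ) = X.nu n (l9rTc n c τ) (l9rP X R v) :=
    l9r_num_eq X R n _ v fun i hi => by rw [l9r_tc_pair τ (hR i hi) (hv i hi), hvi]
  -- originals
  have e0 : l9rNum X R n τ = X.nu (2 * n) 𝕋 fun σ => ∏ i ∈ R, (G i σ + F' i σ) := by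
    rw [l9r_num_eq X R n τ v fun i _ => hvi i,
      ← l9r_nu_pull hX h𝕋 (fun x => x) (fun x hx => by omega) (h𝕋d ▸ l9r_big_orig hτ c) _ hPu]
    congr 1
    funext σ
    refine Finset.prod_congr rfl fun i _ => ?_
    simp only [G, F']
    ring
  -- mixed restrictions
  have emix : ∀ (A : ℕ → Prop) [DecidablePred A], (∀ x y, x < n → y < n → A x → A y → x ≠ y → τ x y ≤ c) →
      X.nu (2 * n) 𝕋 (fun σ => l9rP X R v fun x => σ (if A x then x else n + x)) = l9rNum X R n (l9rTc n c τ) := by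
    intro A _ hA
    rw [hcut]
    exact l9r_nu_pull hX h𝕋 (fun x => if A x then x else n + x) (fun x hx => by split_ifs <;> omega)
      (h𝕋d ▸ l9r_big_mixed hτ hc A hA) _ hPu
  -- the empty set
  have hT0 : T ∅ = l9rNum X R n (l9rTc n c τ) := by
    rw [← emix (fun _ => False) (fun x y _ _ h => h.elim)]
    simp only [T, Finset.prod_empty, one_mul, Finset.sdiff_empty, if_false]
    rfl
  -- one change
  have hT1 : ∀ i0 ∈ R, T {i0} = 0 := by
    intro i0 hi0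
    have h1 := emix (fun x => x = 2 * i0 ∨ x = 2 * i0 + 1) (by
      intro x y _ _ hx hy hxy
      have h0 : 2 * i0 < n := by have := hR i0 hi0; omega
      rcases hx with rfl | rfl <;> rcases hy with rfl | rfl
      · exact absurd rfl hxy
      · exact hv i0 hi0
      · rw [hτ.symm _ _ (hR i0 hi0) h0]; exact hv i0 hi0
      · exact absurd rfl hxy)
    have h2 : (fun σ : ℕ → S => l9rP X R v fun x => σ (if (x = 2 * i0 ∨ x = 2 * i0 + 1) then x else n + x))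
        = fun σ => (G i0 σ + F' i0 σ) * ∏ i ∈ R \ {i0}, F' i σ := by
      funext σ
      unfold l9rP
      rw [← Finset.mul_prod_erase R _ hi0, Finset.sdiff_singleton_eq_erase]
      congr 1
      · simp only [G, F', true_or, or_true, if_true]
        ring
      · refine Finset.prod_congr rfl fun i hi => ?_
        have hne : i ≠ i0 := (Finset.mem_erase.1 hi).1
        have c1 : ¬ (2 * i = 2 * i0 ∨ 2 * i = 2 * i0 + 1) := by omega
        have c2 : ¬ (2 * i + 1 = 2 * i0 ∨ 2 * i + 1 = 2 * i0 + 1) := by omega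
        simp only [c1, c2, if_false, F']
    have h3 : (fun σ : ℕ → S => (∏ i ∈ R \ (∅ : Finset ℕ), F' i σ)) = fun σ => F' i0 σ * ∏ i ∈ R \ {i0}, F' i σ := by
      funext σ
      rw [Finset.sdiff_empty, ← Finset.mul_prod_erase R _ hi0, Finset.sdiff_singleton_eq_erase]
    have h4 : T ∅ = X.nu (2 * n) 𝕋 fun σ => F' i0 σ * ∏ i ∈ R \ {i0}, F' i σ := by
      simp only [T, Finset.prod_empty, one_mul]
      rw [h3]
    have h5 : T {i0} = X.nu (2 * n) 𝕋 (fun σ => (G i0 σ + F' i0 σ) * ∏ i ∈ R \ {i0}, F' i σ)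
        - X.nu (2 * n) 𝕋 (fun σ => F' i0 σ * ∏ i ∈ R \ {i0}, F' i σ) := by
      rw [← l9r_nu_sub hX h𝕋]
      simp only [T, Finset.prod_singleton]
      congr 1
      funext σ
      ring
    rw [h5, ← h4, hT0, ← h2, h1, sub_self]
  -- the bound of one term
  have hTb : ∀ A ∈ R.powerset, |T A| ≤ (∏ i ∈ A, ζ i) * ∏ i ∈ R \ A, E i := by
    intro A hA
    have hAR : A ⊆ R := Finset.mem_powerset.1 hA
    have hb := l9r_nu_holder hX h𝕋 R r hr hr1 (fun i σ => if i ∈ A then G i σ else F' i σ) (fun i => if i ∈ A then ζ i else E i)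
      (fun i hi => by by_cases h : i ∈ A <;> simp [h, hζ0 i hi, hE0 i hi]) (fun i hi => by
        by_cases h : i ∈ A
        · simp only [h, if_true]
          have h1 := hζ i hi
          unfold L9rChg at h1
          rw [← l9r_nu_pull hX h𝕋 (l9rF4 n i) (l9r_f4_lt (hR i hi)) (h𝕋d ▸ l9r_big_four hτ hc (hR i hi) (hv i hi)) _
            (by intro σ σ' hσ; simp only [hσ 0 (by omega), hσ 1 (by omega), hσ 2 (by omega), hσ 3 (by omega)])] at h1
          simpa [l9rF4, G, hvi] using h1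
        · simp only [h, if_false]
          have h1 := hE i hi
          unfold L9rEnv at h1
          rw [← l9r_nu_pull hX h𝕋 (fun x => n + (2 * i + x)) (fun x hx => by have := hR i hi; omega)
            (h𝕋d ▸ l9r_big_two hτ (hR i hi) (hv i hi)) _
            (by intro σ σ' hσ; simp only [hσ 0 (by omega), hσ 1 (by omega)])] at h1
          simpa [F', hvi] using h1)
    have e1 : ∀ σ : ℕ → S, ∏ i ∈ R, (if i ∈ A then G i σ else F' i σ) = (∏ i ∈ A, G i σ) * ∏ i ∈ R \ A, F' i σ := by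
      intro σ
      rw [Finset.prod_ite, Finset.filter_mem_eq_inter, Finset.inter_eq_right.2 hAR, Finset.filter_notMem_eq_sdiff]
    have e2 : ∏ i ∈ R, (if i ∈ A then ζ i else E i) = (∏ i ∈ A, ζ i) * ∏ i ∈ R \ A, E i := by
      rw [Finset.prod_ite, Finset.filter_mem_eq_inter, Finset.inter_eq_right.2 hAR, Finset.filter_notMem_eq_sdiff]
    simp only [e1, e2] at hb
    exact hb
  -- assembly
  have hsum : l9rNum X R n τ = ∑ A ∈ R.powerset, T A := by
    rw [e0]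
    simp only [Finset.prod_add]
    exact l9r_nu_sum hX h𝕋 _ _
  have hsplit : ∑ A ∈ R.powerset, T A = ∑ A ∈ R.powerset.filter (fun A => 2 ≤ A.card), T A + T ∅ := by
    rw [← Finset.sum_filter_add_sum_filter_not R.powerset (fun A => 2 ≤ A.card)]
    congr 1
    refine Finset.sum_eq_single_of_mem ∅ (by simp) fun A hA hne => ?_
    obtain ⟨hA1, hA2⟩ := Finset.mem_filter.1 hA
    have hc1 : A.card = 1 := by
      have : A.card ≠ 0 := fun h => hne (Finset.card_eq_zero.1 h)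
      omega
    obtain ⟨i0, rfl⟩ := Finset.card_eq_one.1 hc1
    exact hT1 i0 (Finset.mem_powerset.1 hA1 (Finset.mem_singleton_self i0))
  rw [hsum, hsplit, hT0, add_sub_cancel_right]
  unfold l9rBd
  exact (Finset.abs_sum_le_sum_abs _ _).trans (Finset.sum_le_sum fun A hA => hTb A (Finset.mem_filter.1 hA).1)

end

end Claimed.Agent.R286
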