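import Claimed.Agent.R286.L09.Contract
import Claimed.Agent.R286.L09.Lsc
import Claimed.Agent.R286.LL04.Asm

/-!
# Row 286 (S0533), unit L09 (LL Sec. 9 + 10), file FIN: THE NODES OF `L09/Contract` GIVE THE CORE `L9Inc`      (owner helper216; head of the unit helper60; prefix `l9f_`)

`l9_fin` : TRS + BndS + TRD + BndD + Coarse + Switch + Mom + Reg  ⟹  `L9Inc 𝔹 F`      (LL Sec. 10, l.150-230).      0 sorry.

1. abstract measure theory (measurability of the stopped speeds, domination, averages over `γ`);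
2. the points: `ll04Dir F N ell 0 γ τ = l9PtL N ell γ (l9T F N (ll04U 1 τ))`, chain rule `τ ↔ t = log λ` (`l9f_dir0_deriv`), removal of the clamps at interior points;
3. numerics (`x^(5+c) x^(-δ) x^(-δ) ≤ x^(5+c0)`, `|log x| ≤ x^(-δ)/δ`);
4. the direct segments;   5. the size segment (envelope form, then `ll04e_main` of 258/245);   6. the choice of the constants.
-/

set_option autoImplicit false

namespace Claimed.Agent.R286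

open MeasureTheory Set Filter
open scoped ENNReal

/-! ### 1. abstract lemmas -/

/-- measurability of the stopped speed -/
theorem l9f_meas_D {k : ℕ} (ψ : (Fin k → ℝ) → ℝ → ℝ) (hc : Continuous fun z : (Fin k → ℝ) × ℝ => ψ z.1 z.2) (κ A : ℝ) :
    Measurable (l9sD ψ κ A) := by
  classical
  unfold l9sD
  refine Measurable.ite ?_ ?_ measurable_const
  · exact measurableSet_le ((continuous_const.mul hc).measurable) measurable_const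
  · have h := measurable_deriv_with_param (f := ψ) (by simpa [Function.uncurry_def] using hc)
    exact (continuous_abs.measurable.comp h)

/-- measurability of the stopped combination (I) -/
theorem l9f_meas_S {k : ℕ} (ψ : (Fin k → ℝ) → ℝ → ℕ → ℝ) (s A : ℝ) (r : ℕ) (c : ℕ → ℝ) (m : ℕ)
    (hc : ∀ j ∈ Finset.range (r + 1), Continuous fun z : (Fin k → ℝ) × ℝ => ψ z.1 z.2 (m + j)) :
    Measurable (l9sS ψ s A r c m) := by
  classical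
  unfold l9sS
  refine Measurable.ite ?_ ?_ measurable_const
  · have : {a : (Fin k → ℝ) × ℝ | ∀ j ∈ Finset.range (r + 1), s * ((m + j : ℕ) : ℝ) * ψ a.1 a.2 (m + j) ≤ A}
        = ⋂ j ∈ Finset.range (r + 1), {a : (Fin k → ℝ) × ℝ | s * ((m + j : ℕ) : ℝ) * ψ a.1 a.2 (m + j) ≤ A} := by
      ext a; simp
    rw [this]
    refine Finset.measurableSet_biInter _ fun j hj => ?_
    exact measurableSet_le ((continuous_const.mul (hc j hj)).measurable) measurable_const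
  · have h0 : Continuous fun z : (Fin k → ℝ) × ℝ => ψ z.1 z.2 m := by
      simpa using hc 0 (by simp)
    have h := measurable_deriv_with_param (f := fun γ θ => ψ γ θ m) (by simpa [Function.uncurry_def] using h0)
    refine continuous_abs.measurable.comp (h.add ?_)
    refine Finset.measurable_sum _ fun j hj => ?_
    exact ((continuous_const.mul (continuous_const.mul (hc j hj))).measurable)

theorem l9f_D_nonneg {Ω : Type} (ψ : Ω → ℝ → ℝ) (κ A : ℝ) (p : Ω × ℝ) : 0 ≤ l9sD ψ κ A p := by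
  classical
  unfold l9sD; split_ifs <;> simp

theorem l9f_S_nonneg {Ω : Type} (ψ : Ω → ℝ → ℕ → ℝ) (s A : ℝ) (r : ℕ) (c : ℕ → ℝ) (m : ℕ) (p : Ω × ℝ) : 0 ≤ l9sS ψ s A r c m p := by
  classical
  unfold l9sS; split_ifs <;> simp

/-- a nonnegative measurable function dominated a.e. in the second variable (for all values of the first one) by an integrable function of the second variable -/
theorem l9f_int_of_dom {Ω : Type} [MeasurableSpace Ω] (μ : Measure Ω) [IsProbabilityMeasure μ] (S : Set ℝ) (hS : MeasurableSet S) (f : Ω × ℝ → ℝ)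
    (hf : Measurable f) (h0 : ∀ z, 0 ≤ f z) (g : ℝ → ℝ) (hg : IntegrableOn g S) (h : ∀ᵐ t : ℝ, t ∈ S → ∀ γ, f (γ, t) ≤ g t) :
    Integrable f (μ.prod (volume.restrict S)) := by
  have hg2 : Integrable (fun z : Ω × ℝ => g z.2) (μ.prod (volume.restrict S)) := Integrable.comp_snd hg μ
  refine hg2.mono' hf.aestronglyMeasurable ?_
  have h1 : ∀ᵐ t ∂(volume.restrict S), ∀ γ, f (γ, t) ≤ g t := (ae_restrict_iff' hS).2 h
  have h2 := (Measure.quasiMeasurePreserving_snd (μ := μ) (ν := volume.restrict S)).ae h1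
  filter_upwards [h2] with z hz
  rw [Real.norm_eq_abs, abs_of_nonneg (h0 z)]
  exact hz z.1

/-- from an `ENNReal` bound to a real bound -/
theorem l9f_le_of_lintegral {α : Type} [MeasurableSpace α] (ν : Measure α) (f : α → ℝ) (hf : Measurable f) (h0 : ∀ z, 0 ≤ f z) (B : ℝ)
    (hB : 0 ≤ B) (h : ∫⁻ z, ENNReal.ofReal (f z) ∂ν ≤ ENNReal.ofReal B) : ∫ z, f z ∂ν ≤ B := by
  rw [integral_eq_lintegral_of_nonneg_ae (Filter.Eventually.of_forall h0) hf.aestronglyMeasurable]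
  exact ENNReal.toReal_le_of_le_ofReal hB h

/-- affine function of a majorant -/
theorem l9f_lint_affine {Ω : Type} [MeasurableSpace Ω] (μ : Measure Ω) [IsProbabilityMeasure μ] (M : Ω → ℝ) (hM : Measurable M) (hM0 : ∀ γ, 0 ≤ M γ)
    (a b B : ℝ) (ha : 0 ≤ a) (hb : 0 ≤ b) (hB : 0 ≤ B) (h : ∫⁻ γ, ENNReal.ofReal (M γ) ∂μ ≤ ENNReal.ofReal B) :
    ∫⁻ γ, ENNReal.ofReal (a + b * M γ) ∂μ ≤ ENNReal.ofReal (a + b * B) := by
  have h1 : ∀ γ, ENNReal.ofReal (a + b * M γ) = ENNReal.ofReal a + ENNReal.ofReal b * ENNReal.ofReal (M γ) := by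
    intro γ
    rw [ENNReal.ofReal_add ha (mul_nonneg hb (hM0 γ)), ENNReal.ofReal_mul hb]
  simp_rw [h1]
  rw [lintegral_add_left measurable_const, lintegral_const, measure_univ, mul_one,
    lintegral_const_mul _ hM.ennreal_ofReal, ENNReal.ofReal_add ha (mul_nonneg hb hB), ENNReal.ofReal_mul hb]
  gcongr

/-- the average over `γ` at a fixed parameter -/
theorem l9f_avg_le {Ω : Type} [MeasurableSpace Ω] (μ : Measure Ω) [IsProbabilityMeasure μ] (f : Ω → ℝ) (hf : Measurable f) (h0 : ∀ γ, 0 ≤ f γ)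
    (M : Ω → ℝ) (hM : Measurable M) (hM0 : ∀ γ, 0 ≤ M γ) (a b B : ℝ) (ha : 0 ≤ a) (hb : 0 ≤ b) (hB : 0 ≤ B)
    (hpt : ∀ γ, f γ ≤ a + b * M γ) (h : ∫⁻ γ, ENNReal.ofReal (M γ) ∂μ ≤ ENNReal.ofReal B) : ∫ γ, f γ ∂μ ≤ a + b * B := by
  rw [integral_eq_lintegral_of_nonneg_ae (Filter.Eventually.of_forall h0) hf.aestronglyMeasurable]
  refine ENNReal.toReal_le_of_le_ofReal (by positivity) ?_
  refine le_trans (lintegral_mono fun γ => ENNReal.ofReal_le_ofReal (hpt γ)) ?_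
  exact l9f_lint_affine μ M hM hM0 a b B ha hb hB h

/-- integration of a majorant over the product -/
theorem l9f_lint_prod {Ω : Type} [MeasurableSpace Ω] (μ : Measure Ω) [IsProbabilityMeasure μ] (M : Ω × ℝ → ℝ) (hM : Measurable M)
    (B : ℝ) (h : ∀ τ ∈ Icc (0 : ℝ) 1, ∫⁻ γ, ENNReal.ofReal (M (γ, τ)) ∂μ ≤ ENNReal.ofReal B) :
    ∫⁻ z, ENNReal.ofReal (M z) ∂(μ.prod (volume.restrict (Icc (0 : ℝ) 1))) ≤ ENNReal.ofReal B := by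
  rw [lintegral_prod_symm' _ hM.ennreal_ofReal]
  calc ∫⁻ τ in Icc (0 : ℝ) 1, ∫⁻ γ, ENNReal.ofReal (M (γ, τ)) ∂μ
      ≤ ∫⁻ _τ in Icc (0 : ℝ) 1, ENNReal.ofReal B := by
        refine lintegral_mono_ae ?_
        exact (ae_restrict_iff' measurableSet_Icc).2 (Filter.Eventually.of_forall fun τ hτ => h τ hτ)
    _ = ENNReal.ofReal B := by
        rw [lintegral_const, Measure.restrict_apply MeasurableSet.univ, univ_inter, Real.volume_Icc]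
        simp

open Classical in
/-- **the strength sweep**: coarse part + pointwise bound on the complement -/
theorem l9f_dir0 {k : ℕ} (μ : Measure (Fin k → ℝ)) [IsProbabilityMeasure μ] (ψ : (Fin k → ℝ) → ℝ → ℝ) (κ A : ℝ)
    (Y : (Fin k → ℝ) × ℝ → ℝ) (thr : ℝ) (M : (Fin k → ℝ) × ℝ → ℝ) (hM : Measurable M)
    (B1 B2 K : ℝ) (hB1 : 0 ≤ B1) (hB2 : 0 ≤ B2) (hK : 0 ≤ K)
    (hco : ∫⁻ z, (if κ * ψ z.1 z.2 ≤ A ∧ thr < Y z then ENNReal.ofReal |deriv (ψ z.1) z.2| else 0)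
      ∂(μ.prod (volume.restrict (Icc (0 : ℝ) 1))) ≤ ENNReal.ofReal B1)
    (hpt : ∀ᵐ z ∂(μ.prod (volume.restrict (Icc (0 : ℝ) 1))), κ * ψ z.1 z.2 ≤ A → Y z ≤ thr → |deriv (ψ z.1) z.2| ≤ K * M z)
    (hmom : ∀ τ ∈ Icc (0 : ℝ) 1, ∫⁻ γ, ENNReal.ofReal (M (γ, τ)) ∂μ ≤ ENNReal.ofReal B2) :
    ∫⁻ z, ENNReal.ofReal (l9sD ψ κ A z) ∂(μ.prod (volume.restrict (Icc (0 : ℝ) 1))) ≤ ENNReal.ofReal (B1 + K * B2) := by
  have h3 : ∀ᵐ z ∂(μ.prod (volume.restrict (Icc (0 : ℝ) 1))), ENNReal.ofReal (l9sD ψ κ A z)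
      ≤ (if κ * ψ z.1 z.2 ≤ A ∧ thr < Y z then ENNReal.ofReal |deriv (ψ z.1) z.2| else 0) + ENNReal.ofReal (K * M z) := by
    filter_upwards [hpt] with z hz
    unfold l9sD
    by_cases hs : κ * ψ z.1 z.2 ≤ A
    · by_cases hy : thr < Y z
      · rw [if_pos hs, if_pos ⟨hs, hy⟩]; exact le_self_add
      · rw [if_pos hs, if_neg (fun h => hy h.2), zero_add]
        exact ENNReal.ofReal_le_ofReal (hz hs (not_lt.1 hy))
    · rw [if_neg hs]; simp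
  refine le_trans (lintegral_mono_ae h3) ?_
  rw [lintegral_add_right _ (hM.const_mul K).ennreal_ofReal, ENNReal.ofReal_add hB1 (mul_nonneg hK hB2)]
  refine add_le_add hco ?_
  refine l9f_lint_prod μ (fun z => K * M z) (hM.const_mul K) (K * B2) fun τ hτ => ?_
  have := hmom τ hτ
  simp_rw [ENNReal.ofReal_mul hK]
  have hm : Measurable fun γ : Fin k → ℝ => ENNReal.ofReal (M (γ, τ)) :=
    (hM.comp (measurable_id.prodMk measurable_const)).ennreal_ofReal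
  rw [lintegral_const_mul _ hm]
  gcongr

/-- integrability from a bound of the averages over `γ` -/
theorem l9f_int_of_avg {Ω : Type} [MeasurableSpace Ω] (μ : Measure Ω) [IsProbabilityMeasure μ] (S : Set ℝ) (hS : MeasurableSet S) (f : Ω × ℝ → ℝ)
    (hf : Measurable f) (h0 : ∀ z, 0 ≤ f z) (e : ℝ → ℝ) (he : IntegrableOn e S)
    (h : ∀ᵐ t : ℝ, t ∈ S → ∫⁻ γ, ENNReal.ofReal (f (γ, t)) ∂μ ≤ ENNReal.ofReal (e t)) :
    Integrable f (μ.prod (volume.restrict S)) := by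
  refine ⟨hf.aestronglyMeasurable, ?_⟩
  rw [hasFiniteIntegral_iff_ofReal (Filter.Eventually.of_forall h0), lintegral_prod_symm' _ hf.ennreal_ofReal]
  refine lt_of_le_of_lt (lintegral_mono_ae ((ae_restrict_iff' hS).2 h)) ?_
  exact Integrable.lintegral_lt_top he

/-- the real average from the `ENNReal` one -/
theorem l9f_avg_of_lint {Ω : Type} [MeasurableSpace Ω] (μ : Measure Ω) (f : Ω → ℝ) (hf : Measurable f) (h0 : ∀ γ, 0 ≤ f γ) (B : ℝ) (hB : 0 ≤ B)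
    (h : ∫⁻ γ, ENNReal.ofReal (f γ) ∂μ ≤ ENNReal.ofReal B) : ∫ γ, f γ ∂μ ≤ B :=
  l9f_le_of_lintegral μ f hf h0 B hB h

/-- absolute continuity only sees the values on the interval -/
theorem l9f_ac_congr {f g : ℝ → ℝ} {a b : ℝ} (h : AbsolutelyContinuousOnInterval f a b) (e : ∀ x ∈ uIcc a b, g x = f x) :
    AbsolutelyContinuousOnInterval g a b := by
  rw [absolutelyContinuousOnInterval_iff] at h ⊢
  intro ε hε
  obtain ⟨δ, hδ, H⟩ := h ε hε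
  refine ⟨δ, hδ, fun E hE hs => ?_⟩
  have e2 : ∑ i ∈ Finset.range E.1, dist (g (E.2 i).1) (g (E.2 i).2) = ∑ i ∈ Finset.range E.1, dist (f (E.2 i).1) (f (E.2 i).2) :=
    Finset.sum_congr rfl fun i hi => by rw [e _ (hE.1 i hi).1, e _ (hE.1 i hi).2]
  rw [e2]
  exact H E hE hs

/-- an almost everywhere statement along an affine change of the parameter -/
theorem l9f_ae_aff (a b : ℝ) (ha : a ≠ 0) (p : ℝ → Prop) (h : ∀ᵐ t : ℝ, p t) : ∀ᵐ τ : ℝ, p (a * τ + b) := by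
  have h1 : Measure.QuasiMeasurePreserving (fun τ : ℝ => a * τ) volume volume := by
    refine ⟨measurable_const_mul a, ?_⟩
    rw [Real.map_volume_mul_left ha]
    exact Measure.smul_absolutelyContinuous
  have h2 : Measure.QuasiMeasurePreserving (fun τ : ℝ => τ + b) volume volume :=
    (measurePreserving_add_right volume b).quasiMeasurePreserving
  exact (h2.comp h1).ae h

/-- the end points of an interval do not count -/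
theorem l9f_ae_Ioo (R : ℝ) (p : ℝ → Prop) (h : ∀ᵐ t : ℝ, t ∈ Ioo (0 : ℝ) R → p t) : ∀ᵐ t : ℝ, t ∈ Icc (0 : ℝ) R → p t := by
  have h0 : ∀ᵐ t : ℝ, t ≠ 0 := by simp [ae_iff, measure_singleton]
  have h1 : ∀ᵐ t : ℝ, t ≠ R := by simp [ae_iff, measure_singleton]
  filter_upwards [h, h0, h1] with t ht ht0 ht1 hI
  exact ht ⟨lt_of_le_of_ne hI.1 (Ne.symm ht0), lt_of_le_of_ne hI.2 ht1⟩

/-- almost every point of the product has its parameter in the interior of the segment -/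
theorem l9f_ae_snd_Ioo {Ω : Type} [MeasurableSpace Ω] (μ : Measure Ω) [SFinite μ] (R : ℝ) :
    ∀ᵐ z ∂(μ.prod (volume.restrict (Icc (0 : ℝ) R))), z.2 ∈ Ioo (0 : ℝ) R := by
  have h1 : ∀ᵐ t ∂(volume.restrict (Icc (0 : ℝ) R)), t ∈ Ioo (0 : ℝ) R :=
    (ae_restrict_iff' measurableSet_Icc).2 (l9f_ae_Ioo R (fun t => t ∈ Ioo (0 : ℝ) R) (Filter.Eventually.of_forall fun _ h => h))
  exact (Measure.quasiMeasurePreserving_snd (μ := μ) (ν := volume.restrict (Icc (0 : ℝ) R))).ae h1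

/-- the set of the points of differentiability of a countable family of jointly continuous functions -/
theorem l9f_meas_dif {k : ℕ} (f : ℕ → (Fin k → ℝ) → ℝ → ℝ) (hc : ∀ j, Continuous fun z : (Fin k → ℝ) × ℝ => f j z.1 z.2) :
    MeasurableSet {z : (Fin k → ℝ) × ℝ | ∀ j, DifferentiableAt ℝ (f j z.1) z.2} := by
  have e : {z : (Fin k → ℝ) × ℝ | ∀ j, DifferentiableAt ℝ (f j z.1) z.2} = ⋂ j, {z : (Fin k → ℝ) × ℝ | DifferentiableAt ℝ (f j z.1) z.2} := by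
    ext z; simp
  rw [e]
  exact MeasurableSet.iInter fun j => measurableSet_of_differentiableAt_with_param ℝ (f := f j) (by simpa [Function.uncurry_def] using hc j)

/-- **Fubini**: for each `γ` almost every parameter ⟹ almost every point of the product -/
theorem l9f_ae_prod_dif {k : ℕ} (μ : Measure (Fin k → ℝ)) [SFinite μ] (S : Set ℝ) (hS : MeasurableSet S) (f : ℕ → (Fin k → ℝ) → ℝ → ℝ)
    (hc : ∀ j, Continuous fun z : (Fin k → ℝ) × ℝ => f j z.1 z.2) (h : ∀ γ, ∀ᵐ t : ℝ, t ∈ S → ∀ j, DifferentiableAt ℝ (f j γ) t) :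
    ∀ᵐ z ∂(μ.prod (volume.restrict S)), ∀ j, DifferentiableAt ℝ (f j z.1) z.2 := by
  rw [Measure.ae_prod_iff_ae_ae (l9f_meas_dif f hc)]
  exact Filter.Eventually.of_forall fun γ => (ae_restrict_iff' hS).2 (h γ)

/-- **Fubini**: for each `γ` almost every parameter ⟹ for almost every parameter almost every `γ` -/
theorem l9f_ae_swap_dif {k : ℕ} (μ : Measure (Fin k → ℝ)) [SFinite μ] (S : Set ℝ) (hS : MeasurableSet S) (f : ℕ → (Fin k → ℝ) → ℝ → ℝ)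
    (hc : ∀ j, Continuous fun z : (Fin k → ℝ) × ℝ => f j z.1 z.2) (h : ∀ γ, ∀ᵐ t : ℝ, t ∈ S → ∀ j, DifferentiableAt ℝ (f j γ) t) :
    ∀ᵐ t : ℝ, t ∈ S → ∀ᵐ γ ∂μ, ∀ j, DifferentiableAt ℝ (f j γ) t := by
  have h1 : ∀ᵐ γ ∂μ, ∀ᵐ t ∂(volume.restrict S), ∀ j, DifferentiableAt ℝ (f j γ) t :=
    Filter.Eventually.of_forall fun γ => (ae_restrict_iff' hS).2 (h γ)
  have h2 := (Measure.ae_ae_comm (μ := μ) (ν := volume.restrict S) (p := fun γ t => ∀ j, DifferentiableAt ℝ (f j γ) t) (l9f_meas_dif f hc)).1 h1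
  exact (ae_restrict_iff' hS).1 h2

/-! ### 2. the points, the clamps, the chain rule -/

theorem l9f_deriv_clamp (g : ℝ → ℝ) (R θ : ℝ) (hθ : θ ∈ Ioo (0 : ℝ) R) : deriv (fun t => g (ll04U R t)) θ = deriv g θ := by
  refine Filter.EventuallyEq.deriv_eq ?_
  filter_upwards [isOpen_Ioo.mem_nhds hθ] with t ht
  rw [ll04w_U_of_mem ⟨ht.1.le, ht.2.le⟩]

theorem l9f_deriv_aff (g : ℝ → ℝ) (a b τ : ℝ) : deriv (fun t => g (a * t + b)) τ = a * deriv g (a * τ + b) := by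
  have h1 := deriv_comp_mul_left a (fun y => g (y + b)) τ
  have h2 := deriv_comp_add_const g b (a * τ)
  rw [h2, smul_eq_mul] at h1
  exact h1

theorem l9f_diff_clamp (g : ℝ → ℝ) (R θ : ℝ) (hθ : θ ∈ Ioo (0 : ℝ) R) (h : DifferentiableAt ℝ (fun t => g (ll04U R t)) θ) : DifferentiableAt ℝ g θ := by
  refine h.congr_of_eventuallyEq ?_
  filter_upwards [isOpen_Ioo.mem_nhds hθ] with t ht
  rw [ll04w_U_of_mem ⟨ht.1.le, ht.2.le⟩]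

theorem l9f_diff_aff (g : ℝ → ℝ) (a b τ : ℝ) (ha : a ≠ 0) (h : DifferentiableAt ℝ (fun t => g (a * t + b)) τ) : DifferentiableAt ℝ g (a * τ + b) := by
  have e : g = (fun t => g (a * t + b)) ∘ fun y => (y - b) / a := by
    funext y
    simp only [Function.comp]
    congr 1
    field_simp
    ring
  rw [e]
  refine DifferentiableAt.comp _ ?_ (by fun_prop)
  have e2 : (a * τ + b - b) / a = τ := by
    rw [add_sub_cancel_right]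
    field_simp
  rw [e2]
  exact h

theorem l9f_T_eq (F : LlFix) (N : ℕ) (τ : ℝ) : l9T F N τ = ((F.pS - 12) * Real.log (skX N)) * τ + 12 * Real.log (skX N) := by
  unfold l9T; ring

/-- the strength sweep of 258 in the parameter of the paper -/
theorem l9f_dir0_pt (F : LlFix) {N : ℕ} (hN : 1 ≤ N) (ell : ℝ) (γ : Fin (N + 1) → ℝ) (τ : ℝ) :
    ll04Dir F N ell 0 γ τ = l9PtL N ell γ (l9T F N (ll04U 1 τ)) := by
  have hx := (ll04w_x_mem hN).1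
  unfold ll04Dir l9PtL l9T
  rw [Real.rpow_def_of_pos hx, mul_comm (Real.log (skX N))]
  simp

/-- the range of `t = log λ` -/
theorem l9f_T_mem (F : LlFix) {N : ℕ} (ha : (F.pS - 12) * Real.log (skX N) ≠ 0) (hp : F.pS ≤ 12) (hN : 1 ≤ N) {τ : ℝ} (hτ : τ ∈ Ioo (0 : ℝ) 1) :
    l9T F N τ ∈ l9LamRg F N := by
  have hx := ll04w_x_mem hN
  have hl0 : Real.log (skX N) ≤ 0 := Real.log_nonpos hx.1.le hx.2
  have hl : Real.log (skX N) < 0 := lt_of_le_of_ne hl0 fun h => ha (by rw [h, mul_zero])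
  have hp' : F.pS < 12 := lt_of_le_of_ne hp fun h => ha (by rw [h, sub_self, zero_mul])
  unfold l9T l9LamRg
  constructor
  · have : 12 * (1 - τ) + F.pS * τ < 12 := by nlinarith [hτ.1, hτ.2]
    exact mul_lt_mul_of_neg_right this hl
  · have : F.pS < 12 * (1 - τ) + F.pS * τ := by nlinarith [hτ.1, hτ.2]
    exact mul_lt_mul_of_neg_right this hl

/-- **chain rule on the strength sweep**: `∂_τ = (p_* - 12) log x ∂_{log λ}` at interior points (no differentiability is asked) -/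
theorem l9f_dir0_deriv (F : LlFix) {N : ℕ} (hN : 1 ≤ N) (ell : ℝ) (γ : Fin (N + 1) → ℝ) (g : LlPt → ℝ) {τ : ℝ} (hτ : τ ∈ Ioo (0 : ℝ) 1) :
    deriv (fun t' => g (ll04Dir F N ell 0 γ t')) τ = ((F.pS - 12) * Real.log (skX N)) * deriv (fun t => g (l9PtL N ell γ t)) (l9T F N τ) := by
  have e1 : (fun t' => g (ll04Dir F N ell 0 γ t')) = fun t' => (fun u => g (l9PtL N ell γ (l9T F N u))) (ll04U 1 t') := by
    funext t'
    rw [l9f_dir0_pt F hN]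
  rw [e1, l9f_deriv_clamp (fun u => g (l9PtL N ell γ (l9T F N u))) 1 τ hτ]
  have e2 : (fun u => g (l9PtL N ell γ (l9T F N u)))
      = fun u => (fun t => g (l9PtL N ell γ t)) (((F.pS - 12) * Real.log (skX N)) * u + 12 * Real.log (skX N)) := by
    funext u
    rw [l9f_T_eq]
  rw [e2, l9f_deriv_aff (fun t => g (l9PtL N ell γ t)), ← l9f_T_eq]

/-- differentiability on the strength sweep, from the parameter `τ` to `t = log λ` -/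
theorem l9f_dir0_diff (F : LlFix) {N : ℕ} (hN : 1 ≤ N) (ell : ℝ) (γ : Fin (N + 1) → ℝ) (g : LlPt → ℝ) {τ : ℝ} (hτ : τ ∈ Ioo (0 : ℝ) 1)
    (ha : (F.pS - 12) * Real.log (skX N) ≠ 0) (h : DifferentiableAt ℝ (fun t' => g (ll04Dir F N ell 0 γ t')) τ) :
    DifferentiableAt ℝ (fun t => g (l9PtL N ell γ t)) (l9T F N τ) := by
  have e1 : (fun t' => g (ll04Dir F N ell 0 γ t')) = fun t' => (fun u => g (l9PtL N ell γ (l9T F N u))) (ll04U 1 t') := by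
    funext t'
    rw [l9f_dir0_pt F hN]
  rw [e1] at h
  have h2 := l9f_diff_clamp (fun u => g (l9PtL N ell γ (l9T F N u))) 1 τ hτ h
  have e2 : (fun u => g (l9PtL N ell γ (l9T F N u)))
      = fun u => (fun t => g (l9PtL N ell γ t)) (((F.pS - 12) * Real.log (skX N)) * u + 12 * Real.log (skX N)) := by
    funext u
    rw [l9f_T_eq]
  rw [e2] at h2
  rw [l9f_T_eq]
  exact l9f_diff_aff (fun t => g (l9PtL N ell γ t)) _ _ τ ha h2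

/-- the size segment of 258 at a parameter of the range -/
theorem l9f_siz_pt_eq (F : LlFix) (N : ℕ) {R : ℝ} (γ : Fin (N + 1) → ℝ) {θ : ℝ} (hθ : θ ∈ Icc (0 : ℝ) R) : ll04Siz F N R γ θ = l9PtS F N γ θ := by
  unfold ll04Siz l9PtS
  rw [ll04w_U_of_mem hθ]

namespace L9I

/-- `Dif` does not see the site count -/
theorem dif_m {F : LlFix} {𝔹 : LlBase} {s : ℝ} {Fs : Finset GhPos} (m m' : ℕ) {pf : ℝ → LlPt} {t : ℝ}
    (h : (⟨F, 𝔹, s, Fs, m⟩ : L9I).Dif pf t) : (⟨F, 𝔹, s, Fs, m'⟩ : L9I).Dif pf t := h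

/-- `Dif` on the strength sweep -/
theorem dif_dir0 (I : L9I) {N : ℕ} (hN : 1 ≤ N) (ell : ℝ) (γ : Fin (N + 1) → ℝ) {τ : ℝ} (hτ : τ ∈ Ioo (0 : ℝ) 1)
    (ha : (I.F.pS - 12) * Real.log (skX N) ≠ 0) (h : I.Dif (ll04Dir I.F N ell 0 γ) τ) : I.Dif (l9PtL N ell γ) (l9T I.F N τ) := fun j =>
  ⟨l9f_dir0_diff I.F hN ell γ (fun p => (I.X0 p).bC j) hτ ha (h j).1, l9f_dir0_diff I.F hN ell γ (fun p => (I.X0 p).hC j) hτ ha (h j).2.1,
    l9f_dir0_diff I.F hN ell γ (fun p => (I.X0 p).KC j) hτ ha (h j).2.2⟩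

/-- `Dif` on the size segment -/
theorem dif_siz (I : L9I) (N : ℕ) (R : ℝ) (γ : Fin (N + 1) → ℝ) {θ : ℝ} (hθ : θ ∈ Ioo (0 : ℝ) R)
    (h : I.Dif (ll04Siz I.F N R γ) θ) : I.Dif (l9PtS I.F N γ) θ := fun j =>
  ⟨l9f_diff_clamp (fun t => (I.X0 (l9PtS I.F N γ t)).bC j) R θ hθ (h j).1, l9f_diff_clamp (fun t => (I.X0 (l9PtS I.F N γ t)).hC j) R θ hθ (h j).2.1,
    l9f_diff_clamp (fun t => (I.X0 (l9PtS I.F N γ t)).KC j) R θ hθ (h j).2.2⟩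

/-- **Fubini** for `Dif`: almost every point of the product -/
theorem dif_prod (I : L9I) {k : ℕ} (μ : Measure (Fin k → ℝ)) [SFinite μ] (S : Set ℝ) (hS : MeasurableSet S) (pf : (Fin k → ℝ) → ℝ → LlPt)
    (hc : I.Cts fun z : (Fin k → ℝ) × ℝ => pf z.1 z.2) (h : ∀ γ, ∀ᵐ t : ℝ, t ∈ S → I.Dif (pf γ) t) :
    ∀ᵐ z ∂(μ.prod (volume.restrict S)), I.Dif (pf z.1) z.2 := by
  have h1 := l9f_ae_prod_dif μ S hS (fun j γ t => (I.X0 (pf γ t)).bC j) (fun j => (hc j).1)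
    (fun γ => by filter_upwards [h γ] with t ht hI j; exact (ht hI j).1)
  have h2 := l9f_ae_prod_dif μ S hS (fun j γ t => (I.X0 (pf γ t)).hC j) (fun j => (hc j).2.1)
    (fun γ => by filter_upwards [h γ] with t ht hI j; exact (ht hI j).2.1)
  have h3 := l9f_ae_prod_dif μ S hS (fun j γ t => (I.X0 (pf γ t)).KC j) (fun j => (hc j).2.2)
    (fun γ => by filter_upwards [h γ] with t ht hI j; exact (ht hI j).2.2)
  filter_upwards [h1, h2, h3] with z a b c j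
  exact ⟨a j, b j, c j⟩

/-- **Fubini** for `Dif`: for almost every parameter, almost every `γ` -/
theorem dif_swap (I : L9I) {k : ℕ} (μ : Measure (Fin k → ℝ)) [SFinite μ] (S : Set ℝ) (hS : MeasurableSet S) (pf : (Fin k → ℝ) → ℝ → LlPt)
    (hc : I.Cts fun z : (Fin k → ℝ) × ℝ => pf z.1 z.2) (h : ∀ γ, ∀ᵐ t : ℝ, t ∈ S → I.Dif (pf γ) t) :
    ∀ᵐ t : ℝ, t ∈ S → ∀ᵐ γ ∂μ, I.Dif (pf γ) t := by
  have h1 := l9f_ae_swap_dif μ S hS (fun j γ t => (I.X0 (pf γ t)).bC j) (fun j => (hc j).1)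
    (fun γ => by filter_upwards [h γ] with t ht hI j; exact (ht hI j).1)
  have h2 := l9f_ae_swap_dif μ S hS (fun j γ t => (I.X0 (pf γ t)).hC j) (fun j => (hc j).2.1)
    (fun γ => by filter_upwards [h γ] with t ht hI j; exact (ht hI j).2.1)
  have h3 := l9f_ae_swap_dif μ S hS (fun j γ t => (I.X0 (pf γ t)).KC j) (fun j => (hc j).2.2)
    (fun γ => by filter_upwards [h γ] with t ht hI j; exact (ht hI j).2.2)
  filter_upwards [h1, h2, h3] with t a b c hI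
  filter_upwards [a hI, b hI, c hI] with γ a b c j
  exact ⟨a j, b j, c j⟩

end L9I

/-! ### 3. numerics -/

theorem l9f_one_le {x δ : ℝ} (hx : x ∈ Ioc (0 : ℝ) 1) (hδ : 0 ≤ δ) : 1 ≤ x ^ (-δ) :=
  Real.one_le_rpow_of_pos_of_le_one_of_nonpos hx.1 hx.2 (by linarith)

theorem l9f_num2 {x c c0 δ : ℝ} (hx : x ∈ Ioc (0 : ℝ) 1) (h : c0 + 2 * δ ≤ c) : x ^ (5 + c) * x ^ (-δ) * x ^ (-δ) ≤ x ^ (5 + c0) := by
  rw [← Real.rpow_add hx.1, ← Real.rpow_add hx.1]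
  exact Real.rpow_le_rpow_of_exponent_ge hx.1 hx.2 (by linarith)

theorem l9f_num1 {x c c0 δ : ℝ} (hx : x ∈ Ioc (0 : ℝ) 1) (hδ : 0 ≤ δ) (h : c0 + 2 * δ ≤ c) : x ^ (5 + c) * x ^ (-δ) ≤ x ^ (5 + c0) := by
  rw [← Real.rpow_add hx.1]
  exact Real.rpow_le_rpow_of_exponent_ge hx.1 hx.2 (by linarith)

theorem l9f_num0 {x c c0 δ : ℝ} (hx : x ∈ Ioc (0 : ℝ) 1) (hδ : 0 ≤ δ) (h : c0 + 2 * δ ≤ c) : x ^ (5 + c) ≤ x ^ (5 + c0) :=
  Real.rpow_le_rpow_of_exponent_ge hx.1 hx.2 (by linarith)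

theorem l9f_log {x δ : ℝ} (hx : x ∈ Ioc (0 : ℝ) 1) (hδ : 0 < δ) : |Real.log x| ≤ x ^ (-δ) / δ := by
  rw [abs_of_nonpos (Real.log_nonpos hx.1.le hx.2), ← Real.log_inv]
  have h := Real.log_le_rpow_div (inv_nonneg.2 hx.1.le) hδ
  rwa [Real.inv_rpow hx.1.le, ← Real.rpow_neg hx.1.le] at h

/-! ### 4. the direct segments -/

open Classical in
theorem l9f_ofReal_D {Ω : Type} (ψ : Ω → ℝ → ℝ) (κ A : ℝ) (z : Ω × ℝ) :
    ENNReal.ofReal (l9sD ψ κ A z) = if κ * ψ z.1 z.2 ≤ A then ENNReal.ofReal |deriv (ψ z.1) z.2| else 0 := by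
  unfold l9sD
  split_ifs <;> simp

/-- integrability from an `ENNReal` bound -/
theorem l9f_int_of_lint {α : Type} [MeasurableSpace α] (ν : Measure α) (f : α → ℝ) (hf : Measurable f) (h0 : ∀ z, 0 ≤ f z) (B : ℝ)
    (h : ∫⁻ z, ENNReal.ofReal (f z) ∂ν ≤ ENNReal.ofReal B) : Integrable f ν := by
  refine ⟨hf.aestronglyMeasurable, ?_⟩
  rw [hasFiniteIntegral_iff_ofReal (Filter.Eventually.of_forall h0)]
  exact h.trans_lt ENNReal.ofReal_lt_top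

/-- the stopped speed of `l9Path` on a direct segment -/
theorem l9f_aD_eq (F : LlFix) (𝔹 : LlBase) (N N' : ℕ) (s L : ℝ) (Fs : Finset GhPos) (e : Fin 2) (i : Fin 3) (m : ℕ) :
    (l9Path F 𝔹 N N' s Fs).aD s (4 / 3 * L) e i m
      = l9sD (fun γ τ => (⟨F, 𝔹, s, Fs, m⟩ : L9I).psi (ll04Dir F N (ll04Ell N N' e) i γ τ) m) (s * m) (4 * L) := by
  funext p
  unfold SkPath.aD l9sD
  rw [show 3 * (4 / 3 * L) = 4 * L by ring]
  rfl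

/-- the stopped combination (I) of `l9Path` -/
theorem l9f_aS_eq (F : LlFix) (𝔹 : LlBase) (N N' : ℕ) (s L : ℝ) (Fs : Finset GhPos) (r : ℕ) (c : ℕ → ℝ) (m : ℕ) :
    (l9Path F 𝔹 N N' s Fs).aS s (4 / 3 * L) r c m
      = l9sS (fun γ θ m' => l9Psi F 𝔹 s Fs (l9PtS F N γ (ll04U (Real.log ((N' : ℝ) / N)) θ)) m') s (4 * L) r c m := by
  funext p
  unfold SkPath.aS l9sS
  rw [show 3 * (4 / 3 * L) = 4 * L by ring]
  rfl

open Classical in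
/-- a multiplier sweep -/
theorem l9f_dir_sw (I : L9I) {N : ℕ} (L ell : ℝ) (i : Fin 3) (B : ℝ)
    (h : ∫⁻ z : (Fin (N + 1) → ℝ) × ℝ, (if I.s * (I.m : ℝ) * I.psi (ll04Dir I.F N ell i z.1 z.2) I.m ≤ 4 * L
          then ENNReal.ofReal |deriv (fun t' => I.psi (ll04Dir I.F N ell i z.1 t') I.m) z.2| else 0)
        ∂((ll04Mu N).prod (volume.restrict (Icc (0 : ℝ) 1))) ≤ ENNReal.ofReal B) :
    ∫⁻ z, ENNReal.ofReal (l9sD (fun γ τ => I.psi (ll04Dir I.F N ell i γ τ) I.m) (I.s * I.m) (4 * L) z)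
      ∂((ll04Mu N).prod (volume.restrict (Icc (0 : ℝ) 1))) ≤ ENNReal.ofReal B := by
  simp_rw [l9f_ofReal_D]
  exact h

open Classical in
/-- **the strength sweep** -/
theorem l9f_dir_str (I : L9I) (Mj : L9Mj) (hp : I.F.pS ≤ 12) (κ : ℝ) (JD : ℕ) {N : ℕ} (hN : 1 ≤ N) (L ell : ℝ)
    (c3 C3 c4 C4 B1 B2 : ℝ) (hB1 : 0 ≤ B1) (hB2 : 0 ≤ B2)
    (hTRD : ∀ (γ : Fin (N + 1) → ℝ) (t : ℝ), t ∈ l9LamRg I.F N → I.Dif (l9PtL N ell γ) t → I.s * (I.m : ℝ) * I.psi (l9PtL N ell γ t) I.m ≤ 4 * L →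
      (l9PtL N ell γ t).U I.F * Mj.Z I.F I.𝔹 I.Fs (l9PtL N ell γ t) I.m ≤ skX N ^ κ →
      |deriv (fun t' => I.psi (l9PtL N ell γ t') I.m) t - I.DOE1 (l9PtL N ell γ) 0 0 JD t|
        ≤ C3 * skX N ^ (5 + c3) * Mj.Z I.F I.𝔹 I.Fs (l9PtL N ell γ t) I.m ^ 4)
    (hBD : ∀ (γ : Fin (N + 1) → ℝ) (t : ℝ), t ∈ l9LamRg I.F N → I.Dif (l9PtL N ell γ) t → I.s * (I.m : ℝ) * I.psi (l9PtL N ell γ t) I.m ≤ 4 * L →
      (l9PtL N ell γ t).U I.F * Mj.Z I.F I.𝔹 I.Fs (l9PtL N ell γ t) I.m ≤ skX N ^ κ →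
      |I.DOE1 (l9PtL N ell γ) 0 0 JD t| ≤ C4 * skX N ^ (5 + c4) * Mj.Z I.F I.𝔹 I.Fs (l9PtL N ell γ t) I.m ^ 4)
    (hCo : ∫⁻ z : (Fin (N + 1) → ℝ) × ℝ, (if I.s * (I.m : ℝ) * I.psi (ll04Dir I.F N ell 0 z.1 z.2) I.m ≤ 4 * L ∧
            skX N ^ κ < (ll04Dir I.F N ell 0 z.1 z.2).U I.F * Mj.Z I.F I.𝔹 I.Fs (ll04Dir I.F N ell 0 z.1 z.2) I.m
          then ENNReal.ofReal |deriv (fun t' => I.psi (ll04Dir I.F N ell 0 z.1 t') I.m) z.2| else 0)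
        ∂((ll04Mu N).prod (volume.restrict (Icc (0 : ℝ) 1))) ≤ ENNReal.ofReal B1)
    (hZm : Measurable fun z : (Fin (N + 1) → ℝ) × ℝ => Mj.Z I.F I.𝔹 I.Fs (ll04Dir I.F N ell 0 z.1 z.2) I.m)
    (hZ4 : ∀ τ ∈ Icc (0 : ℝ) 1, ∫⁻ γ, ENNReal.ofReal (Mj.Z I.F I.𝔹 I.Fs (ll04Dir I.F N ell 0 γ τ) I.m ^ 4) ∂ll04Mu N ≤ ENNReal.ofReal B2)
    (hCts : I.Cts fun z : (Fin (N + 1) → ℝ) × ℝ => ll04Dir I.F N ell 0 z.1 z.2)
    (hDif : ∀ γ : Fin (N + 1) → ℝ, ∀ᵐ τ : ℝ, τ ∈ Icc (0 : ℝ) 1 → I.Dif (ll04Dir I.F N ell 0 γ) τ) :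
    ∫⁻ z, ENNReal.ofReal (l9sD (fun γ τ => I.psi (ll04Dir I.F N ell 0 γ τ) I.m) (I.s * I.m) (4 * L) z)
        ∂((ll04Mu N).prod (volume.restrict (Icc (0 : ℝ) 1)))
      ≤ ENNReal.ofReal (B1 + |(I.F.pS - 12) * Real.log (skX N)| * (|C3| * skX N ^ (5 + c3) + |C4| * skX N ^ (5 + c4)) * B2) := by
  have := ll04a_prob N
  have hx := (ll04w_x_mem hN).1
  set a : ℝ := (I.F.pS - 12) * Real.log (skX N) with ha
  have hK : 0 ≤ |a| * (|C3| * skX N ^ (5 + c3) + |C4| * skX N ^ (5 + c4)) := by positivity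
  refine l9f_dir0 (ll04Mu N) (fun γ τ => I.psi (ll04Dir I.F N ell 0 γ τ) I.m) (I.s * I.m) (4 * L)
    (fun z => (ll04Dir I.F N ell 0 z.1 z.2).U I.F * Mj.Z I.F I.𝔹 I.Fs (ll04Dir I.F N ell 0 z.1 z.2) I.m) (skX N ^ κ)
    (fun z => Mj.Z I.F I.𝔹 I.Fs (ll04Dir I.F N ell 0 z.1 z.2) I.m ^ 4) (hZm.pow_const 4) B1 B2 _ hB1 hB2 hK hCo ?_ hZ4
  -- the pointwise bound
  have hI := l9f_ae_snd_Ioo (ll04Mu N) 1
  by_cases ha0 : a = 0
  · filter_upwards [hI] with z hτ _ _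
    show |deriv (fun t' => (fun p => I.psi p I.m) (ll04Dir I.F N ell 0 z.1 t')) z.2| ≤ _
    rw [l9f_dir0_deriv I.F hN ell z.1 (fun p => I.psi p I.m) hτ, ← ha, ha0]
    simp
  · have hD := I.dif_prod (ll04Mu N) (Icc (0 : ℝ) 1) measurableSet_Icc (fun γ τ => ll04Dir I.F N ell 0 γ τ) hCts hDif
    filter_upwards [hI, hD] with z hτ hDz hst hY
    obtain ⟨γ, τ⟩ := z
    simp only at hτ hDz hst hY ⊢
    have hτ' : τ ∈ Icc (0 : ℝ) 1 := ⟨hτ.1.le, hτ.2.le⟩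
    have hT := l9f_T_mem I.F ha0 hp hN hτ
    have hpt : ll04Dir I.F N ell 0 γ τ = l9PtL N ell γ (l9T I.F N τ) := by
      rw [l9f_dir0_pt I.F hN, ll04w_U_of_mem hτ']
    simp only [hpt] at hst hY ⊢
    have hD := I.dif_dir0 hN ell γ hτ ha0 hDz
    have b1 := hTRD γ _ hT hD hst hY
    have b2 := hBD γ _ hT hD hst hY
    show |deriv (fun t' => (fun p => I.psi p I.m) (ll04Dir I.F N ell 0 γ t')) τ| ≤ _
    rw [l9f_dir0_deriv I.F hN ell γ (fun p => I.psi p I.m) hτ, ← ha, abs_mul, mul_assoc]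
    refine mul_le_mul_of_nonneg_left ?_ (abs_nonneg a)
    set Z4 := Mj.Z I.F I.𝔹 I.Fs (l9PtL N ell γ (l9T I.F N τ)) I.m ^ 4 with hZ4d
    have hZ0 : 0 ≤ Z4 := by rw [hZ4d]; positivity
    have hp3 : 0 ≤ skX N ^ (5 + c3) := (Real.rpow_pos_of_pos hx _).le
    have hp4 : 0 ≤ skX N ^ (5 + c4) := (Real.rpow_pos_of_pos hx _).le
    have t1 : C3 * skX N ^ (5 + c3) * Z4 ≤ |C3| * skX N ^ (5 + c3) * Z4 :=
      mul_le_mul_of_nonneg_right (mul_le_mul_of_nonneg_right (le_abs_self C3) hp3) hZ0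
    have t2 : C4 * skX N ^ (5 + c4) * Z4 ≤ |C4| * skX N ^ (5 + c4) * Z4 :=
      mul_le_mul_of_nonneg_right (mul_le_mul_of_nonneg_right (le_abs_self C4) hp4) hZ0
    have t3 := abs_sub_abs_le_abs_sub (deriv (fun t' => I.psi (l9PtL N ell γ t') I.m) (l9T I.F N τ)) (I.DOE1 (l9PtL N ell γ) 0 0 JD (l9T I.F N τ))
    calc |deriv (fun t => I.psi (l9PtL N ell γ t) I.m) (l9T I.F N τ)|
        ≤ C3 * skX N ^ (5 + c3) * Z4 + C4 * skX N ^ (5 + c4) * Z4 := by linarith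
      _ ≤ (|C3| * skX N ^ (5 + c3) + |C4| * skX N ^ (5 + c4)) * Z4 := by linarith

/-! ### 5. the size segment -/

/-- at interior points the clamp of the parameter is invisible -/
theorem l9f_S_clamp {Ω : Type} (ψ : Ω → ℝ → ℕ → ℝ) (s A : ℝ) (r : ℕ) (c : ℕ → ℝ) (m : ℕ) (R : ℝ) (γ : Ω) {θ : ℝ} (hθ : θ ∈ Ioo (0 : ℝ) R) :
    l9sS (fun γ θ m' => ψ γ (ll04U R θ) m') s A r c m (γ, θ) = l9sS ψ s A r c m (γ, θ) := by
  unfold l9sS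
  simp only
  rw [l9f_deriv_clamp (fun θ => ψ γ θ m) R θ hθ, ll04w_U_of_mem ⟨hθ.1.le, hθ.2.le⟩]

/-- the pointwise bound of the stopped combination (I) -/
theorem l9f_siz_pt (I : L9I) (Mj : L9Mj) {N : ℕ} (hN : 1 ≤ N) (L : ℝ) (JS r : ℕ) (c : ℕ → ℝ) (γ : Fin (N + 1) → ℝ) (θ c1 C1 c2 C2 w : ℝ)
    (hT : (∀ j ∈ Finset.range (r + 1), I.s * ((I.m + j : ℕ) : ℝ) * I.psi (l9PtS I.F N γ θ) (I.m + j) ≤ 4 * L) →
      |deriv (fun t => I.psi (l9PtS I.F N γ t) I.m) θ + ∑ j ∈ Finset.range (r + 1), c j * (((I.m + j : ℕ) : ℝ) * I.psi (l9PtS I.F N γ θ) (I.m + j))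
          - I.DOE1 (l9PtS I.F N γ) 1 (1 / 6) JS θ| ≤ C1 * skX N ^ (5 + c1) * (1 + I.dot (l9PtS I.F N γ) θ))
    (hB : I.s * (I.m : ℝ) * I.psi (l9PtS I.F N γ θ) I.m ≤ 4 * L →
      |I.DOE1 (l9PtS I.F N γ) 1 (1 / 6) JS θ|
        ≤ C2 * skX N ^ (5 + c2) * (Mj.Z I.F I.𝔹 I.Fs (l9PtS I.F N γ θ) I.m ^ 4 + Mj.Zg I.F I.𝔹 I.Fs (l9PtS I.F N γ θ) I.m * Mj.Z I.F I.𝔹 I.Fs (l9PtS I.F N γ θ) I.m ^ 2)
            * (1 + I.dot (l9PtS I.F N γ) θ))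
    (hw : |1 + I.dot (l9PtS I.F N γ) θ| ≤ w) (hZ : 1 ≤ Mj.Z I.F I.𝔹 I.Fs (l9PtS I.F N γ θ) I.m) (hZg : 1 ≤ Mj.Zg I.F I.𝔹 I.Fs (l9PtS I.F N γ θ) I.m) :
    l9sS (fun γ θ m' => I.psi (l9PtS I.F N γ θ) m') I.s (4 * L) r c I.m (γ, θ)
      ≤ w * (|C1| * skX N ^ (5 + c1)) + w * (2 * |C2| * skX N ^ (5 + c2))
          * (Mj.Z I.F I.𝔹 I.Fs (l9PtS I.F N γ θ) I.m ^ 4 + Mj.Zg I.F I.𝔹 I.Fs (l9PtS I.F N γ θ) I.m ^ 2) := by
  classical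
  have hx := (ll04w_x_mem hN).1
  set Z := Mj.Z I.F I.𝔹 I.Fs (l9PtS I.F N γ θ) I.m with hZd
  set Zg := Mj.Zg I.F I.𝔹 I.Fs (l9PtS I.F N γ θ) I.m with hZgd
  set D := 1 + I.dot (l9PtS I.F N γ) θ with hDd
  have hw0 : 0 ≤ w := (abs_nonneg _).trans hw
  have hp1 : 0 ≤ skX N ^ (5 + c1) := (Real.rpow_pos_of_pos hx _).le
  have hp2 : 0 ≤ skX N ^ (5 + c2) := (Real.rpow_pos_of_pos hx _).le
  have hM0 : 0 ≤ Z ^ 4 + Zg ^ 2 := by positivity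
  have hrhs : 0 ≤ w * (|C1| * skX N ^ (5 + c1)) + w * (2 * |C2| * skX N ^ (5 + c2)) * (Z ^ 4 + Zg ^ 2) := by positivity
  unfold l9sS
  split_ifs with hst
  · have hst0 : I.s * (I.m : ℝ) * I.psi (l9PtS I.F N γ θ) I.m ≤ 4 * L := by
      simpa using hst 0 (by simp)
    have b1 := hT hst
    have b2 := hB hst0
    have hQ0 : 0 ≤ Z ^ 4 + Zg * Z ^ 2 := by positivity
    have hQ : Z ^ 4 + Zg * Z ^ 2 ≤ 2 * (Z ^ 4 + Zg ^ 2) := by nlinarith [sq_nonneg (Zg - Z ^ 2), sq_nonneg Zg, sq_nonneg (Z ^ 2)]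
    have t1 : C1 * skX N ^ (5 + c1) * D ≤ w * (|C1| * skX N ^ (5 + c1)) := by
      calc C1 * skX N ^ (5 + c1) * D ≤ |C1 * skX N ^ (5 + c1) * D| := le_abs_self _
        _ = |C1| * skX N ^ (5 + c1) * |D| := by rw [abs_mul, abs_mul, abs_of_nonneg hp1]
        _ ≤ |C1| * skX N ^ (5 + c1) * w := mul_le_mul_of_nonneg_left hw (by positivity)
        _ = _ := by ring
    have t2 : C2 * skX N ^ (5 + c2) * (Z ^ 4 + Zg * Z ^ 2) * D ≤ w * (2 * |C2| * skX N ^ (5 + c2)) * (Z ^ 4 + Zg ^ 2) := by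
      calc C2 * skX N ^ (5 + c2) * (Z ^ 4 + Zg * Z ^ 2) * D ≤ |C2 * skX N ^ (5 + c2) * (Z ^ 4 + Zg * Z ^ 2) * D| := le_abs_self _
        _ = |C2| * skX N ^ (5 + c2) * (Z ^ 4 + Zg * Z ^ 2) * |D| := by rw [abs_mul, abs_mul, abs_mul, abs_of_nonneg hp2, abs_of_nonneg hQ0]
        _ ≤ |C2| * skX N ^ (5 + c2) * (2 * (Z ^ 4 + Zg ^ 2)) * w := by
            refine mul_le_mul (mul_le_mul_of_nonneg_left hQ (by positivity)) hw (abs_nonneg _) (by positivity)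
        _ = _ := by ring
    set E := I.DOE1 (l9PtS I.F N γ) 1 (1 / 6) JS θ
    have t3 := abs_sub_abs_le_abs_sub
      (deriv (fun t => I.psi (l9PtS I.F N γ t) I.m) θ + ∑ j ∈ Finset.range (r + 1), c j * (((I.m + j : ℕ) : ℝ) * I.psi (l9PtS I.F N γ θ) (I.m + j))) E
    show |deriv (fun t => I.psi (l9PtS I.F N γ t) I.m) θ + ∑ j ∈ Finset.range (r + 1), c j * (((I.m + j : ℕ) : ℝ) * I.psi (l9PtS I.F N γ θ) (I.m + j))| ≤ _
    linarith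
  · exact hrhs

/-- the average over `γ` at a fixed parameter -/
theorem l9f_siz_avg (I : L9I) (Mj : L9Mj) {N : ℕ} (hN : 1 ≤ N) (L : ℝ) (JS r : ℕ) (c : ℕ → ℝ) (θ c1 C1 c2 C2 w B : ℝ) (hB0 : 0 ≤ B)
    (hD : ∀ᵐ γ ∂ll04Mu N, I.Dif (l9PtS I.F N γ) θ)
    (hT : ∀ γ : Fin (N + 1) → ℝ, I.Dif (l9PtS I.F N γ) θ →
      (∀ j ∈ Finset.range (r + 1), I.s * ((I.m + j : ℕ) : ℝ) * I.psi (l9PtS I.F N γ θ) (I.m + j) ≤ 4 * L) →
      |deriv (fun t => I.psi (l9PtS I.F N γ t) I.m) θ + ∑ j ∈ Finset.range (r + 1), c j * (((I.m + j : ℕ) : ℝ) * I.psi (l9PtS I.F N γ θ) (I.m + j))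
          - I.DOE1 (l9PtS I.F N γ) 1 (1 / 6) JS θ| ≤ C1 * skX N ^ (5 + c1) * (1 + I.dot (l9PtS I.F N γ) θ))
    (hB : ∀ γ : Fin (N + 1) → ℝ, I.Dif (l9PtS I.F N γ) θ → I.s * (I.m : ℝ) * I.psi (l9PtS I.F N γ θ) I.m ≤ 4 * L →
      |I.DOE1 (l9PtS I.F N γ) 1 (1 / 6) JS θ|
        ≤ C2 * skX N ^ (5 + c2) * (Mj.Z I.F I.𝔹 I.Fs (l9PtS I.F N γ θ) I.m ^ 4 + Mj.Zg I.F I.𝔹 I.Fs (l9PtS I.F N γ θ) I.m * Mj.Z I.F I.𝔹 I.Fs (l9PtS I.F N γ θ) I.m ^ 2)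
            * (1 + I.dot (l9PtS I.F N γ) θ))
    (hw : ∀ γ : Fin (N + 1) → ℝ, I.Dif (l9PtS I.F N γ) θ → |1 + I.dot (l9PtS I.F N γ) θ| ≤ w)
    (hZ : ∀ γ : Fin (N + 1) → ℝ, 1 ≤ Mj.Z I.F I.𝔹 I.Fs (l9PtS I.F N γ θ) I.m ∧ 1 ≤ Mj.Zg I.F I.𝔹 I.Fs (l9PtS I.F N γ θ) I.m)
    (hZm : Measurable fun γ : Fin (N + 1) → ℝ => Mj.Z I.F I.𝔹 I.Fs (l9PtS I.F N γ θ) I.m)
    (hZgm : Measurable fun γ : Fin (N + 1) → ℝ => Mj.Zg I.F I.𝔹 I.Fs (l9PtS I.F N γ θ) I.m)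
    (hZ4 : ∫⁻ γ, ENNReal.ofReal (Mj.Z I.F I.𝔹 I.Fs (l9PtS I.F N γ θ) I.m ^ 4) ∂ll04Mu N ≤ ENNReal.ofReal B)
    (hZg2 : ∫⁻ γ, ENNReal.ofReal (Mj.Zg I.F I.𝔹 I.Fs (l9PtS I.F N γ θ) I.m ^ 2) ∂ll04Mu N ≤ ENNReal.ofReal B) :
    0 ≤ w ∧ ∫⁻ γ, ENNReal.ofReal (l9sS (fun γ θ m' => I.psi (l9PtS I.F N γ θ) m') I.s (4 * L) r c I.m (γ, θ)) ∂ll04Mu N
      ≤ ENNReal.ofReal (w * (|C1| * skX N ^ (5 + c1) + 2 * |C2| * skX N ^ (5 + c2) * (2 * B))) := by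
  have := ll04a_prob N
  have hx := (ll04w_x_mem hN).1
  have hw0 : 0 ≤ w := by
    obtain ⟨γ0, h0⟩ := hD.exists
    exact (abs_nonneg _).trans (hw γ0 h0)
  refine ⟨hw0, ?_⟩
  have hp1 : 0 ≤ skX N ^ (5 + c1) := (Real.rpow_pos_of_pos hx _).le
  have hp2 : 0 ≤ skX N ^ (5 + c2) := (Real.rpow_pos_of_pos hx _).le
  have hmono : ∀ᵐ γ ∂ll04Mu N, ENNReal.ofReal (l9sS (fun γ θ m' => I.psi (l9PtS I.F N γ θ) m') I.s (4 * L) r c I.m (γ, θ))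
      ≤ ENNReal.ofReal (w * (|C1| * skX N ^ (5 + c1)) + w * (2 * |C2| * skX N ^ (5 + c2))
          * (Mj.Z I.F I.𝔹 I.Fs (l9PtS I.F N γ θ) I.m ^ 4 + Mj.Zg I.F I.𝔹 I.Fs (l9PtS I.F N γ θ) I.m ^ 2)) := by
    filter_upwards [hD] with γ hγ
    exact ENNReal.ofReal_le_ofReal (l9f_siz_pt I Mj hN L JS r c γ θ c1 C1 c2 C2 w (hT γ hγ) (hB γ hγ) (hw γ hγ) (hZ γ).1 (hZ γ).2)
  refine le_trans (lintegral_mono_ae hmono) ?_
  have hsum : ∫⁻ γ, ENNReal.ofReal (Mj.Z I.F I.𝔹 I.Fs (l9PtS I.F N γ θ) I.m ^ 4 + Mj.Zg I.F I.𝔹 I.Fs (l9PtS I.F N γ θ) I.m ^ 2) ∂ll04Mu N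
      ≤ ENNReal.ofReal (2 * B) := by
    have e : ∀ γ : Fin (N + 1) → ℝ, ENNReal.ofReal (Mj.Z I.F I.𝔹 I.Fs (l9PtS I.F N γ θ) I.m ^ 4 + Mj.Zg I.F I.𝔹 I.Fs (l9PtS I.F N γ θ) I.m ^ 2)
        = ENNReal.ofReal (Mj.Z I.F I.𝔹 I.Fs (l9PtS I.F N γ θ) I.m ^ 4) + ENNReal.ofReal (Mj.Zg I.F I.𝔹 I.Fs (l9PtS I.F N γ θ) I.m ^ 2) :=
      fun γ => ENNReal.ofReal_add (by positivity) (by positivity)
    simp_rw [e]
    rw [lintegral_add_left (hZm.pow_const 4).ennreal_ofReal, two_mul, ENNReal.ofReal_add hB0 hB0]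
    exact add_le_add hZ4 hZg2
  have h := l9f_lint_affine (ll04Mu N) (fun γ => Mj.Z I.F I.𝔹 I.Fs (l9PtS I.F N γ θ) I.m ^ 4 + Mj.Zg I.F I.𝔹 I.Fs (l9PtS I.F N γ θ) I.m ^ 2)
    ((hZm.pow_const 4).add (hZgm.pow_const 2)) (fun γ => by positivity) (w * (|C1| * skX N ^ (5 + c1))) (w * (2 * |C2| * skX N ^ (5 + c2))) (2 * B)
    (by positivity) (by positivity) (by positivity) hsum
  refine h.trans (le_of_eq ?_)
  congr 1
  ring

/-- **the size segment**: integrability, and the envelope form of LL Prop. 4.1 (2) with the envelope `w(θ) A` -/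
theorem l9f_siz (𝔹 : LlBase) (Mj : L9Mj) (F : LlFix) {N : ℕ} (hN : 1 ≤ N) (s L : ℝ) (Fs : Finset GhPos) (JS r : ℕ) (c : ℕ → ℝ)
    (Θ : ℝ) (hΘ : Θ ∈ Icc (0 : ℝ) (Real.log 2)) (c1 C1 c2 C2 B B8 : ℝ)
    (hT : ∀ m : ℕ, N ≤ 2 * m → m + r ≤ 3 * N → ∀ (γ : Fin (N + 1) → ℝ) (θ : ℝ), θ ∈ Ioo (0 : ℝ) (Real.log 2) →
      (⟨F, 𝔹, s, Fs, m⟩ : L9I).Dif (l9PtS F N γ) θ →
      (∀ j ∈ Finset.range (r + 1), s * ((m + j : ℕ) : ℝ) * (⟨F, 𝔹, s, Fs, m⟩ : L9I).psi (l9PtS F N γ θ) (m + j) ≤ 4 * L) →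
      |deriv (fun t => (⟨F, 𝔹, s, Fs, m⟩ : L9I).psi (l9PtS F N γ t) m) θ
          + ∑ j ∈ Finset.range (r + 1), c j * (((m + j : ℕ) : ℝ) * (⟨F, 𝔹, s, Fs, m⟩ : L9I).psi (l9PtS F N γ θ) (m + j))
          - (⟨F, 𝔹, s, Fs, m⟩ : L9I).DOE1 (l9PtS F N γ) 1 (1 / 6) JS θ|
        ≤ C1 * skX N ^ (5 + c1) * (1 + (⟨F, 𝔹, s, Fs, m⟩ : L9I).dot (l9PtS F N γ) θ))
    (hB : ∀ m : ℕ, N ≤ 2 * m → m ≤ 3 * N → ∀ (γ : Fin (N + 1) → ℝ) (θ : ℝ), θ ∈ Ioo (0 : ℝ) (Real.log 2) →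
      (⟨F, 𝔹, s, Fs, m⟩ : L9I).Dif (l9PtS F N γ) θ →
      s * (m : ℝ) * (⟨F, 𝔹, s, Fs, m⟩ : L9I).psi (l9PtS F N γ θ) m ≤ 4 * L →
      |(⟨F, 𝔹, s, Fs, m⟩ : L9I).DOE1 (l9PtS F N γ) 1 (1 / 6) JS θ|
        ≤ C2 * skX N ^ (5 + c2) * (Mj.Z F 𝔹 Fs (l9PtS F N γ θ) m ^ 4 + Mj.Zg F 𝔹 Fs (l9PtS F N γ θ) m * Mj.Z F 𝔹 Fs (l9PtS F N γ θ) m ^ 2)
            * (1 + (⟨F, 𝔹, s, Fs, m⟩ : L9I).dot (l9PtS F N γ) θ))
    (hMom : ∀ m : ℕ, N ≤ 2 * m → m ≤ 3 * N →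
      Measurable (fun z : (Fin (N + 1) → ℝ) × ℝ => Mj.Z F 𝔹 Fs (ll04Siz F N (Real.log 2) z.1 z.2) m) ∧
      Measurable (fun z : (Fin (N + 1) → ℝ) × ℝ => Mj.Zg F 𝔹 Fs (ll04Siz F N (Real.log 2) z.1 z.2) m) ∧
      ∀ θ ∈ Icc (0 : ℝ) (Real.log 2),
        (∀ γ, 1 ≤ Mj.Z F 𝔹 Fs (ll04Siz F N (Real.log 2) γ θ) m ∧ 1 ≤ Mj.Zg F 𝔹 Fs (ll04Siz F N (Real.log 2) γ θ) m) ∧
        ∫⁻ γ, ENNReal.ofReal (Mj.Z F 𝔹 Fs (ll04Siz F N (Real.log 2) γ θ) m ^ 4) ∂ll04Mu N ≤ ENNReal.ofReal B ∧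
        ∫⁻ γ, ENNReal.ofReal (Mj.Zg F 𝔹 Fs (ll04Siz F N (Real.log 2) γ θ) m ^ 2) ∂ll04Mu N ≤ ENNReal.ofReal B)
    (hc : ∀ m : ℕ, N ≤ 2 * m → m ≤ 3 * N →
      Continuous fun z : (Fin (N + 1) → ℝ) × ℝ => (⟨F, 𝔹, s, Fs, m⟩ : L9I).psi (ll04Siz F N (Real.log 2) z.1 z.2) m)
    (hCts : (⟨F, 𝔹, s, Fs, N⟩ : L9I).Cts fun z : (Fin (N + 1) → ℝ) × ℝ => ll04Siz F N (Real.log 2) z.1 z.2)
    (hDif : ∀ γ : Fin (N + 1) → ℝ, ∀ᵐ θ : ℝ, θ ∈ Icc (0 : ℝ) (Real.log 2) → (⟨F, 𝔹, s, Fs, N⟩ : L9I).Dif (ll04Siz F N (Real.log 2) γ) θ)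
    (w : ℝ → ℝ) (hwi : IntegrableOn w (Icc (0 : ℝ) (Real.log 2))) (hwB : ∫ θ in Icc (0 : ℝ) (Real.log 2), w θ ≤ B8)
    (hw : ∀ᵐ θ : ℝ, θ ∈ Icc (0 : ℝ) (Real.log 2) → ∀ (γ : Fin (N + 1) → ℝ) (m : ℕ), N ≤ 2 * m → m ≤ 3 * N →
      (⟨F, 𝔹, s, Fs, m⟩ : L9I).Dif (l9PtS F N γ) θ → |1 + (⟨F, 𝔹, s, Fs, m⟩ : L9I).dot (l9PtS F N γ) θ| ≤ w θ) :
    (∀ m : ℕ, N ≤ 2 * m → m + r ≤ 3 * N →
      Integrable (l9sS (fun γ θ m' => l9Psi F 𝔹 s Fs (l9PtS F N γ (ll04U Θ θ)) m') s (4 * L) r c m) ((ll04Mu N).prod (volume.restrict (Icc (0 : ℝ) Θ)))) ∧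
    IntegrableOn (fun θ => w θ * (|C1| * skX N ^ (5 + c1) + 2 * |C2| * skX N ^ (5 + c2) * (2 * |B|))) (Icc (0 : ℝ) Θ) ∧
    ∫ θ in Icc (0 : ℝ) Θ, w θ * (|C1| * skX N ^ (5 + c1) + 2 * |C2| * skX N ^ (5 + c2) * (2 * |B|))
      ≤ B8 * (|C1| * skX N ^ (5 + c1) + 2 * |C2| * skX N ^ (5 + c2) * (2 * |B|)) ∧
    ∀ᵐ θ : ℝ, θ ∈ Icc (0 : ℝ) Θ → ∀ m : ℕ, N ≤ 2 * m → m + r ≤ 3 * N →
      ∫ γ, l9sS (fun γ θ m' => l9Psi F 𝔹 s Fs (l9PtS F N γ (ll04U Θ θ)) m') s (4 * L) r c m (γ, θ) ∂ll04Mu N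
        ≤ w θ * (|C1| * skX N ^ (5 + c1) + 2 * |C2| * skX N ^ (5 + c2) * (2 * |B|)) := by
  have := ll04a_prob N
  have hx := (ll04w_x_mem hN).1
  set A : ℝ := |C1| * skX N ^ (5 + c1) + 2 * |C2| * skX N ^ (5 + c2) * (2 * |B|) with hA
  have hA0 : 0 ≤ A := by
    have hp1 : 0 ≤ skX N ^ (5 + c1) := (Real.rpow_pos_of_pos hx _).le
    have hp2 : 0 ≤ skX N ^ (5 + c2) := (Real.rpow_pos_of_pos hx _).le
    rw [hA]; positivity
  have hsub : Icc (0 : ℝ) Θ ⊆ Icc (0 : ℝ) (Real.log 2) := Icc_subset_Icc le_rfl hΘ.2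
  -- Fubini: for almost every parameter, almost every `γ` is a point of differentiability
  have hDs : ∀ᵐ θ : ℝ, θ ∈ Icc (0 : ℝ) (Real.log 2) → ∀ᵐ γ ∂ll04Mu N, (⟨F, 𝔹, s, Fs, N⟩ : L9I).Dif (l9PtS F N γ) θ := by
    have h1 := (⟨F, 𝔹, s, Fs, N⟩ : L9I).dif_swap (ll04Mu N) (Icc (0 : ℝ) (Real.log 2)) measurableSet_Icc
      (fun γ θ => ll04Siz F N (Real.log 2) γ θ) hCts hDif
    refine l9f_ae_Ioo (Real.log 2) _ ?_
    filter_upwards [h1] with θ hθ hI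
    filter_upwards [hθ ⟨hI.1.le, hI.2.le⟩] with γ hγ
    exact (⟨F, 𝔹, s, Fs, N⟩ : L9I).dif_siz N (Real.log 2) γ hI hγ
  -- measurability
  have hmeas : ∀ m : ℕ, N ≤ 2 * m → m + r ≤ 3 * N →
      Measurable (l9sS (fun γ θ m' => l9Psi F 𝔹 s Fs (l9PtS F N γ (ll04U Θ θ)) m') s (4 * L) r c m) := by
    intro m hm1 hm2
    refine l9f_meas_S _ s (4 * L) r c m fun j hj => ?_
    have hj' : j ≤ r := by simpa [Nat.lt_succ_iff] using hj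
    have h1 : Continuous fun z : (Fin (N + 1) → ℝ) × ℝ => l9Psi F 𝔹 s Fs (ll04Siz F N (Real.log 2) z.1 z.2) (m + j) := hc (m + j) (by omega) (by omega)
    have hU : Continuous fun u : ℝ => ll04U Θ u := by
      unfold ll04U
      fun_prop
    have h2 : Continuous fun z : (Fin (N + 1) → ℝ) × ℝ => ((z.1, ll04U Θ z.2) : (Fin (N + 1) → ℝ) × ℝ) :=
      continuous_fst.prodMk (hU.comp continuous_snd)
    have e : (fun z : (Fin (N + 1) → ℝ) × ℝ => l9Psi F 𝔹 s Fs (l9PtS F N z.1 (ll04U Θ z.2)) (m + j))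
        = (fun z : (Fin (N + 1) → ℝ) × ℝ => l9Psi F 𝔹 s Fs (ll04Siz F N (Real.log 2) z.1 z.2) (m + j)) ∘
          fun z : (Fin (N + 1) → ℝ) × ℝ => ((z.1, ll04U Θ z.2) : (Fin (N + 1) → ℝ) × ℝ) := by
      funext z
      simp only [Function.comp]
      rw [l9f_siz_pt_eq F N z.1 (hsub (ll04w_U_mem hΘ.1 z.2))]
    show Continuous fun z : (Fin (N + 1) → ℝ) × ℝ => l9Psi F 𝔹 s Fs (l9PtS F N z.1 (ll04U Θ z.2)) (m + j)
    rw [e]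
    exact h1.comp h2
  -- the averages
  have hav : ∀ᵐ θ : ℝ, θ ∈ Icc (0 : ℝ) Θ → ∀ m : ℕ, N ≤ 2 * m → m + r ≤ 3 * N →
      0 ≤ w θ ∧ ∫⁻ γ, ENNReal.ofReal (l9sS (fun γ θ m' => l9Psi F 𝔹 s Fs (l9PtS F N γ (ll04U Θ θ)) m') s (4 * L) r c m (γ, θ)) ∂ll04Mu N
        ≤ ENNReal.ofReal (w θ * A) := by
    refine l9f_ae_Ioo Θ _ ?_
    filter_upwards [hw, hDs] with θ hθ hθD hI m hm1 hm2
    have hI2 : θ ∈ Icc (0 : ℝ) (Real.log 2) := hsub ⟨hI.1.le, hI.2.le⟩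
    have hI3 : θ ∈ Ioo (0 : ℝ) (Real.log 2) := ⟨hI.1, hI.2.trans_le hΘ.2⟩
    have hm3 : m ≤ 3 * N := by omega
    have e : ∀ γ : Fin (N + 1) → ℝ, l9sS (fun γ θ m' => l9Psi F 𝔹 s Fs (l9PtS F N γ (ll04U Θ θ)) m') s (4 * L) r c m (γ, θ)
        = l9sS (fun γ θ m' => l9Psi F 𝔹 s Fs (l9PtS F N γ θ) m') s (4 * L) r c m (γ, θ) :=
      fun γ => l9f_S_clamp (fun γ θ m' => l9Psi F 𝔹 s Fs (l9PtS F N γ θ) m') s (4 * L) r c m Θ γ hI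
    simp only [e]
    obtain ⟨hZm, hZgm, hθM⟩ := hMom m hm1 hm3
    obtain ⟨hZ1, hZ4, hZg2⟩ := hθM θ hI2
    have hZm' := hZm.comp (measurable_id.prodMk (measurable_const (a := θ)))
    have hZgm' := hZgm.comp (measurable_id.prodMk (measurable_const (a := θ)))
    have ept : ∀ γ : Fin (N + 1) → ℝ, ll04Siz F N (Real.log 2) γ θ = l9PtS F N γ θ := fun γ => l9f_siz_pt_eq F N γ hI2
    simp only [Function.comp_def, id, ept] at hZm' hZgm'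
    simp only [ept] at hZ1 hZ4 hZg2
    exact l9f_siz_avg ⟨F, 𝔹, s, Fs, m⟩ Mj hN L JS r c θ c1 C1 c2 C2 (w θ) |B| (abs_nonneg B)
      (by filter_upwards [hθD hI2] with γ hγ; exact L9I.dif_m N m hγ)
      (fun γ hγ => hT m hm1 hm2 γ θ hI3 hγ) (fun γ hγ => hB m hm1 hm3 γ θ hI3 hγ)
      (fun γ hγ => hθ hI2 γ m hm1 hm3 hγ) hZ1 hZm' hZgm'
      (hZ4.trans (ENNReal.ofReal_le_ofReal (le_abs_self B))) (hZg2.trans (ENNReal.ofReal_le_ofReal (le_abs_self B)))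
  -- sign of the envelope
  have hw0 : ∀ᵐ θ : ℝ, θ ∈ Icc (0 : ℝ) (Real.log 2) → 0 ≤ w θ := by
    filter_upwards [hw, hDs] with θ hθ hθD hI
    obtain ⟨γ0, h0⟩ := (hθD hI).exists
    exact (abs_nonneg _).trans (hθ hI γ0 N (by omega) (by omega) h0)
  have hei : IntegrableOn (fun θ => w θ * A) (Icc (0 : ℝ) Θ) := (hwi.mono_set hsub).mul_const A
  refine ⟨fun m hm1 hm2 => ?_, hei, ?_, ?_⟩
  · refine l9f_int_of_avg (ll04Mu N) (Icc (0 : ℝ) Θ) measurableSet_Icc _ (hmeas m hm1 hm2) (l9f_S_nonneg _ _ _ _ _ _) _ hei ?_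
    filter_upwards [hav] with θ hθ hI
    exact (hθ hI m hm1 hm2).2
  · rw [integral_mul_const]
    refine mul_le_mul_of_nonneg_right (le_trans ?_ hwB) hA0
    exact setIntegral_mono_set hwi ((ae_restrict_iff' measurableSet_Icc).2 hw0) (Filter.Eventually.of_forall hsub)
  · filter_upwards [hav] with θ hθ hI m hm1 hm2
    exact l9f_avg_of_lint (ll04Mu N) _ ((hmeas m hm1 hm2).comp (measurable_id.prodMk measurable_const)) (fun γ => l9f_S_nonneg _ _ _ _ _ _ _) _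
      (mul_nonneg (hθ hI m hm1 hm2).1 hA0) (hθ hI m hm1 hm2).2

/-! ### 6. the constants -/

theorem l9f_numD {X d δ p3 p4 p5 a A3 A4 A5 A7 : ℝ} (hδ : 0 < δ) (hd : 0 ≤ d) (h3 : p3 * d * d ≤ X) (h4 : p4 * d * d ≤ X) (h5 : p5 ≤ X)
    (ha : a ≤ 12 * (d / δ)) (hp3 : 0 ≤ p3) (hp4 : 0 ≤ p4) (hA3 : 0 ≤ A3) (hA4 : 0 ≤ A4) (hA5 : 0 ≤ A5) (hA7 : 0 ≤ A7) :
    A5 * p5 + a * (A3 * p3 + A4 * p4) * (A7 * d) ≤ (A5 + 12 / δ * (A3 + A4) * A7) * X := by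
  have t1 : a * (A3 * p3 + A4 * p4) * (A7 * d) ≤ 12 * (d / δ) * (A3 * p3 + A4 * p4) * (A7 * d) :=
    mul_le_mul_of_nonneg_right (mul_le_mul_of_nonneg_right ha (by positivity)) (by positivity)
  have t2 : 12 * (d / δ) * (A3 * p3 + A4 * p4) * (A7 * d) = 12 / δ * A7 * (A3 * (p3 * d * d) + A4 * (p4 * d * d)) := by
    field_simp
  have t3 : 12 / δ * A7 * (A3 * (p3 * d * d) + A4 * (p4 * d * d)) ≤ 12 / δ * A7 * (A3 * X + A4 * X) :=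
    mul_le_mul_of_nonneg_left (add_le_add (mul_le_mul_of_nonneg_left h3 hA3) (mul_le_mul_of_nonneg_left h4 hA4)) (by positivity)
  have t4 : A5 * p5 ≤ A5 * X := mul_le_mul_of_nonneg_left h5 hA5
  calc A5 * p5 + a * (A3 * p3 + A4 * p4) * (A7 * d) ≤ A5 * X + 12 / δ * A7 * (A3 * X + A4 * X) := by linarith
    _ = _ := by ring

theorem l9f_numS {X d p1 p2 A1 A2 A7 A8 B8 : ℝ} (hd : 0 ≤ d) (h1 : p1 * d ≤ X) (h2 : p2 * d * d ≤ X) (hB8 : B8 ≤ A8 * d)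
    (hp1 : 0 ≤ p1) (hp2 : 0 ≤ p2) (hA1 : 0 ≤ A1) (hA2 : 0 ≤ A2) (hA7 : 0 ≤ A7) (hA8 : 0 ≤ A8) :
    B8 * (A1 * p1 + 2 * A2 * p2 * (2 * (A7 * d))) ≤ A8 * (A1 + 4 * A2 * A7) * X := by
  have t1 : B8 * (A1 * p1 + 2 * A2 * p2 * (2 * (A7 * d))) ≤ A8 * d * (A1 * p1 + 2 * A2 * p2 * (2 * (A7 * d))) :=
    mul_le_mul_of_nonneg_right hB8 (by positivity)
  have t2 : A8 * d * (A1 * p1 + 2 * A2 * p2 * (2 * (A7 * d))) = A8 * (A1 * (p1 * d) + 4 * A2 * A7 * (p2 * d * d)) := by ring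
  have t3 : A8 * (A1 * (p1 * d) + 4 * A2 * A7 * (p2 * d * d)) ≤ A8 * (A1 * X + 4 * A2 * A7 * X) :=
    mul_le_mul_of_nonneg_left (add_le_add (mul_le_mul_of_nonneg_left h1 hA1) (mul_le_mul_of_nonneg_left h2 (by positivity))) hA8
  calc B8 * (A1 * p1 + 2 * A2 * p2 * (2 * (A7 * d))) ≤ A8 * (A1 * X + 4 * A2 * A7 * X) := by linarith
    _ = _ := by ring

/-- **FIN** (LL Sec. 10, l.150-230): the stopped increment bounds on one chain from the nodes of `L09/Contract`. -/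
theorem l9_fin (𝔹 : LlBase) (Mj : L9Mj) (F : LlFix) (hF : F.Ok) (hp : F.pS ≤ 12) (κ : ℝ) (JS JD : ℕ)
    (hTRS : L9TRS 𝔹 JS F) (hBS : L9BndS 𝔹 Mj JS F) (hTRD : L9TRD 𝔹 Mj κ JD F) (hBD : L9BndD 𝔹 Mj κ JD F)
    (hCo : L9Coarse 𝔹 Mj κ F) (hSw : L9Switch 𝔹 F) (hMom : L9Mom 𝔹 Mj F) (hReg : L9Reg 𝔹 F) : L9Inc 𝔹 F := by
  obtain ⟨c1, hc1, ε1, hε1, hTRS⟩ := hTRS
  obtain ⟨c2, hc2, ε2, hε2, hBS⟩ := hBS
  obtain ⟨c3, hc3, ε3, hε3, hTRD⟩ := hTRD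
  obtain ⟨c4, hc4, ε4, hε4, hBD⟩ := hBD
  obtain ⟨c5, hc5, ε5, hε5, hCo⟩ := hCo
  obtain ⟨c6, hc6, ε6, hε6, hSw⟩ := hSw
  obtain ⟨cm, hcm, hm1, hm2, hm3, hm4, hm5, hm6⟩ : ∃ cm : ℝ, 0 < cm ∧ cm ≤ c1 ∧ cm ≤ c2 ∧ cm ≤ c3 ∧ cm ≤ c4 ∧ cm ≤ c5 ∧ cm ≤ c6 := by
    refine ⟨min c1 (min c2 (min c3 (min c4 (min c5 c6)))), by simp [*], ?_, ?_, ?_, ?_, ?_, ?_⟩ <;> simp
  obtain ⟨εm, hεm, he1, he2, he3, he4, he5, he6⟩ : ∃ εm : ℝ, 0 < εm ∧ εm ≤ ε1 ∧ εm ≤ ε2 ∧ εm ≤ ε3 ∧ εm ≤ ε4 ∧ εm ≤ ε5 ∧ εm ≤ ε6 := by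
    refine ⟨min ε1 (min ε2 (min ε3 (min ε4 (min ε5 ε6)))), by simp [*], ?_, ?_, ?_, ?_, ?_, ?_⟩ <;> simp
  refine ⟨cm / 2, by positivity, εm, hεm, fun ε hε hεlt q hq => ?_⟩
  obtain ⟨r0, hTRS⟩ := hTRS ε hε (hεlt.trans_le he1) q hq
  refine ⟨r0, fun r hr c hc => ?_⟩
  obtain ⟨C1, N1, hTRS⟩ := hTRS r hr c hc
  obtain ⟨C2, N2, hBS⟩ := hBS ε hε (hεlt.trans_le he2) q hq
  obtain ⟨C3, N3, hTRD⟩ := hTRD ε hε (hεlt.trans_le he3) q hq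
  obtain ⟨C4, N4, hBD⟩ := hBD ε hε (hεlt.trans_le he4) q hq
  obtain ⟨C5, N5, hCo⟩ := hCo ε hε (hεlt.trans_le he5) q hq
  obtain ⟨C6, N6, hSw⟩ := hSw ε hε (hεlt.trans_le he6) q hq
  have hδ : 0 < cm / 8 := by positivity
  obtain ⟨C7, N7, hMom⟩ := hMom (cm / 8) hδ
  obtain ⟨C8, N8, hReg⟩ := hReg (cm / 8) hδ q ε hq hε
  refine ⟨|C6| + (|C5| + 12 / (cm / 8) * (|C3| + |C4|) * |C7|) + |C8| * (|C1| + 4 * |C2| * |C7|),
    N1 + N2 + N3 + N4 + N5 + N6 + N7 + N8 + r + 1, fun N hN N' hNN' hN'2 => ?_⟩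
  filter_upwards [hTRS N (by omega), hBS N (by omega), hTRD N (by omega), hBD N (by omega), hCo N (by omega), hSw N (by omega),
    hMom N (by omega), hReg N (by omega)] with Fs h1 h2 h3 h4 h5 h6 h7 h8
  have hN1 : 1 ≤ N := by omega
  have hx := ll04w_x_mem hN1
  have hΘ := ll04w_theta hN1 hNN' hN'2
  have hell := ll04w_ell hN1 hNN' hN'2
  generalize hs : q * skX N ^ (1 + ε) = s at h1 h2 h3 h4 h5 h6 h8 ⊢
  generalize hL : skX N ^ ε = L at h1 h2 h3 h4 h5 h6 ⊢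
  obtain ⟨h8a, w, hwi, hwB, hw⟩ := h8
  -- numbers
  set δ : ℝ := cm / 8 with hδd
  set d : ℝ := skX N ^ (-δ) with hd
  set X : ℝ := skX N ^ (5 + cm / 2) with hX
  have hd0 : 0 ≤ d := (Real.rpow_pos_of_pos hx.1 _).le
  have hX0 : 0 ≤ X := (Real.rpow_pos_of_pos hx.1 _).le
  have hpp : ∀ y : ℝ, 0 ≤ skX N ^ y := fun y => (Real.rpow_pos_of_pos hx.1 _).le
  have hK1 : 0 ≤ |C5| + 12 / δ * (|C3| + |C4|) * |C7| := by positivity
  have hK2 : 0 ≤ |C8| * (|C1| + 4 * |C2| * |C7|) := by positivity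
  -- the size segment
  have hS := l9f_siz 𝔹 Mj F hN1 s L Fs JS r c _ hΘ c1 C1 c2 C2 (C7 * d) (C8 * d) h1 h2
    (fun m a b => (h7 m a b).2) (fun m a b => (h8a m a b).2.1) (h8a N (by omega) (by omega)).2.2.2.1 (h8a N (by omega) (by omega)).2.2.2.2 w hwi hwB hw
  obtain ⟨hS1, hS2, hS3, hS4⟩ := hS
  have hSnum : C8 * d * (|C1| * skX N ^ (5 + c1) + 2 * |C2| * skX N ^ (5 + c2) * (2 * |C7 * d|)) ≤ |C8| * (|C1| + 4 * |C2| * |C7|) * X := by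
    rw [abs_mul, abs_of_nonneg hd0]
    exact l9f_numS hd0 (l9f_num1 hx hδ.le (by rw [hδd]; linarith)) (l9f_num2 hx (by rw [hδd]; linarith))
      (mul_le_mul_of_nonneg_right (le_abs_self C8) hd0) (hpp _) (hpp _) (abs_nonneg _) (abs_nonneg _) (abs_nonneg _) (abs_nonneg _)
  -- the direct segments
  have hdir : ∀ (e : Fin 2) (i : Fin 3) (m : ℕ), N ≤ 2 * m → m ≤ 3 * N →
      ∫⁻ z, ENNReal.ofReal (l9sD (fun γ τ => (⟨F, 𝔹, s, Fs, m⟩ : L9I).psi (ll04Dir F N (ll04Ell N N' e) i γ τ) m) (s * m) (4 * L) z)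
          ∂((ll04Mu N).prod (volume.restrict (Icc (0 : ℝ) 1)))
        ≤ ENNReal.ofReal ((|C6| + (|C5| + 12 / δ * (|C3| + |C4|) * |C7|) + |C8| * (|C1| + 4 * |C2| * |C7|)) * X) := by
    intro e i m a b
    by_cases hi : i = 0
    · subst hi
      have hM := (h7 m a b).1 _ (hell e)
      have h := l9f_dir_str ⟨F, 𝔹, s, Fs, m⟩ Mj hp κ JD hN1 L (ll04Ell N N' e) c3 C3 c4 C4 (|C5| * skX N ^ (5 + c5)) (|C7| * d)
        (mul_nonneg (abs_nonneg _) (hpp _)) (mul_nonneg (abs_nonneg _) hd0) (h3 m a b _ (hell e)) (h4 m a b _ (hell e))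
        ((h5 m a b _ (hell e)).trans (ENNReal.ofReal_le_ofReal (mul_le_mul_of_nonneg_right (le_abs_self C5) (hpp _))))
        hM.1 (fun t ht => ((hM.2 t ht).2).trans (ENNReal.ofReal_le_ofReal (mul_le_mul_of_nonneg_right (le_abs_self C7) hd0)))
        ((h8a m a b).1 _ (hell e)).2.2.1 ((h8a m a b).1 _ (hell e)).2.2.2
      refine h.trans (ENNReal.ofReal_le_ofReal ?_)
      have ha : |(F.pS - 12) * Real.log (skX N)| ≤ 12 * (d / δ) := by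
        rw [abs_mul]
        refine mul_le_mul ?_ (l9f_log hx hδ) (abs_nonneg _) (by norm_num)
        rw [abs_le]
        constructor <;> linarith [hF.pS0]
      have hnum := l9f_numD (X := X) (A3 := |C3|) (A4 := |C4|) (A5 := |C5|) (A7 := |C7|) hδ hd0
        (l9f_num2 (c := c3) hx (by rw [hδd]; linarith)) (l9f_num2 (c := c4) hx (by rw [hδd]; linarith))
        (l9f_num0 (c := c5) hx hδ.le (by rw [hδd]; linarith)) ha (hpp _) (hpp _) (abs_nonneg _) (abs_nonneg _) (abs_nonneg _) (abs_nonneg _)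
      refine hnum.trans (mul_le_mul_of_nonneg_right ?_ hX0)
      linarith [abs_nonneg C6]
    · have h := l9f_dir_sw ⟨F, 𝔹, s, Fs, m⟩ L (ll04Ell N N' e) i (|C6| * skX N ^ (5 + c6))
        ((h6 m a b _ (hell e) i hi).trans (ENNReal.ofReal_le_ofReal (mul_le_mul_of_nonneg_right (le_abs_self C6) (hpp _))))
      refine h.trans (ENNReal.ofReal_le_ofReal ?_)
      have t1 : |C6| * skX N ^ (5 + c6) ≤ |C6| * X :=
        mul_le_mul_of_nonneg_left (l9f_num0 (c := c6) hx hδ.le (by rw [hδd]; linarith)) (abs_nonneg _)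
      refine t1.trans (mul_le_mul_of_nonneg_right ?_ hX0)
      linarith
  show L9IncF (l9Path F 𝔹 N N' s Fs) N N' s (4 / 3 * L) r c _ _
  refine ⟨?_, ?_, ?_, ?_, ?_, ?_⟩
  · -- ac_dir
    intro e i γ m a b
    exact ((h8a m a b).1 _ (hell e)).2.1 i γ
  · -- ac_siz
    intro γ m a b
    have hac := (h8a m a b).2.2.1 γ
    refine l9f_ac_congr (hac.mono ?_) ?_
    · rw [uIcc_of_le hΘ.1, uIcc_of_le (hΘ.1.trans hΘ.2)]
      exact Icc_subset_Icc le_rfl hΘ.2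
    · intro θ hθ
      rw [uIcc_of_le hΘ.1] at hθ
      show l9Psi F 𝔹 s Fs (ll04Siz F N _ γ θ) m = l9Psi F 𝔹 s Fs (ll04Siz F N (Real.log 2) γ θ) m
      rw [l9f_siz_pt_eq F N γ hθ, l9f_siz_pt_eq F N γ (Icc_subset_Icc le_rfl hΘ.2 hθ)]
  · -- int_dir
    intro e i m a b
    show Integrable ((l9Path F 𝔹 N N' s Fs).aD s (4 / 3 * L) e i m) ((ll04Mu N).prod (volume.restrict (Icc (0 : ℝ) 1)))
    rw [l9f_aD_eq]
    exact l9f_int_of_lint _ _ (l9f_meas_D _ (((h8a m a b).1 _ (hell e)).1 i) _ _) (l9f_D_nonneg _ _ _) _ (hdir e i m a b)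
  · -- inc_dir
    intro e i m a b
    show ∫ p, (l9Path F 𝔹 N N' s Fs).aD s (4 / 3 * L) e i m p ∂((ll04Mu N).prod (volume.restrict (Icc (0 : ℝ) 1))) ≤ _
    rw [l9f_aD_eq]
    exact l9f_le_of_lintegral _ _ (l9f_meas_D _ (((h8a m a b).1 _ (hell e)).1 i) _ _) (l9f_D_nonneg _ _ _) _
      (mul_nonneg (by linarith [abs_nonneg C6]) hX0) (hdir e i m a b)
  · -- int_siz
    intro m a b
    show Integrable ((l9Path F 𝔹 N N' s Fs).aS s (4 / 3 * L) r c m) ((ll04Mu N).prod (volume.restrict (Icc (0 : ℝ) (Real.log ((N' : ℝ) / N)))))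
    rw [l9f_aS_eq]
    exact hS1 m a b
  · -- inc_siz
    intro W hWc hW0 hW1 hWs
    have hpr : IsProbabilityMeasure (l9Path F 𝔹 N N' s Fs).μ := ll04a_prob N
    refine ll04e_main (l9Path F 𝔹 N N' s Fs) N r c s (4 / 3 * L) (Real.log ((N' : ℝ) / N)) _ ?_ _ hS2 (hS3.trans (hSnum.trans ?_)) ⟨N, by omega, by omega⟩ ?_
      W hWc hW0 hW1 hWs
    · intro m a b
      show Integrable ((l9Path F 𝔹 N N' s Fs).aS s (4 / 3 * L) r c m) ((ll04Mu N).prod (volume.restrict (Icc (0 : ℝ) (Real.log ((N' : ℝ) / N)))))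
      rw [l9f_aS_eq]
      exact hS1 m a b
    · refine mul_le_mul_of_nonneg_right ?_ hX0
      linarith [abs_nonneg C6]
    · filter_upwards [hS4] with θ hθ hI m a b
      show ∫ γ, (l9Path F 𝔹 N N' s Fs).aS s (4 / 3 * L) r c m (γ, θ) ∂(ll04Mu N) ≤ _
      rw [l9f_aS_eq]
      exact hθ hI m a b

end Claimed.Agent.R286
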