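import Claimed.Agent.R286.L09.ChDPsi
import Claimed.Agent.R286.L09.ChDQ
import Claimed.Agent.R286.Brg.Osc

/-!
# Row 286 (S0533), unit L09, node REG, file Reg : REGULARITY IN THE PATH PARAMETER ON ONE CHAIN, ABSTRACT HALF      (owner helper260 = head of REG; prefix `l9rg_`, `L9Rc`)      no sorry

What FIN uses of the dependence of the chain numbers on (`γ`, path parameter), from CLOCK-LEVEL contracts (produced from the P-list of LL Sec. 3 in `L09/RegIn.lean`).   Design: 216 (`notes/R286/REG_216.md`), 151 (step calculus), 260.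
* §1 VALUES   `l9rg_at_lin`: ANY linear inequality between finitely many admissible clocks which holds at all masses of `(0,a]` holds at EVERY position (`ghAt` = convex combination of one-sided limits);
              corollaries `l9rg_at_dom`, `l9rg_at_abs`, `l9rg_at_le`.
* §2 real lemmas   `l9rg_deriv_dom` (domination of right increments passes to derivatives), `l9rg_anti_int` (derivative of an antitone function: integrable, integral `≤` the drop), `l9rg_gap_sum`.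
* §3 `L9Clk a c` = `GhClk1 a c` + no jump at the terminal mass;   the same transfers from inequalities on the OPEN interval `(0,a)`: `l9rg_dom`, `l9rg_abs`, `l9rg_le`;   `l9rg_cases`: `bC j, hC j, KC j` = values at ONE position.
* §4 ITEM (d)   `L9RcS` (along `[t0,t1]`: `K` free of `γ`, ANTITONE in the parameter at every mass, `≤ A`; `|Δb|, |Δh| ≤ A (drop of K) + A Δt`)   ⟹   `l9rg_env'`: a `γ, s, m`-free envelope `w` of `1 + I.dot` at ALL points of `I.Dif`,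
              `∫ w ≤ (1 + 2 A a)(t1 - t0) + (2 A + 1 + 44 a²)(a + 1) A`.      `w = c_1 + c_2 (- G')`, `G = ∑ gap_j KC_j + KC_top` antitone.      (The Lipschitz constant `C/ω` of the smoothed clocks is useless here; `RegT.l1` does not see a fixed chain.)
              `q̇` of the STEP model: LEAF Q of 151 (`l9q_I_q`).
* §5 ITEMS (a), (b), (c)   `L9RcAt` (sup-norm Lipschitz twin of `Ll04ClkAt`, any constant)   ⟹   `psi_cont`, `val_cont`, `psi_ac`, `ae_dif`.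
-/
set_option autoImplicit false

namespace Claimed.Agent.R286

open MeasureTheory Set Filter Topology

/-! ## 1. VALUES: linear inequalities between admissible clocks pass to the positions -/

theorem l9rg_clamp_eq {a v : ℝ} (c : ℝ → ℝ) (h0 : 0 ≤ v) (h1 : v ≤ a) : ghClamp a c v = c v := by
  unfold ghClamp
  rw [if_neg (not_lt.2 h0), min_eq_left h1]

/-- a linear inequality between finitely many admissible clocks, valid at all masses of `(0,a]`, holds at every position -/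
theorem l9rg_at_lin {ι : Type} (s : Finset ι) (α : ι → ℝ) (c : ι → ℝ → ℝ) {a D : ℝ} (ha : 0 < a)
    (hc : ∀ i ∈ s, GhClk1 a (c i)) (hD : 0 ≤ D) (h : ∀ v ∈ Ioc 0 a, ∑ i ∈ s, α i * c i v ≤ D) {p : GhPos} (hp : p.Ok a) :
    ∑ i ∈ s, α i * ghAt a (c i) p ≤ D := by
  obtain ⟨hu0, hua, hl0, hl1⟩ := hp
  have hL : ∑ i ∈ s, α i * Function.leftLim (ghClamp a (c i)) p.u ≤ D := by
    rcases hu0.eq_or_lt with h0 | h0
    · have : ∑ i ∈ s, α i * Function.leftLim (ghClamp a (c i)) p.u = 0 :=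
        Finset.sum_eq_zero fun i _ => by rw [gh_os_left_zero a (c i) h0.ge, mul_zero]
      rw [this]; exact hD
    · have ht : Tendsto (fun v => ∑ i ∈ s, α i * ghClamp a (c i) v) (𝓝[<] p.u)
          (𝓝 (∑ i ∈ s, α i * Function.leftLim (ghClamp a (c i)) p.u)) :=
        tendsto_finsetSum _ fun i hi => ((gh_os_clamp_mono ha.le (hc i hi)).tendsto_leftLim p.u).const_mul _
      refine le_of_tendsto ht ?_
      filter_upwards [Ioo_mem_nhdsLT h0] with v hv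
      have hva : v ≤ a := hv.2.le.trans hua
      have e : ∑ i ∈ s, α i * ghClamp a (c i) v = ∑ i ∈ s, α i * c i v :=
        Finset.sum_congr rfl fun i _ => by rw [l9rg_clamp_eq (c i) hv.1.le hva]
      rw [e]; exact h v ⟨hv.1, hva⟩
  have hR : ∑ i ∈ s, α i * Function.rightLim (ghClamp a (c i)) p.u ≤ D := by
    rcases hua.eq_or_lt with h0 | h0
    · have : ∑ i ∈ s, α i * Function.rightLim (ghClamp a (c i)) p.u = ∑ i ∈ s, α i * c i a :=
        Finset.sum_congr rfl fun i _ => by rw [gh_os_right_top a (c i) ha.le h0.ge]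
      rw [this]; exact h a ⟨ha, le_rfl⟩
    · have ht : Tendsto (fun v => ∑ i ∈ s, α i * ghClamp a (c i) v) (𝓝[>] p.u)
          (𝓝 (∑ i ∈ s, α i * Function.rightLim (ghClamp a (c i)) p.u)) :=
        tendsto_finsetSum _ fun i hi => ((gh_os_clamp_mono ha.le (hc i hi)).tendsto_rightLim p.u).const_mul _
      refine le_of_tendsto ht ?_
      filter_upwards [Ioo_mem_nhdsGT h0] with v hv
      have hv0 : 0 < v := hu0.trans_lt hv.1
      have e : ∑ i ∈ s, α i * ghClamp a (c i) v = ∑ i ∈ s, α i * c i v :=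
        Finset.sum_congr rfl fun i _ => by rw [l9rg_clamp_eq (c i) hv0.le hv.2.le]
      rw [e]; exact h v ⟨hv0, hv.2.le⟩
  have e : ∑ i ∈ s, α i * ghAt a (c i) p
      = (1 - p.lam) * ∑ i ∈ s, α i * Function.leftLim (ghClamp a (c i)) p.u
        + p.lam * ∑ i ∈ s, α i * Function.rightLim (ghClamp a (c i)) p.u := by
    rw [Finset.mul_sum, Finset.mul_sum, ← Finset.sum_add_distrib]
    refine Finset.sum_congr rfl fun i _ => ?_
    unfold ghAt; ring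
  rw [e]
  nlinarith [mul_le_mul_of_nonneg_left hL (sub_nonneg.2 hl1), mul_le_mul_of_nonneg_left hR hl0]

/-- domination: `|c - c'| ≤ A (k - k') + D` at all masses passes to the positions -/
theorem l9rg_at_dom {a A D : ℝ} (ha : 0 < a) {c c' k k' : ℝ → ℝ} (hc : GhClk1 a c) (hc' : GhClk1 a c') (hk : GhClk1 a k) (hk' : GhClk1 a k')
    (hD : 0 ≤ D) (h : ∀ v ∈ Ioc 0 a, |c v - c' v| ≤ A * (k v - k' v) + D) {p : GhPos} (hp : p.Ok a) :
    |ghAt a c p - ghAt a c' p| ≤ A * (ghAt a k p - ghAt a k' p) + D := by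
  have adm : ∀ i ∈ (Finset.univ : Finset (Fin 4)), GhClk1 a ((![c, c', k, k'] : Fin 4 → ℝ → ℝ) i) := by
    intro i _
    fin_cases i
    · exact hc
    · exact hc'
    · exact hk
    · exact hk'
  have h1 := l9rg_at_lin Finset.univ ![1, -1, -A, A] ![c, c', k, k'] ha adm hD (p := p) (fun v hv => by
    have := (abs_le.1 (h v hv)).2
    simp only [Fin.sum_univ_four, Matrix.cons_val_zero, Matrix.cons_val_one, Matrix.cons_val]
    linarith) hp
  have h2 := l9rg_at_lin Finset.univ ![-1, 1, -A, A] ![c, c', k, k'] ha adm hD (p := p) (fun v hv => by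
    have := (abs_le.1 (h v hv)).1
    simp only [Fin.sum_univ_four, Matrix.cons_val_zero, Matrix.cons_val_one, Matrix.cons_val]
    linarith) hp
  simp only [Fin.sum_univ_four, Matrix.cons_val_zero, Matrix.cons_val_one, Matrix.cons_val] at h1 h2
  rw [abs_le]
  constructor <;> linarith

/-- sup-norm bound -/
theorem l9rg_at_abs {a D : ℝ} (ha : 0 < a) {c c' : ℝ → ℝ} (hc : GhClk1 a c) (hc' : GhClk1 a c')
    (hD : 0 ≤ D) (h : ∀ v ∈ Ioc 0 a, |c v - c' v| ≤ D) {p : GhPos} (hp : p.Ok a) : |ghAt a c p - ghAt a c' p| ≤ D := by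
  have := l9rg_at_dom (A := 0) ha hc hc' hc hc hD (fun v hv => by simpa using h v hv) hp
  simpa using this

/-- order -/
theorem l9rg_at_le {a : ℝ} (ha : 0 < a) {c c' : ℝ → ℝ} (hc : GhClk1 a c) (hc' : GhClk1 a c')
    (h : ∀ v ∈ Ioc 0 a, c v ≤ c' v) {p : GhPos} (hp : p.Ok a) : ghAt a c p ≤ ghAt a c' p := by
  have adm : ∀ i ∈ (Finset.univ : Finset (Fin 2)), GhClk1 a ((![c, c'] : Fin 2 → ℝ → ℝ) i) := by
    intro i _
    fin_cases i
    · exact hc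
    · exact hc'
  have h1 := l9rg_at_lin Finset.univ ![1, -1] ![c, c'] ha adm le_rfl (p := p) (fun v hv => by
    have := h v hv
    simp only [Fin.sum_univ_two, Matrix.cons_val_zero, Matrix.cons_val_one]
    linarith) hp
  simp only [Fin.sum_univ_two, Matrix.cons_val_zero, Matrix.cons_val_one] at h1
  linarith


/-! ## 2. real lemmas -/

/-- domination of increments to the right passes to the derivatives -/
theorem l9rg_deriv_dom {f g : ℝ → ℝ} {t A E : ℝ} (hf : DifferentiableAt ℝ f t) (hg : DifferentiableAt ℝ g t)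
    (h : ∀ᶠ t' in 𝓝[>] t, |f t' - f t| ≤ A * (g t - g t') + E * (t' - t)) : |deriv f t| ≤ A * (-deriv g t) + E := by
  have hsub : 𝓝[>] t ≤ 𝓝[≠] t := nhdsWithin_mono _ fun x hx => ne_of_gt hx
  have h1 : Tendsto (slope f t) (𝓝[>] t) (𝓝 (deriv f t)) := (hasDerivAt_iff_tendsto_slope.1 hf.hasDerivAt).mono_left hsub
  have h2 : Tendsto (slope g t) (𝓝[>] t) (𝓝 (deriv g t)) := (hasDerivAt_iff_tendsto_slope.1 hg.hasDerivAt).mono_left hsub
  refine le_of_tendsto_of_tendsto h1.abs ((h2.neg.const_mul A).add_const E) ?_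
  filter_upwards [h, self_mem_nhdsWithin] with t' ht' hgt
  have hpos : 0 < t' - t := sub_pos.2 hgt
  rw [slope_def_field, slope_def_field, abs_div, abs_of_pos hpos, div_le_iff₀ hpos]
  have e : (A * -((g t' - g t) / (t' - t)) + E) * (t' - t) = A * (g t - g t') + E * (t' - t) := by
    field_simp
    ring
  rw [e]; exact ht'

/-- the derivative of a function which does not increase to the right is `≤ 0` -/
theorem l9rg_deriv_nonpos {g : ℝ → ℝ} {t : ℝ} (hg : DifferentiableAt ℝ g t) (h : ∀ᶠ t' in 𝓝[>] t, g t' ≤ g t) : deriv g t ≤ 0 := by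
  have hsub : 𝓝[>] t ≤ 𝓝[≠] t := nhdsWithin_mono _ fun x hx => ne_of_gt hx
  have h2 : Tendsto (slope g t) (𝓝[>] t) (𝓝 (deriv g t)) := (hasDerivAt_iff_tendsto_slope.1 hg.hasDerivAt).mono_left hsub
  refine le_of_tendsto h2 ?_
  filter_upwards [h, self_mem_nhdsWithin] with t' ht' hgt
  have hpos : 0 < t' - t := sub_pos.2 hgt
  rw [slope_def_field]
  exact div_nonpos_of_nonpos_of_nonneg (by linarith) hpos.le

/-- the (a.e.) derivative of an antitone function: integrable, with integral at most the total drop -/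
theorem l9rg_anti_int {G : ℝ → ℝ} {t0 t1 : ℝ} (h01 : t0 ≤ t1) (hG : AntitoneOn G (Icc t0 t1)) :
    IntegrableOn (fun t => -deriv G t) (Icc t0 t1) ∧ ∫ t in Icc t0 t1, -deriv G t ≤ G t0 - G t1 := by
  have hm : MonotoneOn (fun t => -G t) (uIcc t0 t1) := by
    rw [uIcc_of_le h01]
    exact fun x hx y hy hxy => neg_le_neg (hG hx hy hxy)
  have e : deriv (fun t => -G t) = fun t => -deriv G t := by
    funext t
    exact deriv.fun_neg
  have h1 := hm.intervalIntegrable_deriv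
  have h2 := hm.intervalIntegral_deriv_mem_uIcc
  rw [e] at h1 h2
  refine ⟨(intervalIntegrable_iff_integrableOn_Icc_of_le h01).1 h1, ?_⟩
  rw [integral_Icc_eq_integral_Ioc, ← intervalIntegral.integral_of_le h01]
  have h3 : (0 : ℝ) ≤ -G t1 - -G t0 := by
    have := hG (left_mem_Icc.2 h01) (right_mem_Icc.2 h01) h01
    linarith
  rw [uIcc_of_le h3] at h2
  linarith [h2.2]

theorem l9rg_gap_sum (a : ℝ) (P : SkStp) : ∑ j ∈ Finset.range (P.length + 1), skGap a P j = a := by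
  have key : ∀ n : ℕ, ∑ j ∈ Finset.range (n + 1), skGap a P j = skMs a P n := by
    intro n
    induction n with
    | zero => simp [skGap]
    | succ n ih =>
        rw [Finset.sum_range_succ, ih]
        unfold skGap
        rw [if_neg (Nat.succ_ne_zero n)]
        simp
  rw [key]
  unfold skMs
  rw [List.getD_eq_default]
  simp

/-! ## 3. the clock values of the chain -/

/-- admissible clock without a jump at the terminal mass -/
def L9Clk (a : ℝ) (c : ℝ → ℝ) : Prop := GhClk1 a c ∧ Tendsto c (𝓝[<] a) (𝓝 (c a))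

/-- a linear inequality on the OPEN interval extends to the terminal mass -/
theorem l9rg_ioc {ι : Type} (s : Finset ι) (α : ι → ℝ) (c : ι → ℝ → ℝ) {a D : ℝ} (ha : 0 < a)
    (hc : ∀ i ∈ s, Tendsto (c i) (𝓝[<] a) (𝓝 (c i a))) (h : ∀ v ∈ Ioo 0 a, ∑ i ∈ s, α i * c i v ≤ D) :
    ∀ v ∈ Ioc 0 a, ∑ i ∈ s, α i * c i v ≤ D := by
  intro v hv
  rcases hv.2.eq_or_lt with h0 | h0
  · subst h0
    have ht : Tendsto (fun u => ∑ i ∈ s, α i * c i u) (𝓝[<] v) (𝓝 (∑ i ∈ s, α i * c i v)) :=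
      tendsto_finsetSum _ fun i hi => (hc i hi).const_mul _
    refine le_of_tendsto ht ?_
    filter_upwards [Ioo_mem_nhdsLT ha] with u hu
    exact h u hu
  · exact h v ⟨hv.1, h0⟩

/-- domination on the open interval -/
theorem l9rg_dom {a A D : ℝ} (ha : 0 < a) {c c' k k' : ℝ → ℝ} (hc : L9Clk a c) (hc' : L9Clk a c') (hk : L9Clk a k) (hk' : L9Clk a k')
    (hD : 0 ≤ D) (h : ∀ v ∈ Ioo 0 a, |c v - c' v| ≤ A * (k v - k' v) + D) {p : GhPos} (hp : p.Ok a) :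
    |ghAt a c p - ghAt a c' p| ≤ A * (ghAt a k p - ghAt a k' p) + D := by
  refine l9rg_at_dom ha hc.1 hc'.1 hk.1 hk'.1 hD ?_ hp
  have tl : ∀ i ∈ (Finset.univ : Finset (Fin 4)), Tendsto ((![c, c', k, k'] : Fin 4 → ℝ → ℝ) i) (𝓝[<] a) (𝓝 ((![c, c', k, k'] : Fin 4 → ℝ → ℝ) i a)) := by
    intro i _
    fin_cases i
    · exact hc.2
    · exact hc'.2
    · exact hk.2
    · exact hk'.2
  have h1 := l9rg_ioc Finset.univ ![1, -1, -A, A] ![c, c', k, k'] (D := D) ha tl (fun v hv => by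
    have := (abs_le.1 (h v hv)).2
    simp only [Fin.sum_univ_four, Matrix.cons_val_zero, Matrix.cons_val_one, Matrix.cons_val]
    linarith)
  have h2 := l9rg_ioc Finset.univ ![-1, 1, -A, A] ![c, c', k, k'] (D := D) ha tl (fun v hv => by
    have := (abs_le.1 (h v hv)).1
    simp only [Fin.sum_univ_four, Matrix.cons_val_zero, Matrix.cons_val_one, Matrix.cons_val]
    linarith)
  intro v hv
  have k1 := h1 v hv
  have k2 := h2 v hv
  simp only [Fin.sum_univ_four, Matrix.cons_val_zero, Matrix.cons_val_one, Matrix.cons_val] at k1 k2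
  rw [abs_le]
  constructor <;> linarith

theorem l9rg_abs {a D : ℝ} (ha : 0 < a) {c c' : ℝ → ℝ} (hc : L9Clk a c) (hc' : L9Clk a c')
    (hD : 0 ≤ D) (h : ∀ v ∈ Ioo 0 a, |c v - c' v| ≤ D) {p : GhPos} (hp : p.Ok a) : |ghAt a c p - ghAt a c' p| ≤ D := by
  have := l9rg_dom (A := 0) ha hc hc' hc hc hD (fun v hv => by simpa using h v hv) hp
  simpa using this

theorem l9rg_le {a : ℝ} (ha : 0 < a) {c c' : ℝ → ℝ} (hc : L9Clk a c) (hc' : L9Clk a c')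
    (h : ∀ v ∈ Ioo 0 a, c v ≤ c' v) {p : GhPos} (hp : p.Ok a) : ghAt a c p ≤ ghAt a c' p := by
  refine l9rg_at_le ha hc.1 hc'.1 ?_ hp
  intro v hv
  rcases hv.2.eq_or_lt with h0 | h0
  · subst h0
    exact le_of_tendsto_of_tendsto hc.2 hc'.2 (by filter_upwards [Ioo_mem_nhdsLT ha] with u hu using h u hu)
  · exact h v ⟨hv.1, h0⟩

/-- a point with the terminal mass `a0` (only to NAME the chain of an instance at the terminal mass `a0`) -/
def l9rgPt (a0 : ℝ) : LlPt := ⟨0, a0, 0, 0, fun _ => 0, 0, 0, false⟩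

theorem l9rg_pt_a (a0 : ℝ) : (l9rgPt a0).a = a0 := by simp [LlPt.a, l9rgPt]

/-- the chain of an instance depends on the point through the terminal mass only      (ROBUST: the proofs of this file do not see how `L9I.ps` filters the positions) -/
theorem l9rg_ps_eq (I : L9I) {p p' : LlPt} (h : p.a = p'.a) : I.ps p = I.ps p' := by
  unfold L9I.ps
  rw [h]

theorem l9rg_ps_ok (I : L9I) (p : LlPt) {pos : GhPos} (h : pos ∈ I.ps p) : pos.Ok p.a := by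
  unfold L9I.ps at h
  exact (gh_os_ps_mem.1 h).2

/-- every cumulative clock of the chain of an instance is `0` or the value at a position of the chain (the same for `b, h, K` and for all points with the terminal mass `a0`) -/
theorem l9rg_cases (I : L9I) (a0 : ℝ) (j : ℕ) :
    (∀ p : LlPt, p.a = a0 → (I.X0 p).bC j = 0 ∧ (I.X0 p).hC j = 0 ∧ (I.X0 p).KC j = 0) ∨
    ∃ pos : GhPos, pos.Ok a0 ∧ ∀ p : LlPt, p.a = a0 → (I.X0 p).bC j = ghAt a0 (p.b I.F I.𝔹) pos ∧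
      (I.X0 p).hC j = ghAt a0 (p.h I.F I.𝔹) pos ∧ (I.X0 p).KC j = ghAt a0 (p.K I.F I.𝔹) pos := by
  have hps : ∀ p : LlPt, p.a = a0 → I.ps p = I.ps (l9rgPt a0) := fun p hp => l9rg_ps_eq I (by rw [hp, l9rg_pt_a])
  rcases l9d_chain_cum_cases a0 (I.ps (l9rgPt a0)) j with h0 | ⟨pos, hpos, h1⟩
  · refine Or.inl fun p hp => ?_
    simp only [l9d_I_bC, l9d_I_hC, l9d_I_KC, L9I.P, l9d_stp_mat, l9d_stp_cumK, hp, hps p hp]
    exact ⟨(h0 _ _).1, (h0 _ _).2, (h0 _ _).2⟩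
  · refine Or.inr ⟨pos, by have := l9rg_ps_ok I _ hpos; rwa [l9rg_pt_a] at this, fun p hp => ?_⟩
    simp only [l9d_I_bC, l9d_I_hC, l9d_I_KC, L9I.P, l9d_stp_mat, l9d_stp_cumK, hp, hps p hp]
    exact ⟨(h1 _ _).1, (h1 _ _).2, (h1 _ _).2⟩

/-- the gaps of the chain do not depend on the point -/
theorem l9rg_gap_eq (I : L9I) {a0 : ℝ} (p p' : LlPt) (hp : p.a = a0) (hp' : p'.a = a0) (j : ℕ) :
    skGap p.a (llMat (I.P p)) j = skGap p'.a (llMat (I.P p')) j := by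
  rw [hp, hp']
  refine l9d_gap_congr a0 ?_ j
  rw [l9d_mat_m, l9d_mat_m]
  unfold L9I.P
  rw [l9d_stp_m, l9d_stp_m, l9rg_ps_eq I (hp.trans hp'.symm)]

/-- the common coefficients do not see the test and the site count -/
theorem l9rg_X0_congr (F : LlFix) (𝔹 : LlBase) (Fs : Finset GhPos) (s s' : ℝ) (m m' : ℕ) (p : LlPt) (j : ℕ) :
    ((⟨F, 𝔹, s, Fs, m⟩ : L9I).X0 p).bC j = ((⟨F, 𝔹, s', Fs, m'⟩ : L9I).X0 p).bC j ∧
    ((⟨F, 𝔹, s, Fs, m⟩ : L9I).X0 p).hC j = ((⟨F, 𝔹, s', Fs, m'⟩ : L9I).X0 p).hC j ∧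
    ((⟨F, 𝔹, s, Fs, m⟩ : L9I).X0 p).KC j = ((⟨F, 𝔹, s', Fs, m'⟩ : L9I).X0 p).KC j ∧
    ((⟨F, 𝔹, s, Fs, m⟩ : L9I).X0 p).qC j = ((⟨F, 𝔹, s', Fs, m'⟩ : L9I).X0 p).qC j := ⟨rfl, rfl, rfl, rfl⟩

/-! ## 4. the envelope of the dotted norms on a family of segments along which `K` is antitone -/

/-- **the clock-level contract of item (d)**: along `t ∈ [t0,t1]` the reference clock `K` (free of `γ`) is antitone at every mass, `≤ A`, and dominates the increments of `b`, `h` -/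
structure L9RcS (𝔹 : LlBase) (F : LlFix) {Γ : Type} (pf : Γ → ℝ → LlPt) (a0 t0 t1 A : ℝ) : Prop where
  a_eq : ∀ γ t, (pf γ t).a = a0
  adm_b : ∀ γ, ∀ t ∈ Icc t0 t1, L9Clk a0 ((pf γ t).b F 𝔹)
  adm_h : ∀ γ, ∀ t ∈ Icc t0 t1, L9Clk a0 ((pf γ t).h F 𝔹)
  adm_K : ∀ γ, ∀ t ∈ Icc t0 t1, L9Clk a0 ((pf γ t).K F 𝔹)
  K_free : ∀ γ γ' t, (pf γ t).K F 𝔹 = (pf γ' t).K F 𝔹
  K_anti : ∀ γ, ∀ t ∈ Icc t0 t1, ∀ t' ∈ Icc t0 t1, t ≤ t' → ∀ v ∈ Ioo 0 a0, (pf γ t').K F 𝔹 v ≤ (pf γ t).K F 𝔹 v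
  K_top : ∀ γ, (pf γ t0).K F 𝔹 a0 ≤ A
  dom_b : ∀ γ, ∀ t ∈ Icc t0 t1, ∀ t' ∈ Icc t0 t1, t ≤ t' → ∀ v ∈ Ioo 0 a0,
    |(pf γ t').b F 𝔹 v - (pf γ t).b F 𝔹 v| ≤ A * ((pf γ t).K F 𝔹 v - (pf γ t').K F 𝔹 v) + A * (t' - t)
  dom_h : ∀ γ, ∀ t ∈ Icc t0 t1, ∀ t' ∈ Icc t0 t1, t ≤ t' → ∀ v ∈ Ioo 0 a0,
    |(pf γ t').h F 𝔹 v - (pf γ t).h F 𝔹 v| ≤ A * ((pf γ t).K F 𝔹 v - (pf γ t').K F 𝔹 v) + A * (t' - t)

/-- **the step-level contract of item (d)** (LEAF Q, 151): the dotted reference overlaps of the chain are dominated by the dotted `K`-values -/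
def L9RcQ (𝔹 : LlBase) (F : LlFix) (Fs : Finset GhPos) {Γ : Type} (pf : Γ → ℝ → LlPt) (a0 t0 t1 CQ : ℝ) : Prop :=
  ∀ (γ : Γ), ∀ t ∈ Ioo t0 t1, (⟨F, 𝔹, 0, Fs, 0⟩ : L9I).Dif (pf γ) t →
    ∑ j ∈ Finset.range (((⟨F, 𝔹, 0, Fs, 0⟩ : L9I).ps (pf γ t)).length + 1), skGap a0 (llMat ((⟨F, 𝔹, 0, Fs, 0⟩ : L9I).P (pf γ t))) j *
        |deriv (fun t' => ((⟨F, 𝔹, 0, Fs, 0⟩ : L9I).X0 (pf γ t')).qC j) t|
      ≤ CQ * (∑ j ∈ Finset.range (((⟨F, 𝔹, 0, Fs, 0⟩ : L9I).ps (pf γ t)).length + 1), skGap a0 (llMat ((⟨F, 𝔹, 0, Fs, 0⟩ : L9I).P (pf γ t))) j *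
        |deriv (fun t' => ((⟨F, 𝔹, 0, Fs, 0⟩ : L9I).X0 (pf γ t')).KC j) t|
        + |deriv (fun t' => ((⟨F, 𝔹, 0, Fs, 0⟩ : L9I).X0 (pf γ t')).KC ((⟨F, 𝔹, 0, Fs, 0⟩ : L9I).ps (pf γ t)).length) t|)

theorem l9rg_env {𝔹 : LlBase} {F : LlFix} {Γ : Type} [Nonempty Γ] {pf : Γ → ℝ → LlPt} {a0 t0 t1 A CQ : ℝ} (Fs : Finset GhPos)
    (ha : 0 < a0) (h01 : t0 ≤ t1) (hA : 0 ≤ A) (hCQ : 0 ≤ CQ) (H : L9RcS 𝔹 F pf a0 t0 t1 A) (hQ : L9RcQ 𝔹 F Fs pf a0 t0 t1 CQ) :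
    ∃ w : ℝ → ℝ, IntegrableOn w (Icc t0 t1) ∧
      ∫ t in Icc t0 t1, w t ≤ (1 + 2 * A * a0) * (t1 - t0) + (2 * A + 1 + CQ) * ((a0 + 1) * A) ∧
      ∀ t ∈ Ioo t0 t1, ∀ (γ : Γ) (s : ℝ) (m : ℕ), (⟨F, 𝔹, s, Fs, m⟩ : L9I).Dif (pf γ) t →
        |1 + (⟨F, 𝔹, s, Fs, m⟩ : L9I).dot (pf γ) t| ≤ w t := by
  classical
  obtain ⟨γ0⟩ := ‹Nonempty Γ›
  set I0 : L9I := ⟨F, 𝔹, 0, Fs, 0⟩ with hI0
  set n := (I0.ps (pf γ0 t0)).length with hn
  have hnn : ∀ γ t, (I0.ps (pf γ t)).length = n := fun γ t => by rw [hn, l9rg_ps_eq I0 ((H.a_eq γ t).trans (H.a_eq γ0 t0).symm)]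
  set g : ℕ → ℝ := fun j => skGap a0 (llMat (I0.P (pf γ0 t0))) j with hg
  set κ : ℕ → ℝ → ℝ := fun j t => (I0.X0 (pf γ0 t)).KC j with hκ
  set G : ℝ → ℝ := fun t => ∑ j ∈ Finset.range (n + 1), g j * κ j t + κ n t with hGdef
  have ht0 : t0 ∈ Icc t0 t1 := left_mem_Icc.2 h01
  have ht1 : t1 ∈ Icc t0 t1 := right_mem_Icc.2 h01
  have hadm0 : SkAdm a0 (llMat (I0.P (pf γ0 t0))) := by
    have := l9d_I_adm I0 (pf γ0 t0) (by rw [H.a_eq]; exact ha.le) (by rw [H.a_eq]; exact (H.adm_b γ0 t0 ht0).1)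
      (by rw [H.a_eq]; exact (H.adm_h γ0 t0 ht0).1)
    rwa [H.a_eq] at this
  have hg0 : ∀ j, 0 ≤ g j := fun j => pin_gap_nonneg ha _ hadm0 j
  have hlen : (llMat (I0.P (pf γ0 t0))).length = n := by
    rw [l9d_mat_length, l9d_I_length]
  have hgs : ∑ j ∈ Finset.range (n + 1), g j = a0 := by
    have := l9rg_gap_sum a0 (llMat (I0.P (pf γ0 t0)))
    rwa [hlen] at this
  -- the values of `K`
  have hκanti : ∀ j, AntitoneOn (κ j) (Icc t0 t1) := by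
    intro j t ht t' ht' htt
    rcases l9rg_cases I0 a0 j with h0 | ⟨pos, hpos, h1⟩
    · show (I0.X0 (pf γ0 t')).KC j ≤ (I0.X0 (pf γ0 t)).KC j
      rw [(h0 _ (H.a_eq γ0 t')).2.2, (h0 _ (H.a_eq γ0 t)).2.2]
    · show (I0.X0 (pf γ0 t')).KC j ≤ (I0.X0 (pf γ0 t)).KC j
      rw [(h1 _ (H.a_eq γ0 t')).2.2, (h1 _ (H.a_eq γ0 t)).2.2]
      exact l9rg_le ha (H.adm_K γ0 t' ht') (H.adm_K γ0 t ht) (H.K_anti γ0 t ht t' ht' htt) hpos
  have hκ0 : ∀ j, ∀ t ∈ Icc t0 t1, 0 ≤ κ j t := by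
    intro j t ht
    rcases l9rg_cases I0 a0 j with h0 | ⟨pos, hpos, h1⟩
    · show 0 ≤ (I0.X0 (pf γ0 t)).KC j
      rw [(h0 _ (H.a_eq γ0 t)).2.2]
    · show 0 ≤ (I0.X0 (pf γ0 t)).KC j
      rw [(h1 _ (H.a_eq γ0 t)).2.2]
      exact gh_os_at_nonneg ha.le (H.adm_K γ0 t ht).1 hpos.2.2.1
  have hκA : ∀ j, κ j t0 ≤ A := by
    intro j
    rcases l9rg_cases I0 a0 j with h0 | ⟨pos, hpos, h1⟩
    · show (I0.X0 (pf γ0 t0)).KC j ≤ A
      rw [(h0 _ (H.a_eq γ0 t0)).2.2]; exact hA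
    · show (I0.X0 (pf γ0 t0)).KC j ≤ A
      rw [(h1 _ (H.a_eq γ0 t0)).2.2]
      refine (gh_os_at_le_top ha.le (H.adm_K γ0 t0 ht0).1 hpos).trans ?_
      rw [gh_os_at_top _ _ ha.le]
      exact H.K_top γ0
  have hGanti : AntitoneOn G (Icc t0 t1) := by
    intro t ht t' ht' htt
    exact add_le_add (Finset.sum_le_sum fun j _ => mul_le_mul_of_nonneg_left (hκanti j ht ht' htt) (hg0 j)) (hκanti n ht ht' htt)
  obtain ⟨hint, hle⟩ := l9rg_anti_int h01 hGanti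
  have hG0 : G t0 ≤ (a0 + 1) * A := by
    have h1 : ∑ j ∈ Finset.range (n + 1), g j * κ j t0 ≤ ∑ j ∈ Finset.range (n + 1), g j * A :=
      Finset.sum_le_sum fun j _ => mul_le_mul_of_nonneg_left (hκA j) (hg0 j)
    rw [← Finset.sum_mul, hgs] at h1
    have h2 := hκA n
    show ∑ j ∈ Finset.range (n + 1), g j * κ j t0 + κ n t0 ≤ _
    linarith
  have hG1 : 0 ≤ G t1 :=
    add_nonneg (Finset.sum_nonneg fun j _ => mul_nonneg (hg0 j) (hκ0 j t1 ht1)) (hκ0 n t1 ht1)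
  have hc : 0 ≤ 2 * A + 1 + CQ := by positivity
  have hcI : IntegrableOn (fun _ : ℝ => 1 + 2 * A * a0) (Icc t0 t1) := integrableOn_const (by simp)
  refine ⟨fun t => (1 + 2 * A * a0) + (2 * A + 1 + CQ) * (-deriv G t), ?_, ?_, ?_⟩
  · exact hcI.add (hint.const_mul _)
  · rw [integral_add hcI (hint.const_mul _), integral_const_mul, setIntegral_const]
    have e : volume.real (Icc t0 t1) = t1 - t0 := by
      rw [Measure.real, Real.volume_Icc, ENNReal.toReal_ofReal (by linarith)]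
    rw [e, smul_eq_mul, mul_comm (t1 - t0)]
    have : (2 * A + 1 + CQ) * ∫ t in Icc t0 t1, -deriv G t ≤ (2 * A + 1 + CQ) * ((a0 + 1) * A) :=
      mul_le_mul_of_nonneg_left (by linarith) hc
    linarith
  · intro t ht γ s m hD
    have htI : t ∈ Icc t0 t1 := Ioo_subset_Icc_self ht
    have hD0 : I0.Dif (pf γ) t := hD
    have hev : ∀ᶠ t' in 𝓝[>] t, t' ∈ Ioo t t1 := Ioo_mem_nhdsGT ht.2
    have hKeq : ∀ j, (fun t' => (I0.X0 (pf γ t')).KC j) = κ j := by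
      intro j
      funext t'
      rcases l9rg_cases I0 a0 j with h0 | ⟨pos, hpos, h1⟩
      · show (I0.X0 (pf γ t')).KC j = (I0.X0 (pf γ0 t')).KC j
        rw [(h0 _ (H.a_eq γ t')).2.2, (h0 _ (H.a_eq γ0 t')).2.2]
      · show (I0.X0 (pf γ t')).KC j = (I0.X0 (pf γ0 t')).KC j
        rw [(h1 _ (H.a_eq γ t')).2.2, (h1 _ (H.a_eq γ0 t')).2.2]
        show ghAt a0 ((pf γ t').K F 𝔹) pos = ghAt a0 ((pf γ0 t').K F 𝔹) pos
        rw [H.K_free γ γ0 t']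
    have dκ : ∀ j, DifferentiableAt ℝ (κ j) t := fun j => by
      have := (hD0 j).2.2
      rwa [hKeq j] at this
    have dκ0 : ∀ j, deriv (κ j) t ≤ 0 := fun j => by
      refine l9rg_deriv_nonpos (dκ j) ?_
      filter_upwards [hev] with t' ht'
      exact hκanti j htI ⟨ht.1.le.trans ht'.1.le, ht'.2.le⟩ ht'.1.le
    have hb : ∀ j, |deriv (fun t' => (I0.X0 (pf γ t')).bC j) t| ≤ A * (-deriv (κ j) t) + A := by
      intro j
      refine l9rg_deriv_dom (hD0 j).1 (dκ j) ?_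
      filter_upwards [hev] with t' ht'
      have ht'I : t' ∈ Icc t0 t1 := ⟨ht.1.le.trans ht'.1.le, ht'.2.le⟩
      have hpos' : 0 ≤ A * (t' - t) := mul_nonneg hA (by linarith [ht'.1])
      rw [← hKeq j]
      rcases l9rg_cases I0 a0 j with h0 | ⟨pos, hpos, h1⟩
      · show |(I0.X0 (pf γ t')).bC j - (I0.X0 (pf γ t)).bC j| ≤ A * ((I0.X0 (pf γ t)).KC j - (I0.X0 (pf γ t')).KC j) + A * (t' - t)
        rw [(h0 _ (H.a_eq γ t')).1, (h0 _ (H.a_eq γ t)).1, (h0 _ (H.a_eq γ t')).2.2, (h0 _ (H.a_eq γ t)).2.2]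
        simpa using hpos'
      · show |(I0.X0 (pf γ t')).bC j - (I0.X0 (pf γ t)).bC j| ≤ A * ((I0.X0 (pf γ t)).KC j - (I0.X0 (pf γ t')).KC j) + A * (t' - t)
        rw [(h1 _ (H.a_eq γ t')).1, (h1 _ (H.a_eq γ t)).1, (h1 _ (H.a_eq γ t')).2.2, (h1 _ (H.a_eq γ t)).2.2]
        exact l9rg_dom ha (H.adm_b γ t' ht'I) (H.adm_b γ t htI) (H.adm_K γ t htI) (H.adm_K γ t' ht'I) hpos'
          (H.dom_b γ t htI t' ht'I ht'.1.le) hpos
    have hh : ∀ j, |deriv (fun t' => (I0.X0 (pf γ t')).hC j) t| ≤ A * (-deriv (κ j) t) + A := by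
      intro j
      refine l9rg_deriv_dom (hD0 j).2.1 (dκ j) ?_
      filter_upwards [hev] with t' ht'
      have ht'I : t' ∈ Icc t0 t1 := ⟨ht.1.le.trans ht'.1.le, ht'.2.le⟩
      have hpos' : 0 ≤ A * (t' - t) := mul_nonneg hA (by linarith [ht'.1])
      rw [← hKeq j]
      rcases l9rg_cases I0 a0 j with h0 | ⟨pos, hpos, h1⟩
      · show |(I0.X0 (pf γ t')).hC j - (I0.X0 (pf γ t)).hC j| ≤ A * ((I0.X0 (pf γ t)).KC j - (I0.X0 (pf γ t')).KC j) + A * (t' - t)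
        rw [(h0 _ (H.a_eq γ t')).2.1, (h0 _ (H.a_eq γ t)).2.1, (h0 _ (H.a_eq γ t')).2.2, (h0 _ (H.a_eq γ t)).2.2]
        simpa using hpos'
      · show |(I0.X0 (pf γ t')).hC j - (I0.X0 (pf γ t)).hC j| ≤ A * ((I0.X0 (pf γ t)).KC j - (I0.X0 (pf γ t')).KC j) + A * (t' - t)
        rw [(h1 _ (H.a_eq γ t')).2.1, (h1 _ (H.a_eq γ t)).2.1, (h1 _ (H.a_eq γ t')).2.2, (h1 _ (H.a_eq γ t)).2.2]
        exact l9rg_dom ha (H.adm_h γ t' ht'I) (H.adm_h γ t htI) (H.adm_K γ t htI) (H.adm_K γ t' ht'I) hpos'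
          (H.dom_h γ t htI t' ht'I ht'.1.le) hpos
    have hGd : deriv G t = ∑ j ∈ Finset.range (n + 1), g j * deriv (κ j) t + deriv (κ n) t := by
      have : HasDerivAt G (∑ j ∈ Finset.range (n + 1), g j * deriv (κ j) t + deriv (κ n) t) t :=
        (HasDerivAt.fun_sum fun j _ => ((dκ j).hasDerivAt.const_mul (g j))).add (dκ n).hasDerivAt
      exact this.deriv
    have hgap : ∀ j, skGap (pf γ t).a (llMat (I0.P (pf γ t))) j = g j := fun j => by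
      have := l9rg_gap_eq I0 (pf γ t) (pf γ0 t0) (H.a_eq γ t) (H.a_eq γ0 t0) j
      rw [this, H.a_eq]
    have hq : ∑ j ∈ Finset.range (n + 1), skGap a0 (llMat (I0.P (pf γ t))) j * |deriv (fun t' => (I0.X0 (pf γ t')).qC j) t|
        ≤ CQ * (∑ j ∈ Finset.range (n + 1), skGap a0 (llMat (I0.P (pf γ t))) j * |deriv (fun t' => (I0.X0 (pf γ t')).KC j) t|
          + |deriv (fun t' => (I0.X0 (pf γ t')).KC n) t|) := by
      have := hQ γ t ht hD0
      rwa [show ((⟨F, 𝔹, 0, Fs, 0⟩ : L9I).ps (pf γ t)).length = n from hnn γ t] at this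
    have hdot : (⟨F, 𝔹, s, Fs, m⟩ : L9I).dot (pf γ) t
        = ∑ j ∈ Finset.range (n + 1), g j * (|deriv (fun t' => (I0.X0 (pf γ t')).bC j) t| + |deriv (fun t' => (I0.X0 (pf γ t')).hC j) t| +
            |deriv (fun t' => (I0.X0 (pf γ t')).KC j) t| + |deriv (fun t' => (I0.X0 (pf γ t')).qC j) t|) := by
      show ∑ j ∈ Finset.range ((I0.ps (pf γ t)).length + 1), skGap (pf γ t).a (llMat (I0.P (pf γ t))) j * _ = _
      rw [hnn γ t, H.a_eq γ t]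
      refine Finset.sum_congr rfl fun j _ => ?_
      rw [← hgap j, H.a_eq γ t]
      rfl
    have hgq : ∀ j, skGap a0 (llMat (I0.P (pf γ t))) j = g j := fun j => by rw [← hgap j, H.a_eq γ t]
    simp only [hgq, hKeq] at hq
    have hk : ∀ j, |deriv (κ j) t| = -deriv (κ j) t := fun j => abs_of_nonpos (dκ0 j)
    simp only [hk] at hq
    have hdot0 : 0 ≤ (⟨F, 𝔹, s, Fs, m⟩ : L9I).dot (pf γ) t := by
      rw [hdot]
      exact Finset.sum_nonneg fun j _ => mul_nonneg (hg0 j) (by positivity)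
    rw [abs_of_nonneg (by linarith), hdot]
    simp only [hKeq, hk]
    set S := ∑ j ∈ Finset.range (n + 1), g j * -deriv (κ j) t with hS
    have hS0 : 0 ≤ S := Finset.sum_nonneg fun j _ => mul_nonneg (hg0 j) (by linarith [dκ0 j])
    have hT0 : 0 ≤ -deriv (κ n) t := by linarith [dκ0 n]
    have e1 : -deriv G t = S + -deriv (κ n) t := by
      rw [hGd, hS, neg_add, ← Finset.sum_neg_distrib]
      congr 1
      exact Finset.sum_congr rfl fun j _ => by ring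
    have e2 : ∑ j ∈ Finset.range (n + 1), g j * (|deriv (fun t' => (I0.X0 (pf γ t')).bC j) t| + |deriv (fun t' => (I0.X0 (pf γ t')).hC j) t| +
          -deriv (κ j) t + |deriv (fun t' => (I0.X0 (pf γ t')).qC j) t|)
        ≤ ∑ j ∈ Finset.range (n + 1), ((2 * A + 1) * (g j * -deriv (κ j) t) + 2 * A * g j
            + g j * |deriv (fun t' => (I0.X0 (pf γ t')).qC j) t|) := by
      refine Finset.sum_le_sum fun j _ => ?_
      have h1 := mul_le_mul_of_nonneg_left (hb j) (hg0 j)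
      have h2 := mul_le_mul_of_nonneg_left (hh j) (hg0 j)
      nlinarith
    rw [Finset.sum_add_distrib, Finset.sum_add_distrib, ← Finset.mul_sum, ← Finset.mul_sum, hgs] at e2
    rw [e1]
    nlinarith [mul_nonneg hA hT0, mul_nonneg hCQ hS0]

/-- LEAF Q (151, `L09/ChDQ.lean`) in the form used by the envelope -/
theorem l9rg_Q {𝔹 : LlBase} {F : LlFix} {Γ : Type} {pf : Γ → ℝ → LlPt} {a0 t0 t1 A : ℝ} (Fs : Finset GhPos) (ha : 0 < a0)
    (H : L9RcS 𝔹 F pf a0 t0 t1 A) : L9RcQ 𝔹 F Fs pf a0 t0 t1 (44 * a0 ^ 2) := by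
  intro γ t ht hD
  have hpa : ∀ t', (pf γ t').a = (pf γ t).a := fun t' => by rw [H.a_eq, H.a_eq]
  have hadm : ∀ᶠ t' in 𝓝 t, LlStpAdm (pf γ t').a ((⟨F, 𝔹, 0, Fs, 0⟩ : L9I).P (pf γ t')) := by
    filter_upwards [Ioo_mem_nhds ht.1 ht.2] with t' ht'
    have hI := Ioo_subset_Icc_self ht'
    exact l9q_I_adm (⟨F, 𝔹, 0, Fs, 0⟩ : L9I) (pf γ t') (by rw [H.a_eq]; exact ha.le) (by rw [H.a_eq]; exact (H.adm_b γ t' hI).1)
      (by rw [H.a_eq]; exact (H.adm_h γ t' hI).1) (by rw [H.a_eq]; exact (H.adm_K γ t' hI).1)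
  have h := (l9q_I_q (⟨F, 𝔹, 0, Fs, 0⟩ : L9I) (pf γ) (by rw [H.a_eq]; exact ha) hpa hadm hD).2.2
  rw [H.a_eq] at h
  refine h.trans ?_
  exact mul_le_mul_of_nonneg_left (le_add_of_nonneg_right (abs_nonneg _)) (by positivity)

/-- **item (d)** from the clock-level contract alone -/
theorem l9rg_env' {𝔹 : LlBase} {F : LlFix} {Γ : Type} [Nonempty Γ] {pf : Γ → ℝ → LlPt} {a0 t0 t1 A : ℝ} (Fs : Finset GhPos)
    (ha : 0 < a0) (h01 : t0 ≤ t1) (hA : 0 ≤ A) (H : L9RcS 𝔹 F pf a0 t0 t1 A) :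
    ∃ w : ℝ → ℝ, IntegrableOn w (Icc t0 t1) ∧
      ∫ t in Icc t0 t1, w t ≤ (1 + 2 * A * a0) * (t1 - t0) + (2 * A + 1 + 44 * a0 ^ 2) * ((a0 + 1) * A) ∧
      ∀ t ∈ Ioo t0 t1, ∀ (γ : Γ) (s : ℝ) (m : ℕ), (⟨F, 𝔹, s, Fs, m⟩ : L9I).Dif (pf γ) t →
        |1 + (⟨F, 𝔹, s, Fs, m⟩ : L9I).dot (pf γ) t| ≤ w t :=
  l9rg_env Fs ha h01 hA (by positivity) H (l9rg_Q Fs ha H)

/-! ## 5. items (a), (b), (c): sup-norm Lipschitz clocks -/

/-- **the clock-level contract of items (a), (b), (c)** (sup-norm twin of `Ll04ClkAt`): the clocks `b, h, K` are admissible, without a jump at the terminal mass, and Lipschitz in (`γ`, parameter) at every mass;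
the constant `L` is ANY number (it may depend on `N`) -/
structure L9RcAt (𝔹 : LlBase) (F : LlFix) {N : ℕ} (seg : (Fin (N + 1) → ℝ) → ℝ → LlPt) (a0 L : ℝ) : Prop where
  a_eq : ∀ γ t, (seg γ t).a = a0
  adm_b : ∀ γ t, L9Clk a0 ((seg γ t).b F 𝔹)
  adm_h : ∀ γ t, L9Clk a0 ((seg γ t).h F 𝔹)
  adm_K : ∀ γ t, L9Clk a0 ((seg γ t).K F 𝔹)
  lip_b : ∀ γ γ' t t', ∀ v ∈ Ioo 0 a0, |(seg γ t).b F 𝔹 v - (seg γ' t').b F 𝔹 v| ≤ L * (|t - t'| + dist γ γ')
  lip_h : ∀ γ γ' t t', ∀ v ∈ Ioo 0 a0, |(seg γ t).h F 𝔹 v - (seg γ' t').h F 𝔹 v| ≤ L * (|t - t'| + dist γ γ')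
  lip_K : ∀ γ γ' t t', ∀ v ∈ Ioo 0 a0, |(seg γ t).K F 𝔹 v - (seg γ' t').K F 𝔹 v| ≤ L * (|t - t'| + dist γ γ')

/-- a function of (`γ`, parameter) with a Lipschitz bound is continuous, and Lipschitz in the parameter -/
theorem l9rg_lip_cont {N : ℕ} {f : (Fin (N + 1) → ℝ) → ℝ → ℝ} {L : ℝ} (hL : 0 ≤ L)
    (h : ∀ γ γ' t t', |f γ t - f γ' t'| ≤ L * (|t - t'| + dist γ γ')) :
    (Continuous fun z : (Fin (N + 1) → ℝ) × ℝ => f z.1 z.2) ∧ ∀ γ, LipschitzWith L.toNNReal (f γ) := by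
  constructor
  · have : LipschitzWith (2 * L).toNNReal fun z : (Fin (N + 1) → ℝ) × ℝ => f z.1 z.2 := by
      refine LipschitzWith.of_dist_le_mul fun z z' => ?_
      rw [Real.dist_eq, Real.coe_toNNReal _ (by positivity)]
      refine (h z.1 z'.1 z.2 z'.2).trans ?_
      have h1 : dist z.1 z'.1 ≤ dist z z' := by rw [Prod.dist_eq]; exact le_max_left _ _
      have h2 : |z.2 - z'.2| ≤ dist z z' := by rw [Prod.dist_eq, ← Real.dist_eq]; exact le_max_right _ _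
      nlinarith
    exact this.continuous
  · intro γ
    refine LipschitzWith.of_dist_le_mul fun t t' => ?_
    rw [Real.dist_eq, Real.dist_eq, Real.coe_toNNReal _ hL]
    simpa using h γ γ t t'

namespace L9RcAt

variable {𝔹 : LlBase} {F : LlFix} {N : ℕ} {seg : (Fin (N + 1) → ℝ) → ℝ → LlPt} {a0 L : ℝ}

theorem val_b (H : L9RcAt 𝔹 F seg a0 L) (ha : 0 < a0) (hL : 0 ≤ L) {pos : GhPos} (hp : pos.Ok a0) (γ γ' : Fin (N + 1) → ℝ) (t t' : ℝ) :
    |ghAt a0 ((seg γ t).b F 𝔹) pos - ghAt a0 ((seg γ' t').b F 𝔹) pos| ≤ L * (|t - t'| + dist γ γ') :=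
  l9rg_abs ha (H.adm_b γ t) (H.adm_b γ' t') (by positivity) (H.lip_b γ γ' t t') hp

theorem val_h (H : L9RcAt 𝔹 F seg a0 L) (ha : 0 < a0) (hL : 0 ≤ L) {pos : GhPos} (hp : pos.Ok a0) (γ γ' : Fin (N + 1) → ℝ) (t t' : ℝ) :
    |ghAt a0 ((seg γ t).h F 𝔹) pos - ghAt a0 ((seg γ' t').h F 𝔹) pos| ≤ L * (|t - t'| + dist γ γ') :=
  l9rg_abs ha (H.adm_h γ t) (H.adm_h γ' t') (by positivity) (H.lip_h γ γ' t t') hp

theorem val_K (H : L9RcAt 𝔹 F seg a0 L) (ha : 0 < a0) (hL : 0 ≤ L) {pos : GhPos} (hp : pos.Ok a0) (γ γ' : Fin (N + 1) → ℝ) (t t' : ℝ) :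
    |ghAt a0 ((seg γ t).K F 𝔹) pos - ghAt a0 ((seg γ' t').K F 𝔹) pos| ≤ L * (|t - t'| + dist γ γ') :=
  l9rg_abs ha (H.adm_K γ t) (H.adm_K γ' t') (by positivity) (H.lip_K γ γ' t t') hp

/-- item (a): joint continuity of `ψ` -/
theorem psi_cont (H : L9RcAt 𝔹 F seg a0 L) (ha : 0 < a0) (hL : 0 ≤ L) (s : ℝ) (Fs : Finset GhPos) (m : ℕ) {m' : ℕ} (hm : 0 < m') :
    Continuous fun z : (Fin (N + 1) → ℝ) × ℝ => (⟨F, 𝔹, s, Fs, m⟩ : L9I).psi (seg z.1 z.2) m' :=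
  l9d_I_continuous (⟨F, 𝔹, s, Fs, m⟩ : L9I) hm (fun z : (Fin (N + 1) → ℝ) × ℝ => seg z.1 z.2) ha (fun z => H.a_eq z.1 z.2)
    (fun z => (H.adm_b z.1 z.2).1) (fun z => (H.adm_h z.1 z.2).1)
    (fun p hp => (l9rg_lip_cont hL (H.val_b ha hL (gh_os_ps_mem.1 hp).2)).1)
    (fun p hp => (l9rg_lip_cont hL (H.val_h ha hL (gh_os_ps_mem.1 hp).2)).1)

/-- item (a'): joint continuity of the clock values of the chain -/
theorem val_cont (H : L9RcAt 𝔹 F seg a0 L) (ha : 0 < a0) (hL : 0 ≤ L) (s : ℝ) (Fs : Finset GhPos) (m : ℕ) (j : ℕ) :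
    (Continuous fun z : (Fin (N + 1) → ℝ) × ℝ => ((⟨F, 𝔹, s, Fs, m⟩ : L9I).X0 (seg z.1 z.2)).bC j) ∧
    (Continuous fun z : (Fin (N + 1) → ℝ) × ℝ => ((⟨F, 𝔹, s, Fs, m⟩ : L9I).X0 (seg z.1 z.2)).hC j) ∧
    (Continuous fun z : (Fin (N + 1) → ℝ) × ℝ => ((⟨F, 𝔹, s, Fs, m⟩ : L9I).X0 (seg z.1 z.2)).KC j) := by
  rcases l9rg_cases (⟨F, 𝔹, s, Fs, m⟩ : L9I) a0 j with h0 | ⟨pos, hpos, h1⟩
  · simp only [(h0 _ (H.a_eq _ _)).1, (h0 _ (H.a_eq _ _)).2.1, (h0 _ (H.a_eq _ _)).2.2]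
    exact ⟨continuous_const, continuous_const, continuous_const⟩
  · simp only [(h1 _ (H.a_eq _ _)).1, (h1 _ (H.a_eq _ _)).2.1, (h1 _ (H.a_eq _ _)).2.2]
    have hp := hpos
    exact ⟨(l9rg_lip_cont hL (H.val_b ha hL hp)).1, (l9rg_lip_cont hL (H.val_h ha hL hp)).1, (l9rg_lip_cont hL (H.val_K ha hL hp)).1⟩

/-- item (b): absolute continuity of `ψ` in the parameter -/
theorem psi_ac (H : L9RcAt 𝔹 F seg a0 L) (ha : 0 < a0) (hL : 0 ≤ L) (s : ℝ) (Fs : Finset GhPos) (m : ℕ) {m' : ℕ} (hm : 0 < m')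
    (γ : Fin (N + 1) → ℝ) (t0 t1 : ℝ) :
    AbsolutelyContinuousOnInterval (fun t => (⟨F, 𝔹, s, Fs, m⟩ : L9I).psi (seg γ t) m') t0 t1 :=
  l9d_I_ac (⟨F, 𝔹, s, Fs, m⟩ : L9I) hm (seg γ) ha (H.a_eq γ) (fun t _ => (H.adm_b γ t).1) (fun t _ => (H.adm_h γ t).1)
    (fun p hp => (((l9rg_lip_cont hL (H.val_b ha hL (gh_os_ps_mem.1 hp).2)).2 γ).lipschitzOnWith (s := uIcc t0 t1)).absolutelyContinuousOnInterval)
    (fun p hp => (((l9rg_lip_cont hL (H.val_h ha hL (gh_os_ps_mem.1 hp).2)).2 γ).lipschitzOnWith (s := uIcc t0 t1)).absolutelyContinuousOnInterval)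

/-- item (c): for each `γ`, almost every parameter is a point of differentiability of all the clock values of the chain -/
theorem ae_dif (H : L9RcAt 𝔹 F seg a0 L) (ha : 0 < a0) (hL : 0 ≤ L) (s : ℝ) (Fs : Finset GhPos) (m : ℕ) (γ : Fin (N + 1) → ℝ) :
    ∀ᵐ t : ℝ, (⟨F, 𝔹, s, Fs, m⟩ : L9I).Dif (seg γ) t := by
  set ps := (⟨F, 𝔹, s, Fs, m⟩ : L9I).ps (seg γ 0) with hps
  have hok : ∀ p ∈ ps, p.Ok a0 := fun p hp => by
    have := l9rg_ps_ok _ _ hp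
    rwa [H.a_eq] at this
  have hcount : {p : GhPos | p ∈ ps}.Countable := (List.finite_toSet ps).countable
  have h1 : ∀ᵐ t : ℝ, ∀ p ∈ {p : GhPos | p ∈ ps}, DifferentiableAt ℝ (fun t => ghAt a0 ((seg γ t).b F 𝔹) p) t :=
    (ae_ball_iff hcount).2 fun p hp => ((l9rg_lip_cont hL (H.val_b ha hL (hok p hp))).2 γ).ae_differentiableAt_real
  have h2 : ∀ᵐ t : ℝ, ∀ p ∈ {p : GhPos | p ∈ ps}, DifferentiableAt ℝ (fun t => ghAt a0 ((seg γ t).h F 𝔹) p) t :=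
    (ae_ball_iff hcount).2 fun p hp => ((l9rg_lip_cont hL (H.val_h ha hL (hok p hp))).2 γ).ae_differentiableAt_real
  have h3 : ∀ᵐ t : ℝ, ∀ p ∈ {p : GhPos | p ∈ ps}, DifferentiableAt ℝ (fun t => ghAt a0 ((seg γ t).K F 𝔹) p) t :=
    (ae_ball_iff hcount).2 fun p hp => ((l9rg_lip_cont hL (H.val_K ha hL (hok p hp))).2 γ).ae_differentiableAt_real
  filter_upwards [h1, h2, h3] with t k1 k2 k3
  have hmem : ∀ p, p ∈ (⟨F, 𝔹, s, Fs, m⟩ : L9I).ps (l9rgPt a0) → p ∈ ps := fun p hp => by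
    rw [hps, l9rg_ps_eq _ ((H.a_eq γ 0).trans (l9rg_pt_a a0).symm)]; exact hp
  have hun : ∀ X : List GhPos, X = (⟨F, 𝔹, s, Fs, m⟩ : L9I).ps (l9rgPt a0) → ∀ p ∈ X, p ∈ ps := fun X hX p hp => hmem p (hX ▸ hp)
  have hX := hun _ (by unfold L9I.ps; rw [l9rg_pt_a])
  exact l9d_I_dif (⟨F, 𝔹, s, Fs, m⟩ : L9I) (seg γ) (H.a_eq γ) (fun p hp => k1 p (hX p hp)) (fun p hp => k2 p (hX p hp)) (fun p hp => k3 p (hX p hp))

end L9RcAt

theorem l9rg_eqns_cite : True := by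
  have := @L9Clk.eq_1
  have := @l9rgPt.eq_1
  have := @L9RcQ.eq_1
  trivial

end Claimed.Agent.R286
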