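import Claimed.Agent.R286.LL04.Clk
import Claimed.Agent.R286.LL04.ClkHe
import Claimed.Agent.R286.Exit.LlClk
import Claimed.Agent.R286.L09.Reg
import Claimed.Agent.R286.L09.Fin

/-!
# Row 286 (S0533), unit L09, node REG, file RegIn : THE CLOCK-LEVEL CONTRACTS OF REG FROM THE P-LIST OF LL SEC. 3      (owner helper260; prefix `l9rn_`, `L9rn`)      no sorry

`l9rn_main : LlBaseProfile 𝔹 F.T → LlExpOk .. → LlSec3 𝔹 F → L9RegX 𝔹 F` (abstract base; shape of 224's rule for the deliverables of LL 03).      TEX[LL:paths:parameter-regularity] (03 l.195-368), 03 l.469-490.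
* §1 `l9rn_xi_anti`, `l9rn_K_anti`: on the smoothed path `ξ_θ(v) = Â⁻¹(v/ℓ)` and `K = ξ/ℓ²` are ANTITONE in `θ` at every mass `v ∈ [0,4]` (below `M` the profile does not depend on `ℓ`; above `M` it is `4/ℓ ≥ v/ℓ`): elementary.
* §2 `l9rn_q_dom`: `|q_θ' - q_θ|(v) ≤ c⁻¹ (K_θ - K_θ')(v) + C (1 + M)(θ' - θ)`   (`Γ' ≤ 1/b_∘ ≤ 1/c` by `gap_lo ≥ 0`, `gam_ftc`;   the NEW field `RegT.gamN` of 272/267 for the dependence on the terminal mass).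
* §3 `L9rnEnv` = what is used of `LlSec3` besides `Ll04cEnv` (258).      §4 size segment: `l9rn_sizS : L9RcS` (d), `l9rn_sizAt : L9RcAt`.      §5 direct segments: `l9rn_dirAt : L9RcAt` (pointwise lemmas of 258: `ll04c_gam_pw`, `ll04c_dir0_pw`, `ll04c_dir12_pw`; `RegL.K`).
* §6 `M = log³(1/x)` is a subpower loss (`l9rn_num`);   `L9RegX`, `l9rn_main`.
* §7 item (c) on the strength sweep in the parameter `t = log λ`: `l9rx_dif_L`, `l9rx_dif_L'` (= `L8zDif` of `L08/GlueZ`).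
* §8 **THE NODE** `l9rx_reg : L9RegX 𝔹 F → L9Reg 𝔹 F` (Contract v5), `l9rx_exit` (from the P-list).
-/
set_option autoImplicit false

namespace Claimed.Agent.R286

open MeasureTheory Set Filter Topology

/-! ## 1. the smoothed reference clock is ANTITONE in the size coordinate -/

theorem l9rn_Aprof_sm (F : LlFix) (𝔹 : LlBase) (p : LlPt) (hsm : p.sm = true) (θ : ℝ) : (p.wTh θ).Aprof F 𝔹 = (p.wTh θ).Asm F 𝔹 := by
  unfold LlPt.Aprof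
  rw [if_pos (show (p.wTh θ).sm = true from hsm)]

/-- `ξ_θ(v) = Â⁻¹(v/ℓ)`: below `M` the profile does not depend on `ℓ`, above `M` it is `4/ℓ ≥ v/ℓ` -/
theorem l9rn_xi_anti (F : LlFix) (𝔹 : LlBase) (p : LlPt) (hsm : p.sm = true) {θ θ' v : ℝ} (hθ : θ ≤ θ') (hv0 : 0 ≤ v) (hv : v ≤ 4) :
    (p.wTh θ').xi F 𝔹 v ≤ (p.wTh θ).xi F 𝔹 v := by
  unfold LlPt.xi llInv
  rw [l9rn_Aprof_sm F 𝔹 p hsm, l9rn_Aprof_sm F 𝔹 p hsm]
  have hl : 0 < Real.exp (θ / 6) := Real.exp_pos _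
  have hl' : 0 < Real.exp (θ' / 6) := Real.exp_pos _
  have hll : Real.exp (θ / 6) ≤ Real.exp (θ' / 6) := Real.exp_le_exp.2 (by linarith)
  refine csInf_le_csInf ⟨0, fun ξ h => h.1⟩ ⟨max p.M 0, le_max_right _ _, ?_⟩ ?_
  · have e : (p.wTh θ).Asm F 𝔹 (max p.M 0) = 4 / Real.exp (θ / 6) := by
      unfold LlPt.Asm
      rw [if_pos (show (p.wTh θ).M ≤ max p.M 0 from le_max_left _ _)]
      rfl
    rw [e]
    exact div_le_div_of_nonneg_right hv hl.le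
  · rintro ξ ⟨h0, hle⟩
    refine ⟨h0, ?_⟩
    have hle : v / Real.exp (θ / 6) ≤ (p.wTh θ).Asm F 𝔹 ξ := hle
    show v / Real.exp (θ' / 6) ≤ (p.wTh θ').Asm F 𝔹 ξ
    by_cases hM : p.M ≤ ξ
    · have e : (p.wTh θ').Asm F 𝔹 ξ = 4 / Real.exp (θ' / 6) := by
        unfold LlPt.Asm
        rw [if_pos (show (p.wTh θ').M ≤ ξ from hM)]
        rfl
      rw [e]
      exact div_le_div_of_nonneg_right hv hl'.le
    · have e : (p.wTh θ').Asm F 𝔹 ξ = (p.wTh θ).Asm F 𝔹 ξ := by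
        unfold LlPt.Asm
        rw [if_neg (show ¬ (p.wTh θ').M ≤ ξ from hM), if_neg (show ¬ (p.wTh θ).M ≤ ξ from hM)]
        rfl
      rw [e]
      exact (div_le_div_of_nonneg_left hv0 hl hll).trans hle

theorem l9rn_xi_nonneg (F : LlFix) (𝔹 : LlBase) (p : LlPt) (v : ℝ) : 0 ≤ p.xi F 𝔹 v := Real.sInf_nonneg fun _ h => h.1

/-- `K = ξ / ℓ²` is antitone, and its drop dominates the drop of `ξ` -/
theorem l9rn_K_anti (F : LlFix) (𝔹 : LlBase) (p : LlPt) (hsm : p.sm = true) {θ θ' v : ℝ} (hθ : θ ≤ θ') (hv0 : 0 ≤ v) (hv : v ≤ 4) :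
    (p.wTh θ').K F 𝔹 v ≤ (p.wTh θ).K F 𝔹 v ∧
    ((p.wTh θ).ell ^ 2)⁻¹ * ((p.wTh θ).xi F 𝔹 v - (p.wTh θ').xi F 𝔹 v) ≤ (p.wTh θ).K F 𝔹 v - (p.wTh θ').K F 𝔹 v := by
  have hx := l9rn_xi_anti F 𝔹 p hsm hθ hv0 hv
  have hx0 := l9rn_xi_nonneg F 𝔹 (p.wTh θ') v
  have hl : 0 < Real.exp (θ / 6) := Real.exp_pos _
  have hll : Real.exp (θ / 6) ≤ Real.exp (θ' / 6) := Real.exp_le_exp.2 (by linarith)
  have hinv : (Real.exp (θ' / 6) ^ 2)⁻¹ ≤ (Real.exp (θ / 6) ^ 2)⁻¹ :=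
    inv_anti₀ (by positivity) (pow_le_pow_left₀ hl.le hll 2)
  have hi0 : 0 ≤ (Real.exp (θ / 6) ^ 2)⁻¹ := by positivity
  have e1 : (p.wTh θ).K F 𝔹 v = (Real.exp (θ / 6) ^ 2)⁻¹ * (p.wTh θ).xi F 𝔹 v := rfl
  have e2 : (p.wTh θ').K F 𝔹 v = (Real.exp (θ' / 6) ^ 2)⁻¹ * (p.wTh θ').xi F 𝔹 v := rfl
  have e3 : (p.wTh θ).ell = Real.exp (θ / 6) := rfl
  rw [e1, e2, e3]
  have h1 := mul_le_mul_of_nonneg_right hinv hx0
  have h2 := mul_le_mul_of_nonneg_left hx hi0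
  constructor
  · linarith
  · rw [mul_sub]; linarith

/-! ## 2. the reference overlap: domination by the drop of `K` -/

/-- `0 < Γ' ≤ 1/c` -/
theorem l9rn_g1_le {F : LlFix} {𝔹 : LlBase} {p : LlPt} {c C v0 : ℝ} (hc : 0 < c) (hlam : 0 ≤ p.lam) (hR : p.Ref F 𝔹 c C v0) (t : ℝ) (ht : 0 ≤ t) :
    |p.Gam1 F 𝔹 t| ≤ 1 / c := by
  have h1 := hR.g1_pos t ht
  have h2 := hR.gap_lo t ht
  have h3 : 0 ≤ c * p.lam * min (t ^ 2) 1 := mul_nonneg (mul_nonneg hc.le hlam) (le_min (sq_nonneg _) zero_le_one)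
  have h4 : p.b0 F 𝔹 * p.Gam1 F 𝔹 t ≤ 1 := by
    have : p.gap F 𝔹 t = 1 - p.b0 F 𝔹 * p.Gam1 F 𝔹 t := rfl
    linarith
  rw [abs_of_pos h1, le_div_iff₀ hc]
  have := mul_le_mul_of_nonneg_right hR.b0_lo h1.le
  linarith

/-- `Γ` is `1/c`-Lipschitz and nondecreasing -/
theorem l9rn_gam_lip {F : LlFix} {𝔹 : LlBase} {p : LlPt} {c C v0 : ℝ} (hc : 0 < c) (hlam : 0 ≤ p.lam) (hR : p.Ref F 𝔹 c C v0) {t t' : ℝ} (ht : 0 ≤ t) (htt : t ≤ t') :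
    |p.Gam F 𝔹 t' - p.Gam F 𝔹 t| ≤ 1 / c * (t' - t) := by
  rw [hR.gam_ftc t t' ht htt]
  have := intervalIntegral.norm_integral_le_of_norm_le_const (a := t) (b := t') (f := p.Gam1 F 𝔹) (C := 1 / c) (fun s hs => by
    rw [uIoc_of_le htt] at hs
    rw [Real.norm_eq_abs]
    exact l9rn_g1_le hc hlam hR s (ht.trans hs.1.le))
  rwa [Real.norm_eq_abs, abs_of_nonneg (sub_nonneg.2 htt)] at this

theorem l9rn_q_eq (F : LlFix) (𝔹 : LlBase) (p : LlPt) (hl : 0 < p.ell) (v : ℝ) : p.q F 𝔹 v = p.GamN F 𝔹 (p.xi F 𝔹 v) := by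
  unfold LlPt.q LlPt.Gam LlPt.K
  rw [← mul_assoc, mul_inv_cancel₀ (by positivity), one_mul]

theorem l9rn_gamN_eq (F : LlFix) (𝔹 : LlBase) (p : LlPt) (hl : 0 < p.ell) (ξ : ℝ) : p.GamN F 𝔹 ξ = p.Gam F 𝔹 ((p.ell ^ 2)⁻¹ * ξ) := by
  unfold LlPt.Gam
  rw [← mul_assoc, mul_inv_cancel₀ (by positivity), one_mul]

/-- **domination of the increment of `q`** -/
theorem l9rn_q_dom (F : LlFix) (𝔹 : LlBase) (p : LlPt) (hsm : p.sm = true) {c C v0 CG θ θ' v : ℝ} (hc : 0 < c) (hlam : 0 ≤ p.lam)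
    (hR : (p.wTh θ).Ref F 𝔹 c C v0) (hθ : θ ≤ θ') (hv0 : 0 ≤ v) (hv : v ≤ 4) (hM : (p.wTh θ').xi F 𝔹 v ≤ p.M)
    (hG : ∀ ξ ∈ Icc 0 p.M, |(p.wTh θ').GamN F 𝔹 ξ - (p.wTh θ).GamN F 𝔹 ξ| ≤ CG * (1 + p.M) * |θ' - θ|) :
    |(p.wTh θ').q F 𝔹 v - (p.wTh θ).q F 𝔹 v| ≤ 1 / c * ((p.wTh θ).K F 𝔹 v - (p.wTh θ').K F 𝔹 v) + CG * (1 + p.M) * (θ' - θ) := by
  have hl : 0 < (p.wTh θ).ell := Real.exp_pos _
  have hl' : 0 < (p.wTh θ').ell := Real.exp_pos _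
  have hx := l9rn_xi_anti F 𝔹 p hsm hθ hv0 hv
  have hx0 := l9rn_xi_nonneg F 𝔹 (p.wTh θ') v
  have hK := (l9rn_K_anti F 𝔹 p hsm hθ hv0 hv).2
  rw [l9rn_q_eq F 𝔹 _ hl', l9rn_q_eq F 𝔹 _ hl]
  have h1 := hG _ ⟨hx0, hM⟩
  rw [abs_of_nonneg (sub_nonneg.2 hθ)] at h1
  have hi0 : 0 ≤ ((p.wTh θ).ell ^ 2)⁻¹ := by positivity
  have h2 := l9rn_gam_lip hc (show 0 ≤ (p.wTh θ).lam from hlam) hR (t := ((p.wTh θ).ell ^ 2)⁻¹ * (p.wTh θ').xi F 𝔹 v)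
    (t' := ((p.wTh θ).ell ^ 2)⁻¹ * (p.wTh θ).xi F 𝔹 v) (mul_nonneg hi0 hx0) (mul_le_mul_of_nonneg_left hx hi0)
  rw [← l9rn_gamN_eq F 𝔹 _ hl, ← l9rn_gamN_eq F 𝔹 _ hl, ← mul_sub] at h2
  have h3 : 1 / c * (((p.wTh θ).ell ^ 2)⁻¹ * ((p.wTh θ).xi F 𝔹 v - (p.wTh θ').xi F 𝔹 v)) ≤ 1 / c * ((p.wTh θ).K F 𝔹 v - (p.wTh θ').K F 𝔹 v) :=
    mul_le_mul_of_nonneg_left hK (by positivity)
  have e : (p.wTh θ').GamN F 𝔹 ((p.wTh θ').xi F 𝔹 v) - (p.wTh θ).GamN F 𝔹 ((p.wTh θ).xi F 𝔹 v)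
      = ((p.wTh θ').GamN F 𝔹 ((p.wTh θ').xi F 𝔹 v) - (p.wTh θ).GamN F 𝔹 ((p.wTh θ').xi F 𝔹 v))
        - ((p.wTh θ).GamN F 𝔹 ((p.wTh θ).xi F 𝔹 v) - (p.wTh θ).GamN F 𝔹 ((p.wTh θ').xi F 𝔹 v)) := by ring
  rw [e]
  refine (abs_sub _ _).trans ?_
  linarith


theorem l9rn_xi_le_M (F : LlFix) (𝔹 : LlBase) (p : LlPt) (hsm : p.sm = true) (hM : 0 ≤ p.M) (θ : ℝ) {v : ℝ} (hv : v ≤ 4) :
    (p.wTh θ).xi F 𝔹 v ≤ p.M := by
  unfold LlPt.xi llInv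
  rw [l9rn_Aprof_sm F 𝔹 p hsm]
  refine csInf_le ⟨0, fun _ h => h.1⟩ ⟨hM, ?_⟩
  have e : (p.wTh θ).Asm F 𝔹 p.M = 4 / Real.exp (θ / 6) := by
    unfold LlPt.Asm
    rw [if_pos (show (p.wTh θ).M ≤ p.M from le_rfl)]
    rfl
  rw [e]
  exact div_le_div_of_nonneg_right hv (Real.exp_pos _).le

/-! ## 3. what is used of the P-list (besides `Ll04cEnv` of 258) -/

structure L9rnEnv (𝔹 : LlBase) (F : LlFix) (c C v0 CG CK : ℝ) (N0 : ℕ) : Prop where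
  c0 : 0 < c
  CG0 : 0 ≤ CG
  CK0 : 0 ≤ CK
  ref : ∀ p : LlPt, p.Ok F → N0 ≤ p.N → p.Ref F 𝔹 c C v0
  endb : ∀ p : LlPt, p.Ok F → N0 ≤ p.N → Tendsto (p.b F 𝔹) (𝓝[<] p.a) (𝓝 (p.b F 𝔹 p.a))
  endh : ∀ p : LlPt, p.Ok F → N0 ≤ p.N → Tendsto (p.h F 𝔹) (𝓝[<] p.a) (𝓝 (p.h F 𝔹 p.a))
  endK : ∀ p : LlPt, p.Ok F → N0 ≤ p.N → Tendsto (p.K F 𝔹) (𝓝[<] p.a) (𝓝 (p.K F 𝔹 p.a))
  gamN : ∀ p : LlPt, p.Ok F → N0 ≤ p.N → p.sm = true → ∀ θ ∈ Icc 0 (Real.log 2), ∀ θ' ∈ Icc 0 (Real.log 2), ∀ ξ ∈ Icc 0 p.M,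
    |(p.wTh θ').GamN F 𝔹 ξ - (p.wTh θ).GamN F 𝔹 ξ| ≤ CG * (1 + p.M) * |θ' - θ|
  Kpt : ∀ p : LlPt, p.Ok F → N0 ≤ p.N → p.sm = true → ∀ θ ∈ Icc 0 (Real.log 2), ∀ θ' ∈ Icc 0 (Real.log 2), ∀ v ∈ Ioo (0 : ℝ) 4,
    |(p.wTh θ').K F 𝔹 v - (p.wTh θ).K F 𝔹 v| ≤ CK / p.om * |θ' - θ|

theorem l9rn_om_pos {p : LlPt} (hN : 2 ≤ p.N) : 0 < p.om := Real.rpow_pos_of_pos (lce_x_pos hN) _

theorem l9rn_env (𝔹 : LlBase) (F : LlFix) (h3 : LlSec3 𝔹 F) : ∃ (c C v0 CG CK : ℝ) (N0 : ℕ), L9rnEnv 𝔹 F c C v0 CG CK N0 := by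
  obtain ⟨c, C, v0, hc, _, N1, hR⟩ := h3.ref
  obtain ⟨N2, hEnd⟩ := h3.admEnd
  obtain ⟨v0', ξ0', _, _, hT⟩ := h3.regT
  obtain ⟨c', CT, _, N4, hT⟩ := hT 0
  refine ⟨c, C, v0, |CT|, |CT|, max (max N1 N2) N4, hc, abs_nonneg _, abs_nonneg _, fun p hp hN => hR p hp (by omega),
    fun p hp hN => (hEnd p hp (by omega)).1, fun p hp hN => (hEnd p hp (by omega)).2.1, fun p hp hN => (hEnd p hp (by omega)).2.2.2.1,
    fun p hp hN hsm θ hθ θ' hθ' ξ hξ => ?_, fun p hp hN hsm θ hθ θ' hθ' v hv => ?_⟩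
  · refine ((hT p hp (by omega) hsm θ hθ θ' hθ').gamN ξ hξ).trans ?_
    have hM := ll04c_M_nn p hp.N2
    exact mul_le_mul_of_nonneg_right (mul_le_mul_of_nonneg_right (le_abs_self _) (by linarith)) (abs_nonneg _)
  · refine ((hT p hp (by omega) hsm θ hθ θ' hθ').Kpt v hv).trans ?_
    exact mul_le_mul_of_nonneg_right (div_le_div_of_nonneg_right (le_abs_self _) (l9rn_om_pos hp.N2).le) (abs_nonneg _)

/-! ## 4. the size segment -/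

theorem l9rn_log2 : (0 : ℝ) ≤ Real.log 2 := Real.log_nonneg (by norm_num)

theorem l9rn_ptS_eq (F : LlFix) (N : ℕ) (γ : Fin (N + 1) → ℝ) {θ : ℝ} (hθ : θ ∈ Icc 0 (Real.log 2)) :
    ll04Siz F N (Real.log 2) γ θ = l9PtS F N γ θ := by
  unfold ll04Siz l9PtS
  rw [ll04w_U_of_mem hθ]

theorem l9rn_ptS_ok (F : LlFix) (hp : F.pS ≤ 12) {N : ℕ} (hN : 2 ≤ N) (γ : Fin (N + 1) → ℝ) {θ : ℝ} (hθ : θ ∈ Icc 0 (Real.log 2)) :
    (l9PtS F N γ θ).Ok F := by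
  have := ll04w_ok F hp hN (Θ := Real.log 2) ⟨l9rn_log2, le_rfl⟩ γ θ
  rwa [l9rn_ptS_eq F N γ hθ] at this

theorem l9rn_ptS_a (F : LlFix) (N : ℕ) (γ : Fin (N + 1) → ℝ) (θ : ℝ) : (l9PtS F N γ θ).a = 4 := by
  simp [LlPt.a, l9PtS, ll04Pt]

/-- the reference clock does not see `γ`, `χ` -/
theorem l9rn_K_free (F : LlFix) (𝔹 : LlBase) (N : ℕ) (ell lam cl ce cl' ce' : ℝ) (sm : Bool) (γ γ' : Fin (N + 1) → ℝ) :
    (ll04Pt N ell lam cl ce sm γ).K F 𝔹 = (ll04Pt N ell lam cl' ce' sm γ').K F 𝔹 := rfl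

/-- the constant of the domination on the size segment -/
noncomputable def l9rnA (𝔹 : LlBase) (F : LlFix) (c Cb CT CG M : ℝ) : ℝ :=
  (1 + Cb / c) + (Cb * CG * (1 + M) + CT + Cb + 2) + M + 𝔹.xiS F.T

/-- the three clocks at an admissible point -/
theorem l9rn_clk {𝔹 : LlBase} {F : LlFix} {Cb CR CT ξ0 c C v0 CG CK : ℝ} {N0 N1 : ℕ} (env : Ll04cEnv 𝔹 F Cb CR CT ξ0 N0) (en9 : L9rnEnv 𝔹 F c C v0 CG CK N1)
    (p : LlPt) (hp : p.Ok F) (hN : N0 ≤ p.N) (hN1 : N1 ≤ p.N) :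
    L9Clk p.a (p.b F 𝔹) ∧ L9Clk p.a (p.h F 𝔹) ∧ L9Clk p.a (p.K F 𝔹) := by
  have h0a : (0 : ℝ) ∈ Icc 0 p.a := ⟨le_rfl, by linarith [(lce_a_mem hp).1]⟩
  exact ⟨⟨⟨env.mb p hp hN, (env.b_rg p hp hN 0 h0a).1⟩, en9.endb p hp hN1⟩, ⟨⟨env.mh p hp hN, env.h_nn p hp hN 0 h0a⟩, en9.endh p hp hN1⟩,
    ⟨⟨env.mK p hp hN, lce_K_nonneg 0⟩, en9.endK p hp hN1⟩⟩

/-- **the contract (d) on the size segment** -/
theorem l9rn_sizS (F : LlFix) (hF : F.Ok) (𝔹 : LlBase) (hP : LlBaseProfile 𝔹 F.T) (hE : LlExpOk F.sS F.eta F.pS)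
    {Cb CR CT ξ0 c C v0 CG CK : ℝ} {N0 N1 : ℕ} (env : Ll04cEnv 𝔹 F Cb CR CT ξ0 N0) (en9 : L9rnEnv 𝔹 F c C v0 CG CK N1)
    {N : ℕ} (hN : N0 ≤ N) (hN1 : N1 ≤ N) :
    L9RcS 𝔹 F (l9PtS F N) 4 0 (Real.log 2) (l9rnA 𝔹 F c Cb CT CG (Real.log (1 / skX N) ^ 3)) := by
  have hN2 : 2 ≤ N := env.N2.trans hN
  have hp12 : F.pS ≤ 12 := by linarith [hE.p_hi]
  have hx := ll04w_x_mem (N := N) (by omega)
  have hc := en9.c0
  have hCb := env.Cb0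
  have hCT := env.CT0
  have hCG := en9.CG0
  have hxi := hP.xi_pos
  set M := Real.log (1 / skX N) ^ 3 with hMdef
  have hM0 : 0 ≤ M := pow_nonneg (lcd_L_ge (skX N) hx.1 hx.2) 3
  have hok : ∀ γ, ∀ θ ∈ Icc 0 (Real.log 2), (l9PtS F N γ θ).Ok F := fun γ θ hθ => l9rn_ptS_ok F hp12 hN2 γ hθ
  have hclk : ∀ γ, ∀ θ ∈ Icc 0 (Real.log 2), L9Clk 4 ((l9PtS F N γ θ).b F 𝔹) ∧ L9Clk 4 ((l9PtS F N γ θ).h F 𝔹) ∧ L9Clk 4 ((l9PtS F N γ θ).K F 𝔹) := by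
    intro γ θ hθ
    have := l9rn_clk env en9 (l9PtS F N γ θ) (hok γ θ hθ) hN hN1
    rwa [l9rn_ptS_a] at this
  have hA1 : 1 + Cb / c ≤ l9rnA 𝔹 F c Cb CT CG M := by
    unfold l9rnA
    have : 0 ≤ Cb * CG * (1 + M) := by positivity
    linarith
  have hA2 : Cb * CG * (1 + M) + CT + Cb + 2 ≤ l9rnA 𝔹 F c Cb CT CG M := by
    unfold l9rnA
    have : 0 ≤ Cb / c := by positivity
    linarith
  have hA0 : 0 ≤ l9rnA 𝔹 F c Cb CT CG M := by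
    have : 0 ≤ Cb / c := by positivity
    linarith
  have h00 : (0 : ℝ) ∈ Icc 0 (Real.log 2) := ⟨le_rfl, l9rn_log2⟩
  have hanti : ∀ γ, ∀ t ∈ Icc 0 (Real.log 2), ∀ t' ∈ Icc 0 (Real.log 2), t ≤ t' → ∀ v ∈ Ioo (0 : ℝ) 4,
      (l9PtS F N γ t').K F 𝔹 v ≤ (l9PtS F N γ t).K F 𝔹 v := fun γ t _ t' _ htt v hv =>
    (l9rn_K_anti F 𝔹 (l9PtS F N γ 0) rfl htt hv.1.le hv.2.le).1
  have hb0 : ∀ γ, ∀ t ∈ Icc 0 (Real.log 2), ∀ t' ∈ Icc 0 (Real.log 2),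
      |(l9PtS F N γ t').b0 F 𝔹 - (l9PtS F N γ t).b0 F 𝔹| ≤ (CT + Cb) * |t' - t| := fun γ t ht t' ht' =>
    ll04c_th_b0 F 𝔹 (l9PtS F N γ 0) ht ht' (env.regTb (l9PtS F N γ 0) (hok γ 0 h00) hN rfl _ ht _ ht') (env.b0_rg (l9PtS F N γ t) (hok γ t ht) hN)
  refine ⟨l9rn_ptS_a F N, fun γ t ht => (hclk γ t ht).1, fun γ t ht => (hclk γ t ht).2.1, fun γ t ht => (hclk γ t ht).2.2,
    fun γ γ' t => rfl, hanti, fun γ => ?_, fun γ t ht t' ht' htt v hv => ?_, fun γ t ht t' ht' htt v hv => ?_⟩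
  · have := ll04h_K_top hF hP (hok γ 0 h00)
    rw [l9rn_ptS_a] at this
    refine this.trans (max_le ?_ ?_)
    · show M ≤ _
      unfold l9rnA
      have : 0 ≤ Cb * CG * (1 + M) := by positivity
      have : 0 ≤ Cb / c := by positivity
      linarith
    · unfold l9rnA
      have : 0 ≤ Cb * CG * (1 + M) := by positivity
      have : 0 ≤ Cb / c := by positivity
      linarith
  · have e := ll04c_th_b F 𝔹 (l9PtS F N γ 0) t t' v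
    have e' : (l9PtS F N γ t').b F 𝔹 v - (l9PtS F N γ t).b F 𝔹 v = (l9PtS F N γ t').b0 F 𝔹 - (l9PtS F N γ t).b0 F 𝔹 := e
    rw [e']
    have h1 := hb0 γ t ht t' ht'
    rw [abs_of_nonneg (sub_nonneg.2 htt)] at h1
    have h2 := hanti γ t ht t' ht' htt v hv
    have h3 : 0 ≤ l9rnA 𝔹 F c Cb CT CG M * ((l9PtS F N γ t).K F 𝔹 v - (l9PtS F N γ t').K F 𝔹 v) := mul_nonneg hA0 (by linarith)
    have h4 : (CT + Cb) * (t' - t) ≤ l9rnA 𝔹 F c Cb CT CG M * (t' - t) := by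
      refine mul_le_mul_of_nonneg_right ?_ (by linarith)
      have : 0 ≤ Cb * CG * (1 + M) := by positivity
      linarith
    linarith
  · have hR := en9.ref (l9PtS F N γ t) (hok γ t ht) hN1
    have kh := ll04c_th_h F hF 𝔹 (l9PtS F N γ 0) (hok γ 0 h00) hE.e_lo.le rfl ht ht' (C0 := CT + Cb) (Cb := Cb) (hb0 γ t ht t' ht') v hv.1
      (by
        obtain ⟨b0, b1⟩ := env.b_rg _ (hok γ t' ht') hN v (by rw [l9rn_ptS_a]; exact ⟨hv.1.le, hv.2.le⟩)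
        show |(l9PtS F N γ t').b F 𝔹 v| ≤ Cb
        rw [abs_of_nonneg b0]; exact b1)
      (by
        obtain ⟨q0, q1⟩ := ll04h_q_mem hR v
        show |(l9PtS F N γ t).q F 𝔹 v| ≤ 1
        rw [abs_of_nonneg q0]; exact q1)
    have kq := l9rn_q_dom F 𝔹 (l9PtS F N γ 0) rfl hc (Real.rpow_nonneg hx.1.le _) (θ := t) (θ' := t') hR htt hv.1.le hv.2.le
      (l9rn_xi_le_M F 𝔹 (l9PtS F N γ 0) rfl hM0 t' hv.2.le) (en9.gamN (l9PtS F N γ 0) (hok γ 0 h00) hN1 rfl t ht t' ht')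
    have kh' : |(l9PtS F N γ t').h F 𝔹 v - (l9PtS F N γ t).h F 𝔹 v| ≤ |(l9PtS F N γ t').K F 𝔹 v - (l9PtS F N γ t).K F 𝔹 v|
        + Cb * |(l9PtS F N γ t').q F 𝔹 v - (l9PtS F N γ t).q F 𝔹 v| + (CT + Cb + 2) * |t' - t| := kh
    have kq' : |(l9PtS F N γ t').q F 𝔹 v - (l9PtS F N γ t).q F 𝔹 v| ≤ 1 / c * ((l9PtS F N γ t).K F 𝔹 v - (l9PtS F N γ t').K F 𝔹 v)
        + CG * (1 + M) * (t' - t) := kq
    have h2 := hanti γ t ht t' ht' htt v hv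
    rw [abs_of_nonneg (sub_nonneg.2 htt), abs_sub_comm ((l9PtS F N γ t').K F 𝔹 v), abs_of_nonneg (sub_nonneg.2 h2)] at kh'
    set D := (l9PtS F N γ t).K F 𝔹 v - (l9PtS F N γ t').K F 𝔹 v with hD
    have hD0 : 0 ≤ D := sub_nonneg.2 h2
    have hd0 : 0 ≤ t' - t := sub_nonneg.2 htt
    have k1 := mul_le_mul_of_nonneg_left kq' hCb
    have k2 := mul_le_mul_of_nonneg_right hA1 hD0
    have k3 := mul_le_mul_of_nonneg_right hA2 hd0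
    have e : Cb * (1 / c * D + CG * (1 + M) * (t' - t)) = Cb / c * D + Cb * CG * (1 + M) * (t' - t) := by ring
    rw [e] at k1
    nlinarith

/-- the Lipschitz constant on the size segment -/
noncomputable def l9rnLS (F : LlFix) (B Cb CT CK A om : ℝ) : ℝ := 2 * ll04cCg F B + (CT + Cb) + A * (CK / om + 1) + CK / om

/-- **the contract (a), (b), (c) on the size segment** -/
theorem l9rn_sizAt (F : LlFix) (hF : F.Ok) (𝔹 : LlBase) (hP : LlBaseProfile 𝔹 F.T) (hE : LlExpOk F.sS F.eta F.pS)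
    {B Cb CR CT ξ0 c C v0 CG CK : ℝ} {N0 N1 : ℕ} (hB : ∀ w, |F.phi w| ≤ B) (env : Ll04cEnv 𝔹 F Cb CR CT ξ0 N0) (en9 : L9rnEnv 𝔹 F c C v0 CG CK N1)
    {N : ℕ} (hN : N0 ≤ N) (hN1 : N1 ≤ N) :
    0 ≤ l9rnLS F B Cb CT CK (l9rnA 𝔹 F c Cb CT CG (Real.log (1 / skX N) ^ 3)) (skX N ^ (5 + 1 / 4 : ℝ)) ∧
    L9RcAt 𝔹 F (ll04Siz F N (Real.log 2)) 4 (l9rnLS F B Cb CT CK (l9rnA 𝔹 F c Cb CT CG (Real.log (1 / skX N) ^ 3)) (skX N ^ (5 + 1 / 4 : ℝ))) := by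
  have H := l9rn_sizS F hF 𝔹 hP hE env en9 hN hN1
  have hN2 : 2 ≤ N := env.N2.trans hN
  have hp12 : F.pS ≤ 12 := by linarith [hE.p_hi]
  have hx := ll04w_x_mem (N := N) (by omega)
  have hB0 : 0 ≤ B := (abs_nonneg _).trans (hB 0)
  have hCg := ll04c_Cg_nn F hF hB0
  have hCb := env.Cb0
  have hCT := env.CT0
  have hCK := en9.CK0
  set A := l9rnA 𝔹 F c Cb CT CG (Real.log (1 / skX N) ^ 3) with hA
  set om := skX N ^ (5 + 1 / 4 : ℝ) with hom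
  have hom0 : 0 < om := Real.rpow_pos_of_pos hx.1 _
  have hA0 : 0 ≤ A := by
    have h1 : 0 ≤ Cb / c := div_nonneg hCb en9.c0.le
    have h2 : 0 ≤ Real.log (1 / skX N) ^ 3 := pow_nonneg (lcd_L_ge (skX N) hx.1 hx.2) 3
    have h3 : 0 ≤ Cb * CG * (1 + Real.log (1 / skX N) ^ 3) := mul_nonneg (mul_nonneg hCb en9.CG0) (by linarith)
    have h4 := hP.xi_pos
    rw [hA]; unfold l9rnA; linarith
  have hKo : 0 ≤ CK / om := div_nonneg hCK hom0.le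
  have hL0 : 0 ≤ l9rnLS F B Cb CT CK A om := by unfold l9rnLS; positivity
  have h00 : (0 : ℝ) ∈ Icc 0 (Real.log 2) := ⟨le_rfl, l9rn_log2⟩
  have hU : ∀ θ, ll04U (Real.log 2) θ ∈ Icc 0 (Real.log 2) := fun θ => ll04w_U_mem l9rn_log2 θ
  have hUl : ∀ θ θ', |ll04U (Real.log 2) θ - ll04U (Real.log 2) θ'| ≤ |θ - θ'| := fun θ θ' => ll04c_U_lip _ θ θ'
  have hok : ∀ γ, ∀ θ ∈ Icc 0 (Real.log 2), (l9PtS F N γ θ).Ok F := fun γ θ hθ => l9rn_ptS_ok F hp12 hN2 γ hθ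
  -- `K`
  have hK : ∀ γ, ∀ u ∈ Icc 0 (Real.log 2), ∀ u' ∈ Icc 0 (Real.log 2), ∀ v ∈ Ioo (0 : ℝ) 4,
      |(l9PtS F N γ u).K F 𝔹 v - (l9PtS F N γ u').K F 𝔹 v| ≤ CK / om * |u - u'| := fun γ u hu u' hu' v hv =>
    en9.Kpt (l9PtS F N γ 0) (hok γ 0 h00) hN1 rfl u' hu' u hu v hv
  -- ordered pairs
  have hbh : ∀ γ, ∀ u ∈ Icc 0 (Real.log 2), ∀ u' ∈ Icc 0 (Real.log 2), ∀ v ∈ Ioo (0 : ℝ) 4,
      |(l9PtS F N γ u).b F 𝔹 v - (l9PtS F N γ u').b F 𝔹 v| ≤ A * (CK / om + 1) * |u - u'| ∧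
      |(l9PtS F N γ u).h F 𝔹 v - (l9PtS F N γ u').h F 𝔹 v| ≤ A * (CK / om + 1) * |u - u'| := by
    have key : ∀ γ, ∀ u ∈ Icc 0 (Real.log 2), ∀ u' ∈ Icc 0 (Real.log 2), u ≤ u' → ∀ v ∈ Ioo (0 : ℝ) 4,
        |(l9PtS F N γ u').b F 𝔹 v - (l9PtS F N γ u).b F 𝔹 v| ≤ A * (CK / om + 1) * |u - u'| ∧
        |(l9PtS F N γ u').h F 𝔹 v - (l9PtS F N γ u).h F 𝔹 v| ≤ A * (CK / om + 1) * |u - u'| := by
      intro γ u hu u' hu' huu v hv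
      have k1 := H.dom_b γ u hu u' hu' huu v hv
      have k2 := H.dom_h γ u hu u' hu' huu v hv
      have k3 := (le_abs_self _).trans (hK γ u hu u' hu' v hv)
      have e : |u - u'| = u' - u := by rw [abs_sub_comm, abs_of_nonneg (sub_nonneg.2 huu)]
      rw [e] at k3 ⊢
      have k4 := mul_le_mul_of_nonneg_left k3 hA0
      constructor <;> nlinarith
    intro γ u hu u' hu' v hv
    rcases le_total u u' with h | h
    · have := key γ u hu u' hu' h v hv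
      rwa [abs_sub_comm ((l9PtS F N γ u').b F 𝔹 v), abs_sub_comm ((l9PtS F N γ u').h F 𝔹 v)] at this
    · have := key γ u' hu' u hu h v hv
      rwa [abs_sub_comm u' u] at this
  have hgam : ∀ γ γ', ∀ u ∈ Icc 0 (Real.log 2), ∀ v ∈ Ioo (0 : ℝ) 4,
      |(l9PtS F N γ u).b F 𝔹 v - (l9PtS F N γ' u).b F 𝔹 v| + |(l9PtS F N γ u).h F 𝔹 v - (l9PtS F N γ' u).h F 𝔹 v| ≤ 2 * ll04cCg F B * dist γ γ' :=
    fun γ γ' u hu v hv => ll04c_gam_pw F hF 𝔹 hB env N _ _ _ _ true γ γ' (hok γ u hu) hN v (by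
      show v ∈ Ioo 0 (l9PtS F N γ u).a
      rw [l9rn_ptS_a]; exact hv)
  refine ⟨hL0, fun γ t => l9rn_ptS_a F N γ _, fun γ t => H.adm_b γ _ (hU t), fun γ t => H.adm_h γ _ (hU t), fun γ t => H.adm_K γ _ (hU t),
    fun γ γ' t t' v hv => ?_, fun γ γ' t t' v hv => ?_, fun γ γ' t t' v hv => ?_⟩
  · show |(l9PtS F N γ (ll04U (Real.log 2) t)).b F 𝔹 v - (l9PtS F N γ' (ll04U (Real.log 2) t')).b F 𝔹 v| ≤ _
    have k1 := hgam γ γ' _ (hU t) v hv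
    have k2 := (hbh γ' _ (hU t) _ (hU t') v hv).1
    have k3 := mul_le_mul_of_nonneg_left (hUl t t') (by positivity : 0 ≤ A * (CK / om + 1))
    have k4 := abs_sub_le ((l9PtS F N γ (ll04U (Real.log 2) t)).b F 𝔹 v) ((l9PtS F N γ' (ll04U (Real.log 2) t)).b F 𝔹 v)
      ((l9PtS F N γ' (ll04U (Real.log 2) t')).b F 𝔹 v)
    have n1 := abs_nonneg ((l9PtS F N γ (ll04U (Real.log 2) t)).h F 𝔹 v - (l9PtS F N γ' (ll04U (Real.log 2) t)).h F 𝔹 v)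
    have n2 : 0 ≤ dist γ γ' := dist_nonneg
    have n3 := abs_nonneg (t - t')
    unfold l9rnLS
    nlinarith [mul_nonneg hCg n3, mul_nonneg (add_nonneg hCT hCb) n3, mul_nonneg (add_nonneg hCT hCb) n2, mul_nonneg hKo n3, mul_nonneg hKo n2,
      mul_nonneg (by positivity : 0 ≤ A * (CK / om + 1)) n2]
  · show |(l9PtS F N γ (ll04U (Real.log 2) t)).h F 𝔹 v - (l9PtS F N γ' (ll04U (Real.log 2) t')).h F 𝔹 v| ≤ _
    have k1 := hgam γ γ' _ (hU t) v hv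
    have k2 := (hbh γ' _ (hU t) _ (hU t') v hv).2
    have k3 := mul_le_mul_of_nonneg_left (hUl t t') (by positivity : 0 ≤ A * (CK / om + 1))
    have k4 := abs_sub_le ((l9PtS F N γ (ll04U (Real.log 2) t)).h F 𝔹 v) ((l9PtS F N γ' (ll04U (Real.log 2) t)).h F 𝔹 v)
      ((l9PtS F N γ' (ll04U (Real.log 2) t')).h F 𝔹 v)
    have n1 := abs_nonneg ((l9PtS F N γ (ll04U (Real.log 2) t)).b F 𝔹 v - (l9PtS F N γ' (ll04U (Real.log 2) t)).b F 𝔹 v)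
    have n2 : 0 ≤ dist γ γ' := dist_nonneg
    have n3 := abs_nonneg (t - t')
    unfold l9rnLS
    nlinarith [mul_nonneg hCg n3, mul_nonneg (add_nonneg hCT hCb) n3, mul_nonneg (add_nonneg hCT hCb) n2, mul_nonneg hKo n3, mul_nonneg hKo n2,
      mul_nonneg (by positivity : 0 ≤ A * (CK / om + 1)) n2]
  · show |(l9PtS F N γ (ll04U (Real.log 2) t)).K F 𝔹 v - (l9PtS F N γ (ll04U (Real.log 2) t')).K F 𝔹 v| ≤ _
    have k2 := hK γ _ (hU t) _ (hU t') v hv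
    have k3 := mul_le_mul_of_nonneg_left (hUl t t') hKo
    have n2 : 0 ≤ dist γ γ' := dist_nonneg
    have n3 := abs_nonneg (t - t')
    unfold l9rnLS
    nlinarith [mul_nonneg hCg n3, mul_nonneg hCg n2, mul_nonneg (add_nonneg hCT hCb) n3, mul_nonneg (add_nonneg hCT hCb) n2, mul_nonneg hKo n2,
      mul_nonneg (by positivity : 0 ≤ A * (CK / om + 1)) n2, mul_nonneg (by positivity : 0 ≤ A * (CK / om + 1)) n3]

/-! ## 5. the direct segments -/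

theorem l9rn_dir_a (F : LlFix) (N : ℕ) (ell : ℝ) (i : Fin 3) (γ : Fin (N + 1) → ℝ) (t : ℝ) : (ll04Dir F N ell i γ t).a = ell := by
  simp [LlPt.a, ll04Dir, ll04Pt]

/-- the strength is Lipschitz in the parameter of the sweep -/
theorem l9rn_lam_lip {x : ℝ} (hx0 : 0 < x) (hx1 : x ≤ 1) {e e' : ℝ} (he : 0 ≤ e) (he' : 0 ≤ e') : |x ^ e - x ^ e'| ≤ Real.log (1 / x) * |e - e'| := by
  have hl : Real.log x ≤ 0 := Real.log_nonpos hx0.le hx1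
  rw [Real.rpow_def_of_pos hx0, Real.rpow_def_of_pos hx0]
  have := ll04c_exp_lip (a := Real.log x * e) (b := Real.log x * e') (M := 0) (mul_nonpos_of_nonpos_of_nonneg hl he) (mul_nonpos_of_nonpos_of_nonneg hl he')
  rw [Real.exp_zero, one_mul, ← mul_sub, abs_mul, abs_of_nonpos hl] at this
  rwa [one_div, Real.log_inv]

/-- the Lipschitz constant on the direct segments -/
noncomputable def l9rnLD (F : LlFix) (B Cb CR CH Lg : ℝ) : ℝ :=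
  2 * ll04cCg F B + 12 * (ll04cCb F B CR + ll04cCh F B CR Cb CH) * (1 + Lg) ^ 2 + (2 + CH) + CR * (Lg * 12) * 2

/-- **the contract (a), (b), (c) on the direct segments** -/
theorem l9rn_dirAt (F : LlFix) (hF : F.Ok) (𝔹 : LlBase) (hE : LlExpOk F.sS F.eta F.pS)
    {B Cb CR CT ξ0 CH c C v0 CG CK : ℝ} {N0 N1 : ℕ} (hB : ∀ w, |F.phi w| ≤ B) (env : Ll04cEnv 𝔹 F Cb CR CT ξ0 N0) (hHe : Ll04cHe 𝔹 F CH)
    (en9 : L9rnEnv 𝔹 F c C v0 CG CK N1) {N : ℕ} (hN : N0 ≤ N) (hN1 : N1 ≤ N) {ell : ℝ} (hl : ell ∈ Icc (1 : ℝ) ((2 : ℝ) ^ (1 / 6 : ℝ))) (i : Fin 3) :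
    0 ≤ l9rnLD F B Cb CR CH (Real.log (1 / skX N)) ∧ L9RcAt 𝔹 F (ll04Dir F N ell i) ell (l9rnLD F B Cb CR CH (Real.log (1 / skX N))) := by
  have hN2 : 2 ≤ N := env.N2.trans hN
  have hp12 : F.pS ≤ 12 := by linarith [hE.p_hi]
  have hx := ll04w_x_mem (N := N) (by omega)
  have hB0 : 0 ≤ B := (abs_nonneg _).trans (hB 0)
  have hCg := ll04c_Cg_nn F hF hB0
  have hCR := env.CR0
  have hCH := hHe.nn
  have hCC : 0 ≤ ll04cCb F B CR + ll04cCh F B CR Cb CH := by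
    have h1 := ll04c_Cb_nn F hF hB0 env.CR0
    have h2 := env.Cb0
    unfold ll04cCh
    positivity
  set Lg := Real.log (1 / skX N) with hLg
  have hLg0 : 0 ≤ Lg := lcd_L_ge (skX N) hx.1 hx.2
  have hL0 : 0 ≤ l9rnLD F B Cb CR CH Lg := by unfold l9rnLD; positivity
  have hok : ∀ γ t, (ll04Dir F N ell i γ t).Ok F := fun γ t => ll04c_ok F hp12 hN2 hl i γ t
  have hell2 : ell ≤ 2 := by
    have := (lce_a_mem (hok 0 0)).2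
    refine hl.2.trans ?_
    calc (2 : ℝ) ^ (1 / 6 : ℝ) ≤ (2 : ℝ) ^ (1 : ℝ) := Real.rpow_le_rpow_of_exponent_le (by norm_num) (by norm_num)
      _ = 2 := Real.rpow_one 2
  have hclk : ∀ γ t, L9Clk ell ((ll04Dir F N ell i γ t).b F 𝔹) ∧ L9Clk ell ((ll04Dir F N ell i γ t).h F 𝔹) ∧ L9Clk ell ((ll04Dir F N ell i γ t).K F 𝔹) := by
    intro γ t
    have := l9rn_clk env en9 (ll04Dir F N ell i γ t) (hok γ t) hN hN1
    rwa [l9rn_dir_a] at this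
  have hgam : ∀ γ γ' t, ∀ v ∈ Ioo 0 ell,
      |(ll04Dir F N ell i γ t).b F 𝔹 v - (ll04Dir F N ell i γ' t).b F 𝔹 v| + |(ll04Dir F N ell i γ t).h F 𝔹 v - (ll04Dir F N ell i γ' t).h F 𝔹 v|
        ≤ 2 * ll04cCg F B * dist γ γ' :=
    fun γ γ' t v hv => ll04c_gam_pw F hF 𝔹 hB env N _ _ _ _ false γ γ' (hok γ t) hN v (by
      show v ∈ Ioo 0 (ll04Dir F N ell i γ t).a
      rw [l9rn_dir_a]; exact hv)
  have hpar : ∀ γ t t', ∀ v ∈ Ioo 0 ell,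
      |(ll04Dir F N ell i γ t).b F 𝔹 v - (ll04Dir F N ell i γ t').b F 𝔹 v| + |(ll04Dir F N ell i γ t).h F 𝔹 v - (ll04Dir F N ell i γ t').h F 𝔹 v|
        ≤ (12 * (ll04cCb F B CR + ll04cCh F B CR Cb CH) * (1 + Lg) ^ 2 + (2 + CH)) * |t - t'| := by
    intro γ t t' v hv
    have n3 := abs_nonneg (t - t')
    by_cases hi : i = 0
    · subst hi
      have := ll04c_dir0_pw F hF 𝔹 hB env hHe hE hN hl γ t t' v hv
      nlinarith [mul_nonneg (by linarith : 0 ≤ 2 + CH) n3]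
    · have := ll04c_dir12_pw F hF 𝔹 hHe hE hN2 hl i hi γ t t' v hv
      nlinarith [mul_nonneg (by positivity : 0 ≤ 12 * (ll04cCb F B CR + ll04cCh F B CR Cb CH) * (1 + Lg) ^ 2) n3]
  have hK : ∀ γ γ' t t', ∀ v ∈ Ioo 0 ell, |(ll04Dir F N ell i γ t).K F 𝔹 v - (ll04Dir F N ell i γ' t').K F 𝔹 v| ≤ CR * (Lg * 12) * 2 * |t - t'| := by
    intro γ γ' t t' v hv
    have n3 := abs_nonneg (t - t')
    by_cases hi : i = 0
    · subst hi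
      have hlam : (ll04Dir F N ell 0 γ t).lam = skX N ^ (12 * (1 - ll04U 1 t) + F.pS * ll04U 1 t) := by rw [ll04c_dir0]; rfl
      have hlam' : (ll04Dir F N ell 0 γ t').lam = skX N ^ (12 * (1 - ll04U 1 t') + F.pS * ll04U 1 t') := by rw [ll04c_dir0]; rfl
      have e' : (ll04Dir F N ell 0 γ' t').K F 𝔹 = ((ll04Dir F N ell 0 γ t).wLm (skX N ^ (12 * (1 - ll04U 1 t') + F.pS * ll04U 1 t'))).K F 𝔹 := by
        rw [ll04c_dir0, ll04c_dir0]; rfl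
      have hlo := (hok γ t').lam_lo
      have hhi := (hok γ t').lam_hi
      rw [hlam'] at hlo hhi
      have k := (env.regL (ll04Dir F N ell 0 γ t) (hok γ t) hN rfl _ hlo hhi).K v (by rw [l9rn_dir_a]; exact hv)
      rw [← e', hlam] at k
      have hu := ll04w_U_mem (zero_le_one) t
      have hu' := ll04w_U_mem (zero_le_one) t'
      have k2 := l9rn_lam_lip hx.1 hx.2 (e := 12 * (1 - ll04U 1 t') + F.pS * ll04U 1 t') (e' := 12 * (1 - ll04U 1 t) + F.pS * ll04U 1 t)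
        (by nlinarith [hu'.1, hu'.2, hE.p_lo]) (by nlinarith [hu.1, hu.2, hE.p_lo])
      have k3 : |12 * (1 - ll04U 1 t') + F.pS * ll04U 1 t' - (12 * (1 - ll04U 1 t) + F.pS * ll04U 1 t)| ≤ 12 * |t - t'| := by
        have e : 12 * (1 - ll04U 1 t') + F.pS * ll04U 1 t' - (12 * (1 - ll04U 1 t) + F.pS * ll04U 1 t) = (12 - F.pS) * (ll04U 1 t - ll04U 1 t') := by ring
        rw [e, abs_mul, abs_of_nonneg (by linarith)]
        exact mul_le_mul (by linarith [hE.p_lo]) (ll04c_U_lip 1 t t') (abs_nonneg _) (by norm_num)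
      rw [abs_sub_comm]
      refine k.trans ?_
      have k4 : |skX N ^ (12 * (1 - ll04U 1 t') + F.pS * ll04U 1 t') - skX N ^ (12 * (1 - ll04U 1 t) + F.pS * ll04U 1 t)| ≤ Lg * (12 * |t - t'|) :=
        k2.trans (mul_le_mul_of_nonneg_left k3 hLg0)
      calc CR * |skX N ^ (12 * (1 - ll04U 1 t') + F.pS * ll04U 1 t') - skX N ^ (12 * (1 - ll04U 1 t) + F.pS * ll04U 1 t)| * v
          ≤ CR * (Lg * (12 * |t - t'|)) * 2 :=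
            mul_le_mul (mul_le_mul_of_nonneg_left k4 hCR) (by linarith [hv.2]) hv.1.le (by positivity)
        _ = _ := by ring
    · have e : (ll04Dir F N ell i γ t).K F 𝔹 = (ll04Dir F N ell i γ' t').K F 𝔹 := by
        unfold ll04Dir
        simp only [if_neg hi]
        rfl
      rw [e, sub_self, abs_zero]
      positivity
  refine ⟨hL0, l9rn_dir_a F N ell i, fun γ t => (hclk γ t).1, fun γ t => (hclk γ t).2.1, fun γ t => (hclk γ t).2.2,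
    fun γ γ' t t' v hv => ?_, fun γ γ' t t' v hv => ?_, fun γ γ' t t' v hv => ?_⟩
  · have k1 := hgam γ γ' t v hv
    have k2 := hpar γ' t t' v hv
    have k4 := abs_sub_le ((ll04Dir F N ell i γ t).b F 𝔹 v) ((ll04Dir F N ell i γ' t).b F 𝔹 v) ((ll04Dir F N ell i γ' t').b F 𝔹 v)
    have n1 := abs_nonneg ((ll04Dir F N ell i γ t).h F 𝔹 v - (ll04Dir F N ell i γ' t).h F 𝔹 v)
    have n1' := abs_nonneg ((ll04Dir F N ell i γ' t).h F 𝔹 v - (ll04Dir F N ell i γ' t').h F 𝔹 v)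
    have n2 : 0 ≤ dist γ γ' := dist_nonneg
    have n3 := abs_nonneg (t - t')
    unfold l9rnLD
    nlinarith [mul_nonneg hCg n3, mul_nonneg (by positivity : 0 ≤ 12 * (ll04cCb F B CR + ll04cCh F B CR Cb CH) * (1 + Lg) ^ 2 + (2 + CH)) n2,
      mul_nonneg (by positivity : 0 ≤ CR * (Lg * 12) * 2) n2, mul_nonneg (by positivity : 0 ≤ CR * (Lg * 12) * 2) n3]
  · have k1 := hgam γ γ' t v hv
    have k2 := hpar γ' t t' v hv
    have k4 := abs_sub_le ((ll04Dir F N ell i γ t).h F 𝔹 v) ((ll04Dir F N ell i γ' t).h F 𝔹 v) ((ll04Dir F N ell i γ' t').h F 𝔹 v)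
    have n1 := abs_nonneg ((ll04Dir F N ell i γ t).b F 𝔹 v - (ll04Dir F N ell i γ' t).b F 𝔹 v)
    have n1' := abs_nonneg ((ll04Dir F N ell i γ' t).b F 𝔹 v - (ll04Dir F N ell i γ' t').b F 𝔹 v)
    have n2 : 0 ≤ dist γ γ' := dist_nonneg
    have n3 := abs_nonneg (t - t')
    unfold l9rnLD
    nlinarith [mul_nonneg hCg n3, mul_nonneg (by positivity : 0 ≤ 12 * (ll04cCb F B CR + ll04cCh F B CR Cb CH) * (1 + Lg) ^ 2 + (2 + CH)) n2,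
      mul_nonneg (by positivity : 0 ≤ CR * (Lg * 12) * 2) n2, mul_nonneg (by positivity : 0 ≤ CR * (Lg * 12) * 2) n3]
  · have k1 := hK γ γ' t t' v hv
    have n2 : 0 ≤ dist γ γ' := dist_nonneg
    have n3 := abs_nonneg (t - t')
    unfold l9rnLD
    nlinarith [mul_nonneg hCg n3, mul_nonneg hCg n2, mul_nonneg (by positivity : 0 ≤ 12 * (ll04cCb F B CR + ll04cCh F B CR Cb CH) * (1 + Lg) ^ 2 + (2 + CH)) n2,
      mul_nonneg (by positivity : 0 ≤ 12 * (ll04cCb F B CR + ll04cCh F B CR Cb CH) * (1 + Lg) ^ 2 + (2 + CH)) n3,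
      mul_nonneg (by positivity : 0 ≤ CR * (Lg * 12) * 2) n2]

/-! ## 6. logarithms are a subpower loss; assembly -/

theorem l9rn_num {K1 A x δ : ℝ} (hx0 : 0 < x) (hx1 : x ≤ 1) (hδ : 0 < δ) (hA1 : 1 ≤ A) (hA : A ≤ K1 * (1 + Real.log (1 / x)) ^ 3) :
    (1 + 2 * A * 4) * (Real.log 2 - 0) + (2 * A + 1 + 44 * 4 ^ 2) * ((4 + 1) * A) ≤ 3544 * K1 ^ 2 * (1 + 1 / (δ / 6)) ^ 6 * x ^ (-δ) := by
  have hL0 := lcd_L_ge x hx0 hx1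
  have h1 := lcd_log_le (δ / 6) (by positivity) x hx0 hx1
  have h2 := pow_le_pow_left₀ (by linarith : 0 ≤ 1 + Real.log (1 / x)) h1 6
  have h3 : (x ^ (-(δ / 6))) ^ 6 = x ^ (-δ) := by
    rw [← Real.rpow_natCast, ← Real.rpow_mul hx0.le]
    congr 1
    push_cast
    ring
  rw [mul_pow, h3] at h2
  have h4 : A ^ 2 ≤ K1 ^ 2 * (1 + Real.log (1 / x)) ^ 6 := by
    have := pow_le_pow_left₀ (by linarith : 0 ≤ A) hA 2
    calc A ^ 2 ≤ (K1 * (1 + Real.log (1 / x)) ^ 3) ^ 2 := this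
      _ = _ := by ring
  have h5 : K1 ^ 2 * (1 + Real.log (1 / x)) ^ 6 ≤ K1 ^ 2 * ((1 + 1 / (δ / 6)) ^ 6 * x ^ (-δ)) := mul_le_mul_of_nonneg_left h2 (sq_nonneg _)
  have h6 : (1 + 2 * A * 4) * (Real.log 2 - 0) + (2 * A + 1 + 44 * 4 ^ 2) * ((4 + 1) * A) ≤ 3544 * A ^ 2 := by
    have hl := ll04c_log2_le
    have hl0 := l9rn_log2
    nlinarith [mul_le_mul_of_nonneg_left hl (by linarith : 0 ≤ 1 + 2 * A * 4)]
  nlinarith

theorem l9rn_A_le {𝔹 : LlBase} {F : LlFix} {c Cb CT CG Lg : ℝ} (hc : 0 < c) (hCb : 0 ≤ Cb) (hCT : 0 ≤ CT) (hCG : 0 ≤ CG) (hxi : 0 ≤ 𝔹.xiS F.T) (hL : 0 ≤ Lg) :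
    1 ≤ l9rnA 𝔹 F c Cb CT CG (Lg ^ 3) ∧
    l9rnA 𝔹 F c Cb CT CG (Lg ^ 3) ≤ ((1 + Cb / c) + (Cb * CG + CT + Cb + 2) + 1 + 𝔹.xiS F.T) * (1 + Lg) ^ 3 := by
  have h1 : 0 ≤ Cb / c := by positivity
  have h2 : 0 ≤ Lg ^ 3 := by positivity
  have h3 : 1 + Lg ^ 3 ≤ (1 + Lg) ^ 3 := by nlinarith [mul_nonneg hL hL]
  have h4 : 0 ≤ Cb * CG := by positivity
  set Y := (1 + Lg) ^ 3 with hY
  constructor
  · unfold l9rnA
    nlinarith [mul_nonneg h4 (by linarith : 0 ≤ 1 + Lg ^ 3)]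
  · unfold l9rnA
    have hY1 : 1 ≤ Y := by linarith
    nlinarith [mul_le_mul_of_nonneg_left h3 h4, mul_nonneg h1 (by linarith : 0 ≤ Y - 1), mul_nonneg hCT (by linarith : 0 ≤ Y - 1),
      mul_nonneg hCb (by linarith : 0 ≤ Y - 1), mul_nonneg hxi (by linarith : 0 ≤ Y - 1)]

/-- **REG, strong form**: the clock-level contracts on the four segments and the envelope (d), for ALL chains, tests and site counts -/
def L9RegX (𝔹 : LlBase) (F : LlFix) : Prop :=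
  ∀ δ : ℝ, 0 < δ → ∃ (C : ℝ) (N0 : ℕ), ∀ N : ℕ, N0 ≤ N →
    (∃ L : ℝ, 0 ≤ L ∧ L9RcAt 𝔹 F (ll04Siz F N (Real.log 2)) 4 L) ∧
    (∀ ell ∈ Icc (1 : ℝ) ((2 : ℝ) ^ (1 / 6 : ℝ)), ∀ i : Fin 3, ∃ L : ℝ, 0 ≤ L ∧ L9RcAt 𝔹 F (ll04Dir F N ell i) ell L) ∧
    ∀ Fs : Finset GhPos, ∃ w : ℝ → ℝ, IntegrableOn w (Icc (0 : ℝ) (Real.log 2)) ∧ ∫ θ in Icc (0 : ℝ) (Real.log 2), w θ ≤ C * skX N ^ (-δ) ∧
      ∀ θ ∈ Ioo (0 : ℝ) (Real.log 2), ∀ (γ : Fin (N + 1) → ℝ) (s : ℝ) (m : ℕ),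
        (⟨F, 𝔹, s, Fs, m⟩ : L9I).Dif (l9PtS F N γ) θ → |1 + (⟨F, 𝔹, s, Fs, m⟩ : L9I).dot (l9PtS F N γ) θ| ≤ w θ

/-- **REG from the P-list** (abstract base) -/
theorem l9rn_main (𝔹 : LlBase) (F : LlFix) (hP : LlBaseProfile 𝔹 F.T) (hE : LlExpOk F.sS F.eta F.pS) (h3 : LlSec3 𝔹 F) : L9RegX 𝔹 F := by
  intro δ hδ
  have hF := h3.ok
  obtain ⟨B, hB0, hB⟩ := ll04c_phi_bd F hF
  obtain ⟨Cb, CR, CT, ξ0, N0, env⟩ := ll04c_env 𝔹 F h3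
  obtain ⟨CH, hHe⟩ := exit_llclk_he F 𝔹 hF hP
  obtain ⟨c, C, v0, CG, CK, N1, en9⟩ := l9rn_env 𝔹 F h3
  refine ⟨3544 * ((1 + Cb / c) + (Cb * CG + CT + Cb + 2) + 1 + 𝔹.xiS F.T) ^ 2 * (1 + 1 / (δ / 6)) ^ 6, max N0 N1, fun N hN => ?_⟩
  have hN0 : N0 ≤ N := le_trans (le_max_left _ _) hN
  have hN1 : N1 ≤ N := le_trans (le_max_right _ _) hN
  have hN2 : 2 ≤ N := env.N2.trans hN0
  have hx := ll04w_x_mem (N := N) (by omega)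
  obtain ⟨hA1, hA⟩ := l9rn_A_le (𝔹 := 𝔹) (F := F) en9.c0 env.Cb0 env.CT0 en9.CG0 hP.xi_pos.le (lcd_L_ge (skX N) hx.1 hx.2)
  refine ⟨⟨_, l9rn_sizAt F hF 𝔹 hP hE hB env en9 hN0 hN1⟩, fun ell hl i => ⟨_, l9rn_dirAt F hF 𝔹 hE hB env hHe en9 hN0 hN1 hl i⟩, fun Fs => ?_⟩
  obtain ⟨w, hw1, hw2, hw3⟩ := l9rg_env' Fs (by norm_num : (0 : ℝ) < 4) l9rn_log2 (by linarith) (l9rn_sizS F hF 𝔹 hP hE env en9 hN0 hN1)
  exact ⟨w, hw1, hw2.trans (l9rn_num hx.1 hx.2 hδ hA1 hA), hw3⟩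

/-! ## 7. the strength sweep in the parameter `t = log λ` of the paper -/

/-- differentiability in `τ` (clamped segment of 258) at the preimage of `t` gives differentiability in `t = log λ` -/
theorem l9rx_diff_L (F : LlFix) {N : ℕ} (hN : 2 ≤ N) (hp : F.pS < 12) (ell : ℝ) (γ : Fin (N + 1) → ℝ) (g : LlPt → ℝ) {t : ℝ}
    (ht : t ∈ Ioo (12 * Real.log (skX N)) (F.pS * Real.log (skX N)))
    (h : DifferentiableAt ℝ (fun τ => g (ll04Dir F N ell 0 γ τ))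
      (((F.pS - 12) * Real.log (skX N))⁻¹ * t + -(((F.pS - 12) * Real.log (skX N))⁻¹ * (12 * Real.log (skX N))))) :
    DifferentiableAt ℝ (fun t' => g (l9PtL N ell γ t')) t := by
  have hx := ll04w_x_mem (N := N) (by omega)
  have hx1 : skX N < 1 := by
    unfold skX
    exact Real.rpow_lt_one_of_one_lt_of_neg (by exact_mod_cast (by omega : 1 < N)) (by norm_num)
  have hl : Real.log (skX N) < 0 := Real.log_neg hx.1 hx1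
  set a := (F.pS - 12) * Real.log (skX N) with ha
  set b := 12 * Real.log (skX N) with hb
  have ha0 : 0 < a := mul_pos_of_neg_of_neg (by linarith) hl
  have hab : a + b = F.pS * Real.log (skX N) := by rw [ha, hb]; ring
  have hσ : DifferentiableAt ℝ (fun t' : ℝ => a⁻¹ * t' + -(a⁻¹ * b)) t := by fun_prop
  have hc := DifferentiableAt.comp t h hσ
  refine hc.congr_of_eventuallyEq ?_
  filter_upwards [isOpen_Ioo.mem_nhds ht] with t' ht'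
  have h0 : 0 ≤ a⁻¹ * t' + -(a⁻¹ * b) := by
    have : a⁻¹ * t' + -(a⁻¹ * b) = a⁻¹ * (t' - b) := by ring
    rw [this]
    exact mul_nonneg (inv_nonneg.2 ha0.le) (by linarith [ht'.1])
  have h1 : a⁻¹ * t' + -(a⁻¹ * b) ≤ 1 := by
    have : a⁻¹ * t' + -(a⁻¹ * b) = (t' - b) / a := by
      rw [div_eq_inv_mul]; ring
    rw [this, div_le_one ha0]
    linarith [ht'.2]
  show g (l9PtL N ell γ t') = g (ll04Dir F N ell 0 γ (a⁻¹ * t' + -(a⁻¹ * b)))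
  rw [l9f_dir0_pt F (by omega), ll04w_U_of_mem ⟨h0, h1⟩, l9f_T_eq]
  congr 2
  rw [← ha, ← hb]
  field_simp
  ring

/-- **item (c) on the strength sweep, in `t = log λ`** -/
theorem l9rx_dif_L {𝔹 : LlBase} {F : LlFix} {N : ℕ} {ell L : ℝ} (hN : 2 ≤ N) (hp : F.pS < 12) (hell : 0 < ell) (hL : 0 ≤ L)
    (H : L9RcAt 𝔹 F (ll04Dir F N ell 0) ell L) (s : ℝ) (Fs : Finset GhPos) (m : ℕ) (γ : Fin (N + 1) → ℝ) :
    ∀ᵐ t : ℝ, t ∈ l9LamRg F N → (⟨F, 𝔹, s, Fs, m⟩ : L9I).Dif (l9PtL N ell γ) t := by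
  have hx := ll04w_x_mem (N := N) (by omega)
  have hx1 : skX N < 1 := by
    unfold skX
    exact Real.rpow_lt_one_of_one_lt_of_neg (by exact_mod_cast (by omega : 1 < N)) (by norm_num)
  have hl : Real.log (skX N) < 0 := Real.log_neg hx.1 hx1
  have ha0 : 0 < (F.pS - 12) * Real.log (skX N) := mul_pos_of_neg_of_neg (by linarith) hl
  have h0 := H.ae_dif hell hL s Fs m γ
  have h1 := l9f_ae_aff ((F.pS - 12) * Real.log (skX N))⁻¹ (-(((F.pS - 12) * Real.log (skX N))⁻¹ * (12 * Real.log (skX N)))) (inv_ne_zero ha0.ne') _ h0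
  filter_upwards [h1] with t ht hI
  have hI' : t ∈ Ioo (12 * Real.log (skX N)) (F.pS * Real.log (skX N)) := hI
  intro j
  exact ⟨l9rx_diff_L F hN hp ell γ (fun p => ((⟨F, 𝔹, s, Fs, m⟩ : L9I).X0 p).bC j) hI' (ht j).1,
    l9rx_diff_L F hN hp ell γ (fun p => ((⟨F, 𝔹, s, Fs, m⟩ : L9I).X0 p).hC j) hI' (ht j).2.1,
    l9rx_diff_L F hN hp ell γ (fun p => ((⟨F, 𝔹, s, Fs, m⟩ : L9I).X0 p).KC j) hI' (ht j).2.2⟩

/-- the same from the P-list, all chains -/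
theorem l9rx_dif_L' (𝔹 : LlBase) (F : LlFix) (hP : LlBaseProfile 𝔹 F.T) (hE : LlExpOk F.sS F.eta F.pS) (h3 : LlSec3 𝔹 F) :
    ∃ N0 : ℕ, ∀ N, N0 ≤ N → ∀ (s : ℝ) (Fs : Finset GhPos) (m : ℕ), ∀ ell ∈ Icc (1 : ℝ) ((2 : ℝ) ^ (1 / 6 : ℝ)),
      ∀ γ : Fin (N + 1) → ℝ, ∀ᵐ t : ℝ, t ∈ l9LamRg F N → (⟨F, 𝔹, s, Fs, m⟩ : L9I).Dif (l9PtL N ell γ) t := by
  obtain ⟨C, N0, h⟩ := l9rn_main 𝔹 F hP hE h3 1 one_pos
  refine ⟨max N0 2, fun N hN s Fs m ell hl γ => ?_⟩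
  obtain ⟨L, hL, H⟩ := (h N (le_trans (le_max_left _ _) hN)).2.1 ell hl 0
  exact l9rx_dif_L (le_trans (le_max_right _ _) hN) (by linarith [hE.p_hi]) (by linarith [hl.1]) hL H s Fs m γ

/-! ## 8. THE NODE: `L9Reg` (Contract v5 of 216) -/

/-- the strong form gives the node (all chains: no fineness is used) -/
theorem l9rx_reg {𝔹 : LlBase} {F : LlFix} (h : L9RegX 𝔹 F) : L9Reg 𝔹 F := by
  intro δ hδ q ε _ _
  obtain ⟨C, N0, h⟩ := h δ hδ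
  refine ⟨C, max N0 1, fun N hN => Filter.Eventually.of_forall fun Fs => ?_⟩
  obtain ⟨⟨LS, hLS, HS⟩, hD, hw⟩ := h N (le_trans (le_max_left _ _) hN)
  have hN1 : 1 ≤ N := le_trans (le_max_right _ _) hN
  refine ⟨fun m hm _ => ?_, ?_⟩
  · have hm0 : 0 < m := by omega
    refine ⟨fun ell hl => ?_, HS.psi_cont (by norm_num) hLS _ Fs m hm0, fun γ => HS.psi_ac (by norm_num) hLS _ Fs m hm0 γ _ _,
      fun j => HS.val_cont (by norm_num) hLS _ Fs m j, fun γ => ?_⟩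
    · have hell : 0 < ell := by linarith [hl.1]
      refine ⟨fun i => ?_, fun i γ => ?_, fun j => ?_, fun γ => ?_⟩
      · obtain ⟨L, hL, H⟩ := hD ell hl i
        exact H.psi_cont hell hL _ Fs m hm0
      · obtain ⟨L, hL, H⟩ := hD ell hl i
        exact H.psi_ac hell hL _ Fs m hm0 γ _ _
      · obtain ⟨L, hL, H⟩ := hD ell hl 0
        exact H.val_cont hell hL _ Fs m j
      · obtain ⟨L, hL, H⟩ := hD ell hl 0
        filter_upwards [H.ae_dif hell hL (q * skX N ^ (1 + ε)) Fs m γ] with τ hτ _ using hτ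
    · filter_upwards [HS.ae_dif (by norm_num) hLS (q * skX N ^ (1 + ε)) Fs m γ] with θ hθ _ using hθ
  · obtain ⟨w, hw1, hw2, hw3⟩ := hw Fs
    refine ⟨w, hw1, hw2, l9f_ae_Ioo _ _ (Filter.Eventually.of_forall fun θ hθ γ m _ _ hDif => hw3 θ hθ γ _ m hDif)⟩

/-- **NODE REG from the P-list** (abstract base; shape of 224's rule) -/
theorem l9rx_exit (𝔹 : LlBase) (F : LlFix) (hP : LlBaseProfile 𝔹 F.T) (hE : LlExpOk F.sS F.eta F.pS) (h3 : LlSec3 𝔹 F) : L9Reg 𝔹 F :=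
  l9rx_reg (l9rn_main 𝔹 F hP hE h3)

theorem l9rn_eqns_cite : True := by
  have := @l9rnA.eq_1
  have := @l9rnLS.eq_1
  have := @l9rnLD.eq_1
  have := @L9RegX.eq_1
  trivial

end Claimed.Agent.R286
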