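/-
OWNER helper30.  TEX[LL:exp:lem-centered-count] (summation layer + leaves, imports = hypotheses).
Row 286, package L13 (LL 09-expansion, Lemma 9.1 "Centered allocation estimate").
ABSTRACT SUMMATION LAYER on the fine level (LD3 of the LL ledger): all mass integrals are finite
sums.  `ι` = designated vertices, `Lv` = levels of the sampled hierarchy, `O` = all the other
summation variables (other forks, shapes ...).
  `H v o`  = deterministic weight (common to both ensembles),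
  `T v o`  = the number `nu_tilt[prod T_i] - nu_0[prod T_i]` (or one of the two),
  `mu s j` = the normalised mass measure `dv_s / w` restricted to the band of `s`.
Two summation principles:
  * `l13_pm`      product majorant (raw bounds, Cauchy-Schwarz leaves),
  * `l13_center`  one coordinate is summed FIRST against an arbitrary bounded coefficient
                  (centered integral, (D10)), the others by the product majorant.
-/
import Mathlib
import Claimed.Agent.R286.L09.Table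

set_option linter.unusedSectionVars false

namespace Claimed.Agent.R286

open Finset

section summation

variable {ι Lv O : Type*} [Fintype ι] [DecidableEq ι] [Fintype Lv] [Fintype O]

/-- **Product majorant.** -/
theorem l13_pm (H T : (ι → Lv) → O → ℝ) (h0 c0 err : ℝ) (rho : O → ℝ) (mu f : ι → Lv → ℝ)
    (hh0 : 0 ≤ h0) (hc0 : 0 ≤ c0) (herr : 0 ≤ err) (hrho : ∀ o, 0 ≤ rho o)
    (hmu : ∀ s j, 0 ≤ mu s j) (hf : ∀ s j, 0 ≤ f s j)
    (hH : ∀ v o, |H v o| ≤ h0 * rho o * ∏ s, mu s (v s))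
    (hT : ∀ v o, H v o ≠ 0 → |T v o| ≤ c0 * ∏ s, f s (v s) + err) :
    |∑ v, ∑ o, H v o * T v o|
      ≤ h0 * (∑ o, rho o) * (c0 * ∏ s, ∑ j, mu s j * f s j + err * ∏ s, ∑ j, mu s j) := by
  have hterm : ∀ v o, |H v o * T v o|
      ≤ h0 * rho o * (c0 * ∏ s, (mu s (v s) * f s (v s)) + err * ∏ s, mu s (v s)) := by
    intro v o
    have hM : 0 ≤ h0 * rho o * ∏ s, mu s (v s) :=
      mul_nonneg (mul_nonneg hh0 (hrho o)) (Finset.prod_nonneg fun s _ => hmu s _)
    have hR : 0 ≤ c0 * ∏ s, f s (v s) + err :=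
      add_nonneg (mul_nonneg hc0 (Finset.prod_nonneg fun s _ => hf s _)) herr
    have e : h0 * rho o * (c0 * ∏ s, (mu s (v s) * f s (v s)) + err * ∏ s, mu s (v s))
        = (h0 * rho o * ∏ s, mu s (v s)) * (c0 * ∏ s, f s (v s) + err) := by
      rw [Finset.prod_mul_distrib]; ring
    rw [abs_mul, e]
    by_cases h : H v o = 0
    · rw [h, abs_zero, zero_mul]
      exact mul_nonneg hM hR
    · exact mul_le_mul (hH v o) (hT v o h) (abs_nonneg _) hM
  calc |∑ v, ∑ o, H v o * T v o| ≤ ∑ v, ∑ o, |H v o * T v o| :=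
        (Finset.abs_sum_le_sum_abs _ _).trans
          (Finset.sum_le_sum fun v _ => Finset.abs_sum_le_sum_abs _ _)
    _ ≤ ∑ v : ι → Lv, ∑ o,
          h0 * rho o * (c0 * ∏ s, (mu s (v s) * f s (v s)) + err * ∏ s, mu s (v s)) :=
        Finset.sum_le_sum fun v _ => Finset.sum_le_sum fun o _ => hterm v o
    _ = h0 * (∑ o, rho o) * (c0 * ∏ s, ∑ j, mu s j * f s j + err * ∏ s, ∑ j, mu s j) := by
        rw [Fintype.prod_sum, Fintype.prod_sum]
        simp_rw [← Finset.sum_mul, ← Finset.mul_sum]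
        rw [Finset.sum_add_distrib, ← Finset.mul_sum, ← Finset.mul_sum]

/-- summing a function which does not depend on the coordinate `s0`. -/
theorem l13_sum_erase (s0 : ι) (g : ι → Lv → ℝ) :
    ∑ v : ι → Lv, ∏ s ∈ Finset.univ.erase s0, g s (v s)
      = (Fintype.card Lv : ℝ) * ∏ s ∈ Finset.univ.erase s0, ∑ j, g s j := by
  have h1 : ∀ v : ι → Lv, ∏ s ∈ Finset.univ.erase s0, g s (v s)
      = ∏ s, (if s = s0 then (fun _ => (1 : ℝ)) else g s) (v s) := by
    intro v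
    rw [← Finset.mul_prod_erase Finset.univ _ (Finset.mem_univ s0)]
    simp only [if_true, one_mul]
    apply Finset.prod_congr rfl
    intro s hs
    rw [if_neg (Finset.ne_of_mem_erase hs)]
  simp_rw [h1]
  rw [← Fintype.prod_sum, ← Finset.mul_prod_erase Finset.univ _ (Finset.mem_univ s0)]
  congr 1
  · simp
  · apply Finset.prod_congr rfl
    intro s hs
    rw [if_neg (Finset.ne_of_mem_erase hs)]

/-- resummation of one coordinate. -/
theorem l13_sum_update (s0 : ι) (G : (ι → Lv) → ℝ) :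
    ∑ v : ι → Lv, ∑ j, G (Function.update v s0 j) = (Fintype.card Lv : ℝ) * ∑ v, G v := by
  have hinv : Function.Involutive
      (fun p : (ι → Lv) × Lv => (Function.update p.1 s0 p.2, p.1 s0)) := by
    rintro ⟨v, j⟩
    simp
  calc ∑ v : ι → Lv, ∑ j, G (Function.update v s0 j)
      = ∑ p : (ι → Lv) × Lv, G (Function.update p.1 s0 p.2) := by
        rw [Fintype.sum_prod_type]
    _ = ∑ p : (ι → Lv) × Lv, G p.1 :=
        Fintype.sum_equiv hinv.toPerm _ _ (fun p => rfl)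
    _ = (Fintype.card Lv : ℝ) * ∑ v, G v := by
        rw [Fintype.sum_prod_type]
        simp [Finset.mul_sum]

/-- **Centered vertex.**  The coordinate `s0` is summed first against an arbitrary coefficient
bounded by `mu s0`; the hypothesis `hZ` is the (already integrated) centered estimate. -/
theorem l13_center (s0 : ι) (H T : (ι → Lv) → O → ℝ) (h0 err Bc : ℝ) (rho : O → ℝ)
    (mu f : ι → Lv → ℝ)
    (hh0 : 0 ≤ h0) (herr : 0 ≤ err) (hBc : 0 ≤ Bc) (hrho : ∀ o, 0 ≤ rho o)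
    (hmu : ∀ s j, 0 ≤ mu s j) (hf : ∀ s j, 0 ≤ f s j)
    (hH : ∀ v o, |H v o| ≤ h0 * rho o * ∏ s, mu s (v s))
    (hZ : ∀ (v : ι → Lv) (o : O) (c : Lv → ℝ), (∀ j, |c j| ≤ mu s0 j) →
      (∀ j, H (Function.update v s0 j) o = 0 → c j = 0) →
      |∑ j, c j * T (Function.update v s0 j) o|
        ≤ Bc * ∏ s ∈ Finset.univ.erase s0, f s (v s) + err) :
    |∑ v, ∑ o, H v o * T v o|
      ≤ h0 * (∑ o, rho o) * (Bc * ∏ s ∈ Finset.univ.erase s0, ∑ j, mu s j * f s j
          + err * ∏ s ∈ Finset.univ.erase s0, ∑ j, mu s j) := by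
  classical
  have hRHS : 0 ≤ h0 * (∑ o, rho o) * (Bc * ∏ s ∈ Finset.univ.erase s0, ∑ j, mu s j * f s j
          + err * ∏ s ∈ Finset.univ.erase s0, ∑ j, mu s j) := by
    refine mul_nonneg (mul_nonneg hh0 (Finset.sum_nonneg fun o _ => hrho o)) (add_nonneg ?_ ?_)
    · exact mul_nonneg hBc (Finset.prod_nonneg fun s _ =>
        Finset.sum_nonneg fun j _ => mul_nonneg (hmu s j) (hf s j))
    · exact mul_nonneg herr (Finset.prod_nonneg fun s _ => Finset.sum_nonneg fun j _ => hmu s j)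
  rcases isEmpty_or_nonempty Lv with hE | hN
  · have : IsEmpty (ι → Lv) := ⟨fun v => hE.elim (v s0)⟩
    have hz : ∑ v : ι → Lv, ∑ o, H v o * T v o = 0 := by
      apply Finset.sum_eq_zero
      intro v _
      exact (this.elim v)
    rw [hz, abs_zero]
    exact hRHS
  · have hn : (0 : ℝ) < (Fintype.card Lv : ℝ) := by exact_mod_cast Fintype.card_pos
    -- the inner bound
    have hinner : ∀ (v : ι → Lv) (o : O),
        |∑ j, H (Function.update v s0 j) o * T (Function.update v s0 j) o|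
          ≤ (h0 * rho o * ∏ s ∈ Finset.univ.erase s0, mu s (v s))
            * (Bc * ∏ s ∈ Finset.univ.erase s0, f s (v s) + err) := by
      intro v o
      set M : ℝ := h0 * rho o * ∏ s ∈ Finset.univ.erase s0, mu s (v s) with hM
      have hM0 : 0 ≤ M :=
        mul_nonneg (mul_nonneg hh0 (hrho o)) (Finset.prod_nonneg fun s _ => hmu s _)
      have hHu : ∀ j, |H (Function.update v s0 j) o| ≤ M * mu s0 j := by
        intro j
        have h := hH (Function.update v s0 j) o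
        rw [← Finset.mul_prod_erase Finset.univ _ (Finset.mem_univ s0)] at h
        have e : ∏ s ∈ Finset.univ.erase s0, mu s (Function.update v s0 j s)
            = ∏ s ∈ Finset.univ.erase s0, mu s (v s) := by
          apply Finset.prod_congr rfl
          intro s hs
          rw [Function.update_of_ne (Finset.ne_of_mem_erase hs)]
        rw [e, Function.update_self] at h
        calc |H (Function.update v s0 j) o|
            ≤ h0 * rho o * (mu s0 j * ∏ s ∈ Finset.univ.erase s0, mu s (v s)) := h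
          _ = M * mu s0 j := by rw [hM]; ring
      rcases hM0.eq_or_lt with h0M | hMpos
      · have hz : ∀ j, H (Function.update v s0 j) o = 0 := by
          intro j
          have := hHu j
          rw [← h0M, zero_mul] at this
          exact abs_nonpos_iff.mp this
        simp [hz, ← h0M]
      · have hc1 : ∀ j, |H (Function.update v s0 j) o / M| ≤ mu s0 j := by
          intro j
          rw [abs_div, abs_of_pos hMpos, div_le_iff₀ hMpos, mul_comm]
          exact hHu j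
        have hc2 : ∀ j, H (Function.update v s0 j) o = 0 → H (Function.update v s0 j) o / M = 0 := by
          intro j h
          rw [h, zero_div]
        have h := hZ v o (fun j => H (Function.update v s0 j) o / M) hc1 hc2
        have e : ∑ j, H (Function.update v s0 j) o * T (Function.update v s0 j) o
            = M * ∑ j, H (Function.update v s0 j) o / M * T (Function.update v s0 j) o := by
          rw [Finset.mul_sum]
          apply Finset.sum_congr rfl
          intro j _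
          field_simp
        rw [e, abs_mul, abs_of_pos hMpos]
        exact mul_le_mul_of_nonneg_left h hMpos.le
    have hres := l13_sum_update s0 (fun v : ι → Lv => ∑ o, H v o * T v o)
    have hmain : (Fintype.card Lv : ℝ) * |∑ v, ∑ o, H v o * T v o|
        ≤ (Fintype.card Lv : ℝ) * (h0 * (∑ o, rho o)
          * (Bc * ∏ s ∈ Finset.univ.erase s0, ∑ j, mu s j * f s j
            + err * ∏ s ∈ Finset.univ.erase s0, ∑ j, mu s j)) := by
      calc (Fintype.card Lv : ℝ) * |∑ v, ∑ o, H v o * T v o|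
          = |(Fintype.card Lv : ℝ) * ∑ v, ∑ o, H v o * T v o| := by
            rw [abs_mul, abs_of_pos hn]
        _ = |∑ v : ι → Lv, ∑ o, ∑ j,
              H (Function.update v s0 j) o * T (Function.update v s0 j) o| := by
            rw [← hres]
            congr 1
            apply Finset.sum_congr rfl
            intro v _
            exact Finset.sum_comm
        _ ≤ ∑ v : ι → Lv, ∑ o, |∑ j,
              H (Function.update v s0 j) o * T (Function.update v s0 j) o| :=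
            (Finset.abs_sum_le_sum_abs _ _).trans
              (Finset.sum_le_sum fun v _ => Finset.abs_sum_le_sum_abs _ _)
        _ ≤ ∑ v : ι → Lv, ∑ o, (h0 * rho o * ∏ s ∈ Finset.univ.erase s0, mu s (v s))
              * (Bc * ∏ s ∈ Finset.univ.erase s0, f s (v s) + err) :=
            Finset.sum_le_sum fun v _ => Finset.sum_le_sum fun o _ => hinner v o
        _ = h0 * (∑ o, rho o) * (Bc * ∑ v : ι → Lv,
                ∏ s ∈ Finset.univ.erase s0, (mu s (v s) * f s (v s))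
              + err * ∑ v : ι → Lv, ∏ s ∈ Finset.univ.erase s0, mu s (v s)) := by
            have e1 : ∀ v : ι → Lv, ∑ o, (h0 * rho o * ∏ s ∈ Finset.univ.erase s0, mu s (v s))
                * (Bc * ∏ s ∈ Finset.univ.erase s0, f s (v s) + err)
                = h0 * (∑ o, rho o) * (Bc * ∏ s ∈ Finset.univ.erase s0, (mu s (v s) * f s (v s))
                  + err * ∏ s ∈ Finset.univ.erase s0, mu s (v s)) := by
              intro v
              rw [Finset.prod_mul_distrib, Finset.mul_sum, Finset.sum_mul]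
              apply Finset.sum_congr rfl
              intro o _
              ring
            simp_rw [e1]
            rw [← Finset.mul_sum, Finset.sum_add_distrib, ← Finset.mul_sum, ← Finset.mul_sum]
        _ = (Fintype.card Lv : ℝ) * (h0 * (∑ o, rho o)
              * (Bc * ∏ s ∈ Finset.univ.erase s0, ∑ j, mu s j * f s j
                + err * ∏ s ∈ Finset.univ.erase s0, ∑ j, mu s j)) := by
            rw [l13_sum_erase s0 (fun s j => mu s j * f s j), l13_sum_erase s0 mu]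
            ring
    exact le_of_mul_le_mul_left hmain hn

end summation

/-! ## Band sums: envelope moments, Cauchy-Schwarz in mass -/

section band

variable {Lv : Type*} [Fintype Lv]

/-- `Q_k = P_k / m_r`: `1` for `k = 1`, `m_r r^(k-2)` for `k >= 2` (right side of (D10)). -/
noncomputable def l13_Q (Y r : ℝ) (k : ℕ) : ℝ := if k = 1 then 1 else (Y ^ 2 / r) * r ^ (k - 2)

theorem l13_P_eq_mQ (Y r : ℝ) {k : ℕ} (hk : 1 ≤ k) : l13_P Y r k = (Y ^ 2 / r) * l13_Q Y r k := by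
  unfold l13_Q
  by_cases h : k = 1
  · subst h; simp [l13_P_one]
  · rw [if_neg h, l13_P_ge_two Y r (by omega)]; ring

theorem l13_Q_nonneg {Y r : ℝ} (hr : 0 ≤ r) (k : ℕ) : 0 ≤ l13_Q Y r k := by
  unfold l13_Q
  split_ifs
  · exact zero_le_one
  · positivity

/-- weighted Cauchy-Schwarz. -/
theorem l13_wcs (nu f g : Lv → ℝ) (hnu : ∀ j, 0 ≤ nu j) :
    ∑ j, nu j * (f j * g j) ≤ Real.sqrt (∑ j, nu j * f j ^ 2) * Real.sqrt (∑ j, nu j * g j ^ 2) := by
  have h := Real.sum_mul_le_sqrt_mul_sqrt Finset.univ (fun j => Real.sqrt (nu j) * f j)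
    (fun j => Real.sqrt (nu j) * g j)
  have e1 : ∀ j, Real.sqrt (nu j) * f j * (Real.sqrt (nu j) * g j) = nu j * (f j * g j) := by
    intro j
    have := Real.mul_self_sqrt (hnu j)
    calc Real.sqrt (nu j) * f j * (Real.sqrt (nu j) * g j)
        = (Real.sqrt (nu j) * Real.sqrt (nu j)) * (f j * g j) := by ring
      _ = nu j * (f j * g j) := by rw [this]
  have e2 : ∀ (u : Lv → ℝ) j, (Real.sqrt (nu j) * u j) ^ 2 = nu j * u j ^ 2 := by
    intro u j
    rw [mul_pow, Real.sq_sqrt (hnu j)]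
  simp_rw [e1, e2] at h
  exact h

/-- pull out the sup of a power of the envelope. -/
theorem l13_pull (nu env g : Lv → ℝ) (hnu : ∀ j, 0 ≤ nu j) (henv : ∀ j, 0 ≤ env j)
    (hg : ∀ j, 0 ≤ g j) {M : ℝ} (hsup : ∀ j, nu j ≠ 0 → env j ≤ M) (n : ℕ) :
    ∑ j, nu j * (env j ^ n * g j) ≤ M ^ n * ∑ j, nu j * g j := by
  rw [Finset.mul_sum]
  apply Finset.sum_le_sum
  intro j _
  by_cases h : nu j = 0
  · simp [h]
  · have h1 : env j ^ n ≤ M ^ n := pow_le_pow_left₀ (henv j) (hsup j h) n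
    calc nu j * (env j ^ n * g j) ≤ nu j * (M ^ n * g j) :=
          mul_le_mul_of_nonneg_left (mul_le_mul_of_nonneg_right h1 (hg j)) (hnu j)
      _ = M ^ n * (nu j * g j) := by ring

variable (nu env D : Lv → ℝ) (Lo Y r : ℝ)

/-- **Envelope moments** (`P_k` after integration in `dv / r`):
`sum nu env^k <= Lo^k P_k`. -/
theorem l13_env_sum (hnu : ∀ j, 0 ≤ nu j) (henv : ∀ j, 0 ≤ env j) (hLo : 1 ≤ Lo) (hr : 0 < r)
    (htot : ∑ j, nu j ≤ Lo) (hsup : ∀ j, nu j ≠ 0 → env j ≤ Lo * r)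
    (hsq : ∑ j, nu j * env j ^ 2 ≤ Lo * (Y ^ 2 / r) ^ 2) {k : ℕ} (hk : 1 ≤ k) :
    ∑ j, nu j * env j ^ k ≤ Lo ^ k * l13_P Y r k := by
  have hLo0 : 0 ≤ Lo := by linarith
  have hm : 0 ≤ Y ^ 2 / r := by positivity
  rcases Nat.lt_or_ge k 2 with h | h
  · have hk1 : k = 1 := by omega
    subst hk1
    have h1 := l13_wcs nu (fun _ => 1) env hnu
    simp only [one_mul, one_pow, mul_one] at h1
    rw [l13_P_one]
    simp only [pow_one]
    calc ∑ j, nu j * env j ≤ Real.sqrt (∑ j, nu j) * Real.sqrt (∑ j, nu j * env j ^ 2) := h1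
      _ ≤ Real.sqrt Lo * Real.sqrt (Lo * (Y ^ 2 / r) ^ 2) :=
          mul_le_mul (Real.sqrt_le_sqrt htot) (Real.sqrt_le_sqrt hsq) (Real.sqrt_nonneg _)
            (Real.sqrt_nonneg _)
      _ = Lo * (Y ^ 2 / r) := by
          rw [Real.sqrt_mul hLo0, Real.sqrt_sq hm, ← mul_assoc, Real.mul_self_sqrt hLo0]
  · obtain ⟨n, rfl⟩ : ∃ n, k = n + 2 := ⟨k - 2, by omega⟩
    have h1 := l13_pull nu env (fun j => env j ^ 2) hnu henv (fun j => sq_nonneg _) hsup n
    rw [l13_P_ge_two Y r h]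
    have e : n + 2 - 2 = n := by omega
    rw [e]
    calc ∑ j, nu j * env j ^ (n + 2) = ∑ j, nu j * (env j ^ n * env j ^ 2) := by
          simp_rw [pow_add]
      _ ≤ (Lo * r) ^ n * ∑ j, nu j * env j ^ 2 := h1
      _ ≤ (Lo * r) ^ n * (Lo * (Y ^ 2 / r) ^ 2) :=
          mul_le_mul_of_nonneg_left hsq (by positivity)
      _ = Lo ^ (n + 1) * ((Y ^ 2 / r) ^ 2 * r ^ n) := by rw [mul_pow]; ring
      _ ≤ Lo ^ (n + 2) * ((Y ^ 2 / r) ^ 2 * r ^ n) := by
          apply mul_le_mul_of_nonneg_right _ (by positivity)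
          exact pow_le_pow_right₀ hLo (by omega)

/-- **Cauchy-Schwarz in mass at a selected vertex**:
`sum nu env^(k-1) D <= Lo^k sqrt V Q_k`  if  `sum nu D^2 <= V`. -/
theorem l13_cs_sum (hnu : ∀ j, 0 ≤ nu j) (henv : ∀ j, 0 ≤ env j) (hD : ∀ j, 0 ≤ D j)
    (hLo : 1 ≤ Lo) (hr : 0 < r)
    (htot : ∑ j, nu j ≤ Lo) (hsup : ∀ j, nu j ≠ 0 → env j ≤ Lo * r)
    (hsq : ∑ j, nu j * env j ^ 2 ≤ Lo * (Y ^ 2 / r) ^ 2) {V : ℝ}
    (hV : ∑ j, nu j * D j ^ 2 ≤ V) {k : ℕ} (hk : 1 ≤ k) :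
    ∑ j, nu j * (env j ^ (k - 1) * D j) ≤ Lo ^ k * (Real.sqrt V * l13_Q Y r k) := by
  have hLo0 : 0 ≤ Lo := by linarith
  have hm : 0 ≤ Y ^ 2 / r := by positivity
  have hsLo : Real.sqrt Lo ≤ Lo := by
    rw [Real.sqrt_le_left hLo0]
    nlinarith
  rcases Nat.lt_or_ge k 2 with h | h
  · have hk1 : k = 1 := by omega
    subst hk1
    have h1 := l13_wcs nu (fun _ => 1) D hnu
    simp only [one_mul, one_pow, mul_one] at h1
    simp only [l13_Q, if_true, mul_one, pow_one, Nat.sub_self, pow_zero, one_mul]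
    calc ∑ j, nu j * D j ≤ Real.sqrt (∑ j, nu j) * Real.sqrt (∑ j, nu j * D j ^ 2) := h1
      _ ≤ Real.sqrt Lo * Real.sqrt V :=
          mul_le_mul (Real.sqrt_le_sqrt htot) (Real.sqrt_le_sqrt hV) (Real.sqrt_nonneg _)
            (Real.sqrt_nonneg _)
      _ ≤ Lo * Real.sqrt V := mul_le_mul_of_nonneg_right hsLo (Real.sqrt_nonneg _)
  · obtain ⟨n, rfl⟩ : ∃ n, k = n + 2 := ⟨k - 2, by omega⟩
    have h1 := l13_pull nu env (fun j => env j * D j) hnu henv
      (fun j => mul_nonneg (henv j) (hD j)) hsup n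
    have h2 := l13_wcs nu env D hnu
    have hQ : l13_Q Y r (n + 2) = (Y ^ 2 / r) * r ^ n := by
      unfold l13_Q
      rw [if_neg (by omega)]
      congr 2
    rw [hQ]
    have e : n + 2 - 1 = n + 1 := by omega
    rw [e]
    calc ∑ j, nu j * (env j ^ (n + 1) * D j) = ∑ j, nu j * (env j ^ n * (env j * D j)) := by
          apply Finset.sum_congr rfl
          intro j _
          ring
      _ ≤ (Lo * r) ^ n * ∑ j, nu j * (env j * D j) := h1
      _ ≤ (Lo * r) ^ n * (Real.sqrt (Lo * (Y ^ 2 / r) ^ 2) * Real.sqrt V) := by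
          apply mul_le_mul_of_nonneg_left _ (by positivity)
          exact h2.trans (mul_le_mul (Real.sqrt_le_sqrt hsq) (Real.sqrt_le_sqrt hV)
            (Real.sqrt_nonneg _) (Real.sqrt_nonneg _))
      _ = Lo ^ n * Real.sqrt Lo * (Real.sqrt V * ((Y ^ 2 / r) * r ^ n)) := by
          rw [Real.sqrt_mul hLo0, Real.sqrt_sq hm, mul_pow]; ring
      _ ≤ Lo ^ n * Lo ^ 2 * (Real.sqrt V * ((Y ^ 2 / r) * r ^ n)) := by
          apply mul_le_mul_of_nonneg_right _ (mul_nonneg (Real.sqrt_nonneg _) (by positivity))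
          apply mul_le_mul_of_nonneg_left _ (by positivity)
          exact hsLo.trans (by nlinarith)
      _ = Lo ^ (n + 2) * (Real.sqrt V * ((Y ^ 2 / r) * r ^ n)) := by rw [pow_add]

/-- **Two stochastic factors at one vertex**: `sum nu env^(k-2) D^2 <= Lo^k V r^(k-2)`. -/
theorem l13_dup_sum (hnu : ∀ j, 0 ≤ nu j) (henv : ∀ j, 0 ≤ env j)
    (hLo : 1 ≤ Lo) (hr : 0 < r) (hsup : ∀ j, nu j ≠ 0 → env j ≤ Lo * r) {V : ℝ}
    (hV : ∑ j, nu j * D j ^ 2 ≤ V) (hV0 : 0 ≤ V) {k : ℕ} (hk : 2 ≤ k) :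
    ∑ j, nu j * (env j ^ (k - 2) * D j ^ 2) ≤ Lo ^ k * (V * r ^ (k - 2)) := by
  have hLo0 : 0 ≤ Lo := by linarith
  have h1 := l13_pull nu env (fun j => D j ^ 2) hnu henv (fun j => sq_nonneg _) hsup (k - 2)
  calc ∑ j, nu j * (env j ^ (k - 2) * D j ^ 2) ≤ (Lo * r) ^ (k - 2) * ∑ j, nu j * D j ^ 2 := h1
    _ ≤ (Lo * r) ^ (k - 2) * V := mul_le_mul_of_nonneg_left hV (by positivity)
    _ = Lo ^ (k - 2) * (V * r ^ (k - 2)) := by rw [mul_pow]; ring
    _ ≤ Lo ^ k * (V * r ^ (k - 2)) := by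
        apply mul_le_mul_of_nonneg_right _ (by positivity)
        exact pow_le_pow_right₀ hLo (by omega)

end band

/-! ## The common data of one term of Lemma 9.1 -/

/-- Data and hypotheses common to all leaves of LL Lemma 9.1 (fine level, finite sums).
`Lo >= 1` bounds every constant and every permitted loss `x^(-eps)`.
`nu s` = `dv / r_s` restricted to the band of `s` (and to any retained deterministic restriction),
`env s` = envelope on that band (`Y` on the lower band), `r_s = a s * Y`, `w = A * Y`.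
`hH` is (E2) of the paper (tag E2, label eq:E1). -/
structure L13CC (ι Lv O : Type*) [Fintype ι] [Fintype Lv] [Fintype O] where
  S : L13Scales
  Lo : ℝ
  a : ι → ℝ
  A : ℝ
  k : ι → ℕ
  kap : ℝ
  nu : ι → Lv → ℝ
  env : ι → Lv → ℝ
  rho : O → ℝ
  H : (ι → Lv) → O → ℝ
  hLo : 1 ≤ Lo
  h1 : ∀ s, 1 ≤ a s
  hA : ∀ s, a s ≤ A
  hmax : ∃ s, a s = A
  hk : ∀ s, 1 ≤ k s
  hj : 2 ≤ ∑ s, k s
  hkap0 : 0 ≤ kap
  hkap1 : kap ≤ 1
  hkap2 : Fintype.card ι = 2 → ∑ s, k s = 2 → ∀ s, kap ≤ a s / A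
  hnu0 : ∀ s j, 0 ≤ nu s j
  hnu1 : ∀ s, ∑ j, nu s j ≤ Lo
  henv0 : ∀ s j, 0 ≤ env s j
  henv1 : ∀ s j, nu s j ≠ 0 → env s j ≤ Lo * (a s * S.Y)
  henv2 : ∀ s, ∑ j, nu s j * env s j ^ 2 ≤ Lo * (S.Y ^ 2 / (a s * S.Y)) ^ 2
  hrho0 : ∀ o, 0 ≤ rho o
  hrho1 : ∑ o, rho o ≤ Lo
  hH : ∀ v o, |H v o| ≤ Lo * S.lam * (A * S.Y) ^ ((5 : ℤ) - (∑ s, k s : ℕ)) * kap * rho o
        * ∏ s, ((a s * S.Y) / (A * S.Y) * nu s (v s))

namespace L13CC

variable {ι Lv O : Type*} [Fintype ι] [DecidableEq ι] [Fintype Lv] [Fintype O]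
variable (C : L13CC ι Lv O)

/-- total degree -/
def j : ℕ := ∑ s, C.k s

/-- the polynomial prefactor `lam w^(5-j)` -/
noncomputable def pre : ℝ := C.S.lam * (C.A * C.S.Y) ^ ((5 : ℤ) - (∑ s, C.k s : ℕ))

/-- `r_s / w` -/
noncomputable def ratio (s : ι) : ℝ := (C.a s * C.S.Y) / (C.A * C.S.Y)

/-- the value of the term -/
noncomputable def val (T : (ι → Lv) → O → ℝ) : ℝ := ∑ v, ∑ o, C.H v o * T v o

theorem a_pos (s : ι) : 0 < C.a s := lt_of_lt_of_le zero_lt_one (C.h1 s)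
theorem A_pos : 0 < C.A := by
  obtain ⟨s, hs⟩ := C.hmax
  rw [← hs]; exact C.a_pos s
theorem A_one : 1 ≤ C.A := by
  obtain ⟨s, hs⟩ := C.hmax
  rw [← hs]; exact C.h1 s
theorem Lo_pos : 0 < C.Lo := lt_of_lt_of_le zero_lt_one C.hLo
theorem r_pos (s : ι) : 0 < C.a s * C.S.Y := mul_pos (C.a_pos s) C.S.Y_pos
theorem pre_pos : 0 < C.pre := mul_pos C.S.hlam (zpow_pos (mul_pos C.A_pos C.S.Y_pos) _)
theorem ratio_pos (s : ι) : 0 < C.ratio s := div_pos (C.r_pos s) (mul_pos C.A_pos C.S.Y_pos)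
theorem ratio_le_one (s : ι) : C.ratio s ≤ 1 := by
  unfold ratio
  rw [div_le_one (mul_pos C.A_pos C.S.Y_pos)]
  exact mul_le_mul_of_nonneg_right (C.hA s) C.S.Y_pos.le

theorem hH' (v : ι → Lv) (o : O) :
    |C.H v o| ≤ (C.Lo * C.pre * C.kap) * C.rho o * ∏ s, (C.ratio s * C.nu s (v s)) := by
  have h := C.hH v o
  unfold pre ratio
  calc |C.H v o| ≤ _ := h
    _ = _ := by ring

theorem prod_mass_le : ∏ s, ∑ j, C.ratio s * C.nu s j ≤ C.Lo ^ (Fintype.card ι) := by
  calc ∏ s, ∑ j, C.ratio s * C.nu s j ≤ ∏ _s : ι, C.Lo := by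
        apply Finset.prod_le_prod
        · intro s _
          exact Finset.sum_nonneg fun j _ => mul_nonneg (C.ratio_pos s).le (C.hnu0 s j)
        · intro s _
          rw [← Finset.mul_sum]
          calc C.ratio s * ∑ j, C.nu s j ≤ 1 * C.Lo :=
                mul_le_mul (C.ratio_le_one s) (C.hnu1 s)
                  (Finset.sum_nonneg fun j _ => C.hnu0 s j) zero_le_one
            _ = C.Lo := one_mul _
    _ = C.Lo ^ (Fintype.card ι) := by simp

/-- conversion of vertex budgets into the final bound. -/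
theorem budget_final {B g : ι → ℝ} {G : ℝ} (hB0 : ∀ s, 0 ≤ B s)
    (hB : ∀ s, B s ≤ C.Lo ^ (C.k s) * g s * l13_P C.S.Y (C.a s * C.S.Y) (C.k s))
    (hG : l13_F C.A C.a C.k * C.kap * ∏ s, g s ≤ G) :
    C.pre * C.kap * ∏ s, (C.ratio s * B s) ≤ C.S.lam * C.S.Y ^ 5 * (C.Lo ^ C.j * G) := by
  have h := l13_budget_le (lam := C.S.lam) (kap := C.kap) (A := C.A) (a := C.a) (k := C.k)
    (gam := fun s => C.Lo ^ (C.k s) * g s) (B := B) C.S.Y_pos C.A_pos C.a_pos C.hk C.S.hlam.le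
    C.hkap0 hB0 hB
  unfold pre ratio
  refine h.trans ?_
  apply mul_le_mul_of_nonneg_left _ (mul_pos C.S.hlam (pow_pos C.S.Y_pos 5)).le
  rw [Finset.prod_mul_distrib, Finset.prod_pow_eq_pow_sum]
  have : l13_F C.A C.a C.k * C.kap * (C.Lo ^ (∑ s, C.k s) * ∏ s, g s)
      = C.Lo ^ C.j * (l13_F C.A C.a C.k * C.kap * ∏ s, g s) := by unfold j; ring
  rw [this]
  exact mul_le_mul_of_nonneg_left hG (pow_pos C.Lo_pos _).le

/-- **Product-majorant leaf, budget form.** -/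
theorem pm_budget (T : (ι → Lv) → O → ℝ) (f : ι → Lv → ℝ) (g : ι → ℝ) (c0 err G : ℝ)
    (hc0 : 0 ≤ c0) (herr : 0 ≤ err) (hf : ∀ s j, 0 ≤ f s j)
    (hT : ∀ v o, C.H v o ≠ 0 → |T v o| ≤ c0 * ∏ s, f s (v s) + err)
    (hB : ∀ s, ∑ j, C.nu s j * f s j
      ≤ C.Lo ^ (C.k s) * g s * l13_P C.S.Y (C.a s * C.S.Y) (C.k s))
    (hG : l13_F C.A C.a C.k * C.kap * ∏ s, g s ≤ G) :
    |C.val T| ≤ C.Lo ^ 2 * (c0 * (C.S.lam * C.S.Y ^ 5 * (C.Lo ^ C.j * G))
        + C.pre * C.kap * (err * C.Lo ^ (Fintype.card ι))) := by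
  have hh0 : 0 ≤ C.Lo * C.pre * C.kap :=
    mul_nonneg (mul_pos C.Lo_pos C.pre_pos).le C.hkap0
  have hmu : ∀ s j, 0 ≤ C.ratio s * C.nu s j :=
    fun s j => mul_nonneg (C.ratio_pos s).le (C.hnu0 s j)
  have h := l13_pm C.H T (C.Lo * C.pre * C.kap) c0 err C.rho
    (fun s j => C.ratio s * C.nu s j) f hh0 hc0 herr C.hrho0 hmu hf C.hH' hT
  have e1 : ∀ s, ∑ j, C.ratio s * C.nu s j * f s j = C.ratio s * ∑ j, C.nu s j * f s j := by
    intro s
    rw [Finset.mul_sum]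
    apply Finset.sum_congr rfl
    intro j _
    ring
  simp_rw [e1] at h
  have hB0 : ∀ s, 0 ≤ ∑ j, C.nu s j * f s j :=
    fun s => Finset.sum_nonneg fun j _ => mul_nonneg (C.hnu0 s j) (hf s j)
  have h2 := C.budget_final hB0 hB hG
  have h3 := C.prod_mass_le
  have hX0 : 0 ≤ c0 * ∏ s, (C.ratio s * ∑ j, C.nu s j * f s j)
      + err * ∏ s, ∑ j, C.ratio s * C.nu s j := by
    apply add_nonneg
    · exact mul_nonneg hc0 (Finset.prod_nonneg fun s _ => mul_nonneg (C.ratio_pos s).le (hB0 s))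
    · exact mul_nonneg herr (Finset.prod_nonneg fun s _ => Finset.sum_nonneg fun j _ => hmu s j)
  unfold val
  calc |∑ v, ∑ o, C.H v o * T v o|
      ≤ C.Lo * C.pre * C.kap * (∑ o, C.rho o) * (c0 * ∏ s, (C.ratio s * ∑ j, C.nu s j * f s j)
          + err * ∏ s, ∑ j, C.ratio s * C.nu s j) := h
    _ ≤ C.Lo * C.pre * C.kap * C.Lo * (c0 * ∏ s, (C.ratio s * ∑ j, C.nu s j * f s j)
          + err * ∏ s, ∑ j, C.ratio s * C.nu s j) := by
        apply mul_le_mul_of_nonneg_right _ hX0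
        exact mul_le_mul_of_nonneg_left C.hrho1 hh0
    _ = C.Lo ^ 2 * (c0 * (C.pre * C.kap * ∏ s, (C.ratio s * ∑ j, C.nu s j * f s j))
          + C.pre * C.kap * (err * ∏ s, ∑ j, C.ratio s * C.nu s j)) := by ring
    _ ≤ C.Lo ^ 2 * (c0 * (C.S.lam * C.S.Y ^ 5 * (C.Lo ^ C.j * G))
          + C.pre * C.kap * (err * C.Lo ^ (Fintype.card ι))) := by
        apply mul_le_mul_of_nonneg_left _ (pow_pos C.Lo_pos 2).le
        apply add_le_add
        · exact mul_le_mul_of_nonneg_left h2 hc0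
        · apply mul_le_mul_of_nonneg_left _ (mul_nonneg C.pre_pos.le C.hkap0)
          exact mul_le_mul_of_nonneg_left h3 herr

/-- **Centered leaf, budget form.**  `hZ` is normalised by `nu s0 = dv / r_s0`. -/
theorem center_budget (s0 : ι) (T : (ι → Lv) → O → ℝ) (f : ι → Lv → ℝ) (g : ι → ℝ)
    (Bc err G : ℝ) (hBc0 : 0 ≤ Bc) (herr : 0 ≤ err) (hf : ∀ s j, 0 ≤ f s j)
    (hZ : ∀ (v : ι → Lv) (o : O) (c : Lv → ℝ), (∀ j, |c j| ≤ C.nu s0 j) →
      (∀ j, C.H (Function.update v s0 j) o = 0 → c j = 0) →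
      |∑ j, c j * T (Function.update v s0 j) o|
        ≤ Bc * ∏ s ∈ Finset.univ.erase s0, f s (v s) + err)
    (hBc : Bc ≤ C.Lo ^ (C.k s0) * g s0 * l13_P C.S.Y (C.a s0 * C.S.Y) (C.k s0))
    (hB : ∀ s, s ≠ s0 → ∑ j, C.nu s j * f s j
      ≤ C.Lo ^ (C.k s) * g s * l13_P C.S.Y (C.a s * C.S.Y) (C.k s))
    (hG : l13_F C.A C.a C.k * C.kap * ∏ s, g s ≤ G) :
    |C.val T| ≤ C.Lo ^ 2 * (C.S.lam * C.S.Y ^ 5 * (C.Lo ^ C.j * G)
        + C.pre * C.kap * (err * C.Lo ^ (Fintype.card ι))) := by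
  have hh0 : 0 ≤ C.Lo * C.pre * C.kap :=
    mul_nonneg (mul_pos C.Lo_pos C.pre_pos).le C.hkap0
  have hmu : ∀ s j, 0 ≤ C.ratio s * C.nu s j :=
    fun s j => mul_nonneg (C.ratio_pos s).le (C.hnu0 s j)
  have hq := C.ratio_pos s0
  have hZ' : ∀ (v : ι → Lv) (o : O) (c : Lv → ℝ), (∀ j, |c j| ≤ C.ratio s0 * C.nu s0 j) →
      (∀ j, C.H (Function.update v s0 j) o = 0 → c j = 0) →
      |∑ j, c j * T (Function.update v s0 j) o|
        ≤ (C.ratio s0 * Bc) * ∏ s ∈ Finset.univ.erase s0, f s (v s) + C.ratio s0 * err := by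
    intro v o c hc1 hc2
    have h := hZ v o (fun j => c j / C.ratio s0)
      (fun j => by
        rw [abs_div, abs_of_pos hq, div_le_iff₀ hq, mul_comm]
        exact hc1 j)
      (fun j hj => by rw [hc2 j hj, zero_div])
    have e : ∑ j, c j * T (Function.update v s0 j) o
        = C.ratio s0 * ∑ j, c j / C.ratio s0 * T (Function.update v s0 j) o := by
      rw [Finset.mul_sum]
      apply Finset.sum_congr rfl
      intro j _
      field_simp
    rw [e, abs_mul, abs_of_pos hq]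
    calc C.ratio s0 * |∑ j, c j / C.ratio s0 * T (Function.update v s0 j) o|
        ≤ C.ratio s0 * (Bc * ∏ s ∈ Finset.univ.erase s0, f s (v s) + err) :=
          mul_le_mul_of_nonneg_left h hq.le
      _ = _ := by ring
  have h := l13_center s0 C.H T (C.Lo * C.pre * C.kap) (C.ratio s0 * err) (C.ratio s0 * Bc) C.rho
    (fun s j => C.ratio s * C.nu s j) f hh0 (mul_nonneg hq.le herr) (mul_nonneg hq.le hBc0)
    C.hrho0 hmu hf C.hH' hZ'
  -- recombine the products
  set B : ι → ℝ := fun s => if s = s0 then Bc else ∑ j, C.nu s j * f s j with hBdef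
  have hB0 : ∀ s, 0 ≤ B s := by
    intro s
    rw [hBdef]
    by_cases hs : s = s0
    · simp [hs, hBc0]
    · simp only [hs, if_false]
      exact Finset.sum_nonneg fun j _ => mul_nonneg (C.hnu0 s j) (hf s j)
  have hBB : ∀ s, B s ≤ C.Lo ^ (C.k s) * g s * l13_P C.S.Y (C.a s * C.S.Y) (C.k s) := by
    intro s
    rw [hBdef]
    by_cases hs : s = s0
    · subst hs; simpa using hBc
    · simp only [hs, if_false]
      exact hB s hs
  have e1 : (C.ratio s0 * Bc) * ∏ s ∈ Finset.univ.erase s0, ∑ j, C.ratio s * C.nu s j * f s j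
      = ∏ s, (C.ratio s * B s) := by
    rw [← Finset.mul_prod_erase Finset.univ _ (Finset.mem_univ s0)]
    congr 1
    · rw [hBdef]; simp
    · apply Finset.prod_congr rfl
      intro s hs
      rw [hBdef]
      simp only [Finset.ne_of_mem_erase hs, if_false]
      rw [Finset.mul_sum]
      apply Finset.sum_congr rfl
      intro j _
      ring
  have e2 : ∏ s ∈ Finset.univ.erase s0, ∑ j, C.ratio s * C.nu s j
      ≤ C.Lo ^ (Fintype.card ι) := by
    calc ∏ s ∈ Finset.univ.erase s0, ∑ j, C.ratio s * C.nu s j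
        ≤ ∏ _s ∈ Finset.univ.erase s0, C.Lo := by
          apply Finset.prod_le_prod
          · intro s _
            exact Finset.sum_nonneg fun j _ => hmu s j
          · intro s _
            rw [← Finset.mul_sum]
            calc C.ratio s * ∑ j, C.nu s j ≤ 1 * C.Lo :=
                  mul_le_mul (C.ratio_le_one s) (C.hnu1 s)
                    (Finset.sum_nonneg fun j _ => C.hnu0 s j) zero_le_one
              _ = C.Lo := one_mul _
      _ = C.Lo ^ ((Finset.univ.erase s0 : Finset ι).card) := by simp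
      _ ≤ C.Lo ^ (Fintype.card ι) := by
          apply pow_le_pow_right₀ C.hLo
          exact (Finset.card_le_card (Finset.erase_subset _ _)).trans (le_of_eq Finset.card_univ)
  rw [e1] at h
  have h2 := C.budget_final hB0 hBB hG
  have hP0 : 0 ≤ ∏ s ∈ Finset.univ.erase s0, ∑ j, C.ratio s * C.nu s j :=
    Finset.prod_nonneg fun s _ => Finset.sum_nonneg fun j _ => hmu s j
  have hX0 : 0 ≤ ∏ s, (C.ratio s * B s)
      + C.ratio s0 * err * ∏ s ∈ Finset.univ.erase s0, ∑ j, C.ratio s * C.nu s j := by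
    apply add_nonneg
    · exact Finset.prod_nonneg fun s _ => mul_nonneg (C.ratio_pos s).le (hB0 s)
    · exact mul_nonneg (mul_nonneg hq.le herr) hP0
  unfold val
  calc |∑ v, ∑ o, C.H v o * T v o|
      ≤ C.Lo * C.pre * C.kap * (∑ o, C.rho o) * (∏ s, (C.ratio s * B s)
          + C.ratio s0 * err * ∏ s ∈ Finset.univ.erase s0, ∑ j, C.ratio s * C.nu s j) := h
    _ ≤ C.Lo * C.pre * C.kap * C.Lo * (∏ s, (C.ratio s * B s)
          + C.ratio s0 * err * ∏ s ∈ Finset.univ.erase s0, ∑ j, C.ratio s * C.nu s j) := by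
        apply mul_le_mul_of_nonneg_right _ hX0
        exact mul_le_mul_of_nonneg_left C.hrho1 hh0
    _ = C.Lo ^ 2 * ((C.pre * C.kap * ∏ s, (C.ratio s * B s))
          + C.pre * C.kap * (C.ratio s0 * err
            * ∏ s ∈ Finset.univ.erase s0, ∑ j, C.ratio s * C.nu s j)) := by ring
    _ ≤ C.Lo ^ 2 * (C.S.lam * C.S.Y ^ 5 * (C.Lo ^ C.j * G)
          + C.pre * C.kap * (err * C.Lo ^ (Fintype.card ι))) := by
        apply mul_le_mul_of_nonneg_left _ (pow_pos C.Lo_pos 2).le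
        apply add_le_add h2
        apply mul_le_mul_of_nonneg_left _ (mul_nonneg C.pre_pos.le C.hkap0)
        apply mul_le_mul _ e2 hP0 herr
        calc C.ratio s0 * err ≤ 1 * err := mul_le_mul_of_nonneg_right (C.ratio_le_one s0) herr
          _ = err := one_mul _

/-! ### vertex budgets -/

/-- raw budget of a vertex: `sum nu env^k <= Lo^k * 1 * P_k`. -/
theorem raw_vertex (s : ι) :
    ∑ j, C.nu s j * C.env s j ^ (C.k s)
      ≤ C.Lo ^ (C.k s) * 1 * l13_P C.S.Y (C.a s * C.S.Y) (C.k s) := by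
  rw [mul_one]
  exact l13_env_sum (C.nu s) (C.env s) C.Lo C.S.Y (C.a s * C.S.Y) (C.hnu0 s) (C.henv0 s) C.hLo
    (C.r_pos s) (C.hnu1 s) (C.henv1 s) (C.henv2 s) (C.hk s)

/-- budget of a lower-band vertex restricted to masses below `x`. -/
theorem subx_vertex (s : ι) (ha : C.a s = 1) (hx : ∑ j, C.nu s j ≤ C.Lo * (C.S.x / C.S.Y)) :
    ∑ j, C.nu s j * C.env s j ^ (C.k s)
      ≤ C.Lo ^ (C.k s) * (C.Lo * (C.S.x / C.S.Y)) * l13_P C.S.Y (C.a s * C.S.Y) (C.k s) := by
  have h1 := l13_pull (C.nu s) (C.env s) (fun _ => 1) (C.hnu0 s) (C.henv0 s)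
    (fun _ => zero_le_one) (C.henv1 s) (C.k s)
  simp only [mul_one] at h1
  rw [ha, one_mul] at h1 ⊢
  rw [l13_P_lower C.S.Y_pos]
  calc ∑ j, C.nu s j * C.env s j ^ (C.k s) ≤ (C.Lo * C.S.Y) ^ (C.k s) * ∑ j, C.nu s j := h1
    _ ≤ (C.Lo * C.S.Y) ^ (C.k s) * (C.Lo * (C.S.x / C.S.Y)) :=
        mul_le_mul_of_nonneg_left hx (pow_pos (mul_pos C.Lo_pos C.S.Y_pos) _).le
    _ = _ := by rw [mul_pow]; ring

/-- budget of a selected stochastic vertex (Cauchy-Schwarz in mass). -/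
theorem cs_vertex (s : ι) (D : Lv → ℝ) (hD0 : ∀ j, 0 ≤ D j)
    (hD : ∑ j, C.nu s j * D j ^ 2 ≤ C.Lo * (C.S.gB * C.S.Y ^ 2 / C.a s)) :
    ∑ j, C.nu s j * (C.env s j ^ (C.k s - 1) * D j)
      ≤ C.Lo ^ (C.k s) * (C.Lo * Real.sqrt (C.S.gB * C.a s))
          * l13_P C.S.Y (C.a s * C.S.Y) (C.k s) := by
  have h := l13_cs_sum (C.nu s) (C.env s) D C.Lo C.S.Y (C.a s * C.S.Y) (C.hnu0 s) (C.henv0 s) hD0
    C.hLo (C.r_pos s) (C.hnu1 s) (C.henv1 s) (C.henv2 s) hD (C.hk s)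
  refine h.trans ?_
  have hLo0 : 0 ≤ C.Lo := C.Lo_pos.le
  have hsLo : Real.sqrt C.Lo ≤ C.Lo := by
    rw [Real.sqrt_le_left hLo0]
    nlinarith [C.hLo]
  rw [Real.sqrt_mul hLo0, C.S.sqrt_gain (C.a_pos s), l13_P_eq_mQ _ _ (C.hk s)]
  have hQ := l13_Q_nonneg (Y := C.S.Y) (C.r_pos s).le (C.k s)
  have hm : 0 ≤ C.S.m (C.a s * C.S.Y) := (div_pos (pow_pos C.S.Y_pos 2) (C.r_pos s)).le
  have e : C.Lo ^ (C.k s) * (C.Lo * Real.sqrt (C.S.gB * C.a s))
        * (C.S.Y ^ 2 / (C.a s * C.S.Y) * l13_Q C.S.Y (C.a s * C.S.Y) (C.k s))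
      = C.Lo ^ (C.k s) * (C.Lo * (Real.sqrt (C.S.gB * C.a s) * C.S.m (C.a s * C.S.Y))
        * l13_Q C.S.Y (C.a s * C.S.Y) (C.k s)) := by
    unfold L13Scales.m; ring
  rw [e]
  apply mul_le_mul_of_nonneg_left _ (pow_pos C.Lo_pos _).le
  apply mul_le_mul_of_nonneg_right _ hQ
  exact mul_le_mul_of_nonneg_right hsLo (mul_nonneg (Real.sqrt_nonneg _) hm)

/-- budget of a vertex with two selected stochastic factors. -/
theorem dup_vertex (s : ι) (hk2 : 2 ≤ C.k s) (D : Lv → ℝ)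
    (hD : ∑ j, C.nu s j * D j ^ 2 ≤ C.Lo * (C.S.gB * C.S.Y ^ 2 / C.a s)) :
    ∑ j, C.nu s j * (C.env s j ^ (C.k s - 2) * D j ^ 2)
      ≤ C.Lo ^ (C.k s) * (C.Lo * (C.S.gB * C.a s)) * l13_P C.S.Y (C.a s * C.S.Y) (C.k s) := by
  have hV0 : 0 ≤ C.Lo * (C.S.gB * C.S.Y ^ 2 / C.a s) :=
    mul_nonneg C.Lo_pos.le (div_pos (mul_pos C.S.gB_pos (pow_pos C.S.Y_pos 2)) (C.a_pos s)).le
  have h := l13_dup_sum (C.nu s) (C.env s) D C.Lo (C.a s * C.S.Y) (C.hnu0 s) (C.henv0 s)
    C.hLo (C.r_pos s) (C.henv1 s) hD hV0 hk2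
  refine h.trans (le_of_eq ?_)
  rw [C.S.dup_gain (C.a_pos s), l13_P_ge_two _ _ hk2]
  unfold L13Scales.m
  ring

/-- (D10) in the paper's form is at most `(gB / a) P_k`. -/
theorem center_vertex (s : ι) {Zh : ℝ} (hZh : Zh ≤ C.S.Z) :
    C.S.z0 (C.a s * C.S.Y) * (C.a s * C.S.Y) * Zh * l13_Q C.S.Y (C.a s * C.S.Y) (C.k s)
      ≤ C.S.gB / C.a s * l13_P C.S.Y (C.a s * C.S.Y) (C.k s) := by
  have h := C.S.center_gain (C.a_pos s) hZh
  have hQ := l13_Q_nonneg (Y := C.S.Y) (C.r_pos s).le (C.k s)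
  rw [l13_P_eq_mQ _ _ (C.hk s)]
  calc C.S.z0 (C.a s * C.S.Y) * (C.a s * C.S.Y) * Zh * l13_Q C.S.Y (C.a s * C.S.Y) (C.k s)
      ≤ C.S.gB / C.a s * C.S.m (C.a s * C.S.Y) * l13_Q C.S.Y (C.a s * C.S.Y) (C.k s) :=
        mul_le_mul_of_nonneg_right h hQ
    _ = _ := by unfold L13Scales.m; ring

/-! ### THE LEAVES -/

/-- **Leaf R** (an assigned vertex below `x`): first contribution of (E3). -/
theorem leaf_raw (s0 : ι) (ha : C.a s0 = 1)
    (hx : ∑ j, C.nu s0 j ≤ C.Lo * (C.S.x / C.S.Y)) (T : (ι → Lv) → O → ℝ) (c0 : ℝ)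
    (hc0 : 0 ≤ c0)
    (hT : ∀ v o, C.H v o ≠ 0 → |T v o| ≤ c0 * ∏ s, C.env s (v s) ^ (C.k s)) :
    |C.val T| ≤ C.Lo ^ (C.j + 3) * c0 * (C.S.lam * C.S.Y ^ 5 * (C.S.x / C.S.Y)) := by
  have hxY : 0 ≤ C.Lo * (C.S.x / C.S.Y) :=
    mul_nonneg C.Lo_pos.le (div_pos C.S.hx C.S.Y_pos).le
  have hG : l13_F C.A C.a C.k * C.kap
      * ∏ s, (if s = s0 then C.Lo * (C.S.x / C.S.Y) else 1) ≤ C.Lo * (C.S.x / C.S.Y) := by
    rw [l13_prod_gain_one]
    have := l13_table_le_one C.h1 C.hA C.hmax C.hk C.hj C.hkap0 C.hkap1 C.hkap2 s0 ha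
    calc l13_F C.A C.a C.k * C.kap * (C.Lo * (C.S.x / C.S.Y))
        ≤ 1 * (C.Lo * (C.S.x / C.S.Y)) := mul_le_mul_of_nonneg_right this hxY
      _ = _ := one_mul _
  have h := C.pm_budget T (fun s j => C.env s j ^ (C.k s))
    (fun s => if s = s0 then C.Lo * (C.S.x / C.S.Y) else 1) c0 0 _ hc0 le_rfl
    (fun s j => pow_nonneg (C.henv0 s j) _)
    (fun v o hv => by simpa using hT v o hv)
    (fun s => by
      by_cases hs : s = s0
      · subst hs
        simpa using C.subx_vertex s ha hx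
      · simp only [hs, if_false]
        exact C.raw_vertex s)
    hG
  refine h.trans (le_of_eq ?_)
  rw [pow_add]
  ring

/-- **Leaf C2** (two selected stochastic vertices `s1 != s2`).  `hpat` is supplied by
`l13_leaf_two` (generic pattern), `l13_leaf_onetwo_cs` ((1,2), `a_t <= a_d`) or
`l13_leaf_oneone_low` ((1,1) in the lower band). -/
theorem leaf_two {s1 s2 : ι} (hne : s1 ≠ s2) (D : ι → Lv → ℝ) (hD0 : ∀ s j, 0 ≤ D s j)
    (hD1 : ∑ j, C.nu s1 j * D s1 j ^ 2 ≤ C.Lo * (C.S.gB * C.S.Y ^ 2 / C.a s1))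
    (hD2 : ∑ j, C.nu s2 j * D s2 j ^ 2 ≤ C.Lo * (C.S.gB * C.S.Y ^ 2 / C.a s2))
    (hpat : l13_F C.A C.a C.k * C.kap
      * (Real.sqrt (C.S.gB * C.a s1) * Real.sqrt (C.S.gB * C.a s2)) ≤ C.S.gB)
    (T : (ι → Lv) → O → ℝ) (c0 err : ℝ) (hc0 : 0 ≤ c0) (herr : 0 ≤ err)
    (hT : ∀ v o, C.H v o ≠ 0 → |T v o| ≤ c0 * ∏ s, (if s = s1 ∨ s = s2
      then C.env s (v s) ^ (C.k s - 1) * D s (v s) else C.env s (v s) ^ (C.k s)) + err) :
    |C.val T| ≤ C.Lo ^ (C.j + 4) * c0 * (C.S.lam * C.S.Y ^ 5 * C.S.gB)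
        + C.Lo ^ (Fintype.card ι + 2) * (C.pre * C.kap * err) := by
  have hG : l13_F C.A C.a C.k * C.kap
      * ∏ s, (if s = s1 then C.Lo * Real.sqrt (C.S.gB * C.a s1)
          else if s = s2 then C.Lo * Real.sqrt (C.S.gB * C.a s2) else 1)
      ≤ C.Lo ^ 2 * C.S.gB := by
    rw [l13_prod_gain_two hne]
    calc l13_F C.A C.a C.k * C.kap
          * (C.Lo * Real.sqrt (C.S.gB * C.a s1) * (C.Lo * Real.sqrt (C.S.gB * C.a s2)))
        = C.Lo ^ 2 * (l13_F C.A C.a C.k * C.kap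
          * (Real.sqrt (C.S.gB * C.a s1) * Real.sqrt (C.S.gB * C.a s2))) := by ring
      _ ≤ C.Lo ^ 2 * C.S.gB := mul_le_mul_of_nonneg_left hpat (pow_pos C.Lo_pos 2).le
  have h := C.pm_budget T (fun s j => if s = s1 ∨ s = s2
      then C.env s j ^ (C.k s - 1) * D s j else C.env s j ^ (C.k s))
    (fun s => if s = s1 then C.Lo * Real.sqrt (C.S.gB * C.a s1)
          else if s = s2 then C.Lo * Real.sqrt (C.S.gB * C.a s2) else 1) c0 err _ hc0 herr
    (fun s j => by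
      split_ifs
      · exact mul_nonneg (pow_nonneg (C.henv0 s j) _) (hD0 s j)
      · exact pow_nonneg (C.henv0 s j) _)
    hT
    (fun s => by
      by_cases h1 : s = s1
      · subst h1
        simpa using C.cs_vertex s (D s) (hD0 s) hD1
      · by_cases h2 : s = s2
        · subst h2
          simpa [h1] using C.cs_vertex s (D s) (hD0 s) hD2
        · simp only [h1, h2, or_self, if_false]
          exact C.raw_vertex s)
    hG
  refine h.trans (le_of_eq ?_)
  rw [pow_add, pow_add]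
  ring

/-- **Leaf C1** (two stochastic factors at the vertex `d`).  `hpat` is supplied by
`l13_leaf_dup` for the pattern (1,2). -/
theorem leaf_dup (d : ι) (hk2 : 2 ≤ C.k d) (D : Lv → ℝ)
    (hD : ∑ j, C.nu d j * D j ^ 2 ≤ C.Lo * (C.S.gB * C.S.Y ^ 2 / C.a d))
    (hpat : l13_F C.A C.a C.k * C.kap * (C.S.gB * C.a d) ≤ C.S.gB)
    (T : (ι → Lv) → O → ℝ) (c0 err : ℝ) (hc0 : 0 ≤ c0) (herr : 0 ≤ err)
    (hT : ∀ v o, C.H v o ≠ 0 → |T v o| ≤ c0 * ∏ s, (if s = d
      then C.env s (v s) ^ (C.k s - 2) * D (v s) ^ 2 else C.env s (v s) ^ (C.k s)) + err) :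
    |C.val T| ≤ C.Lo ^ (C.j + 3) * c0 * (C.S.lam * C.S.Y ^ 5 * C.S.gB)
        + C.Lo ^ (Fintype.card ι + 2) * (C.pre * C.kap * err) := by
  have hG : l13_F C.A C.a C.k * C.kap
      * ∏ s, (if s = d then C.Lo * (C.S.gB * C.a d) else 1) ≤ C.Lo * C.S.gB := by
    rw [l13_prod_gain_one]
    calc l13_F C.A C.a C.k * C.kap * (C.Lo * (C.S.gB * C.a d))
        = C.Lo * (l13_F C.A C.a C.k * C.kap * (C.S.gB * C.a d)) := by ring
      _ ≤ C.Lo * C.S.gB := mul_le_mul_of_nonneg_left hpat C.Lo_pos.le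
  have h := C.pm_budget T (fun s j => if s = d
      then C.env s j ^ (C.k s - 2) * D j ^ 2 else C.env s j ^ (C.k s))
    (fun s => if s = d then C.Lo * (C.S.gB * C.a d) else 1) c0 err _ hc0 herr
    (fun s j => by
      split_ifs
      · exact mul_nonneg (pow_nonneg (C.henv0 s j) _) (sq_nonneg _)
      · exact pow_nonneg (C.henv0 s j) _)
    hT
    (fun s => by
      by_cases h1 : s = d
      · subst h1
        simpa using C.dup_vertex s hk2 D hD
      · simp only [h1, if_false]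
        exact C.raw_vertex s)
    hG
  refine h.trans (le_of_eq ?_)
  rw [pow_add, pow_add]
  ring

/-- **Leaf Z** (one centered vertex `s0`, all the other vertices at their raw budgets).
Covers the single stochastic vertex ((D10), or the lower-band linear / `D^2` bounds) and the
later linear singleton of the patterns (1,2), (1,1).  `Bc` is the centered bound normalised by
`dv / r_s0`; `hBc` follows from `center_vertex` when `Bc = Lo * z0 r Zh Q_k`. -/
theorem leaf_center (s0 : ι) (T : (ι → Lv) → O → ℝ) (Bc err : ℝ) (hBc0 : 0 ≤ Bc)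
    (herr : 0 ≤ err)
    (hBc : Bc ≤ C.Lo * (C.S.gB / C.a s0 * l13_P C.S.Y (C.a s0 * C.S.Y) (C.k s0)))
    (hZ : ∀ (v : ι → Lv) (o : O) (c : Lv → ℝ), (∀ j, |c j| ≤ C.nu s0 j) →
      (∀ j, C.H (Function.update v s0 j) o = 0 → c j = 0) →
      |∑ j, c j * T (Function.update v s0 j) o|
        ≤ Bc * ∏ s ∈ Finset.univ.erase s0, C.env s (v s) ^ (C.k s) + err) :
    |C.val T| ≤ C.Lo ^ (C.j + 3) * (C.S.lam * C.S.Y ^ 5 * C.S.gB)
        + C.Lo ^ (Fintype.card ι + 2) * (C.pre * C.kap * err) := by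
  have hG : l13_F C.A C.a C.k * C.kap
      * ∏ s, (if s = s0 then C.Lo * (C.S.gB / C.a s0) else 1) ≤ C.Lo * C.S.gB := by
    rw [l13_prod_gain_one]
    have := l13_leaf_center C.h1 C.hA C.hmax C.hk C.hj C.hkap0 C.hkap1 C.hkap2 C.S.gB_pos.le s0
    calc l13_F C.A C.a C.k * C.kap * (C.Lo * (C.S.gB / C.a s0))
        = C.Lo * (l13_F C.A C.a C.k * C.kap * (C.S.gB / C.a s0)) := by ring
      _ ≤ C.Lo * C.S.gB := mul_le_mul_of_nonneg_left this C.Lo_pos.le
  have hP := l13_P_nonneg (Y := C.S.Y) (C.r_pos s0).le (C.k s0)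
  have h := C.center_budget s0 T (fun s j => C.env s j ^ (C.k s))
    (fun s => if s = s0 then C.Lo * (C.S.gB / C.a s0) else 1) Bc err _ hBc0 herr
    (fun s j => pow_nonneg (C.henv0 s j) _) hZ
    (by
      simp only [if_true]
      have h1 : (1 : ℝ) ≤ C.Lo ^ (C.k s0) := one_le_pow₀ C.hLo
      have h2 : 0 ≤ C.Lo * (C.S.gB / C.a s0 * l13_P C.S.Y (C.a s0 * C.S.Y) (C.k s0)) :=
        mul_nonneg C.Lo_pos.le (mul_nonneg (div_pos C.S.gB_pos (C.a_pos s0)).le hP)
      calc Bc ≤ 1 * (C.Lo * (C.S.gB / C.a s0 * l13_P C.S.Y (C.a s0 * C.S.Y) (C.k s0))) := by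
            rw [one_mul]; exact hBc
        _ ≤ C.Lo ^ (C.k s0)
              * (C.Lo * (C.S.gB / C.a s0 * l13_P C.S.Y (C.a s0 * C.S.Y) (C.k s0))) :=
            mul_le_mul_of_nonneg_right h1 h2
        _ = _ := by ring)
    (fun s hs => by
      simp only [hs, if_false]
      exact C.raw_vertex s)
    hG
  refine h.trans (le_of_eq ?_)
  rw [pow_add, pow_add]
  ring

end L13CC

end Claimed.Agent.R286
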