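/-
OWNER helper30.  TEX[LL:exp:lem-centered-count] (generic probability steps of the proof).
Row 286, package L13 (LL 09-expansion): GENERIC PROBABILITY LEMMAS used in Lemma 9.1 and in the
reduction to Proposition 9.2.  Mathlib only, an arbitrary probability space.
  * `l13_holder`      |E prod T_i| <= prod ||T_i||_n          (n = number of factors)
  * `l13_trunc`       truncation of the other factors at their envelopes
  * `l13_markov`      tails from a fixed moment
  * `l13_cs`          Cauchy-Schwarz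
  * `l13_two_changes` a product of (projected + change) with vanishing one-change terms
-/
import Mathlib

set_option linter.unusedSectionVars false
set_option linter.style.haveILetI false

namespace Claimed.Agent.R286

open MeasureTheory Finset
open scoped ENNReal

/-- bounded (a.e. strongly) measurable random variable -/
structure L13Rv {Ω : Type*} [MeasurableSpace Ω] (P : Measure Ω) (f : Ω → ℝ) (M : ℝ) : Prop where
  meas : AEStronglyMeasurable f P
  bdd : ∀ ω, |f ω| ≤ M

section

variable {Ω : Type*} [MeasurableSpace Ω] {P : Measure Ω} [IsProbabilityMeasure P]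

theorem L13Rv.integrable {f : Ω → ℝ} {M : ℝ} (h : L13Rv P f M) : Integrable f P :=
  Integrable.of_bound h.meas M (Filter.Eventually.of_forall fun ω => by
    rw [Real.norm_eq_abs]; exact h.bdd ω)

theorem L13Rv.abs {f : Ω → ℝ} {M : ℝ} (h : L13Rv P f M) : L13Rv P (fun ω => |f ω|) M :=
  ⟨h.meas.norm, fun ω => by rw [abs_abs]; exact h.bdd ω⟩

theorem L13Rv.mul {f g : Ω → ℝ} {M N : ℝ} (hf : L13Rv P f M) (hg : L13Rv P g N) :
    L13Rv P (fun ω => f ω * g ω) (M * N) :=
  ⟨hf.meas.mul hg.meas, fun ω => by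
    rw [abs_mul]
    exact mul_le_mul (hf.bdd ω) (hg.bdd ω) (abs_nonneg _) ((abs_nonneg _).trans (hf.bdd ω))⟩

theorem L13Rv.pow {f : Ω → ℝ} {M : ℝ} (hf : L13Rv P f M) (n : ℕ) :
    L13Rv P (fun ω => f ω ^ n) (M ^ n) :=
  ⟨hf.meas.pow n, fun ω => by
    rw [abs_pow]
    exact pow_le_pow_left₀ (abs_nonneg _) (hf.bdd ω) n⟩

theorem L13Rv.prod {J : Type*} (s : Finset J) {T : J → Ω → ℝ} {M : J → ℝ}
    (h : ∀ i, L13Rv P (T i) (M i)) : L13Rv P (fun ω => ∏ i ∈ s, T i ω) (∏ i ∈ s, M i) := by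
  refine ⟨?_, fun ω => ?_⟩
  · have := Finset.aestronglyMeasurable_prod (μ := P) s (f := T) (fun i _ => (h i).meas)
    convert this using 1
    ext ω
    simp
  · rw [Finset.abs_prod]
    exact Finset.prod_le_prod (fun i _ => abs_nonneg _) (fun i _ => (h i).bdd ω)

theorem L13Rv.const (c : ℝ) : L13Rv P (fun _ => c) |c| :=
  ⟨aestronglyMeasurable_const, fun _ => le_rfl⟩

theorem L13Rv.mono {f : Ω → ℝ} {M N : ℝ} (h : L13Rv P f M) (hMN : M ≤ N) : L13Rv P f N :=
  ⟨h.meas, fun ω => (h.bdd ω).trans hMN⟩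

/-- **Generalised Hoelder inequality** for `n` bounded factors with `n`-th moments. -/
theorem l13_holder {J : Type*} [Fintype J] (T : J → Ω → ℝ) (M : J → ℝ)
    (hT : ∀ i, L13Rv P (T i) (M i)) (B : J → ℝ) (hB0 : ∀ i, 0 ≤ B i)
    (hn0 : 0 < Fintype.card J)
    (hmom : ∀ i, ∫ ω, |T i ω| ^ (Fintype.card J) ∂P ≤ B i ^ (Fintype.card J)) :
    ∫ ω, ∏ i, |T i ω| ∂P ≤ ∏ i, B i := by
  set n := Fintype.card J with hn
  have hnR : (0 : ℝ) < n := by exact_mod_cast hn0
  have hsum : ∑ _i : J, (1 / (n : ℝ)) = 1 := by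
    rw [Finset.sum_const, Finset.card_univ, ← hn, nsmul_eq_mul]
    field_simp
  have hmeas : ∀ i ∈ (Finset.univ : Finset J),
      AEMeasurable (fun ω => ENNReal.ofReal (|T i ω| ^ n)) P := by
    intro i _
    exact ((hT i).abs.pow n).meas.aemeasurable.ennreal_ofReal
  have key := ENNReal.lintegral_prod_norm_pow_le (μ := P) (Finset.univ : Finset J)
    (f := fun i ω => ENNReal.ofReal (|T i ω| ^ n)) hmeas (p := fun _ => 1 / (n : ℝ)) hsum
    (fun i _ => by positivity)
  have e1 : ∀ ω, ∏ i, ENNReal.ofReal (|T i ω| ^ n) ^ (1 / (n : ℝ))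
      = ENNReal.ofReal (∏ i, |T i ω|) := by
    intro ω
    rw [ENNReal.ofReal_prod_of_nonneg (fun i _ => abs_nonneg _)]
    apply Finset.prod_congr rfl
    intro i _
    rw [ENNReal.ofReal_rpow_of_nonneg (pow_nonneg (abs_nonneg _) _) (by positivity),
      ← Real.rpow_natCast, ← Real.rpow_mul (abs_nonneg _), mul_one_div_cancel hnR.ne',
      Real.rpow_one]
  simp_rw [e1] at key
  have e2 : ∀ i, (∫⁻ ω, ENNReal.ofReal (|T i ω| ^ n) ∂P) ^ (1 / (n : ℝ))
      ≤ ENNReal.ofReal (B i) := by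
    intro i
    rw [← ofReal_integral_eq_lintegral_ofReal ((hT i).abs.pow n).integrable
      (Filter.Eventually.of_forall fun ω => pow_nonneg (abs_nonneg _) _)]
    calc ENNReal.ofReal (∫ ω, |T i ω| ^ n ∂P) ^ (1 / (n : ℝ))
        ≤ ENNReal.ofReal (B i ^ n) ^ (1 / (n : ℝ)) :=
          ENNReal.rpow_le_rpow (ENNReal.ofReal_le_ofReal (hmom i)) (by positivity)
      _ = ENNReal.ofReal (B i) := by
          rw [ENNReal.ofReal_rpow_of_nonneg (pow_nonneg (hB0 i) _) (by positivity),
            ← Real.rpow_natCast, ← Real.rpow_mul (hB0 i), mul_one_div_cancel hnR.ne',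
            Real.rpow_one]
  have key2 : ∫⁻ ω, ENNReal.ofReal (∏ i, |T i ω|) ∂P ≤ ENNReal.ofReal (∏ i, B i) := by
    rw [ENNReal.ofReal_prod_of_nonneg (fun i _ => hB0 i)]
    exact key.trans (Finset.prod_le_prod' fun i _ => e2 i)
  have hint : Integrable (fun ω => ∏ i, |T i ω|) P :=
    (L13Rv.prod Finset.univ (fun i => (hT i).abs)).integrable
  rw [← ofReal_integral_eq_lintegral_ofReal hint
    (Filter.Eventually.of_forall fun ω => Finset.prod_nonneg fun i _ => abs_nonneg _)] at key2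
  exact (ENNReal.ofReal_le_ofReal_iff (Finset.prod_nonneg fun i _ => hB0 i)).mp key2

/-- the same for the expectation of the product. -/
theorem l13_holder_abs {J : Type*} [Fintype J] (T : J → Ω → ℝ) (M : J → ℝ)
    (hT : ∀ i, L13Rv P (T i) (M i)) (B : J → ℝ) (hB0 : ∀ i, 0 ≤ B i)
    (hn0 : 0 < Fintype.card J)
    (hmom : ∀ i, ∫ ω, |T i ω| ^ (Fintype.card J) ∂P ≤ B i ^ (Fintype.card J)) :
    |∫ ω, ∏ i, T i ω ∂P| ≤ ∏ i, B i := by
  calc |∫ ω, ∏ i, T i ω ∂P| ≤ ∫ ω, |∏ i, T i ω| ∂P := abs_integral_le_integral_abs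
    _ = ∫ ω, ∏ i, |T i ω| ∂P := by simp_rw [Finset.abs_prod]
    _ ≤ ∏ i, B i := l13_holder T M hT B hB0 hn0 hmom

/-- **Cauchy-Schwarz.** -/
theorem l13_cs {f g : Ω → ℝ} {M N : ℝ} (hf : L13Rv P f M) (hg : L13Rv P g N) :
    ∫ ω, |f ω * g ω| ∂P ≤ Real.sqrt (∫ ω, f ω ^ 2 ∂P) * Real.sqrt (∫ ω, g ω ^ 2 ∂P) := by
  have hpq : (2 : ℝ).HolderConjugate 2 := Real.HolderConjugate.two_two
  have hfL : MemLp (fun ω => |f ω|) (ENNReal.ofReal 2) P :=
    MemLp.of_bound hf.abs.meas M (Filter.Eventually.of_forall fun ω => by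
      rw [Real.norm_eq_abs]; exact hf.abs.bdd ω)
  have hgL : MemLp (fun ω => |g ω|) (ENNReal.ofReal 2) P :=
    MemLp.of_bound hg.abs.meas N (Filter.Eventually.of_forall fun ω => by
      rw [Real.norm_eq_abs]; exact hg.abs.bdd ω)
  have h := integral_mul_le_Lp_mul_Lq_of_nonneg hpq
    (Filter.Eventually.of_forall fun ω => abs_nonneg (f ω))
    (Filter.Eventually.of_forall fun ω => abs_nonneg (g ω)) hfL hgL
  have e : ∀ u : Ω → ℝ, (∫ ω, |u ω| ^ (2 : ℝ) ∂P) ^ (1 / (2 : ℝ))
      = Real.sqrt (∫ ω, u ω ^ 2 ∂P) := by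
    intro u
    rw [Real.sqrt_eq_rpow]
    congr 2
    ext ω
    rw [Real.rpow_two, sq_abs]
  rw [e f, e g] at h
  simpa [abs_mul] using h

/-- **Truncation of the other factors at their envelopes** (with the Markov tails built in):
`E |F prod g_i| <= (prod th_i) E|F| + M_F (prod M_i) sum_i E|g_i|^p / th_i^p`. -/
theorem l13_trunc {R : Type*} [Fintype R] {F : Ω → ℝ} {MF : ℝ} (hF : L13Rv P F MF)
    (g : R → Ω → ℝ) (M : R → ℝ) (hg : ∀ i, L13Rv P (g i) (M i)) (th : R → ℝ)
    (hth : ∀ i, 0 < th i) (p : ℕ) :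
    ∫ ω, |F ω * ∏ i, g i ω| ∂P
      ≤ (∏ i, th i) * ∫ ω, |F ω| ∂P
        + MF * (∏ i, M i) * ∑ i, (∫ ω, |g i ω| ^ p ∂P) / th i ^ p := by
  have hpt : ∀ ω, |F ω * ∏ i, g i ω|
      ≤ (∏ i, th i) * |F ω| + MF * (∏ i, M i) * ∑ i, |g i ω| ^ p / th i ^ p := by
    intro ω
    have hMF : 0 ≤ MF := (abs_nonneg _).trans (hF.bdd ω)
    have hM : ∀ i, 0 ≤ M i := fun i => (abs_nonneg _).trans ((hg i).bdd ω)
    have hs0 : ∀ i, 0 ≤ |g i ω| ^ p / th i ^ p := fun i =>
      div_nonneg (pow_nonneg (abs_nonneg _) _) (pow_pos (hth i) _).le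
    have hsum0 : 0 ≤ ∑ i, |g i ω| ^ p / th i ^ p := Finset.sum_nonneg fun i _ => hs0 i
    rw [abs_mul, Finset.abs_prod]
    by_cases hall : ∀ i, |g i ω| ≤ th i
    · have h1 : ∏ i, |g i ω| ≤ ∏ i, th i :=
        Finset.prod_le_prod (fun i _ => abs_nonneg _) (fun i _ => hall i)
      calc |F ω| * ∏ i, |g i ω| ≤ |F ω| * ∏ i, th i :=
            mul_le_mul_of_nonneg_left h1 (abs_nonneg _)
        _ = (∏ i, th i) * |F ω| + 0 := by ring
        _ ≤ _ := by
            apply add_le_add le_rfl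
            exact mul_nonneg (mul_nonneg hMF (Finset.prod_nonneg fun i _ => hM i)) hsum0
    · push Not at hall
      obtain ⟨i0, hi0⟩ := hall
      have h1 : (1 : ℝ) ≤ |g i0 ω| ^ p / th i0 ^ p := by
        rw [le_div_iff₀ (pow_pos (hth i0) _), one_mul]
        exact pow_le_pow_left₀ (hth i0).le hi0.le p
      have h2 : (1 : ℝ) ≤ ∑ i, |g i ω| ^ p / th i ^ p :=
        h1.trans (Finset.single_le_sum (f := fun i => |g i ω| ^ p / th i ^ p)
          (fun i _ => hs0 i) (Finset.mem_univ i0))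
      have h3 : |F ω| * ∏ i, |g i ω| ≤ MF * ∏ i, M i :=
        mul_le_mul (hF.bdd ω) (Finset.prod_le_prod (fun i _ => abs_nonneg _)
          (fun i _ => (hg i).bdd ω)) (Finset.prod_nonneg fun i _ => abs_nonneg _) hMF
      have hMM : 0 ≤ MF * ∏ i, M i := mul_nonneg hMF (Finset.prod_nonneg fun i _ => hM i)
      calc |F ω| * ∏ i, |g i ω| ≤ MF * ∏ i, M i := h3
        _ = 0 + MF * (∏ i, M i) * 1 := by ring
        _ ≤ _ := by
            apply add_le_add
            · exact mul_nonneg (Finset.prod_nonneg fun i _ => (hth i).le) (abs_nonneg _)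
            · exact mul_le_mul_of_nonneg_left h2 hMM
  have hint1 : Integrable (fun ω => (∏ i, th i) * |F ω|) P := hF.abs.integrable.const_mul _
  have hint2 : Integrable (fun ω => MF * (∏ i, M i) * ∑ i, |g i ω| ^ p / th i ^ p) P := by
    apply Integrable.const_mul
    apply integrable_finsetSum
    intro i _
    exact ((hg i).abs.pow p).integrable.div_const _
  calc ∫ ω, |F ω * ∏ i, g i ω| ∂P
      ≤ ∫ ω, ((∏ i, th i) * |F ω| + MF * (∏ i, M i) * ∑ i, |g i ω| ^ p / th i ^ p) ∂P := by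
        apply integral_mono_of_nonneg (Filter.Eventually.of_forall fun ω => abs_nonneg _)
          (hint1.add hint2) (Filter.Eventually.of_forall hpt)
    _ = _ := by
        rw [integral_add hint1 hint2, integral_const_mul, integral_const_mul,
          integral_finsetSum _ (fun i _ => ((hg i).abs.pow p).integrable.div_const _)]
        simp_rw [integral_div]

/-- **Two changes.**  `A i` = projected factor, `ch i` = change.  If every term with exactly one
change has zero expectation, the product error is quadratic in the changes. -/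
theorem l13_two_changes {J : Type*} [Fintype J] [DecidableEq J] (A ch : J → Ω → ℝ) (M : ℝ)
    (hA : ∀ i, L13Rv P (A i) M) (hch : ∀ i, L13Rv P (ch i) M) (a X : ℝ) (hX0 : 0 ≤ X)
    (hXa : X ≤ a) (hn : 2 ≤ Fintype.card J)
    (hAm : ∀ i, ∫ ω, |A i ω| ^ (Fintype.card J) ∂P ≤ a ^ (Fintype.card J))
    (hcm : ∀ i, ∫ ω, |ch i ω| ^ (Fintype.card J) ∂P ≤ X ^ (Fintype.card J))
    (hone : ∀ i, ∫ ω, ch i ω * ∏ i' ∈ Finset.univ.erase i, A i' ω ∂P = 0) :
    |∫ ω, ∏ i, (A i ω + ch i ω) ∂P - ∫ ω, ∏ i, A i ω ∂P|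
      ≤ 2 ^ (Fintype.card J) * (X ^ 2 * a ^ (Fintype.card J - 2)) := by
  set n := Fintype.card J with hnd
  have ha0 : 0 ≤ a := hX0.trans hXa
  -- the term attached to a subset `t` (factors `A` on `t`, changes off `t`)
  let term : Finset J → ℝ := fun t => ∫ ω, ∏ i, (if i ∈ t then A i ω else ch i ω) ∂P
  have hrv : ∀ (t : Finset J) i, L13Rv P (fun ω => if i ∈ t then A i ω else ch i ω) M := by
    intro t i
    by_cases h : i ∈ t
    · simpa [h] using hA i
    · simpa [h] using hch i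
  have hexp : ∀ ω, ∏ i, (A i ω + ch i ω)
      = ∑ t ∈ (Finset.univ : Finset J).powerset, ∏ i, (if i ∈ t then A i ω else ch i ω) := by
    intro ω
    rw [Finset.prod_add]
    apply Finset.sum_congr rfl
    intro t _
    rw [Finset.prod_ite]
    congr 1
    · apply Finset.prod_congr _ (fun _ _ => rfl)
      ext i; simp
    · apply Finset.prod_congr _ (fun _ _ => rfl)
      ext i; simp
  have hsum : ∫ ω, ∏ i, (A i ω + ch i ω) ∂P
      = ∑ t ∈ (Finset.univ : Finset J).powerset, term t := by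
    simp_rw [hexp]
    rw [integral_finsetSum]
    intro t _
    exact (L13Rv.prod Finset.univ (hrv t)).integrable
  have huniv : term Finset.univ = ∫ ω, ∏ i, A i ω ∂P := by
    simp [term]
  have hbound : ∀ t : Finset J, t ≠ Finset.univ → |term t| ≤ X ^ 2 * a ^ (n - 2) := by
    intro t ht
    have hcard : t.card < n := by
      rw [hnd, ← Finset.card_univ]
      exact Finset.card_lt_card (Finset.ssubset_univ_iff.mpr ht)
    rcases Nat.lt_or_ge (t.card + 1) n with h2 | h2
    · -- at least two changes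
      have hH := l13_holder_abs (P := P) (fun i ω => if i ∈ t then A i ω else ch i ω)
        (fun _ => M) (hrv t) (fun i => if i ∈ t then a else X)
        (fun i => by split_ifs <;> assumption) (by omega)
        (fun i => by
          by_cases h : i ∈ t
          · simpa [h] using hAm i
          · simpa [h] using hcm i)
      refine hH.trans ?_
      rw [Finset.prod_ite, Finset.prod_const, Finset.prod_const]
      have c1 : (Finset.univ.filter fun i => i ∈ t).card = t.card := by
        congr 1; ext i; simp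
      have c2 : (Finset.univ.filter fun i => i ∉ t).card = n - t.card := by
        have : (Finset.univ.filter fun i => i ∉ t) = Finset.univ \ t := by ext i; simp
        rw [this, Finset.card_sdiff_of_subset (Finset.subset_univ t), Finset.card_univ]
      rw [c1, c2]
      obtain ⟨e, he⟩ : ∃ e, n - t.card = e + 2 := ⟨n - t.card - 2, by omega⟩
      rw [he]
      have hn2 : n - 2 = t.card + e := by omega
      rw [hn2, pow_add, pow_add]
      calc a ^ t.card * (X ^ e * X ^ 2) ≤ a ^ t.card * (a ^ e * X ^ 2) := by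
            apply mul_le_mul_of_nonneg_left _ (pow_nonneg ha0 _)
            exact mul_le_mul_of_nonneg_right (pow_le_pow_left₀ hX0 hXa e) (pow_nonneg hX0 2)
        _ = X ^ 2 * (a ^ t.card * a ^ e) := by ring
    · -- exactly one change
      have hc : t.card + 1 = n := by omega
      have hcompl : (Finset.univ \ t).card = 1 := by
        rw [Finset.card_sdiff_of_subset (Finset.subset_univ t), Finset.card_univ]
        omega
      obtain ⟨i0, hi0⟩ := Finset.card_eq_one.mp hcompl
      have hi0t : i0 ∉ t := by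
        have : i0 ∈ Finset.univ \ t := by rw [hi0]; simp
        simpa using this
      have ht' : t = Finset.univ.erase i0 := by
        ext i
        constructor
        · intro hi
          rw [Finset.mem_erase]
          exact ⟨fun h => hi0t (h ▸ hi), Finset.mem_univ i⟩
        · intro hi
          by_contra hni
          have : i ∈ Finset.univ \ t := by simp [hni]
          rw [hi0, Finset.mem_singleton] at this
          exact (Finset.ne_of_mem_erase hi) this
      have hz : term t = 0 := by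
        rw [← hone i0]
        apply integral_congr_ae
        refine Filter.Eventually.of_forall fun ω => ?_
        simp only
        rw [← Finset.mul_prod_erase Finset.univ _ (Finset.mem_univ i0), if_neg hi0t]
        congr 1
        apply Finset.prod_congr rfl
        intro i hi
        rw [if_pos (by rw [ht']; exact hi)]
      rw [hz, abs_zero]
      positivity
  rw [hsum, ← huniv, ← Finset.sum_erase_eq_sub (Finset.mem_powerset.mpr (Finset.Subset.refl _))]
  calc |∑ t ∈ (Finset.univ : Finset J).powerset.erase Finset.univ, term t|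
      ≤ ∑ t ∈ (Finset.univ : Finset J).powerset.erase Finset.univ, |term t| :=
        Finset.abs_sum_le_sum_abs _ _
    _ ≤ ∑ _t ∈ (Finset.univ : Finset J).powerset.erase Finset.univ, X ^ 2 * a ^ (n - 2) :=
        Finset.sum_le_sum fun t ht => hbound t (Finset.ne_of_mem_erase ht)
    _ = (((Finset.univ : Finset J).powerset.erase Finset.univ).card : ℝ)
          * (X ^ 2 * a ^ (n - 2)) := by
        rw [Finset.sum_const, nsmul_eq_mul]
    _ ≤ 2 ^ n * (X ^ 2 * a ^ (n - 2)) := by
        apply mul_le_mul_of_nonneg_right _ (by positivity)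
        have : ((Finset.univ : Finset J).powerset.erase Finset.univ).card ≤ 2 ^ n := by
          calc ((Finset.univ : Finset J).powerset.erase Finset.univ).card
              ≤ (Finset.univ : Finset J).powerset.card := Finset.card_le_card (Finset.erase_subset _ _)
            _ = 2 ^ n := by rw [Finset.card_powerset, Finset.card_univ]
        exact_mod_cast this

end

/-! ## Finite probability vectors ("numbers only") -/

section finite

variable {Ω : Type*} [Fintype Ω]

/-- a finite probability vector is a probability measure (discrete sigma-algebra): there is a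
probability measure whose integrals are the weighted sums. -/
theorem l13_fin_meas (w : Ω → ℝ) (hw0 : ∀ ω, 0 ≤ w ω) (hw1 : ∑ ω, w ω = 1) :
    ∃ P : @Measure Ω ⊤, @IsProbabilityMeasure Ω ⊤ P ∧
      ∀ f : Ω → ℝ, @integral Ω ℝ _ _ ⊤ P f = ∑ ω, w ω * f ω := by
  letI : MeasurableSpace Ω := ⊤
  have hsum : ∑ ω, ENNReal.ofReal (w ω) = 1 := by
    rw [← ENNReal.ofReal_sum_of_nonneg (fun ω _ => hw0 ω), hw1, ENNReal.ofReal_one]
  refine ⟨(PMF.ofFintype (fun ω => ENNReal.ofReal (w ω)) hsum).toMeasure, inferInstance, ?_⟩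
  intro f
  rw [PMF.integral_eq_sum]
  apply Finset.sum_congr rfl
  intro ω _
  rw [PMF.ofFintype_apply, ENNReal.toReal_ofReal (hw0 ω), smul_eq_mul]

theorem l13_fin_rv {P : @Measure Ω ⊤} {f : Ω → ℝ} {M : ℝ} (h : ∀ ω, |f ω| ≤ M) :
    @L13Rv Ω ⊤ P f M := by
  letI : MeasurableSpace Ω := ⊤
  exact ⟨(measurable_from_top (f := f)).aestronglyMeasurable, h⟩

variable (w : Ω → ℝ) (hw0 : ∀ ω, 0 ≤ w ω) (hw1 : ∑ ω, w ω = 1)

include hw0 hw1 in
/-- Hoelder, finite form. -/
theorem l13f_holder {J : Type*} [Fintype J] (T : J → Ω → ℝ) (B : J → ℝ) (hB0 : ∀ i, 0 ≤ B i)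
    (hn0 : 0 < Fintype.card J)
    (hmom : ∀ i, ∑ ω, w ω * |T i ω| ^ (Fintype.card J) ≤ B i ^ (Fintype.card J)) :
    ∑ ω, w ω * ∏ i, |T i ω| ≤ ∏ i, B i := by
  letI : MeasurableSpace Ω := ⊤
  obtain ⟨P, hP, hint⟩ := l13_fin_meas w hw0 hw1
  have hM : ∀ i, ∃ M, ∀ ω, |T i ω| ≤ M := fun i =>
    ⟨∑ ω, |T i ω|, fun ω => Finset.single_le_sum (f := fun ω => |T i ω|)
      (fun _ _ => abs_nonneg _) (Finset.mem_univ ω)⟩
  choose M hMb using hM
  have h := l13_holder (P := P) T M (fun i => l13_fin_rv (hMb i)) B hB0 hn0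
    (fun i => by rw [hint]; exact hmom i)
  rw [hint] at h
  exact h

include hw0 hw1 in
/-- truncation, finite form. -/
theorem l13f_trunc {R : Type*} [Fintype R] {F : Ω → ℝ} {MF : ℝ} (hF : ∀ ω, |F ω| ≤ MF)
    (g : R → Ω → ℝ) (M : R → ℝ) (hg : ∀ i ω, |g i ω| ≤ M i) (th : R → ℝ)
    (hth : ∀ i, 0 < th i) (p : ℕ) :
    ∑ ω, w ω * |F ω * ∏ i, g i ω|
      ≤ (∏ i, th i) * ∑ ω, w ω * |F ω|
        + MF * (∏ i, M i) * ∑ i, (∑ ω, w ω * |g i ω| ^ p) / th i ^ p := by
  letI : MeasurableSpace Ω := ⊤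
  obtain ⟨P, hP, hint⟩ := l13_fin_meas w hw0 hw1
  have h := l13_trunc (P := P) (l13_fin_rv hF) g M (fun i => l13_fin_rv (hg i)) th hth p
  simp_rw [hint] at h
  exact h

include hw0 hw1 in
/-- two changes, finite form. -/
theorem l13f_two_changes {J : Type*} [Fintype J] [DecidableEq J] (A ch : J → Ω → ℝ) (a X : ℝ)
    (hX0 : 0 ≤ X) (hXa : X ≤ a) (hn : 2 ≤ Fintype.card J)
    (hAm : ∀ i, ∑ ω, w ω * |A i ω| ^ (Fintype.card J) ≤ a ^ (Fintype.card J))
    (hcm : ∀ i, ∑ ω, w ω * |ch i ω| ^ (Fintype.card J) ≤ X ^ (Fintype.card J))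
    (hone : ∀ i, ∑ ω, w ω * (ch i ω * ∏ i' ∈ Finset.univ.erase i, A i' ω) = 0) :
    |∑ ω, w ω * ∏ i, (A i ω + ch i ω) - ∑ ω, w ω * ∏ i, A i ω|
      ≤ 2 ^ (Fintype.card J) * (X ^ 2 * a ^ (Fintype.card J - 2)) := by
  letI : MeasurableSpace Ω := ⊤
  obtain ⟨P, hP, hint⟩ := l13_fin_meas w hw0 hw1
  set M : ℝ := ∑ i, ∑ ω, (|A i ω| + |ch i ω|) with hMdef
  have hb : ∀ i ω, |A i ω| + |ch i ω| ≤ M := by
    intro i ω
    calc |A i ω| + |ch i ω| ≤ ∑ ω, (|A i ω| + |ch i ω|) :=
          Finset.single_le_sum (f := fun ω => |A i ω| + |ch i ω|)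
            (fun _ _ => add_nonneg (abs_nonneg _) (abs_nonneg _)) (Finset.mem_univ ω)
      _ ≤ M := Finset.single_le_sum (f := fun i => ∑ ω, (|A i ω| + |ch i ω|))
            (fun _ _ => Finset.sum_nonneg fun _ _ => add_nonneg (abs_nonneg _) (abs_nonneg _))
            (Finset.mem_univ i)
  have h := l13_two_changes (P := P) A ch M
    (fun i => l13_fin_rv fun ω => le_trans (le_add_of_nonneg_right (abs_nonneg _)) (hb i ω))
    (fun i => l13_fin_rv fun ω => le_trans (le_add_of_nonneg_left (abs_nonneg _)) (hb i ω))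
    a X hX0 hXa hn (fun i => by rw [hint]; exact hAm i) (fun i => by rw [hint]; exact hcm i)
    (fun i => by rw [hint]; exact hone i)
  simp_rw [hint] at h
  exact h

end finite

end Claimed.Agent.R286
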