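/-
OWNER helper30.  TEX[LL:exp:lem-centered-count]
Row 286, package L13: LL Lemma 9.1 (Centered allocation estimate), ABSTRACT FORM WITH FACTORS.
One instance, fine level, "numbers only": the positive law of a tree is a finite probability
vector `w e v o` on the spin configurations `Ω` of its leaves (projected factors = spin tests on
the truncated tree, design D3 of origin/helper60:notes/R286/LL09_DAG_60.md).

  `C : L13CC ι Lv O`   weights, bands, envelope (file CC.lean); here ALL assigned masses are >= x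
                       (`cc_high`) or one assigned vertex is below x (`cc_low`);
  `J`                  the pair factors, `sig i` = vertex of the factor `i`, `St` = stochastic ones;
  `e : Bool`           ensemble (`false` = untilted, `true` = tilted);
  `X e v o i`          the factor as a function of the configuration;
  `T e v o`            `= nu^e_tau [ prod_i X_i ]`.

IMPORTS (hypotheses):  (D2) moments `hmom` (both ensembles, orders `card J` and `p0`),
  (D7)/(D9) integrated second moments about `S`: `hvar`, `hDsum`,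
  centred estimates `Zhyp` (owner of their proof: helper64, file L09/CCCen.lean):
     `hcenA`  all stochastic factors at ONE vertex (difference of the two ensembles),
     `hcenC`  two vertices, the LATER one is a linear stochastic singleton above the lower band, at most
              ONE stochastic factor at the earlier vertex (each ensemble separately; Remark "earlier pair").
  `Kz >= 1` = the constant of the centred estimates (parameter of `Zhyp`).
EXPORT: `L13Fac.cc_high`, `L13Fac.cc_low` = the two contributions of (E3).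
-/
import Mathlib
import Claimed.Agent.R286.L09.CC
import Claimed.Agent.R286.L09.Prob

set_option linter.unusedSectionVars false

namespace Claimed.Agent.R286

open Finset

/-- the (already integrated) centred estimate at the vertex `s0`, normalised by `nu s0 = dv/r_s0`:
the other vertices are frozen, the coefficient `c` is arbitrary; `Kz` = the constant of the centred estimate. -/
def L13CC.Zhyp {ι Lv O : Type*} [Fintype ι] [DecidableEq ι] [Fintype Lv] [Fintype O]
    (C : L13CC ι Lv O) (s0 : ι) (T : (ι → Lv) → O → ℝ) (Kz err : ℝ) : Prop :=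
  ∀ (v : ι → Lv) (o : O) (c : Lv → ℝ), (∀ j, |c j| ≤ C.nu s0 j) →
    (∀ j, C.H (Function.update v s0 j) o = 0 → c j = 0) →
    |∑ j, c j * T (Function.update v s0 j) o|
      ≤ Kz * (C.S.gB / C.a s0 * l13_P C.S.Y (C.a s0 * C.S.Y) (C.k s0))
          * ∏ s ∈ Finset.univ.erase s0, C.env s (v s) ^ (C.k s) + err

/-- the factors of one term. -/
structure L13Fac {ι Lv O : Type*} [Fintype ι] [DecidableEq ι] [Fintype Lv] [Fintype O]
    (C : L13CC ι Lv O)
    (J Ω : Type*) [Fintype J] [Fintype Ω] where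
  sig : J → ι
  St : Finset J
  w : Bool → (ι → Lv) → O → Ω → ℝ
  X : Bool → (ι → Lv) → O → J → Ω → ℝ
  phi : J → Lv → ℝ
  /-- uniform bound of the factors -/
  M : ℝ
  /-- constant of the moment bounds (D2); the truncation level is `Lo * env`, `Lm <= Lo` -/
  Lm : ℝ
  /-- moment order used for the tails -/
  p0 : ℕ
  hM0 : 0 ≤ M
  hLm0 : 0 < Lm
  hLm : Lm ≤ C.Lo
  hsig : ∀ s, C.k s = (Finset.univ.filter fun i => sig i = s).card
  hw0 : ∀ e v o ω, 0 ≤ w e v o ω
  hw1 : ∀ e v o, ∑ ω, w e v o ω = 1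
  hdet : ∀ e v o i ω, i ∉ St → X e v o i ω = phi i (v (sig i))
  hphi : ∀ i k, i ∉ St → C.nu (sig i) k ≠ 0 → |phi i k| ≤ Lm * C.env (sig i) k
  hM : ∀ e v o i ω, C.H v o ≠ 0 → |X e v o i ω| ≤ M
  henvpos : ∀ s k, C.nu s k ≠ 0 → 0 < C.env s k
  hmom : ∀ e v o i, C.H v o ≠ 0 → i ∈ St → ∀ n, n = Fintype.card J ∨ n = p0 →
    ∑ ω, w e v o ω * |X e v o i ω| ^ n ≤ (Lm * C.env (sig i) (v (sig i))) ^ n

namespace L13Fac

variable {ι Lv O : Type*} [Fintype ι] [DecidableEq ι] [Fintype Lv] [Fintype O]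
variable {C : L13CC ι Lv O} {J Ω : Type*} [Fintype J] [DecidableEq J] [Fintype Ω]
variable (Fc : L13Fac C J Ω)

/-- the number `nu^e_tau [ prod_i X_i ]` -/
def T (e : Bool) (v : ι → Lv) (o : O) : ℝ := ∑ ω, Fc.w e v o ω * ∏ i, Fc.X e v o i ω

/-- the difference of the two ensembles -/
def dT (v : ι → Lv) (o : O) : ℝ := Fc.T true v o - Fc.T false v o

/-- the truncation error -/
noncomputable def terr : ℝ := Fc.M ^ (Fintype.card J) * (Fintype.card J) * (Fc.Lm / C.Lo) ^ Fc.p0

/-! ### preliminaries -/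

omit [DecidableEq ι] in
theorem _root_.Claimed.Agent.R286.L13CC.supp (C : L13CC ι Lv O) {v : ι → Lv} {o : O}
    (h : C.H v o ≠ 0) (s : ι) : C.nu s (v s) ≠ 0 := by
  intro h0
  apply h
  have h1 := C.hH v o
  rw [Finset.prod_eq_zero (Finset.mem_univ s) (by rw [h0, mul_zero]), mul_zero] at h1
  exact abs_nonpos_iff.mp h1

/-- regrouping a product over factors by vertices. -/
theorem regroup (E : Finset J) (g : ι → ℝ) :
    ∏ i ∈ E, g (Fc.sig i) = ∏ s, g s ^ (E.filter fun i => Fc.sig i = s).card := by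
  rw [← Finset.prod_fiberwise E Fc.sig]
  apply Finset.prod_congr rfl
  intro s _
  rw [← Finset.prod_const]
  apply Finset.prod_congr rfl
  intro i hi
  rw [(Finset.mem_filter.mp hi).2]

include Fc in
theorem card_J : Fintype.card J = C.j := by
  unfold L13CC.j
  simp_rw [Fc.hsig]
  rw [← Finset.card_univ]
  exact Finset.card_eq_sum_card_fiberwise (fun i _ => Finset.mem_univ (Fc.sig i))

include Fc in
theorem card_J_two : 2 ≤ Fintype.card J := by
  rw [Fc.card_J]; exact C.hj

/-- the moment bounds hold for all the factors. -/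
theorem mom_all (e : Bool) {v : ι → Lv} {o : O} (h : C.H v o ≠ 0) (i : J) (n : ℕ)
    (hn : n = Fintype.card J ∨ n = Fc.p0) :
    ∑ ω, Fc.w e v o ω * |Fc.X e v o i ω| ^ n
      ≤ (Fc.Lm * C.env (Fc.sig i) (v (Fc.sig i))) ^ n := by
  by_cases hi : i ∈ Fc.St
  · exact Fc.hmom e v o i h hi n hn
  · simp_rw [Fc.hdet e v o i _ hi]
    rw [← Finset.sum_mul, Fc.hw1, one_mul]
    exact pow_le_pow_left₀ (abs_nonneg _) (Fc.hphi i _ hi (C.supp h _)) n

/-- **raw pointwise bound** (Hoelder). -/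
theorem raw_pt (e : Bool) {v : ι → Lv} {o : O} (h : C.H v o ≠ 0) :
    |Fc.T e v o| ≤ C.Lo ^ C.j * ∏ s, C.env s (v s) ^ (C.k s) := by
  have hH := l13f_holder (Fc.w e v o) (Fc.hw0 e v o) (Fc.hw1 e v o) (Fc.X e v o)
    (fun i => Fc.Lm * C.env (Fc.sig i) (v (Fc.sig i)))
    (fun i => mul_nonneg Fc.hLm0.le (C.henv0 _ _)) (by have := Fc.card_J_two; omega)
    (fun i => Fc.mom_all e h i _ (Or.inl rfl))
  have h1 : |Fc.T e v o| ≤ ∑ ω, Fc.w e v o ω * ∏ i, |Fc.X e v o i ω| := by
    unfold T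
    refine (Finset.abs_sum_le_sum_abs _ _).trans (le_of_eq ?_)
    apply Finset.sum_congr rfl
    intro ω _
    rw [abs_mul, abs_of_nonneg (Fc.hw0 e v o ω), Finset.abs_prod]
  refine h1.trans (hH.trans ?_)
  rw [Finset.prod_mul_distrib, Finset.prod_const, Finset.card_univ, Fc.card_J]
  have h2 : ∏ i, C.env (Fc.sig i) (v (Fc.sig i)) = ∏ s, C.env s (v s) ^ (C.k s) := by
    rw [Fc.regroup Finset.univ (fun s => C.env s (v s))]
    apply Finset.prod_congr rfl
    intro s _
    rw [Fc.hsig s]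
  rw [h2]
  apply mul_le_mul_of_nonneg_right (pow_le_pow_left₀ Fc.hLm0.le Fc.hLm _)
  exact Finset.prod_nonneg fun s _ => pow_nonneg (C.henv0 _ _) _

theorem dT_le {v : ι → Lv} {o : O} {B : ℝ} (h : ∀ e, |Fc.T e v o| ≤ B) : |Fc.dT v o| ≤ 2 * B := by
  unfold dT
  have h1 := h true
  have h2 := h false
  calc |Fc.T true v o - Fc.T false v o| ≤ |Fc.T true v o| + |Fc.T false v o| := abs_sub _ _
    _ ≤ 2 * B := by linarith

theorem terr_nonneg : 0 ≤ Fc.terr := by
  unfold terr
  have := Fc.hM0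
  have h1 := Fc.hLm0
  have h2 := C.Lo_pos
  positivity

/-- **two selected stochastic factors**: Cauchy-Schwarz at fixed masses, the other factors
truncated at their envelopes. -/
theorem sel_pt (D : ι → Lv → ℝ) (hD0 : ∀ s k, 0 ≤ D s k)
    (hvar : ∀ e v o i, C.H v o ≠ 0 → i ∈ Fc.St →
      ∑ ω, Fc.w e v o ω * Fc.X e v o i ω ^ 2 ≤ D (Fc.sig i) (v (Fc.sig i)) ^ 2)
    (e : Bool) {v : ι → Lv} {o : O} (h : C.H v o ≠ 0) {i1 i2 : J} (h12 : i1 ≠ i2)
    (hi1 : i1 ∈ Fc.St) (hi2 : i2 ∈ Fc.St) :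
    |Fc.T e v o| ≤ C.Lo ^ C.j * (D (Fc.sig i1) (v (Fc.sig i1)) * D (Fc.sig i2) (v (Fc.sig i2))
        * ∏ i ∈ (Finset.univ.erase i1).erase i2, C.env (Fc.sig i) (v (Fc.sig i))) + Fc.terr := by
  set E : Finset J := (Finset.univ.erase i1).erase i2 with hE
  have hi2E : i2 ∈ Finset.univ.erase i1 := Finset.mem_erase.mpr ⟨h12.symm, Finset.mem_univ i2⟩
  have hcardE : E.card + 2 = Fintype.card J := by
    rw [hE, Finset.card_erase_of_mem hi2E, Finset.card_erase_of_mem (Finset.mem_univ i1),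
      Finset.card_univ]
    have := Fc.card_J_two
    omega
  have hsplit : ∀ ω, ∏ i, Fc.X e v o i ω
      = (Fc.X e v o i1 ω * Fc.X e v o i2 ω) * ∏ i : E, Fc.X e v o i ω := by
    intro ω
    rw [Finset.prod_coe_sort E (fun i => Fc.X e v o i ω),
      ← Finset.mul_prod_erase Finset.univ _ (Finset.mem_univ i1),
      ← Finset.mul_prod_erase (Finset.univ.erase i1) _ hi2E, mul_assoc]
  have hth : ∀ i : E, 0 < C.Lo * C.env (Fc.sig i) (v (Fc.sig i)) := fun i =>
    mul_pos C.Lo_pos (Fc.henvpos _ _ (C.supp h _))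
  have htr := l13f_trunc (Fc.w e v o) (Fc.hw0 e v o) (Fc.hw1 e v o)
    (F := fun ω => Fc.X e v o i1 ω * Fc.X e v o i2 ω) (MF := Fc.M * Fc.M)
    (fun ω => by
      rw [abs_mul]
      exact mul_le_mul (Fc.hM e v o i1 ω h) (Fc.hM e v o i2 ω h) (abs_nonneg _) Fc.hM0)
    (fun (i : E) ω => Fc.X e v o i ω) (fun _ => Fc.M) (fun i ω => Fc.hM e v o i ω h)
    (fun i : E => C.Lo * C.env (Fc.sig i) (v (Fc.sig i))) hth Fc.p0
  have h1 : |Fc.T e v o| ≤ ∑ ω, Fc.w e v o ω
      * |Fc.X e v o i1 ω * Fc.X e v o i2 ω * ∏ i : E, Fc.X e v o i ω| := by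
    unfold T
    refine (Finset.abs_sum_le_sum_abs _ _).trans (le_of_eq ?_)
    apply Finset.sum_congr rfl
    intro ω _
    rw [abs_mul, abs_of_nonneg (Fc.hw0 e v o ω), hsplit ω]
  -- (a) the thresholds
  have ha : ∏ i : E, (C.Lo * C.env (Fc.sig i) (v (Fc.sig i)))
      ≤ C.Lo ^ C.j * ∏ i ∈ E, C.env (Fc.sig i) (v (Fc.sig i)) := by
    rw [Finset.prod_coe_sort E (fun i => C.Lo * C.env (Fc.sig i) (v (Fc.sig i))),
      Finset.prod_mul_distrib, Finset.prod_const]
    apply mul_le_mul_of_nonneg_right _ (Finset.prod_nonneg fun i _ => C.henv0 _ _)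
    apply pow_le_pow_right₀ C.hLo
    rw [← Fc.card_J]
    omega
  -- (b) Cauchy-Schwarz
  have hb : ∑ ω, Fc.w e v o ω * |Fc.X e v o i1 ω * Fc.X e v o i2 ω|
      ≤ D (Fc.sig i1) (v (Fc.sig i1)) * D (Fc.sig i2) (v (Fc.sig i2)) := by
    have hcs := l13_wcs (Fc.w e v o) (fun ω => |Fc.X e v o i1 ω|) (fun ω => |Fc.X e v o i2 ω|)
      (Fc.hw0 e v o)
    simp only [sq_abs] at hcs
    simp_rw [abs_mul]
    refine hcs.trans ?_
    apply mul_le_mul _ _ (Real.sqrt_nonneg _) (hD0 _ _)
    · rw [← Real.sqrt_sq (hD0 (Fc.sig i1) (v (Fc.sig i1)))]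
      exact Real.sqrt_le_sqrt (hvar e v o i1 h hi1)
    · rw [← Real.sqrt_sq (hD0 (Fc.sig i2) (v (Fc.sig i2)))]
      exact Real.sqrt_le_sqrt (hvar e v o i2 h hi2)
  -- (c) the tails
  have hc : Fc.M * Fc.M * (∏ _i : E, Fc.M) * ∑ i : E, (∑ ω, Fc.w e v o ω * |Fc.X e v o i ω| ^ Fc.p0)
        / (C.Lo * C.env (Fc.sig i) (v (Fc.sig i))) ^ Fc.p0 ≤ Fc.terr := by
    have ht : ∀ i : E, (∑ ω, Fc.w e v o ω * |Fc.X e v o i ω| ^ Fc.p0)
        / (C.Lo * C.env (Fc.sig i) (v (Fc.sig i))) ^ Fc.p0 ≤ (Fc.Lm / C.Lo) ^ Fc.p0 := by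
      intro i
      have hpos := Fc.henvpos _ _ (C.supp h (Fc.sig i))
      rw [div_le_iff₀ (pow_pos (hth i) _)]
      refine (Fc.mom_all e h i _ (Or.inr rfl)).trans (le_of_eq ?_)
      rw [← mul_pow]
      congr 1
      have := C.Lo_pos
      field_simp
    have hs : ∑ i : E, (∑ ω, Fc.w e v o ω * |Fc.X e v o i ω| ^ Fc.p0)
        / (C.Lo * C.env (Fc.sig i) (v (Fc.sig i))) ^ Fc.p0
        ≤ (Fintype.card J : ℝ) * (Fc.Lm / C.Lo) ^ Fc.p0 := by
      calc _ ≤ ∑ _i : E, (Fc.Lm / C.Lo) ^ Fc.p0 := Finset.sum_le_sum fun i _ => ht i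
        _ = (E.card : ℝ) * (Fc.Lm / C.Lo) ^ Fc.p0 := by
            rw [Finset.sum_const, Finset.card_univ, Fintype.card_coe, nsmul_eq_mul]
        _ ≤ (Fintype.card J : ℝ) * (Fc.Lm / C.Lo) ^ Fc.p0 := by
            apply mul_le_mul_of_nonneg_right _ (pow_nonneg (div_pos Fc.hLm0 C.Lo_pos).le _)
            have : E.card ≤ Fintype.card J := by omega
            exact_mod_cast this
    have hMM : Fc.M * Fc.M * (∏ _i : E, Fc.M) = Fc.M ^ (Fintype.card J) := by
      rw [Finset.prod_const, Finset.card_univ, Fintype.card_coe, ← hcardE, pow_add]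
      ring
    rw [hMM]
    unfold terr
    rw [mul_assoc]
    exact mul_le_mul_of_nonneg_left hs (pow_nonneg Fc.hM0 _)
  have hDD : 0 ≤ D (Fc.sig i1) (v (Fc.sig i1)) * D (Fc.sig i2) (v (Fc.sig i2)) :=
    mul_nonneg (hD0 _ _) (hD0 _ _)
  calc |Fc.T e v o| ≤ _ := h1
    _ ≤ _ := htr
    _ ≤ (C.Lo ^ C.j * ∏ i ∈ E, C.env (Fc.sig i) (v (Fc.sig i)))
          * (D (Fc.sig i1) (v (Fc.sig i1)) * D (Fc.sig i2) (v (Fc.sig i2))) + Fc.terr := by
        apply add_le_add _ hc
        apply mul_le_mul ha hb (Finset.sum_nonneg fun ω _ =>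
          mul_nonneg (Fc.hw0 e v o ω) (abs_nonneg _))
        exact mul_nonneg (pow_pos C.Lo_pos _).le (Finset.prod_nonneg fun i _ => C.henv0 _ _)
    _ = _ := by ring

/-- **First contribution of (E3)**: an assigned vertex `s0` lies below `x` (so it is in the lower
band, and its normalised mass is at most `Lo x / Y`). -/
theorem cc_low (s0 : ι) (ha : C.a s0 = 1) (hx : ∑ j, C.nu s0 j ≤ C.Lo * (C.S.x / C.S.Y)) :
    |C.val Fc.dT| ≤ 2 * C.Lo ^ (2 * C.j + 3) * (C.S.lam * C.S.Y ^ 5 * (C.S.x / C.S.Y)) := by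
  have h := C.leaf_raw s0 ha hx Fc.dT (2 * C.Lo ^ C.j)
    (mul_nonneg zero_le_two (pow_pos C.Lo_pos _).le)
    (fun v o hv => by
      have := Fc.dT_le (fun e => Fc.raw_pt e hv)
      calc |Fc.dT v o| ≤ 2 * (C.Lo ^ C.j * ∏ s, C.env s (v s) ^ (C.k s)) := this
        _ = _ := by ring)
  refine h.trans (le_of_eq ?_)
  have : 2 * C.j + 3 = (C.j + 3) + C.j := by ring
  rw [this, pow_add (C.Lo) (C.j + 3) C.j]
  ring

/-! ### regrouping the selected products by vertices -/

theorem card_sel {i1 i2 : J} (h12 : i1 ≠ i2) (s : ι) :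
    (((Finset.univ.erase i1).erase i2).filter fun i => Fc.sig i = s).card
      + (if Fc.sig i1 = s then 1 else 0) + (if Fc.sig i2 = s then 1 else 0) = C.k s := by
  have hi2E : i2 ∈ Finset.univ.erase i1 := Finset.mem_erase.mpr ⟨h12.symm, Finset.mem_univ i2⟩
  rw [Fc.hsig s, Finset.card_filter, Finset.card_filter,
    ← Finset.add_sum_erase Finset.univ _ (Finset.mem_univ i1),
    ← Finset.add_sum_erase (Finset.univ.erase i1) _ hi2E]
  ring

theorem two_form (D : ι → Lv → ℝ) (v : ι → Lv) {i1 i2 : J} (h12 : i1 ≠ i2)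
    (hs : Fc.sig i1 ≠ Fc.sig i2) :
    D (Fc.sig i1) (v (Fc.sig i1)) * D (Fc.sig i2) (v (Fc.sig i2))
        * ∏ i ∈ (Finset.univ.erase i1).erase i2, C.env (Fc.sig i) (v (Fc.sig i))
      = ∏ s, (if s = Fc.sig i1 ∨ s = Fc.sig i2
          then C.env s (v s) ^ (C.k s - 1) * D s (v s) else C.env s (v s) ^ (C.k s)) := by
  rw [Fc.regroup _ (fun s => C.env s (v s)),
    ← l13_prod_gain_two hs (D (Fc.sig i1) (v (Fc.sig i1))) (D (Fc.sig i2) (v (Fc.sig i2))),
    ← Finset.prod_mul_distrib]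
  apply Finset.prod_congr rfl
  intro s _
  have hc := Fc.card_sel h12 s
  by_cases h1 : s = Fc.sig i1
  · subst h1
    have h2 : ¬ Fc.sig i2 = Fc.sig i1 := fun h => hs h.symm
    simp only [if_true, true_or, h2, if_false] at hc ⊢
    have : C.k (Fc.sig i1) - 1
        = (((Finset.univ.erase i1).erase i2).filter fun i => Fc.sig i = Fc.sig i1).card := by
      omega
    rw [this]; ring
  · by_cases h2 : s = Fc.sig i2
    · subst h2
      simp only [hs, if_false, if_true, or_true, h1] at hc ⊢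
      have : C.k (Fc.sig i2) - 1
          = (((Finset.univ.erase i1).erase i2).filter fun i => Fc.sig i = Fc.sig i2).card := by
        omega
      rw [this]; ring
    · have h1' : ¬ Fc.sig i1 = s := fun h => h1 h.symm
      have h2' : ¬ Fc.sig i2 = s := fun h => h2 h.symm
      simp only [h1, h2, h1', h2', if_false, or_self, add_zero] at hc ⊢
      rw [hc]; ring

theorem dup_form (D : ι → Lv → ℝ) (v : ι → Lv) {i1 i2 : J} (h12 : i1 ≠ i2)
    (hs : Fc.sig i1 = Fc.sig i2) :
    D (Fc.sig i1) (v (Fc.sig i1)) * D (Fc.sig i2) (v (Fc.sig i2))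
        * ∏ i ∈ (Finset.univ.erase i1).erase i2, C.env (Fc.sig i) (v (Fc.sig i))
      = ∏ s, (if s = Fc.sig i1
          then C.env s (v s) ^ (C.k s - 2) * D (Fc.sig i1) (v s) ^ 2
          else C.env s (v s) ^ (C.k s)) := by
  rw [Fc.regroup _ (fun s => C.env s (v s)), ← hs,
    ← l13_prod_gain_one (Fc.sig i1) (D (Fc.sig i1) (v (Fc.sig i1)) * D (Fc.sig i1) (v (Fc.sig i1))),
    ← Finset.prod_mul_distrib]
  apply Finset.prod_congr rfl
  intro s _
  have hc := Fc.card_sel h12 s
  by_cases h1 : s = Fc.sig i1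
  · subst h1
    simp only [← hs, if_true] at hc ⊢
    have : C.k (Fc.sig i1) - 2
        = (((Finset.univ.erase i1).erase i2).filter fun i => Fc.sig i = Fc.sig i1).card := by
      omega
    rw [this]; ring
  · have h1' : ¬ Fc.sig i1 = s := fun h => h1 h.symm
    simp only [← hs, h1, h1', if_false, add_zero] at hc ⊢
    rw [hc]; ring

theorem k_ge_two_of_pair {i1 i2 : J} (h12 : i1 ≠ i2) (hs : Fc.sig i1 = Fc.sig i2) :
    2 ≤ C.k (Fc.sig i1) := by
  have hc := Fc.card_sel h12 (Fc.sig i1)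
  simp only [← hs, if_true] at hc
  omega

/-! ### the four ways to conclude -/

/-- the final bound of `cc_high` -/
noncomputable def fin (errZ : ℝ) : ℝ :=
  2 * C.Lo ^ (2 * C.j + 4) * (C.S.lam * C.S.Y ^ 5 * C.S.gB)
    + 2 * C.Lo ^ (Fintype.card ι + 2) * (C.pre * C.kap * (Fc.terr + errZ))

/-- the final bound of `cc_high`, with the constant `Kz` of the centred estimates -/
noncomputable def finK (Kz errZ : ℝ) : ℝ :=
  2 * Kz * C.Lo ^ (2 * C.j + 4) * (C.S.lam * C.S.Y ^ 5 * C.S.gB)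
    + 2 * C.Lo ^ (Fintype.card ι + 2) * (C.pre * C.kap * (Fc.terr + errZ))

include Fc in
theorem G_nonneg : 0 ≤ C.S.lam * C.S.Y ^ 5 * C.S.gB :=
  (mul_pos (mul_pos C.S.hlam (pow_pos C.S.Y_pos 5)) C.S.gB_pos).le

theorem use_two (D : ι → Lv → ℝ) (hD0 : ∀ s k, 0 ≤ D s k)
    (hvar : ∀ e v o i, C.H v o ≠ 0 → i ∈ Fc.St →
      ∑ ω, Fc.w e v o ω * Fc.X e v o i ω ^ 2 ≤ D (Fc.sig i) (v (Fc.sig i)) ^ 2)
    (hDsum : ∀ s, ∑ k, C.nu s k * D s k ^ 2 ≤ C.Lo * (C.S.gB * C.S.Y ^ 2 / C.a s))
    {errZ : ℝ} (herrZ : 0 ≤ errZ) {i1 i2 : J} (hi1 : i1 ∈ Fc.St) (hi2 : i2 ∈ Fc.St)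
    (hs : Fc.sig i1 ≠ Fc.sig i2)
    (hpat : l13_F C.A C.a C.k * C.kap
      * (Real.sqrt (C.S.gB * C.a (Fc.sig i1)) * Real.sqrt (C.S.gB * C.a (Fc.sig i2))) ≤ C.S.gB) :
    |C.val Fc.dT| ≤ Fc.fin errZ := by
  have h12 : i1 ≠ i2 := fun h => hs (by rw [h])
  have h := C.leaf_two hs D hD0 (hDsum _) (hDsum _) hpat Fc.dT (2 * C.Lo ^ C.j) (2 * Fc.terr)
    (mul_nonneg zero_le_two (pow_pos C.Lo_pos _).le) (mul_nonneg zero_le_two Fc.terr_nonneg)
    (fun v o hv => by
      have := Fc.dT_le (fun e => Fc.sel_pt D hD0 hvar e hv h12 hi1 hi2)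
      rw [Fc.two_form D v h12 hs] at this
      refine this.trans (le_of_eq ?_)
      ring)
  refine h.trans ?_
  unfold fin
  have e1 : 2 * C.j + 4 = (C.j + 4) + C.j := by ring
  rw [e1, pow_add (C.Lo) (C.j + 4) C.j]
  have hpk : 0 ≤ C.Lo ^ (Fintype.card ι + 2) * (C.pre * C.kap) :=
    mul_nonneg (pow_pos C.Lo_pos _).le (mul_nonneg C.pre_pos.le C.hkap0)
  nlinarith [mul_nonneg hpk herrZ]

theorem use_dup (D : ι → Lv → ℝ) (hD0 : ∀ s k, 0 ≤ D s k)
    (hvar : ∀ e v o i, C.H v o ≠ 0 → i ∈ Fc.St →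
      ∑ ω, Fc.w e v o ω * Fc.X e v o i ω ^ 2 ≤ D (Fc.sig i) (v (Fc.sig i)) ^ 2)
    (hDsum : ∀ s, ∑ k, C.nu s k * D s k ^ 2 ≤ C.Lo * (C.S.gB * C.S.Y ^ 2 / C.a s))
    {errZ : ℝ} (herrZ : 0 ≤ errZ) {i1 i2 : J} (h12 : i1 ≠ i2) (hi1 : i1 ∈ Fc.St)
    (hi2 : i2 ∈ Fc.St) (hs : Fc.sig i1 = Fc.sig i2)
    (hpat : l13_F C.A C.a C.k * C.kap * (C.S.gB * C.a (Fc.sig i1)) ≤ C.S.gB) :
    |C.val Fc.dT| ≤ Fc.fin errZ := by
  have h := C.leaf_dup (Fc.sig i1) (Fc.k_ge_two_of_pair h12 hs) (D (Fc.sig i1)) (hDsum _) hpat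
    Fc.dT (2 * C.Lo ^ C.j) (2 * Fc.terr)
    (mul_nonneg zero_le_two (pow_pos C.Lo_pos _).le) (mul_nonneg zero_le_two Fc.terr_nonneg)
    (fun v o hv => by
      have := Fc.dT_le (fun e => Fc.sel_pt D hD0 hvar e hv h12 hi1 hi2)
      rw [Fc.dup_form D v h12 hs] at this
      refine this.trans (le_of_eq ?_)
      ring)
  refine h.trans ?_
  unfold fin
  have e1 : C.Lo ^ (2 * C.j + 4) = C.Lo ^ (C.j + 3) * C.Lo ^ C.j * C.Lo := by
    rw [← pow_add, ← pow_succ]
    congr 1
    ring
  rw [e1]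
  have hpk : 0 ≤ C.Lo ^ (Fintype.card ι + 2) * (C.pre * C.kap) :=
    mul_nonneg (pow_pos C.Lo_pos _).le (mul_nonneg C.pre_pos.le C.hkap0)
  have hG : 0 ≤ C.Lo ^ (C.j + 3) * C.Lo ^ C.j * (C.S.lam * C.S.Y ^ 5 * C.S.gB) :=
    mul_nonneg (mul_pos (pow_pos C.Lo_pos _) (pow_pos C.Lo_pos _)).le Fc.G_nonneg
  nlinarith [mul_nonneg hpk herrZ, mul_nonneg hG (sub_nonneg.mpr C.hLo)]

include Fc in
theorem cen_bound (T : (ι → Lv) → O → ℝ) {Kz errZ : ℝ} (hKz : 0 < Kz) (herrZ : 0 ≤ errZ) (s0 : ι)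
    (hZ : C.Zhyp s0 T Kz errZ) :
    |C.val T| ≤ Kz * C.Lo ^ (C.j + 2) * (C.S.lam * C.S.Y ^ 5 * C.S.gB)
        + C.Lo ^ (Fintype.card ι + 2) * (C.pre * C.kap * errZ) := by
  have hP := l13_P_nonneg (Y := C.S.Y) (C.r_pos s0).le (C.k s0)
  have hLo := C.Lo_pos
  set q : ℝ := C.Lo / Kz with hq
  have hq0 : 0 < q := div_pos hLo hKz
  have hqK : q * Kz = C.Lo := by rw [hq]; field_simp
  have h := C.leaf_center s0 (fun v o => q * T v o) _ (q * errZ)
    (mul_nonneg C.Lo_pos.le (mul_nonneg (div_pos C.S.gB_pos (C.a_pos s0)).le hP))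
    (mul_nonneg hq0.le herrZ) le_rfl
    (fun v o c hc hc0 => by
      have h1 := hZ v o c hc hc0
      have e : ∑ j, c j * (q * T (Function.update v s0 j) o)
          = q * ∑ j, c j * T (Function.update v s0 j) o := by
        rw [Finset.mul_sum]
        exact Finset.sum_congr rfl fun j _ => by ring
      rw [e, abs_mul, abs_of_pos hq0]
      calc q * |∑ j, c j * T (Function.update v s0 j) o|
          ≤ q * (Kz * (C.S.gB / C.a s0 * l13_P C.S.Y (C.a s0 * C.S.Y) (C.k s0))
              * ∏ s ∈ Finset.univ.erase s0, C.env s (v s) ^ (C.k s) + errZ) :=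
            mul_le_mul_of_nonneg_left h1 hq0.le
        _ = (q * Kz) * (C.S.gB / C.a s0 * l13_P C.S.Y (C.a s0 * C.S.Y) (C.k s0))
              * ∏ s ∈ Finset.univ.erase s0, C.env s (v s) ^ (C.k s) + q * errZ := by ring
        _ = _ := by rw [hqK])
  have e2 : C.val (fun v o => q * T v o) = q * C.val T := by
    unfold L13CC.val
    rw [Finset.mul_sum]
    refine Finset.sum_congr rfl fun v _ => ?_
    rw [Finset.mul_sum]
    exact Finset.sum_congr rfl fun o _ => by ring
  rw [e2, abs_mul, abs_of_pos hq0] at h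
  have h3 : q * |C.val T| ≤ q * (Kz * C.Lo ^ (C.j + 2) * (C.S.lam * C.S.Y ^ 5 * C.S.gB)
        + C.Lo ^ (Fintype.card ι + 2) * (C.pre * C.kap * errZ)) := by
    refine h.trans (le_of_eq ?_)
    have : C.Lo ^ (C.j + 3) = (q * Kz) * C.Lo ^ (C.j + 2) := by rw [hqK]; ring
    rw [this]
    ring
  exact le_of_mul_le_mul_left h3 hq0

theorem fin_le_finK {Kz : ℝ} (hKz : 1 ≤ Kz) (errZ : ℝ) : Fc.fin errZ ≤ Fc.finK Kz errZ := by
  unfold fin finK
  have h1 : 0 ≤ C.Lo ^ (2 * C.j + 4) * (C.S.lam * C.S.Y ^ 5 * C.S.gB) :=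
    mul_nonneg (pow_pos C.Lo_pos _).le Fc.G_nonneg
  nlinarith [mul_nonneg (sub_nonneg.mpr hKz) h1]

theorem half_le_fin {Kz errZ : ℝ} (hKz : 0 ≤ Kz) (_herrZ : 0 ≤ errZ) :
    2 * (Kz * C.Lo ^ (C.j + 2) * (C.S.lam * C.S.Y ^ 5 * C.S.gB)
        + C.Lo ^ (Fintype.card ι + 2) * (C.pre * C.kap * errZ)) ≤ Fc.finK Kz errZ := by
  unfold finK
  have h1 : C.Lo ^ (C.j + 2) ≤ C.Lo ^ (2 * C.j + 4) := pow_le_pow_right₀ C.hLo (by omega)
  have hpk : 0 ≤ C.Lo ^ (Fintype.card ι + 2) * (C.pre * C.kap) :=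
    mul_nonneg (pow_pos C.Lo_pos _).le (mul_nonneg C.pre_pos.le C.hkap0)
  have h2 := mul_le_mul_of_nonneg_left (mul_le_mul_of_nonneg_right h1 Fc.G_nonneg) hKz
  nlinarith [mul_nonneg hpk Fc.terr_nonneg]

theorem use_cen_d {Kz errZ : ℝ} (hKz : 0 < Kz) (herrZ : 0 ≤ errZ) (s0 : ι)
    (hZ : C.Zhyp s0 Fc.dT Kz errZ) : |C.val Fc.dT| ≤ Fc.finK Kz errZ := by
  have h := Fc.cen_bound Fc.dT hKz herrZ s0 hZ
  have h2 := Fc.half_le_fin hKz.le herrZ
  have h0 : 0 ≤ Kz * C.Lo ^ (C.j + 2) * (C.S.lam * C.S.Y ^ 5 * C.S.gB)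
        + C.Lo ^ (Fintype.card ι + 2) * (C.pre * C.kap * errZ) := (abs_nonneg _).trans h
  linarith

theorem use_cen_e {Kz errZ : ℝ} (hKz : 0 < Kz) (herrZ : 0 ≤ errZ) (s0 : ι)
    (hZ : ∀ e, C.Zhyp s0 (Fc.T e) Kz errZ) : |C.val Fc.dT| ≤ Fc.finK Kz errZ := by
  have h1 := Fc.cen_bound (Fc.T true) hKz herrZ s0 (hZ true)
  have h2 := Fc.cen_bound (Fc.T false) hKz herrZ s0 (hZ false)
  have h3 := Fc.half_le_fin hKz.le herrZ
  have e : C.val Fc.dT = C.val (Fc.T true) - C.val (Fc.T false) := by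
    unfold L13CC.val dT
    rw [← Finset.sum_sub_distrib]
    apply Finset.sum_congr rfl
    intro v _
    rw [← Finset.sum_sub_distrib]
    apply Finset.sum_congr rfl
    intro o _
    ring
  rw [e]
  calc |C.val (Fc.T true) - C.val (Fc.T false)|
      ≤ |C.val (Fc.T true)| + |C.val (Fc.T false)| := abs_sub _ _
    _ ≤ _ := by linarith

theorem fin_nonneg {errZ : ℝ} (herrZ : 0 ≤ errZ) : 0 ≤ Fc.fin errZ := by
  unfold fin
  have h1 := Fc.G_nonneg
  have h2 := Fc.terr_nonneg
  have h3 := C.pre_pos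
  have h4 := C.hkap0
  have h5 := C.Lo_pos
  positivity

theorem uniq_factor {s : ι} (hk : C.k s = 1) {i i' : J} (h : Fc.sig i = s) (h' : Fc.sig i' = s) :
    i = i' := by
  have hc : (Finset.univ.filter fun i => Fc.sig i = s).card = 1 := by rw [← Fc.hsig, hk]
  exact Finset.card_le_one.mp (le_of_eq hc) i (Finset.mem_filter.mpr ⟨Finset.mem_univ _, h⟩) i'
    (Finset.mem_filter.mpr ⟨Finset.mem_univ _, h'⟩)

omit [DecidableEq ι] in
theorem _root_.Claimed.Agent.R286.l13_two_elems (hl : Fintype.card ι = 2) {s1 s2 : ι}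
    (hs : s1 ≠ s2) (s : ι) : s = s1 ∨ s = s2 := by
  classical
  obtain ⟨p, q, hpq, huniv⟩ := Finset.card_eq_two.mp (by rw [Finset.card_univ]; exact hl :
    (Finset.univ : Finset ι).card = 2)
  have hmem : ∀ u : ι, u = p ∨ u = q := by
    intro u
    have : u ∈ (Finset.univ : Finset ι) := Finset.mem_univ u
    rw [huniv] at this
    simpa using this
  rcases hmem s with rfl | rfl <;> rcases hmem s1 with rfl | rfl <;>
    rcases hmem s2 with rfl | rfl <;> simp_all

/-- **Second contribution of (E3)**: all assigned masses are at least `x`.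
`late` = the vertex of largest mass on the support of `H` (the order of the masses is fixed). -/
theorem cc_high (D : ι → Lv → ℝ) (hD0 : ∀ s k, 0 ≤ D s k)
    (hvar : ∀ e v o i, C.H v o ≠ 0 → i ∈ Fc.St →
      ∑ ω, Fc.w e v o ω * Fc.X e v o i ω ^ 2 ≤ D (Fc.sig i) (v (Fc.sig i)) ^ 2)
    (hDsum : ∀ s, ∑ k, C.nu s k * D s k ^ 2 ≤ C.Lo * (C.S.gB * C.S.Y ^ 2 / C.a s))
    (late : ι) (hlate : C.a late = C.A) (Kz errZ : ℝ) (hKz : 1 ≤ Kz) (herrZ : 0 ≤ errZ)
    (hcenA : ∀ s0, (∀ i ∈ Fc.St, Fc.sig i = s0) → Fc.St.Nonempty →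
      (1 < C.a s0 ∨ Fc.St.card = 1) → C.Zhyp s0 Fc.dT Kz errZ)
    (hcenC : Fintype.card ι = 2 → C.k late = 1 → 1 < C.a late →
      (∀ i, Fc.sig i = late → i ∈ Fc.St) → (Fc.St.filter fun i => Fc.sig i ≠ late).card ≤ 1 →
      ∀ e, C.Zhyp late (Fc.T e) Kz errZ) :
    |C.val Fc.dT| ≤ 2 * Kz * C.Lo ^ (2 * C.j + 4) * (C.S.lam * C.S.Y ^ 5 * C.S.gB)
        + 2 * C.Lo ^ (Fintype.card ι + 2) * (C.pre * C.kap * (Fc.terr + errZ)) := by
  change |C.val Fc.dT| ≤ Fc.finK Kz errZ
  have hgB := C.S.gB_pos.le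
  have hKz0 : 0 < Kz := lt_of_lt_of_le zero_lt_one hKz
  have up : |C.val Fc.dT| ≤ Fc.fin errZ → |C.val Fc.dT| ≤ Fc.finK Kz errZ :=
    fun h => h.trans (Fc.fin_le_finK hKz errZ)
  by_cases hSt : Fc.St = ∅
  · -- fully deterministic products cancel
    have hz : ∀ v o, Fc.dT v o = 0 := by
      intro v o
      have hT : ∀ e, Fc.T e v o = ∏ i, Fc.phi i (v (Fc.sig i)) := by
        intro e
        unfold T
        have : ∀ ω, ∏ i, Fc.X e v o i ω = ∏ i, Fc.phi i (v (Fc.sig i)) := fun ω =>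
          Finset.prod_congr rfl (fun i _ => Fc.hdet e v o i ω (by rw [hSt]; simp))
        simp_rw [this]
        rw [← Finset.sum_mul, Fc.hw1, one_mul]
      unfold dT
      rw [hT, hT, sub_self]
    have : C.val Fc.dT = 0 := by
      unfold L13CC.val
      simp [hz]
    rw [this, abs_zero]
    exact (Fc.fin_nonneg herrZ).trans (Fc.fin_le_finK hKz errZ)
  · have hne : Fc.St.Nonempty := Finset.nonempty_iff_ne_empty.mpr hSt
    by_cases hone : ∃ s0, ∀ i ∈ Fc.St, Fc.sig i = s0
    · -- all the stochastic factors at one vertex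
      obtain ⟨s0, hs0⟩ := hone
      by_cases hc : 1 < C.a s0 ∨ Fc.St.card = 1
      · exact Fc.use_cen_d hKz0 herrZ s0 (hcenA s0 hs0 hne hc)
      · push Not at hc
        obtain ⟨ha, hcard⟩ := hc
        have ha1 : C.a s0 = 1 := le_antisymm ha (C.h1 s0)
        have h2 : 1 < Fc.St.card := by
          have := hne.card_pos
          omega
        obtain ⟨i1, hi1, i2, hi2, h12⟩ := Finset.one_lt_card.mp h2
        have hs : Fc.sig i1 = Fc.sig i2 := by rw [hs0 i1 hi1, hs0 i2 hi2]
        apply up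
        apply Fc.use_dup D hD0 hvar hDsum herrZ h12 hi1 hi2 hs
        rw [hs0 i1 hi1, ha1, mul_one]
        have := l13_table_le_one C.h1 C.hA C.hmax C.hk C.hj C.hkap0 C.hkap1 C.hkap2 s0 ha1
        calc l13_F C.A C.a C.k * C.kap * C.S.gB ≤ 1 * C.S.gB :=
              mul_le_mul_of_nonneg_right this hgB
          _ = C.S.gB := one_mul _
    · -- stochastic factors at several vertices
      push Not at hone
      obtain ⟨i1, hi1⟩ := hne
      obtain ⟨i2, hi2, hs21⟩ := hone (Fc.sig i1)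
      have hs : Fc.sig i1 ≠ Fc.sig i2 := fun h => hs21 h.symm
      by_cases hgen : l13_generic C.k
      · exact up (Fc.use_two D hD0 hvar hDsum herrZ hi1 hi2 hs
          (l13_leaf_two C.h1 C.hA C.hk hgen C.hkap0 C.hkap1 hgB _ _))
      · have hcard2 : 1 < Fintype.card ι := by
          rw [← Finset.card_univ]
          exact Finset.one_lt_card.mpr ⟨_, Finset.mem_univ _, _, Finset.mem_univ _, hs⟩
        unfold l13_generic at hgen
        push Not at hgen
        have hl : Fintype.card ι = 2 := by omega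
        have hj4 : ∑ s, C.k s < 4 := hgen.2 hl
        have hel := l13_two_elems hl hs
        rcases Nat.lt_or_ge (∑ s, C.k s) 3 with hj | hj
        · -- pattern (1,1)
          have hj2 : ∑ s, C.k s = 2 := by
            have := C.hj
            omega
          have hk1 : ∀ s, C.k s = 1 := by
            have huniv : (Finset.univ : Finset ι) = {Fc.sig i1, Fc.sig i2} := by
              ext u
              simpa using hel u
            have hsum := hj2
            rw [huniv, Finset.sum_pair hs] at hsum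
            have h1 := C.hk (Fc.sig i1)
            have h2 := C.hk (Fc.sig i2)
            intro s
            rcases hel s with rfl | rfl <;> omega
          by_cases hA1 : C.A = 1
          · have ha1 : ∀ s, C.a s = 1 := fun s => le_antisymm ((C.hA s).trans hA1.le) (C.h1 s)
            exact up (Fc.use_two D hD0 hvar hDsum herrZ hi1 hi2 hs
              (l13_leaf_oneone_low ha1 hA1 hl C.hk hj2 C.hkap0 C.hkap1 hgB _ _))
          · have hA' : 1 < C.A := lt_of_le_of_ne C.A_one (Ne.symm hA1)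
            apply Fc.use_cen_e hKz0 herrZ late
            apply hcenC hl (hk1 late) (by rw [hlate]; exact hA')
            · intro i hi
              rcases hel late with h | h
              · rw [Fc.uniq_factor (hk1 late) hi h.symm]; exact hi1
              · rw [Fc.uniq_factor (hk1 late) hi h.symm]; exact hi2
            · rw [Finset.card_le_one]
              intro a ha b hb
              rw [Finset.mem_filter] at ha hb
              have hab : Fc.sig a = Fc.sig b := by
                rcases hel late with h | h <;> rcases hel (Fc.sig a) with h1 | h1 <;>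
                  rcases hel (Fc.sig b) with h2 | h2
                · exact absurd (h1.trans h.symm) ha.2
                · exact absurd (h1.trans h.symm) ha.2
                · exact absurd (h2.trans h.symm) hb.2
                · exact h1.trans h2.symm
                · exact h1.trans h2.symm
                · exact absurd (h2.trans h.symm) hb.2
                · exact absurd (h1.trans h.symm) ha.2
                · exact absurd (h1.trans h.symm) ha.2
              exact Fc.uniq_factor (hk1 (Fc.sig b)) hab rfl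
        · -- pattern (1,2)
          have hj3 : ∑ s, C.k s = 3 := by omega
          obtain ⟨d, t, hdt, hkd, hkt, hall⟩ := l13_onetwo_split hl C.hk hj3
          by_cases hboth : ∀ i, Fc.sig i = d → i ∈ Fc.St
          · have hc2 : (Finset.univ.filter fun i => Fc.sig i = d).card = 2 := by
              rw [← Fc.hsig, hkd]
            obtain ⟨a', b', hab, hfil⟩ := Finset.card_eq_two.mp hc2
            have ha' : Fc.sig a' = d := by
              have : a' ∈ Finset.univ.filter fun i => Fc.sig i = d := by rw [hfil]; simp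
              exact (Finset.mem_filter.mp this).2
            have hb' : Fc.sig b' = d := by
              have : b' ∈ Finset.univ.filter fun i => Fc.sig i = d := by rw [hfil]; simp
              exact (Finset.mem_filter.mp this).2
            apply up
            apply Fc.use_dup D hD0 hvar hDsum herrZ hab (hboth a' ha') (hboth b' hb')
              (by rw [ha', hb'])
            rw [ha']
            exact l13_leaf_dup C.h1 hl hj3 d hkd C.hkap1 hgB
          · -- a stochastic factor at `d` and one at `t`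
            obtain ⟨id, it, hid, hit, hsd, hst⟩ : ∃ id it, id ∈ Fc.St ∧ it ∈ Fc.St ∧
                Fc.sig id = d ∧ Fc.sig it = t := by
              rcases hall (Fc.sig i1) with h1 | h1 <;> rcases hall (Fc.sig i2) with h2 | h2
              · exact absurd (h1.trans h2.symm) hs
              · exact ⟨i1, i2, hi1, hi2, h1, h2⟩
              · exact ⟨i2, i1, hi2, hi1, h2, h1⟩
              · exact absurd (h1.trans h2.symm) hs
            by_cases hle : C.a t ≤ C.a d
            · apply up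
              apply Fc.use_two D hD0 hvar hDsum herrZ hit hid (by rw [hst, hsd]; exact hdt.symm)
              rw [hst, hsd]
              exact l13_leaf_onetwo_cs C.h1 hl hj3 d t hkd hle C.hkap0 C.hkap1 hgB
            · push Not at hle
              have hlt : late = t := by
                rcases hall late with h | h
                · exfalso
                  have := C.hA t
                  rw [← hlate, h] at this
                  linarith
                · exact h
              apply Fc.use_cen_e hKz0 herrZ late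
              apply hcenC hl (by rw [hlt]; exact hkt)
                (by rw [hlt]; exact lt_of_le_of_lt (C.h1 d) hle)
              · intro i hi
                have hii : i = it := Fc.uniq_factor (s := t) hkt (by rw [hi, hlt]) hst
                rw [hii]
                exact hit
              · -- at most one of the two factors at the duplicate is stochastic
                push Not at hboth
                obtain ⟨i0, hi0d, hi0⟩ := hboth
                have hsub : (Fc.St.filter fun i => Fc.sig i ≠ late)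
                    ⊆ (Finset.univ.filter fun i => Fc.sig i = d).erase i0 := by
                  intro i hi
                  rw [Finset.mem_filter] at hi
                  rw [Finset.mem_erase, Finset.mem_filter]
                  refine ⟨fun h => hi0 (h ▸ hi.1), Finset.mem_univ _, ?_⟩
                  rcases hall (Fc.sig i) with h | h
                  · exact h
                  · exact absurd (h.trans hlt.symm) hi.2
                refine (Finset.card_le_card hsub).trans ?_
                have hmem : i0 ∈ Finset.univ.filter fun i => Fc.sig i = d :=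
                  Finset.mem_filter.mpr ⟨Finset.mem_univ _, hi0d⟩
                rw [Finset.card_erase_of_mem hmem, ← Fc.hsig, hkd]

end L13Fac

end Claimed.Agent.R286
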