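import Claimed.Agent.R286.L09.Alloc

/-!
# Row 286, LL Sec. 9 (and 08-LS, HI): FLAT CHARTS of the trees, fork coordinates, DENS      (owner: helper276; prefix `l9a`)

Ordered by helper60 (DAG of LL09, D4).  Vocabulary = N-tables of `Defs/Tr`, `L09/Alloc`.
* `L9aNew N τ s`   : the label `s` CREATES A FORK (at its birth it splits an edge of the tree of the labels `< s`);
* `l9aVx τ a b`    : the label which created the fork at which `a`, `b` separate;  `l9a_vx_spec`: it is `New`, its birth depth is `τ a b`;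
* `L9aChart r`     : finite type of charts (independent of the number of levels): table of the fork labels + flags `New`;
* `l9aCh`, `l9aCo` : chart and fork coordinates of a tree;  `l9aRec χ c` : the table with chart `χ` and coordinates `c`;
* `l9a_sum_chart`  : `∑ τ ∈ l9aTab N r, G τ = ∑ χ, ∑ c, if L9aOk N χ c then G (l9aRec χ c) else 0`;
* `l9a_wt_abs_le`  : `|l9aWt| ≤ ∏_s (if New then μ(birth depth) else r a)`;
* `l9a_dens`       : DENS.
-/

set_option autoImplicit false

namespace Claimed.Agent.R286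

/-- the label `s` creates a new fork: at its birth it splits an edge of the tree of the labels `< s` -/
def L9aNew (N : ℕ) (τ : ℕ → ℕ → ℕ) (s : ℕ) : Prop :=
  1 ≤ s ∧ l9aBj τ s ≤ N ∧ trDeg s τ (l9aBj τ s) (l9aBx τ s) = 1

/-- the label which creates the fork at which `a` and `b` separate -/
noncomputable def l9aVx (τ : ℕ → ℕ → ℕ) (a b : ℕ) : ℕ := sInf {s | τ a b ≤ τ a s ∧ ∃ y, y < s ∧ τ s y = τ a b}

theorem l9a_vx_spec {N r : ℕ} {τ : ℕ → ℕ → ℕ} (hτ : IsTr N r τ) {a b : ℕ} (ha : a < r) (hb : b < r) (hab : τ a b ≤ N) :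
    l9aVx τ a b < r ∧ L9aNew N τ (l9aVx τ a b) ∧ l9aBj τ (l9aVx τ a b) = τ a b := by
  set j := τ a b with hj
  set A : Set ℕ := {s | j ≤ τ a s ∧ ∃ y, y < s ∧ τ s y = j} with hA
  have hne : a ≠ b := by
    intro h
    rw [hj, ← h, hτ.diag a ha] at hab
    omega
  have hmaxmem : max a b ∈ A := by
    rcases lt_or_gt_of_ne hne with h | h
    · rw [max_eq_right h.le]
      exact ⟨le_rfl, a, h, by rw [hτ.symm b a hb ha]⟩
    · rw [max_eq_left h.le]
      exact ⟨by rw [hτ.diag a ha]; omega, b, h, rfl⟩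
  have hsm : l9aVx τ a b ∈ A := Nat.sInf_mem (s := A) ⟨_, hmaxmem⟩
  have hsle : l9aVx τ a b ≤ max a b := Nat.sInf_le hmaxmem
  have hmin : ∀ s', s' < l9aVx τ a b → s' ∉ A := fun s' h => Nat.notMem_of_lt_sInf h
  set s := l9aVx τ a b with hs
  have hsr : s < r := lt_of_le_of_lt hsle (max_lt ha hb)
  obtain ⟨h1, y0, hy0, hy0j⟩ := hsm
  have hB : ∀ y, y < s → τ s y ≤ j := by
    intro y hy
    by_contra hcon
    have hyr : y < r := by omega
    have hy0r : y0 < r := by omega
    have u1 := hτ.ultra y s y0 hyr hsr hy0r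
    have u2 := hτ.ultra s y y0 hsr hyr hy0r
    have u3 := hτ.symm y s hyr hsr
    have e : τ y y0 = j := by omega
    have hney : y ≠ y0 := by
      intro h; rw [h] at hcon; omega
    rcases lt_or_gt_of_ne hney with h | h
    · apply hmin y0 hy0
      refine ⟨?_, y, h, by rw [hτ.symm y0 y hy0r hyr]; exact e⟩
      have := hτ.ultra a s y0 ha hsr hy0r
      omega
    · apply hmin y hy
      refine ⟨?_, y0, h, e⟩
      have := hτ.ultra a s y ha hsr hyr
      omega
  have hbj : l9aBj τ s = j := by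
    apply le_antisymm
    · exact Finset.sup_le fun y hy => hB y (Finset.mem_range.mp hy)
    · have := Finset.le_sup (f := fun y => τ s y) (Finset.mem_range.mpr hy0)
      simp only [hy0j] at this
      exact this
  have hs1 : 1 ≤ s := by omega
  refine ⟨hsr, ⟨hs1, by rw [hbj]; exact hab, ?_⟩, hbj⟩
  obtain ⟨b1, _, _, b4, _⟩ := l9a_birth (tr_isTr_mono hτ (by omega : s + 1 ≤ r)) hs1
  rw [hbj] at b4 ⊢
  set x := l9aBx τ s with hx
  have hxr : x < r := by omega
  apply le_antisymm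
  · unfold trDeg
    rw [Finset.card_le_one]
    have aux : ∀ y1 y2, y1 < s → y2 < s → j ≤ τ x y1 → j ≤ τ x y2 → trIsMin τ (j + 1) y2 → y1 < y2 → False := by
      intro y1 y2 hy1 hy2 g1 g2 m2 hlt
      have hy1r : y1 < r := by omega
      have hy2r : y2 < r := by omega
      have c1 := m2 y1 hlt
      have c2 := hτ.ultra y2 x y1 hy2r hxr hy1r
      have c3 := hτ.symm y2 x hy2r hxr
      apply hmin y2 hy2
      refine ⟨?_, y1, hlt, by omega⟩
      have c4 := hτ.ultra a s x ha hsr hxr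
      have c5 := hτ.ultra a x y2 ha hxr hy2r
      omega
    intro y1 hy1 y2 hy2
    simp only [Finset.mem_filter, Finset.mem_range] at hy1 hy2
    rcases lt_trichotomy y1 y2 with h | h | h
    · exact (aux y1 y2 hy1.1 hy2.1 hy1.2.1 hy2.2.1 hy2.2.2 h).elim
    · exact h
    · exact (aux y2 y1 hy2.1 hy1.1 hy2.2.1 hy1.2.1 hy1.2.2 h).elim
  · exact tra2_deg_pos (tr_isTr_mono hτ (by omega : s ≤ r)) b1 hab

/-! ### the weights in terms of the births -/

/-- mass length of the stage `j` -/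
def l9aMu (ms : ℕ → ℝ) (j : ℕ) : ℝ := ms j - trPm ms j

theorem l9a_mu_nonneg {N : ℕ} {ms : ℕ → ℝ} (hms : IsMs N ms) {j : ℕ} (hj : j ≤ N) : 0 ≤ l9aMu ms j := by
  unfold l9aMu
  have := tra2_pm_le hms hj
  linarith

theorem l9a_w1_new {N r : ℕ} {ms : ℕ → ℝ} {τ : ℕ → ℕ → ℕ} (hτ : IsTr N r τ) {s : ℕ} (hsr : s < r) (hn : L9aNew N τ s) :
    l9aW1 ms N τ s = - l9aMu ms (l9aBj τ s) := by
  obtain ⟨hs1, hj, hd⟩ := hn
  obtain ⟨_, _, b3, _, _⟩ := l9a_birth (tr_isTr_mono hτ (by omega : s + 1 ≤ r)) hs1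
  unfold l9aW1 trWt l9aMu
  rw [if_pos b3, if_neg (by omega), hd]
  push_cast
  ring

open Classical in
theorem l9a_w1_abs_le {N r : ℕ} {ms : ℕ → ℝ} (hms : IsMs N ms) {τ : ℕ → ℕ → ℕ} (hτ : IsTr N r τ) {s : ℕ} (hs1 : 1 ≤ s)
    (hsr : s < r) : |l9aW1 ms N τ s| ≤ if L9aNew N τ s then l9aMu ms (l9aBj τ s) else r * ms N := by
  split_ifs with hn
  · rw [l9a_w1_new hτ hsr hn, abs_neg, abs_of_nonneg (l9a_mu_nonneg hms hn.2.1)]
  · obtain ⟨b1, b2, b3, _, _⟩ := l9a_birth (tr_isTr_mono hτ (by omega : s + 1 ≤ r)) hs1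
    have ha : 0 ≤ ms N := hms.nonneg N
    have hr1 : (1 : ℝ) ≤ r := by exact_mod_cast (by omega : 1 ≤ r)
    unfold l9aW1 trWt
    rw [if_pos b3]
    split_ifs with hj
    · rw [abs_of_nonneg ha]; nlinarith
    · have hjN : l9aBj τ s ≤ N := by omega
      have h1 : (1 : ℝ) ≤ trDeg s τ (l9aBj τ s) (l9aBx τ s) := by
        exact_mod_cast tra2_deg_pos (tr_isTr_mono hτ (by omega : s ≤ r)) b1 hjN
      have h2 : (trDeg s τ (l9aBj τ s) (l9aBx τ s) : ℝ) ≤ r := by
        have : trDeg s τ (l9aBj τ s) (l9aBx τ s) ≤ s := by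
          unfold trDeg
          exact (Finset.card_filter_le _ _).trans (by rw [Finset.card_range])
        exact_mod_cast (by omega : trDeg s τ (l9aBj τ s) (l9aBx τ s) ≤ r)
      have h3 := tra2_pm_le hms hjN
      have h4 : 0 ≤ trPm ms (l9aBj τ s) := by
        unfold trPm; split_ifs
        · exact le_rfl
        · exact hms.nonneg _
      have h5 : ms (l9aBj τ s) ≤ ms N := hms.mono _ _ hjN le_rfl
      have h6 := hms.nonneg (l9aBj τ s)
      rw [abs_le]
      constructor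
      · nlinarith
      · nlinarith

open Classical in
/-- **the weight is bounded by the product of the mass lengths over the forks** -/
theorem l9a_wt_abs_le {N r : ℕ} {ms : ℕ → ℝ} (hms : IsMs N ms) {τ : ℕ → ℕ → ℕ} (hτ : IsTr N r τ) :
    |l9aWt ms N 1 r τ| ≤ ∏ s ∈ Finset.Ico 1 r, if L9aNew N τ s then l9aMu ms (l9aBj τ s) else r * ms N := by
  unfold l9aWt
  rw [Finset.abs_prod]
  apply Finset.prod_le_prod
  · intro s _; exact abs_nonneg _
  · intro s hs
    rw [Finset.mem_Ico] at hs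
    exact l9a_w1_abs_le hms hτ hs.1 hs.2


/-! ### charts and fork coordinates -/

/-- charts: the table of the fork labels (`none` = coincident labels) and the flags "creates a fork".  A finite type which does not depend on `N`. -/
abbrev L9aChart (r : ℕ) : Type := (Fin r → Fin r → Option (Fin r)) × (Fin r → Bool)

/-- value of a table entry -/
def l9aVal {N r : ℕ} (c : Fin r → Fin (N + 2)) : Option (Fin r) → ℕ
  | none => N + 1
  | some s => (c s : ℕ)

/-- the table with the chart `χ` and the fork coordinates `c` -/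
def l9aRec {N r : ℕ} (χ : L9aChart r) (c : Fin r → Fin (N + 2)) : ℕ → ℕ → ℕ := fun y z =>
  if h : y < r ∧ z < r then l9aVal c (χ.1 ⟨y, h.1⟩ ⟨z, h.2⟩) else 0

open Classical in
/-- the chart of a tree -/
noncomputable def l9aCh (N r : ℕ) (τ : ℕ → ℕ → ℕ) : L9aChart r :=
  (fun a b => if τ a b = N + 1 then none else if h : l9aVx τ a b < r then some ⟨l9aVx τ a b, h⟩ else none,
   fun s => decide (L9aNew N τ s))

open Classical in
/-- the fork coordinates of a tree: the birth depth of the labels which create a fork, `0` for the other labels -/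
noncomputable def l9aCo (N r : ℕ) (τ : ℕ → ℕ → ℕ) : Fin r → Fin (N + 2) := fun s =>
  if h : L9aNew N τ s ∧ l9aBj τ s < N + 2 then ⟨l9aBj τ s, h.2⟩ else 0

theorem l9a_co_new {N r : ℕ} {τ : ℕ → ℕ → ℕ} {s : Fin r} (h : L9aNew N τ s) : (l9aCo N r τ s : ℕ) = l9aBj τ s := by
  unfold l9aCo
  rw [dif_pos ⟨h, by have := h.2.1; omega⟩]

theorem l9a_co_old {N r : ℕ} {τ : ℕ → ℕ → ℕ} {s : Fin r} (h : ¬ L9aNew N τ s) : l9aCo N r τ s = 0 := by
  unfold l9aCo
  rw [dif_neg (fun hh => h hh.1)]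

/-- a tree is determined by its chart and its fork coordinates -/
theorem l9a_rec_ch_co {N r : ℕ} {τ : ℕ → ℕ → ℕ} (hτ : τ ∈ l9aTab N r) : l9aRec (l9aCh N r τ) (l9aCo N r τ) = τ := by
  obtain ⟨h1, h2⟩ := l9a_mem_tab.mp hτ
  funext y z
  by_cases h : y < r ∧ z < r
  · unfold l9aRec
    rw [dif_pos h]
    by_cases e : τ y z = N + 1
    · simp [l9aCh, e, l9aVal]
    · have hle := h1.le y z h.1 h.2
      obtain ⟨v1, v2, v3⟩ := l9a_vx_spec h1 h.1 h.2 (by omega : τ y z ≤ N)
      have : (l9aCh N r τ).1 ⟨y, h.1⟩ ⟨z, h.2⟩ = some ⟨l9aVx τ y z, v1⟩ := by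
        simp [l9aCh, e, v1]
      rw [this]
      show ((l9aCo N r τ ⟨l9aVx τ y z, v1⟩ : Fin (N + 2)) : ℕ) = τ y z
      rw [l9a_co_new (s := ⟨l9aVx τ y z, v1⟩) v2, v3]
  · unfold l9aRec
    rw [dif_neg h, ← h2]
    simp [l9aNm, h]

/-- `(χ, c)` = (chart, fork coordinates) of a tree -/
def L9aOk (N : ℕ) {r : ℕ} (χ : L9aChart r) (c : Fin r → Fin (N + 2)) : Prop :=
  l9aRec χ c ∈ l9aTab N r ∧ l9aCh N r (l9aRec χ c) = χ ∧ l9aCo N r (l9aRec χ c) = c

open Classical in
/-- **change of variables**: a sum over the trees = a sum over the charts and the fork coordinates -/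
theorem l9a_sum_chart (N r : ℕ) (G : (ℕ → ℕ → ℕ) → ℝ) :
    ∑ τ ∈ l9aTab N r, G τ
      = ∑ χ : L9aChart r, ∑ c : Fin r → Fin (N + 2), if L9aOk N χ c then G (l9aRec χ c) else 0 := by
  rw [← Fintype.sum_prod_type' (f := fun (χ : L9aChart r) (c : Fin r → Fin (N + 2)) =>
    if L9aOk N χ c then G (l9aRec χ c) else 0), ← Finset.sum_filter]
  refine Finset.sum_nbij' (fun τ => (l9aCh N r τ, l9aCo N r τ)) (fun p => l9aRec p.1 p.2) ?_ ?_ ?_ ?_ ?_
  · intro τ hτ
    rw [Finset.mem_filter]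
    refine ⟨Finset.mem_univ _, ?_⟩
    unfold L9aOk
    rw [l9a_rec_ch_co hτ]
    exact ⟨hτ, rfl, rfl⟩
  · intro p hp
    rw [Finset.mem_filter] at hp
    exact hp.2.1
  · intro τ hτ
    exact l9a_rec_ch_co hτ
  · intro p hp
    rw [Finset.mem_filter] at hp
    exact Prod.ext hp.2.2.1 hp.2.2.2
  · intro τ hτ
    simp only [l9a_rec_ch_co hτ]

/-! ### reading a valid pair -/

theorem L9aOk.isTr {N r : ℕ} {χ : L9aChart r} {c : Fin r → Fin (N + 2)} (h : L9aOk N χ c) : IsTr N r (l9aRec χ c) :=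
  (l9a_mem_tab.mp h.1).1

theorem l9a_rec_apply {N r : ℕ} (χ : L9aChart r) (c : Fin r → Fin (N + 2)) (a b : Fin r) :
    l9aRec χ c a b = l9aVal c (χ.1 a b) := by
  unfold l9aRec
  rw [dif_pos ⟨a.2, b.2⟩]

theorem L9aOk.new_iff {N r : ℕ} {χ : L9aChart r} {c : Fin r → Fin (N + 2)} (h : L9aOk N χ c) (s : Fin r) :
    L9aNew N (l9aRec χ c) s ↔ χ.2 s = true := by
  have := congrArg (fun χ : L9aChart r => χ.2 s) h.2.1
  simp only [l9aCh] at this
  rw [← this]
  simp

theorem L9aOk.bj {N r : ℕ} {χ : L9aChart r} {c : Fin r → Fin (N + 2)} (h : L9aOk N χ c) {s : Fin r} (hs : χ.2 s = true) :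
    l9aBj (l9aRec χ c) s = c s := by
  have h1 := l9a_co_new (r := r) ((h.new_iff s).mpr hs)
  rw [h.2.2] at h1
  exact h1.symm

theorem L9aOk.le {N r : ℕ} {χ : L9aChart r} {c : Fin r → Fin (N + 2)} (h : L9aOk N χ c) {s : Fin r} (hs : χ.2 s = true) :
    (c s : ℕ) ≤ N := by
  rw [← h.bj hs]
  exact ((h.new_iff s).mpr hs).2.1

theorem L9aOk.old {N r : ℕ} {χ : L9aChart r} {c : Fin r → Fin (N + 2)} (h : L9aOk N χ c) {s : Fin r} (hs : ¬ χ.2 s = true) :
    c s = 0 := by
  have h1 := l9a_co_old (r := r) (fun hh => hs ((h.new_iff s).mp hh))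
  rw [h.2.2] at h1
  exact h1

/-- the fork label of a pair of distinct leaves is flagged -/
theorem L9aOk.flag {N r : ℕ} {χ : L9aChart r} {c : Fin r → Fin (N + 2)} (h : L9aOk N χ c) {a b s : Fin r}
    (hs : χ.1 a b = some s) : χ.2 s = true := by
  have h1 := congrArg (fun χ : L9aChart r => χ.1 a b) h.2.1
  simp only [l9aCh] at h1
  rw [hs] at h1
  by_cases e : l9aRec χ c a b = N + 1
  · rw [if_pos e] at h1
    exact absurd h1 (by simp)
  · rw [if_neg e] at h1
    have hle := h.isTr.le a b a.2 b.2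
    obtain ⟨v1, v2, _⟩ := l9a_vx_spec h.isTr a.2 b.2 (by omega : l9aRec χ c a b ≤ N)
    rw [dif_pos v1] at h1
    have h2 : (⟨l9aVx (l9aRec χ c) a b, v1⟩ : Fin r) = s := Option.some.inj h1
    rw [← (h.new_iff s), ← h2]
    exact v2

/-- **the weight in the coordinates**: `K = max 1 (r a)` -/
theorem L9aOk.wt_abs_le {N r : ℕ} {ms : ℕ → ℝ} (hms : IsMs N ms) {χ : L9aChart r} {c : Fin r → Fin (N + 2)}
    (h : L9aOk N χ c) :
    |l9aWt ms N 1 r (l9aRec χ c)| ≤ ∏ s : Fin r, if χ.2 s = true then l9aMu ms (c s) else max 1 (r * ms N) := by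
  classical
  refine (l9a_wt_abs_le hms h.isTr).trans ?_
  set f : ℕ → ℝ := fun s => if L9aNew N (l9aRec χ c) s then l9aMu ms (l9aBj (l9aRec χ c) s) else max 1 (r * ms N) with hf
  have hf0 : ∀ s, 0 ≤ f s := by
    intro s
    rw [hf]
    simp only
    split_ifs with hn
    · exact l9a_mu_nonneg hms hn.2.1
    · exact le_trans zero_le_one (le_max_left _ _)
  have e1 : ∏ s : Fin r, (if χ.2 s = true then l9aMu ms (c s) else max 1 (r * ms N)) = ∏ s ∈ Finset.range r, f s := by
    rw [← Fin.prod_univ_eq_prod_range]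
    refine Finset.prod_congr rfl fun s _ => ?_
    rw [hf]
    simp only
    by_cases hs : χ.2 s = true
    · rw [if_pos hs, if_pos ((h.new_iff s).mpr hs), h.bj hs]
    · rw [if_neg hs, if_neg (fun hh => hs ((h.new_iff s).mp hh))]
  rw [e1]
  rcases Nat.eq_zero_or_pos r with h0 | hpos
  · subst h0; simp
  · have e2 : ∏ s ∈ Finset.range r, f s = f 0 * ∏ s ∈ Finset.Ico 1 r, f s := by
      rw [Finset.range_eq_Ico, Finset.prod_eq_prod_Ico_succ_bot hpos]
    have hf00 : 1 ≤ f 0 := by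
      rw [hf]
      simp only
      rw [if_neg (fun hh : L9aNew N (l9aRec χ c) 0 => by have := hh.1; omega)]
      exact le_max_left _ _
    have hP : 0 ≤ ∏ s ∈ Finset.Ico 1 r, f s := Finset.prod_nonneg fun s _ => hf0 s
    rw [e2]
    calc (∏ s ∈ Finset.Ico 1 r, if L9aNew N (l9aRec χ c) s then l9aMu ms (l9aBj (l9aRec χ c) s) else (r : ℝ) * ms N)
        ≤ ∏ s ∈ Finset.Ico 1 r, f s := by
          apply Finset.prod_le_prod
          · intro s _
            split_ifs with hn
            · exact l9a_mu_nonneg hms hn.2.1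
            · exact mul_nonneg (Nat.cast_nonneg _) (hms.nonneg N)
          · intro s _
            rw [hf]
            simp only
            split_ifs
            · exact le_rfl
            · exact le_max_right _ _
      _ = 1 * ∏ s ∈ Finset.Ico 1 r, f s := (one_mul _).symm
      _ ≤ f 0 * ∏ s ∈ Finset.Ico 1 r, f s := mul_le_mul_of_nonneg_right hf00 hP

open Classical in
/-- **DENS** on one chart: the fork coordinates are free summation variables -/
theorem l9a_dens {N r : ℕ} (χ : L9aChart r) (g : Fin r → Fin (N + 2) → ℝ) (hg : ∀ s k, 0 ≤ g s k) :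
    (∑ c : Fin r → Fin (N + 2), if L9aOk N χ c then ∏ s, (if χ.2 s = true then g s (c s) else 1) else 0)
      ≤ ∏ s, if χ.2 s = true then ∑ k, g s k else 1 := by
  have e : (∏ s : Fin r, if χ.2 s = true then ∑ k, g s k else 1)
      = ∏ s : Fin r, ∑ k : Fin (N + 2), (if χ.2 s = true then g s k else if k = 0 then 1 else 0) := by
    refine Finset.prod_congr rfl fun s _ => ?_
    by_cases hs : χ.2 s = true
    · simp [hs]
    · simp [hs]
  rw [e, Fintype.prod_sum]
  refine Finset.sum_le_sum fun c _ => ?_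
  have hnn : 0 ≤ ∏ s : Fin r, (if χ.2 s = true then g s (c s) else if c s = 0 then 1 else 0) := by
    refine Finset.prod_nonneg fun s _ => ?_
    split_ifs
    · exact hg _ _
    · exact zero_le_one
    · exact le_rfl
  split_ifs with hok
  · refine le_of_eq (Finset.prod_congr rfl fun s _ => ?_)
    by_cases hs : χ.2 s = true
    · rw [if_pos hs, if_pos hs]
    · rw [if_neg hs, if_neg hs, if_pos (hok.old hs)]
  · exact hnn

theorem l9a_chart_eqns_cite : True := by
  have := @L9aNew.eq_1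
  have := @l9aVx.eq_1
  have := @l9aMu.eq_1
  have := @l9aVal.eq_1
  have := @l9aVal.eq_2
  have := @l9aVal.eq_def
  have := @l9aRec.eq_1
  have := @l9aCh.eq_1
  have := @l9aCo.eq_1
  have := @L9aOk.eq_1
  trivial

end Claimed.Agent.R286
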