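/-
OWNER helper30.  TEX[LL:exp:lem-centered-count]
Row 286 (S0533), LL Lemma 9.1 (Centered allocation estimate), TABLE LEVEL = NUMBERS ON `JtCtx`.      prefix `l9c`, `L9c`
PRODUCER of the abstract records `L13CC` (file CC.lean) and `L13Fac` (file CCAbs.lean) from the N-tables of `Defs/Tr`,
the charts of 276 (`L09/Chart.lean`: `l9aRec χ c`, `L9aOk`, `l9a_sum_chart`) and the positive laws `L9rPos` of 282.

VOCABULARY.  depth `t` = number of shared stages of a pair, `μ t = l9aMu ms t` = mass of the stage `t`.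
* `D : L9cD S`   the two ensembles `D.X e` (`false` untilted, `true` tilted), mass grid, scales `D.Sc : L13Scales`, loss `Lo` (`≲_⋄`),
                 envelope `env t`, `Dv t` (= `D_v`), band scale `sc t = r / Y ≥ 1` of the depth `t`, `lw t` = "mass below x", `rg t` = region where (D2) refined holds.
                 `D.Sf t` = untilted mean `S_v`;   `D.dl e t a b = msk t * ov a b - S_t` = the factor `δ`;   `D.pm e t g = ν^e_pair(t)[g(δ)]`.
* `D.Ok`         THE IMPORTS FROM LL 08, as numbers: (D2) `mom`, envelope budget `env2`, (D7)+(D9) `var`, `Dsum`.   Producer on SK objects: `L09/CCInst.lean`.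
* `T : L9cT`     one term: `j ≥ 2` pairs (pair `i` = labels `2 i, 2 i + 1`), stochastic pairs `St`, deterministic factors `phi i t`, allowed depths `V i t` (bands, restrictions), band scales `a i`,
                 `A = max a i`, measure `om` of the other forks, coefficient `H τ`.      PROJECTED factors: decision D3 of 60 (projection at the cut = truncated table), so they are ordinary tables here.
* `T.Ok D`       (E2) in the vocabulary of 276: field `e2`.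
* `D.val T = ∑_τ H τ (ν^tilt_τ[∏ fac] - ν^0_τ[∏ fac])`.
* `L9cCen`       the centred estimate at a MOVING FORK (chart `χ`, all the other fork coordinates frozen): exit of the centred half (64, `L09/CCCen.lean`, LL (D10), Remark "earlier pair").
EXPORTS: `l9c_low`, `l9c_high` (one order of the masses), `l9c_main` = (E3).
-/
import Claimed.Agent.R286.L09.CCAbs
import Claimed.Agent.R286.L09.Chart
import Claimed.Agent.R286.L09.RedMain

set_option autoImplicit false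
set_option linter.unusedSectionVars false

namespace Claimed.Agent.R286

open Finset

/-! ## 1. the data -/

/-- the two ensembles and the deterministic scales, envelopes, bands -/
structure L9cD (S : Type) where
  X : Bool → JtCtx S
  ms : ℕ → ℝ
  Sc : L13Scales
  Lo : ℝ
  Lm : ℝ
  M : ℝ
  p0 : ℕ
  env : ℕ → ℝ
  Dv : ℕ → ℝ
  sc : ℕ → ℝ
  lw : ℕ → Prop
  rg : ℕ → Prop

namespace L9cD
variable {S : Type} (D : L9cD S)

/-- number of Gaussian stages -/
def N : ℕ := (D.X false).N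

/-- the untilted mean `S_v` of a pair which shares `t` stages -/
def Sf (t : ℕ) : ℝ := (D.X false).nu 2 (l9rT2 D.N t) fun σ => (D.X false).msk t * (D.X false).ov (σ 0) (σ 1)

/-- the factor `δ = Q^* - S_v` -/
def dl (e : Bool) (t : ℕ) (a b : S) : ℝ := (D.X e).msk t * (D.X e).ov a b - D.Sf t

/-- `ν^e[g(δ)]` for a pair which shares `t` stages -/
def pm (e : Bool) (t : ℕ) (g : ℝ → ℝ) : ℝ := (D.X e).nu 2 (l9rT2 D.N t) fun σ => g (D.dl e t (σ 0) (σ 1))

open Classical in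
/-- **the imports from LL 08**, numbers only -/
structure Ok [Fintype S] [Inhabited S] : Prop where
  hN : (D.X true).N = (D.X false).N
  pos : ∀ e, L9rPos (D.X e)
  hms : IsMs D.N D.ms
  hLo : 1 ≤ D.Lo
  hLm0 : 0 < D.Lm
  hLm : D.Lm ≤ D.Lo
  hM0 : 0 ≤ D.M
  rgN : ∀ t, D.rg t → t ≤ D.N
  sc1 : ∀ t, 1 ≤ D.sc t
  scm : ∀ t t', t ≤ t' → D.rg t' → D.sc t ≤ D.sc t'
  /-- a band has mass `≲ r` -/
  mass : ∀ a, 1 ≤ a → ∑ t ∈ (range (D.N + 1)).filter (fun t => D.rg t ∧ D.sc t = a), l9aMu D.ms t ≤ D.Lo * (a * D.Sc.Y)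
  env0 : ∀ t, 0 ≤ D.env t
  envp : ∀ t, D.rg t → 0 < D.env t
  /-- `e(v) ≲ r` -/
  env1 : ∀ t, D.rg t → D.env t ≤ D.Lo * (D.sc t * D.Sc.Y)
  /-- integrated envelope bound `∫ e² dv / r ≲ m_r²` -/
  env2 : ∀ a, 1 ≤ a → ∑ t ∈ (range (D.N + 1)).filter (fun t => D.rg t ∧ D.sc t = a), l9aMu D.ms t * D.env t ^ 2
    ≤ D.Lo * (a * D.Sc.Y) * (D.Sc.Y ^ 2 / (a * D.Sc.Y)) ^ 2
  Dv0 : ∀ t, 0 ≤ D.Dv t
  /-- (D7), (D9): `∫ D_v² dv / r ≲ g_B Y² / a` over the masses `≥ x` of a band -/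
  Dsum : ∀ a, 1 ≤ a → ∑ t ∈ (range (D.N + 1)).filter (fun t => D.rg t ∧ D.sc t = a ∧ ¬ D.lw t), l9aMu D.ms t * D.Dv t ^ 2
    ≤ D.Lo * (a * D.Sc.Y) * (D.Sc.gB * D.Sc.Y ^ 2 / a)
  lw1 : ∀ t, D.lw t → D.sc t = 1
  /-- the masses below `x` -/
  lw2 : ∑ t ∈ (range (D.N + 1)).filter (fun t => D.lw t), l9aMu D.ms t ≤ D.Lo * D.Sc.x
  bdd : ∀ e t a b, D.rg t → |D.dl e t a b| ≤ D.M
  /-- (D2): all the fixed moments, both ensembles -/
  mom : ∀ e t n, D.rg t → 1 ≤ n → n ≤ D.p0 → D.pm e t (fun u => |u| ^ n) ≤ (D.Lm * D.env t) ^ n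
  /-- second moment about `S`, both ensembles, masses `≥ x` -/
  var : ∀ e t, D.rg t → ¬ D.lw t → D.pm e t (fun u => u ^ 2) ≤ D.Dv t ^ 2

end L9cD

/-- one term of Lemma 9.1 -/
structure L9cT where
  j : ℕ
  St : Finset ℕ
  phi : ℕ → ℕ → ℝ
  V : ℕ → ℕ → Prop
  a : ℕ → ℝ
  A : ℝ
  om : ℕ → ℝ
  H : JtTopo → ℝ

/-- split depth of the pair `i` -/
def l9cDp (τ : JtTopo) (i : ℕ) : ℕ := τ (2 * i) (2 * i + 1)

open Classical in
/-- the extra ratio `min r_s / w` of (E2) for `j = l = 2` -/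
noncomputable def l9cKap (T : L9cT) (τ : JtTopo) : ℝ :=
  if T.j = 2 ∧ l9aVx τ 0 1 ≠ l9aVx τ 2 3 then min (T.a 0) (T.a 1) / T.A else 1

open Classical in
/-- the weight of the label `s` in (E2): a designated fork pays `dv / w`, another fork pays the measure `om`, a label which creates no fork pays `1` -/
noncomputable def l9cWt {S : Type} (D : L9cD S) (T : L9cT) (τ : JtTopo) (s : ℕ) : ℝ :=
  if L9aNew D.N τ s then
    (if ∃ i, i < T.j ∧ l9aVx τ (2 * i) (2 * i + 1) = s then l9aMu D.ms (l9aBj τ s) / (T.A * D.Sc.Y) else T.om (l9aBj τ s))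
  else 1

namespace L9cD
variable {S : Type} (D : L9cD S)

/-- the pair factor number `i` -/
def fac (T : L9cT) (e : Bool) (τ : JtTopo) (σ : ℕ → S) (i : ℕ) : ℝ :=
  if i ∈ T.St then D.dl e (l9cDp τ i) (σ (2 * i)) (σ (2 * i + 1)) else T.phi i (l9cDp τ i)

/-- `ν^e_τ[∏ factors]` -/
def num (T : L9cT) (e : Bool) (τ : JtTopo) : ℝ := (D.X e).nu (2 * T.j) τ fun σ => ∏ i ∈ range T.j, D.fac T e τ σ i

/-- tilted minus untilted -/
def dnum (T : L9cT) (τ : JtTopo) : ℝ := D.num T true τ - D.num T false τ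

/-- **the value of the term** -/
noncomputable def val (T : L9cT) : ℝ := ∑ τ ∈ l9aTab D.N (2 * T.j), T.H τ * D.dnum T τ

end L9cD

/-- **hypotheses on one term**; `e2` = (E2) -/
structure L9cT.Ok {S : Type} (T : L9cT) (D : L9cD S) : Prop where
  hj : 2 ≤ T.j
  hjp : T.j ≤ D.p0
  hSt : T.St ⊆ range T.j
  ha1 : ∀ i, i < T.j → 1 ≤ T.a i
  haA : ∀ i, i < T.j → T.a i ≤ T.A
  hmax : ∃ i, i < T.j ∧ T.a i = T.A
  hV : ∀ i t, i < T.j → T.V i t → D.rg t ∧ D.sc t = T.a i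
  hphi : ∀ i t, i < T.j → i ∉ T.St → T.V i t → |T.phi i t| ≤ D.Lm * D.env t
  hphiM : ∀ i t, i < T.j → i ∉ T.St → T.V i t → |T.phi i t| ≤ D.M
  hom0 : ∀ t, 0 ≤ T.om t
  hom1 : ∑ t ∈ range (D.N + 2), T.om t ≤ D.Lo
  supp : ∀ τ ∈ l9aTab D.N (2 * T.j), T.H τ ≠ 0 → ∀ i, i < T.j → T.V i (l9cDp τ i)
  e2 : ∀ τ ∈ l9aTab D.N (2 * T.j), |T.H τ| ≤ D.Lo * D.Sc.lam * (T.A * D.Sc.Y) ^ ((5 : ℤ) - (T.j : ℕ)) * l9cKap T τ
    * ∏ s ∈ Ico 1 (2 * T.j), l9cWt D T τ s

/-! ## 2. charts: designated forks -/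

section chart
variable {j : ℕ}

/-- first label of the pair `i` -/
def l9cL (i : Fin j) : Fin (2 * j) := ⟨2 * i, by omega⟩
/-- second label of the pair `i` -/
def l9cR (i : Fin j) : Fin (2 * j) := ⟨2 * i + 1, by omega⟩

/-- the fork label of the pair `i` in the chart `χ` -/
def l9cSg (χ : L9aChart (2 * j)) (i : Fin j) : Fin (2 * j) := (χ.1 (l9cL i) (l9cR i)).getD (l9cL i)

/-- the designated fork labels -/
def l9cDes (χ : L9aChart (2 * j)) : Finset (Fin (2 * j)) := univ.image (l9cSg χ)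

/-- the designated vertices -/
abbrev L9cI (χ : L9aChart (2 * j)) : Type := {s : Fin (2 * j) // s ∈ l9cDes χ}

/-- the other coordinates -/
abbrev L9cO (N : ℕ) (χ : L9aChart (2 * j)) : Type := {s : Fin (2 * j) // ¬ s ∈ l9cDes χ} → Fin (N + 2)

/-- the vertex of the pair `i` -/
def l9cSi (χ : L9aChart (2 * j)) (i : Fin j) : L9cI χ := ⟨l9cSg χ i, mem_image_of_mem _ (mem_univ i)⟩

/-- a pair at the vertex `s` -/
noncomputable def l9cPr (χ : L9aChart (2 * j)) (s : L9cI χ) : Fin j := (mem_image.mp s.2).choose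

theorem l9c_pr_spec (χ : L9aChart (2 * j)) (s : L9cI χ) : l9cSi χ (l9cPr χ s) = s :=
  Subtype.ext (mem_image.mp s.2).choose_spec.2

/-- all the coordinates from (designated, others) -/
def l9cGl {N : ℕ} (χ : L9aChart (2 * j)) (v : L9cI χ → Fin (N + 2)) (o : L9cO N χ) : Fin (2 * j) → Fin (N + 2) :=
  fun s => if h : s ∈ l9cDes χ then v ⟨s, h⟩ else o ⟨s, h⟩

end chart

/-- a chart which can carry the term: the two ends of every pair are different leaves, pairs at one vertex are in one band -/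
def L9cGood (T : L9cT) (χ : L9aChart (2 * T.j)) : Prop :=
  (∀ i : Fin T.j, (χ.1 (l9cL i) (l9cR i)).isSome) ∧ ∀ i i' : Fin T.j, l9cSg χ i = l9cSg χ i' → T.a i = T.a i'

open Classical in
/-- the part of the value carried by the chart `χ` -/
noncomputable def L9cD.valC {S : Type} (D : L9cD S) (T : L9cT) (χ : L9aChart (2 * T.j)) : ℝ :=
  ∑ c : Fin (2 * T.j) → Fin (D.N + 2), if L9aOk D.N χ c then T.H (l9aRec χ c) * D.dnum T (l9aRec χ c) else 0

theorem l9c_val_chart {S : Type} (D : L9cD S) (T : L9cT) : D.val T = ∑ χ : L9aChart (2 * T.j), D.valC T χ :=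
  l9a_sum_chart D.N (2 * T.j) fun τ => T.H τ * D.dnum T τ

/-- **the centred estimate at a moving fork** (vertex of the pair `i0`; the other fork coordinates `cc` are frozen; `c` = arbitrary coefficient dominated by `dv / r`, supported where `H ≠ 0`).
`G` = `D.dnum T` (case A) or `D.num T e` (case C). -/
def L9cCen {S : Type} (D : L9cD S) (T : L9cT) (χ : L9aChart (2 * T.j)) (i0 : Fin T.j) (G : JtTopo → ℝ) (Kz err : ℝ) : Prop :=
  ∀ (cc : Fin (2 * T.j) → Fin (D.N + 2)) (c : Fin (D.N + 2) → ℝ),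
    (∀ t, c t ≠ 0 → |c t| ≤ l9aMu D.ms t / (T.a i0 * D.Sc.Y) ∧
      L9aOk D.N χ (Function.update cc (l9cSg χ i0) t) ∧ T.H (l9aRec χ (Function.update cc (l9cSg χ i0) t)) ≠ 0) →
    |∑ t, c t * G (l9aRec χ (Function.update cc (l9cSg χ i0) t))|
      ≤ Kz * (D.Sc.gB / T.a i0 * l13_P D.Sc.Y (T.a i0 * D.Sc.Y) (univ.filter fun i => l9cSg χ i = l9cSg χ i0).card)
          * ∏ i ∈ univ.filter (fun i => l9cSg χ i ≠ l9cSg χ i0), D.env (cc (l9cSg χ i)) + err

/-- IMPORT A: all the stochastic factors at ONE vertex (above the lower band, or one stochastic power) -/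
def L9cImpA {S : Type} (D : L9cD S) (T : L9cT) (Kz err : ℝ) : Prop :=
  ∀ χ : L9aChart (2 * T.j), L9cGood T χ → ∀ i1 : Fin T.j, (i1 : ℕ) ∈ T.St → (∀ i : Fin T.j, (i : ℕ) ∈ T.St → l9cSg χ i = l9cSg χ i1) →
    (1 < T.a i1 ∨ T.St.card = 1) → L9cCen D T χ i1 (D.dnum T) Kz err

/-- IMPORT C: two vertices, the LATER one (pair `i0`) is a linear stochastic singleton above the lower band, at most one stochastic factor at the earlier one; each ensemble separately -/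
def L9cImpC {S : Type} (D : L9cD S) (T : L9cT) (i0 : Fin T.j) (Kz err : ℝ) : Prop :=
  ∀ χ : L9aChart (2 * T.j), L9cGood T χ → (l9cDes χ).card = 2 → (∀ i : Fin T.j, l9cSg χ i = l9cSg χ i0 → i = i0) → (i0 : ℕ) ∈ T.St →
    1 < T.a i0 → (univ.filter fun i : Fin T.j => (i : ℕ) ∈ T.St ∧ l9cSg χ i ≠ l9cSg χ i0).card ≤ 1 →
    ∀ e, L9cCen D T χ i0 (D.num T e) Kz err

/-! ## 3. PRODUCER of `L13CC` on one chart -/

section prod
variable {S : Type} (D : L9cD S) (T : L9cT) (χ : L9aChart (2 * T.j))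

/-- band scale of a vertex -/
noncomputable def l9cAv (s : L9cI χ) : ℝ := T.a (l9cPr χ s)

/-- multiplicity of a vertex -/
def l9cKv (s : L9cI χ) : ℕ := (univ.filter fun i : Fin T.j => l9cSi χ i = s).card

open Classical in
/-- `dv / r_s` on the allowed depths of the vertex -/
noncomputable def l9cNu (s : L9cI χ) (k : Fin (D.N + 2)) : ℝ :=
  if ∀ i : Fin T.j, l9cSi χ i = s → T.V i k then l9aMu D.ms k / (l9cAv T χ s * D.Sc.Y) else 0

open Classical in
/-- the measure of the other coordinates -/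
noncomputable def l9cRho (o : L9cO D.N χ) : ℝ :=
  ∏ s, if χ.2 s.1 = true then T.om (o s) else if o s = 0 then 1 else 0

open Classical in
/-- the coefficient in the coordinates -/
noncomputable def l9cHc (v : L9cI χ → Fin (D.N + 2)) (o : L9cO D.N χ) : ℝ :=
  if L9aOk D.N χ (l9cGl χ v o) then T.H (l9aRec χ (l9cGl χ v o)) else 0

open Classical in
/-- the extra ratio on the chart -/
noncomputable def l9cKp : ℝ := if T.j = 2 ∧ (l9cDes χ).card = 2 then min (T.a 0) (T.a 1) / T.A else 1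

variable {D T χ}

theorem l9c_av_eq (hχ : L9cGood T χ) (i : Fin T.j) : l9cAv T χ (l9cSi χ i) = T.a i := by
  unfold l9cAv
  exact hχ.2 _ _ (congrArg Subtype.val (l9c_pr_spec χ (l9cSi χ i)))

theorem l9c_sum_k : ∑ s, l9cKv T χ s = T.j := by
  unfold l9cKv
  have h := Finset.card_eq_sum_card_fiberwise (s := (univ : Finset (Fin T.j))) (t := (univ : Finset (L9cI χ)))
    (f := l9cSi χ) (fun i _ => mem_univ _)
  rw [← h, Finset.card_univ, Fintype.card_fin]

theorem l9c_hmax (hT : T.Ok D) (hχ : L9cGood T χ) : ∃ s, l9cAv T χ s = T.A := by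
  obtain ⟨i, hi, h⟩ := hT.hmax
  exact ⟨l9cSi χ ⟨i, hi⟩, by rw [l9c_av_eq hχ]; exact h⟩

theorem l9c_hk (s : L9cI χ) : 1 ≤ l9cKv T χ s :=
  Finset.card_pos.mpr ⟨l9cPr χ s, mem_filter.mpr ⟨mem_univ _, l9c_pr_spec χ s⟩⟩

/-- PLAN: `min (a 0) (a 1) / A ∈ [0,1]` from `ha1`, `haA` (`j = 2`). -/
theorem l9c_kp_nonneg (hT : T.Ok D) : 0 ≤ l9cKp T χ := by
  have hj := hT.hj
  unfold l9cKp
  split_ifs with h
  · have h0 : (1 : ℝ) ≤ T.a 0 := hT.ha1 0 (by omega)
    have h1 : (1 : ℝ) ≤ T.a 1 := hT.ha1 1 (by omega)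
    have hA : T.a 0 ≤ T.A := hT.haA 0 (by omega)
    exact div_nonneg (le_min (by linarith) (by linarith)) (by linarith)
  · exact zero_le_one

theorem l9c_kp_le_one (hT : T.Ok D) : l9cKp T χ ≤ 1 := by
  have hj := hT.hj
  unfold l9cKp
  split_ifs with h
  · have h0 : (1 : ℝ) ≤ T.a 0 := hT.ha1 0 (by omega)
    have hA : T.a 0 ≤ T.A := hT.haA 0 (by omega)
    rw [div_le_one (by linarith)]
    exact (min_le_left _ _).trans hA
  · exact le_rfl

/-- PLAN: `Fintype.card (L9cI χ) = (l9cDes χ).card` (`Fintype.card_coe`), `l9c_sum_k`; `(l9cPr χ s : ℕ) ∈ {0, 1}`. -/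
theorem l9c_kp_two (hT : T.Ok D) (h1 : Fintype.card (L9cI χ) = 2) (h2 : ∑ s, l9cKv T χ s = 2) (s : L9cI χ) :
    l9cKp T χ ≤ l9cAv T χ s / T.A := by
  have hj : T.j = 2 := by rw [← h2, l9c_sum_k]
  have hc : (l9cDes χ).card = 2 := (Fintype.card_coe (l9cDes χ)).symm.trans h1
  have h0 : (1 : ℝ) ≤ T.a 0 := hT.ha1 0 (by omega)
  have hA : T.a 0 ≤ T.A := hT.haA 0 (by omega)
  unfold l9cKp l9cAv
  rw [if_pos ⟨hj, hc⟩]
  refine div_le_div_of_nonneg_right ?_ (by linarith)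
  have hp : ((l9cPr χ s : Fin T.j) : ℕ) = 0 ∨ ((l9cPr χ s : Fin T.j) : ℕ) = 1 := by
    have := (l9cPr χ s).2
    omega
  rcases hp with hp | hp
  · rw [hp]; exact min_le_left _ _
  · rw [hp]; exact min_le_right _ _

/-- the allowed depths of a vertex lie in its band -/
theorem l9c_nu_cond (hT : T.Ok D) {s : L9cI χ} {k : Fin (D.N + 2)} (h : ∀ i : Fin T.j, l9cSi χ i = s → T.V i k) :
    D.rg k ∧ D.sc k = l9cAv T χ s :=
  hT.hV _ _ (l9cPr χ s).2 (h _ (l9c_pr_spec χ s))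

variable [Fintype S] [Inhabited S]

open Classical in
/-- sums over the allowed depths are dominated by band sums.   PLAN: `Fin.sum_univ_eq_sum_range`, `Finset.sum_filter`, `sum_le_sum_of_subset_of_nonneg`, `l9a_mu_nonneg`. -/
theorem l9c_band_sum (hD : D.Ok) (P Q : ℕ → Prop) (hPQ : ∀ t, P t → Q t ∧ t ≤ D.N) (g : ℕ → ℝ) (hg : ∀ t, 0 ≤ g t) :
    ∑ k : Fin (D.N + 2), (if P k then l9aMu D.ms k * g k else 0) ≤ ∑ t ∈ (range (D.N + 1)).filter Q, l9aMu D.ms t * g t := by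
  rw [Fin.sum_univ_eq_sum_range (fun t => if P t then l9aMu D.ms t * g t else 0) (D.N + 2), ← Finset.sum_filter]
  refine Finset.sum_le_sum_of_subset_of_nonneg ?_ ?_
  · intro t ht
    rw [Finset.mem_filter] at ht ⊢
    obtain ⟨h1, h2⟩ := hPQ t ht.2
    exact ⟨Finset.mem_range.mpr (by omega), h1⟩
  · intro t ht _
    rw [Finset.mem_filter, Finset.mem_range] at ht
    exact mul_nonneg (l9a_mu_nonneg hD.hms (by omega)) (hg t)

theorem l9c_nu_nonneg (hD : D.Ok) (hT : T.Ok D) (s : L9cI χ) (k : Fin (D.N + 2)) : 0 ≤ l9cNu D T χ s k := by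
  unfold l9cNu
  split_ifs with h
  · have h1 := l9c_nu_cond hT h
    exact div_nonneg (l9a_mu_nonneg hD.hms (hD.rgN _ h1.1))
      (mul_nonneg (le_trans zero_le_one (hT.ha1 _ (l9cPr χ s).2)) D.Sc.Y_pos.le)
  · exact le_rfl

/-- PLAN: `l9c_band_sum` with `g = 1`, `hD.mass (l9cAv s)`; `Lo ≤ Lo ^ (2 j + 1)`. -/
theorem l9c_nu_sum (hD : D.Ok) (hT : T.Ok D) (s : L9cI χ) : ∑ k, l9cNu D T χ s k ≤ D.Lo := by
  have ha : 1 ≤ l9cAv T χ s := hT.ha1 _ (l9cPr χ s).2
  have hr : 0 < l9cAv T χ s * D.Sc.Y := mul_pos (by linarith) D.Sc.Y_pos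
  have h1 := l9c_band_sum hD (fun t => ∀ i : Fin T.j, l9cSi χ i = s → T.V i t) (fun t => D.rg t ∧ D.sc t = l9cAv T χ s)
    (fun t h => by
      have h2 := hT.hV _ _ (l9cPr χ s).2 (h _ (l9c_pr_spec χ s))
      exact ⟨h2, hD.rgN _ h2.1⟩) (fun _ => 1) (fun _ => zero_le_one)
  have h2 := hD.mass _ ha
  have e : ∑ k, l9cNu D T χ s k * (l9cAv T χ s * D.Sc.Y)
      = ∑ k : Fin (D.N + 2), (@ite ℝ (∀ i : Fin T.j, l9cSi χ i = s → T.V i k) (Classical.propDecidable _) (l9aMu D.ms k * 1) 0) := by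
    refine Finset.sum_congr rfl fun k _ => ?_
    unfold l9cNu
    split_ifs
    · rw [mul_one, div_mul_cancel₀ _ hr.ne']
    · rw [zero_mul]
  have h3 : (∑ k, l9cNu D T χ s k) * (l9cAv T χ s * D.Sc.Y) ≤ D.Lo * (l9cAv T χ s * D.Sc.Y) := by
    rw [Finset.sum_mul, e]
    refine h1.trans (le_trans (le_of_eq ?_) h2)
    exact Finset.sum_congr (by ext t; simp only [Finset.mem_filter]) (fun t _ => mul_one _)
  exact le_of_mul_le_mul_right h3 hr

theorem l9c_env_le (hD : D.Ok) (hT : T.Ok D) (s : L9cI χ) (k : Fin (D.N + 2)) (h : l9cNu D T χ s k ≠ 0) :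
    D.env k ≤ D.Lo * (l9cAv T χ s * D.Sc.Y) := by
  have h2 : ∀ i' : Fin T.j, l9cSi χ i' = s → T.V i' k := by
    by_contra hn
    exact h (by unfold l9cNu; rw [if_neg hn])
  have h3 := l9c_nu_cond hT h2
  have h4 := hD.env1 _ h3.1
  rwa [h3.2] at h4

/-- PLAN: `l9c_band_sum` with `g = env ^ 2`, `hD.env2`. -/
theorem l9c_env_sq (hD : D.Ok) (hT : T.Ok D) (s : L9cI χ) :
    ∑ k, l9cNu D T χ s k * D.env k ^ 2 ≤ D.Lo * (D.Sc.Y ^ 2 / (l9cAv T χ s * D.Sc.Y)) ^ 2 := by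
  have ha : 1 ≤ l9cAv T χ s := hT.ha1 _ (l9cPr χ s).2
  have hr : 0 < l9cAv T χ s * D.Sc.Y := mul_pos (by linarith) D.Sc.Y_pos
  have h1 := l9c_band_sum hD (fun t => ∀ i : Fin T.j, l9cSi χ i = s → T.V i t) (fun t => D.rg t ∧ D.sc t = l9cAv T χ s)
    (fun t h => by
      have h2 := hT.hV _ _ (l9cPr χ s).2 (h _ (l9c_pr_spec χ s))
      exact ⟨h2, hD.rgN _ h2.1⟩) (fun t => D.env t ^ 2) (fun _ => sq_nonneg _)
  have h2 := hD.env2 _ ha
  have e : ∑ k, l9cNu D T χ s k * D.env k ^ 2 * (l9cAv T χ s * D.Sc.Y)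
      = ∑ k : Fin (D.N + 2), (@ite ℝ (∀ i : Fin T.j, l9cSi χ i = s → T.V i k) (Classical.propDecidable _)
          (l9aMu D.ms k * D.env k ^ 2) 0) := by
    refine Finset.sum_congr rfl fun k _ => ?_
    unfold l9cNu
    split_ifs
    · rw [mul_right_comm, div_mul_cancel₀ _ hr.ne']
    · rw [zero_mul, zero_mul]
  have h3 : (∑ k, l9cNu D T χ s k * D.env k ^ 2) * (l9cAv T χ s * D.Sc.Y)
      ≤ D.Lo * (D.Sc.Y ^ 2 / (l9cAv T χ s * D.Sc.Y)) ^ 2 * (l9cAv T χ s * D.Sc.Y) := by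
    rw [Finset.sum_mul, e]
    refine h1.trans (le_trans (le_of_eq ?_) (h2.trans (le_of_eq (by ring))))
    exact Finset.sum_congr (by ext t; simp only [Finset.mem_filter]) (fun t _ => rfl)
  exact le_of_mul_le_mul_right h3 hr

theorem l9c_rho_nonneg (hT : T.Ok D) (o : L9cO D.N χ) : 0 ≤ l9cRho D T χ o := by
  unfold l9cRho
  refine Finset.prod_nonneg fun s _ => ?_
  split_ifs
  · exact hT.hom0 _
  · exact zero_le_one
  · exact le_rfl

/-- PLAN: `Fintype.prod_sum` (as in `l9a_dens`): `∑_o ∏_s f s (o s) = ∏_s ∑_k f s k`, each factor `≤ Lo` (`hom1`, resp. `= 1`), at most `2 j` factors. -/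
theorem l9c_rho_sum (hD : D.Ok) (hT : T.Ok D) : ∑ o, l9cRho D T χ o ≤ D.Lo ^ (2 * T.j) := by
  classical
  unfold l9cRho
  rw [← Fintype.prod_sum (fun (s : {s : Fin (2 * T.j) // ¬ s ∈ l9cDes χ}) (k : Fin (D.N + 2)) =>
    if χ.2 s.1 = true then T.om k else if k = 0 then 1 else 0)]
  have h1 : ∀ s : {s : Fin (2 * T.j) // ¬ s ∈ l9cDes χ},
      ∑ k : Fin (D.N + 2), (if χ.2 s.1 = true then T.om k else if k = 0 then (1 : ℝ) else 0) ≤ D.Lo := by
    intro s
    by_cases hs : χ.2 s.1 = true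
    · simp only [if_pos hs]
      rw [Fin.sum_univ_eq_sum_range (fun k => T.om k) (D.N + 2)]
      exact hT.hom1
    · simp only [if_neg hs]
      rw [Finset.sum_ite_eq' univ (0 : Fin (D.N + 2)) (fun _ => (1 : ℝ)), if_pos (mem_univ _)]
      exact hD.hLo
  have h0 : ∀ s : {s : Fin (2 * T.j) // ¬ s ∈ l9cDes χ},
      0 ≤ ∑ k : Fin (D.N + 2), (if χ.2 s.1 = true then T.om k else if k = 0 then (1 : ℝ) else 0) := by
    intro s
    refine Finset.sum_nonneg fun k _ => ?_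
    split_ifs
    · exact hT.hom0 _
    · exact zero_le_one
    · exact le_rfl
  calc _ ≤ ∏ _s : {s : Fin (2 * T.j) // ¬ s ∈ l9cDes χ}, D.Lo := Finset.prod_le_prod (fun s _ => h0 s) (fun s _ => h1 s)
    _ = D.Lo ^ Fintype.card {s : Fin (2 * T.j) // ¬ s ∈ l9cDes χ} := by rw [Finset.prod_const, Finset.card_univ]
    _ ≤ D.Lo ^ (2 * T.j) := by
        refine pow_le_pow_right₀ hD.hLo ?_
        calc Fintype.card {s : Fin (2 * T.j) // ¬ s ∈ l9cDes χ} ≤ Fintype.card (Fin (2 * T.j)) := Fintype.card_subtype_le _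
          _ = 2 * T.j := Fintype.card_fin _

/-- on a valid pair (chart, coordinates): the fork label of the pair `i` -/
theorem l9c_vx_eq {c : Fin (2 * T.j) → Fin (D.N + 2)} (h : L9aOk D.N χ c) (i : Fin T.j) (hi : (χ.1 (l9cL i) (l9cR i)).isSome) :
    l9aVx (l9aRec χ c) (2 * i) (2 * i + 1) = l9cSg χ i := by
  classical
  have h1 := congrArg (fun χ' : L9aChart (2 * T.j) => χ'.1 (l9cL i) (l9cR i)) h.2.1
  simp only [l9aCh] at h1
  obtain ⟨s, hs⟩ := Option.isSome_iff_exists.mp hi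
  unfold l9cSg
  rw [hs] at h1 ⊢
  rw [Option.getD_some]
  split_ifs at h1 with a1 a2
  have := Option.some.inj h1
  rw [← this]
  rfl

/-- on a valid pair: the split depth of the pair `i` is the coordinate of its fork -/
theorem l9c_dp_eq (c : Fin (2 * T.j) → Fin (D.N + 2)) (i : Fin T.j) (hi : (χ.1 (l9cL i) (l9cR i)).isSome) :
    l9cDp (l9aRec χ c) i = c (l9cSg χ i) := by
  obtain ⟨s, hs⟩ := Option.isSome_iff_exists.mp hi
  show l9aRec χ c (l9cL i : ℕ) (l9cR i : ℕ) = _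
  rw [l9a_rec_apply]
  unfold l9cSg
  rw [hs, Option.getD_some]
  rfl

theorem l9c_gl_des {N : ℕ} {j : ℕ} (χ : L9aChart (2 * j)) (v : L9cI χ → Fin (N + 2)) (o : L9cO N χ) (s : L9cI χ) :
    l9cGl χ v o s.1 = v s := by
  unfold l9cGl
  rw [dif_pos s.2]

theorem l9c_gl_oth {N : ℕ} {j : ℕ} (χ : L9aChart (2 * j)) (v : L9cI χ → Fin (N + 2)) (o : L9cO N χ)
    (s : {s : Fin (2 * j) // ¬ s ∈ l9cDes χ}) : l9cGl χ v o s.1 = o s := by
  unfold l9cGl
  rw [dif_neg s.2]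

theorem l9c_av_pos (hT : T.Ok D) (s : L9cI χ) : 0 < l9cAv T χ s * D.Sc.Y :=
  mul_pos (lt_of_lt_of_le zero_lt_one (hT.ha1 _ (l9cPr χ s).2)) D.Sc.Y_pos

theorem l9c_sg_some (i : Fin T.j) (hi : (χ.1 (l9cL i) (l9cR i)).isSome) : χ.1 (l9cL i) (l9cR i) = some (l9cSg χ i) := by
  unfold l9cSg
  obtain ⟨s, hs⟩ := Option.isSome_iff_exists.mp hi
  rw [hs]; rfl

/-- the extra ratio: table form = chart form -/
theorem l9c_kap_eq (hχ : L9cGood T χ) {c : Fin (2 * T.j) → Fin (D.N + 2)} (h : L9aOk D.N χ c) :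
    l9cKap T (l9aRec χ c) = l9cKp T χ := by
  unfold l9cKap l9cKp
  by_cases hj : T.j = 2
  · have e0 := l9c_vx_eq h ⟨0, by omega⟩ (hχ.1 _)
    have e1 := l9c_vx_eq h ⟨1, by omega⟩ (hχ.1 _)
    simp only [Nat.mul_zero, Nat.zero_add, Nat.mul_one] at e0 e1
    have hu : (univ : Finset (Fin T.j)) = {⟨0, by omega⟩, ⟨1, by omega⟩} := by
      ext i
      simp only [mem_univ, mem_insert, mem_singleton, true_iff, Fin.ext_iff]
      have := i.2
      omega
    have hc : (l9cDes χ).card = 2 ↔ l9aVx (l9aRec χ c) 0 1 ≠ l9aVx (l9aRec χ c) 2 3 := by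
      unfold l9cDes
      rw [hu, image_insert, image_singleton, e0, e1]
      constructor
      · intro hc hne
        have : l9cSg χ ⟨0, by omega⟩ = l9cSg χ ⟨1, by omega⟩ := Fin.ext hne
        rw [this] at hc
        simp at hc
      · intro hne
        exact card_pair (fun hh => hne (congrArg Fin.val hh))
    simp only [hj, true_and, hc]
  · simp [hj]

/-- the product of the weights of (E2) in the coordinates -/
theorem l9c_wt_prod (hχ : L9cGood T χ) (v : L9cI χ → Fin (D.N + 2)) (o : L9cO D.N χ) (h : L9aOk D.N χ (l9cGl χ v o)) :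
    ∏ s ∈ Ico 1 (2 * T.j), l9cWt D T (l9aRec χ (l9cGl χ v o)) s
      = (∏ s : L9cI χ, l9aMu D.ms (v s) / (T.A * D.Sc.Y)) * l9cRho D T χ o := by
  classical
  set c := l9cGl χ v o with hc
  set τ := l9aRec χ c with hτ
  have h0 : l9cWt D T τ 0 = 1 := by
    unfold l9cWt
    rw [if_neg (fun hh : L9aNew D.N τ 0 => by have := hh.1; omega)]
  have e1 : ∏ s ∈ Ico 1 (2 * T.j), l9cWt D T τ s = ∏ s : Fin (2 * T.j), l9cWt D T τ s := by
    rw [Fin.prod_univ_eq_prod_range (fun s => l9cWt D T τ s) (2 * T.j)]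
    rcases Nat.eq_zero_or_pos (2 * T.j) with hz | hpos
    · rw [hz]; simp
    · rw [Finset.range_eq_Ico, Finset.prod_eq_prod_Ico_succ_bot hpos, h0, one_mul]
  rw [e1, ← Finset.prod_mul_prod_compl (l9cDes χ) (fun s : Fin (2 * T.j) => l9cWt D T τ s),
    Finset.prod_subtype (l9cDes χ) (p := fun s => s ∈ l9cDes χ) (fun x => Iff.rfl) _,
    Finset.prod_subtype (l9cDes χ)ᶜ (p := fun s => ¬ s ∈ l9cDes χ) (fun x => mem_compl) _]
  congr 1
  · refine Finset.prod_congr rfl fun s _ => ?_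
    obtain ⟨i, -, hi⟩ := mem_image.mp s.2
    have hfl : χ.2 s.1 = true := h.flag (a := l9cL i) (b := l9cR i) (by rw [l9c_sg_some i (hχ.1 i), hi])
    have hnew : L9aNew D.N τ s.1 := (h.new_iff s.1).mpr hfl
    have hdes : ∃ i, i < T.j ∧ l9aVx τ (2 * i) (2 * i + 1) = s.1 :=
      ⟨i, i.2, by rw [l9c_vx_eq h i (hχ.1 i), hi]⟩
    unfold l9cWt
    rw [if_pos hnew, if_pos hdes, h.bj hfl, hc, l9c_gl_des χ v o]
  · unfold l9cRho
    refine Finset.prod_congr rfl fun s _ => ?_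
    have hdes : ¬ ∃ i, i < T.j ∧ l9aVx τ (2 * i) (2 * i + 1) = s.1 := by
      rintro ⟨i, hi, e⟩
      apply s.2
      have e2 := l9c_vx_eq h ⟨i, hi⟩ (hχ.1 _)
      have : l9cSg χ ⟨i, hi⟩ = s.1 := Fin.ext (by rw [← e2]; exact e)
      rw [← this]
      exact mem_image_of_mem _ (mem_univ _)
    unfold l9cWt
    by_cases hfl : χ.2 s.1 = true
    · rw [if_pos ((h.new_iff s.1).mpr hfl), if_neg hdes, if_pos hfl, h.bj hfl, hc, l9c_gl_oth χ v o]
    · rw [if_neg (fun hh => hfl ((h.new_iff s.1).mp hh)), if_neg hfl]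
      have := h.old hfl
      rw [hc, l9c_gl_oth χ v o] at this
      rw [if_pos this]

theorem l9c_hH (hD : D.Ok) (hT : T.Ok D) (hχ : L9cGood T χ) (v : L9cI χ → Fin (D.N + 2)) (o : L9cO D.N χ) :
    |l9cHc D T χ v o| ≤ D.Lo ^ (2 * T.j + 1) * D.Sc.lam * (T.A * D.Sc.Y) ^ ((5 : ℤ) - (∑ s, l9cKv T χ s : ℕ)) * l9cKp T χ * l9cRho D T χ o
        * ∏ s, ((l9cAv T χ s * D.Sc.Y) / (T.A * D.Sc.Y) * l9cNu D T χ s (v s)) := by
  have hA : 0 < T.A := by
    obtain ⟨i, hi, h⟩ := hT.hmax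
    rw [← h]; exact lt_of_lt_of_le zero_lt_one (hT.ha1 i hi)
  have hAY : 0 < T.A * D.Sc.Y := mul_pos hA D.Sc.Y_pos
  have hLo0 : 0 < D.Lo := lt_of_lt_of_le zero_lt_one hD.hLo
  have hz : 0 < (T.A * D.Sc.Y) ^ ((5 : ℤ) - (∑ s, l9cKv T χ s : ℕ)) := zpow_pos hAY _
  have hP : 0 ≤ ∏ s, ((l9cAv T χ s * D.Sc.Y) / (T.A * D.Sc.Y) * l9cNu D T χ s (v s)) :=
    Finset.prod_nonneg fun s _ => mul_nonneg (div_nonneg (l9c_av_pos hT s).le hAY.le) (l9c_nu_nonneg hD hT s _)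
  have hrest : 0 ≤ D.Sc.lam * (T.A * D.Sc.Y) ^ ((5 : ℤ) - (∑ s, l9cKv T χ s : ℕ)) * l9cKp T χ * l9cRho D T χ o
        * ∏ s, ((l9cAv T χ s * D.Sc.Y) / (T.A * D.Sc.Y) * l9cNu D T χ s (v s)) :=
    mul_nonneg (mul_nonneg (mul_nonneg (mul_nonneg D.Sc.hlam.le hz.le) (l9c_kp_nonneg hT)) (l9c_rho_nonneg hT o)) hP
  have hR : 0 ≤ D.Lo ^ (2 * T.j + 1) * D.Sc.lam * (T.A * D.Sc.Y) ^ ((5 : ℤ) - (∑ s, l9cKv T χ s : ℕ)) * l9cKp T χ * l9cRho D T χ o
        * ∏ s, ((l9cAv T χ s * D.Sc.Y) / (T.A * D.Sc.Y) * l9cNu D T χ s (v s)) := by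
    have := mul_nonneg (pow_pos hLo0 (2 * T.j + 1)).le hrest
    calc (0 : ℝ) ≤ _ := this
      _ = _ := by ring
  unfold l9cHc
  by_cases hok : L9aOk D.N χ (l9cGl χ v o)
  · rw [if_pos hok]
    by_cases hH0 : T.H (l9aRec χ (l9cGl χ v o)) = 0
    · rw [hH0, abs_zero]; exact hR
    · have e2 := hT.e2 _ hok.1
      rw [l9c_kap_eq hχ hok, l9c_wt_prod hχ v o hok] at e2
      have hnu : ∀ s : L9cI χ, (l9cAv T χ s * D.Sc.Y) / (T.A * D.Sc.Y) * l9cNu D T χ s (v s)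
          = l9aMu D.ms (v s) / (T.A * D.Sc.Y) := by
        intro s
        have hcond : ∀ i : Fin T.j, l9cSi χ i = s → T.V i (v s) := by
          intro i hi
          have h1 := hT.supp _ hok.1 hH0 i i.2
          rw [l9c_dp_eq _ i (hχ.1 i)] at h1
          have h2 : l9cGl χ v o (l9cSg χ i) = v s := by
            rw [← hi]; exact l9c_gl_des χ v o (l9cSi χ i)
          rw [h2] at h1
          exact h1
        unfold l9cNu
        rw [if_pos hcond]
        have := (l9c_av_pos (D := D) hT s).ne'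
        rw [div_mul_div_comm, mul_comm (l9cAv T χ s * D.Sc.Y) (l9aMu D.ms (v s)),
          mul_div_mul_right _ _ this]
      simp only [hnu]
      rw [l9c_sum_k]
      refine e2.trans ?_
      have hLe : D.Lo ≤ D.Lo ^ (2 * T.j + 1) := le_self_pow₀ hD.hLo (by omega)
      have hrest' : 0 ≤ D.Sc.lam * (T.A * D.Sc.Y) ^ ((5 : ℤ) - (T.j : ℕ)) * l9cKp T χ * l9cRho D T χ o
          * ∏ s : L9cI χ, l9aMu D.ms (v s) / (T.A * D.Sc.Y) := by
        have := hrest
        simp only [hnu] at this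
        rw [l9c_sum_k] at this
        exact this
      calc _ = D.Lo * (D.Sc.lam * (T.A * D.Sc.Y) ^ ((5 : ℤ) - (T.j : ℕ)) * l9cKp T χ * l9cRho D T χ o
          * ∏ s : L9cI χ, l9aMu D.ms (v s) / (T.A * D.Sc.Y)) := by ring
        _ ≤ D.Lo ^ (2 * T.j + 1) * (D.Sc.lam * (T.A * D.Sc.Y) ^ ((5 : ℤ) - (T.j : ℕ)) * l9cKp T χ * l9cRho D T χ o
          * ∏ s : L9cI χ, l9aMu D.ms (v s) / (T.A * D.Sc.Y)) := mul_le_mul_of_nonneg_right hLe hrest'
        _ = _ := by ring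
  · rw [if_neg hok, abs_zero]; exact hR

/-- **PRODUCER of `L13CC`** (weights, bands, envelope) on the chart `χ` -/
noncomputable def l9cCC (hD : D.Ok) (hT : T.Ok D) (hχ : L9cGood T χ) : L13CC (L9cI χ) (Fin (D.N + 2)) (L9cO D.N χ) where
  S := D.Sc
  Lo := D.Lo ^ (2 * T.j + 1)
  a := l9cAv T χ
  A := T.A
  k := l9cKv T χ
  kap := l9cKp T χ
  nu := l9cNu D T χ
  env := fun _ k => D.env k
  rho := l9cRho D T χ
  H := l9cHc D T χ
  hLo := one_le_pow₀ hD.hLo
  h1 := fun s => hT.ha1 _ (l9cPr χ s).2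
  hA := fun s => hT.haA _ (l9cPr χ s).2
  hmax := l9c_hmax hT hχ
  hk := l9c_hk
  hj := by rw [l9c_sum_k]; exact hT.hj
  hkap0 := l9c_kp_nonneg hT
  hkap1 := l9c_kp_le_one hT
  hkap2 := l9c_kp_two hT
  hnu0 := l9c_nu_nonneg hD hT
  hnu1 := fun s => (l9c_nu_sum hD hT s).trans (le_self_pow₀ hD.hLo (by omega))
  henv0 := fun _ k => hD.env0 k
  henv1 := fun s k h => (l9c_env_le hD hT s k h).trans (mul_le_mul_of_nonneg_right (le_self_pow₀ hD.hLo (by omega))
    (mul_nonneg (le_trans zero_le_one (hT.ha1 _ (l9cPr χ s).2)) D.Sc.Y_pos.le))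
  henv2 := fun s => (l9c_env_sq hD hT s).trans (mul_le_mul_of_nonneg_right (le_self_pow₀ hD.hLo (by omega)) (sq_nonneg _))
  hrho0 := l9c_rho_nonneg hT
  hrho1 := (l9c_rho_sum hD hT).trans (pow_le_pow_right₀ hD.hLo (by omega))
  hH := l9c_hH hD hT hχ

end prod

/-! ## 4. PRODUCER of `L13Fac` on one chart -/

section fac
variable {S : Type} [Fintype S] [Inhabited S] {D : L9cD S} {T : L9cT} {χ : L9aChart (2 * T.j)}

theorem L9cD.Ok.N_eq (hD : D.Ok) (e : Bool) : (D.X e).N = D.N := by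
  cases e
  · rfl
  · exact hD.hN

open Classical in
/-- the probability vector of the positive law of the table `τ` (a point mass if `τ` is not a tree) -/
noncomputable def l9cW (hD : D.Ok) (n : ℕ) (e : Bool) (τ : JtTopo) : (Fin n → S) → ℝ :=
  if h : IsTr (D.X e).N n τ then ((hD.pos e).rep n τ h).choose else fun ω => if ω = default then 1 else 0

theorem l9c_w_nonneg (hD : D.Ok) (n : ℕ) (e : Bool) (τ : JtTopo) (ω : Fin n → S) : 0 ≤ l9cW hD n e τ ω := by
  unfold l9cW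
  split_ifs with h
  · exact ((hD.pos e).rep n τ h).choose_spec.1 ω
  · beta_reduce
    split_ifs
    · exact zero_le_one
    · exact le_rfl

theorem l9c_w_sum (hD : D.Ok) (n : ℕ) (e : Bool) (τ : JtTopo) : ∑ ω, l9cW hD n e τ ω = 1 := by
  unfold l9cW
  split_ifs with h
  · exact ((hD.pos e).rep n τ h).choose_spec.2.1
  · simp

theorem l9c_w_rep (hD : D.Ok) {n : ℕ} (e : Bool) {τ : JtTopo} (h : IsTr D.N n τ) (P : (ℕ → S) → ℝ) :
    (D.X e).nu n τ P = ∑ ω, l9cW hD n e τ ω * P (trExt ω) := by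
  have h' : IsTr (D.X e).N n τ := by rw [hD.N_eq e]; exact h
  unfold l9cW
  rw [dif_pos h']
  exact ((hD.pos e).rep n τ h').choose_spec.2.2 P

/-- **pair marginal**.   PLAN: `l9c_w_rep`, then `l9r_nu_pull` with `f x = 2 i + x`, `l9r_pair_two`. -/
theorem l9c_w_pair (hD : D.Ok) (e : Bool) {τ : JtTopo} (h : IsTr D.N (2 * T.j) τ) (i : Fin T.j) (t : ℕ) (ht : l9cDp τ i = t) (g : ℝ → ℝ) :
    ∑ ω, l9cW hD (2 * T.j) e τ ω * g (D.dl e t (ω (l9cL i)) (ω (l9cR i))) = D.pm e t g := by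
  have h' : IsTr (D.X e).N (2 * T.j) τ := by rw [hD.N_eq e]; exact h
  have hi : 2 * (i : ℕ) + 1 < 2 * T.j := by have := i.2; omega
  have hag : L9aAg 2 (fun x y => τ (2 * (i : ℕ) + x) (2 * (i : ℕ) + y)) (l9rT2 D.N t) := by
    rw [← ht]
    exact l9r_pair_two h hi
  have hP : TrUses 2 (fun σ : ℕ → S => g (D.dl e t (σ 0) (σ 1))) := by
    intro σ σ' hσ
    show g (D.dl e t (σ 0) (σ 1)) = g (D.dl e t (σ' 0) (σ' 1))
    rw [hσ 0 (by omega), hσ 1 (by omega)]
  have h1 := l9r_nu_pull (hD.pos e) h' (fun x => 2 * (i : ℕ) + x) (fun x hx => by omega) hag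
    (fun σ : ℕ → S => g (D.dl e t (σ 0) (σ 1))) hP
  unfold L9cD.pm
  rw [← h1, l9c_w_rep hD e h]
  refine Finset.sum_congr rfl fun ω _ => ?_
  have e0 : trExt ω (2 * (i : ℕ) + 0) = ω (l9cL i) := by
    unfold trExt
    rw [dif_pos (by omega)]
    rfl
  have e1 : trExt ω (2 * (i : ℕ) + 1) = ω (l9cR i) := by
    unfold trExt
    rw [dif_pos hi]
    rfl
  beta_reduce
  rw [e0, e1]

/-- the factor `i` in the coordinates -/
def l9cX (D : L9cD S) (T : L9cT) (χ : L9aChart (2 * T.j)) (e : Bool) (v : L9cI χ → Fin (D.N + 2)) (i : Fin T.j) (ω : Fin (2 * T.j) → S) : ℝ :=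
  if (i : ℕ) ∈ T.St then D.dl e (v (l9cSi χ i)) (ω (l9cL i)) (ω (l9cR i)) else T.phi i (v (l9cSi χ i))

/-- on the support of the coefficient the depths are allowed -/
theorem l9c_supp_V (hD : D.Ok) (hT : T.Ok D) (hχ : L9cGood T χ) {v : L9cI χ → Fin (D.N + 2)} {o : L9cO D.N χ}
    (h : l9cHc D T χ v o ≠ 0) (i : Fin T.j) : T.V i (v (l9cSi χ i)) := by
  have hok : L9aOk D.N χ (l9cGl χ v o) := by
    by_contra hn
    exact h (by unfold l9cHc; rw [if_neg hn])
  unfold l9cHc at h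
  rw [if_pos hok] at h
  have h1 := hT.supp _ hok.1 h i i.2
  rw [l9c_dp_eq (D := D) _ i (hχ.1 i)] at h1
  have h2 : l9cGl χ v o (l9cSg χ i) = v (l9cSi χ i) := l9c_gl_des χ v o (l9cSi χ i)
  rw [h2] at h1
  exact h1

/-- on the support of the coefficient the table is a tree -/
theorem l9c_supp_ok {v : L9cI χ → Fin (D.N + 2)} {o : L9cO D.N χ} (h : l9cHc D T χ v o ≠ 0) : L9aOk D.N χ (l9cGl χ v o) := by
  by_contra hn
  exact h (by unfold l9cHc; rw [if_neg hn])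

/-- PLAN: `l9c_w_pair` with `g = |·|^n`, `hD.mom`; the depth by `l9c_dp_eq`; `n = T.j` (`Fintype.card_fin`) or `n = p0`, `2 ≤ j ≤ p0`. -/
theorem l9c_hmom (hD : D.Ok) (hT : T.Ok D) (hχ : L9cGood T χ) (e : Bool) (v : L9cI χ → Fin (D.N + 2)) (o : L9cO D.N χ) (i : Fin T.j)
    (h : l9cHc D T χ v o ≠ 0) (hi : (i : ℕ) ∈ T.St) (n : ℕ) (hn : n = Fintype.card (Fin T.j) ∨ n = D.p0) :
    ∑ ω, l9cW hD (2 * T.j) e (l9aRec χ (l9cGl χ v o)) ω * |l9cX D T χ e v i ω| ^ n ≤ (D.Lm * D.env (v (l9cSi χ i))) ^ n := by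
  have hok := l9c_supp_ok h
  have hV := l9c_supp_V hD hT hχ h i
  have hrg := (hT.hV i _ i.2 hV).1
  have hgl : l9cGl χ v o (l9cSg χ i) = v (l9cSi χ i) := by
    unfold l9cGl
    exact dif_pos (show l9cSg χ i ∈ l9cDes χ from (l9cSi χ i).2)
  have hdp : l9cDp (l9aRec χ (l9cGl χ v o)) i = (v (l9cSi χ i) : ℕ) := by
    rw [l9c_dp_eq _ i (hχ.1 i), hgl]
  have h1 := l9c_w_pair hD e hok.isTr i _ hdp (fun u => |u| ^ n)
  have e1 : ∀ ω, l9cX D T χ e v i ω = D.dl e (v (l9cSi χ i)) (ω (l9cL i)) (ω (l9cR i)) := fun ω => by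
    unfold l9cX; rw [if_pos hi]
  simp_rw [e1]
  rw [h1]
  have hj := hT.hj
  have hjp := hT.hjp
  refine hD.mom e _ n hrg ?_ ?_
  · rcases hn with rfl | rfl
    · rw [Fintype.card_fin]; omega
    · omega
  · rcases hn with rfl | rfl
    · rw [Fintype.card_fin]; exact hjp
    · exact le_rfl

/-- **PRODUCER of `L13Fac`** (factors, laws) on the chart `χ` -/
noncomputable def l9cFc (hD : D.Ok) (hT : T.Ok D) (hχ : L9cGood T χ) : L13Fac (l9cCC hD hT hχ) (Fin T.j) (Fin (2 * T.j) → S) where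
  sig := l9cSi χ
  St := univ.filter fun i : Fin T.j => (i : ℕ) ∈ T.St
  w := fun e v o => l9cW hD (2 * T.j) e (l9aRec χ (l9cGl χ v o))
  X := fun e v _ i ω => l9cX D T χ e v i ω
  phi := fun i k => T.phi i k
  M := D.M
  Lm := D.Lm
  p0 := D.p0
  hM0 := hD.hM0
  hLm0 := hD.hLm0
  hLm := hD.hLm.trans (le_self_pow₀ hD.hLo (by omega))
  hsig := fun _ => rfl
  hw0 := fun e v o ω => l9c_w_nonneg hD _ e _ ω
  hw1 := fun e v o => l9c_w_sum hD _ e _
  hdet := fun e v o i ω hi => by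
    have : ¬ (i : ℕ) ∈ T.St := fun h => hi (mem_filter.mpr ⟨mem_univ _, h⟩)
    simp [l9cX, this]
  hphi := fun i k hi hk => by
    have h1 : ¬ (i : ℕ) ∈ T.St := fun h => hi (mem_filter.mpr ⟨mem_univ _, h⟩)
    have h2 : ∀ i' : Fin T.j, l9cSi χ i' = l9cSi χ i → T.V i' k := by
      by_contra hn
      exact hk (by show l9cNu D T χ (l9cSi χ i) k = 0; unfold l9cNu; rw [if_neg hn])
    exact hT.hphi i k i.2 h1 (h2 i rfl)
  hM := fun e v o i ω h => by
    have hV := l9c_supp_V hD hT hχ h i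
    unfold l9cX
    split_ifs with hi
    · exact hD.bdd e _ _ _ (hT.hV i _ i.2 hV).1
    · exact hT.hphiM i _ i.2 hi hV
  henvpos := fun s k hk => by
    have h2 : ∀ i' : Fin T.j, l9cSi χ i' = s → T.V i' k := by
      by_contra hn
      exact hk (by show l9cNu D T χ s k = 0; unfold l9cNu; rw [if_neg hn])
    exact hD.envp k (l9c_nu_cond hT h2).1
  hmom := fun e v o i h hi n hn => l9c_hmom hD hT hχ e v o i h (mem_filter.mp hi).2 n hn

/-- the abstract number is the tree number.   PLAN: `l9c_w_rep`; `trExt ω (2 i) = ω (l9cL i)`; `Fin.prod_univ_eq_prod_range`; the depths by `l9c_dp_eq`. -/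
theorem l9c_T_eq (hD : D.Ok) (hT : T.Ok D) (hχ : L9cGood T χ) (e : Bool) (v : L9cI χ → Fin (D.N + 2)) (o : L9cO D.N χ)
    (h : L9aOk D.N χ (l9cGl χ v o)) : (l9cFc hD hT hχ).T e v o = D.num T e (l9aRec χ (l9cGl χ v o)) := by
  have hτ := h.isTr
  unfold L9cD.num
  rw [l9c_w_rep hD e hτ]
  show ∑ ω, l9cW hD (2 * T.j) e (l9aRec χ (l9cGl χ v o)) ω * ∏ i, l9cX D T χ e v i ω = _
  refine Finset.sum_congr rfl fun ω _ => ?_
  congr 1
  rw [← Fin.prod_univ_eq_prod_range (fun i => D.fac T e (l9aRec χ (l9cGl χ v o)) (trExt ω) i) T.j]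
  refine Finset.prod_congr rfl fun i _ => ?_
  have hgl : l9cGl χ v o (l9cSg χ i) = v (l9cSi χ i) := by
    unfold l9cGl
    exact dif_pos (show l9cSg χ i ∈ l9cDes χ from (l9cSi χ i).2)
  have hdp : l9cDp (l9aRec χ (l9cGl χ v o)) i = (v (l9cSi χ i) : ℕ) := by
    rw [l9c_dp_eq _ i (hχ.1 i), hgl]
  have e0 : trExt ω (2 * (i : ℕ)) = ω (l9cL i) := by
    unfold trExt
    rw [dif_pos (by have := i.2; omega)]
    rfl
  have e1 : trExt ω (2 * (i : ℕ) + 1) = ω (l9cR i) := by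
    unfold trExt
    rw [dif_pos (by have := i.2; omega)]
    rfl
  unfold l9cX L9cD.fac
  rw [hdp, e0, e1]

/-- the part of the chart is the abstract value.   PLAN: `Equiv.piEquivPiSubtypeProd (· ∈ l9cDes χ)` + `Fintype.sum_prod_type`; `l9c_T_eq`. -/
theorem l9c_valC_eq (hD : D.Ok) (hT : T.Ok D) (hχ : L9cGood T χ) : D.valC T χ = (l9cCC hD hT hχ).val (l9cFc hD hT hχ).dT := by
  classical
  unfold L9cD.valC L13CC.val
  rw [← (Equiv.piEquivPiSubtypeProd (fun s => s ∈ l9cDes χ) (fun _ => Fin (D.N + 2))).symm.sum_comp, Fintype.sum_prod_type]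
  refine Finset.sum_congr rfl fun v _ => Finset.sum_congr rfl fun o _ => ?_
  have e : (Equiv.piEquivPiSubtypeProd (fun s => s ∈ l9cDes χ) (fun _ => Fin (D.N + 2))).symm (v, o) = l9cGl χ v o := by
    funext s
    unfold l9cGl
    simp only [Equiv.piEquivPiSubtypeProd_symm_apply]
  rw [e]
  show _ = l9cHc D T χ v o * _
  unfold l9cHc
  split_ifs with h
  · unfold L13Fac.dT
    rw [l9c_T_eq hD hT hχ true v o h, l9c_T_eq hD hT hχ false v o h]
    rfl
  · rw [zero_mul]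

theorem l9c_good_of_ne (hD : D.Ok) (hT : T.Ok D) {c : Fin (2 * T.j) → Fin (D.N + 2)} (h : L9aOk D.N χ c) (hH : T.H (l9aRec χ c) ≠ 0) :
    L9cGood T χ := by
  have hV := hT.supp _ h.1 hH
  have h1 : ∀ i : Fin T.j, (χ.1 (l9cL i) (l9cR i)).isSome := by
    intro i
    have h2 := hD.rgN _ (hT.hV i _ i.2 (hV i i.2)).1
    have h3 : l9cDp (l9aRec χ c) i = l9aVal c (χ.1 (l9cL i) (l9cR i)) := l9a_rec_apply χ c (l9cL i) (l9cR i)
    rw [h3] at h2
    cases hx : χ.1 (l9cL i) (l9cR i) with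
    | none =>
      rw [hx] at h2
      have : l9aVal c (none : Option (Fin (2 * T.j))) = D.N + 1 := rfl
      omega
    | some s => rfl
  refine ⟨h1, fun i i' hii => ?_⟩
  have a1 := (hT.hV i _ i.2 (hV i i.2)).2
  have a2 := (hT.hV i' _ i'.2 (hV i' i'.2)).2
  rw [l9c_dp_eq (D := D) c i (h1 i)] at a1
  rw [l9c_dp_eq (D := D) c i' (h1 i'), ← hii] at a2
  rw [← a1, ← a2]

/-- a chart which is not good carries nothing.   PLAN: `hT.supp` + `hT.hV`: a pair with coincident ends has depth `N + 1 > N`; two pairs at one fork have the same depth, hence the same `sc`. -/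
theorem l9c_valC_bad (hD : D.Ok) (hT : T.Ok D) (hχ : ¬ L9cGood T χ) : D.valC T χ = 0 := by
  classical
  unfold L9cD.valC
  refine Finset.sum_eq_zero fun c _ => ?_
  split_ifs with h
  · by_cases hH : T.H (l9aRec χ c) = 0
    · rw [hH, zero_mul]
    · exact absurd (l9c_good_of_ne hD hT h hH) hχ
  · rfl

theorem l9c_gl_update {N j : ℕ} (χ : L9aChart (2 * j)) (v : L9cI χ → Fin (N + 2)) (o : L9cO N χ) (s0 : L9cI χ) (t : Fin (N + 2)) :
    l9cGl χ (Function.update v s0 t) o = Function.update (l9cGl χ v o) s0.1 t := by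
  funext s
  unfold l9cGl
  by_cases hs : s = s0.1
  · subst hs
    rw [dif_pos s0.2, Function.update_self, Function.update_self]
  · rw [Function.update_of_ne hs]
    by_cases h : s ∈ l9cDes χ
    · rw [dif_pos h, dif_pos h, Function.update_of_ne]
      intro hh
      exact hs (congrArg Subtype.val hh)
    · rw [dif_neg h, dif_neg h]

/-- **from the table form of the centred estimate to `Zhyp`**.   PLAN: `cc = l9cGl χ v o`, `l9cGl χ (update v s0 t) o = update (l9cGl χ v o) s0 t`; `|c t| ≤ l9cNu ≤ μ / (a Y)`; `G = T` on valid coordinates;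
`∏_{s ≠ s0} env ^ k_s = ∏_{i : sg i ≠ s0} env` (`L13Fac.regroup`). -/
theorem l9c_zhyp (hD : D.Ok) (hT : T.Ok D) (hχ : L9cGood T χ) (i0 : Fin T.j) (G : JtTopo → ℝ) (Tt : (L9cI χ → Fin (D.N + 2)) → L9cO D.N χ → ℝ)
    (hG : ∀ v o, L9aOk D.N χ (l9cGl χ v o) → Tt v o = G (l9aRec χ (l9cGl χ v o))) (Kz err : ℝ) (h : L9cCen D T χ i0 G Kz err) :
    (l9cCC hD hT hχ).Zhyp (l9cSi χ i0) Tt Kz err := by
  classical
  intro v o c hc1 hc2
  have hup : ∀ t, Function.update (l9cGl χ v o) (l9cSg χ i0) t = l9cGl χ (Function.update v (l9cSi χ i0) t) o := fun t =>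
    (l9c_gl_update χ v o (l9cSi χ i0) t).symm
  have hok : ∀ t, c t ≠ 0 → L9aOk D.N χ (l9cGl χ (Function.update v (l9cSi χ i0) t) o)
      ∧ T.H (l9aRec χ (l9cGl χ (Function.update v (l9cSi χ i0) t) o)) ≠ 0 := by
    intro t ht
    have h1 : l9cHc D T χ (Function.update v (l9cSi χ i0) t) o ≠ 0 := fun h0 => ht (hc2 t h0)
    have h2 := l9c_supp_ok h1
    refine ⟨h2, ?_⟩
    unfold l9cHc at h1
    rwa [if_pos h2] at h1
  have key := h (l9cGl χ v o) c (by
    intro t ht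
    rw [hup t]
    refine ⟨?_, hok t ht⟩
    have h1 : |c t| ≤ l9cNu D T χ (l9cSi χ i0) t := hc1 t
    unfold l9cNu at h1
    split_ifs at h1 with hcond
    · rwa [l9c_av_eq hχ] at h1
    · exact absurd (abs_nonpos_iff.mp h1) ht)
  have e1 : ∑ t, c t * Tt (Function.update v (l9cSi χ i0) t) o
      = ∑ t, c t * G (l9aRec χ (Function.update (l9cGl χ v o) (l9cSg χ i0) t)) := by
    refine Finset.sum_congr rfl fun t _ => ?_
    by_cases ht : c t = 0
    · rw [ht, zero_mul, zero_mul]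
    · rw [hup t, hG _ _ (hok t ht).1]
  rw [e1]
  refine key.trans (le_of_eq ?_)
  have e2 : (l9cCC hD hT hχ).a (l9cSi χ i0) = T.a i0 := l9c_av_eq hχ i0
  have e3 : (l9cCC hD hT hχ).k (l9cSi χ i0) = (univ.filter fun i => l9cSg χ i = l9cSg χ i0).card := by
    show (univ.filter fun i : Fin T.j => l9cSi χ i = l9cSi χ i0).card = _
    congr 1
    ext i
    simp only [mem_filter, mem_univ, true_and]
    exact Subtype.ext_iff
  have e4 : ∏ s ∈ Finset.univ.erase (l9cSi χ i0), (l9cCC hD hT hχ).env s (v s) ^ ((l9cCC hD hT hχ).k s)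
      = ∏ i ∈ univ.filter (fun i => l9cSg χ i ≠ l9cSg χ i0), D.env (l9cGl χ v o (l9cSg χ i)) := by
    have r1 : ∏ i ∈ univ.filter (fun i => l9cSg χ i ≠ l9cSg χ i0), D.env (l9cGl χ v o (l9cSg χ i))
        = ∏ i ∈ univ.filter (fun i => l9cSg χ i ≠ l9cSg χ i0), (fun s => D.env (v s)) (l9cSi χ i) := by
      refine Finset.prod_congr rfl fun i _ => ?_
      have : l9cGl χ v o (l9cSg χ i) = v (l9cSi χ i) := l9c_gl_des χ v o (l9cSi χ i)
      rw [this]
    rw [r1, ← Finset.prod_fiberwise _ (l9cSi χ), ← Finset.mul_prod_erase univ _ (mem_univ (l9cSi χ i0))]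
    have r2 : (univ.filter (fun i => l9cSg χ i ≠ l9cSg χ i0)).filter (fun i => l9cSi χ i = l9cSi χ i0) = ∅ := by
      ext i
      simp only [mem_filter, mem_univ, true_and, notMem_empty, iff_false, not_and]
      intro h1 h2
      exact h1 (congrArg Subtype.val h2)
    rw [r2, Finset.prod_empty, one_mul]
    refine Finset.prod_congr rfl fun s hs => ?_
    have hs' : s ≠ l9cSi χ i0 := (mem_erase.mp hs).1
    have r3 : (univ.filter (fun i => l9cSg χ i ≠ l9cSg χ i0)).filter (fun i => l9cSi χ i = s) = univ.filter fun i : Fin T.j => l9cSi χ i = s := by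
      ext i
      simp only [mem_filter, mem_univ, true_and]
      constructor
      · exact fun h => h.2
      · intro h1
        refine ⟨fun h2 => hs' ?_, h1⟩
        rw [← h1]
        exact Subtype.ext h2
    rw [r3]
    show D.env (v s) ^ (univ.filter fun i : Fin T.j => l9cSi χ i = s).card = _
    rw [← Finset.prod_const]
    refine Finset.prod_congr rfl fun i hi => ?_
    rw [(mem_filter.mp hi).2]
  rw [e2, e3, e4]
  rfl

end fac

/-! ## 5. one chart, one order of the masses -/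

section main
variable {S : Type} [Fintype S] [Inhabited S] {D : L9cD S} {T : L9cT}

/-- the loss of the table level -/
noncomputable def L9cD.LoC (D : L9cD S) (T : L9cT) : ℝ := D.Lo ^ (2 * T.j + 1)

/-- first contribution of (E3), one chart -/
noncomputable def L9cD.bLow (D : L9cD S) (T : L9cT) : ℝ :=
  2 * D.LoC T ^ (2 * T.j + 3) * (D.Sc.lam * D.Sc.Y ^ 5 * (D.Sc.x / D.Sc.Y))

/-- second contribution of (E3), one chart -/
noncomputable def L9cD.bHigh (D : L9cD S) (T : L9cT) (Kz err : ℝ) : ℝ :=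
  2 * Kz * D.LoC T ^ (2 * T.j + 4) * (D.Sc.lam * D.Sc.Y ^ 5 * D.Sc.gB)
    + 2 * D.LoC T ^ (T.j + 2) * (D.Sc.lam * (T.A * D.Sc.Y) ^ ((5 : ℤ) - (T.j : ℕ)) * (D.M ^ T.j * T.j * (D.Lm / D.Lo) ^ D.p0 + err))

/-- **one chart, an assigned vertex below `x`**.   PLAN: bad chart: `l9c_valC_bad`.  Good chart: if `T.a i0 ≠ 1` no depth is allowed (`hlw`, `hD.lw1`, `hT.hV`), all `l9cNu (l9cSi χ i0) = 0`, so `l9cHc = 0`;
otherwise `L13Fac.cc_low (l9cFc ..) (l9cSi χ i0)`, `hx` from `l9c_band_sum` + `hD.lw2`. -/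
theorem l9c_chart_low (hD : D.Ok) (hT : T.Ok D) (χ : L9aChart (2 * T.j)) (i0 : Fin T.j) (hlw : ∀ t, T.V i0 t → D.lw t) :
    |D.valC T χ| ≤ D.bLow T := by
  have hLo := hD.hLo
  have hb0 : 0 ≤ D.bLow T := by
    unfold L9cD.bLow L9cD.LoC
    have h1 := D.Sc.hlam
    have h2 := D.Sc.Y_pos
    have h3 := D.Sc.hx
    have h4 : 0 < D.Lo := by linarith
    positivity
  by_cases hχ : L9cGood T χ
  swap
  · rw [l9c_valC_bad hD hT hχ, abs_zero]; exact hb0
  by_cases ha : T.a i0 = 1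
  swap
  · have h0 : D.valC T χ = 0 := by
      unfold L9cD.valC
      refine Finset.sum_eq_zero fun c _ => ?_
      split_ifs with hok
      · by_cases hH : T.H (l9aRec χ c) = 0
        · rw [hH, zero_mul]
        · exfalso
          have hV := hT.supp _ hok.1 hH i0 i0.2
          have h1 := hT.hV _ _ i0.2 hV
          have h2 := hD.lw1 _ (hlw _ hV)
          exact ha (h1.2.symm.trans h2)
      · rfl
    rw [h0, abs_zero]; exact hb0
  have hav : l9cAv T χ (l9cSi χ i0) = 1 := by rw [l9c_av_eq hχ]; exact ha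
  rw [l9c_valC_eq hD hT hχ]
  have h := (l9cFc hD hT hχ).cc_low (l9cSi χ i0) hav ?_
  · have hj : (l9cCC hD hT hχ).j = T.j := l9c_sum_k
    rw [hj] at h
    exact h
  · show ∑ k, l9cNu D T χ (l9cSi χ i0) k ≤ D.Lo ^ (2 * T.j + 1) * (D.Sc.x / D.Sc.Y)
    have hY := D.Sc.Y_pos
    have h1 := l9c_band_sum hD (fun t => ∀ i : Fin T.j, l9cSi χ i = l9cSi χ i0 → T.V i t) (fun t => D.lw t)
      (fun t h => by
        have h2 := hT.hV _ _ i0.2 (h i0 rfl)
        exact ⟨hlw _ (h i0 rfl), hD.rgN _ h2.1⟩) (fun _ => 1) (fun _ => zero_le_one)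
    have h2 := hD.lw2
    have e : ∑ k, l9cNu D T χ (l9cSi χ i0) k * D.Sc.Y
        = ∑ k : Fin (D.N + 2), (@ite ℝ (∀ i : Fin T.j, l9cSi χ i = l9cSi χ i0 → T.V i k) (Classical.propDecidable _)
            (l9aMu D.ms k * 1) 0) := by
      refine Finset.sum_congr rfl fun k _ => ?_
      unfold l9cNu
      rw [hav, one_mul]
      split_ifs
      · rw [mul_one, div_mul_cancel₀ _ hY.ne']
      · rw [zero_mul]
    have h3 : (∑ k, l9cNu D T χ (l9cSi χ i0) k) * D.Sc.Y ≤ D.Lo * D.Sc.x := by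
      rw [Finset.sum_mul, e]
      refine h1.trans (le_trans (le_of_eq ?_) h2)
      exact Finset.sum_congr (by ext t; simp only [Finset.mem_filter]) (fun t _ => mul_one _)
    have h4 : D.Lo ≤ D.Lo ^ (2 * T.j + 1) := le_self_pow₀ hLo (by omega)
    rw [← mul_div_assoc, le_div_iff₀ hY]
    exact h3.trans (mul_le_mul_of_nonneg_right h4 D.Sc.hx.le)

/-- the stochastic pairs as a subset of `Fin j` -/
theorem l9c_card_St (hT : T.Ok D) : (univ.filter fun i : Fin T.j => (i : ℕ) ∈ T.St).card = T.St.card := by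
  rw [← Finset.card_map Fin.valEmbedding]
  congr 1
  ext x
  simp only [Finset.mem_map, Finset.mem_filter, Finset.mem_univ, true_and, Fin.valEmbedding_apply]
  constructor
  · rintro ⟨i, hi, rfl⟩
    exact hi
  · intro hx
    exact ⟨⟨x, Finset.mem_range.mp (hT.hSt hx)⟩, hx, rfl⟩

theorem l9c_bHigh_nonneg (hD : D.Ok) (hT : T.Ok D) {Kz err : ℝ} (hKz : 1 ≤ Kz) (herr : 0 ≤ err) : 0 ≤ D.bHigh T Kz err := by
  have hLo := hD.hLo
  have h1 := D.Sc.hlam
  have h2 := D.Sc.Y_pos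
  have h3 := D.Sc.gB_pos
  have h4 : 0 < D.Lo := by linarith
  have h5 := hD.hLm0
  have h6 := hD.hM0
  have h7 : 0 < T.A := by
    obtain ⟨i, hi, h⟩ := hT.hmax
    have := hT.ha1 i hi
    linarith
  have h8 : 0 < Kz := by linarith
  have h9 : 0 < (T.A * D.Sc.Y) ^ ((5 : ℤ) - (T.j : ℕ)) := zpow_pos (mul_pos h7 h2) _
  unfold L9cD.bHigh L9cD.LoC
  positivity

/-- **one chart, all the assigned vertices above `x`, the pair `i0` is the latest**.   PLAN: `L13Fac.cc_high (l9cFc ..)` with `D s k = D.Dv k`, `late = l9cSi χ i0`;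
`hvar`: `l9c_w_pair` with `g = (·)^2` + `hD.var`;  `hDsum`: `l9c_band_sum` + `hD.Dsum`;  `hlate`: `hD.scm` (if the chart carries something);  `hcenA`, `hcenC`: `l9c_zhyp`;
`terr ≤ M^j j (Lm/Lo)^p0` as `Lo ≤ LoC`;  `card ι ≤ j`, `kap ≤ 1`. -/
theorem l9c_chart_high (hD : D.Ok) (hT : T.Ok D) (χ : L9aChart (2 * T.j)) (i0 : Fin T.j) (hhi : ∀ i t, i < T.j → T.V i t → ¬ D.lw t)
    (hlate : ∀ τ ∈ l9aTab D.N (2 * T.j), T.H τ ≠ 0 → ∀ i, i < T.j → l9cDp τ i ≤ l9cDp τ i0)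
    (Kz err : ℝ) (hKz : 1 ≤ Kz) (herr : 0 ≤ err) (hA : L9cImpA D T Kz err) (hC : L9cImpC D T i0 Kz err) :
    |D.valC T χ| ≤ D.bHigh T Kz err := by
  have hLo := hD.hLo
  have hb0 := l9c_bHigh_nonneg hD hT hKz herr
  by_cases hχ : L9cGood T χ
  swap
  · rw [l9c_valC_bad hD hT hχ, abs_zero]; exact hb0
  by_cases hcar : ∃ c, L9aOk D.N χ c ∧ T.H (l9aRec χ c) ≠ 0
  swap
  · have h0 : D.valC T χ = 0 := by
      unfold L9cD.valC
      refine Finset.sum_eq_zero fun c _ => ?_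
      split_ifs with hok
      · by_cases hH : T.H (l9aRec χ c) = 0
        · rw [hH, zero_mul]
        · exact absurd ⟨c, hok, hH⟩ hcar
      · rfl
    rw [h0, abs_zero]; exact hb0
  -- the latest pair lies in the top band
  have haA : T.a i0 = T.A := by
    obtain ⟨c, hok, hH⟩ := hcar
    obtain ⟨i, hi, hiA⟩ := hT.hmax
    have hV := hT.supp _ hok.1 hH
    have h1 := hT.hV _ _ hi (hV i hi)
    have h2 := hT.hV _ _ i0.2 (hV i0 i0.2)
    have h3 := hD.scm _ _ (hlate _ hok.1 hH i hi) h2.1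
    rw [h1.2, h2.2, hiA] at h3
    exact le_antisymm (hT.haA _ i0.2) h3
  have hgl : ∀ (v : L9cI χ → Fin (D.N + 2)) (o : L9cO D.N χ) (i : Fin T.j), l9cGl χ v o (l9cSg χ i) = v (l9cSi χ i) := by
    intro v o i
    unfold l9cGl
    exact dif_pos (show l9cSg χ i ∈ l9cDes χ from (l9cSi χ i).2)
  have hsi : ∀ i i' : Fin T.j, l9cSi χ i = l9cSi χ i' ↔ l9cSg χ i = l9cSg χ i' := fun i i' => Subtype.ext_iff
  rw [l9c_valC_eq hD hT hχ]
  have h := (l9cFc hD hT hχ).cc_high (fun _ k => D.Dv k) (fun _ k => hD.Dv0 k) ?_ ?_ (l9cSi χ i0)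
    (by show l9cAv T χ (l9cSi χ i0) = T.A; rw [l9c_av_eq hχ]; exact haA) Kz err hKz herr ?_ ?_
  · -- the final inequality
    refine h.trans ?_
    have hj : (l9cCC hD hT hχ).j = T.j := l9c_sum_k
    have hL1 : 1 ≤ D.LoC T := one_le_pow₀ hLo
    have hLL : D.Lo ≤ D.LoC T := le_self_pow₀ hLo (by omega)
    have hcard : Fintype.card (L9cI χ) ≤ T.j := by
      rw [Fintype.card_coe]
      refine Finset.card_image_le.trans ?_
      rw [Finset.card_univ, Fintype.card_fin]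
    have hpre : (l9cCC hD hT hχ).pre = D.Sc.lam * (T.A * D.Sc.Y) ^ ((5 : ℤ) - (T.j : ℕ)) := by
      show D.Sc.lam * (T.A * D.Sc.Y) ^ ((5 : ℤ) - (∑ s, l9cKv T χ s : ℕ)) = _
      rw [l9c_sum_k]
    have hpre0 : 0 ≤ (l9cCC hD hT hχ).pre := (l9cCC hD hT hχ).pre_pos.le
    have hterr0 := (l9cFc hD hT hχ).terr_nonneg
    have hterr : (l9cFc hD hT hχ).terr ≤ D.M ^ T.j * T.j * (D.Lm / D.Lo) ^ D.p0 := by
      show D.M ^ (Fintype.card (Fin T.j)) * (Fintype.card (Fin T.j)) * (D.Lm / D.LoC T) ^ D.p0 ≤ _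
      rw [Fintype.card_fin]
      refine mul_le_mul_of_nonneg_left ?_ (mul_nonneg (pow_nonneg hD.hM0 _) (Nat.cast_nonneg _))
      refine pow_le_pow_left₀ (div_nonneg hD.hLm0.le (by linarith)) ?_ _
      exact div_le_div_of_nonneg_left hD.hLm0.le (by linarith) hLL
    have hk0 : 0 ≤ (l9cCC hD hT hχ).kap := (l9cCC hD hT hχ).hkap0
    have hk1 : (l9cCC hD hT hχ).kap ≤ 1 := (l9cCC hD hT hχ).hkap1
    have hA1 : (l9cCC hD hT hχ).pre * (l9cCC hD hT hχ).kap * ((l9cFc hD hT hχ).terr + err)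
        ≤ D.Sc.lam * (T.A * D.Sc.Y) ^ ((5 : ℤ) - (T.j : ℕ)) * (D.M ^ T.j * T.j * (D.Lm / D.Lo) ^ D.p0 + err) := by
      rw [← hpre]
      calc (l9cCC hD hT hχ).pre * (l9cCC hD hT hχ).kap * ((l9cFc hD hT hχ).terr + err)
          ≤ (l9cCC hD hT hχ).pre * 1 * ((l9cFc hD hT hχ).terr + err) :=
            mul_le_mul_of_nonneg_right (mul_le_mul_of_nonneg_left hk1 hpre0) (by linarith)
        _ ≤ (l9cCC hD hT hχ).pre * (D.M ^ T.j * T.j * (D.Lm / D.Lo) ^ D.p0 + err) := by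
            rw [mul_one]
            exact mul_le_mul_of_nonneg_left (by linarith) hpre0
    have hA0 : 0 ≤ (l9cCC hD hT hχ).pre * (l9cCC hD hT hχ).kap * ((l9cFc hD hT hχ).terr + err) :=
      mul_nonneg (mul_nonneg hpre0 hk0) (by linarith)
    have hP : (D.LoC T) ^ (Fintype.card (L9cI χ) + 2) ≤ (D.LoC T) ^ (T.j + 2) := pow_le_pow_right₀ hL1 (by omega)
    rw [hj]
    unfold L9cD.bHigh
    refine add_le_add le_rfl ?_
    show 2 * (D.LoC T) ^ (Fintype.card (L9cI χ) + 2) * _ ≤ _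
    exact mul_le_mul (mul_le_mul_of_nonneg_left hP zero_le_two) hA1 hA0 (by positivity)
  · -- hvar
    intro e v o i hH hi
    have hi' : (i : ℕ) ∈ T.St := (mem_filter.mp hi).2
    have hok := l9c_supp_ok hH
    have hV := l9c_supp_V hD hT hχ hH i
    have hrg := (hT.hV i _ i.2 hV).1
    have hdp : l9cDp (l9aRec χ (l9cGl χ v o)) i = (v (l9cSi χ i) : ℕ) := by
      rw [l9c_dp_eq _ i (hχ.1 i), hgl]
    have h1 := l9c_w_pair hD e hok.isTr i _ hdp (fun u => u ^ 2)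
    have e1 : ∀ ω, l9cX D T χ e v i ω = D.dl e (v (l9cSi χ i)) (ω (l9cL i)) (ω (l9cR i)) := fun ω => by
      unfold l9cX; rw [if_pos hi']
    show ∑ ω, l9cW hD (2 * T.j) e (l9aRec χ (l9cGl χ v o)) ω * l9cX D T χ e v i ω ^ 2 ≤ D.Dv (v (l9cSi χ i)) ^ 2
    simp_rw [e1]
    rw [h1]
    exact hD.var e _ hrg (hhi i _ i.2 hV)
  · -- hDsum
    intro s
    show ∑ k, l9cNu D T χ s k * D.Dv k ^ 2 ≤ D.Lo ^ (2 * T.j + 1) * (D.Sc.gB * D.Sc.Y ^ 2 / l9cAv T χ s)
    have ha : 1 ≤ l9cAv T χ s := hT.ha1 _ (l9cPr χ s).2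
    have hr : 0 < l9cAv T χ s * D.Sc.Y := mul_pos (by linarith) D.Sc.Y_pos
    have h1 := l9c_band_sum hD (fun t => ∀ i : Fin T.j, l9cSi χ i = s → T.V i t)
      (fun t => D.rg t ∧ D.sc t = l9cAv T χ s ∧ ¬ D.lw t)
      (fun t h => by
        have h2 := hT.hV _ _ (l9cPr χ s).2 (h _ (l9c_pr_spec χ s))
        exact ⟨⟨h2.1, h2.2, hhi _ _ (l9cPr χ s).2 (h _ (l9c_pr_spec χ s))⟩, hD.rgN _ h2.1⟩)
      (fun t => D.Dv t ^ 2) (fun _ => sq_nonneg _)
    have h2 := hD.Dsum _ ha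
    have e : ∑ k, l9cNu D T χ s k * D.Dv k ^ 2 * (l9cAv T χ s * D.Sc.Y)
        = ∑ k : Fin (D.N + 2), (@ite ℝ (∀ i : Fin T.j, l9cSi χ i = s → T.V i k) (Classical.propDecidable _)
            (l9aMu D.ms k * D.Dv k ^ 2) 0) := by
      refine Finset.sum_congr rfl fun k _ => ?_
      unfold l9cNu
      split_ifs
      · rw [mul_right_comm, div_mul_cancel₀ _ hr.ne']
      · rw [zero_mul, zero_mul]
    have h3 : (∑ k, l9cNu D T χ s k * D.Dv k ^ 2) * (l9cAv T χ s * D.Sc.Y)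
        ≤ D.Lo * (D.Sc.gB * D.Sc.Y ^ 2 / l9cAv T χ s) * (l9cAv T χ s * D.Sc.Y) := by
      rw [Finset.sum_mul, e]
      refine h1.trans (le_trans (le_of_eq ?_) (h2.trans (le_of_eq (by ring))))
      exact Finset.sum_congr (by ext t; simp only [Finset.mem_filter]) (fun t _ => rfl)
    refine (le_of_mul_le_mul_right h3 hr).trans ?_
    refine mul_le_mul_of_nonneg_right (le_self_pow₀ hLo (by omega)) ?_
    have := D.Sc.gB_pos
    have := D.Sc.Y_pos
    positivity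
  · -- hcenA
    intro s0 hall hne hor
    obtain ⟨i1, hi1⟩ := hne
    have hs0 : l9cSi χ i1 = s0 := hall i1 hi1
    have hi1' : (i1 : ℕ) ∈ T.St := (mem_filter.mp hi1).2
    subst hs0
    refine l9c_zhyp hD hT hχ i1 (D.dnum T) _ ?_ Kz err (hA χ hχ i1 hi1' ?_ ?_)
    · intro v o hok
      show (l9cFc hD hT hχ).T true v o - (l9cFc hD hT hχ).T false v o = _
      rw [l9c_T_eq hD hT hχ true v o hok, l9c_T_eq hD hT hχ false v o hok]
      rfl
    · intro i hi
      exact (hsi i i1).mp (hall i (mem_filter.mpr ⟨mem_univ _, hi⟩))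
    · rcases hor with h1 | h1
      · left
        have h2 : l9cAv T χ (l9cSi χ i1) = T.a i1 := l9c_av_eq hχ i1
        rw [← h2]
        exact h1
      · right
        rw [← l9c_card_St hT]
        exact h1
  · -- hcenC
    intro hc2 hk1 ha1 hin hle e
    refine l9c_zhyp hD hT hχ i0 (D.num T e) _ (fun v o hok => l9c_T_eq hD hT hχ e v o hok) Kz err
      (hC χ hχ ?_ ?_ ?_ ?_ ?_ e)
    · exact (Fintype.card_coe (l9cDes χ)).symm.trans hc2
    · intro i hi
      have hk1' : (univ.filter fun i : Fin T.j => l9cSi χ i = l9cSi χ i0).card = 1 := hk1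
      have h1 := Finset.card_le_one.mp hk1'.le
      exact h1 i (mem_filter.mpr ⟨mem_univ _, (hsi i i0).mpr hi⟩) i0 (mem_filter.mpr ⟨mem_univ _, rfl⟩)
    · exact (mem_filter.mp (hin i0 rfl)).2
    · have h2 : l9cAv T χ (l9cSi χ i0) = T.a i0 := l9c_av_eq hχ i0
      rw [← h2]
      exact ha1
    · refine le_trans (le_of_eq ?_) hle
      show _ = ((univ.filter fun i : Fin T.j => (i : ℕ) ∈ T.St).filter fun i => l9cSi χ i ≠ l9cSi χ i0).card
      rw [Finset.filter_filter]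
      congr 1
      ext i
      simp only [Finset.mem_filter, Finset.mem_univ, true_and, ne_eq, hsi]

/-! ## 6. the decomposition and (E3) -/

open Classical in
/-- restriction of a term -/
noncomputable def L9cT.res (T : L9cT) (P : JtTopo → Prop) (V' : ℕ → ℕ → Prop) : L9cT :=
  { T with H := fun τ => if P τ then T.H τ else 0, V := fun i t => T.V i t ∧ V' i t }

/-- `i0` is the first pair whose vertex lies below `x` -/
def L9cD.PLow (D : L9cD S) (i0 : ℕ) (τ : JtTopo) : Prop := D.lw (l9cDp τ i0) ∧ ∀ i, i < i0 → ¬ D.lw (l9cDp τ i)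

/-- all the vertices are above `x`, `i0` is the first pair of maximal depth -/
def L9cD.PHigh (D : L9cD S) (j i0 : ℕ) (τ : JtTopo) : Prop :=
  (∀ i, i < j → ¬ D.lw (l9cDp τ i)) ∧ (∀ i, i < j → l9cDp τ i ≤ l9cDp τ i0) ∧ ∀ i, i < i0 → l9cDp τ i < l9cDp τ i0

/-- the part "first low pair = `i0`" -/
noncomputable def L9cD.tLow (D : L9cD S) (T : L9cT) (i0 : ℕ) : L9cT := T.res (D.PLow i0) fun i t => i = i0 → D.lw t

/-- the part "no low pair, latest pair = `i0`" -/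
noncomputable def L9cD.tHigh (D : L9cD S) (T : L9cT) (i0 : ℕ) : L9cT := T.res (D.PHigh T.j i0) fun _ t => ¬ D.lw t

/-- a restriction of a term is a term -/
theorem L9cT.res_ok (hT : T.Ok D) (P : JtTopo → Prop) (V' : ℕ → ℕ → Prop) (h : ∀ τ, P τ → ∀ i, i < T.j → V' i (l9cDp τ i)) : (T.res P V').Ok D := by
  classical
  refine ⟨hT.hj, hT.hjp, hT.hSt, hT.ha1, hT.haA, hT.hmax, fun i t hi hV => hT.hV i t hi hV.1,
    fun i t hi hs hV => hT.hphi i t hi hs hV.1, fun i t hi hs hV => hT.hphiM i t hi hs hV.1, hT.hom0, hT.hom1, ?_, ?_⟩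
  · intro τ hτ hH i hi
    have hP : P τ := by
      by_contra hn
      exact hH (if_neg hn)
    have hH' : T.H τ ≠ 0 := by
      intro h0
      exact hH ((if_pos hP).trans h0)
    exact ⟨hT.supp τ hτ hH' i hi, h τ hP i hi⟩
  · intro τ hτ
    have h1 := hT.e2 τ hτ
    by_cases hP : P τ
    · have e : (T.res P V').H τ = T.H τ := if_pos hP
      rw [e]
      exact h1
    · have e : (T.res P V').H τ = 0 := if_neg hP
      rw [e, abs_zero]
      exact (abs_nonneg _).trans h1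

open Classical in
/-- exactly one index of `range j` satisfies `Q` -/
theorem l9c_sum_one {j : ℕ} (Q : ℕ → Prop) (i0 : ℕ) (hi0 : i0 < j) (h0 : Q i0) (hu : ∀ i, i < j → Q i → i = i0) (c : ℝ) :
    ∑ i ∈ range j, (if Q i then c else 0) = c := by
  rw [Finset.sum_eq_single_of_mem i0 (Finset.mem_range.mpr hi0), if_pos h0]
  intro i hi hne
  rw [if_neg fun h => hne (hu i (Finset.mem_range.mp hi) h)]

open Classical in
/-- no index of `range j` satisfies `Q` -/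
theorem l9c_sum_none {j : ℕ} (Q : ℕ → Prop) (hu : ∀ i, i < j → ¬ Q i) (c : ℝ) :
    ∑ i ∈ range j, (if Q i then c else 0) = 0 :=
  Finset.sum_eq_zero fun i hi => if_neg (hu i (Finset.mem_range.mp hi))

open Classical in
/-- the `2 j` predicates are a partition -/
theorem l9c_part (D : L9cD S) (j : ℕ) (hj : 1 ≤ j) (τ : JtTopo) (c : ℝ) :
    ∑ i0 ∈ range j, (if D.PLow i0 τ then c else 0) + ∑ i0 ∈ range j, (if D.PHigh j i0 τ then c else 0) = c := by
  by_cases hlow : ∃ i, i < j ∧ D.lw (l9cDp τ i)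
  · have hs := Nat.find_spec hlow
    have hm : ∀ i, i < Nat.find hlow → ¬ (i < j ∧ D.lw (l9cDp τ i)) := fun i hi => Nat.find_min hlow hi
    rw [l9c_sum_one (D.PLow · τ) (Nat.find hlow) hs.1 ⟨hs.2, fun i hi h => hm i hi ⟨by omega, h⟩⟩ ?_ c,
      l9c_sum_none (D.PHigh j · τ) (fun i _ h => h.1 _ hs.1 hs.2) c, add_zero]
    intro i hi h
    rcases lt_trichotomy i (Nat.find hlow) with h1 | h1 | h1
    · exact absurd ⟨hi, h.1⟩ (hm i h1)
    · exact h1
    · exact absurd hs.2 (h.2 _ h1)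
  · have hno : ∀ i, i < j → ¬ D.lw (l9cDp τ i) := fun i hi h => hlow ⟨i, hi, h⟩
    have hex : ∃ i, i < j ∧ ∀ i', i' < j → l9cDp τ i' ≤ l9cDp τ i := by
      obtain ⟨i, hi, h⟩ := Finset.exists_max_image (range j) (fun i => l9cDp τ i) ⟨0, Finset.mem_range.mpr (by omega)⟩
      exact ⟨i, Finset.mem_range.mp hi, fun i' hi' => h i' (Finset.mem_range.mpr hi')⟩
    have hs := Nat.find_spec hex
    have hm : ∀ i, i < Nat.find hex → ¬ (i < j ∧ ∀ i', i' < j → l9cDp τ i' ≤ l9cDp τ i) := fun i hi => Nat.find_min hex hi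
    rw [l9c_sum_none (D.PLow · τ) (fun i hi h => hno i hi h.1) c,
      l9c_sum_one (D.PHigh j · τ) (Nat.find hex) hs.1 ⟨hno, hs.2, ?_⟩ ?_ c, zero_add]
    · intro i hi
      by_contra hn
      refine hm i hi ⟨by omega, fun i' hi' => (hs.2 i' hi').trans (by omega)⟩
    · intro i hi h
      rcases lt_trichotomy i (Nat.find hex) with h1 | h1 | h1
      · exact absurd ⟨hi, h.2.1⟩ (hm i h1)
      · exact h1
      · have h2 := h.2.2 _ h1
        have h3 := hs.2 i hi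
        omega

/-- PLAN: for every `τ` exactly one of the `2 j` predicates holds (`Nat.find` for the first low pair; first maximiser of the depth otherwise); `num` does not see `H`, `V`. -/
theorem l9c_split (D : L9cD S) (T : L9cT) (hj : 1 ≤ T.j) :
    D.val T = ∑ i0 ∈ range T.j, D.val (D.tLow T i0) + ∑ i0 ∈ range T.j, D.val (D.tHigh T i0) := by
  classical
  have eL : ∀ i0, D.val (D.tLow T i0) = ∑ τ ∈ l9aTab D.N (2 * T.j), (if D.PLow i0 τ then T.H τ * D.dnum T τ else 0) := by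
    intro i0
    show ∑ τ ∈ l9aTab D.N (2 * T.j), (if D.PLow i0 τ then T.H τ else 0) * D.dnum T τ = _
    refine Finset.sum_congr rfl fun τ _ => ?_
    split_ifs
    · rfl
    · rw [zero_mul]
  have eH : ∀ i0, D.val (D.tHigh T i0) = ∑ τ ∈ l9aTab D.N (2 * T.j), (if D.PHigh T.j i0 τ then T.H τ * D.dnum T τ else 0) := by
    intro i0
    show ∑ τ ∈ l9aTab D.N (2 * T.j), (if D.PHigh T.j i0 τ then T.H τ else 0) * D.dnum T τ = _
    refine Finset.sum_congr rfl fun τ _ => ?_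
    split_ifs
    · rfl
    · rw [zero_mul]
  simp_rw [eL, eH]
  rw [Finset.sum_comm, Finset.sum_comm (s := range T.j), ← Finset.sum_add_distrib]
  unfold L9cD.val
  refine Finset.sum_congr rfl fun τ _ => ?_
  have h := l9c_part D T.j hj τ (T.H τ * D.dnum T τ)
  exact h.symm

/-- **LL Lemma 9.1, (E3), TABLE LEVEL.**   The imports are the centred estimates for the `j` parts "latest pair = `i0`".
PLAN: `l9c_split`, `l9c_val_chart`, `l9c_chart_low`, `l9c_chart_high` (the bounds `bLow`, `bHigh` do not see `H`, `V`). -/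
theorem l9c_main (hD : D.Ok) (hT : T.Ok D) (Kz err : ℝ) (hKz : 1 ≤ Kz) (herr : 0 ≤ err)
    (hA : ∀ i0, i0 < T.j → L9cImpA D (D.tHigh T i0) Kz err)
    (hC : ∀ i0 : Fin T.j, L9cImpC D (D.tHigh T i0) i0 Kz err) :
    |D.val T| ≤ (Fintype.card (L9aChart (2 * T.j)) : ℝ) * T.j * (D.bLow T + D.bHigh T Kz err) := by
  classical
  have hj1 : 1 ≤ T.j := le_trans (by norm_num) hT.hj
  have hLowOk : ∀ i0, (D.tLow T i0).Ok D := fun i0 =>
    L9cT.res_ok hT _ _ fun τ hP i _ hi => by rw [hi]; exact hP.1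
  have hHighOk : ∀ i0, (D.tHigh T i0).Ok D := fun i0 =>
    L9cT.res_ok hT _ _ fun τ hP i hi => hP.1 i hi
  have bL : ∀ i0 ∈ range T.j, |D.val (D.tLow T i0)| ≤ (Fintype.card (L9aChart (2 * T.j)) : ℝ) * D.bLow T := by
    intro i0 hi0
    rw [l9c_val_chart]
    refine (Finset.abs_sum_le_sum_abs _ _).trans ?_
    have h1 : ∀ χ ∈ (univ : Finset (L9aChart (2 * (D.tLow T i0).j))), |D.valC (D.tLow T i0) χ| ≤ D.bLow T := fun χ _ =>
      l9c_chart_low hD (hLowOk i0) χ ⟨i0, Finset.mem_range.mp hi0⟩ fun t ht => ht.2 rfl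
    refine (Finset.sum_le_sum h1).trans (le_of_eq ?_)
    rw [Finset.sum_const, nsmul_eq_mul]
    rfl
  have bH : ∀ i0 ∈ range T.j, |D.val (D.tHigh T i0)| ≤ (Fintype.card (L9aChart (2 * T.j)) : ℝ) * D.bHigh T Kz err := by
    intro i0 hi0
    rw [l9c_val_chart]
    refine (Finset.abs_sum_le_sum_abs _ _).trans ?_
    have h1 : ∀ χ ∈ (univ : Finset (L9aChart (2 * (D.tHigh T i0).j))), |D.valC (D.tHigh T i0) χ| ≤ D.bHigh T Kz err := fun χ _ =>
      l9c_chart_high hD (hHighOk i0) χ ⟨i0, Finset.mem_range.mp hi0⟩ (fun i t _ ht => ht.2)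
        (fun τ _ hH i hi => by
          have hP : D.PHigh T.j i0 τ := by
            by_contra hn
            exact hH (if_neg hn)
          exact hP.2.1 i hi) Kz err hKz herr (hA i0 (Finset.mem_range.mp hi0)) (hC ⟨i0, Finset.mem_range.mp hi0⟩)
    refine (Finset.sum_le_sum h1).trans (le_of_eq ?_)
    rw [Finset.sum_const, nsmul_eq_mul]
    rfl
  rw [l9c_split D T hj1]
  refine (abs_add_le _ _).trans ?_
  have s1 := (Finset.abs_sum_le_sum_abs _ _).trans (Finset.sum_le_sum bL)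
  have s2 := (Finset.abs_sum_le_sum_abs _ _).trans (Finset.sum_le_sum bH)
  rw [Finset.sum_const, nsmul_eq_mul, Finset.card_range] at s1 s2
  refine (add_le_add s1 s2).trans (le_of_eq ?_)
  ring

end main

end Claimed.Agent.R286
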