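/-
OWNER helper30.  TEX[LL:exp:lem-centered-count]
Row 286 (S0533), LL Lemma 9.1, ADAPTERS from `l9c_main` (`L09/CCTab.lean`) to the consumer forms.      prefix `l9d`, `L9d`
`D : L9cD S` is ABSTRACT (concrete one: `l9ciD` of 70, `L09/CCInst.lean`).

* `L9dImp D J0 Kz err`   THE ONE IMPORT (64): the centred estimates `L9cImpA`, `L9cImpC` for all the terms `T.Ok D` of degree `≤ J0` whose vertices are above `x` (and, for C, with latest pair `i0`).
* `D.Bd j A Kz err`      the bound (E3) with its constants;   `l9d_val` : `T.Ok D → T.j ≤ J0 → |D.val T| ≤ D.Bd T.j T.A Kz err`.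
* `D.Lk`                 link with the reference overlap: `qC` common, `|S - q| ≤ Lm e`, `≤ M`.
* `l9d_delta`            DELTA FORM on the full tables: factors `Δ = δ + f` on `R = T.St` (`l9rNum` of 282), deterministic factors `T.phi` on the other pairs: `2^|R|` terms.
* `l9d_deltaB`           the same for a coefficient `B` with `|B τ| ≤ L0 * ∏_{i ∉ R} e(v_i) * (E2)`   (consumer form of 299: `Q.CCw`).
* `l9d_vol_le`           at a cut `c` with `w ≤ m_c`: `l9rVol ms (2 n) c sk ≤ ∏ l9cWt` for `om = l9dOm ms c` (`μ / m_c` below the cut, `1` at the cut);   `l9d_vx_eq_iff` : `l9Same`-form of "same designated vertex".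
* `l9d_red`              SKELETON FORM (consumer form of 282: `Q.CC`).
-/
import Claimed.Agent.R286.L09.CCTab

set_option autoImplicit false
set_option linter.unusedSectionVars false

namespace Claimed.Agent.R286

open Finset

variable {S : Type} [Fintype S] [Inhabited S] {D : L9cD S}

/-! ## 1. the one import, the bound -/

/-- **THE IMPORT of Lemma 9.1** (centred half) -/
def L9dImp (D : L9cD S) (J0 : ℕ) (Kz err : ℝ) : Prop :=
  ∀ T : L9cT, T.Ok D → T.j ≤ J0 → (∀ i t, i < T.j → T.V i t → ¬ D.lw t) →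
    L9cImpA D T Kz err ∧
    ∀ i0 : Fin T.j, (∀ τ ∈ l9aTab D.N (2 * T.j), T.H τ ≠ 0 → ∀ i, i < T.j → l9cDp τ i ≤ l9cDp τ i0) → L9cImpC D T i0 Kz err

/-- the bound (E3) of one term of degree `j`, largest band scale `A` -/
noncomputable def L9cD.Bd (D : L9cD S) (j : ℕ) (A Kz err : ℝ) : ℝ :=
  (Fintype.card (L9aChart (2 * j)) : ℝ) * j *
    (2 * (D.Lo ^ (2 * j + 1)) ^ (2 * j + 3) * (D.Sc.lam * D.Sc.Y ^ 5 * (D.Sc.x / D.Sc.Y))
      + (2 * Kz * (D.Lo ^ (2 * j + 1)) ^ (2 * j + 4) * (D.Sc.lam * D.Sc.Y ^ 5 * D.Sc.gB)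
        + 2 * (D.Lo ^ (2 * j + 1)) ^ (j + 2) * (D.Sc.lam * (A * D.Sc.Y) ^ ((5 : ℤ) - (j : ℕ)) * (D.M ^ j * j * (D.Lm / D.Lo) ^ D.p0 + err))))

/-- **Lemma 9.1 for all the terms** -/
theorem l9d_val (hD : D.Ok) {J0 : ℕ} {Kz err : ℝ} (hKz : 1 ≤ Kz) (herr : 0 ≤ err) (hI : L9dImp D J0 Kz err)
    {T : L9cT} (hT : T.Ok D) (hj : T.j ≤ J0) : |D.val T| ≤ D.Bd T.j T.A Kz err := by
  classical
  have hOk : ∀ i0, (D.tHigh T i0).Ok D := fun i0 => L9cT.res_ok hT _ _ fun τ hP i hi => hP.1 i hi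
  have hhi : ∀ i0, ∀ i t, i < (D.tHigh T i0).j → (D.tHigh T i0).V i t → ¬ D.lw t := fun i0 i t _ h => h.2
  refine l9c_main hD hT Kz err hKz herr (fun i0 _ => (hI _ (hOk i0) hj (hhi i0)).1) fun i0 => ?_
  refine (hI _ (hOk i0) hj (hhi i0)).2 i0 ?_
  intro τ _ hH i hi
  have hP : D.PHigh T.j i0 τ := by
    by_contra hn
    exact hH (if_neg hn)
  exact hP.2.1 i hi

/-! ## 2. `Δ = δ + f` -/

/-- link with the reference overlap `q` -/
structure L9cD.Lk (D : L9cD S) : Prop where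
  hq : (D.X true).qC = (D.X false).qC
  f_env : ∀ t, D.rg t → |D.Sf t - (D.X false).qC t| ≤ D.Lm * D.env t
  f_M : ∀ t, D.rg t → |D.Sf t - (D.X false).qC t| ≤ D.M

/-- the term in which the factors `Δ_i`, `i ∈ T.St`, are replaced by `δ_i` (`i ∈ St'`) or `f_i` (`i ∈ T.St \ St'`) -/
def L9cT.sub (D : L9cD S) (T : L9cT) (St' : Finset ℕ) : L9cT :=
  { T with St := St', phi := fun i t => if i ∈ T.St then D.Sf t - (D.X false).qC t else T.phi i t }

theorem L9cT.sub_ok (hL : D.Lk) {T : L9cT} (hT : T.Ok D) {St' : Finset ℕ} (h : St' ⊆ T.St) : (T.sub D St').Ok D := by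
  refine ⟨hT.hj, hT.hjp, h.trans hT.hSt, hT.ha1, hT.haA, hT.hmax, hT.hV, ?_, ?_, hT.hom0, hT.hom1, hT.supp, hT.e2⟩
  · intro i t hi _ hV
    show |if i ∈ T.St then D.Sf t - (D.X false).qC t else T.phi i t| ≤ _
    split_ifs with hs
    · exact hL.f_env t (hT.hV i t hi hV).1
    · exact hT.hphi i t hi hs hV
  · intro i t hi _ hV
    show |if i ∈ T.St then D.Sf t - (D.X false).qC t else T.phi i t| ≤ _
    split_ifs with hs
    · exact hL.f_M t (hT.hV i t hi hV).1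
    · exact hT.hphiM i t hi hs hV

/-- homogeneity of the positive laws -/
theorem l9d_nu_smul {X : JtCtx S} (hX : L9rPos X) {q : ℕ} {τ : ℕ → ℕ → ℕ} (hτ : IsTr X.N q τ) (c : ℝ) (P : (ℕ → S) → ℝ) :
    X.nu q τ (fun σ => c * P σ) = c * X.nu q τ P := by
  obtain ⟨w, -, -, hrep⟩ := hX.rep q τ hτ
  simp only [hrep, Finset.mul_sum]
  exact Finset.sum_congr rfl fun σ _ => by ring

/-- **expansion of `∏ (δ + f)`** at a fixed table -/
theorem l9d_num_expand (hD : D.Ok) (hL : D.Lk) {T : L9cT} (hSt : T.St ⊆ range T.j) (e : Bool) {τ : JtTopo} (hτ : IsTr D.N (2 * T.j) τ) :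
    (∏ i ∈ range T.j \ T.St, T.phi i (l9cDp τ i)) * l9rNum (D.X e) T.St (2 * T.j) τ
      = ∑ St' ∈ T.St.powerset, D.num (T.sub D St') e τ := by
  classical
  have hτe : IsTr (D.X e).N (2 * T.j) τ := by rw [hD.N_eq e]; exact hτ
  have hq : (D.X e).qC = (D.X false).qC := by
    cases e
    · rfl
    · exact hL.hq
  unfold l9rNum L9cD.num
  show _ = ∑ St' ∈ T.St.powerset, (D.X e).nu (2 * T.j) τ fun σ => ∏ i ∈ range T.j, D.fac (T.sub D St') e τ σ i
  rw [← l9r_nu_sum (hD.pos e) hτe, ← l9d_nu_smul (hD.pos e) hτe]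
  congr 1
  funext σ
  have e1 : ∀ i, (D.X e).Dl τ σ (2 * i) (2 * i + 1)
      = D.dl e (l9cDp τ i) (σ (2 * i)) (σ (2 * i + 1)) + (D.Sf (l9cDp τ i) - (D.X false).qC (l9cDp τ i)) := by
    intro i
    unfold JtCtx.Dl JtCtx.Qs L9cD.dl l9cDp
    rw [hq]
    ring
  simp only [e1]
  rw [Finset.prod_add, Finset.mul_sum]
  refine Finset.sum_congr rfl fun St' hSt' => ?_
  have hsub : St' ⊆ T.St := mem_powerset.mp hSt'
  show _ = ∏ i ∈ range T.j, D.fac (T.sub D St') e τ σ i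
  rw [← Finset.prod_sdiff hSt, ← Finset.prod_sdiff hsub]
  have a1 : ∏ i ∈ range T.j \ T.St, D.fac (T.sub D St') e τ σ i = ∏ i ∈ range T.j \ T.St, T.phi i (l9cDp τ i) := by
    refine Finset.prod_congr rfl fun i hi => ?_
    have h1 : i ∉ T.St := (mem_sdiff.mp hi).2
    have h2 : i ∉ St' := fun h => h1 (hsub h)
    show (if i ∈ St' then _ else if i ∈ T.St then _ else _) = _
    rw [if_neg h2, if_neg h1]
  have a2 : ∏ i ∈ T.St \ St', D.fac (T.sub D St') e τ σ i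
      = ∏ i ∈ T.St \ St', (D.Sf (l9cDp τ i) - (D.X false).qC (l9cDp τ i)) := by
    refine Finset.prod_congr rfl fun i hi => ?_
    show (if i ∈ St' then _ else if i ∈ T.St then _ else _) = _
    rw [if_neg (mem_sdiff.mp hi).2, if_pos (mem_sdiff.mp hi).1]
  have a3 : ∏ i ∈ St', D.fac (T.sub D St') e τ σ i = ∏ i ∈ St', D.dl e (l9cDp τ i) (σ (2 * i)) (σ (2 * i + 1)) := by
    refine Finset.prod_congr rfl fun i hi => ?_
    show (if i ∈ St' then _ else _) = _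
    rw [if_pos hi]
  rw [a1, a2, a3]
  ring

/-- **DELTA FORM of Lemma 9.1 on the full tables**: `R = T.St`, factors `Δ_i` (`i ∈ R`), `T.phi i` (`i ∉ R`) -/
theorem l9d_delta (hD : D.Ok) (hL : D.Lk) {J0 : ℕ} {Kz err : ℝ} (hKz : 1 ≤ Kz) (herr : 0 ≤ err) (hI : L9dImp D J0 Kz err)
    {T : L9cT} (hT : T.Ok D) (hj : T.j ≤ J0) :
    |∑ τ ∈ l9aTab D.N (2 * T.j), T.H τ * (∏ i ∈ range T.j \ T.St, T.phi i (l9cDp τ i))
        * (l9rNum (D.X true) T.St (2 * T.j) τ - l9rNum (D.X false) T.St (2 * T.j) τ)|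
      ≤ 2 ^ T.St.card * D.Bd T.j T.A Kz err := by
  classical
  have e : ∑ τ ∈ l9aTab D.N (2 * T.j), T.H τ * (∏ i ∈ range T.j \ T.St, T.phi i (l9cDp τ i))
        * (l9rNum (D.X true) T.St (2 * T.j) τ - l9rNum (D.X false) T.St (2 * T.j) τ)
      = ∑ St' ∈ T.St.powerset, D.val (T.sub D St') := by
    unfold L9cD.val
    show _ = ∑ St' ∈ T.St.powerset, ∑ τ ∈ l9aTab D.N (2 * T.j), T.H τ * D.dnum (T.sub D St') τ
    rw [Finset.sum_comm]
    refine Finset.sum_congr rfl fun τ hτ => ?_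
    have hτ' := (l9a_mem_tab.mp hτ).1
    have h1 := l9d_num_expand hD hL hT.hSt true hτ'
    have h0 := l9d_num_expand hD hL hT.hSt false hτ'
    show _ = ∑ St' ∈ T.St.powerset, T.H τ * (D.num (T.sub D St') true τ - D.num (T.sub D St') false τ)
    rw [← Finset.mul_sum, Finset.sum_sub_distrib, ← h1, ← h0]
    ring
  rw [e]
  refine (Finset.abs_sum_le_sum_abs _ _).trans ?_
  have hb : ∀ St' ∈ T.St.powerset, |D.val (T.sub D St')| ≤ D.Bd T.j T.A Kz err := fun St' h =>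
    l9d_val hD hKz herr hI (L9cT.sub_ok hL hT (mem_powerset.mp h)) hj
  refine (Finset.sum_le_sum hb).trans (le_of_eq ?_)
  rw [Finset.sum_const, Finset.card_powerset, nsmul_eq_mul]
  push_cast
  ring

/-! ## 3. coefficient form -/

/-- the term of the consumer forms: `Δ` on `R`, the envelope on the other pairs -/
def l9dMk (D : L9cD S) (n : ℕ) (R : Finset ℕ) (V : ℕ → ℕ → Prop) (a : ℕ → ℝ) (A : ℝ) (om : ℕ → ℝ) (H : JtTopo → ℝ) : L9cT where
  j := n
  St := R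
  phi := fun _ t => D.env t
  V := V
  a := a
  A := A
  om := om
  H := H

/-- the majorant (E2) of a term (it does not see `H`, `St`, `phi`, `V`) -/
noncomputable def L9cD.E2 (D : L9cD S) (T : L9cT) (τ : JtTopo) : ℝ :=
  D.Lo * D.Sc.lam * (T.A * D.Sc.Y) ^ ((5 : ℤ) - (T.j : ℕ)) * l9cKap T τ * ∏ s ∈ Ico 1 (2 * T.j), l9cWt D T τ s

theorem l9d_wt_nonneg (hD : D.Ok) (T : L9cT) (hA : 0 < T.A) (hom0 : ∀ t, 0 ≤ T.om t) (τ : JtTopo) (s : ℕ) : 0 ≤ l9cWt D T τ s := by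
  unfold l9cWt
  split_ifs with h1 h2
  · exact div_nonneg (l9a_mu_nonneg hD.hms h1.2.1) (mul_pos hA D.Sc.Y_pos).le
  · exact hom0 _
  · exact zero_le_one

theorem l9d_kap_nonneg (T : L9cT) (hA : 0 < T.A) (ha : ∀ i, i < T.j → 1 ≤ T.a i) (τ : JtTopo) : 0 ≤ l9cKap T τ := by
  unfold l9cKap
  split_ifs with h
  · have h0 := ha 0 (by omega)
    have h1 := ha 1 (by omega)
    exact div_nonneg (le_min (by linarith) (by linarith)) hA.le
  · exact zero_le_one

theorem l9d_E2_nonneg (hD : D.Ok) (T : L9cT) (hA : 0 < T.A) (ha : ∀ i, i < T.j → 1 ≤ T.a i) (hom0 : ∀ t, 0 ≤ T.om t) (τ : JtTopo) :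
    0 ≤ D.E2 T τ := by
  unfold L9cD.E2
  have h1 : 0 < D.Lo := lt_of_lt_of_le zero_lt_one hD.hLo
  exact mul_nonneg (mul_nonneg (mul_nonneg (mul_nonneg h1.le D.Sc.hlam.le) (zpow_pos (mul_pos hA D.Sc.Y_pos) _).le)
    (l9d_kap_nonneg T hA ha τ)) (Finset.prod_nonneg fun s _ => l9d_wt_nonneg hD T hA hom0 τ s)

/-- **COEFFICIENT FORM of Lemma 9.1 on the full tables** (consumer form of W5) -/
theorem l9d_deltaB (hD : D.Ok) (hL : D.Lk) (hLm1 : 1 ≤ D.Lm) (heM : ∀ t, D.rg t → D.env t ≤ D.M)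
    {J0 : ℕ} {Kz err : ℝ} (hKz : 1 ≤ Kz) (herr : 0 ≤ err) (hI : L9dImp D J0 Kz err)
    (n : ℕ) (hn2 : 2 ≤ n) (hnJ : n ≤ J0) (hnp : n ≤ D.p0) (R : Finset ℕ) (hR : R ⊆ range n)
    (V : ℕ → ℕ → Prop) (a : ℕ → ℝ) (A : ℝ) (om : ℕ → ℝ)
    (ha1 : ∀ i, i < n → 1 ≤ a i) (haA : ∀ i, i < n → a i ≤ A) (hmax : ∃ i, i < n ∧ a i = A)
    (hV : ∀ i t, i < n → V i t → D.rg t ∧ D.sc t = a i) (hom0 : ∀ t, 0 ≤ om t) (hom1 : ∑ t ∈ range (D.N + 2), om t ≤ D.Lo)
    (B : JtTopo → ℝ) (L0 : ℝ) (hL0 : 0 ≤ L0)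
    (hsupp : ∀ τ ∈ l9aTab D.N (2 * n), B τ ≠ 0 → ∀ i, i < n → V i (l9cDp τ i))
    (hB : ∀ τ ∈ l9aTab D.N (2 * n), |B τ| ≤ L0 * D.E2 (l9dMk D n R V a A om B) τ * ∏ i ∈ range n \ R, D.env (l9cDp τ i)) :
    |∑ τ ∈ l9aTab D.N (2 * n), B τ * (l9rNum (D.X true) R (2 * n) τ - l9rNum (D.X false) R (2 * n) τ)|
      ≤ L0 * (2 ^ R.card * D.Bd n A Kz err) := by
  classical
  have hA : 0 < A := by
    obtain ⟨i, hi, h⟩ := hmax
    rw [← h]; exact lt_of_lt_of_le zero_lt_one (ha1 i hi)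
  set P : JtTopo → ℝ := fun τ => ∏ i ∈ range n \ R, D.env (l9cDp τ i) with hP
  set H : JtTopo → ℝ := fun τ => B τ / (L0 * P τ) with hH
  set T : L9cT := l9dMk D n R V a A om H with hTd
  have hE : ∀ τ, D.E2 (l9dMk D n R V a A om B) τ = D.E2 T τ := fun τ => rfl
  have hE0 : ∀ τ, 0 ≤ D.E2 T τ := fun τ => l9d_E2_nonneg hD T hA ha1 hom0 τ
  have hP0 : ∀ τ, 0 ≤ P τ := fun τ => Finset.prod_nonneg fun i _ => hD.env0 _
  -- where `B ≠ 0` the normalisation is positive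
  have hpos : ∀ τ ∈ l9aTab D.N (2 * n), B τ ≠ 0 → 0 < L0 * P τ := by
    intro τ hτ hne
    have h1 := hB τ hτ
    have h2 : 0 < |B τ| := abs_pos.mpr hne
    have h3 : 0 < L0 * D.E2 T τ * P τ := lt_of_lt_of_le h2 h1
    by_contra hn
    have h4 : L0 * P τ = 0 := le_antisymm (not_lt.mp hn) (mul_nonneg hL0 (hP0 τ))
    have : L0 * D.E2 T τ * P τ = 0 := by
      calc L0 * D.E2 T τ * P τ = (L0 * P τ) * D.E2 T τ := by ring
        _ = 0 := by rw [h4, zero_mul]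
    linarith
  have hT : T.Ok D := by
    refine ⟨hn2, hnp, hR, ha1, haA, hmax, hV, ?_, ?_, hom0, hom1, ?_, ?_⟩
    · intro i t hi _ hVt
      show |D.env t| ≤ _
      rw [abs_of_nonneg (hD.env0 t)]
      calc D.env t = 1 * D.env t := (one_mul _).symm
        _ ≤ D.Lm * D.env t := mul_le_mul_of_nonneg_right hLm1 (hD.env0 t)
    · intro i t hi _ hVt
      show |D.env t| ≤ _
      rw [abs_of_nonneg (hD.env0 t)]
      exact heM t (hV i t hi hVt).1
    · intro τ hτ hne i hi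
      have : B τ ≠ 0 := by
        intro h0
        apply hne
        show B τ / (L0 * P τ) = 0
        rw [h0, zero_div]
      exact hsupp τ hτ this i hi
    · intro τ hτ
      show |B τ / (L0 * P τ)| ≤ D.E2 T τ
      by_cases h0 : B τ = 0
      · rw [h0, zero_div, abs_zero]; exact hE0 τ
      · have hp := hpos τ hτ h0
        rw [abs_div, abs_of_pos hp, div_le_iff₀ hp]
        refine (hB τ hτ).trans (le_of_eq ?_)
        rw [hE]
        ring
  have hmain := l9d_delta hD hL hKz herr hI hT hnJ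
  have e : ∑ τ ∈ l9aTab D.N (2 * n), B τ * (l9rNum (D.X true) R (2 * n) τ - l9rNum (D.X false) R (2 * n) τ)
      = L0 * ∑ τ ∈ l9aTab D.N (2 * T.j), T.H τ * (∏ i ∈ range T.j \ T.St, T.phi i (l9cDp τ i))
        * (l9rNum (D.X true) T.St (2 * T.j) τ - l9rNum (D.X false) T.St (2 * T.j) τ) := by
    rw [Finset.mul_sum]
    refine Finset.sum_congr rfl fun τ hτ => ?_
    show _ = L0 * (B τ / (L0 * P τ) * P τ * (l9rNum (D.X true) R (2 * n) τ - l9rNum (D.X false) R (2 * n) τ))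
    by_cases h0 : B τ = 0
    · rw [h0]; simp
    · have hp := (hpos τ hτ h0).ne'
      have : L0 * (B τ / (L0 * P τ) * P τ) = B τ := by
        rw [div_mul_eq_mul_div, mul_div_assoc', mul_comm L0 (B τ * P τ), mul_assoc, mul_comm (P τ) L0, mul_div_assoc, div_self hp, mul_one]
      calc _ = (L0 * (B τ / (L0 * P τ) * P τ)) * (l9rNum (D.X true) R (2 * n) τ - l9rNum (D.X false) R (2 * n) τ) := by rw [this]
        _ = _ := by ring
  rw [e, abs_mul, abs_of_nonneg hL0]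
  exact mul_le_mul_of_nonneg_left hmain hL0

/-! ## 4. skeletons at a cut -/

/-- a label which creates a fork does not attach at an existing fork -/
theorem l9d_new_no_sep {N s : ℕ} {τ : ℕ → ℕ → ℕ} (hτ : IsTr N (s + 1) τ) (hn : L9aNew N τ s) :
    ¬ ∃ y ∈ range s, τ (l9aBx τ s) y = l9aBj τ s := by
  rintro ⟨y, hy, he⟩
  rw [mem_range] at hy
  obtain ⟨hs1, hj, hd⟩ := hn
  obtain ⟨b1, _, _, _, _⟩ := l9a_birth hτ hs1
  set x := l9aBx τ s with hx
  set j := l9aBj τ s with hjd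
  have hxq : x < s + 1 := by omega
  have hyq : y < s + 1 := by omega
  obtain ⟨a1, a2, a3⟩ := tra2_rp_spec hτ hxq (show j + 1 ≤ N + 1 by omega)
  obtain ⟨c1, c2, c3⟩ := tra2_rp_spec hτ hyq (show j + 1 ≤ N + 1 by omega)
  set rx := tra2Rp τ (j + 1) x with hrx
  set ry := tra2Rp τ (j + 1) y with hry
  have hrxq : rx < s + 1 := by omega
  have hryq : ry < s + 1 := by omega
  have hne : rx ≠ ry := by
    intro h
    have u := hτ.ultra x rx y hxq hrxq hyq
    have u2 := hτ.symm rx y hrxq hyq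
    rw [h] at u u2 a2
    omega
  have m1 : rx ∈ (range s).filter fun y => j ≤ τ x y ∧ trIsMin τ (j + 1) y :=
    mem_filter.mpr ⟨mem_range.mpr (by omega), by omega, a3⟩
  have m2 : ry ∈ (range s).filter fun y => j ≤ τ x y ∧ trIsMin τ (j + 1) y := by
    refine mem_filter.mpr ⟨mem_range.mpr (by omega), ?_, c3⟩
    have u := hτ.ultra x y ry hxq hyq hryq
    omega
  have : 1 < trDeg s τ j x := by
    unfold trDeg
    exact Finset.one_lt_card.mpr ⟨rx, m1, ry, m2, hne⟩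
  omega

/-- the measure of a non designated fork of a skeleton at the cut `c`: relative mass below the cut, `1` at the cut -/
noncomputable def l9dOm (ms : ℕ → ℝ) (c : ℕ) (t : ℕ) : ℝ := if t < c then l9aMu ms t / trPm ms c else if t = c then 1 else 0

theorem l9d_om_nonneg {N : ℕ} {ms : ℕ → ℝ} (hms : IsMs N ms) {c : ℕ} (hc : c ≤ N + 1) (t : ℕ) : 0 ≤ l9dOm ms c t := by
  unfold l9dOm
  split_ifs with h1 h2
  · exact l9r_rho_nonneg hms hc h1
  · exact zero_le_one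
  · exact le_rfl

theorem l9d_om_sum {N : ℕ} {ms : ℕ → ℝ} {c : ℕ} (hc : c ≤ N + 1) (hpos : 0 < trPm ms c) :
    ∑ t ∈ range (N + 2), l9dOm ms c t = 2 := by
  have h1 : ∑ t ∈ range (N + 2), l9dOm ms c t
      = ∑ t ∈ range (N + 2), ((if t < c then l9aMu ms t / trPm ms c else 0) + if t = c then 1 else 0) := by
    refine Finset.sum_congr rfl fun t _ => ?_
    unfold l9dOm
    by_cases h : t < c
    · have : t ≠ c := by omega
      simp [h, this]
    · simp [h]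
  rw [h1, Finset.sum_add_distrib, ← Finset.sum_filter, Finset.sum_ite_eq' (range (N + 2)) c (fun _ => (1 : ℝ)),
    if_pos (mem_range.mpr (by omega))]
  have h2 : (range (N + 2)).filter (fun t => t < c) = range c := by
    ext t
    simp only [mem_filter, mem_range]
    omega
  rw [h2]
  have := l9r_rho_sum (ms := ms) hpos
  unfold l9rMu at this
  unfold l9aMu
  rw [this]
  norm_num

/-- **the skeleton volume is dominated by the weights of (E2)** -/
theorem l9d_vol_le (hD : D.Ok) (T : L9cT) (hA : 0 < T.A) {c : ℕ} (hc : c ≤ D.N + 1) (hpos : 0 < trPm D.ms c)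
    (hAc : T.A * D.Sc.Y ≤ trPm D.ms c) (hom : T.om = l9dOm D.ms c) {sk : JtTopo} (hsk : IsTr D.N (2 * T.j) sk)
    (hle : ∀ x y, x < 2 * T.j → y < 2 * T.j → x ≠ y → sk x y ≤ c) (hdc : ∀ i, i < T.j → l9cDp sk i < c) :
    l9rVol D.ms (2 * T.j) c sk ≤ ∏ s ∈ Ico 1 (2 * T.j), l9cWt D T sk s := by
  classical
  refine (l9r_vol_le_gw hD.hms hc hpos hsk hle).trans ?_
  unfold l9aGW
  apply Finset.prod_le_prod
  · intro s _
    exact l9r_w_nonneg hD.hms hc _ _ _ _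
  · intro s hs
    rw [mem_Ico] at hs
    have hs1 : IsTr D.N (s + 1) sk := tr_isTr_mono hsk (by omega)
    obtain ⟨b1, b2, b3, b4, _⟩ := l9a_birth hs1 hs.1
    unfold l9rW l9cWt
    rw [if_pos b3]
    by_cases hn : L9aNew D.N sk s
    · rw [if_pos hn, if_neg (l9d_new_no_sep hs1 hn)]
      by_cases hdes : ∃ i, i < T.j ∧ l9aVx sk (2 * i) (2 * i + 1) = s
      · rw [if_pos hdes]
        obtain ⟨i, hi, hv⟩ := hdes
        have hlt := hdc i hi
        have hdN : sk (2 * i) (2 * i + 1) ≤ D.N := by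
          unfold l9cDp at hlt
          omega
        obtain ⟨_, _, v3⟩ := l9a_vx_spec hsk (show 2 * i < 2 * T.j by omega) (show 2 * i + 1 < 2 * T.j by omega) hdN
        rw [hv] at v3
        have hjc : l9aBj sk s < c := by rw [v3]; exact hlt
        rw [if_pos hjc]
        exact div_le_div_of_nonneg_left (l9a_mu_nonneg hD.hms hn.2.1) (mul_pos hA D.Sc.Y_pos) hAc
      · rw [if_neg hdes, hom]
        exact le_rfl
    · rw [if_neg hn]
      split_ifs with h1 h2 h3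
      · exact le_rfl
      · exact l9r_rho_le_one hD.hms hc hpos h1
      · exact le_rfl
      · exact zero_le_one

/-- the defining property of the fork label -/
theorem l9d_vx_mem {N r : ℕ} {τ : ℕ → ℕ → ℕ} (hτ : IsTr N r τ) {a b : ℕ} (ha : a < r) (hb : b < r) (hab : τ a b ≤ N) :
    τ a b ≤ τ a (l9aVx τ a b) ∧ ∃ y, y < l9aVx τ a b ∧ τ (l9aVx τ a b) y = τ a b := by
  have hne : a ≠ b := by
    intro h
    rw [← h, hτ.diag a ha] at hab
    omega
  have hmaxmem : max a b ∈ {s | τ a b ≤ τ a s ∧ ∃ y, y < s ∧ τ s y = τ a b} := by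
    rcases lt_or_gt_of_ne hne with h | h
    · rw [max_eq_right h.le]
      exact ⟨le_rfl, a, h, by rw [hτ.symm b a hb ha]⟩
    · rw [max_eq_left h.le]
      exact ⟨by rw [hτ.diag a ha]; omega, b, h, rfl⟩
  exact Nat.sInf_mem (s := {s | τ a b ≤ τ a s ∧ ∃ y, y < s ∧ τ s y = τ a b}) ⟨_, hmaxmem⟩

/-- **two pairs split at the same vertex** iff they split at the same depth and share that many stages (`l9Same` of 282 for the pairs `(0,1)`, `(2,3)`) -/
theorem l9d_vx_eq_iff {N r : ℕ} {τ : ℕ → ℕ → ℕ} (hτ : IsTr N r τ) {a b a' b' : ℕ} (ha : a < r) (hb : b < r) (ha' : a' < r) (hb' : b' < r)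
    (h1 : τ a b ≤ N) (h2 : τ a' b' ≤ N) : l9aVx τ a b = l9aVx τ a' b' ↔ (τ a b = τ a' b' ∧ τ a b ≤ τ a a') := by
  obtain ⟨v1, _, v3⟩ := l9a_vx_spec hτ ha hb h1
  obtain ⟨w1, _, w3⟩ := l9a_vx_spec hτ ha' hb' h2
  obtain ⟨m1, y, hy, m2⟩ := l9d_vx_mem hτ ha hb h1
  obtain ⟨n1, z, hz, n2⟩ := l9d_vx_mem hτ ha' hb' h2
  constructor
  · intro h
    have e : τ a b = τ a' b' := by rw [← v3, ← w3, h]
    refine ⟨e, ?_⟩
    rw [← h] at n1
    have u := hτ.ultra a (l9aVx τ a b) a' ha v1 ha'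
    have u2 := hτ.symm (l9aVx τ a b) a' v1 ha'
    omega
  · rintro ⟨e, hle⟩
    apply le_antisymm
    · apply Nat.sInf_le
      refine ⟨?_, z, hz, by rw [n2, e]⟩
      have u := hτ.ultra a a' (l9aVx τ a' b') ha ha' w1
      omega
    · apply Nat.sInf_le
      refine ⟨?_, y, hy, by rw [m2, e]⟩
      have u := hτ.ultra a' a (l9aVx τ a b) ha' ha v1
      have u2 := hτ.symm a' a ha' ha
      omega

/-- **SKELETON FORM of Lemma 9.1** (consumer form of RED): coefficients on the skeletons at a cut `c` with `w ≤ m_c`, majorised by `L0 * ∏ e * (E2)` with the skeleton volume of 282 -/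
theorem l9d_red (hD : D.Ok) (hL : D.Lk) (hLm1 : 1 ≤ D.Lm) (heM : ∀ t, D.rg t → D.env t ≤ D.M) (hLo2 : 2 ≤ D.Lo)
    {J0 : ℕ} {Kz err : ℝ} (hKz : 1 ≤ Kz) (herr : 0 ≤ err) (hI : L9dImp D J0 Kz err)
    (n : ℕ) (hn2 : 2 ≤ n) (hnJ : n ≤ J0) (hnp : n ≤ D.p0) (R : Finset ℕ) (hR : R ⊆ range n)
    (V : ℕ → ℕ → Prop) (a : ℕ → ℝ) (A : ℝ)
    (ha1 : ∀ i, i < n → 1 ≤ a i) (haA : ∀ i, i < n → a i ≤ A) (hmax : ∃ i, i < n ∧ a i = A)
    (hV : ∀ i t, i < n → V i t → D.rg t ∧ D.sc t = a i)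
    (c : ℕ) (hc : c ≤ D.N + 1) (hpos : 0 < trPm D.ms c) (hAc : A * D.Sc.Y ≤ trPm D.ms c) (hVc : ∀ i t, i < n → V i t → t < c)
    (B : JtTopo → ℝ) (L0 : ℝ) (hL0 : 0 ≤ L0)
    (hsupp : ∀ sk ∈ l9rSk (l9aTab D.N (2 * n)) (2 * n) c, B sk ≠ 0 → ∀ i, i < n → V i (l9cDp sk i))
    (hB : ∀ sk ∈ l9rSk (l9aTab D.N (2 * n)) (2 * n) c, |B sk| ≤ L0 * (D.Lo * D.Sc.lam * (A * D.Sc.Y) ^ ((5 : ℤ) - (n : ℕ))
      * l9cKap (l9dMk D n R V a A (l9dOm D.ms c) B) sk * l9rVol D.ms (2 * n) c sk) * ∏ i ∈ range n \ R, D.env (l9cDp sk i)) :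
    |∑ sk ∈ l9rSk (l9aTab D.N (2 * n)) (2 * n) c, B sk * (l9rNum (D.X true) R (2 * n) sk - l9rNum (D.X false) R (2 * n) sk)|
      ≤ L0 * (2 ^ R.card * D.Bd n A Kz err) := by
  classical
  have hA : 0 < A := by
    obtain ⟨i, hi, h⟩ := hmax
    rw [← h]; exact lt_of_lt_of_le zero_lt_one (ha1 i hi)
  set Sk := l9rSk (l9aTab D.N (2 * n)) (2 * n) c with hSk
  have hsub : Sk ⊆ l9aTab D.N (2 * n) := by
    intro sk hsk
    obtain ⟨τ, hτ, rfl⟩ := mem_image.mp hsk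
    exact l9r_tc_mem_tab (l9a_mem_tab.mp hτ).1 c
  have hskle : ∀ sk ∈ Sk, ∀ x y, x < 2 * n → y < 2 * n → x ≠ y → sk x y ≤ c := by
    intro sk hsk x y hx hy hxy
    obtain ⟨τ, _, rfl⟩ := mem_image.mp hsk
    rw [l9r_tc_apply τ hx hy hxy]
    exact min_le_right _ _
  set B' : JtTopo → ℝ := fun τ => if τ ∈ Sk then B τ else 0 with hB'
  have e : ∑ sk ∈ Sk, B sk * (l9rNum (D.X true) R (2 * n) sk - l9rNum (D.X false) R (2 * n) sk)
      = ∑ τ ∈ l9aTab D.N (2 * n), B' τ * (l9rNum (D.X true) R (2 * n) τ - l9rNum (D.X false) R (2 * n) τ) := by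
    rw [← Finset.sum_subset hsub]
    · refine Finset.sum_congr rfl fun τ hτ => ?_
      rw [hB']
      simp only [if_pos hτ]
    · intro τ _ hn
      rw [hB']
      simp only [if_neg hn, zero_mul]
  rw [e]
  refine l9d_deltaB hD hL hLm1 heM hKz herr hI n hn2 hnJ hnp R hR V a A (l9dOm D.ms c) ha1 haA hmax hV
    (l9d_om_nonneg hD.hms hc) (by rw [l9d_om_sum hc hpos]; exact hLo2) B' L0 hL0 ?_ ?_
  · intro τ _ hne i hi
    by_cases hτ : τ ∈ Sk
    · refine hsupp τ hτ ?_ i hi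
      rw [hB'] at hne
      simpa only [if_pos hτ] using hne
    · exfalso
      apply hne
      rw [hB']
      simp only [if_neg hτ]
  · intro τ hτt
    set T0 := l9dMk D n R V a A (l9dOm D.ms c) B' with hT0
    have hE0 : 0 ≤ D.E2 T0 τ := l9d_E2_nonneg hD T0 hA ha1 (l9d_om_nonneg hD.hms hc) τ
    have hP0 : 0 ≤ ∏ i ∈ range n \ R, D.env (l9cDp τ i) := Finset.prod_nonneg fun i _ => hD.env0 _
    by_cases hτ : τ ∈ Sk ∧ B τ ≠ 0
    · have hb := hB τ hτ.1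
      have hv := l9d_vol_le hD T0 hA hc hpos hAc rfl (l9a_mem_tab.mp hτt).1 (hskle τ hτ.1)
        (fun i hi => hVc i _ hi (hsupp τ hτ.1 hτ.2 i hi))
      have hk : 0 ≤ D.Lo * D.Sc.lam * (A * D.Sc.Y) ^ ((5 : ℤ) - (n : ℕ)) * l9cKap T0 τ :=
        mul_nonneg (mul_nonneg (mul_nonneg (by linarith) D.Sc.hlam.le) (zpow_pos (mul_pos hA D.Sc.Y_pos) _).le)
          (l9d_kap_nonneg T0 hA ha1 τ)
      have h1 : |B' τ| = |B τ| := by
        rw [hB']
        simp only [if_pos hτ.1]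
      rw [h1]
      refine hb.trans ?_
      apply mul_le_mul_of_nonneg_right _ hP0
      apply mul_le_mul_of_nonneg_left _ hL0
      exact mul_le_mul_of_nonneg_left hv hk
    · have h0 : B' τ = 0 := by
        rw [hB']
        by_cases h1 : τ ∈ Sk
        · simp only [if_pos h1]
          by_contra h2
          exact hτ ⟨h1, h2⟩
        · simp only [if_neg h1]
      rw [h0, abs_zero]
      exact mul_nonneg (mul_nonneg hL0 hE0) hP0

end Claimed.Agent.R286
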