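import Claimed.Agent.R286.L09.CCCenI
import Claimed.Agent.R286.L09.RedC
import Claimed.Agent.R286.L08.DList
import Claimed.Agent.R286.L08.LsInst

/-!
# Row 286 (S0533), LL Sec. 9, node CC: THE INSTANCE OF LEMMA 9.1 ON THE SK OBJECTS      (owner helper70; head of the unit helper60; prefix `l9ci`, `L9ci`)

TEX[LL:exp:lem-centered-count]      The table level of Lemma 9.1 is 30's (`L09/CCTab.lean`: data `L9cD`, imports `L9cD.Ok`, `l9c_main`; adapters `L09/CCAd.lean`), the centred half is 64's (`L09/CCCenT.lean`: link `L13zLk`, numbers `L13zNb`).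
THIS FILE CONSTRUCTS THE DATA at one instance `I : L8In` of LL 08 (75, `L08/Defs.lean`) and PROVES the imports from the records `I.Env`, `I.Num`, `I.Rnd` through the dictionary of 220 (`L08/DList.lean`).
(The former layer `L9ciD` of this file duplicated `L09/CCTab.lean` and is deleted; §0 `l9ciPw` is kept: used by `L09/HiTab.lean`.)

* `l9ciBi Y v`, `l9ciSc Y v = 2 ^ l9ciBi Y v`      index and scale of the band of the mass `v`;   `l9ci_band_iff`, `l9ci_sc_band` : `l9Band Y k v ↔ l9ciSc Y v = 2 ^ k` (bands of 282, `L09/RedC.lean`).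
* `l9ciD I Sc e vt Lo Lm M p0 : L9cD (SkCfg I.m)`      **the concrete data**: `X := I.X`, `ms := llMs I.a I.LP`, `env t := e t` (`0` for `t > n`), `Dv t := √(V_false t + V_true t)`, `sc t := l9ciSc Sc.Y (ms t)`, `lw t := ms t < Sc.x`,
                                                      `rg t := t ≤ I.n ∧ ms t ≤ vt`.      All the fields are `rfl`.
* `L9ciLk I Sc Y Zh`      the scales `Sc : L13Scales` of 30 are those of the instance (`U < 1`: `I.U = x λ^(-s/2)`), `Y`, `Zh` = the parameters of `I.All`.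
* `L9ciHyp I Sc e A Y Zh vt vp cE pm jm Lo Lm M Kb`      ALL THE HYPOTHESES at one instance (records of LL 08 in both ensembles + choice of the losses: `2 A ≤ Lm ≤ Lo`, `2 A (Kb + 2) ≤ Lo`, `Y ≤ 2^Kb x`, `2 ≤ M`, `A max(vt, Y) ≤ M`).
EXITS (ALL PROVED): `l9ci_ok : (l9ciD ..).Ok`  (INST[`L9cD.Ok`]),   `l9ci_lk : L13zLk (l9ciD ..) I.sp (l8liSk ..) Prod.snd r`  (INST[`L13zLk`]),   `l9ci_dlk : (l9ciD ..).Lk` + `l9ci_env_M`, `l9ci_Lm1` (side conditions of `L09/CCAd.lean`),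
`l9ci_nb : L13zNb (l9ciD ..) I.sp jm (A (2A)^jm) A`  (INST[`L13zNb`]),   `l9ci_imp : L9dImp (l9ciD ..) jm (l13zKJ ..) (l13zEJ ..)`,   `l9ci_val` (= `l9d_val` at the instance).
-/

set_option autoImplicit false
set_option linter.unusedSectionVars false

namespace Claimed.Agent.R286

open scoped BigOperators

/-! ## 0. the probability vector of a table -/

section pw
variable {S : Type} [Fintype S] [Inhabited S]

open Classical in
/-- the probability of a configuration of the `q` leaves (a Dirac mass if the table is not a tree) -/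
noncomputable def l9ciPw (X : JtCtx S) (q : ℕ) (τ : ℕ → ℕ → ℕ) (ω : Fin q → S) : ℝ :=
  if IsTr X.N q τ then X.nu q τ (fun σ => if ∀ i : Fin q, σ i = ω i then 1 else 0) else if ω = default then 1 else 0

theorem l9ci_ext_apply {q : ℕ} (σ : Fin q → S) (i : Fin q) : trExt σ i = σ i := by
  unfold trExt
  rw [dif_pos i.2]

theorem l9ci_pw_eq {X : JtCtx S} {q : ℕ} {τ : ℕ → ℕ → ℕ} (hτ : IsTr X.N q τ) {w : (Fin q → S) → ℝ}
    (hrep : ∀ P : (ℕ → S) → ℝ, X.nu q τ P = ∑ σ, w σ * P (trExt σ)) (ω : Fin q → S) : l9ciPw X q τ ω = w ω := by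
  classical
  unfold l9ciPw
  rw [if_pos hτ, hrep, Finset.sum_eq_single ω]
  · rw [if_pos fun i => l9ci_ext_apply ω i, mul_one]
  · intro σ _ hne
    rw [if_neg, mul_zero]
    intro h
    exact hne (funext fun i => by rw [← l9ci_ext_apply σ i]; exact h i)
  · intro h
    exact absurd (Finset.mem_univ ω) h

theorem l9ci_pw_nonneg {X : JtCtx S} (hX : L9rPos X) (q : ℕ) (τ : ℕ → ℕ → ℕ) (ω : Fin q → S) : 0 ≤ l9ciPw X q τ ω := by
  classical
  by_cases hτ : IsTr X.N q τ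
  · obtain ⟨w, hw, -, hrep⟩ := hX.rep q τ hτ
    rw [l9ci_pw_eq hτ hrep]
    exact hw ω
  · unfold l9ciPw
    rw [if_neg hτ]
    split_ifs <;> norm_num

theorem l9ci_pw_sum {X : JtCtx S} (hX : L9rPos X) (q : ℕ) (τ : ℕ → ℕ → ℕ) : ∑ ω, l9ciPw X q τ ω = 1 := by
  classical
  by_cases hτ : IsTr X.N q τ
  · obtain ⟨w, -, hs, hrep⟩ := hX.rep q τ hτ
    simp only [l9ci_pw_eq hτ hrep]
    exact hs
  · unfold l9ciPw
    simp only [if_neg hτ]
    simp

theorem l9ci_pw_rep {X : JtCtx S} (hX : L9rPos X) {q : ℕ} {τ : ℕ → ℕ → ℕ} (hτ : IsTr X.N q τ) (P : (ℕ → S) → ℝ) :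
    X.nu q τ P = ∑ ω, l9ciPw X q τ ω * P (trExt ω) := by
  obtain ⟨w, -, -, hrep⟩ := hX.rep q τ hτ
  simp only [l9ci_pw_eq hτ hrep]
  exact hrep P

end pw

open Finset MeasureTheory

noncomputable section

/-! ## 1. the band index -/

/-- the index of the band of the mass `v`: the least `k` with `v ≤ 2^(k+1) Y` -/
def l9ciBi (Y v : ℝ) : ℕ := sInf {k : ℕ | v ≤ 2 ^ (k + 1) * Y}

theorem l9ci_bi_ne {Y : ℝ} (hY : 0 < Y) (v : ℝ) : {k : ℕ | v ≤ 2 ^ (k + 1) * Y}.Nonempty := by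
  obtain ⟨k, hk⟩ := pow_unbounded_of_one_lt (v / Y) (one_lt_two : (1 : ℝ) < 2)
  refine ⟨k, ?_⟩
  show v ≤ 2 ^ (k + 1) * Y
  have h1 : v < 2 ^ k * Y := (div_lt_iff₀ hY).mp hk
  have h2 : (2 : ℝ) ^ k * Y ≤ 2 ^ (k + 1) * Y := by
    rw [pow_succ]; nlinarith [pow_pos (two_pos : (0 : ℝ) < 2) k]
  linarith

theorem l9ci_bi_le {Y : ℝ} (hY : 0 < Y) (v : ℝ) : v ≤ 2 ^ (l9ciBi Y v + 1) * Y := Nat.sInf_mem (l9ci_bi_ne hY v)

theorem l9ci_bi_lt {Y v : ℝ} (h : 0 < l9ciBi Y v) : 2 ^ l9ciBi Y v * Y < v := by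
  by_contra hn
  have h1 : l9ciBi Y v - 1 ∈ {k : ℕ | v ≤ 2 ^ (k + 1) * Y} := by
    show v ≤ 2 ^ (l9ciBi Y v - 1 + 1) * Y
    rw [Nat.sub_add_cancel h]
    exact not_lt.mp hn
  have h2 : l9ciBi Y v ≤ l9ciBi Y v - 1 := Nat.sInf_le h1
  omega

theorem l9ci_bi_min {Y v : ℝ} {k : ℕ} (h : v ≤ 2 ^ (k + 1) * Y) : l9ciBi Y v ≤ k := Nat.sInf_le h

theorem l9ci_bi_mono {Y : ℝ} (hY : 0 < Y) {v v' : ℝ} (h : v ≤ v') : l9ciBi Y v ≤ l9ciBi Y v' :=
  l9ci_bi_min (h.trans (l9ci_bi_le hY v'))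

/-- the bands of 282 are the level sets of the index -/
theorem l9ci_band_iff {Y : ℝ} (hY : 0 < Y) (k : ℕ) (v : ℝ) : l9Band Y k v ↔ l9ciBi Y v = k := by
  unfold l9Band
  constructor
  · intro h
    split_ifs at h with hk
    · subst hk
      have := l9ci_bi_min (Y := Y) (v := v) (k := 0) (by simpa using h)
      omega
    · refine le_antisymm (l9ci_bi_min h.2) ?_
      by_contra hn
      have h1 : l9ciBi Y v + 1 ≤ k := by omega
      have h2 := l9ci_bi_le hY v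
      have h3 : (2 : ℝ) ^ (l9ciBi Y v + 1) ≤ 2 ^ k := pow_le_pow_right₀ one_le_two h1
      have h4 := mul_le_mul_of_nonneg_right h3 hY.le
      linarith [h.1]
  · rintro rfl
    split_ifs with hk
    · have := l9ci_bi_le hY v
      rw [hk] at this
      simpa using this
    · exact ⟨l9ci_bi_lt (by omega), l9ci_bi_le hY v⟩

/-- the scale of the band -/
def l9ciSc (Y v : ℝ) : ℝ := 2 ^ l9ciBi Y v

theorem l9ci_sc_one (Y v : ℝ) : 1 ≤ l9ciSc Y v := one_le_pow₀ one_le_two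

theorem l9ci_sc_mono {Y : ℝ} (hY : 0 < Y) {v v' : ℝ} (h : v ≤ v') : l9ciSc Y v ≤ l9ciSc Y v' :=
  pow_le_pow_right₀ one_le_two (l9ci_bi_mono hY h)

theorem l9ci_sc_le {Y : ℝ} (hY : 0 < Y) (v : ℝ) : v ≤ 2 * (l9ciSc Y v * Y) := by
  have := l9ci_bi_le hY v
  unfold l9ciSc
  rw [pow_succ] at this
  linarith

theorem l9ci_sc_lt {Y v : ℝ} (h : 1 < l9ciSc Y v) : l9ciSc Y v * Y < v := by
  refine l9ci_bi_lt (Nat.pos_of_ne_zero fun h0 => ?_)
  unfold l9ciSc at h
  rw [h0] at h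
  simp at h

theorem l9ci_sc_eq_one {Y v : ℝ} (h : v ≤ 2 * Y) : l9ciSc Y v = 1 := by
  have := l9ci_bi_min (Y := Y) (v := v) (k := 0) (by simpa using h)
  unfold l9ciSc
  rw [Nat.le_zero.mp this, pow_zero]

theorem l9ci_sc_band {Y : ℝ} (hY : 0 < Y) (k : ℕ) (v : ℝ) : l9Band Y k v ↔ l9ciSc Y v = 2 ^ k := by
  rw [l9ci_band_iff hY]
  unfold l9ciSc
  constructor
  · rintro rfl; rfl
  · intro h
    exact Nat.pow_right_injective le_rfl (by exact_mod_cast h)


/-! ## 2. the concrete data -/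

/-- the untilted mean of a pair which shares `t` stages, as a tree number -/
def L8In.l9ciS (I : L8In) (t : ℕ) : ℝ := (I.X false).nu 2 (l9rT2 I.n t) fun σ => (I.X false).msk t * (I.X false).ov (σ 0) (σ 1)

/-- second moment about the untilted mean, ensemble `en` -/
def L8In.l9ciV (I : L8In) (en : Bool) (t : ℕ) : ℝ :=
  (I.X en).nu 2 (l9rT2 I.n t) fun σ => ((I.X en).msk t * (I.X en).ov (σ 0) (σ 1) - I.l9ciS t) ^ 2

/-- **THE CONCRETE DATA of LL Lemma 9.1 at one instance of LL 08**: scales `Sc`, envelope `e` (of `I.All`), top `vt` of the refined region, losses `Lo`, `Lm`, sup bound `M`, order `p0` -/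
def l9ciD (I : L8In) (Sc : L13Scales) (e : ℕ → ℝ) (vt Lo Lm M : ℝ) (p0 : ℕ) : L9cD (SkCfg I.m) where
  X := I.X
  ms := llMs I.a I.LP
  Sc := Sc
  Lo := Lo
  Lm := Lm
  M := M
  p0 := p0
  env := fun t => if t ≤ I.n then e t else 0
  Dv := fun t => Real.sqrt (I.l9ciV false t + I.l9ciV true t)
  sc := fun t => l9ciSc Sc.Y (llMs I.a I.LP t)
  lw := fun t => llMs I.a I.LP t < Sc.x
  rg := fun t => t ≤ I.n ∧ llMs I.a I.LP t ≤ vt

/-- the scales of 30 are the scales of the instance; `Y`, `Zh` = the parameters of `I.All` -/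
structure L9ciLk (I : L8In) (Sc : L13Scales) (Y Zh : ℝ) : Prop where
  x : Sc.x = I.x
  lam : Sc.lam = I.lam
  s : Sc.s = I.F.sS
  eta : Sc.eta = I.F.eta
  U1 : I.x * I.lam ^ (-(I.F.sS / 2)) ≤ 1
  Y : Sc.Y = Y
  Zh0 : 0 ≤ Zh
  Zh : Zh ≤ Sc.Z
  lam1 : I.lam ≤ 1
  s0 : 0 ≤ I.F.sS

namespace L9ciLk

variable {I : L8In} {Sc : L13Scales} {Y Zh : ℝ}

theorem U (h : L9ciLk I Sc Y Zh) : Sc.U = I.U := by
  unfold L13Scales.U L8In.U LlPt.U
  rw [h.x, h.lam, h.s, neg_div]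
  exact (min_eq_right h.U1).symm

theorem l1 (h : L9ciLk I Sc Y Zh) : Sc.lam1 = I.lam1 := by
  unfold L13Scales.lam1 L8In.lam1 LlPt.lam1
  rw [h.lam, h.eta]
  rfl

theorem z0 (h : L9ciLk I Sc Y Zh) (r : ℝ) : Sc.z0 r = I.z0 r := by
  unfold L13Scales.z0 L8In.z0
  rw [h.x, h.l1]

theorem E0 (h : L9ciLk I Sc Y Zh) : I.E0 Y = Sc.gB * Sc.Y ^ 2 := by
  have h1 := Sc.E0_eq
  unfold L13Scales.E0 at h1
  rw [h1]
  unfold L8In.E0 L8In.epsw
  rw [max_self, h.x, h.l1, h.U, h.Y]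

theorem x_le_U (h : L9ciLk I Sc Y Zh) : Sc.x ≤ Sc.U := by
  unfold L13Scales.U
  have h1 : (1 : ℝ) ≤ Sc.lam ^ (-Sc.s / 2) := by
    refine Real.one_le_rpow_of_pos_of_le_one_of_nonpos Sc.hlam (by rw [h.lam]; exact h.lam1) ?_
    rw [h.s]
    have := h.s0
    linarith
  nlinarith [Sc.hx]

theorem x_le_Y (h : L9ciLk I Sc Y Zh) : Sc.x ≤ Sc.Y := h.x_le_U.trans Sc.U_le_Y

end L9ciLk

/-! ## 3. sums over the cuts -/

/-- the cells below the mass `B` have total mass at most `B` -/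
theorem l9ci_mass_aux {N : ℕ} {ms : ℕ → ℝ} (h : IsMs N ms) {B : ℝ} (hB : 0 ≤ B) : ∀ n, n ≤ N →
    ∑ t ∈ range (n + 1), (if ms t ≤ B then l9aMu ms t else 0) ≤ min (ms n) B := by
  intro n
  induction n with
  | zero =>
    intro _
    rw [Finset.sum_range_one]
    have e : l9aMu ms 0 = ms 0 := by simp [l9aMu, trPm]
    split_ifs with h0
    · rw [e, min_eq_left h0]
    · exact le_min (h.nonneg 0) hB
  | succ n ih =>
    intro hn
    rw [Finset.sum_range_succ]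
    have h1 := ih (by omega)
    have h2 : ms n ≤ ms (n + 1) := h.mono n (n + 1) (by omega) hn
    have e : l9aMu ms (n + 1) = ms (n + 1) - ms n := by simp [l9aMu, trPm]
    split_ifs with h0
    · rw [e, min_eq_left h0]
      have := h1.trans (min_le_left _ _)
      linarith
    · rw [add_zero]
      exact h1.trans (min_le_min_right _ h2)

theorem l9ci_mass {N : ℕ} {ms : ℕ → ℝ} (h : IsMs N ms) {B : ℝ} (hB : 0 ≤ B) (P : ℕ → Prop) [DecidablePred P] (hP : ∀ t, P t → ms t ≤ B) :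
    ∑ t ∈ (range (N + 1)).filter P, l9aMu ms t ≤ B := by
  have h1 := (l9ci_mass_aux h hB N le_rfl).trans (min_le_right _ _)
  rw [← Finset.sum_filter] at h1
  refine le_trans (Finset.sum_le_sum_of_subset_of_nonneg ?_ ?_) h1
  · intro t ht
    rw [Finset.mem_filter] at ht ⊢
    exact ⟨ht.1, hP t ht.2⟩
  · intro t ht _
    rw [Finset.mem_filter, Finset.mem_range] at ht
    exact l9a_mu_nonneg h (by omega)

theorem l9ci_mu (I : L8In) (t : ℕ) : l9aMu (llMs I.a I.LP) t = I.dv t := l8d_mu I t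

theorem l9ci_dv_nonneg {I : L8In} (h : I.Std) {t : ℕ} (ht : t ≤ I.n) : 0 ≤ I.dv t := by
  rw [← l9ci_mu]
  exact l9a_mu_nonneg (l8d_law h false).isMs ht

/-- a sum over cuts with masses in `[lo, hi]` is dominated by the mass integral of LL 08 -/
theorem l9ci_le_int {I : L8In} (h : I.Std) (P : ℕ → Prop) [DecidablePred P] {lo hi : ℝ} (hP : ∀ t, P t → lo ≤ I.v t ∧ I.v t ≤ hi)
    (g g' : ℕ → ℝ) (hg : ∀ t, t ≤ I.n → 0 ≤ g' t) (hgg : ∀ t, t ≤ I.n → P t → g t ≤ g' t) :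
    ∑ t ∈ (range (I.n + 1)).filter P, l9aMu (llMs I.a I.LP) t * g t ≤ I.int lo hi g' := by
  unfold L8In.int
  calc ∑ t ∈ (range (I.n + 1)).filter P, l9aMu (llMs I.a I.LP) t * g t ≤ ∑ t ∈ (range (I.n + 1)).filter P, I.dv t * g' t := by
        refine Finset.sum_le_sum fun t ht => ?_
        rw [Finset.mem_filter, Finset.mem_range] at ht
        rw [l9ci_mu]
        exact mul_le_mul_of_nonneg_left (hgg t (by omega) ht.2) (l9ci_dv_nonneg h (by omega))
    _ ≤ _ := by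
        refine Finset.sum_le_sum_of_subset_of_nonneg ?_ ?_
        · intro t ht
          rw [Finset.mem_filter] at ht ⊢
          exact ⟨ht.1, hP t ht.2⟩
        · intro t ht _
          rw [Finset.mem_filter, Finset.mem_range] at ht
          exact mul_nonneg (l9ci_dv_nonneg h (by omega)) (hg t (by omega))

/-- splitting a mass integral -/
theorem l9ci_int_split {I : L8In} (h : I.Std) {lo mid hi : ℝ} (g : ℕ → ℝ) (hg : ∀ t, t ≤ I.n → 0 ≤ g t) :
    I.int lo hi g ≤ I.int lo mid g + I.int (max mid lo) hi g := by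
  unfold L8In.int
  rw [Finset.sum_filter, Finset.sum_filter, Finset.sum_filter, ← Finset.sum_add_distrib]
  refine Finset.sum_le_sum fun t ht => ?_
  rw [Finset.mem_range] at ht
  have h0 : 0 ≤ I.dv t * g t := mul_nonneg (l9ci_dv_nonneg h (by omega)) (hg t (by omega))
  by_cases h1 : lo ≤ I.v t ∧ I.v t ≤ hi
  · rw [if_pos h1]
    by_cases h2 : I.v t ≤ mid
    · rw [if_pos ⟨h1.1, h2⟩]
      split_ifs <;> linarith
    · rw [if_neg (fun h' => h2 h'.2), if_pos ⟨max_le (not_le.mp h2).le h1.1, h1.2⟩, zero_add]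
  · rw [if_neg h1]
    split_ifs <;> linarith

theorem l9ci_int_mono {I : L8In} (h : I.Std) {lo lo' hi hi' : ℝ} (h1 : lo' ≤ lo) (h2 : hi ≤ hi') (g : ℕ → ℝ) (hg : ∀ t, t ≤ I.n → 0 ≤ g t) :
    I.int lo hi g ≤ I.int lo' hi' g := by
  unfold L8In.int
  refine Finset.sum_le_sum_of_subset_of_nonneg ?_ ?_
  · intro t ht
    rw [Finset.mem_filter] at ht ⊢
    exact ⟨ht.1, h1.trans ht.2.1, ht.2.2.trans h2⟩
  · intro t ht _
    rw [Finset.mem_filter, Finset.mem_range] at ht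
    exact mul_nonneg (l9ci_dv_nonneg h (by omega)) (hg t (by omega))

theorem l9ci_int_nonneg {I : L8In} (h : I.Std) (lo hi : ℝ) (g : ℕ → ℝ) (hg : ∀ t, t ≤ I.n → 0 ≤ g t) : 0 ≤ I.int lo hi g := by
  unfold L8In.int
  refine Finset.sum_nonneg fun t ht => ?_
  rw [Finset.mem_filter, Finset.mem_range] at ht
  exact mul_nonneg (l9ci_dv_nonneg h (by omega)) (hg t (by omega))

/-- **dyadic blocks**: if every block `[max w x, 2 w]`, `w = Y / 2^i`, costs at most `B`, then `[x, 2 Y]` costs at most `(K + 1) B` as soon as `Y ≤ 2^K x` -/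
theorem l9ci_blocks {I : L8In} (h : I.Std) {x Y B : ℝ} (g : ℕ → ℝ) (hg : ∀ t, t ≤ I.n → 0 ≤ g t)
    (hb : ∀ i : ℕ, I.int (max (Y / 2 ^ i) x) (2 * (Y / 2 ^ i)) g ≤ B) (K : ℕ) :
    I.int (max (Y / 2 ^ K) x) (2 * Y) g ≤ (K + 1) * B := by
  induction K with
  | zero =>
    have := hb 0
    simpa using this
  | succ K ih =>
    have h1 := l9ci_int_split h (lo := max (Y / 2 ^ (K + 1)) x) (mid := 2 * (Y / 2 ^ (K + 1))) (hi := 2 * Y) g hg
    have e : 2 * (Y / 2 ^ (K + 1)) = Y / 2 ^ K := by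
      rw [pow_succ]; field_simp
    have h2 : I.int (max (2 * (Y / 2 ^ (K + 1))) (max (Y / 2 ^ (K + 1)) x)) (2 * Y) g ≤ I.int (max (Y / 2 ^ K) x) (2 * Y) g := by
      rw [e]
      exact l9ci_int_mono h (max_le_max_left _ (le_max_right _ _)) le_rfl g hg
    have h3 := hb (K + 1)
    push_cast
    linarith

/-! ## 4. the dictionary at the instance -/

section dict

variable {I : L8In}

theorem l9ci_spS (h : I.Std) {t : ℕ} (ht : t ≤ I.n) : (I.sp false).S t = I.S t :=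
  l8i_S I.m I.a h.a_pos (I.P false) (l8d_P_adm h false) t (by rw [l8d_P_len]; exact ht)

theorem l9ci_sp_ok (h : I.Std) (en : Bool) : (I.sp en).Ok := l8i_ok I.m h.m_pos I.a h.a_pos (I.P en) (l8d_P_adm h en)

theorem l9ci_S_eq (h : I.Std) {t : ℕ} (ht : t ≤ I.n) : I.l9ciS t = I.S t := by
  rw [← l8d_S h ht]
  unfold L8In.l9ciS
  simp only [l8d_msk_act (I := I) (tl := false) (k := t) ⟨ht, by simp⟩, one_mul]
  rfl

theorem l9ci_S_nonneg (h : I.Std) {t : ℕ} (ht : t ≤ I.n) : 0 ≤ I.S t := by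
  rw [← l9ci_spS h ht]
  exact (I.sp false).l8s_S_nonneg t

theorem l9ci_S_abs (h : I.Std) (t : ℕ) : |I.l9ciS t| ≤ 1 := by
  refine (l8d_law h false).nu.abs_le_const 2 _ fun σ => ?_
  rw [abs_mul]
  have h1 := (l8d_law h false).ov_abs (σ 0) (σ 1)
  rcases (l8d_law h false).msk t with e | e <;> rw [e] <;> simp [h1]

theorem l9ci_V_nonneg (h : I.Std) (en : Bool) (t : ℕ) : 0 ≤ I.l9ciV en t :=
  (l8d_law h en).nu.nonneg 2 _ fun _ => sq_nonneg _

theorem l9ci_V_eq (h : I.Std) {en : Bool} {t : ℕ} (ht : I.act en t) :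
    I.l9ciV en t = I.moF en t 1 fun ω => (I.sp en).Q ω - I.S t := by
  rw [l8d_rnd_var h en ht.1]
  unfold L8In.l9ciV
  simp only [l8d_msk_act ht, one_mul, l9ci_S_eq h ht.1]
  rfl

/-- the cuts of mass at least `x` are active -/
theorem l9ci_act (h : I.Std) (hOk : I.Ok) {η : ℝ} (hF : I.Fine η) {t : ℕ} (ht : t ≤ I.n) (hx : I.x ≤ I.v t) (en : Bool) : I.act en t := by
  refine ⟨ht, fun _ => ?_⟩
  by_contra hn
  have h1 := l8d_v_mono h (i := t) (j := I.js) (by omega) hF.js_lt.le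
  rw [hF.js_m] at h1
  linarith [hOk.s_lt]

/-- the masked cuts have mass below `x` -/
theorem l9ci_off (h : I.Std) (hOk : I.Ok) {η : ℝ} (hF : I.Fine η) {t : ℕ} (ht : t ≤ I.js) : I.v t < I.x := by
  have h1 := l8d_v_mono h (i := t) (j := I.js) ht hF.js_lt.le
  rw [hF.js_m] at h1
  linarith [hOk.s_lt]

/-- change of the centring constant in a moment -/
theorem l9ci_shift {S : Type} [Fintype S] [Inhabited S] {N : ℕ} {nu : ℕ → JtTopo → ((ℕ → S) → ℝ) → ℝ} (h : JtNuLaw N nu) (q : ℕ) (τ : JtTopo)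
    (Y : (ℕ → S) → ℝ) {c B : ℝ} {n : ℕ} (hn : 1 ≤ n) (h1 : nu q τ (fun σ => |Y σ| ^ n) ≤ B ^ n) (hc : |c| ≤ B) :
    nu q τ (fun σ => |Y σ - c| ^ n) ≤ (2 * B) ^ n := by
  have h2 : ∀ σ, |Y σ - c| ^ n ≤ 2 ^ (n - 1) * |Y σ| ^ n + 2 ^ (n - 1) * B ^ n := fun σ => by
    calc |Y σ - c| ^ n ≤ (|Y σ| + |c|) ^ n := pow_le_pow_left₀ (abs_nonneg _) (abs_sub _ _) n
      _ ≤ 2 ^ (n - 1) * (|Y σ| ^ n + |c| ^ n) := add_pow_le (abs_nonneg _) (abs_nonneg _) n
      _ ≤ 2 ^ (n - 1) * |Y σ| ^ n + 2 ^ (n - 1) * B ^ n := by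
          rw [mul_add]
          exact add_le_add_right (mul_le_mul_of_nonneg_left (pow_le_pow_left₀ (abs_nonneg _) hc n) (by positivity)) _
  refine (h.mono q τ h2).trans ?_
  rw [h.add, h.const_mul, h.const]
  obtain ⟨k, rfl⟩ : ∃ k, n = k + 1 := ⟨n - 1, by omega⟩
  have e : k + 1 - 1 = k := by omega
  rw [e, mul_pow, pow_succ (2 : ℝ) k]
  have : (2 : ℝ) ^ k * nu q τ (fun σ => |Y σ| ^ (k + 1)) ≤ 2 ^ k * B ^ (k + 1) := mul_le_mul_of_nonneg_left h1 (by positivity)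
  linarith

end dict

/-! ## 5. `L9cD.Ok` -/

/-- **the hypotheses of the instance**: the records of LL 08 (both ensembles), the link of the scales, the choice of the losses -/
structure L9ciHyp (I : L8In) (Sc : L13Scales) (e : ℕ → ℝ) (A Y Zh vt vp cE : ℝ) (pm jm : ℕ) (Lo Lm M : ℝ) (Kb : ℕ) : Prop where
  std : I.Std
  ok : I.Ok
  fine : ∃ η, I.Fine η
  lk : L9ciLk I Sc Y Zh
  env : I.Env e A Y vt cE
  num : I.Num A Y Zh vt
  rnd : ∀ en, I.Rnd en e A Y Zh vt vp pm jm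
  A1 : 1 ≤ A
  pm1 : 1 ≤ pm
  hLm : 2 * A ≤ Lm
  hLmLo : Lm ≤ Lo
  hKb : Y ≤ 2 ^ Kb * I.x
  hLo : 2 * A * (Kb + 2) ≤ Lo
  hM : 2 ≤ M
  hMe : A * max vt Y ≤ M

section ok

variable {I : L8In} {Sc : L13Scales} {e : ℕ → ℝ} {A Y Zh vt vp cE : ℝ} {pm jm : ℕ} {Lo Lm M : ℝ} {Kb : ℕ}

namespace L9ciHyp

theorem Lo_ge (H : L9ciHyp I Sc e A Y Zh vt vp cE pm jm Lo Lm M Kb) : 4 * A ≤ Lo := by
  have h1 := H.hLo
  have h2 : (0 : ℝ) ≤ Kb := Nat.cast_nonneg _
  nlinarith [H.A1]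

theorem isMs (H : L9ciHyp I Sc e A Y Zh vt vp cE pm jm Lo Lm M Kb) : IsMs I.n (llMs I.a I.LP) := (l8d_law H.std false).isMs

theorem Ypos (H : L9ciHyp I Sc e A Y Zh vt vp cE pm jm Lo Lm M Kb) : 0 < Y := by rw [← H.lk.Y]; exact Sc.Y_pos

theorem e_pos (H : L9ciHyp I Sc e A Y Zh vt vp cE pm jm Lo Lm M Kb) {t : ℕ} (ht : t ≤ I.n) : 0 < e t := by
  refine lt_of_lt_of_le (Real.rpow_pos_of_pos ?_ _) (H.env.lo t ht)
  rw [← H.lk.x]; exact Sc.hx

/-- `e ≤ 2 A sc Y` -/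
theorem e_le (H : L9ciHyp I Sc e A Y Zh vt vp cE pm jm Lo Lm M Kb) {t : ℕ} (ht : t ≤ I.n) : e t ≤ 2 * A * (l9ciSc Y (I.v t) * Y) := by
  have hY := H.Ypos
  have h1 := l9ci_sc_one Y (I.v t)
  have hA := H.A1
  by_cases hv : I.v t ≤ Y
  · rw [H.env.low t ht hv]
    nlinarith [mul_le_mul hA h1 zero_le_one (by linarith : (0 : ℝ) ≤ A)]
  · have h2 := H.env.hi t ht (not_le.mp hv).le
    have h3 := l9ci_sc_le hY (I.v t)
    nlinarith

theorem mass (H : L9ciHyp I Sc e A Y Zh vt vp cE pm jm Lo Lm M Kb) (a : ℝ) (ha : 1 ≤ a) (P : ℕ → Prop) [DecidablePred P]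
    (hP : ∀ t, P t → l9ciSc Y (I.v t) = a) : ∑ t ∈ (range (I.n + 1)).filter P, l9aMu (llMs I.a I.LP) t ≤ Lo * (a * Y) := by
  have hY := H.Ypos
  have h0 : 0 ≤ a * Y := by positivity
  refine (l9ci_mass H.isMs (B := 2 * (a * Y)) (by positivity) P fun t ht => ?_).trans ?_
  · rw [l8d_ms, ← hP t ht]
    exact l9ci_sc_le hY _
  · exact mul_le_mul_of_nonneg_right (by linarith [H.Lo_ge, H.A1]) h0

/-- the envelope budget of a band -/
theorem env2 (H : L9ciHyp I Sc e A Y Zh vt vp cE pm jm Lo Lm M Kb) (a : ℝ) (ha : 1 ≤ a) (P : ℕ → Prop) [DecidablePred P]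
    (hP : ∀ t, P t → I.v t ≤ vt ∧ l9ciSc Y (I.v t) = a) :
    ∑ t ∈ (range (I.n + 1)).filter P, l9aMu (llMs I.a I.LP) t * e t ^ 2 ≤ Lo * (a * Y) * (Y ^ 2 / (a * Y)) ^ 2 := by
  have hY := H.Ypos
  have hA := H.A1
  have hLo := H.Lo_ge
  have hr : 0 < a * Y := by positivity
  have hR : 0 ≤ (a * Y) * (Y ^ 2 / (a * Y)) ^ 2 := by positivity
  -- the part above `a Y`
  have hup : ∑ t ∈ (range (I.n + 1)).filter (fun t => P t ∧ a * Y ≤ I.v t), l9aMu (llMs I.a I.LP) t * e t ^ 2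
      ≤ A * (a * Y) * (Y ^ 2 / (a * Y)) ^ 2 := by
    by_cases hvt : a * Y ≤ vt
    · refine le_trans ?_ (H.env.bud (a * Y) (by nlinarith) hvt)
      refine l9ci_le_int H.std _ (fun t ht => ⟨ht.2, ?_⟩) _ _ (fun t _ => sq_nonneg _) (fun t _ _ => le_rfl)
      rw [← (hP t ht.1).2]
      exact l9ci_sc_le hY _
    · rw [Finset.sum_eq_zero]
      · nlinarith
      · intro t ht
        rw [Finset.mem_filter] at ht
        exact absurd (ht.2.2.trans (hP t ht.2.1).1) hvt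
  rcases eq_or_lt_of_le ha with rfl | ha1
  · -- the lower band
    have hlow : ∑ t ∈ (range (I.n + 1)).filter (fun t => P t ∧ ¬ 1 * Y ≤ I.v t), l9aMu (llMs I.a I.LP) t * e t ^ 2 ≤ Y * Y ^ 2 := by
      have h1 : ∑ t ∈ (range (I.n + 1)).filter (fun t => P t ∧ ¬ 1 * Y ≤ I.v t), l9aMu (llMs I.a I.LP) t * e t ^ 2
          = (∑ t ∈ (range (I.n + 1)).filter (fun t => P t ∧ ¬ 1 * Y ≤ I.v t), l9aMu (llMs I.a I.LP) t) * Y ^ 2 := by
        rw [Finset.sum_mul]
        refine Finset.sum_congr rfl fun t ht => ?_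
        rw [Finset.mem_filter, Finset.mem_range, one_mul] at ht
        rw [H.env.low t (by omega) (not_le.mp ht.2.2).le]
      rw [h1]
      refine mul_le_mul_of_nonneg_right (l9ci_mass H.isMs hY.le _ fun t ht => ?_) (sq_nonneg _)
      rw [l8d_ms]
      rw [one_mul] at ht
      exact (not_le.mp ht.2).le
    rw [← Finset.sum_filter_add_sum_filter_not _ (fun t => 1 * Y ≤ I.v t), Finset.filter_filter, Finset.filter_filter]
    have e1 : (1 * Y) * (Y ^ 2 / (1 * Y)) ^ 2 = Y * Y ^ 2 := by field_simp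
    have h3 : A * (1 * Y) * (Y ^ 2 / (1 * Y)) ^ 2 = A * (Y * Y ^ 2) := by rw [mul_assoc, e1]
    have h4 : Lo * (1 * Y) * (Y ^ 2 / (1 * Y)) ^ 2 = Lo * (Y * Y ^ 2) := by rw [mul_assoc, e1]
    rw [h3] at hup
    rw [h4]
    have h5 : 0 ≤ Y * Y ^ 2 := by positivity
    nlinarith
  · have e1 : (range (I.n + 1)).filter P = (range (I.n + 1)).filter (fun t => P t ∧ a * Y ≤ I.v t) := by
      refine Finset.filter_congr fun t _ => ⟨fun h => ⟨h, ?_⟩, fun h => h.1⟩
      have h2 := (hP t h).2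
      exact (l9ci_sc_lt (by rw [h2]; exact ha1)).le.trans' (by rw [h2])
    rw [e1]
    refine hup.trans ?_
    rw [mul_assoc A, mul_assoc Lo]
    exact mul_le_mul_of_nonneg_right (by linarith : A ≤ Lo) hR

theorem epsw_le (H : L9ciHyp I Sc e A Y Zh vt vp cE pm jm Lo Lm M Kb) (w : ℝ) : I.epsw Y w ≤ Sc.gB * Sc.Y ^ 2 := by
  rw [← H.lk.E0]
  unfold L8In.E0 L8In.epsw
  have hU : 0 < I.U := by rw [← H.lk.U]; exact Sc.U_pos
  have hl : 0 < Real.sqrt I.lam1 := by rw [← H.lk.l1]; exact Real.sqrt_pos.mpr Sc.lam1_pos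
  have hx : 0 ≤ I.x := I.x_nonneg
  rw [max_self]
  refine div_le_div_of_nonneg_left (by positivity) (mul_pos hl (Real.rpow_pos_of_pos hU _)) ?_
  exact mul_le_mul_of_nonneg_left (Real.rpow_le_rpow hU.le (le_max_right _ _) (by norm_num)) hl.le

theorem G_nonneg (I : L8In) (en : Bool) (t : ℕ) : 0 ≤ I.moF en t 1 fun ω => (I.sp en).Q ω - I.S t :=
  MeasureTheory.integral_nonneg fun _ => (even_two_mul 1).pow_nonneg _

/-- (D7), (D9): the second moments about the untilted mean over the masses `≥ x` of a band, one ensemble -/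
theorem Dsum1 (H : L9ciHyp I Sc e A Y Zh vt vp cE pm jm Lo Lm M Kb) (en : Bool) (a : ℝ) (ha : 1 ≤ a) (P : ℕ → Prop) [DecidablePred P]
    (hP : ∀ t, P t → I.v t ≤ vt ∧ l9ciSc Y (I.v t) = a ∧ I.x ≤ I.v t) :
    ∑ t ∈ (range (I.n + 1)).filter P, l9aMu (llMs I.a I.LP) t * I.l9ciV en t ≤ A * (Kb + 1) * ((a * Y) * (Sc.gB * Y ^ 2 / a)) := by
  have hY := H.Ypos
  have hA := H.A1
  have hg := Sc.gB_pos
  obtain ⟨η, hF⟩ := H.fine
  have hK : (0 : ℝ) ≤ Kb := Nat.cast_nonneg _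
  have hR : 0 ≤ (a * Y) * (Sc.gB * Y ^ 2 / a) := by positivity
  have hVG : ∀ t, t ≤ I.n → P t → I.l9ciV en t ≤ I.moF en t 1 fun ω => (I.sp en).Q ω - I.S t := fun t ht hPt =>
    le_of_eq (l9ci_V_eq H.std (l9ci_act H.std H.ok hF ht (hP t hPt).2.2 en))
  rcases eq_or_lt_of_le ha with rfl | ha1
  · -- the lower band: dyadic blocks
    have h1 : ∑ t ∈ (range (I.n + 1)).filter P, l9aMu (llMs I.a I.LP) t * I.l9ciV en t
        ≤ I.int (max (Y / 2 ^ Kb) I.x) (2 * Y) fun t => I.moF en t 1 fun ω => (I.sp en).Q ω - I.S t := by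
      refine l9ci_le_int H.std _ (fun t ht => ⟨max_le ?_ (hP t ht).2.2, ?_⟩) _ _ (fun t _ => G_nonneg I en t) hVG
      · refine le_trans ?_ (hP t ht).2.2
        rw [div_le_iff₀ (by positivity)]
        linarith [H.hKb]
      · have := l9ci_sc_le hY (I.v t)
        rw [(hP t ht).2.1] at this
        linarith
    have h2 := l9ci_blocks H.std (x := I.x) (Y := Y) (B := A * Y * (Sc.gB * Sc.Y ^ 2))
      (fun t => I.moF en t 1 fun ω => (I.sp en).Q ω - I.S t) (fun t _ => G_nonneg I en t) (fun i => by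
        have hw : 0 < Y / 2 ^ i := by positivity
        have hw2 : Y / 2 ^ i ≤ 2 * Y := by
          rw [div_le_iff₀ (by positivity)]
          nlinarith [one_le_pow₀ (one_le_two : (1 : ℝ) ≤ 2) (n := i)]
        refine ((H.rnd en).d9_Q _ hw hw2).trans ?_
        exact mul_le_mul_of_nonneg_left (H.epsw_le _) (by positivity)) Kb
    refine h1.trans (h2.trans (le_of_eq ?_))
    rw [H.lk.Y]
    ring
  · by_cases hvt : a * Y ≤ vt
    · have h1 : ∑ t ∈ (range (I.n + 1)).filter P, l9aMu (llMs I.a I.LP) t * I.l9ciV en t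
          ≤ I.band (a * Y) fun t => I.moF en t 1 fun ω => (I.sp en).Q ω - I.S t := by
        refine l9ci_le_int H.std _ (fun t ht => ⟨?_, ?_⟩) _ _ (fun t _ => G_nonneg I en t) hVG
        · have h2 := (hP t ht).2.1
          exact (l9ci_sc_lt (by rw [h2]; exact ha1)).le.trans' (by rw [h2])
        · rw [← (hP t ht).2.1]
          exact l9ci_sc_le hY _
      have h2 := (H.rnd en).d7_Q (a * Y) (by nlinarith) hvt
      have h3 := Sc.var_gain (a := a) (by linarith) H.lk.Zh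
      rw [H.lk.z0, H.lk.Y] at h3
      refine h1.trans (h2.trans ?_)
      have h4 : A * (a * Y) * (I.z0 (a * Y) * Zh * (a * Y) ^ 2) ≤ A * (a * Y) * (Sc.gB * Y ^ 2 / a) :=
        mul_le_mul_of_nonneg_left h3 (by positivity)
      refine h4.trans ?_
      rw [mul_assoc A]
      exact mul_le_mul_of_nonneg_right (by nlinarith) hR
    · rw [Finset.sum_eq_zero]
      · positivity
      · intro t ht
        rw [Finset.mem_filter] at ht
        have h2 := (hP t ht.2).2.1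
        have h3 : a * Y < I.v t := (l9ci_sc_lt (by rw [h2]; exact ha1)).trans_le' (by rw [h2])
        exact absurd (h3.le.trans (hP t ht.2).1) hvt

theorem Dsum (H : L9ciHyp I Sc e A Y Zh vt vp cE pm jm Lo Lm M Kb) (a : ℝ) (ha : 1 ≤ a) (P : ℕ → Prop) [DecidablePred P]
    (hP : ∀ t, P t → I.v t ≤ vt ∧ l9ciSc Y (I.v t) = a ∧ I.x ≤ I.v t) :
    ∑ t ∈ (range (I.n + 1)).filter P, l9aMu (llMs I.a I.LP) t * (I.l9ciV false t + I.l9ciV true t) ≤ Lo * (a * Y) * (Sc.gB * Y ^ 2 / a) := by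
  have hY := H.Ypos
  have hg := Sc.gB_pos
  have hR : 0 ≤ (a * Y) * (Sc.gB * Y ^ 2 / a) := by positivity
  simp only [mul_add, Finset.sum_add_distrib]
  have h1 := H.Dsum1 false a ha P hP
  have h2 := H.Dsum1 true a ha P hP
  have h3 : 2 * (A * (Kb + 1)) ≤ Lo := by
    have := H.hLo
    nlinarith [H.A1]
  rw [mul_assoc Lo]
  nlinarith [mul_le_mul_of_nonneg_right h3 hR]

/-- (D2): all the moments of `δ = Q^* - S` up to the order `2 pm`, both ensembles -/
theorem mom (H : L9ciHyp I Sc e A Y Zh vt vp cE pm jm Lo Lm M Kb) (en : Bool) {t n : ℕ} (ht : t ≤ I.n) (hv : I.v t ≤ vt) (hn : 1 ≤ n)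
    (hn2 : n ≤ 2 * pm) :
    (I.X en).nu 2 (l9rT2 I.n t) (fun σ => |(I.X en).msk t * (I.X en).ov (σ 0) (σ 1) - I.l9ciS t| ^ n) ≤ (Lm * e t) ^ n := by
  have hA := H.A1
  have he := H.e_pos ht
  have hLe : 2 * (A * e t) ≤ Lm * e t := by nlinarith [H.hLm]
  obtain ⟨η, hF⟩ := H.fine
  rw [l9ci_S_eq H.std ht]
  by_cases hact : I.act en t
  · have h1 : L9rEnv (I.X en) n t |A * e t| := l8d_rnd_env H.std (H.rnd en) H.pm1 hact hv hn2
    unfold L9rEnv at h1
    rw [abs_of_pos (by positivity)] at h1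
    have h2 := l9ci_shift (l8d_law H.std en).nu 2 (l9rT2 I.n t) (fun σ => (I.X en).msk t * (I.X en).ov (σ 0) (σ 1) - (I.X en).qC t)
      (c := I.f t) hn h1 (H.env.f_le t ht hv)
    refine le_trans (le_of_eq ?_) (h2.trans (pow_le_pow_left₀ (by positivity) hLe n))
    congr 1
    funext σ
    congr 2
    show _ = _ - I.q t - (I.S t - I.q t)
    ring
  · have hen : en = true := by
      by_contra hne
      exact hact ⟨ht, fun h' => absurd h' hne⟩
    subst hen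
    have hjs : t ≤ I.js := by
      by_contra hne
      exact hact ⟨ht, fun _ => by omega⟩
    simp only [l8d_msk_off hjs, zero_mul, zero_sub, abs_neg]
    rw [(l8d_law H.std true).nu.const]
    refine pow_le_pow_left₀ (abs_nonneg _) ?_ n
    rw [abs_of_nonneg (l9ci_S_nonneg H.std ht)]
    have h1 := H.num.s_le t ht
    have h2 : I.v t ≤ Y := by
      have := l9ci_off H.std H.ok hF hjs
      have h3 := H.lk.x_le_Y
      rw [H.lk.x, H.lk.Y] at h3
      linarith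
    rw [H.env.low t ht h2] at hLe ⊢
    nlinarith

theorem bdd (H : L9ciHyp I Sc e A Y Zh vt vp cE pm jm Lo Lm M Kb) (en : Bool) (t : ℕ) (a b : SkCfg I.m) :
    |(I.X en).msk t * (I.X en).ov a b - I.l9ciS t| ≤ M := by
  have h1 := l9ci_S_abs H.std t
  have h2 := (l8d_law H.std en).ov_abs a b
  have h3 : |(I.X en).msk t * (I.X en).ov a b| ≤ 1 := by
    rw [abs_mul]
    rcases (l8d_law H.std en).msk t with e | e <;> rw [e] <;> simp [h2]
  have h4 := abs_sub ((I.X en).msk t * (I.X en).ov a b) (I.l9ciS t)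
  linarith [H.hM]

end L9ciHyp

open Classical in
/-- **INST[`L9cD.Ok`]**: the imports of 30's table level from the records of LL 08 -/
theorem l9ci_ok (H : L9ciHyp I Sc e A Y Zh vt vp cE pm jm Lo Lm M Kb) : (l9ciD I Sc e vt Lo Lm M (2 * pm)).Ok where
  hN := rfl
  pos := fun en => l8d_pos H.std en
  hms := H.isMs
  hLo := by show 1 ≤ Lo; linarith [H.Lo_ge, H.A1]
  hLm0 := by show 0 < Lm; linarith [H.hLm, H.A1]
  hLm := H.hLmLo
  hM0 := by show 0 ≤ M; linarith [H.hM]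
  rgN := fun t ht => ht.1
  sc1 := fun t => l9ci_sc_one _ _
  scm := fun t t' htt ht' => l9ci_sc_mono Sc.Y_pos (H.isMs.mono t t' htt ht'.1)
  mass := fun a ha => by
    have := H.mass a ha (fun t => (l9ciD I Sc e vt Lo Lm M (2 * pm)).rg t ∧ (l9ciD I Sc e vt Lo Lm M (2 * pm)).sc t = a) (fun t ht => by
      rw [← l8d_ms, ← H.lk.Y]; exact ht.2)
    rw [← H.lk.Y] at this
    exact this
  env0 := fun t => by
    show 0 ≤ if t ≤ I.n then e t else 0
    split_ifs with h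
    · exact (H.e_pos h).le
    · exact le_rfl
  envp := fun t ht => by
    show 0 < if t ≤ I.n then e t else 0
    rw [if_pos ht.1]
    exact H.e_pos ht.1
  env1 := fun t ht => by
    show (if t ≤ I.n then e t else 0) ≤ Lo * (l9ciSc Sc.Y (llMs I.a I.LP t) * Sc.Y)
    rw [if_pos ht.1, l8d_ms, H.lk.Y]
    refine (H.e_le ht.1).trans (mul_le_mul_of_nonneg_right (by linarith [H.Lo_ge, H.A1]) ?_)
    have := l9ci_sc_one Y (I.v t)
    have := H.Ypos
    positivity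
  env2 := fun a ha => by
    have := H.env2 a ha (fun t => (l9ciD I Sc e vt Lo Lm M (2 * pm)).rg t ∧ (l9ciD I Sc e vt Lo Lm M (2 * pm)).sc t = a) (fun t ht => by
      rw [← l8d_ms, ← H.lk.Y]; exact ⟨ht.1.2, ht.2⟩)
    rw [← H.lk.Y] at this
    refine le_trans (le_of_eq ?_) this
    refine Finset.sum_congr rfl fun t ht => ?_
    rw [Finset.mem_filter, Finset.mem_range] at ht
    show _ * (if t ≤ I.n then e t else 0) ^ 2 = _
    rw [if_pos ht.2.1.1]
    rfl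
  Dv0 := fun t => Real.sqrt_nonneg _
  Dsum := fun a ha => by
    have := H.Dsum a ha (fun t => (l9ciD I Sc e vt Lo Lm M (2 * pm)).rg t ∧ (l9ciD I Sc e vt Lo Lm M (2 * pm)).sc t = a
      ∧ ¬ (l9ciD I Sc e vt Lo Lm M (2 * pm)).lw t) (fun t ht => by
      rw [← l8d_ms, ← H.lk.Y, ← H.lk.x]; exact ⟨ht.1.2, ht.2.1, not_lt.mp ht.2.2⟩)
    rw [← H.lk.Y] at this
    refine le_trans (le_of_eq ?_) this
    refine Finset.sum_congr rfl fun t _ => ?_
    show _ * Real.sqrt (I.l9ciV false t + I.l9ciV true t) ^ 2 = _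
    rw [Real.sq_sqrt (add_nonneg (l9ci_V_nonneg H.std _ _) (l9ci_V_nonneg H.std _ _))]
    rfl
  lw1 := fun t ht => l9ci_sc_eq_one (by
    have h1 : llMs I.a I.LP t < Sc.x := ht
    have h2 := H.lk.x_le_Y
    have h3 := Sc.Y_pos
    linarith)
  lw2 := by
    refine (l9ci_mass H.isMs Sc.hx.le _ fun t ht => (show llMs I.a I.LP t < Sc.x from ht).le).trans ?_
    have := Sc.hx
    show Sc.x ≤ Lo * Sc.x
    nlinarith [H.Lo_ge, H.A1]
  bdd := fun en t a b _ => H.bdd en t a b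
  mom := fun en t n ht hn hn2 => by
    have := H.mom en ht.1 (by rw [← l8d_ms]; exact ht.2) hn hn2
    show _ ≤ (Lm * if t ≤ I.n then e t else 0) ^ n
    rw [if_pos ht.1]
    exact this
  var := fun en t _ _ => by
    show I.l9ciV en t ≤ Real.sqrt (I.l9ciV false t + I.l9ciV true t) ^ 2
    rw [Real.sq_sqrt (add_nonneg (l9ci_V_nonneg H.std _ _) (l9ci_V_nonneg H.std _ _))]
    have h1 := l9ci_V_nonneg H.std false t
    have h2 := l9ci_V_nonneg H.std true t
    cases en <;> linarith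

/-- **INST[`L13zLk`]**: the link of 64 (table level / single paths / consistent families of path laws of 234) -/
theorem l9ci_lk (H : L9ciHyp I Sc e A Y Zh vt vp cE pm jm Lo Lm M Kb) (r : ℕ) (hr : 2 ≤ r) :
    L13zLk (l9ciD I Sc e vt Lo Lm M (2 * pm)) I.sp (fun en => l8liSk I.m I.a I.LP (l8dTl I en) r) Prod.snd r where
  ok := l9ci_sp_ok H.std
  rep := fun en => l8li_rep I.m I.a H.std.a_pos I.LP H.std.adm (l8dTl I en) r hr
  mu := fun _ => rfl
  fork := fun _ _ => rfl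
  hn := fun en => l8d_P_len I en
  ov := fun en x => (l8d_Q I.m I.a (I.P en) x).symm
  msk := fun en t h1 h2 => by
    obtain ⟨η, hF⟩ := H.fine
    refine l8d_msk_act (l9ci_act H.std H.ok hF h1.1 ?_ en)
    rw [← l8d_ms, ← H.lk.x]
    exact not_lt.mp h2
  Sf := fun t h1 _ => (l9ci_S_eq H.std h1.1).trans (l9ci_spS H.std h1.1).symm

/-- the reference overlap is bounded by `1` -/
theorem l9ci_q_abs (h : I.Std) {t : ℕ} (ht : t ≤ I.n) : |I.q t| ≤ 1 := by
  have h1 := (l8d_law h false).qC (trPair I.n t) (l8d_pair_isTr I.n ht)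
  have h2 : (I.X false).qC (trPair I.n t 0 1) = I.q t := rfl
  rw [← h2, h1]
  refine (l8d_law h false).nuK.abs_le_const 2 _ fun s => ?_
  rw [abs_mul]
  have : ∀ b : Bool, |jtSp b| = 1 := fun b => by cases b <;> simp [jtSp]
  rw [this, this, one_mul]

/-- **INST[`L9cD.Lk`]** (30, `L09/CCAd.lean`): link with the reference overlap -/
theorem l9ci_dlk (H : L9ciHyp I Sc e A Y Zh vt vp cE pm jm Lo Lm M Kb) : (l9ciD I Sc e vt Lo Lm M (2 * pm)).Lk where
  hq := rfl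
  f_env := fun t ht => by
    show |I.l9ciS t - I.q t| ≤ Lm * if t ≤ I.n then e t else 0
    rw [if_pos ht.1, l9ci_S_eq H.std ht.1]
    refine (H.env.f_le t ht.1 (by rw [← l8d_ms]; exact ht.2)).trans ?_
    exact mul_le_mul_of_nonneg_right (by linarith [H.hLm, H.A1]) (H.e_pos ht.1).le
  f_M := fun t ht => by
    show |I.l9ciS t - I.q t| ≤ M
    have h1 := l9ci_S_abs H.std t
    have h2 := l9ci_q_abs H.std ht.1
    have h3 := abs_sub (I.l9ciS t) (I.q t)
    linarith [H.hM]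

theorem l9ci_Lm1 (H : L9ciHyp I Sc e A Y Zh vt vp cE pm jm Lo Lm M Kb) : 1 ≤ (l9ciD I Sc e vt Lo Lm M (2 * pm)).Lm := by
  show 1 ≤ Lm
  linarith [H.hLm, H.A1]

/-- the envelope is bounded by `M` on the region -/
theorem l9ci_env_M (H : L9ciHyp I Sc e A Y Zh vt vp cE pm jm Lo Lm M Kb) (t : ℕ) (ht : (l9ciD I Sc e vt Lo Lm M (2 * pm)).rg t) :
    (l9ciD I Sc e vt Lo Lm M (2 * pm)).env t ≤ (l9ciD I Sc e vt Lo Lm M (2 * pm)).M := by
  show (if t ≤ I.n then e t else 0) ≤ M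
  rw [if_pos ht.1]
  refine le_trans ?_ H.hMe
  have hA := H.A1
  have hY := H.Ypos
  have hv : I.v t ≤ vt := by rw [← l8d_ms]; exact ht.2
  by_cases hvY : I.v t ≤ Y
  · rw [H.env.low t ht.1 hvY]
    nlinarith [le_max_right vt Y]
  · refine (H.env.hi t ht.1 (not_le.mp hvY).le).trans ?_
    exact mul_le_mul_of_nonneg_left (hv.trans (le_max_left _ _)) (by linarith)

end ok

/-! ## 6. `L13zNb` -/

/-- change of the centring constant in an even moment, probability measure -/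
theorem l9ci_int_shift {α : Type} [MeasurableSpace α] (μ : Measure α) [IsProbabilityMeasure μ] {g : α → ℝ} (hg : L8Bd g) {c B : ℝ} {r : ℕ}
    (hr : 1 ≤ r) (h1 : ∫ x, g x ^ (2 * r) ∂μ ≤ B ^ (2 * r)) (hc : |c| ≤ B) : ∫ x, |g x - c| ^ (2 * r) ∂μ ≤ (2 * B) ^ (2 * r) := by
  have hpt : ∀ x, |g x - c| ^ (2 * r) ≤ 2 ^ (2 * r - 1) * (g x ^ (2 * r) + B ^ (2 * r)) := fun x => by
    rw [(even_two_mul r).pow_abs, sub_eq_add_neg]
    refine ((even_two_mul r).add_pow_le).trans ?_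
    refine mul_le_mul_of_nonneg_left (add_le_add_right ?_ _) (by positivity)
    rw [(even_two_mul r).neg_pow, ← (even_two_mul r).pow_abs]
    exact pow_le_pow_left₀ (abs_nonneg _) hc _
  have hi1 : Integrable (fun x => g x ^ (2 * r)) μ := (hg.pow _).integrable μ
  have hi2 : Integrable (fun x => |g x - c| ^ (2 * r)) μ := (((hg.sub (l8Bd_const c)).abs).pow _).integrable μ
  refine (integral_mono hi2 ((hi1.add (integrable_const _)).const_mul _) hpt).trans ?_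
  rw [integral_const_mul, integral_add' hi1 (integrable_const _), integral_const]
  simp only [probReal_univ, smul_eq_mul, one_mul]
  obtain ⟨k, rfl⟩ : ∃ k, r = k + 1 := ⟨r - 1, by omega⟩
  have e : 2 * (k + 1) - 1 = 2 * k + 1 := by omega
  rw [e, mul_pow, show 2 * (k + 1) = (2 * k + 1) + 1 by ring, pow_succ (2 : ℝ) (2 * k + 1)]
  have : (2 : ℝ) ^ (2 * k + 1) * (∫ x, g x ^ (2 * k + 1 + 1) ∂μ) ≤ 2 ^ (2 * k + 1) * B ^ (2 * k + 1 + 1) :=
    mul_le_mul_of_nonneg_left h1 (by positivity)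
  linarith

section nb

variable {I : L8In} {Sc : L13Scales} {e : ℕ → ℝ} {A Y Zh vt vp cE : ℝ} {pm jm : ℕ} {Lo Lm M : ℝ} {Kb : ℕ}

namespace L9ciHyp

theorem cenS (H : L9ciHyp I Sc e A Y Zh vt vp cE pm jm Lo Lm M Kb) : L13zCen (I.sp false).S := l13z_cen_S _ (l9ci_sp_ok H.std false)

/-- (D2) for all the versions, order `2 pm` -/
theorem nb_mom (H : L9ciHyp I Sc e A Y Zh vt vp cE pm jm Lo Lm M Kb) (en : Bool) {t : ℕ} (ht : t ≤ I.n) (hv : I.v t ≤ vt) (hx : I.x ≤ I.v t)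
    (u : L8cVer) (hu : u.Valid t) :
    ∫ x, |(I.sp en).l13zV (I.sp false).S t u x| ^ (2 * pm) ∂((I.sp en).fork t) ≤ (Lm * e t) ^ (2 * pm) := by
  have hA := H.A1
  have he := H.e_pos ht
  have hLe : 2 * (A * e t) ≤ Lm * e t := by nlinarith [H.hLm]
  obtain ⟨η, hF⟩ := H.fine
  have hact := l9ci_act H.std H.ok hF ht hx en
  have hok := l9ci_sp_ok H.std en
  have := (I.sp en).l8s_fork_prob hok t
  have hbd : L8Bd fun x => (I.sp en).l13zV (I.sp false).S t u x + I.f t :=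
    L8Bd.add ⟨(I.sp en).l13z_V_meas hok _ t u, 5, (I.sp en).l13z_V_abs_le hok H.cenS t u⟩ (l8Bd_const _)
  have key : ∫ x, ((I.sp en).l13zV (I.sp false).S t u x + I.f t) ^ (2 * pm) ∂((I.sp en).fork t) ≤ (A * e t) ^ (2 * pm) := by
    cases u with
    | pair k₁ k₂ =>
      refine le_trans (le_of_eq ?_) ((H.rnd en).ref_Q pm H.pm1 le_rfl t hact hv k₁ k₂ hu.1 hu.2)
      unfold L8In.moF
      congr 1
      funext x
      rw [L8P.l13z_V_pair, l9ci_spS H.std ht]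
      unfold L8In.f
      ring
    | anc =>
      refine le_trans (le_of_eq ?_) ((H.rnd en).ref_X pm H.pm1 le_rfl t hact hv)
      unfold L8In.mo
      rw [← (I.sp en).l13z_fork_fst hok t (f := fun ω => ((I.sp en).nX t ω - I.q t) ^ (2 * pm))
        ((((I.sp en).l8c_nX_bd hok t).1.sub_const _).pow_const _)]
      congr 1
      funext x
      simp only [L8P.l13zV, L8P.l8cV]
      rw [l9ci_spS H.std ht]
      unfold L8In.f
      ring
    | path =>
      refine le_trans (le_of_eq ?_) ((H.rnd en).ref_L pm H.pm1 le_rfl t hact hv)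
      unfold L8In.mo
      rw [← (I.sp en).l13z_fork_fst hok t (f := fun ω => (2 * (I.sp en).L t ω - I.q t) ^ (2 * pm))
        (((((I.sp en).l8s_L_bd hok t).1.const_mul 2).sub_const _).pow_const _)]
      congr 1
      funext x
      rw [L8P.l13z_V_path, L8P.l13z_T_eq, l9ci_spS H.std ht]
      unfold L8In.f
      ring
  have h2 := l9ci_int_shift ((I.sp en).fork t) hbd H.pm1 key (H.env.f_le t ht hv)
  refine le_trans (le_of_eq ?_) (h2.trans (pow_le_pow_left₀ (by positivity) hLe _))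
  congr 1
  funext x
  rw [add_sub_cancel_right]

theorem xCx_bd {Ω : Type} [MeasurableSpace Ω] {m : ℕ} (P : L8P Ω m) (h : P.Ok) (k : ℕ) : L8Bd (P.xCx k) :=
  L8Bd.sum _ fun i _ => L8Bd.sum _ fun j _ => ((P.l8s_X_bd h k i).mul (P.l8s_W_bd_C h k i j)).mul (P.l8s_X_bd h k j)

theorem trC2_bd {Ω : Type} [MeasurableSpace Ω] {m : ℕ} (P : L8P Ω m) (h : P.Ok) (k : ℕ) : L8Bd (P.trC2 k) :=
  L8Bd.sum _ fun i _ => L8Bd.sum _ fun j _ => (P.l8s_W_bd_C h k i j).pow 2

/-- `z_r^0 r Z_h ≤ (g_B / a) Y² / r` at `r = a Y`, in the scales of the instance -/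
theorem gain (H : L9ciHyp I Sc e A Y Zh vt vp cE pm jm Lo Lm M Kb) {a : ℝ} (ha : 0 < a) :
    0 ≤ I.z0 (a * Y) * (a * Y) * Zh ∧ I.z0 (a * Y) * (a * Y) * Zh ≤ Sc.gB / a * (Y ^ 2 / (a * Y)) := by
  have h1 := Sc.center_gain ha H.lk.Zh
  unfold L13Scales.m at h1
  rw [H.lk.z0, H.lk.Y] at h1
  refine ⟨?_, h1⟩
  have h2 := Sc.z0_pos (r := a * Y) (mul_pos ha H.Ypos)
  rw [H.lk.z0] at h2
  have := H.Ypos
  have := H.lk.Zh0
  positivity

/-- (D7), line 2 -/
theorem nb_d7c (H : L9ciHyp I Sc e A Y Zh vt vp cE pm jm Lo Lm M Kb) (en : Bool) (a : ℝ) (ha : 1 < a) (P : ℕ → Prop) [DecidablePred P]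
    (hP : ∀ t, P t → I.v t ≤ vt ∧ l9ciSc Y (I.v t) = a) :
    ∑ t ∈ (range (I.n + 1)).filter P, l9aMu (llMs I.a I.LP) t * (I.sp en).l13zC t ≤ (a * Y) * (A * (Sc.gB / a * (Y ^ 2 / (a * Y)))) ^ 2 := by
  have hY := H.Ypos
  have hA := H.A1
  have hok := l9ci_sp_ok H.std en
  have := hok.prob
  have ha0 : 0 < a := by linarith
  have hC : ∀ t, (I.sp en).l13zC t = I.ex en fun ω => (I.sp en).xCx t ω + (I.sp en).trC2 t ω := fun t => by
    unfold L8P.l13zC L8In.ex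
    rw [integral_add ((xCx_bd _ hok t).integrable _) ((trC2_bd _ hok t).integrable _)]
  by_cases hvt : a * Y ≤ vt
  · have h1 : ∑ t ∈ (range (I.n + 1)).filter P, l9aMu (llMs I.a I.LP) t * (I.sp en).l13zC t
        ≤ I.band (a * Y) fun t => I.ex en fun ω => (I.sp en).xCx t ω + (I.sp en).trC2 t ω := by
      refine l9ci_le_int H.std _ (fun t ht => ⟨?_, ?_⟩) _ _ (fun t _ => ?_) (fun t _ _ => le_of_eq (hC t))
      · have h2 := (hP t ht).2
        exact (l9ci_sc_lt (by rw [h2]; exact ha)).le.trans' (by rw [h2])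
      · rw [← (hP t ht).2]
        exact l9ci_sc_le hY _
      · rw [← hC]
        exact (I.sp en).l13z_C_nonneg hok t
    refine h1.trans (((H.rnd en).d7_C (a * Y) (by nlinarith) hvt).trans ?_)
    obtain ⟨g0, g1⟩ := H.gain ha0
    have h3 : (I.z0 (a * Y) * (a * Y) * Zh) ^ 2 ≤ (Sc.gB / a * (Y ^ 2 / (a * Y))) ^ 2 := pow_le_pow_left₀ g0 g1 2
    have h4 : 0 ≤ (Sc.gB / a * (Y ^ 2 / (a * Y))) ^ 2 := sq_nonneg _
    have h5 : 0 < a * Y := by positivity
    calc A * (a * Y) * (I.z0 (a * Y) ^ 2 * Zh ^ 2 * (a * Y) ^ 2) = (a * Y) * (A * (I.z0 (a * Y) * (a * Y) * Zh) ^ 2) := by ring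
      _ ≤ (a * Y) * (A ^ 2 * (Sc.gB / a * (Y ^ 2 / (a * Y))) ^ 2) := by
          refine mul_le_mul_of_nonneg_left ?_ h5.le
          exact mul_le_mul (by nlinarith) h3 (sq_nonneg _) (by positivity)
      _ = _ := by ring
  · rw [Finset.sum_eq_zero]
    · positivity
    · intro t ht
      rw [Finset.mem_filter] at ht
      have h2 := (hP t ht.2).2
      have h3 : a * Y < I.v t := (l9ci_sc_lt (by rw [h2]; exact ha)).trans_le' (by rw [h2])
      exact absurd (h3.le.trans (hP t ht.2).1) hvt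

/-- a sum with a coefficient supported in a mass window is a mass integral -/
theorem sum_supp (I : L8In) (g c Ψ : ℕ → ℝ) (lo hi : ℝ) (hsupp : ∀ t, g t ≠ 0 → t ≤ I.n ∧ lo ≤ I.v t ∧ I.v t ≤ hi) (hc : ∀ t, I.dv t * c t = g t) :
    ∑ t ∈ range (I.n + 2), g t * Ψ t = I.int lo hi fun t => c t * Ψ t := by
  unfold L8In.int
  symm
  have e : ∀ t, I.dv t * (c t * Ψ t) = g t * Ψ t := fun t => by rw [← mul_assoc, hc]
  simp only [e]
  refine Finset.sum_subset ?_ ?_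
  · intro t ht
    rw [Finset.mem_filter, Finset.mem_range] at ht
    rw [Finset.mem_range]
    omega
  · intro t _ ht
    by_cases h0 : g t = 0
    · rw [h0, zero_mul]
    · exfalso
      apply ht
      obtain ⟨h1, h2⟩ := hsupp t h0
      rw [Finset.mem_filter, Finset.mem_range]
      exact ⟨by omega, h2⟩

/-- (D10) above the lower band -/
theorem nb_d10_hi (H : L9ciHyp I Sc e A Y Zh vt vp cE pm jm Lo Lm M Kb) (en : Bool) (a : ℝ) (k n : ℕ) (ha : 1 < a)
    (hn : 1 ≤ n) (hnk : n ≤ k) (hk : k ≤ jm) (g : ℕ → ℝ)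
    (hg : ∀ t, g t ≠ 0 → (t ≤ I.n ∧ I.v t ≤ vt) ∧ l9ciSc Y (I.v t) = a ∧ |g t| ≤ I.dv t / (a * Y) * e t ^ (k - n)) :
    ∫ ω, (∑ t ∈ range (I.n + 2), g t * ((I.sp en).l13zT (I.sp false).S t ω ^ n
        - ∫ ω', (I.sp false).l13zT (I.sp false).S t ω' ^ n ∂(I.sp false).μ)) ^ 2 ∂(I.sp en).μ
      ≤ (A * (Sc.gB / a * l13_P Y (a * Y) k)) ^ 2 := by
  have hY := H.Ypos
  have hA := H.A1
  have ha0 : 0 < a := by linarith
  have hr : 0 < a * Y := by positivity
  have hband : ∀ t, g t ≠ 0 → t ≤ I.n ∧ a * Y ≤ I.v t ∧ I.v t ≤ 2 * (a * Y) := fun t h0 => by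
    obtain ⟨h1, h2, -⟩ := hg t h0
    refine ⟨h1.1, (l9ci_sc_lt (by rw [h2]; exact ha)).le.trans' (by rw [h2]), ?_⟩
    rw [← h2]
    exact l9ci_sc_le hY _
  by_cases hvt : a * Y ≤ vt
  · set c0 : ℕ → ℝ := fun t => g t / I.dv t with hc0
    have hdv : ∀ t, I.dv t * c0 t = g t := fun t => by
      by_cases hd : I.dv t = 0
      · by_cases h0 : g t = 0
        · rw [h0, hd, zero_mul]
        · have := (hg t h0).2.2
          rw [hd, zero_div, zero_mul] at this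
          exact absurd (abs_nonpos_iff.mp this) h0
      · rw [hc0]; field_simp
    set c : ℕ → ℕ → ℝ := fun i t => if i = n then c0 t * (a * Y) else 0 with hc
    have hcb : ∀ i ≤ k, ∀ t ≤ I.n, |c i t| ≤ e t ^ (k - i) := by
      intro i _ t htn
      have he0 : 0 ≤ e t := (H.e_pos htn).le
      rw [hc]
      simp only
      split_ifs with hi
      · subst hi
        by_cases h0 : g t = 0
        · rw [hc0]; simp only [h0, zero_div, zero_mul, abs_zero]; exact pow_nonneg he0 _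
        · obtain ⟨h1, -, h3⟩ := hg t h0
          have hd0 := l9ci_dv_nonneg H.std h1.1
          have hd : 0 < I.dv t := by
            rcases eq_or_lt_of_le hd0 with hd | hd
            · rw [← hd, zero_div, zero_mul] at h3
              exact absurd (abs_nonpos_iff.mp h3) h0
            · exact hd
          rw [hc0, abs_mul, abs_div, abs_of_pos hd, abs_of_pos hr, div_mul_eq_mul_div, div_le_iff₀ hd]
          calc |g t| * (a * Y) ≤ (I.dv t / (a * Y) * e t ^ (k - i)) * (a * Y) := mul_le_mul_of_nonneg_right h3 hr.le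
            _ = e t ^ (k - i) * I.dv t := by field_simp
      · rw [abs_zero]; exact pow_nonneg he0 _
    have D10 := (H.rnd en).d10 (a * Y) (by nlinarith) hvt k (hn.trans hnk) hk c hcb
    have hpol : ∀ (tl : Bool) (t : ℕ) (ω : SkOm I.m), I.pol tl c k t ω = c0 t * (a * Y) * (2 * (I.sp tl).L t ω - I.S t) ^ n := by
      intro tl t ω
      unfold L8In.pol
      rw [Finset.sum_eq_single n]
      · rw [hc]; simp
      · intro i _ hi
        rw [hc]; simp [hi]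
      · intro hi
        exact absurd (Finset.mem_range.mpr (by omega)) hi
    have hsum : ∀ ω, (I.band (a * Y) fun t => I.pol en c k t ω - I.ex false (I.pol false c k t))
        = (a * Y) * ∑ t ∈ range (I.n + 2), g t * ((I.sp en).l13zT (I.sp false).S t ω ^ n
          - ∫ ω', (I.sp false).l13zT (I.sp false).S t ω' ^ n ∂(I.sp false).μ) := by
      intro ω
      rw [sum_supp I g c0 _ (a * Y) (2 * (a * Y)) hband hdv]
      unfold L8In.band L8In.int
      rw [Finset.mul_sum]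
      refine Finset.sum_congr rfl fun t ht => ?_
      rw [Finset.mem_filter, Finset.mem_range] at ht
      have htn : t ≤ I.n := by omega
      have e1 : I.ex false (I.pol false c k t) = c0 t * (a * Y) * ∫ ω', (I.sp false).l13zT (I.sp false).S t ω' ^ n ∂(I.sp false).μ := by
        unfold L8In.ex
        simp only [hpol, L8P.l13z_T_eq, l9ci_spS H.std htn]
        rw [integral_const_mul]
      simp only []
      rw [e1, hpol, L8P.l13z_T_eq, l9ci_spS H.std htn]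
      ring
    have e2 : ∀ ω, (∑ t ∈ range (I.n + 2), g t * ((I.sp en).l13zT (I.sp false).S t ω ^ n
          - ∫ ω', (I.sp false).l13zT (I.sp false).S t ω' ^ n ∂(I.sp false).μ)) ^ 2
        = ((a * Y) ^ 2)⁻¹ * (I.band (a * Y) fun t => I.pol en c k t ω - I.ex false (I.pol false c k t)) ^ 2 := by
      intro ω
      rw [hsum, mul_pow]
      field_simp
    simp only [e2]
    rw [integral_const_mul]
    unfold L8In.ex at D10
    obtain ⟨g0, g1⟩ := H.gain ha0
    have hX : I.z0 (a * Y) * (a * Y) * Zh * (if k = 1 then 1 else Y ^ 2 / (a * Y) * (a * Y) ^ (k - 2)) ≤ Sc.gB / a * l13_P Y (a * Y) k := by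
      split_ifs with hk1
      · rw [hk1, l13_P_one, mul_one]; exact g1
      · rw [l13_P_ge_two Y (a * Y) (by omega : 2 ≤ k)]
        have h5 : 0 ≤ Y ^ 2 / (a * Y) * (a * Y) ^ (k - 2) := by positivity
        calc _ ≤ Sc.gB / a * (Y ^ 2 / (a * Y)) * (Y ^ 2 / (a * Y) * (a * Y) ^ (k - 2)) := mul_le_mul_of_nonneg_right g1 h5
          _ = _ := by ring
    have hX0 : 0 ≤ I.z0 (a * Y) * (a * Y) * Zh * (if k = 1 then 1 else Y ^ 2 / (a * Y) * (a * Y) ^ (k - 2)) := by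
      refine mul_nonneg g0 ?_
      split_ifs <;> positivity
    calc ((a * Y) ^ 2)⁻¹ * ∫ ω, (I.band (a * Y) fun t => I.pol en c k t ω - ∫ ω', I.pol false c k t ω' ∂(I.sp false).μ) ^ 2 ∂(I.sp en).μ
        ≤ ((a * Y) ^ 2)⁻¹ * (A * (a * Y) * (I.z0 (a * Y) * (a * Y) * Zh * (if k = 1 then 1 else Y ^ 2 / (a * Y) * (a * Y) ^ (k - 2)))) ^ 2 :=
          mul_le_mul_of_nonneg_left D10 (by positivity)
      _ = (A * (I.z0 (a * Y) * (a * Y) * Zh * (if k = 1 then 1 else Y ^ 2 / (a * Y) * (a * Y) ^ (k - 2)))) ^ 2 := by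
          field_simp
      _ ≤ _ := pow_le_pow_left₀ (by positivity) (mul_le_mul_of_nonneg_left hX (by linarith)) 2
  · have hg0 : ∀ t, g t = 0 := fun t => by
      by_contra h0
      exact hvt ((hband t h0).2.1.trans (hg t h0).1.2)
    simp only [hg0, zero_mul, Finset.sum_const_zero, ne_eq, OfNat.ofNat_ne_zero, not_false_eq_true, zero_pow, integral_zero]
    positivity

/-- low linear centred integral (after (D9)) -/
theorem nb_d10_lo (H : L9ciHyp I Sc e A Y Zh vt vp cE pm jm Lo Lm M Kb) (en : Bool) (k : ℕ) (hk1 : 1 ≤ k) (g : ℕ → ℝ)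
    (hg : ∀ t, g t ≠ 0 → t ≤ I.n ∧ l9ciSc Y (I.v t) = 1 ∧ I.x ≤ I.v t ∧ |g t| ≤ I.dv t / (1 * Y) * e t ^ (k - 1)) :
    ∫ ω, (∑ t ∈ range (I.n + 2), g t * ((I.sp en).l13zT (I.sp false).S t ω ^ 1
        - ∫ ω', (I.sp false).l13zT (I.sp false).S t ω' ^ 1 ∂(I.sp false).μ)) ^ 2 ∂(I.sp en).μ
      ≤ (A * (2 * A) ^ (k - 1) * (Sc.gB / 1 * l13_P Y (1 * Y) k)) ^ 2 := by
  have hY := H.Ypos
  have hA := H.A1
  have hgB := Sc.gB_pos
  have hband : ∀ t, g t ≠ 0 → t ≤ I.n ∧ I.x ≤ I.v t ∧ I.v t ≤ 2 * Y := fun t h0 => by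
    obtain ⟨h1, h2, h3, -⟩ := hg t h0
    refine ⟨h1, h3, ?_⟩
    have := l9ci_sc_le hY (I.v t)
    rw [h2, one_mul] at this
    exact this
  set β : ℝ := (2 * A * Y) ^ (k - 1) / Y with hβ
  have hβ0 : 0 < β := by positivity
  set c : ℕ → ℝ := fun t => g t / I.dv t / β with hc
  have hdv : ∀ t, I.dv t * (β * c t) = g t := fun t => by
    by_cases hd : I.dv t = 0
    · by_cases h0 : g t = 0
      · rw [h0, hd, zero_mul]
      · have := (hg t h0).2.2.2
        rw [hd, zero_div, zero_mul] at this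
        exact absurd (abs_nonpos_iff.mp this) h0
    · rw [hc]; field_simp
  have hcb : ∀ t, |c t| ≤ 1 := by
    intro t
    by_cases h0 : g t = 0
    · rw [hc]; simp only [h0, zero_div, abs_zero]; exact zero_le_one
    · obtain ⟨h1, h2, -, h3⟩ := hg t h0
      have hd0 := l9ci_dv_nonneg H.std h1
      have hd : 0 < I.dv t := by
        rcases eq_or_lt_of_le hd0 with hd | hd
        · rw [← hd, zero_div, zero_mul] at h3
          exact absurd (abs_nonpos_iff.mp h3) h0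
        · exact hd
      have he : e t ≤ 2 * A * Y := by
        have := H.e_le h1
        rw [h2, one_mul] at this
        exact this
      have he' : e t ^ (k - 1) ≤ (2 * A * Y) ^ (k - 1) := pow_le_pow_left₀ (H.e_pos h1).le he _
      rw [hc, abs_div, abs_div, abs_of_pos hd, abs_of_pos hβ0, div_div, div_le_one (by positivity)]
      calc |g t| ≤ I.dv t / (1 * Y) * e t ^ (k - 1) := h3
        _ ≤ I.dv t / (1 * Y) * (2 * A * Y) ^ (k - 1) := mul_le_mul_of_nonneg_left he' (by positivity)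
        _ = I.dv t * β := by rw [hβ, one_mul]; ring
  have D10 := (H.rnd en).d10_low c hcb
  have hmean : ∀ t, ∫ ω', (I.sp false).l13zT (I.sp false).S t ω' ^ 1 ∂(I.sp false).μ = 0 := fun t => by
    simp only [pow_one, L8P.l13z_T_self]
    exact (I.sp false).l8c_T_mean (l9ci_sp_ok H.std false) t
  have hsum : ∀ ω, ∑ t ∈ range (I.n + 2), g t * ((I.sp en).l13zT (I.sp false).S t ω ^ 1
        - ∫ ω', (I.sp false).l13zT (I.sp false).S t ω' ^ 1 ∂(I.sp false).μ)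
      = β * I.int I.x (2 * Y) fun t => c t * (2 * (I.sp en).L t ω - I.S t) := by
    intro ω
    rw [sum_supp I g (fun t => β * c t) _ I.x (2 * Y) hband hdv]
    unfold L8In.int
    rw [Finset.mul_sum]
    refine Finset.sum_congr rfl fun t ht => ?_
    rw [Finset.mem_filter, Finset.mem_range] at ht
    simp only []
    rw [hmean, pow_one, L8P.l13z_T_eq, l9ci_spS H.std (by omega)]
    ring
  simp only [hsum, mul_pow]
  rw [integral_const_mul]
  unfold L8In.ex at D10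
  refine (mul_le_mul_of_nonneg_left D10 (sq_nonneg β)).trans (le_of_eq ?_)
  rw [H.lk.E0, H.lk.Y, one_mul, l13_P_lower hY, hβ]
  obtain ⟨j, rfl⟩ : ∃ j, k = j + 1 := ⟨k - 1, by omega⟩
  simp only [Nat.add_sub_cancel]
  field_simp
  ring

end L9ciHyp

open Classical in
/-- **INST[`L13zNb`]**: the numbers of 64 from `ref_*`, `d10`, `d10_low`, `d7_C` of `L8In.Rnd` -/
theorem l9ci_nb (H : L9ciHyp I Sc e A Y Zh vt vp cE pm jm Lo Lm M Kb) :
    L13zNb (l9ciD I Sc e vt Lo Lm M (2 * pm)) I.sp jm (A * (2 * A) ^ jm) A where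
  K10_nonneg := by have := H.A1; positivity
  Kc_nonneg := by linarith [H.A1]
  mom := fun en t h1 h2 u hu => by
    have := H.nb_mom en h1.1 (by rw [← l8d_ms]; exact h1.2) (by rw [← l8d_ms, ← H.lk.x]; exact not_lt.mp h2) u hu
    show _ ≤ (Lm * if t ≤ I.n then e t else 0) ^ (2 * pm)
    rw [if_pos h1.1]
    exact this
  d10 := fun en a k n ha hn hnk hk han g hg => by
    have hA := H.A1
    have hY := H.Ypos
    have hgB := Sc.gB_pos
    have ha0 : 0 < a := by linarith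
    have hP0 : 0 ≤ Sc.gB / a * l13_P Y (a * Y) k := mul_nonneg (by positivity) (l13_P_nonneg (by positivity) k)
    have hg' : ∀ t, g t ≠ 0 → (t ≤ I.n ∧ I.v t ≤ vt) ∧ l9ciSc Y (I.v t) = a ∧ I.x ≤ I.v t ∧ |g t| ≤ I.dv t / (a * Y) * e t ^ (k - n) := by
      intro t h0
      obtain ⟨h1, h2, h3, h4⟩ := hg t h0
      refine ⟨⟨h1.1, by rw [← l8d_ms]; exact h1.2⟩, by rw [← l8d_ms, ← H.lk.Y]; exact h2, by rw [← l8d_ms, ← H.lk.x]; exact not_lt.mp h3, ?_⟩
      have h5 : |g t| ≤ l9aMu (llMs I.a I.LP) t / (a * Sc.Y) * (if t ≤ I.n then e t else 0) ^ (k - n) := h4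
      rwa [if_pos h1.1, l9ci_mu, H.lk.Y] at h5
    show _ ≤ (A * (2 * A) ^ jm * (Sc.gB / a * l13_P Sc.Y (a * Sc.Y) k)) ^ 2
    rw [H.lk.Y]
    rcases eq_or_lt_of_le ha with rfl | ha1
    · have hn1 : n = 1 := han.resolve_left (lt_irrefl _)
      subst hn1
      refine (H.nb_d10_lo en k hnk g fun t h0 => ⟨(hg' t h0).1.1, (hg' t h0).2⟩).trans ?_
      refine pow_le_pow_left₀ (by positivity) (mul_le_mul_of_nonneg_right ?_ hP0) 2
      exact mul_le_mul_of_nonneg_left (pow_le_pow_right₀ (by linarith) (by omega)) (by linarith)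
    · refine (H.nb_d10_hi en a k n ha1 hn hnk hk g fun t h0 => ⟨(hg' t h0).1, (hg' t h0).2.1, (hg' t h0).2.2.2⟩).trans ?_
      refine pow_le_pow_left₀ (by positivity) (mul_le_mul_of_nonneg_right ?_ hP0) 2
      exact le_mul_of_one_le_right (by linarith) (one_le_pow₀ (by linarith))
  d7c := fun en a ha => by
    have := H.nb_d7c en a ha (fun t => (l9ciD I Sc e vt Lo Lm M (2 * pm)).rg t ∧ (l9ciD I Sc e vt Lo Lm M (2 * pm)).sc t = a
      ∧ ¬ (l9ciD I Sc e vt Lo Lm M (2 * pm)).lw t) (fun t ht => by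
      rw [← l8d_ms, ← H.lk.Y]; exact ⟨ht.1.2, ht.2.1⟩)
    rw [← H.lk.Y] at this
    exact this

end nb

/-! ## 7. the import of `L09/CCAd.lean` at the instance -/

section imp

variable {I : L8In} {Sc : L13Scales} {e : ℕ → ℝ} {A Y Zh vt vp cE : ℝ} {pm jm : ℕ} {Lo Lm M : ℝ} {Kb : ℕ}

/-- **INST[`L9dImp`]**: THE import of Lemma 9.1 (30, `L09/CCAd.lean`) at the concrete data, through `l13z_imp` (64, `L09/CCCenI.lean`).      `Tt ≥ max 1 Lm` is free (truncation level of the centred half) -/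
theorem l9ci_imp (H : L9ciHyp I Sc e A Y Zh vt vp cE pm jm Lo Lm M Kb) {Tt : ℝ} (hTt : 1 ≤ Tt) (hTL : Lm ≤ Tt) :
    L9dImp (l9ciD I Sc e vt Lo Lm M (2 * pm)) jm (l13zKJ (l9ciD I Sc e vt Lo Lm M (2 * pm)) jm (A * (2 * A) ^ jm) A Tt)
      (l13zEJ (l9ciD I Sc e vt Lo Lm M (2 * pm)) jm Tt) :=
  l13z_imp (l9ci_ok H) (Tl := fun r en => l8liSk I.m I.a I.LP (l8dTl I en) r) (fun r hr => l9ci_lk H r hr) (l9ci_nb H) hTt hTL

/-- **Lemma 9.1 for all the terms at the instance** (`l9d_val` of 30) -/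
theorem l9ci_val (H : L9ciHyp I Sc e A Y Zh vt vp cE pm jm Lo Lm M Kb) {Tt : ℝ} (hTt : 1 ≤ Tt) (hTL : Lm ≤ Tt)
    {T : L9cT} (hT : T.Ok (l9ciD I Sc e vt Lo Lm M (2 * pm))) (hj : T.j ≤ jm) :
    |(l9ciD I Sc e vt Lo Lm M (2 * pm)).val T| ≤ (l9ciD I Sc e vt Lo Lm M (2 * pm)).Bd T.j T.A
      (max 1 (l13zKJ (l9ciD I Sc e vt Lo Lm M (2 * pm)) jm (A * (2 * A) ^ jm) A Tt)) (l13zEJ (l9ciD I Sc e vt Lo Lm M (2 * pm)) jm Tt) := by
  have hD := l9ci_ok H
  have hE0 : 0 ≤ l13zEJ (l9ciD I Sc e vt Lo Lm M (2 * pm)) jm Tt := by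
    unfold l13zEJ
    have h1 : (0 : ℝ) ≤ (l9ciD I Sc e vt Lo Lm M (2 * pm)).Lo := le_trans zero_le_one hD.hLo
    have h2 : (0 : ℝ) ≤ (l9ciD I Sc e vt Lo Lm M (2 * pm)).Lm / Tt := div_nonneg hD.hLm0.le (by linarith)
    positivity
  refine l9d_val hD (le_max_left _ _) hE0 ?_ hT hj
  intro T' hT' hj' hhi
  obtain ⟨hA, hC⟩ := l9ci_imp H hTt hTL T' hT' hj' hhi
  refine ⟨fun χ hχ i1 h1 h2 h3 => (hA χ hχ i1 h1 h2 h3).l13z_mono hD hT' (le_max_right _ _) le_rfl, fun i0 hl χ hχ h1 h2 h3 h4 h5 en => ?_⟩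
  exact (hC i0 hl χ hχ h1 h2 h3 h4 h5 en).l13z_mono hD hT' (le_max_right _ _) le_rfl

end imp

end

theorem l9ci_eqns_cite : True := by
  have := @l9ciPw.eq_1
  have := @l9ciBi.eq_1
  have := @l9ciSc.eq_1
  have := @L8In.l9ciS.eq_1
  have := @L8In.l9ciV.eq_1
  have := @l9ciD.eq_1
  trivial

end Claimed.Agent.R286
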