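import Claimed.Agent.R286.L09.Trs
import Claimed.Agent.R286.L08.Defs
import Claimed.Agent.R286.LL04.AsmSw

/-!
# Row 286 (S0533), unit L09 (LL Sec. 9), file TRSFIN: THE NODE **TRS** ON THE CHAIN      (owner helper65; prefix `l9s_`, `L9s`)

`l9s_trs` : (A9) + size increments (LL02: `exit_a9`, `exit_size`) + THREE typed imports  ⟹  the node TRS of `L09/Contract.lean` (216), at the INTERIOR parameters `θ ∈ (0, log 2)`
(`L9TRSo`; the two-sided `deriv` of the contract needs admissible fine paths on a neighbourhood of `θ`; FIN uses almost every `θ`).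

IMPORTS (each one a closed `Prop`, in the shape `L8Ev` of LL 08, at the instances `I : L8In` of `L08/Defs.lean`):
* `L9D11 𝔹 δ F`    (D11) in the vocabulary of the trees: the moment of order `k` of `Δ = msk Q - q` at a pair which shares `t ≤ n` stages is `≤ (C x^δ)^k`, in BOTH ensembles (tilted: on the stop; the masked
                   pairs have `Δ = - q`, `q ≲ s`).      Source: `L8xD11` (163) + dictionary fork law / tree number.
* `L9SizOk 𝔹 δ F`  the fine path of a point of the size segment is admissible, the tilt stage is admissible, `b ≤ M0`, `|h - K| ≤ M0`, `b q²` is nondecreasing in the stage, `|d| ≤ M0 x^δ`.      Source: LL03 + `I.Fine`.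
* `L02ScDiff`      the scalar tree numbers are differentiable along a family `LlFam`  (= the field `dnuK` of `RdData.Ok`, 239).

CONTENT.   11: the dotted path of a family (`l9sPd`, `l9s_fam`), the mass integral of the weight of (A9) is `|e| a + I.dot` (`l9s_int_W`);   12: `I.DifK` from `L02ScDiff`;
13: the sum of the LL02 majorants (`l9s_err_le`);   14: TRS at one instance (`l9s_inst`);   15: the node.
-/

set_option autoImplicit false

namespace Claimed.Agent.R286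

open MeasureTheory Set Filter

/-! ### 11. the dotted path of a family -/

/-- the fine path (masses `0`) whose cumulative clocks are `B t - B 0`, `H t - H 0`, `K t - K 0` -/
noncomputable def l9sPd (n : ℕ) (B H K : ℕ → ℝ) : LlStp :=
  (List.range n).map fun l => ⟨0, B (l + 1) - B l, H (l + 1) - H l, K (l + 1) - K l⟩

theorem l9s_cum0 (f : ℕ → ℝ) (m : ℕ) : ((List.range m).map fun l => f (l + 1) - f l).sum = f m - f 0 := by
  induction m with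
  | zero => simp
  | succ m ih =>
    rw [List.range_succ, List.map_append, List.sum_append, ih]
    simp

theorem l9s_cum (f : ℕ → ℝ) (n t : ℕ) : (((List.range n).take t).map fun l => f (l + 1) - f l).sum = f (min t n) - f 0 := by
  rw [List.take_range, l9s_cum0]

theorem l9s_pd_B (n : ℕ) (B H K : ℕ → ℝ) (t : ℕ) : skCumB (llMat (l9sPd n B H K)) t = B (min t n) - B 0 := by
  rw [← l9s_cum B n t]
  unfold skCumB llMat l9sPd
  rw [← List.map_take, ← List.map_take, List.map_map, List.map_map]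
  rfl

theorem l9s_pd_H (n : ℕ) (B H K : ℕ → ℝ) (t : ℕ) : skCumH (llMat (l9sPd n B H K)) t = H (min t n) - H 0 := by
  rw [← l9s_cum H n t]
  unfold skCumH llMat l9sPd
  rw [← List.map_take, ← List.map_take, List.map_map, List.map_map]
  rfl

theorem l9s_pd_K (n : ℕ) (B H K : ℕ → ℝ) (t : ℕ) : llCumK (l9sPd n B H K) t = K (min t n) - K 0 := by
  rw [← l9s_cum K n t]
  unfold llCumK l9sPd
  rw [← List.map_take, List.map_map]
  rfl

theorem l9s_cumB_min (Q : SkStp) (t : ℕ) : skCumB Q t = skCumB Q (min t Q.length) := by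
  unfold skCumB
  rcases le_total t Q.length with h | h
  · rw [min_eq_left h]
  · rw [min_eq_right h, List.take_of_length_le h, List.take_length]

theorem l9s_cumH_min (Q : SkStp) (t : ℕ) : skCumH Q t = skCumH Q (min t Q.length) := by
  unfold skCumH
  rcases le_total t Q.length with h | h
  · rw [min_eq_left h]
  · rw [min_eq_right h, List.take_of_length_le h, List.take_length]

theorem l9s_cumK_min (Q : LlStp) (t : ℕ) : llCumK Q t = llCumK Q (min t Q.length) := by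
  unfold llCumK
  rcases le_total t Q.length with h | h
  · rw [min_eq_left h]
  · rw [min_eq_right h, List.take_of_length_le h, List.take_length]

theorem l9s_ms_eq (a : ℝ) (P : LlStp) (j : ℕ) : skMs a (llMat P) j = llMs a P j := by
  unfold skMs llMs llMat
  rw [List.map_map, List.getD_eq_getElem?_getD]
  rfl

theorem l9s_gap_eq (a : ℝ) (P : LlStp) (j : ℕ) : llMs a P j - trPm (llMs a P) j = skGap a (llMat P) j := by
  unfold skGap trPm
  simp only [l9s_ms_eq]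

theorem l9s_ms_top (a : ℝ) (P : LlStp) : llMs a P P.length = a := by
  unfold llMs
  simp

theorem l9s_cumB_nonneg {a : ℝ} {Q : SkStp} (h : SkAdm a Q) (t : ℕ) : 0 ≤ skCumB Q t := by
  unfold skCumB
  refine List.sum_nonneg fun x hx => ?_
  obtain ⟨e, he, rfl⟩ := List.mem_map.1 hx
  exact (h.2 e (List.mem_of_mem_take he)).2.2.1

/-- a family with fixed masses, admissible on `U`, whose cumulative clocks are differentiable at `θ`, is an `LlFam` -/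
theorem l9s_fam {a : ℝ} {U : Set ℝ} {θ : ℝ} {P : ℝ → LlStp} (hθ : θ ∈ U)
    (hadm : ∀ ϑ ∈ U, LlStpAdm a (P ϑ)) (hmass : ∀ ϑ, (P ϑ).map LlInc.m = (P θ).map LlInc.m)
    (hb : ∀ t, DifferentiableAt ℝ (fun ϑ => skCumB (llMat (P ϑ)) t) θ)
    (hh : ∀ t, DifferentiableAt ℝ (fun ϑ => skCumH (llMat (P ϑ)) t) θ)
    (hK : ∀ t, DifferentiableAt ℝ (fun ϑ => llCumK (P ϑ) t) θ) :
    LlFam a U θ P (l9sPd (P θ).length (fun t => deriv (fun ϑ => skCumB (llMat (P ϑ)) t) θ)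
      (fun t => deriv (fun ϑ => skCumH (llMat (P ϑ)) t) θ) (fun t => deriv (fun ϑ => llCumK (P ϑ) t) θ)) := by
  have hlen : ∀ ϑ, (P ϑ).length = (P θ).length := fun ϑ => by
    have := congrArg List.length (hmass ϑ)
    simpa using this
  refine ⟨hθ, hadm, fun ϑ _ => hmass ϑ, by simp [l9sPd], fun t => ?_, fun t => ?_, fun t => ?_⟩
  · rw [l9s_pd_B]
    have e0 : deriv (fun ϑ => skCumB (llMat (P ϑ)) 0) θ = 0 := by simp [skCumB]
    have e1 : (fun ϑ => skCumB (llMat (P ϑ)) (min t (P θ).length)) = fun ϑ => skCumB (llMat (P ϑ)) t := by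
      funext ϑ
      rw [l9s_cumB_min (llMat (P ϑ)) t]
      simp [llMat, hlen]
    simp only [e0, sub_zero, e1]
    exact (hb t).hasDerivAt.hasDerivWithinAt
  · rw [l9s_pd_H]
    have e0 : deriv (fun ϑ => skCumH (llMat (P ϑ)) 0) θ = 0 := by simp [skCumH]
    have e1 : (fun ϑ => skCumH (llMat (P ϑ)) (min t (P θ).length)) = fun ϑ => skCumH (llMat (P ϑ)) t := by
      funext ϑ
      rw [l9s_cumH_min (llMat (P ϑ)) t]
      simp [llMat, hlen]
    simp only [e0, sub_zero, e1]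
    exact (hh t).hasDerivAt.hasDerivWithinAt
  · rw [l9s_pd_K]
    have e0 : deriv (fun ϑ => llCumK (P ϑ) 0) θ = 0 := by simp [llCumK]
    have e1 : (fun ϑ => llCumK (P ϑ) (min t (P θ).length)) = fun ϑ => llCumK (P ϑ) t := by
      funext ϑ
      rw [l9s_cumK_min (P ϑ) t]
      simp [hlen]
    simp only [e0, sub_zero, e1]
    exact (hK t).hasDerivAt.hasDerivWithinAt

/-- the mass integral of the weight of (A9) -/
theorem l9s_int_W (n : ℕ) (a e : ℝ) (P : ℝ → LlStp) (θ : ℝ) (B H K : ℕ → ℝ) (hB0 : B 0 = 0) (hH0 : H 0 = 0) (hK0 : K 0 = 0) :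
    l9sInt (llMs a (P θ)) (P θ).length (l9sW n a e P (l9sPd (P θ).length B H K) θ)
      = |e| * a + ∑ j ∈ Finset.range ((P θ).length + 1), skGap a (llMat (P θ)) j *
          (|B j| + |H j| + |K j| + |deriv (fun t' => (llJs n a (P t') none).qC j) θ|) := by
  have h1 := l9s_int_one (llMs a (P θ)) (P θ).length
  rw [l9s_ms_top] at h1
  unfold l9sInt at h1 ⊢
  have h2 : |e| * a = ∑ j ∈ Finset.range ((P θ).length + 1), |e| * ((llMs a (P θ) j - trPm (llMs a (P θ)) j) * 1) := by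
    rw [← Finset.mul_sum, h1]
  rw [h2, ← Finset.sum_add_distrib]
  refine Finset.sum_congr rfl fun j hj => ?_
  have hj' : min j (P θ).length = j := min_eq_left (by have := Finset.mem_range.mp hj; omega)
  rw [l9s_gap_eq]
  unfold l9sW llW
  rw [l9s_pd_B, l9s_pd_H, l9s_pd_K, hj', hB0, hH0, hK0]
  ring_nf

/-! ### 12. bridges between an instance of Sec. 9 and a family of fine paths;  `I.DifK` -/

theorem l9s_js (I : L9I) (pf : ℝ → LlPt) (θ : ℝ) (ha : ∀ t', (pf t').a = (pf θ).a) (t' : ℝ) : I.js (pf t') = I.js (pf θ) := by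
  unfold L9I.js L9I.ps
  rw [ha t']

theorem l9s_X_eq (I : L9I) (pf : ℝ → LlPt) (θ : ℝ) (ha : ∀ t', (pf t').a = (pf θ).a) (en : Bool) (t' : ℝ) :
    I.X en (pf t') = llJs I.m (pf θ).a (I.P (pf t')) (if en then some (I.js (pf θ)) else none) := by
  unfold L9I.X
  rw [ha t', l9s_js I pf θ ha t']

theorem l9s_psi_eq (I : L9I) (p : LlPt) (m' : ℕ) : I.psi p m' = llPsi llMv m' p.a (I.js p) (I.P p) := rfl

theorem l9s_OF_eq (I : L9I) (pf : ℝ → LlPt) (θ : ℝ) (ha : ∀ t', (pf t').a = (pf θ).a) (e : ℝ) (k : ℕ) (en : Bool) :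
    I.OF pf 1 e k en θ = l9sOF I.m (pf θ).a e (fun t => I.P (pf t)) k (if en then some (I.js (pf θ)) else none) θ := by
  unfold L9I.OF l9sOF
  simp only [l9s_X_eq I pf θ ha]

theorem l9s_mass (I : L9I) (pf : ℝ → LlPt) (θ : ℝ) (ha : ∀ t', (pf t').a = (pf θ).a) (t' : ℝ) :
    (I.P (pf t')).map LlInc.m = (I.P (pf θ)).map LlInc.m := by
  unfold L9I.P
  rw [l9s_stp_mass, l9s_stp_mass]
  unfold L9I.ps
  rw [ha t']

/-- **IMPORT (LL02)**: the scalar tree numbers are differentiable along a family of fine paths (= the field `dnuK` of `RdData.Ok`, `L02/RowD.lean`, at the instance `llJs`) -/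
def L02ScDiff : Prop :=
  ∀ (a : ℝ) (U : Set ℝ) (θ : ℝ) (P : ℝ → LlStp) (Pd : LlStp), 1 ≤ a → a ≤ 4 → LlFam a U θ P Pd →
    ∀ (r : ℕ) (τ : JtTopo) (R : (ℕ → Bool) → ℝ), 1 ≤ r → IsTr (P θ).length r τ → TrUses r R →
      DifferentiableWithinAt ℝ (fun ϑ => llNuS a (P ϑ) r τ R) U θ

/-- **`L02ScDiff` PROVED** (helper71, from `ll2_ri_dnuK` of helper73, `L02/RowI.lean`) -/
theorem l9s_scdiff : L02ScDiff := fun _ _ _ _ _ ha1 _ hF _ _ R hr hτ hR =>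
  (ll2_ri_dnuK (by linarith) hF hr hτ R hR).differentiableWithinAt

/-- a tree number on `r` labels sees the labels `< r` only -/
theorem l9s_nu_ext {S : Type} [Fintype S] [Inhabited S] {N : ℕ} {nu : ℕ → JtTopo → ((ℕ → S) → ℝ) → ℝ} (h : JtNuLaw N nu)
    (r : ℕ) (τ : JtTopo) (Q : (ℕ → S) → ℝ) : nu r τ Q = nu r τ fun s => Q (trExt fun i : Fin r => s i) := by
  obtain ⟨p, -, -, hp⟩ := h.rep r τ
  rw [hp, hp]
  refine Finset.sum_congr rfl fun s _ => ?_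
  congr 2
  funext i
  unfold trExt
  split_ifs with hi
  · simp [hi]
  · rfl

theorem l9s_difK (hSc : L02ScDiff) (I : L9I) (pf : ℝ → LlPt) (θ : ℝ) (ha : ∀ t', (pf t').a = (pf θ).a)
    (ha1 : 1 ≤ (pf θ).a) (ha4 : (pf θ).a ≤ 4) {U : Set ℝ} (hU : U ∈ nhds θ) {Pd : LlStp}
    (hFam : LlFam (pf θ).a U θ (fun t => I.P (pf t)) Pd) : I.DifK pf θ := by
  intro r τ Q hτ
  have ha0 : 0 < (pf θ).a := by linarith
  have hlaw : ∀ t' ∈ U, JtNuLaw (I.P (pf t')).length (llNuS (pf θ).a (I.P (pf t'))) := fun t' ht' =>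
    (ll2_law_js I.m ha0 (hFam.adm t' ht') none).nuK
  have e0 : (fun t' => (I.X0 (pf t')).nuK r τ Q) = fun t' => llNuS (pf θ).a (I.P (pf t')) r τ Q := by
    funext t'
    show llNuS (pf t').a (I.P (pf t')) r τ Q = _
    rw [ha t']
  rw [e0]
  rcases Nat.eq_zero_or_pos r with rfl | hr
  · have hc : (fun t' => llNuS (pf θ).a (I.P (pf t')) 0 τ Q) =ᶠ[nhds θ] fun _ => Q (trExt (default : Fin 0 → Bool)) := by
      filter_upwards [hU] with t' ht'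
      obtain ⟨p, -, h1, hp⟩ := (hlaw t' ht').rep 0 τ
      rw [hp, Fintype.sum_unique]
      rw [Fintype.sum_unique] at h1
      rw [h1, one_mul]
      exact congrArg Q (congrArg trExt (Subsingleton.elim _ _))
    exact (differentiableAt_const _).congr_of_eventuallyEq hc
  · have h1 := hSc _ U θ _ Pd ha1 ha4 hFam r τ (fun s => Q (trExt fun i : Fin r => s i)) hr hτ (by
      intro σ σ' h
      show Q (trExt fun i : Fin r => σ i) = Q (trExt fun i : Fin r => σ' i)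
      congr 2
      funext i
      exact h i i.2)
    refine (h1.differentiableAt hU).congr_of_eventuallyEq ?_
    filter_upwards [hU] with t' ht'
    exact l9s_nu_ext (hlaw t' ht') r τ Q

/-! ### 13. the sum of the error majorants of LL02 -/

theorem l9s_W_nonneg (n : ℕ) (a e : ℝ) (P : ℝ → LlStp) (Pd : LlStp) (θ : ℝ) (j : ℕ) : 0 ≤ l9sW n a e P Pd θ j := by
  unfold l9sW llW
  positivity

theorem l9s_err_le (k : ℕ) (hk : 1 ≤ k) : ∃ C : ℝ, 0 ≤ C ∧ ∀ (n : ℕ) (a e : ℝ) (P : ℝ → LlStp) (Pd : LlStp) (js : ℕ) (θ M0 sg : ℝ),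
    0 < a → a ≤ 4 → LlStpAdm a (P θ) →
    (∀ tl : Option ℕ, tl = none ∨ tl = some js →
      L9sIns (llJs n a (P θ) tl) k M0 sg ∧ L9sIns (llJs n a (P θ) tl) (k + 1) M0 sg) →
    l9sErr n a e P Pd js k θ ≤ C * (1 / (n : ℝ) + (4 * (1 + M0) * sg) ^ (k + 1)
      + l9sInt (llMs a (P θ)) (P θ).length (l9sW n a e P Pd θ) * ((4 * (1 + M0) * sg) ^ k + 1 / (n : ℝ))) := by
  obtain ⟨CS, hCS, hS⟩ := l9s_errS_le k 4
  obtain ⟨CW, hCW, hW⟩ := l9s_errW_le k hk 4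
  obtain ⟨CZ, hCZ, hZ⟩ := l9s_errW0_le 4
  refine ⟨1 + 2 * CS + 2 * CW + 2 * CZ, by positivity, fun n a e P Pd js θ M0 sg ha0 ha4 hadm hI => ?_⟩
  have hL : ∀ tl, (llJs n a (P θ) tl).Law (llMs a (P θ)) := fun tl => ll2_law_js n ha0 hadm tl
  have htop : ∀ tl, llMs a (P θ) (llJs n a (P θ) tl).N ≤ 4 := fun tl => by
    show llMs a (P θ) (P θ).length ≤ 4
    rw [l9s_ms_top]
    exact ha4
  have hw := l9s_W_nonneg n a e P Pd θ
  set w := l9sW n a e P Pd θ with hwd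
  set Sg := 4 * (1 + M0) * sg with hSg
  set In := l9sInt (llMs a (P θ)) (P θ).length w with hIn
  have hSg0 : 0 ≤ Sg := by
    have h1 := (hI none (Or.inl rfl)).1
    have := h1.M0_nn
    have := h1.sg_pos
    positivity
  have hIn0 : 0 ≤ In := l9s_int_nonneg (hL none).isMs hw
  have hn0 : (0 : ℝ) ≤ 1 / (n : ℝ) := by positivity
  have a1 := hS _ _ _ (hL (some js)) (htop _) M0 sg (hI _ (Or.inr rfl)).2
  have a2 := hS _ _ _ (hL none) (htop _) M0 sg (hI _ (Or.inl rfl)).2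
  have b1 := hW _ _ _ (hL (some js)) (htop _) M0 sg (hI _ (Or.inr rfl)).1 w hw
  have b2 := hW _ _ _ (hL none) (htop _) M0 sg (hI _ (Or.inl rfl)).1 w hw
  have c1 := hZ _ _ _ (hL (some js)) (htop _) w hw
  have c2 := hZ _ _ _ (hL none) (htop _) w hw
  have c1' : (llJs n a (P θ) (some js)).errW0 w / n ≤ CZ * In * (1 / (n : ℝ)) := by
    rw [div_eq_mul_one_div]
    exact mul_le_mul_of_nonneg_right c1 hn0
  have c2' : (llJs n a (P θ) none).errW0 w / n ≤ CZ * In * (1 / (n : ℝ)) := by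
    rw [div_eq_mul_one_div]
    exact mul_le_mul_of_nonneg_right c2 hn0
  have hT2 : 0 ≤ Sg ^ (k + 1) := by positivity
  have hT3 : 0 ≤ In * Sg ^ k := by positivity
  have hT4 : 0 ≤ In * (1 / (n : ℝ)) := by positivity
  unfold l9sErr
  change 1 / (n : ℝ) + (llJs n a (P θ) (some js)).errS k + (llJs n a (P θ) none).errS k
      + ((llJs n a (P θ) (some js)).errW w k + (llJs n a (P θ) (some js)).errW0 w / n)
      + ((llJs n a (P θ) none).errW w k + (llJs n a (P θ) none).errW0 w / n) ≤ _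
  change _ ≤ CS * Sg ^ (k + 1) at a1
  change _ ≤ CS * Sg ^ (k + 1) at a2
  change _ ≤ CW * In * Sg ^ k at b1
  change _ ≤ CW * In * Sg ^ k at b2
  nlinarith [mul_nonneg hCS hn0, mul_nonneg hCW hn0, mul_nonneg hCZ hn0, mul_nonneg hCW hT2, mul_nonneg hCZ hT2,
    mul_nonneg hCS hT3, mul_nonneg hCZ hT3, mul_nonneg hCS hT4, mul_nonneg hCW hT4]

/-! ### 14. TRS at one instance -/

theorem l9s_dot_eq (I : L9I) (pf : ℝ → LlPt) (θ : ℝ) (ha : ∀ t', (pf t').a = (pf θ).a) (e : ℝ) :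
    l9sInt (llMs (pf θ).a (I.P (pf θ))) (I.P (pf θ)).length (l9sW I.m (pf θ).a e (fun t => I.P (pf t))
      (l9sPd (I.P (pf θ)).length (fun t => deriv (fun ϑ => skCumB (llMat (I.P (pf ϑ))) t) θ)
        (fun t => deriv (fun ϑ => skCumH (llMat (I.P (pf ϑ))) t) θ) (fun t => deriv (fun ϑ => llCumK (I.P (pf ϑ)) t) θ)) θ)
      = |e| * (pf θ).a + I.dot pf θ := by
  rw [l9s_int_W I.m (pf θ).a e (fun t => I.P (pf t)) θ _ _ _ (by simp [skCumB]) (by simp [skCumH]) (by simp [llCumK])]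
  congr 1
  unfold L9I.dot
  have hl : (I.ps (pf θ)).length = (I.P (pf θ)).length := by
    unfold L9I.P
    rw [l9s_stp_length]
  rw [hl]
  refine Finset.sum_congr rfl fun j _ => ?_
  have eq : (fun t' => (I.X0 (pf t')).qC j) = fun t' => (llJs I.m (pf θ).a (I.P (pf t')) none).qC j := by
    funext t'
    show llQs (pf t').a (I.P (pf t')) j = llQs (pf θ).a (I.P (pf t')) j
    rw [ha t']
  rw [eq]
  rfl

theorem l9s_dot_nonneg (I : L9I) (pf : ℝ → LlPt) (θ : ℝ) (ha0 : 0 < (pf θ).a) (hadm : LlStpAdm (pf θ).a (I.P (pf θ))) :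
    0 ≤ I.dot pf θ := by
  unfold L9I.dot
  have hl : (I.ps (pf θ)).length = (I.P (pf θ)).length := by
    unfold L9I.P
    rw [l9s_stp_length]
  have hms := (ll2_law_js I.m ha0 hadm none).isMs
  refine Finset.sum_nonneg fun j hj => mul_nonneg ?_ (by positivity)
  rw [← l9s_gap_eq]
  refine l9s_gap_nonneg hms ?_
  have := Finset.mem_range.mp hj
  show j ≤ (I.P (pf θ)).length
  omega

/-- **TRS at one instance**: the combination (I) is `O`(E1) up to contacts, `k + 1` small insertions, and `k` small insertions against the dotted norms -/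
theorem l9s_inst (hA9 : L02RowDeriv llJs llMv) (hSz : L02SizeIncr llJs llMv) (hSc : L02ScDiff) (k r : ℕ) (M0 : ℝ) :
    ∃ C : ℝ, 0 ≤ C ∧ ∀ c : ℕ → ℝ, SkStencil r c → 1 ≤ k → k ≤ r →
      ∀ (I : L9I) (pf : ℝ → LlPt) (e θ sg : ℝ), 1 ≤ I.m → (∀ t', (pf t').a = (pf θ).a) → 1 ≤ (pf θ).a → (pf θ).a ≤ 4 →
      (∀ᶠ t' in nhds θ, LlStpAdm (pf t').a (I.P (pf t')) ∧ LlTiltOk (I.P (pf t')) (some (I.js (pf t')))) →
      I.Dif pf θ → LlBd M0 (I.P (pf θ)) →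
      (∀ t, (I.X0 (pf θ)).bC t * (I.X0 (pf θ)).qC t ^ 2 ≤ (I.X0 (pf θ)).bC (t + 1) * (I.X0 (pf θ)).qC (t + 1) ^ 2) →
      (∀ en, L9sIns (I.X en (pf θ)) k M0 sg ∧ L9sIns (I.X en (pf θ)) (k + 1) M0 sg) →
      |deriv (fun t => I.psi (pf t) I.m) θ + ∑ j ∈ Finset.range (r + 1), c j * (((I.m + j : ℕ) : ℝ) * I.psi (pf θ) (I.m + j))
          - I.DOE1 pf 1 e k θ|
        ≤ (1 + ∑ j ∈ Finset.range (r + 1), |c j|) * (C * (1 / (I.m : ℝ) + (4 * (1 + M0) * sg) ^ (k + 1)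
            + (|e| * (pf θ).a + I.dot pf θ) * ((4 * (1 + M0) * sg) ^ k + 1 / (I.m : ℝ)))) := by
  rcases Nat.eq_zero_or_pos k with rfl | hk
  · exact ⟨0, le_rfl, fun c _ h => absurd h (by norm_num)⟩
  obtain ⟨C0, hC0, hcore⟩ := l9s_a9sz hA9 hSz k r M0
  obtain ⟨C1, hC1, herr⟩ := l9s_err_le k hk
  refine ⟨C0 * C1, by positivity, fun c hc hk1 hkr I pf e θ sg hm ha ha1 ha4 hev hDif hBd hmono hIns => ?_⟩
  have ha0 : 0 < (pf θ).a := by linarith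
  set U : Set ℝ := {t' | LlStpAdm (pf t').a (I.P (pf t')) ∧ LlTiltOk (I.P (pf t')) (some (I.js (pf t')))} with hUd
  have hU : U ∈ nhds θ := hev
  have hθU : θ ∈ U := mem_of_mem_nhds hU
  have hadm : ∀ ϑ ∈ U, LlStpAdm (pf θ).a (I.P (pf ϑ)) := fun ϑ h => by
    have := h.1
    rwa [ha ϑ] at this
  have htl : ∀ ϑ ∈ U, LlTiltOk (I.P (pf ϑ)) (some (I.js (pf θ))) := fun ϑ h => by
    have := h.2
    rwa [l9s_js I pf θ ha ϑ] at this
  have hFam := l9s_fam (P := fun t => I.P (pf t)) hθU hadm (l9s_mass I pf θ ha) (fun t => (hDif t).1) (fun t => (hDif t).2.1)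
    (fun t => (hDif t).2.2)
  have hK := l9s_difK hSc I pf θ ha ha1 ha4 hU hFam
  have hE := l9e_e1x I pf 1 e hk1 θ ha ha0 (hev.mono fun t' h => h.1) hDif hK
  have h1 := hcore c hc hk1 hkr I.m (pf θ).a e U θ (fun t => I.P (pf t)) _ (I.js (pf θ)) hm ha1 ha4 hU hFam hBd htl hmono
  have h2 := herr I.m (pf θ).a e (fun t => I.P (pf t)) (l9sPd (I.P (pf θ)).length (fun t => deriv (fun ϑ => skCumB (llMat (I.P (pf ϑ))) t) θ)
      (fun t => deriv (fun ϑ => skCumH (llMat (I.P (pf ϑ))) t) θ) (fun t => deriv (fun ϑ => llCumK (I.P (pf ϑ)) t) θ))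
    (I.js (pf θ)) θ M0 sg ha0 ha4 (hadm θ hθU) (by
    rintro tl (rfl | rfl)
    · exact hIns false
    · exact hIns true)
  rw [l9s_dot_eq I pf θ ha e] at h2
  have e1 : (fun t => I.psi (pf t) I.m) = fun t => llPsi llMv I.m (pf θ).a (I.js (pf θ)) (I.P (pf t)) := by
    funext t
    rw [l9s_psi_eq, ha t, l9s_js I pf θ ha t]
  have e2 : I.DOE1 pf 1 e k θ = l9sOF I.m (pf θ).a e (fun t => I.P (pf t)) k (some (I.js (pf θ))) θ
      - l9sOF I.m (pf θ).a e (fun t => I.P (pf t)) k none θ := by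
    rw [← hE]
    unfold L9I.DOF
    rw [l9s_OF_eq I pf θ ha, l9s_OF_eq I pf θ ha]
    rfl
  rw [e1, e2]
  refine h1.trans ?_
  have hs : 0 ≤ 1 + ∑ j ∈ Finset.range (r + 1), |c j| := by positivity
  refine mul_le_mul_of_nonneg_left ?_ hs
  rw [mul_assoc]
  exact mul_le_mul_of_nonneg_left h2 hC0

/-! ### 15. the node -/

/-- **IMPORT (LL08) = (D11) in the vocabulary of the trees**: all moments of `Δ = msk Q - q` at a pair which shares `t ≤ n` stages, both ensembles (the tilted one on the stop).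
TEX[LL:prop:statistics-size-accuracy] -/
def L9D11 (𝔹 : LlBase) (δ : ℝ) (F : LlFix) : Prop :=
  ∀ εs qs : ℝ, 0 < εs → 0 < qs → ∀ k : ℕ, ∃ (C : ℝ) (N0 : ℕ),
    L8Ev F 𝔹 N0 l8Siz fun I => ∀ tl : Bool, (tl = true → I.s = qs * I.x ^ (1 + εs) ∧ I.Stop (I.x ^ εs)) →
      ∀ t ≤ I.n, l9sMom (I.X tl) k t ≤ (C * I.x ^ δ) ^ k

/-- **IMPORT (LL03 + fine chains)**: the fine path of a point of the smoothed size segment -/
def L9SizOk (𝔹 : LlBase) (δ : ℝ) (F : LlFix) : Prop :=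
  ∃ (M0 : ℝ) (N0 : ℕ), L8Ev F 𝔹 N0 l8Siz fun I =>
    LlStpAdm I.a I.LP ∧ LlTiltOk I.LP (some I.js) ∧ LlBd M0 I.LP ∧
    (∀ t, I.bC t * I.q t ^ 2 ≤ I.bC (t + 1) * I.q (t + 1) ^ 2) ∧ ∀ t ≤ I.n, |I.d t| ≤ M0 * I.x ^ δ

/-- the node **TRS** of `L09/Contract.lean` at the interior parameters -/
def L9TRSo (𝔹 : LlBase) (J0 : ℕ) (F : LlFix) : Prop :=
  ∃ c0 : ℝ, 0 < c0 ∧ ∃ ε0 : ℝ, 0 < ε0 ∧ ∀ ε : ℝ, 0 < ε → ε < ε0 → ∀ q : ℝ, 0 < q → ∃ r0 : ℕ, ∀ r : ℕ, r0 ≤ r → ∀ c : ℕ → ℝ, SkStencil r c →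
    ∃ (C : ℝ) (N0 : ℕ), ∀ N : ℕ, N0 ≤ N → ∀ᶠ Fs : Finset GhPos in atTop,
    ∀ m : ℕ, N ≤ 2 * m → m + r ≤ 3 * N → ∀ (γ : Fin (N + 1) → ℝ) (θ : ℝ), θ ∈ Ioo (0 : ℝ) (Real.log 2) →
      (⟨F, 𝔹, q * skX N ^ (1 + ε), Fs, m⟩ : L9I).Dif (l9PtS F N γ) θ →
      (∀ j ∈ Finset.range (r + 1),
        q * skX N ^ (1 + ε) * ((m + j : ℕ) : ℝ) * (⟨F, 𝔹, q * skX N ^ (1 + ε), Fs, m⟩ : L9I).psi (l9PtS F N γ θ) (m + j) ≤ 4 * skX N ^ ε) →
      |deriv (fun t => (⟨F, 𝔹, q * skX N ^ (1 + ε), Fs, m⟩ : L9I).psi (l9PtS F N γ t) m) θ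
          + ∑ j ∈ Finset.range (r + 1), c j * (((m + j : ℕ) : ℝ) * (⟨F, 𝔹, q * skX N ^ (1 + ε), Fs, m⟩ : L9I).psi (l9PtS F N γ θ) (m + j))
          - (⟨F, 𝔹, q * skX N ^ (1 + ε), Fs, m⟩ : L9I).DOE1 (l9PtS F N γ) 1 (1 / 6) J0 θ|
        ≤ C * skX N ^ (5 + c0) * (1 + (⟨F, 𝔹, q * skX N ^ (1 + ε), Fs, m⟩ : L9I).dot (l9PtS F N γ) θ)

theorem l9s_small (ε q : ℝ) (hε : 0 < ε) (hq : 0 < q) : ∃ N0 : ℕ, ∀ N : ℕ, N0 ≤ N → q * skX N ^ ε < 1 := by
  have hlim : Tendsto (fun N : ℕ => skX N ^ ε) atTop (nhds 0) := by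
    have h1 : Tendsto (fun N : ℕ => (N : ℝ) ^ (-(ε / 6))) atTop (nhds 0) :=
      (tendsto_rpow_neg_atTop (by positivity : 0 < ε / 6)).comp tendsto_natCast_atTop_atTop
    refine h1.congr fun N => ?_
    unfold skX
    rw [← Real.rpow_mul (Nat.cast_nonneg N)]
    congr 1
    ring
  obtain ⟨N0, hN0⟩ := eventually_atTop.1 (hlim.eventually (gt_mem_nhds (show 0 < 1 / q by positivity)))
  refine ⟨N0, fun N hN => ?_⟩
  have := hN0 N hN
  rw [lt_div_iff₀ hq] at this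
  linarith

theorem l9s_ptS_a (F : LlFix) (N : ℕ) (γ : Fin (N + 1) → ℝ) (θ : ℝ) : (l9PtS F N γ θ).a = 4 := by
  simp [l9PtS, ll04Pt, LlPt.a]

/-- the instance of LL 08 at a point of the size segment is in the range of the exits -/
theorem l9s_in_ok (𝔹 : LlBase) (F : LlFix) (hp : F.pS ≤ 12) {N : ℕ} (hN : 2 ≤ N) {m : ℕ} (hm1 : N ≤ 2 * m) (hm2 : m ≤ 3 * N)
    {s : ℝ} (hs0 : 0 < s) (hs1 : s < skX N) (Fs : Finset GhPos) (γ : Fin (N + 1) → ℝ) {θ : ℝ} (hθ : θ ∈ Icc (0 : ℝ) (Real.log 2)) :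
    (L8In.mk F 𝔹 (l9PtS F N γ θ) m s Fs).Ok := by
  have h := ll04w_ok F hp hN (Θ := Real.log 2) ⟨Real.log_nonneg (by norm_num), le_rfl⟩ γ θ
  have e : ll04Siz F N (Real.log 2) γ θ = l9PtS F N γ θ := by
    unfold ll04Siz l9PtS
    rw [ll04w_U_of_mem hθ]
  rw [e] at h
  exact ⟨h, hm1, hm2, hs0, hs1⟩

/-- the numerical end of TRS -/
theorem l9s_num {x δ A D im : ℝ} {J0 : ℕ} (hx : 0 < x) (hx1 : x ≤ 1) (hδ : 0 < δ) (hJ : 6 ≤ (J0 : ℝ) * δ) (hA : 0 ≤ A) (hD : 0 ≤ D)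
    (him0 : 0 ≤ im) (him : im ≤ 2 * x ^ 6) :
    im + (A * x ^ δ) ^ (J0 + 1) + (|(1 / 6 : ℝ)| * 4 + D) * ((A * x ^ δ) ^ J0 + im)
      ≤ (4 + A ^ (J0 + 1) + A ^ J0) * x ^ ((5 : ℝ) + 1) * (1 + D) := by
  have e6 : x ^ ((5 : ℝ) + 1) = x ^ 6 := by
    rw [show (5 : ℝ) + 1 = ((6 : ℕ) : ℝ) by norm_num, Real.rpow_natCast]
  have h6 : (0 : ℝ) ≤ x ^ 6 := by positivity
  have p1 : (x ^ δ) ^ J0 ≤ x ^ 6 := by
    have := l9t_num_pow (x := x) (del := δ) (Kp := 6) (k := J0) hx hx1 hJ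
    rwa [show (6 : ℝ) = ((6 : ℕ) : ℝ) by norm_num, Real.rpow_natCast] at this
  have hxd0 : 0 ≤ x ^ δ := (Real.rpow_pos_of_pos hx _).le
  have hxd1 : x ^ δ ≤ 1 := Real.rpow_le_one hx.le hx1 hδ.le
  have p2 : (x ^ δ) ^ (J0 + 1) ≤ x ^ 6 := by
    rw [pow_succ]
    calc (x ^ δ) ^ J0 * x ^ δ ≤ (x ^ δ) ^ J0 * 1 := mul_le_mul_of_nonneg_left hxd1 (by positivity)
      _ ≤ x ^ 6 := by rw [mul_one]; exact p1
  have q1 : (A * x ^ δ) ^ J0 ≤ A ^ J0 * x ^ 6 := by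
    rw [mul_pow]
    exact mul_le_mul_of_nonneg_left p1 (by positivity)
  have q2 : (A * x ^ δ) ^ (J0 + 1) ≤ A ^ (J0 + 1) * x ^ 6 := by
    rw [mul_pow]
    exact mul_le_mul_of_nonneg_left p2 (by positivity)
  have he : |(1 / 6 : ℝ)| * 4 ≤ 1 := by
    rw [abs_of_nonneg (by norm_num)]
    norm_num
  have hA1 : 0 ≤ A ^ J0 := by positivity
  have hA2 : 0 ≤ A ^ (J0 + 1) := by positivity
  have q0 : 0 ≤ (A * x ^ δ) ^ J0 := by positivity
  rw [e6]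
  have s1 : (|(1 / 6 : ℝ)| * 4 + D) * ((A * x ^ δ) ^ J0 + im) ≤ (1 + D) * (A ^ J0 * x ^ 6 + 2 * x ^ 6) :=
    mul_le_mul (by linarith) (by linarith) (by positivity) (by positivity)
  nlinarith [mul_nonneg hD h6, mul_nonneg (mul_nonneg hA2 h6) hD, mul_nonneg hA1 h6, mul_nonneg hA2 h6]

/-- **NODE TRS** (09 l.226-251), interior parameters.      `δ` = the exponent of (D11); `J0 δ ≥ 6`. -/
theorem l9s_trs (𝔹 : LlBase) (F : LlFix) (hp : F.pS ≤ 12) (J0 : ℕ) (δ : ℝ) (hδ : 0 < δ) (hJ : 6 ≤ (J0 : ℝ) * δ)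
    (hA9 : L02RowDeriv llJs llMv) (hSz : L02SizeIncr llJs llMv) (hSc : L02ScDiff)
    (hOk : L9SizOk 𝔹 δ F) (hD : L9D11 𝔹 δ F) : L9TRSo 𝔹 J0 F := by
  obtain ⟨M0, N1, hOk⟩ := hOk
  have hJ1 : 1 ≤ J0 := by
    rcases Nat.eq_zero_or_pos J0 with h | h
    · subst h
      norm_num at hJ
    · exact h
  refine ⟨1, one_pos, 1, one_pos, fun ε hε _ q hq => ⟨J0, fun r hr c hc => ?_⟩⟩
  obtain ⟨C1, N2, hD1⟩ := hD ε q hε hq J0
  obtain ⟨C2, N3, hD2⟩ := hD ε q hε hq (J0 + 1)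
  obtain ⟨C0, hC0, hI⟩ := l9s_inst hA9 hSz hSc J0 r M0
  obtain ⟨N4, hN4⟩ := l9s_small ε q hε hq
  refine ⟨(1 + ∑ j ∈ Finset.range (r + 1), |c j|) * C0 * (4 + (4 * (1 + M0) * (|C1| + |C2| + M0 + 1)) ^ (J0 + 1)
    + (4 * (1 + M0) * (|C1| + |C2| + M0 + 1)) ^ J0), N1 + N2 + N3 + N4 + 2, fun N hN => ?_⟩
  filter_upwards [hOk N (q * skX N ^ (1 + ε)) (by omega), hD1 N (q * skX N ^ (1 + ε)) (by omega),
    hD2 N (q * skX N ^ (1 + ε)) (by omega)] with Fs h1 h2 h3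
  intro m hm1 hm2 γ θ hθ hDif hstop
  have hN0 : 0 < N := by omega
  have hx := l9t_skX_pos hN0
  have hx1 := l9t_skX_le_one hN0
  have hs0 : 0 < q * skX N ^ (1 + ε) := by positivity
  have hs1 : q * skX N ^ (1 + ε) < skX N := by
    rw [Real.rpow_add hx, Real.rpow_one]
    have := hN4 N (by omega)
    nlinarith
  set s := q * skX N ^ (1 + ε) with hs
  have hm0 : 1 ≤ m := by omega
  have hin : ∀ θ' ∈ Icc (0 : ℝ) (Real.log 2), (L8In.mk F 𝔹 (l9PtS F N γ θ') m s Fs).Ok := fun θ' hθ' =>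
    l9s_in_ok 𝔹 F hp (by omega) hm1 (by omega) hs0 hs1 Fs γ hθ'
  have hθI : θ ∈ Icc (0 : ℝ) (Real.log 2) := Ioo_subset_Icc_self hθ
  have g1 : ∀ θ' ∈ Icc (0 : ℝ) (Real.log 2), _ := fun θ' hθ' =>
    h1 (Real.exp (θ' / 6)) (skX N ^ F.pS) 1 0 true γ m ⟨rfl, rfl⟩ (hin θ' hθ')
  obtain ⟨hadm, htl, hBd, hmono, hd⟩ := g1 θ hθI
  have g2 := h2 (Real.exp (θ / 6)) (skX N ^ F.pS) 1 0 true γ m ⟨rfl, rfl⟩ (hin θ hθI)
  have g3 := h3 (Real.exp (θ / 6)) (skX N ^ F.pS) 1 0 true γ m ⟨rfl, rfl⟩ (hin θ hθI)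
  have hst : ∀ tl : Bool, tl = true → (L8In.mk F 𝔹 (l9PtS F N γ θ) m s Fs).s = q * (L8In.mk F 𝔹 (l9PtS F N γ θ) m s Fs).x ^ (1 + ε) ∧
      (L8In.mk F 𝔹 (l9PtS F N γ θ) m s Fs).Stop ((L8In.mk F 𝔹 (l9PtS F N γ θ) m s Fs).x ^ ε) := fun _ _ =>
    ⟨rfl, by
      show s * (m : ℝ) * (⟨F, 𝔹, s, Fs, m⟩ : L9I).psi (l9PtS F N γ θ) m ≤ 4 * skX N ^ ε
      simpa using hstop 0 (by simp)⟩
  have hM0 : 0 ≤ M0 := by
    have := (hBd 0).1
    simpa [skCumB] using this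
  have ha : ∀ t', (l9PtS F N γ t').a = (l9PtS F N γ θ).a := fun t' => by rw [l9s_ptS_a, l9s_ptS_a]
  have hxd : 0 < skX N ^ δ := Real.rpow_pos_of_pos hx _
  set sg : ℝ := (|C1| + |C2| + M0 + 1) * skX N ^ δ with hsg
  have hsg0 : 0 < sg := by positivity
  have hmomle : ∀ (C : ℝ) (k : ℕ), |C| ≤ |C1| + |C2| + M0 + 1 → (C * skX N ^ δ) ^ k ≤ sg ^ k := by
    intro C k hC
    calc (C * skX N ^ δ) ^ k ≤ |(C * skX N ^ δ) ^ k| := le_abs_self _
      _ = (|C| * skX N ^ δ) ^ k := by rw [abs_pow, abs_mul, abs_of_pos hxd]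
      _ ≤ sg ^ k := pow_le_pow_left₀ (by positivity) (mul_le_mul_of_nonneg_right hC hxd.le) k
  have hIns : ∀ en : Bool, L9sIns ((⟨F, 𝔹, s, Fs, m⟩ : L9I).X en (l9PtS F N γ θ)) J0 M0 sg ∧
      L9sIns ((⟨F, 𝔹, s, Fs, m⟩ : L9I).X en (l9PtS F N γ θ)) (J0 + 1) M0 sg := by
    intro en
    have hb : ∀ t ≤ ((⟨F, 𝔹, s, Fs, m⟩ : L9I).X en (l9PtS F N γ θ)).N, |((⟨F, 𝔹, s, Fs, m⟩ : L9I).X en (l9PtS F N γ θ)).bC t| ≤ M0 := by
      intro t _
      exact abs_le.mpr ⟨le_trans (neg_nonpos.mpr hM0) (l9s_cumB_nonneg hadm.1 t), (hBd t).1⟩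
    have hdl : ∀ t ≤ ((⟨F, 𝔹, s, Fs, m⟩ : L9I).X en (l9PtS F N γ θ)).N, |((⟨F, 𝔹, s, Fs, m⟩ : L9I).X en (l9PtS F N γ θ)).dC t| ≤ sg := by
      intro t ht
      refine (hd t ht).trans (mul_le_mul_of_nonneg_right ?_ hxd.le)
      have := abs_nonneg C1
      have := abs_nonneg C2
      linarith
    refine ⟨⟨hM0, hsg0, hb, hdl, fun t ht => ?_⟩, ⟨hM0, hsg0, hb, hdl, fun t ht => ?_⟩⟩
    · refine (g2 en (hst en) t ht).trans (hmomle C1 J0 ?_)
      have := abs_nonneg C2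
      linarith
    · refine (g3 en (hst en) t ht).trans (hmomle C2 (J0 + 1) ?_)
      have := abs_nonneg C1
      linarith
  have hev : ∀ᶠ t' in nhds θ, LlStpAdm (l9PtS F N γ t').a ((⟨F, 𝔹, s, Fs, m⟩ : L9I).P (l9PtS F N γ t')) ∧
      LlTiltOk ((⟨F, 𝔹, s, Fs, m⟩ : L9I).P (l9PtS F N γ t')) (some ((⟨F, 𝔹, s, Fs, m⟩ : L9I).js (l9PtS F N γ t'))) := by
    filter_upwards [Ioo_mem_nhds hθ.1 hθ.2] with t' ht'
    obtain ⟨k1, k2, -⟩ := g1 t' (Ioo_subset_Icc_self ht')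
    exact ⟨k1, k2⟩
  have key := hI c hc hJ1 hr ⟨F, 𝔹, s, Fs, m⟩ (l9PtS F N γ) (1 / 6) θ sg hm0 ha (by rw [l9s_ptS_a]; norm_num)
    (by rw [l9s_ptS_a]) hev hDif hBd hmono hIns
  refine key.trans ?_
  have hdot : 0 ≤ (⟨F, 𝔹, s, Fs, m⟩ : L9I).dot (l9PtS F N γ) θ :=
    l9s_dot_nonneg _ _ θ (by rw [l9s_ptS_a]; norm_num) hadm
  have hnum := l9s_num (x := skX N) (δ := δ) (A := 4 * (1 + M0) * (|C1| + |C2| + M0 + 1))
    (D := (⟨F, 𝔹, s, Fs, m⟩ : L9I).dot (l9PtS F N γ) θ) (im := 1 / (m : ℝ)) (J0 := J0) hx hx1 hδ hJ (by positivity) hdot (by positivity)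
    (by rw [one_div]; exact l9t_num_contact hN0 hm1)
  have e4 : 4 * (1 + M0) * sg = 4 * (1 + M0) * (|C1| + |C2| + M0 + 1) * skX N ^ δ := by rw [hsg]; ring
  rw [e4, l9s_ptS_a]
  have hs' : 0 ≤ 1 + ∑ j ∈ Finset.range (r + 1), |c j| := by positivity
  calc _ ≤ (1 + ∑ j ∈ Finset.range (r + 1), |c j|) * (C0 * ((4 + (4 * (1 + M0) * (|C1| + |C2| + M0 + 1)) ^ (J0 + 1)
        + (4 * (1 + M0) * (|C1| + |C2| + M0 + 1)) ^ J0) * skX N ^ ((5 : ℝ) + 1)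
          * (1 + (⟨F, 𝔹, s, Fs, m⟩ : L9I).dot (l9PtS F N γ) θ))) :=
        mul_le_mul_of_nonneg_left (mul_le_mul_of_nonneg_left hnum hC0) hs'
    _ = _ := by ring

theorem l9s_fin_eqns_cite : True := by
  have := @l9sPd.eq_1
  have := @L02ScDiff.eq_1
  have := @L9D11.eq_1
  have := @L9SizOk.eq_1
  have := @L9TRSo.eq_1
  have := @l9eDet.eq_1
  have := @l9eMain.eq_1
  have := @l9eOE1.eq_1
  have := @L9I.DifK.eq_1
  have := @l9sInt.eq_1
  have := @l9sMom.eq_1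
  have := @l9sW.eq_1
  have := @l9sOF.eq_1
  have := @l9sErr.eq_1
  trivial

end Claimed.Agent.R286
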