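import Claimed.Agent.R286.L09.RedInst
import Claimed.Agent.R286.L09.TrsFin

/-!
# Row 286 (S0533), unit L09, node RED, file RedSup: LL 08 AT THE POINTS OF SEC. 9 = PRODUCER OF `L9cSupD`, `L9cSupS`      (owner helper153; prefix `l9rs`)

`L09/RedC.lean` (282) consumes `Q.Sup Mj A vt K Cs e` at the points `Q : L9Q`.      This file produces it from the exits of LL 08 (`L8xDir`, `L8xLow`: shape `L8Ev`, instances `I : L8In`), `L8gFine`, DIC (`L09/RedInst.lean`) and CC.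
* `Q.i8 : L8In`            the instance of LL 08 at the point `Q` (`Q.i8.X en = Q.X en`, `Q.i8.n = Q.N` by `rfl`; `l9rs_v : Q.i8.v = Q.ms`);
* `I.Both e A Y Zh vt vp cE pm jm`   `= I.All` with the premises of the tilted half discharged (tilt mass, stop);
* `Q.Sup8 Mj A vt e`       the fields of `Q.Sup` but `cc`;
* `l9rs_sup8`              POINTWISE: `I.Ok + I.Fine η + I.Both ⟹ Q.Sup8 Mj A' (min vt vp) e` for `3 A ≤ A'`, `1 ≤ A'`;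
* `l9rs_bothD`, `l9rs_bothS`   SHAPE: `L8xDir / L8xLow + L8gFine ⟹` (`L9SbD / L9SbS`: `Ok ∧ Fine (x^Km) ∧ ∃ e, Both ..`): the transfer `L8Ev → L9Sb*` for ALL the consumers of LL 08 in Sec. 9;
* `L9cCCD`, `L9cCCS`       the contract of CC (Lemma 9.1 on tables) in the pattern "for every source constant";      `l9rs_supD`, `l9rs_supS` : the producers.
-/

set_option autoImplicit false

namespace Claimed.Agent.R286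

open Filter Set

noncomputable section

/-! ## 1. dictionary -/

/-- the instance of LL 08 at a point of Sec. 9 -/
def L9Q.i8 (Q : L9Q) : L8In := ⟨Q.I.F, Q.I.𝔹, Q.p, Q.I.m, Q.I.s, Q.I.Fs⟩

theorem l9rs_v (Q : L9Q) : Q.i8.v = Q.ms := by
  funext k
  show skMs Q.p.a (llMat (Q.I.P Q.p)) k = llMs Q.p.a (Q.I.P Q.p) k
  unfold skMs llMs
  rw [show (llMat (Q.I.P Q.p)).map SkInc.m = (Q.I.P Q.p).map LlInc.m from ll2_mv_mass none _, List.getD_eq_getElem?_getD]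

theorem l9rs_mc (Q : L9Q) (c : ℕ) : trPm Q.i8.v c = Q.mc c := by rw [l9rs_v]; rfl

theorem l9rs_dv (Q : L9Q) (k : ℕ) : Q.i8.dv k = l9rMu Q.ms k := by
  rw [← l9rs_v]
  rfl

/-- LL 08 at one instance, both ensembles -/
structure L8In.Both (I : L8In) (e : ℕ → ℝ) (A Y Zh vt vp cE : ℝ) (pm jm : ℕ) : Prop where
  env : I.Env e A Y vt cE
  num : I.Num A Y Zh vt
  rnd : ∀ tl, I.Rnd tl e A Y Zh vt vp pm jm

theorem L8In.All.both {I : L8In} {e : ℕ → ℝ} {A Y Zh vt vp cE εs qs : ℝ} {pm jm : ℕ} (h : I.All e A Y Zh vt vp cE εs qs pm jm)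
    (hs : I.s = qs * I.x ^ (1 + εs)) (hst : I.Stop (I.x ^ εs)) : I.Both e A Y Zh vt vp cE pm jm :=
  ⟨h.env, h.num, fun tl => by cases tl with
    | false => exact h.unt
    | true => exact h.til hs hst⟩

/-- the fields of `L9Q.Sup` which come from LL 08 and DIC -/
structure L9Q.Sup8 (Q : L9Q) (Mj : L9Mj) (A vt : ℝ) (e : ℕ → ℝ) : Prop where
  z1 : 1 ≤ Q.Zc Mj
  e_nn : ∀ v, v ≤ Q.N → 0 ≤ e v
  e_le : ∀ v, v ≤ Q.N → Q.ms v ≤ vt → e v ≤ A * max (Q.ms v) (Q.Y Mj)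
  d_le : ∀ v, v ≤ Q.N → Q.ms v ≤ vt → Q.dA v ≤ A * Q.lam * max (Q.ms v) (Q.Y Mj) ^ 2 * e v
  d2 : ∀ en v, v ≤ Q.N → Q.ms v ≤ vt → L9rEnv (Q.X en) 4 v (A * e v)
  p87 : ∀ en v c, v ≤ c → c ≤ Q.N + 1 → 8 * Q.ms v ≤ Q.mc c → Q.Y Mj ≤ Q.mc c → Q.mc c ≤ vt →
    L9rChg (Q.X en) 4 v c (A * (Q.z0 (Q.mc c) * Q.mc c))

/-! ## 2. one point -/

/-- the loss is nonnegative -/
theorem l9rs_A_nonneg (I : L8In) (hok : I.Ok) {η : ℝ} (hf : I.Fine η) {e : ℕ → ℝ} {A Y vt cE : ℝ} (henv : I.Env e A Y vt cE) (hs : I.s ≤ vt) :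
    0 ≤ A := by
  have hx : 0 < I.x := Real.rpow_pos_of_pos (by have := hok.pt.N2; exact_mod_cast (by omega : 0 < I.p.N)) _
  have h1 : 0 < e I.js := (Real.rpow_pos_of_pos hx _).trans_le (henv.lo I.js hf.js_lt.le)
  have h2 := (abs_nonneg _).trans (henv.f_le I.js hf.js_lt.le (hf.js_m ▸ hs))
  exact nonneg_of_mul_nonneg_left h2 h1

/-- **`Sup8` at one point** -/
theorem l9rs_sup8 (Q : L9Q) (Mj : L9Mj) {η A A' Zh vt vp cE : ℝ} {e : ℕ → ℝ} {pm jm : ℕ} (hok : Q.i8.Ok) (hf : Q.i8.Fine η)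
    (hB : Q.i8.Both e A (Q.Y Mj) Zh vt vp cE pm jm) (hpm : 2 ≤ pm) (h3 : 3 * A ≤ A') (h1 : 1 ≤ A') (hz1 : 1 ≤ Q.Zc Mj) (hU : 0 < Q.U)
    (hη : η ≤ Q.Y Mj) (hsY : Q.I.s ≤ Q.Y Mj) (hsv : Q.I.s ≤ vt) (hlam : 0 ≤ Q.lam) (hdA : ∀ v, Q.dA v = |Q.i8.d v| + |Q.i8.dd v|) :
    Q.Sup8 Mj A' (min vt vp) e := by
  have hA : 0 ≤ A := l9rs_A_nonneg Q.i8 hok hf hB.env hsv
  have hAA : A ≤ A' := by linarith
  have hY : 0 < Q.Y Mj := mul_pos hU (by linarith)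
  have he : ∀ v, v ≤ Q.N → 0 ≤ e v := fun v hv => (Real.rpow_nonneg (l9ri_x_nonneg Q.i8) _).trans (hB.env.lo v hv)
  have hv : ∀ k, Q.i8.v k = Q.ms k := fun k => by rw [l9rs_v]
  refine ⟨hz1, he, fun v hvN hvt => ?_, fun v hvN hvt => ?_, fun en v hvN hvt => ?_, fun en v c hvc hc h8 hYc hcv => ?_⟩
  · rcases le_total (Q.ms v) (Q.Y Mj) with h | h
    · rw [hB.env.low v hvN (by rw [hv]; exact h), max_eq_right h]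
      nlinarith
    · rw [max_eq_left h]
      have h2 := hB.env.hi v hvN (by rw [hv]; exact h)
      rw [hv] at h2
      exact h2.trans (mul_le_mul_of_nonneg_right hAA (hY.le.trans h))
  · have h2 := hB.env.d_le v hvN (by rw [hv]; exact hvt.trans (min_le_left _ _))
    rw [hv] at h2
    rw [hdA]
    refine h2.trans ?_
    have h4 : 0 ≤ Q.lam * max (Q.ms v) (Q.Y Mj) ^ 2 * e v := mul_nonneg (mul_nonneg hlam (sq_nonneg _)) (he v hvN)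
    calc A * Q.i8.lam * max (Q.ms v) (Q.Y Mj) ^ 2 * e v = A * (Q.lam * max (Q.ms v) (Q.Y Mj) ^ 2 * e v) := by
          show A * Q.lam * max (Q.ms v) (Q.Y Mj) ^ 2 * e v = _
          ring
      _ ≤ A' * (Q.lam * max (Q.ms v) (Q.Y Mj) ^ 2 * e v) := mul_le_mul_of_nonneg_right hAA h4
      _ = _ := by ring
  · have h2 := l9ri_I_d2 Q.i8 hok hf hpm hB.env hB.num hA hsY en (hB.rnd en) (v := v) hvN (by rw [hv]; exact hvt.trans (min_le_left _ _))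
    exact l9ri_env_mono h2 (mul_nonneg (by linarith) (he v hvN)) (mul_le_mul_of_nonneg_right h3 (he v hvN))
  · have h2 := l9ri_I_p87 Q.i8 hok hf hpm hY hη en (hB.rnd en) hvc hc (by rw [hv, l9rs_mc]; exact h8) (by rw [l9rs_mc]; exact hYc)
      (by rw [l9rs_mc]; exact hcv.trans (min_le_right _ _))
    rw [l9rs_mc] at h2
    have hmc : 0 ≤ Q.mc c := hY.le.trans hYc
    have hz : 0 ≤ Q.z0 (Q.mc c) * Q.mc c :=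
      mul_nonneg (div_nonneg (pow_nonneg (l9ri_x_nonneg Q.i8) _) (mul_nonneg (Real.sqrt_nonneg _) (pow_nonneg hmc _))) hmc
    refine l9ri_chg_mono h2 (by have := mul_nonneg hA hz; exact mul_nonneg (by norm_num) this) ?_
    calc 2 * (A * (Q.i8.z0 (Q.mc c) * Q.mc c)) = (2 * A) * (Q.z0 (Q.mc c) * Q.mc c) := by
          show 2 * (A * (Q.z0 (Q.mc c) * Q.mc c)) = _
          ring
      _ ≤ A' * (Q.z0 (Q.mc c) * Q.mc c) := mul_le_mul_of_nonneg_right (by linarith) hz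

/-! ## 3. the transfer `L8Ev → L9SbD, L9SbS` -/

/-- the instance of LL 08 at a point of the strength sweep is in the range of the exits -/
theorem l9rs_in_okD (𝔹 : LlBase) (F : LlFix) {N : ℕ} (hN : 2 ≤ N) {m : ℕ} (hm1 : N ≤ 2 * m) (hm2 : m ≤ 3 * N) {s : ℝ} (hs0 : 0 < s)
    (hs1 : s < skX N) (Fs : Finset GhPos) {ell : ℝ} (hell : ell ∈ Icc (1 : ℝ) ((2 : ℝ) ^ (1 / 6 : ℝ))) (γ : Fin (N + 1) → ℝ) {t : ℝ}
    (ht : t ∈ l9LamRg F N) : (L8In.mk F 𝔹 (l9PtL N ell γ t) m s Fs).Ok := by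
  have hx := (ll04w_x_mem (N := N) (by omega)).1
  have hcl : ∀ y, ll04Cl y ∈ Icc (-4 : ℝ) 4 := fun y =>
    ⟨by linarith [(ll04w_cl_mem y).1], by linarith [(ll04w_cl_mem y).2]⟩
  refine ⟨⟨hN, hell.1, hell.2, ?_, ?_, hcl _, fun h => ?_, ⟨le_rfl, zero_le_one⟩, ⟨zero_le_one, le_rfl⟩, fun h => ?_⟩, hm1, hm2, hs0, hs1⟩
  · show skX N ^ (12 : ℝ) ≤ Real.exp t
    rw [Real.rpow_def_of_pos hx]
    exact Real.exp_le_exp.2 (by linarith [ht.1])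
  · show Real.exp t ≤ skX N ^ F.pS
    rw [Real.rpow_def_of_pos hx]
    exact Real.exp_le_exp.2 (by linarith [ht.2])
  · show (if hh : h < N then ll04Cl (γ ⟨h + 1, Nat.succ_lt_succ hh⟩) else 1 / 2) ∈ Icc (-4 : ℝ) 4
    split_ifs
    · exact hcl _
    · constructor <;> norm_num
  · exact absurd h (by simp [l9PtL, ll04Pt])

/-- the class of points may be restricted -/
theorem L8Ev.restrict {F : LlFix} {𝔹 : LlBase} {N0 : ℕ} {Φ : L8In → Prop} (h : L8Ev F 𝔹 N0 (fun _ => True) Φ) (R : LlPt → Prop) :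
    L8Ev F 𝔹 N0 R Φ := by
  intro N s hN
  filter_upwards [h N s hN] with Fs hFs ell lam chiL chiE sm γ m _ hOk
  exact hFs ell lam chiL chiE sm γ m trivial hOk

/-- **TRANSFER, strength sweep**: an exit of LL 08 on the direct class, on `Y ≤ x^κ`, at the tilt `s = q x^(1+ε)` on the stop, is a statement at the points of Sec. 9 -/
theorem l9rs_sbD_of_ev {𝔹 : LlBase} {F : LlFix} (c κ : ℝ) {Φ : ℝ → L8In → Prop}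
    (H : ∀ δ : ℝ, 0 < δ → ∀ ε : ℝ, 0 < ε → ∀ q : ℝ, 0 < q → ∃ (C : ℝ) (N0 : ℕ), L8Ev F 𝔹 N0 l8Dir fun I =>
      I.Y ≤ I.x ^ κ → I.s = q * I.x ^ (1 + ε) → I.Stop (I.x ^ ε) → Φ (C * I.x ^ (-δ)) I) :
    L9SbD 𝔹 (l8Mj c) κ F fun A Q => Q.i8.Ok ∧ Φ A Q.i8 := by
  intro δ hδ ε hε q hq
  obtain ⟨C, N0, h⟩ := H δ hδ ε hε q hq
  obtain ⟨N4, hN4⟩ := l9s_small ε q hε hq
  refine ⟨C, N0 + N4 + 2, fun N hN => ?_⟩
  filter_upwards [h N (q * skX N ^ (1 + ε)) (by omega)] with Fs hFs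
  rintro m ell γ t ⟨hm1, hm2, hell, ht, -, hst, hY⟩
  have hx := l9t_skX_pos (N := N) (by omega)
  have hs0 : 0 < q * skX N ^ (1 + ε) := by positivity
  have hs1 : q * skX N ^ (1 + ε) < skX N := by
    rw [Real.rpow_add hx, Real.rpow_one]
    have := hN4 N (by omega)
    nlinarith
  have hok := l9rs_in_okD 𝔹 F (N := N) (by omega) hm1 hm2 hs0 hs1 Fs hell γ ht
  refine ⟨hok, hFs ell (Real.exp t) 0 1 false γ m ⟨rfl, rfl, rfl⟩ hok ?_ rfl hst⟩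
  have e := (l8_Z_eq _ hok.pt c).1
  show (l9PtL N ell γ t).U F * (L8In.mk F 𝔹 (l9PtL N ell γ t) m (q * skX N ^ (1 + ε)) Fs).Z ≤ skX N ^ κ
  rw [← e]
  exact hY

/-- **TRANSFER, size segment** -/
theorem l9rs_sbS_of_ev {𝔹 : LlBase} {F : LlFix} (hp : F.pS ≤ 12) {Φ : ℝ → L8In → Prop}
    (H : ∀ δ : ℝ, 0 < δ → ∀ ε : ℝ, 0 < ε → ∀ q : ℝ, 0 < q → ∃ (C : ℝ) (N0 : ℕ), L8Ev F 𝔹 N0 l8Siz fun I =>
      I.s = q * I.x ^ (1 + ε) → I.Stop (I.x ^ ε) → Φ (C * I.x ^ (-δ)) I) :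
    L9SbS 𝔹 F fun A Q => Q.i8.Ok ∧ Φ A Q.i8 := by
  intro δ hδ ε hε q hq
  obtain ⟨C, N0, h⟩ := H δ hδ ε hε q hq
  obtain ⟨N4, hN4⟩ := l9s_small ε q hε hq
  refine ⟨C, N0 + N4 + 2, fun N hN => ?_⟩
  filter_upwards [h N (q * skX N ^ (1 + ε)) (by omega)] with Fs hFs
  rintro m γ θ ⟨hm1, hm2, hθ, -, hst⟩
  have hx := l9t_skX_pos (N := N) (by omega)
  have hs0 : 0 < q * skX N ^ (1 + ε) := by positivity
  have hs1 : q * skX N ^ (1 + ε) < skX N := by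
    rw [Real.rpow_add hx, Real.rpow_one]
    have := hN4 N (by omega)
    nlinarith
  have hok := l9s_in_ok 𝔹 F hp (N := N) (by omega) hm1 hm2 hs0 hs1 Fs γ (Ioo_subset_Icc_self hθ)
  exact ⟨hok, hFs (Real.exp (θ / 6)) (skX N ^ F.pS) 1 0 true γ m ⟨rfl, rfl⟩ hok rfl hst⟩

/-- pointwise consequences, with a change of the constant -/
theorem L9SbD.map {𝔹 : LlBase} {Mj : L9Mj} {κ : ℝ} {F : LlFix} {Φ Ψ : ℝ → L9Q → Prop} (h : L9SbD 𝔹 Mj κ F Φ) (g : ℝ → ℝ)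
    (hi : ∀ (C X : ℝ) (Q : L9Q), 1 ≤ X → Φ (C * X) Q → Ψ (g C * X) Q) : L9SbD 𝔹 Mj κ F Ψ := by
  intro δ hδ ε hε q hq
  obtain ⟨C, N0, h⟩ := h δ hδ ε hε q hq
  refine ⟨g C, N0 + 1, fun N hN => ?_⟩
  filter_upwards [h N (by omega)] with Fs hFs m ell γ t hy
  exact hi C _ _ (Real.one_le_rpow_of_pos_of_le_one_of_nonpos (l9t_skX_pos (by omega)) (l9t_skX_le_one (by omega)) (by linarith))
    (hFs m ell γ t hy)

theorem L9SbS.map {𝔹 : LlBase} {F : LlFix} {Φ Ψ : ℝ → L9Q → Prop} (h : L9SbS 𝔹 F Φ) (g : ℝ → ℝ)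
    (hi : ∀ (C X : ℝ) (Q : L9Q), 1 ≤ X → Φ (C * X) Q → Ψ (g C * X) Q) : L9SbS 𝔹 F Ψ := by
  intro δ hδ ε hε q hq
  obtain ⟨C, N0, h⟩ := h δ hδ ε hε q hq
  refine ⟨g C, N0 + 1, fun N hN => ?_⟩
  filter_upwards [h N (by omega)] with Fs hFs m γ θ hy
  exact hi C _ _ (Real.one_le_rpow_of_pos_of_le_one_of_nonpos (l9t_skX_pos (by omega)) (l9t_skX_le_one (by omega)) (by linarith))
    (hFs m γ θ hy)

/-- **LL 08 at the points of the strength sweep** -/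
theorem l9rs_bothD {𝔹 : LlBase} {T : ℝ} (hdir : L8xDir 𝔹 T) (hfine : L8gFine 𝔹 T) {F0 : LlFix} (hF : L8Fix 𝔹 T F0) (pB : LLParB) {pS : ℝ}
    (h0 : 0 < pS) (h1 : pS ≤ 1) (c : ℝ) :
    ∃ C0 δ0 v0 cE : ℝ, 1 ≤ C0 ∧ 0 < δ0 ∧ 0 < v0 ∧ 0 < cE ∧ ∀ κ : ℝ, 0 < κ → ∀ (pm jm : ℕ) (Km δ' : ℝ), 0 < δ' → δ' ≤ δ0 →
      L9SbD 𝔹 (l8Mj c) κ (F0.wExp pB.sStar pB.eta pS) fun A Q =>
        Q.i8.Ok ∧ Q.i8.Fine (Q.x ^ Km) ∧ ∃ e, Q.i8.Both e A Q.i8.Y Q.i8.Z Q.i8.a v0 cE pm jm ∧ Q.i8.D8 e A C0 δ' := by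
  obtain ⟨C0, δ0, v0, cE, hC0, hδ0, hv0, hcE, hd⟩ := hdir F0 hF pB pS h0 h1
  refine ⟨C0, δ0, v0, cE, hC0, hδ0, hv0, hcE, fun κ hκ pm jm Km δ' hδ' hδ'' => ?_⟩
  refine l9rs_sbD_of_ev c κ (Φ := fun A I => I.Fine (I.x ^ Km) ∧ ∃ e, I.Both e A I.Y I.Z I.a v0 cE pm jm ∧ I.D8 e A C0 δ') ?_
  intro δ hδ ε hε q hq
  obtain ⟨C, N0, h⟩ := hd κ ε q hκ hε hq pm jm δ δ' hδ hδ' hδ''
  obtain ⟨N1, hf⟩ := hfine F0 hF pB pS h0 h1 (fun N => ((N : ℝ) ^ (-(1 / 6) : ℝ)) ^ Km)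
    (fun N hN => Real.rpow_pos_of_pos (Real.rpow_pos_of_pos (by exact_mod_cast (by omega : 0 < N)) _) _)
  refine ⟨C, max N0 N1, L8Ev.mono (h.and (hf.restrict l8Dir)) le_rfl ?_⟩
  rintro I - ⟨h2, h3⟩ hY hs hst
  obtain ⟨e, hA, h8⟩ := h2 hY
  exact ⟨h3, e, hA.both hs hst, h8.1⟩

/-- **LL 08 (low-region variant) at the points of the size segment** -/
theorem l9rs_bothS {𝔹 : LlBase} {T : ℝ} (hlow : L8xLow 𝔹 T) (hfine : L8gFine 𝔹 T) {F0 : LlFix} (hF : L8Fix 𝔹 T F0) (pB : LLParB)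
    (hSt : LlcStB 𝔹 F0 pB) :
    ∃ p0 cE : ℝ, 0 < p0 ∧ 0 < cE ∧ ∀ pS : ℝ, 0 < pS → pS ≤ p0 → pS ≤ 1 → ∃ v0 v1 : ℝ, 0 < v0 ∧ 0 < v1 ∧ ∀ (pm jm : ℕ) (Km : ℝ),
      L9SbS 𝔹 (F0.wExp pB.sStar pB.eta pS) fun A Q =>
        Q.i8.Ok ∧ Q.i8.Fine (Q.x ^ Km) ∧ 1 ≤ Q.i8.Zc llDStar ∧ ∃ e, Q.i8.Both e A (Q.i8.Yc llDStar) 1 v0 v1 cE pm jm := by
  obtain ⟨p0, cE, hp0, hcE, hd⟩ := hlow F0 hF pB hSt
  refine ⟨p0, cE, hp0, hcE, fun pS h0 h1 h1' => ?_⟩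
  obtain ⟨v0, v1, hv0, hv1, hd⟩ := hd pS h0 h1
  refine ⟨v0, v1, hv0, hv1, fun pm jm Km => ?_⟩
  refine l9rs_sbS_of_ev (F := F0.wExp pB.sStar pB.eta pS) (show pS ≤ 12 by linarith)
    (Φ := fun A I => I.Fine (I.x ^ Km) ∧ 1 ≤ I.Zc llDStar ∧ ∃ e, I.Both e A (I.Yc llDStar) 1 v0 v1 cE pm jm) ?_
  intro δ hδ ε hε q hq
  obtain ⟨C, N0, h⟩ := hd ε q hε hq pm jm δ hδ
  obtain ⟨N1, hf⟩ := hfine F0 hF pB pS h0 h1' (fun N => ((N : ℝ) ^ (-(1 / 6) : ℝ)) ^ Km)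
    (fun N hN => Real.rpow_pos_of_pos (Real.rpow_pos_of_pos (by exact_mod_cast (by omega : 0 < N)) _) _)
  refine ⟨C, max N0 N1, L8Ev.mono (h.and (hf.restrict l8Siz)) le_rfl ?_⟩
  rintro I - ⟨⟨hZ, e, hA⟩, h3⟩ hs hst
  exact ⟨h3, hZ, e, hA.both hs hst⟩

/-! ## 4. scales at a point -/

theorem l9rs_rpow_quarter (b : ℝ) : 0 ≤ b ^ (1 / 4 : ℝ) := by
  rcases le_or_gt 0 b with h | h
  · exact Real.rpow_nonneg h _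
  · rw [Real.rpow_def_of_neg h]
    refine mul_nonneg (Real.exp_pos _).le (Real.cos_nonneg_of_neg_pi_div_two_le_of_le ?_ ?_) <;> nlinarith [Real.pi_pos]

theorem l9rs_Z_ge (I : L8In) : 1 ≤ I.Z := by
  unfold L8In.Z
  linarith [l9rs_rpow_quarter (I.bud / I.U ^ 4)]

theorem l9rs_scales (I : L8In) (hok : I.Ok) (hpS : 0 ≤ I.F.pS) (hsS : 0 ≤ I.F.sS) :
    0 < I.x ∧ I.x ≤ 1 ∧ 0 < I.lam ∧ I.lam ≤ 1 ∧ I.x ≤ I.U := by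
  have hN : (1 : ℝ) ≤ I.p.N := by have := hok.pt.N2; exact_mod_cast (by omega : 1 ≤ I.p.N)
  have hx : 0 < I.x := Real.rpow_pos_of_pos (by linarith) _
  have hx1 : I.x ≤ 1 := Real.rpow_le_one_of_one_le_of_nonpos hN (by norm_num)
  have hl : 0 < I.lam := (Real.rpow_pos_of_pos hx _).trans_le hok.pt.lam_lo
  have hl1 : I.lam ≤ 1 := hok.pt.lam_hi.trans (Real.rpow_le_one hx.le hx1 hpS)
  refine ⟨hx, hx1, hl, hl1, le_min hx1 ?_⟩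
  have h1 : 1 ≤ I.p.lam ^ (-(I.F.sS / 2)) := Real.one_le_rpow_of_pos_of_le_one_of_nonpos hl hl1 (by linarith)
  calc I.x = I.p.x * 1 := (mul_one _).symm
    _ ≤ _ := mul_le_mul_of_nonneg_left h1 hx.le

theorem l9rs_Zc_D (Q : L9Q) (c : ℝ) (hok : Q.i8.Ok) (hsm : Q.p.sm = false) : Q.Zc (l8Mj c) = Q.i8.Z := by
  unfold L9Q.Zc
  rw [if_neg (by simp [hsm])]
  exact (l8_Z_eq Q.i8 hok.pt c).1

theorem l9rs_Zc_S (Q : L9Q) (c : ℝ) (hok : Q.i8.Ok) (hsm : Q.p.sm = true) : Q.Zc (l8Mj c) = Q.i8.Zc llDStar := by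
  unfold L9Q.Zc L8In.Zc
  rw [if_pos hsm, show Q.Z (l8Mj c) = Q.i8.Z from (l8_Z_eq Q.i8 hok.pt c).1]
  rfl

theorem l9rs_dA_D (F : LlFix) (𝔹 : LlBase) (s : ℝ) (Fs : Finset GhPos) (m N : ℕ) (ell : ℝ) (γ : Fin (N + 1) → ℝ) (t : ℝ) (v : ℕ) :
    (l9QD F 𝔹 s Fs m N ell γ t).dA v = |(l9QD F 𝔹 s Fs m N ell γ t).i8.d v| + |(l9QD F 𝔹 s Fs m N ell γ t).i8.dd v| := by
  have e : (l9QD F 𝔹 s Fs m N ell γ t).i8.dd v
      = deriv (fun L => L8In.d { (l9QD F 𝔹 s Fs m N ell γ t).i8 with p := (l9QD F 𝔹 s Fs m N ell γ t).i8.p.wLam L } v)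
          (Real.log (Real.exp t)) := by
    unfold L8In.dd
    rw [if_neg (by simp [L9Q.i8, L9Q.p, l9QD, l9PtL, ll04Pt])]
    rfl
  rw [e, Real.log_exp]
  rfl

theorem l9rs_dA_S (F : LlFix) (𝔹 : LlBase) (s : ℝ) (Fs : Finset GhPos) (m N : ℕ) (γ : Fin (N + 1) → ℝ) (θ : ℝ) (v : ℕ) :
    (l9QS F 𝔹 s Fs m N γ θ).dA v = |(l9QS F 𝔹 s Fs m N γ θ).i8.d v| + |(l9QS F 𝔹 s Fs m N γ θ).i8.dd v| := by
  have e : (l9QS F 𝔹 s Fs m N γ θ).i8.dd v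
      = deriv (fun θ' => L8In.d { (l9QS F 𝔹 s Fs m N γ θ).i8 with p := (l9QS F 𝔹 s Fs m N γ θ).i8.p.wTh θ' } v)
          (6 * Real.log (Real.exp (θ / 6))) := by
    unfold L8In.dd
    rw [if_pos (by simp [L9Q.i8, L9Q.p, l9QS, l9PtS, ll04Pt])]
    rfl
  rw [e, Real.log_exp, show 6 * (θ / 6) = θ by ring]
  rfl

/-! ## 5. the envelope outside the chain, monotonicity -/

/-- the envelope, `0` outside the cuts of the chain -/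
def l9rsE (N : ℕ) (e : ℕ → ℝ) : ℕ → ℝ := fun v => if v ≤ N then e v else 0

theorem l9rs_E_of_le {N v : ℕ} (e : ℕ → ℝ) (h : v ≤ N) : l9rsE N e v = e v := if_pos h

theorem L9Q.Sup8.trunc {Q : L9Q} {Mj : L9Mj} {A vt : ℝ} {e : ℕ → ℝ} (h : Q.Sup8 Mj A vt e) : Q.Sup8 Mj A vt (l9rsE Q.N e) :=
  ⟨h.z1, fun v hv => by rw [l9rs_E_of_le e hv]; exact h.e_nn v hv, fun v hv => by rw [l9rs_E_of_le e hv]; exact h.e_le v hv,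
    fun v hv => by rw [l9rs_E_of_le e hv]; exact h.d_le v hv, fun en v hv => by rw [l9rs_E_of_le e hv]; exact h.d2 en v hv, h.p87⟩

theorem L9Q.Sup8.anti {Q : L9Q} {Mj : L9Mj} {A vt vt' : ℝ} {e : ℕ → ℝ} (h : Q.Sup8 Mj A vt e) (hv : vt' ≤ vt) : Q.Sup8 Mj A vt' e :=
  ⟨h.z1, h.e_nn, fun v hvN h1 => h.e_le v hvN (h1.trans hv), fun v hvN h1 => h.d_le v hvN (h1.trans hv),
    fun en v hvN h1 => h.d2 en v hvN (h1.trans hv), fun en v c h1 h2 h3 h4 h5 => h.p87 en v c h1 h2 h3 h4 (h5.trans hv)⟩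

/-- **`Sup` from `Sup8` and CC** -/
theorem L9Q.Sup8.sup {Q : L9Q} {Mj : L9Mj} {A vt K Cs : ℝ} {e : ℕ → ℝ} (h : Q.Sup8 Mj A vt e) (hcc : Q.CC Mj (l9rsE Q.N e) A vt K Cs) :
    Q.Sup Mj A vt K Cs (l9rsE Q.N e) :=
  ⟨h.z1, fun v => by
      unfold l9rsE
      split_ifs with hv
      · exact h.e_nn v hv
      · exact le_rfl,
    h.trunc.e_le, h.trunc.d_le, h.trunc.d2, h.p87, hcc⟩

theorem l9rs_E3_nonneg (Q : L9Q) (Mj : L9Mj) (K : ℝ) (hx : 0 ≤ Q.x) (hl : 0 ≤ Q.lam) (hY : 0 ≤ Q.Y Mj) (hZ : 0 ≤ Q.Zc Mj) : 0 ≤ Q.E3 Mj K := by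
  unfold L9Q.E3 L9Q.gB
  have h1 : 0 ≤ Q.lam ^ ((3 * Q.I.F.sS - 1 - Q.I.F.eta) / 2) / Q.Zc Mj ^ (3 / 2 : ℝ) :=
    div_nonneg (Real.rpow_nonneg hl _) (Real.rpow_nonneg hZ _)
  have h2 : 0 ≤ Q.x / Q.Y Mj := div_nonneg hx hY
  have h3 : 0 ≤ Q.x ^ K := Real.rpow_nonneg hx _
  have h4 : 0 ≤ Q.lam * Q.Y Mj ^ 5 := mul_nonneg hl (pow_nonneg hY _)
  nlinarith [mul_nonneg h4 (add_nonneg h2 h1)]

theorem L9Q.CC.mono {Q : L9Q} {Mj : L9Mj} {e : ℕ → ℝ} {A A' vt K Cs : ℝ} (h : Q.CC Mj e A vt K Cs) (hA : A ≤ A') (hE : 0 ≤ Q.E3 Mj K) :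
    Q.CC Mj e A' vt K Cs := by
  intro n h2 h4 R hR hRn β V c hc h5 h6 h7 B L0 hL0 hB hB'
  exact (h n h2 h4 R hR hRn β V c hc h5 h6 h7 B L0 hL0 hB hB').trans
    (mul_le_mul_of_nonneg_left (mul_le_mul_of_nonneg_right hA hE) hL0)

/-! ## 6. the contract of CC and the producers -/

/-- **CONTRACT of CC (Lemma 9.1 on tables), strength sweep**, pattern "for every target there is a source": for the target loss `δ` the prover chooses the orders `(pm, jm)`, the mesh exponent `Km`, the source loss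
`δ1 ≤ δ` and `δ'` of (D8); then, for EVERY source constant `C1`, at every point on the stop: LL 08 at the loss `C1 x^(-δ1)` with the envelope `e` ⟹ `Q.CC` with the SAME envelope (`0` outside the chain) -/
def L9cCCD (𝔹 : LlBase) (Mj : L9Mj) (κ : ℝ) (F : LlFix) (C0 δ0 v0 cE : ℝ) : Prop :=
  ∀ K Cs : ℝ, 4 ≤ Cs → ∀ δ : ℝ, 0 < δ → ∃ (pm jm : ℕ) (Km δ1 δ' : ℝ), 2 ≤ pm ∧ 1 ≤ Km ∧ 0 < δ1 ∧ δ1 ≤ δ ∧ 0 < δ' ∧ δ' ≤ δ0 ∧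
    ∀ ε : ℝ, 0 < ε → ∀ q : ℝ, 0 < q → ∀ C1 : ℝ, ∃ (C : ℝ) (N0 : ℕ), ∀ N : ℕ, N0 ≤ N → ∀ᶠ Fs : Finset GhPos in atTop,
      ∀ (m : ℕ) (ell : ℝ) (γ : Fin (N + 1) → ℝ) (t : ℝ), L9HyD F 𝔹 Mj κ N (q * skX N ^ (1 + ε)) (skX N ^ ε) Fs m ell γ t →
        ∀ (Q : L9Q) (e : ℕ → ℝ), Q = l9QD F 𝔹 (q * skX N ^ (1 + ε)) Fs m N ell γ t → Q.i8.Ok → Q.i8.Fine (Q.x ^ Km) →
          Q.i8.Both e (C1 * skX N ^ (-δ1)) Q.i8.Y Q.i8.Z Q.i8.a v0 cE pm jm → Q.i8.D8 e (C1 * skX N ^ (-δ1)) C0 δ' →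
            Q.CC Mj (l9rsE Q.N e) (C * skX N ^ (-δ)) (min v0 1) K Cs

/-- **CONTRACT of CC, size segment** (low-region variant) -/
def L9cCCS (𝔹 : LlBase) (Mj : L9Mj) (F : LlFix) (v0 v1 cE : ℝ) : Prop :=
  ∀ K Cs : ℝ, 4 ≤ Cs → ∀ δ : ℝ, 0 < δ → ∃ (pm jm : ℕ) (Km δ1 : ℝ), 2 ≤ pm ∧ 1 ≤ Km ∧ 0 < δ1 ∧ δ1 ≤ δ ∧
    ∀ ε : ℝ, 0 < ε → ∀ q : ℝ, 0 < q → ∀ C1 : ℝ, ∃ (C : ℝ) (N0 : ℕ), ∀ N : ℕ, N0 ≤ N → ∀ᶠ Fs : Finset GhPos in atTop,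
      ∀ (m : ℕ) (γ : Fin (N + 1) → ℝ) (θ : ℝ), L9HyS F 𝔹 N (q * skX N ^ (1 + ε)) (skX N ^ ε) Fs m γ θ →
        ∀ (Q : L9Q) (e : ℕ → ℝ), Q = l9QS F 𝔹 (q * skX N ^ (1 + ε)) Fs m N γ θ → Q.i8.Ok → Q.i8.Fine (Q.x ^ Km) → 1 ≤ Q.i8.Zc llDStar →
          Q.i8.Both e (C1 * skX N ^ (-δ1)) (Q.i8.Yc llDStar) 1 v0 v1 cE pm jm →
            Q.CC Mj (l9rsE Q.N e) (C * skX N ^ (-δ)) (min v0 v1) K Cs

/-- `L9cSupD` of 282 below a FIXED mass `v0` (Cor. 8.7 holds below a fixed small mass only) -/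
def L9cSupDv (𝔹 : LlBase) (Mj : L9Mj) (κ : ℝ) (F : LlFix) (v0 : ℝ) : Prop :=
  ∀ K Cs : ℝ, 4 ≤ Cs → L9SbD 𝔹 Mj κ F fun A Q => ∃ e, Q.Sup Mj A v0 K Cs e

/-- arithmetic of the losses -/
theorem l9rs_loss {x C1 C2 δ1 δ : ℝ} (hx : 0 < x) (hx1 : x ≤ 1) (hδ1 : 0 < δ1) (hδ : δ1 ≤ δ) :
    3 * (C1 * x ^ (-δ1)) ≤ max (max (3 * |C1|) 1) C2 * x ^ (-δ) ∧ 1 ≤ max (max (3 * |C1|) 1) C2 * x ^ (-δ) ∧
      C2 * x ^ (-δ) ≤ max (max (3 * |C1|) 1) C2 * x ^ (-δ) := by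
  have h1 : 1 ≤ x ^ (-δ) := Real.one_le_rpow_of_pos_of_le_one_of_nonpos hx hx1 (by linarith)
  have h2 : x ^ (-δ1) ≤ x ^ (-δ) := Real.rpow_le_rpow_of_exponent_ge hx hx1 (by linarith)
  have h3 : 0 < x ^ (-δ1) := Real.rpow_pos_of_pos hx _
  have m1 : 3 * |C1| ≤ max (max (3 * |C1|) 1) C2 := (le_max_left _ _).trans (le_max_left _ _)
  have m2 : 1 ≤ max (max (3 * |C1|) 1) C2 := (le_max_right _ _).trans (le_max_left _ _)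
  have m3 : C2 ≤ max (max (3 * |C1|) 1) C2 := le_max_right _ _
  refine ⟨?_, ?_, mul_le_mul_of_nonneg_right m3 (by linarith)⟩
  · calc 3 * (C1 * x ^ (-δ1)) ≤ 3 * |C1| * x ^ (-δ1) := by nlinarith [le_abs_self C1]
      _ ≤ 3 * |C1| * x ^ (-δ) := mul_le_mul_of_nonneg_left h2 (by positivity)
      _ ≤ _ := mul_le_mul_of_nonneg_right m1 (by linarith)
  · calc (1 : ℝ) = 1 * 1 := (one_mul 1).symm
      _ ≤ _ := mul_le_mul m2 h1 zero_le_one (by linarith)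

/-- **PRODUCER of `L9cSupDv`**: `exit_ddir` + `l8g_fine` + DIC + the contract of CC -/
theorem l9rs_supD {𝔹 : LlBase} {T : ℝ} (hdir : L8xDir 𝔹 T) (hfine : L8gFine 𝔹 T) {F0 : LlFix} (hF : L8Fix 𝔹 T F0) (pB : LLParB) {pS : ℝ}
    (h0 : 0 < pS) (h1 : pS ≤ 1) (c : ℝ) :
    ∃ C0 δ0 v0 cE : ℝ, 1 ≤ C0 ∧ 0 < δ0 ∧ 0 < v0 ∧ 0 < cE ∧ ∀ κ : ℝ, 0 < κ →
      L9cCCD 𝔹 (l8Mj c) κ (F0.wExp pB.sStar pB.eta pS) C0 δ0 v0 cE → L9cSupDv 𝔹 (l8Mj c) κ (F0.wExp pB.sStar pB.eta pS) (min v0 1) := by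
  obtain ⟨C0, δ0, v0, cE, hC0, hδ0, hv0, hcE, hB⟩ := l9rs_bothD hdir hfine hF pB h0 h1 c
  refine ⟨C0, δ0, v0, cE, hC0, hδ0, hv0, hcE, fun κ hκ hcc K Cs hCs δ hδ ε hε q hq => ?_⟩
  obtain ⟨pm, jm, Km, δ1, δ', hpm, hKm, hδ1, hδ1', hδ', hδ'', hc⟩ := hcc K Cs hCs δ hδ
  obtain ⟨C1, N1, hb⟩ := hB κ hκ pm jm Km δ' hδ' hδ'' δ1 hδ1 ε hε q hq
  obtain ⟨C2, N2, hc⟩ := hc ε hε q hq C1
  refine ⟨max (max (3 * |C1|) 1) C2, N1 + N2 + 1, fun N hN => ?_⟩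
  filter_upwards [hb N (by omega), hc N (by omega)] with Fs g1 g2 m ell γ t hy
  obtain ⟨Q, hQ⟩ : ∃ Q, Q = l9QD (F0.wExp pB.sStar pB.eta pS) 𝔹 (q * skX N ^ (1 + ε)) Fs m N ell γ t := ⟨_, rfl⟩
  have g1' := g1 m ell γ t hy
  rw [← hQ] at g1' ⊢
  obtain ⟨hok, hfi, e, hBo, h8⟩ := g1'
  have hCC := g2 m ell γ t hy Q e hQ hok hfi hBo h8
  have hsm : Q.p.sm = false := by rw [hQ]; rfl
  have hxN : Q.i8.x = skX N := by rw [hQ]; rfl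
  obtain ⟨hx, hx1, hl, -, hxU⟩ := l9rs_scales Q.i8 hok (show 0 ≤ Q.I.F.pS by rw [hQ]; exact h0.le)
    (show 0 ≤ Q.I.F.sS by rw [hQ]; exact (by have := pB.sStar_pos; linarith : (0 : ℝ) ≤ pB.sStar))
  have hZc := l9rs_Zc_D Q c hok hsm
  have hz1 : 1 ≤ Q.Zc (l8Mj c) := by rw [hZc]; exact l9rs_Z_ge _
  have hU : 0 < Q.U := hx.trans_le hxU
  have hY : Q.Y (l8Mj c) = Q.i8.Y := by unfold L9Q.Y; rw [hZc]; rfl
  have hxY : Q.x ≤ Q.Y (l8Mj c) := by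
    unfold L9Q.Y
    calc Q.x ≤ Q.U * 1 := by rw [mul_one]; exact hxU
      _ ≤ _ := mul_le_mul_of_nonneg_left hz1 hU.le
  have hs : Q.I.s ≤ Q.x := hok.s_lt.le
  have ha1 : 1 ≤ Q.i8.a := by
    show 1 ≤ Q.p.a
    unfold LlPt.a
    rw [if_neg (by simp [hsm])]
    exact hok.pt.ell1
  obtain ⟨l1, l2, l3⟩ := l9rs_loss (C1 := C1) (C2 := C2) (hxN ▸ hx) (hxN ▸ hx1) hδ1 hδ1'
  have h8' := l9rs_sup8 Q (l8Mj c) (A' := max (max (3 * |C1|) 1) C2 * skX N ^ (-δ)) hok hfi (hY ▸ hBo) hpm l1 l2 hz1 hU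
    ((Real.rpow_le_rpow_of_exponent_ge hx hx1 hKm).trans (by rw [Real.rpow_one]; exact hxY)) (hs.trans hxY)
    (hs.trans (hx1.trans ha1)) hl.le (fun v => by rw [hQ]; exact l9rs_dA_D _ _ _ _ _ _ _ _ _ v)
  have h8'' := h8'.anti (show min v0 1 ≤ min Q.i8.a v0 from le_min ((min_le_right _ _).trans ha1) (min_le_left _ _))
  exact ⟨_, h8''.sup (hCC.mono l3 (l9rs_E3_nonneg Q _ K hx.le hl.le (hx.le.trans hxY) (by linarith)))⟩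

/-- **PRODUCER of `L9cSupS`**: `exit_dlow` + `l8g_fine` + DIC + the contract of CC -/
theorem l9rs_supS {𝔹 : LlBase} {T : ℝ} (hlow : L8xLow 𝔹 T) (hfine : L8gFine 𝔹 T) {F0 : LlFix} (hF : L8Fix 𝔹 T F0) (pB : LLParB)
    (hSt : LlcStB 𝔹 F0 pB) (c : ℝ) :
    ∃ p0 cE : ℝ, 0 < p0 ∧ 0 < cE ∧ ∀ pS : ℝ, 0 < pS → pS ≤ p0 → pS ≤ 1 → ∃ v0 v1 : ℝ, 0 < v0 ∧ 0 < v1 ∧
      (L9cCCS 𝔹 (l8Mj c) (F0.wExp pB.sStar pB.eta pS) v0 v1 cE → L9cSupS 𝔹 (l8Mj c) (F0.wExp pB.sStar pB.eta pS) (min v0 v1)) := by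
  obtain ⟨p0, cE, hp0, hcE, hB⟩ := l9rs_bothS hlow hfine hF pB hSt
  refine ⟨p0, cE, hp0, hcE, fun pS h0 h1 h1' => ?_⟩
  obtain ⟨v0, v1, hv0, hv1, hB⟩ := hB pS h0 h1 h1'
  refine ⟨v0, v1, hv0, hv1, fun hcc K Cs hCs δ hδ ε hε q hq => ?_⟩
  obtain ⟨pm, jm, Km, δ1, hpm, hKm, hδ1, hδ1', hc⟩ := hcc K Cs hCs δ hδ
  obtain ⟨C1, N1, hb⟩ := hB pm jm Km δ1 hδ1 ε hε q hq
  obtain ⟨C2, N2, hc⟩ := hc ε hε q hq C1
  obtain ⟨N3, hN3⟩ := l9s_small 1 (1 / v0) one_pos (by positivity)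
  refine ⟨max (max (3 * |C1|) 1) C2, N1 + N2 + N3 + 1, fun N hN => ?_⟩
  filter_upwards [hb N (by omega), hc N (by omega)] with Fs g1 g2 m γ θ hy
  obtain ⟨Q, hQ⟩ : ∃ Q, Q = l9QS (F0.wExp pB.sStar pB.eta pS) 𝔹 (q * skX N ^ (1 + ε)) Fs m N γ θ := ⟨_, rfl⟩
  have g1' := g1 m γ θ hy
  rw [← hQ] at g1' ⊢
  obtain ⟨hok, hfi, hZ1, e, hBo⟩ := g1'
  have hCC := g2 m γ θ hy Q e hQ hok hfi hZ1 hBo
  have hsm : Q.p.sm = true := by rw [hQ]; rfl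
  have hxN : Q.i8.x = skX N := by rw [hQ]; rfl
  obtain ⟨hx, hx1, hl, -, hxU⟩ := l9rs_scales Q.i8 hok (show 0 ≤ Q.I.F.pS by rw [hQ]; exact h0.le)
    (show 0 ≤ Q.I.F.sS by rw [hQ]; exact (by have := pB.sStar_pos; linarith : (0 : ℝ) ≤ pB.sStar))
  have hZc := l9rs_Zc_S Q c hok hsm
  have hz1 : 1 ≤ Q.Zc (l8Mj c) := by rw [hZc]; exact hZ1
  have hU : 0 < Q.U := hx.trans_le hxU
  have hY : Q.Y (l8Mj c) = Q.i8.Yc llDStar := by unfold L9Q.Y; rw [hZc]; rfl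
  have hxY : Q.x ≤ Q.Y (l8Mj c) := by
    unfold L9Q.Y
    calc Q.x ≤ Q.U * 1 := by rw [mul_one]; exact hxU
      _ ≤ _ := mul_le_mul_of_nonneg_left hz1 hU.le
  have hs : Q.I.s ≤ Q.x := hok.s_lt.le
  have hxv : Q.x ≤ v0 := by
    have := hN3 N (by omega)
    rw [Real.rpow_one, div_mul_eq_mul_div, one_mul, div_lt_one hv0] at this
    show Q.i8.x ≤ v0
    rw [hxN]; exact this.le
  obtain ⟨l1, l2, l3⟩ := l9rs_loss (C1 := C1) (C2 := C2) (hxN ▸ hx) (hxN ▸ hx1) hδ1 hδ1'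
  have h8' := l9rs_sup8 Q (l8Mj c) (A' := max (max (3 * |C1|) 1) C2 * skX N ^ (-δ)) hok hfi (hY ▸ hBo) hpm l1 l2 hz1 hU
    ((Real.rpow_le_rpow_of_exponent_ge hx hx1 hKm).trans (by rw [Real.rpow_one]; exact hxY)) (hs.trans hxY)
    (hs.trans hxv) hl.le (fun v => by rw [hQ]; exact l9rs_dA_S _ _ _ _ _ _ _ _ v)
  exact fun _ => ⟨_, h8'.sup (hCC.mono l3 (l9rs_E3_nonneg Q _ K hx.le hl.le (hx.le.trans hxY) (by linarith)))⟩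

/-- `L9cSupDv` is (stronger than) the contract `L9cSupD` of 282 -/
theorem L9cSupDv.supD {𝔹 : LlBase} {Mj : L9Mj} {κ : ℝ} {F : LlFix} {v0 : ℝ} (h : L9cSupDv 𝔹 Mj κ F v0) : L9cSupD 𝔹 Mj κ F v0 := by
  intro K Cs hCs δ hδ ε hε q hq
  obtain ⟨C, N0, H⟩ := h K Cs hCs δ hδ ε hε q hq
  refine ⟨C, N0, fun N hN => ?_⟩
  filter_upwards [H N hN] with Fs g m ell γ t hy _
  exact g m ell γ t hy

/-! ## 7. the chains -/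

theorem l9rs_dv_nonneg (I : L8In) (hok : I.Ok) (hP : LlStpAdm I.a I.LP) (k : ℕ) : 0 ≤ I.dv k := by
  have h := l8i_ok I.m (l9ri_m_pos I hok) I.a (l9ri_a_pos I hok) I.P0 hP.1
  show 0 ≤ skMs I.a I.P0 k - (if k = 0 then 0 else skMs I.a I.P0 (k - 1))
  split_ifs with hk
  · have := h.v_nonneg k
    have e : (skSP I.m I.a I.P0).v k = skMs I.a I.P0 k := rfl
    linarith
  · have := h.v_mono (show k - 1 ≤ k by omega)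
    have e : (skSP I.m I.a I.P0).v k = skMs I.a I.P0 k := rfl
    have e' : (skSP I.m I.a I.P0).v (k - 1) = skMs I.a I.P0 (k - 1) := rfl
    linarith

theorem l9rs_adm (Q : L9Q) (hok : Q.i8.Ok) {η : ℝ} (hf : Q.i8.Fine η) : Q.Adm η ∧ 0 ≤ Q.I.dot Q.pf Q.t := by
  refine ⟨⟨l9ri_a_pos Q.i8 hok, hf.adm, fun j hj => by rw [← l9rs_dv]; exact hf.dv_le j hj⟩, ?_⟩
  unfold L9I.dot
  refine Finset.sum_nonneg fun j _ => mul_nonneg (l9rs_dv_nonneg Q.i8 hok hf.adm j) (by positivity)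

/-- **PRODUCER of `L9cAdmD`** -/
theorem l9rs_admD {𝔹 : LlBase} {T : ℝ} (hfine : L8gFine 𝔹 T) {F0 : LlFix} (hF : L8Fix 𝔹 T F0) (pB : LLParB) {pS : ℝ} (h0 : 0 < pS) (h1 : pS ≤ 1)
    (c κ : ℝ) : L9cAdmD 𝔹 (l8Mj c) κ (F0.wExp pB.sStar pB.eta pS) := by
  intro Km
  have h := l9rs_sbD_of_ev (𝔹 := 𝔹) (F := F0.wExp pB.sStar pB.eta pS) c κ (Φ := fun _ I => I.Fine (I.x ^ Km)) (by
    intro δ _ ε _ q _
    obtain ⟨N1, hf⟩ := hfine F0 hF pB pS h0 h1 (fun N => ((N : ℝ) ^ (-(1 / 6) : ℝ)) ^ Km)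
      (fun N hN => Real.rpow_pos_of_pos (Real.rpow_pos_of_pos (by exact_mod_cast (by omega : 0 < N)) _) _)
    exact ⟨0, N1, L8Ev.mono (hf.restrict l8Dir) le_rfl fun I _ h3 _ _ _ => h3⟩)
  exact h.map id fun C X Q _ hq => (l9rs_adm Q hq.1 hq.2).1

/-- **PRODUCER of `L9cAdmS`** -/
theorem l9rs_admS {𝔹 : LlBase} {T : ℝ} (hfine : L8gFine 𝔹 T) {F0 : LlFix} (hF : L8Fix 𝔹 T F0) (pB : LLParB) {pS : ℝ} (h0 : 0 < pS) (h1 : pS ≤ 1) :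
    L9cAdmS 𝔹 (F0.wExp pB.sStar pB.eta pS) := by
  intro Km
  have h := l9rs_sbS_of_ev (𝔹 := 𝔹) (F := F0.wExp pB.sStar pB.eta pS) (show pS ≤ 12 by linarith) (Φ := fun _ I => I.Fine (I.x ^ Km)) (by
    intro δ _ ε _ q _
    obtain ⟨N1, hf⟩ := hfine F0 hF pB pS h0 h1 (fun N => ((N : ℝ) ^ (-(1 / 6) : ℝ)) ^ Km)
      (fun N hN => Real.rpow_pos_of_pos (Real.rpow_pos_of_pos (by exact_mod_cast (by omega : 0 < N)) _) _)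
    exact ⟨0, N1, L8Ev.mono (hf.restrict l8Siz) le_rfl fun I _ h3 _ _ => h3⟩)
  exact h.map id fun C X Q _ hq => l9rs_adm Q hq.1 hq.2

end

theorem l9rs_eqns_cite : True := by
  have := @L9Q.i8.eq_1; have := @l9rsE.eq_1; have := @L9cCCD.eq_1; have := @L9cCCS.eq_1; have := @L9cSupDv.eq_1
  trivial

end Claimed.Agent.R286
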