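/-
Row 286 (S0533), LL sec. 9, unit ALLOC.      OWNER of this file: helper276.      Prefix `l9a`.
ABSOLUTE ALLOCATION MEASURE: total mass, marginals of the split levels of finitely many pairs (design D4 / DENS of
origin/helper60:notes/R286/LL09_DAG_60.md).   Everything on the finite set `l9aTab N r` of the normalised `N`-tables, weight `l9aWt ms N 1 r`.

* `l9a_abs_chart`   : `∑_τ |wt τ| G τ ≤ M^r ∑_χ ∑_c [Ok] ∏_{flagged s} μ(c s) G(rec χ c)`,   `M = max 1 (r a)`, `a = ms N`;
* `l9a_dens_pairs`  : chartwise bound of `∑_τ |wt τ| ∏_i g_i(τ a_i b_i)`;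
* `l9a_total`       : `∑_τ |wt τ| ≤ l9aC r a`;
* `l9a_marg`        : ONE pair, `∑_τ |wt τ| g(τ a b) ≤ l9aC r a * ∑_{k ≤ N+1} mw_k g_k`,  `mw_k = μ_k` (`k ≤ N`), `mw_{N+1} = 1` (coincidence);
* `l9a_marg_pairs`  : `∑_τ |wt τ| ∏_i g_i(τ a_i b_i) ≤ l9aC r a * ∑_{f : ι → Option (Fin r)} ∏_{o} (∑_k mw_k ∏_{i ∈ f⁻¹ o} g_i k)` (empty fibres: `1`).
-/
import Claimed.Agent.R286.L09.Chart

set_option autoImplicit false

namespace Claimed.Agent.R286

/-- `μ_k` on the levels `k ≤ N`, `0` above -/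
def l9aMuT (ms : ℕ → ℝ) (N k : ℕ) : ℝ := if k ≤ N then l9aMu ms k else 0

/-- weight of the level `k`: `μ_k` for `k ≤ N`, `1` for the coincidence level -/
def l9aMw (ms : ℕ → ℝ) (N k : ℕ) : ℝ := if k ≤ N then l9aMu ms k else 1

/-- the constant of the absolute allocation measure on `r` labels, `a = ms N` -/
noncomputable def l9aC (r : ℕ) (a : ℝ) : ℝ := Fintype.card (L9aChart r) * ((max 1 (r * a)) ^ r * (max 1 a) ^ r)

theorem l9a_muT_nonneg {N : ℕ} {ms : ℕ → ℝ} (hms : IsMs N ms) (k : ℕ) : 0 ≤ l9aMuT ms N k := by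
  unfold l9aMuT
  split_ifs with h
  · exact l9a_mu_nonneg hms h
  · exact le_rfl

theorem l9a_mw_nonneg {N : ℕ} {ms : ℕ → ℝ} (hms : IsMs N ms) (k : ℕ) : 0 ≤ l9aMw ms N k := by
  unfold l9aMw
  split_ifs with h
  · exact l9a_mu_nonneg hms h
  · exact zero_le_one

theorem l9a_muT_le_mw {N : ℕ} (ms : ℕ → ℝ) (k : ℕ) : l9aMuT ms N k ≤ l9aMw ms N k := by
  unfold l9aMuT l9aMw
  split_ifs
  · exact le_rfl
  · exact zero_le_one

theorem l9a_C_nonneg (r : ℕ) (a : ℝ) : 0 ≤ l9aC r a := by
  unfold l9aC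
  positivity

/-- telescoping -/
theorem l9a_mu_sum (ms : ℕ → ℝ) (N : ℕ) : ∑ k ∈ Finset.range (N + 1), l9aMu ms k = ms N := by
  induction N with
  | zero => simp [l9aMu, trPm]
  | succ n ih =>
    rw [Finset.sum_range_succ, ih]
    simp [l9aMu, trPm]

theorem l9a_muT_sum_fin (ms : ℕ → ℝ) (N : ℕ) (g : ℕ → ℝ) :
    ∑ k : Fin (N + 2), l9aMuT ms N k * g k = ∑ k ∈ Finset.range (N + 1), l9aMu ms k * g k := by
  rw [Fin.sum_univ_eq_sum_range (fun k => l9aMuT ms N k * g k) (N + 2), Finset.sum_range_succ]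
  have : l9aMuT ms N (N + 1) = 0 := by
    unfold l9aMuT
    rw [if_neg (by omega)]
  rw [this, zero_mul, add_zero]
  refine Finset.sum_congr rfl fun k hk => ?_
  rw [Finset.mem_range] at hk
  unfold l9aMuT
  rw [if_pos (by omega)]

theorem l9a_mw_sum (ms : ℕ → ℝ) (N : ℕ) (g : ℕ → ℝ) :
    ∑ k ∈ Finset.range (N + 2), l9aMw ms N k * g k = ∑ k ∈ Finset.range (N + 1), l9aMu ms k * g k + g (N + 1) := by
  rw [Finset.sum_range_succ]
  have : l9aMw ms N (N + 1) = 1 := by
    unfold l9aMw
    rw [if_neg (by omega)]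
  rw [this, one_mul]
  congr 1
  refine Finset.sum_congr rfl fun k hk => ?_
  rw [Finset.mem_range] at hk
  unfold l9aMw
  rw [if_pos (by omega)]

open Classical in
/-- **master bound** of the absolute allocation measure in the coordinates -/
theorem l9a_abs_chart {N r : ℕ} {ms : ℕ → ℝ} (hms : IsMs N ms) (G : (ℕ → ℕ → ℕ) → ℝ) (hG : ∀ τ, 0 ≤ G τ) :
    ∑ τ ∈ l9aTab N r, |l9aWt ms N 1 r τ| * G τ
      ≤ (max 1 (r * ms N)) ^ r * ∑ χ : L9aChart r, ∑ c : Fin r → Fin (N + 2),
          if L9aOk N χ c then (∏ s, if χ.2 s = true then l9aMuT ms N (c s) else 1) * G (l9aRec χ c) else 0 := by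
  rw [l9a_sum_chart N r (fun τ => |l9aWt ms N 1 r τ| * G τ), Finset.mul_sum]
  refine Finset.sum_le_sum fun χ _ => ?_
  rw [Finset.mul_sum]
  refine Finset.sum_le_sum fun c _ => ?_
  split_ifs with hok
  · rw [← mul_assoc]
    refine mul_le_mul_of_nonneg_right ?_ (hG _)
    refine (hok.wt_abs_le hms).trans ?_
    have hM : (1 : ℝ) ≤ max 1 (r * ms N) := le_max_left _ _
    have e : (∏ s : Fin r, if χ.2 s = true then l9aMu ms (c s) else max 1 (r * ms N))
        = (∏ s : Fin r, if χ.2 s = true then 1 else max 1 (r * ms N))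
          * ∏ s : Fin r, if χ.2 s = true then l9aMuT ms N (c s) else 1 := by
      rw [← Finset.prod_mul_distrib]
      refine Finset.prod_congr rfl fun s _ => ?_
      by_cases hs : χ.2 s = true
      · rw [if_pos hs, if_pos hs, if_pos hs, one_mul]
        unfold l9aMuT
        rw [if_pos (hok.le hs)]
      · rw [if_neg hs, if_neg hs, if_neg hs, mul_one]
    rw [e]
    refine mul_le_mul_of_nonneg_right ?_ (Finset.prod_nonneg fun s _ => ?_)
    · calc (∏ s : Fin r, if χ.2 s = true then 1 else max 1 (r * ms N))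
          ≤ ∏ _s : Fin r, max 1 (r * ms N) := by
            refine Finset.prod_le_prod (fun s _ => ?_) (fun s _ => ?_)
            · split_ifs
              · exact zero_le_one
              · exact le_trans zero_le_one hM
            · split_ifs
              · exact hM
              · exact le_rfl
        _ = (max 1 (r * ms N)) ^ r := by simp
    · split_ifs
      · exact l9a_muT_nonneg hms _
      · exact zero_le_one
  · simp

/-- a chart whose fork labels are flagged -/
def L9aGood {r : ℕ} (χ : L9aChart r) : Prop := ∀ a b s, χ.1 a b = some s → χ.2 s = true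

theorem L9aOk.good {N r : ℕ} {χ : L9aChart r} {c : Fin r → Fin (N + 2)} (h : L9aOk N χ c) : L9aGood χ :=
  fun _ _ _ hs => h.flag hs

open Classical in
/-- **DENS for finitely many pairs**, chart by chart -/
theorem l9a_dens_pairs {N r : ℕ} {ms : ℕ → ℝ} (hms : IsMs N ms) {ι : Type} [Fintype ι] (a b : ι → Fin r)
    (g : ι → ℕ → ℝ) (hg : ∀ i k, 0 ≤ g i k) :
    ∑ τ ∈ l9aTab N r, |l9aWt ms N 1 r τ| * ∏ i, g i (τ (a i) (b i))
      ≤ (max 1 (r * ms N)) ^ r * ∑ χ ∈ (Finset.univ : Finset (L9aChart r)).filter L9aGood,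
          (∏ i ∈ Finset.univ.filter (fun i => χ.1 (a i) (b i) = none), g i (N + 1)) *
          ∏ s, if χ.2 s = true then
            ∑ k ∈ Finset.range (N + 1), l9aMu ms k * ∏ i ∈ Finset.univ.filter (fun i => χ.1 (a i) (b i) = some s), g i k
            else 1 := by
  refine (l9a_abs_chart hms (fun τ => ∏ i, g i (τ (a i) (b i))) (fun τ => Finset.prod_nonneg fun i _ => hg _ _)).trans ?_
  refine mul_le_mul_of_nonneg_left ?_ (by positivity)
  rw [Finset.sum_filter]
  refine Finset.sum_le_sum fun χ _ => ?_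
  by_cases hgood : L9aGood χ
  · rw [if_pos hgood]
    set P0 : ℝ := ∏ i ∈ Finset.univ.filter (fun i => χ.1 (a i) (b i) = none), g i (N + 1) with hP0
    have hP0n : 0 ≤ P0 := Finset.prod_nonneg fun i _ => hg _ _
    set gg : Fin r → Fin (N + 2) → ℝ := fun s k =>
      l9aMuT ms N k * ∏ i ∈ Finset.univ.filter (fun i => χ.1 (a i) (b i) = some s), g i k with hgg
    have hgg0 : ∀ s k, 0 ≤ gg s k := fun s k =>
      mul_nonneg (l9a_muT_nonneg hms _) (Finset.prod_nonneg fun i _ => hg _ _)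
    have key : ∀ c : Fin r → Fin (N + 2),
        (if L9aOk N χ c then (∏ s, if χ.2 s = true then l9aMuT ms N (c s) else 1) *
            ∏ i, g i (l9aRec χ c (a i) (b i)) else 0)
          = P0 * (if L9aOk N χ c then ∏ s, (if χ.2 s = true then gg s (c s) else 1) else 0) := by
      intro c
      split_ifs with hok
      · have e1 : ∏ i, g i (l9aRec χ c (a i) (b i))
            = P0 * ∏ s : Fin r, ∏ i ∈ Finset.univ.filter (fun i => χ.1 (a i) (b i) = some s), g i (c s) := by
          rw [← Finset.prod_fiberwise Finset.univ (fun i => χ.1 (a i) (b i)) (fun i => g i (l9aRec χ c (a i) (b i))),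
            Fintype.prod_option]
          congr 1
          · refine Finset.prod_congr rfl fun i hi => ?_
            rw [Finset.mem_filter] at hi
            rw [l9a_rec_apply, hi.2]
            rfl
          · refine Finset.prod_congr rfl fun s _ => Finset.prod_congr rfl fun i hi => ?_
            rw [Finset.mem_filter] at hi
            rw [l9a_rec_apply, hi.2]
            rfl
        rw [e1, mul_left_comm, ← Finset.prod_mul_distrib]
        congr 1
        refine Finset.prod_congr rfl fun s _ => ?_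
        by_cases hs : χ.2 s = true
        · rw [if_pos hs, if_pos hs]
        · rw [if_neg hs, if_neg hs, one_mul]
          apply Finset.prod_eq_one
          intro i hi
          rw [Finset.mem_filter] at hi
          exact absurd (hgood _ _ _ hi.2) hs
      · rw [mul_zero]
    simp only [key]
    rw [← Finset.mul_sum]
    refine mul_le_mul_of_nonneg_left ((l9a_dens χ gg hgg0).trans (le_of_eq ?_)) hP0n
    refine Finset.prod_congr rfl fun s _ => ?_
    by_cases hs : χ.2 s = true
    · rw [if_pos hs, if_pos hs]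
      exact l9a_muT_sum_fin ms N (fun k => ∏ i ∈ Finset.univ.filter (fun i => χ.1 (a i) (b i) = some s), g i k)
    · rw [if_neg hs, if_neg hs]
  · rw [if_neg hgood]
    refine le_of_eq (Finset.sum_eq_zero fun c _ => ?_)
    rw [if_neg (fun hok : L9aOk N χ c => hgood hok.good)]

open Classical in
/-- the factor of one vertex `o` (`none` = coincidence) when the pairs are distributed on the vertices by `f` -/
noncomputable def l9aBlk {r : ℕ} {ι : Type} [Fintype ι] (ms : ℕ → ℝ) (N : ℕ) (g : ι → ℕ → ℝ) (f : ι → Option (Fin r))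
    (o : Option (Fin r)) : ℝ :=
  if ∃ i, f i = o then ∑ k ∈ Finset.range (N + 2), l9aMw ms N k * ∏ i ∈ Finset.univ.filter (fun i => f i = o), g i k else 1

theorem l9a_blk_nonneg {N r : ℕ} {ms : ℕ → ℝ} (hms : IsMs N ms) {ι : Type} [Fintype ι] {g : ι → ℕ → ℝ}
    (hg : ∀ i k, 0 ≤ g i k) (f : ι → Option (Fin r)) (o : Option (Fin r)) : 0 ≤ l9aBlk ms N g f o := by
  unfold l9aBlk
  split_ifs
  · exact Finset.sum_nonneg fun k _ => mul_nonneg (l9a_mw_nonneg hms k) (Finset.prod_nonneg fun i _ => hg _ _)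
  · exact zero_le_one

open Classical in
/-- one good chart -/
theorem l9a_marg_one_chart {N r : ℕ} {ms : ℕ → ℝ} (hms : IsMs N ms) {ι : Type} [Fintype ι] (f : ι → Option (Fin r))
    (fl : Fin r → Bool) (hgood : ∀ i s, f i = some s → fl s = true) (g : ι → ℕ → ℝ) (hg : ∀ i k, 0 ≤ g i k) :
    (∏ i ∈ Finset.univ.filter (fun i => f i = none), g i (N + 1)) *
      (∏ s, if fl s = true then
        ∑ k ∈ Finset.range (N + 1), l9aMu ms k * ∏ i ∈ Finset.univ.filter (fun i => f i = some s), g i k else 1)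
      ≤ (max 1 (ms N)) ^ r * ∏ o, l9aBlk ms N g f o := by
  have hA : (1 : ℝ) ≤ max 1 (ms N) := le_max_left _ _
  have hb0 := fun o => l9a_blk_nonneg hms hg f o
  have hS0 : ∀ o : Option (Fin r), 0 ≤ ∑ k ∈ Finset.range (N + 1),
      l9aMu ms k * ∏ i ∈ Finset.univ.filter (fun i => f i = o), g i k := fun o =>
    Finset.sum_nonneg fun k hk => mul_nonneg (l9a_mu_nonneg hms (by rw [Finset.mem_range] at hk; omega))
      (Finset.prod_nonneg fun i _ => hg _ _)
  rw [Fintype.prod_option, mul_left_comm]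
  have h0 : (∏ i ∈ Finset.univ.filter (fun i => f i = none), g i (N + 1)) ≤ l9aBlk ms N g f none := by
    unfold l9aBlk
    split_ifs with he
    · rw [l9a_mw_sum ms N (fun k => ∏ i ∈ Finset.univ.filter (fun i => f i = none), g i k)]
      have := hS0 none
      linarith
    · refine le_of_eq (Finset.prod_eq_one fun i hi => ?_)
      exact absurd ⟨i, (Finset.mem_filter.mp hi).2⟩ he
  have hs : ∀ s : Fin r, (if fl s = true then
        ∑ k ∈ Finset.range (N + 1), l9aMu ms k * ∏ i ∈ Finset.univ.filter (fun i => f i = some s), g i k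
        else 1) ≤ max 1 (ms N) * l9aBlk ms N g f (some s) := by
    intro s
    unfold l9aBlk
    by_cases he : ∃ i, f i = some s
    · obtain ⟨i0, hi0⟩ := he
      rw [if_pos (hgood _ _ hi0), if_pos ⟨i0, hi0⟩,
        l9a_mw_sum ms N (fun k => ∏ i ∈ Finset.univ.filter (fun i => f i = some s), g i k)]
      have h1 := hS0 (some s)
      have h2 : 0 ≤ ∏ i ∈ Finset.univ.filter (fun i => f i = some s), g i (N + 1) :=
        Finset.prod_nonneg fun i _ => hg _ _
      nlinarith
    · rw [if_neg he, mul_one]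
      have hemp : Finset.univ.filter (fun i => f i = some s) = ∅ := by
        rw [Finset.filter_eq_empty_iff]
        exact fun i _ hi => he ⟨i, hi⟩
      split_ifs
      · simp only [hemp, Finset.prod_empty, mul_one]
        rw [l9a_mu_sum]
        exact le_max_right _ _
      · exact hA
  have hT0 : ∀ s : Fin r, 0 ≤ (if fl s = true then
        ∑ k ∈ Finset.range (N + 1), l9aMu ms k * ∏ i ∈ Finset.univ.filter (fun i => f i = some s), g i k
        else 1) := by
    intro s
    split_ifs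
    · exact hS0 (some s)
    · exact zero_le_one
  refine mul_le_mul h0 ?_ (Finset.prod_nonneg fun s _ => hT0 s) (hb0 none)
  calc (∏ s : Fin r, if fl s = true then
          ∑ k ∈ Finset.range (N + 1), l9aMu ms k * ∏ i ∈ Finset.univ.filter (fun i => f i = some s), g i k
          else 1)
        ≤ ∏ s : Fin r, max 1 (ms N) * l9aBlk ms N g f (some s) :=
          Finset.prod_le_prod (fun s _ => hT0 s) (fun s _ => hs s)
      _ = (max 1 (ms N)) ^ r * ∏ s : Fin r, l9aBlk ms N g f (some s) := by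
          rw [Finset.prod_mul_distrib]
          simp

/-- **marginal of finitely many pairs**, sum over the charts -/
theorem l9a_marg_chart {N r : ℕ} {ms : ℕ → ℝ} (hms : IsMs N ms) {ι : Type} [Fintype ι] (a b : ι → Fin r)
    (g : ι → ℕ → ℝ) (hg : ∀ i k, 0 ≤ g i k) :
    ∑ τ ∈ l9aTab N r, |l9aWt ms N 1 r τ| * ∏ i, g i (τ (a i) (b i))
      ≤ ((max 1 (r * ms N)) ^ r * (max 1 (ms N)) ^ r) * ∑ χ : L9aChart r,
          ∏ o, l9aBlk ms N g (fun i => χ.1 (a i) (b i)) o := by
  classical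
  refine (l9a_dens_pairs hms a b g hg).trans ?_
  rw [mul_assoc]
  refine mul_le_mul_of_nonneg_left ?_ (by positivity)
  rw [Finset.mul_sum, Finset.sum_filter]
  refine Finset.sum_le_sum fun χ _ => ?_
  have hA0 : (0 : ℝ) ≤ max 1 (ms N) := le_trans zero_le_one (le_max_left _ _)
  split_ifs with hgood
  · exact l9a_marg_one_chart hms (fun i => χ.1 (a i) (b i)) χ.2 (fun i s h => hgood _ _ _ h) g hg
  · exact mul_nonneg (pow_nonneg hA0 _) (Finset.prod_nonneg fun o _ => l9a_blk_nonneg hms hg _ o)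

/-- **total mass** of the absolute allocation measure -/
theorem l9a_total {N r : ℕ} {ms : ℕ → ℝ} (hms : IsMs N ms) :
    ∑ τ ∈ l9aTab N r, |l9aWt ms N 1 r τ| ≤ l9aC r (ms N) := by
  have h := l9a_marg_chart (r := r) hms (ι := Fin 0) (fun i => i.elim0) (fun i => i.elim0) (fun _ _ => 0) (fun _ _ => le_rfl)
  simp only [Finset.univ_eq_empty, Finset.prod_empty, mul_one] at h
  refine h.trans (le_of_eq ?_)
  have : ∀ χ : L9aChart r, ∏ o, l9aBlk ms N (fun (_ : Fin 0) _ => (0 : ℝ)) (fun i => χ.1 (i.elim0) (i.elim0)) o = 1 := by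
    intro χ
    refine Finset.prod_eq_one fun o _ => ?_
    unfold l9aBlk
    rw [if_neg (fun ⟨i, _⟩ => i.elim0)]
  simp only [this]
  unfold l9aC
  simp
  ring

/-- **ONE-pair marginal**: bounded density of the split level of a pair (with an atom at the coincidence level `N + 1`) -/
theorem l9a_marg {N r : ℕ} {ms : ℕ → ℝ} (hms : IsMs N ms) (a b : Fin r) (g : ℕ → ℝ) (hg : ∀ k, 0 ≤ g k) :
    ∑ τ ∈ l9aTab N r, |l9aWt ms N 1 r τ| * g (τ a b)
      ≤ l9aC r (ms N) * ∑ k ∈ Finset.range (N + 2), l9aMw ms N k * g k := by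
  classical
  have h := l9a_marg_chart hms (ι := Unit) (fun _ => a) (fun _ => b) (fun _ => g) (fun _ => hg)
  simp only [Finset.univ_unique, Finset.prod_singleton] at h
  refine h.trans (le_of_eq ?_)
  have : ∀ χ : L9aChart r, ∏ o, l9aBlk ms N (fun (_ : Unit) => g) (fun _ => χ.1 a b) o
      = ∑ k ∈ Finset.range (N + 2), l9aMw ms N k * g k := by
    intro χ
    rw [Finset.prod_eq_single (χ.1 a b)]
    · unfold l9aBlk
      rw [if_pos ⟨(), rfl⟩]
      simp
    · intro o _ ho
      unfold l9aBlk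
      rw [if_neg (fun ⟨_, h⟩ => ho h.symm)]
    · intro h; exact absurd (Finset.mem_univ _) h
  simp only [this]
  unfold l9aC
  simp
  ring

/-- **marginal of finitely many pairs**: sum over the ways to distribute the pairs on the vertices -/
theorem l9a_marg_pairs {N r : ℕ} {ms : ℕ → ℝ} (hms : IsMs N ms) {ι : Type} [Fintype ι] [DecidableEq ι] (a b : ι → Fin r)
    (g : ι → ℕ → ℝ) (hg : ∀ i k, 0 ≤ g i k) :
    ∑ τ ∈ l9aTab N r, |l9aWt ms N 1 r τ| * ∏ i, g i (τ (a i) (b i))
      ≤ l9aC r (ms N) * ∑ f : ι → Option (Fin r), ∏ o, l9aBlk ms N g f o := by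
  classical
  refine (l9a_marg_chart hms a b g hg).trans ?_
  have h1 : ∀ χ : L9aChart r, ∏ o, l9aBlk ms N g (fun i => χ.1 (a i) (b i)) o
      ≤ ∑ f : ι → Option (Fin r), ∏ o, l9aBlk ms N g f o := fun χ =>
    Finset.single_le_sum (f := fun f : ι → Option (Fin r) => ∏ o, l9aBlk ms N g f o)
      (fun f _ => Finset.prod_nonneg fun o _ => l9a_blk_nonneg hms hg f o) (Finset.mem_univ _)
  have h2 := Finset.sum_le_sum (s := (Finset.univ : Finset (L9aChart r))) fun χ _ => h1 χ
  rw [Finset.sum_const, Finset.card_univ, nsmul_eq_mul] at h2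
  calc _ ≤ ((max 1 (r * ms N)) ^ r * (max 1 (ms N)) ^ r) *
        (Fintype.card (L9aChart r) * ∑ f : ι → Option (Fin r), ∏ o, l9aBlk ms N g f o) :=
        mul_le_mul_of_nonneg_left h2 (by positivity)
    _ = _ := by unfold l9aC; ring

/-! ### the same on the finite TYPE of the trees (for `L9hWt` of `L09/HiAbs.lean`: fields `tm`, `sm` with `aw τ = B * |wt τ|`) -/

/-- the finite type of the normalised trees -/
abbrev L9aTr (N r : ℕ) : Type := {τ : ℕ → ℕ → ℕ // τ ∈ l9aTab N r}

theorem l9a_total_tr {N r : ℕ} {ms : ℕ → ℝ} (hms : IsMs N ms) {B : ℝ} (hB : 0 ≤ B) :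
    ∑ τ : L9aTr N r, B * |l9aWt ms N 1 r τ.1| ≤ B * l9aC r (ms N) := by
  rw [← Finset.mul_sum, Finset.sum_coe_sort (l9aTab N r) (fun τ => |l9aWt ms N 1 r τ|)]
  exact mul_le_mul_of_nonneg_left (l9a_total hms) hB

theorem l9a_marg_tr {N r : ℕ} {ms : ℕ → ℝ} (hms : IsMs N ms) {B : ℝ} (hB : 0 ≤ B) (a b : Fin r) (g : ℕ → ℝ)
    (hg : ∀ k, 0 ≤ g k) :
    ∑ τ : L9aTr N r, B * |l9aWt ms N 1 r τ.1| * g (τ.1 a b)
      ≤ B * l9aC r (ms N) * ∑ k ∈ Finset.range (N + 2), l9aMw ms N k * g k := by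
  simp only [mul_assoc]
  rw [← Finset.mul_sum, Finset.sum_coe_sort (l9aTab N r) (fun τ => |l9aWt ms N 1 r τ| * g (τ a b))]
  exact mul_le_mul_of_nonneg_left (l9a_marg hms a b g hg) hB

theorem l9a_marg_eqns_cite : True := by
  have := @l9aMuT.eq_1
  have := @l9aMw.eq_1
  have := @l9aC.eq_1
  have := @L9aGood.eq_1
  have := @l9aBlk.eq_1
  trivial

end Claimed.Agent.R286
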