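import Claimed.Agent.R286.L09.RedC
import Claimed.Agent.R286.L09.CCTab
import Claimed.Agent.R286.L09.Marg

/-!
# Row 286 (S0533), unit L09, node W5: WEIGHTS.   THE REGIONS WHICH SATISFY (E2) WITHOUT COMPRESSION      (owner helper299 = head of W5; head of the unit helper60; prefix `l9w`, `L9w`)

TEX[LL:exp:lem-centered-count] 09-expansion.tex l.292-306 (`j + l ≥ 5`: `∏ dv_s = w^l ∏ dv_s / w ≲ w^(5-j) ∏ dv_s / w`), l.396-411 (direct terms with a mass bounded below; all the degrees `≥ 5`; size: `w ≲ V_2 ≪ λ`).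

PRODUCES (vocabulary of 282, `L09/Bnd.lean`, `L09/RedC.lean`):   `L9BndSg (l9RgL5 x^(a_2))`  (`l9w_S5`),   `L9BndDg (l9RgHi c_D)`  (`l9w_DHi`),   `L9BndDg (l9RgL5 c_D)`  (`l9w_D5`).

ONE POINT `Q : L9Q`.      SUPPLIES = predicates on `Q`:
* `Q.CCw Mj e A vt K J0`   **Lemma 9.1 ON FULL TABLES, ANY DEGREE `2 ≤ n ≤ J0`, factors `Δ`** (`l9rNum`), LINEAR in the prefactor `L0`;  the `n - |R|` deterministic factors are in the coefficient (`∏_{i ∉ R} e(v_i)`);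
                           a designated fork pays `dv / w`, another fork pays ANY measure `om` of mass `≤ 8`, a label which creates no fork pays `1`.      `l9w_cc_of_tab`: PROVED from the table level of 30 (`L9cD`, `L9cT`, `D.val`).
* `Q.Co A T0 vt e g J0`    bound of the REAL coefficient `Q.co n R τ` (`O` applied to `κ_K ∏ b ∏ d`):  `≤ A T0 ∏_{i ∉ R} e(v_i) ∏_{other forks} (1 + g)`;  parity for `n = 2`;  `Q.coq`.      Producer: `L09/W5Co.lean`.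
* `Q.Adm δm`               (282) the chain.
CUT:   ADAPTER (`l9w_cc_of_tab`) | BANDS (`l9w_bands`) | TERM (`l9w_term`: one monomial, one region) | COEF (`l9w_H_le`, `l9w_Hq_le`) | POINT (`l9w_point`) | NUM (`l9w_num_*`) | EXITS.
-/

set_option autoImplicit false

namespace Claimed.Agent.R286

open scoped BigOperators Nat
open Filter

noncomputable section

def l9wDes (n : ℕ) (τ : JtTopo) (s : ℕ) : Prop := ∃ i, i < n ∧ l9aVx τ (2 * i) (2 * i + 1) = s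

open Classical in
def l9wSl (ms : ℕ → ℝ) (N : ℕ) (w : ℝ) (om : ℕ → ℝ) (n : ℕ) (τ : JtTopo) (s : ℕ) : ℝ :=
  if L9aNew N τ s then (if l9wDes n τ s then l9aMu ms (l9aBj τ s) / w else om (l9aBj τ s)) else 1

open Classical in
def l9wRat (n : ℕ) (β : ℕ → ℕ) (τ : JtTopo) : ℝ :=
  if n = 2 ∧ l9aVx τ 0 1 ≠ l9aVx τ 2 3 then min ((2 : ℝ) ^ β 0) ((2 : ℝ) ^ β 1) / (2 : ℝ) ^ ((Finset.range n).sup β) else 1

/-- the term of 30 for the stochastic set `St ⊆ R` -/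
def l9wT {S : Type} (D : L9cD S) (qf : ℕ → ℝ) (n : ℕ) (R St : Finset ℕ) (β : ℕ → ℕ) (om : ℕ → ℝ) (B : JtTopo → ℝ) (c : ℝ) : L9cT where
  j := n
  St := St
  phi := fun i t => if i ∈ R then D.Sf t - qf t else D.env t
  V := fun i t => D.rg t ∧ D.sc t = 2 ^ β i
  a := fun i => 2 ^ β i
  A := 2 ^ ((Finset.range n).sup β)
  om := om
  H := fun τ => c * B τ / ∏ i ∈ Finset.range n \ R, D.env (τ (2 * i) (2 * i + 1))

end

section adapter
variable {S : Type} [Fintype S] [Inhabited S]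

theorem l9w_nu_mul_const {X : JtCtx S} (hX : L9rPos X) {q : ℕ} {τ : ℕ → ℕ → ℕ} (hτ : IsTr X.N q τ) (P : (ℕ → S) → ℝ) (c : ℝ) :
    X.nu q τ (fun σ => P σ * c) = X.nu q τ P * c := by
  obtain ⟨w, -, -, hrep⟩ := hX.rep q τ hτ
  simp only [hrep, Finset.sum_mul, mul_assoc]

/-- `ν[∏_{i ∈ St} δ_i]` -/
def l9wNd (D : L9cD S) (e : Bool) (n : ℕ) (St : Finset ℕ) (τ : JtTopo) : ℝ :=
  (D.X e).nu (2 * n) τ fun σ => ∏ i ∈ St, D.dl e (l9cDp τ i) (σ (2 * i)) (σ (2 * i + 1))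

/-- `Δ = δ + f` -/
theorem l9w_expand {D : L9cD S} (hD : D.Ok) {qf : ℕ → ℝ} (e : Bool) (hq : (D.X e).qC = qf) (n : ℕ) (R : Finset ℕ) {τ : JtTopo}
    (hτ : IsTr D.N (2 * n) τ) :
    l9rNum (D.X e) R (2 * n) τ = ∑ St ∈ R.powerset, l9wNd D e n St τ * ∏ i ∈ R \ St, (D.Sf (l9cDp τ i) - qf (l9cDp τ i)) := by
  have hτ' : IsTr (D.X e).N (2 * n) τ := by rw [hD.N_eq e]; exact hτ
  unfold l9rNum l9wNd
  have e1 : (fun σ : ℕ → S => ∏ i ∈ R, (D.X e).Dl τ σ (2 * i) (2 * i + 1))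
      = fun σ => ∑ St ∈ R.powerset, (∏ i ∈ St, D.dl e (l9cDp τ i) (σ (2 * i)) (σ (2 * i + 1)))
          * ∏ i ∈ R \ St, (D.Sf (l9cDp τ i) - qf (l9cDp τ i)) := by
    funext σ
    rw [← Finset.prod_add]
    refine Finset.prod_congr rfl fun i _ => ?_
    unfold JtCtx.Dl JtCtx.Qs L9cD.dl l9cDp
    rw [hq]
    ring
  rw [e1, l9r_nu_sum (hD.pos e) hτ']
  exact Finset.sum_congr rfl fun St _ => l9w_nu_mul_const (hD.pos e) hτ' _ _

/-- the number of 30 -/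
theorem l9w_T_num {D : L9cD S} (hD : D.Ok) (qf : ℕ → ℝ) (e : Bool) {n : ℕ} {R St : Finset ℕ} (hR : R ⊆ Finset.range n) (hSt : St ⊆ R)
    (β : ℕ → ℕ) (om : ℕ → ℝ) (B : JtTopo → ℝ) (c : ℝ) {τ : JtTopo} (hτ : IsTr D.N (2 * n) τ) :
    D.num (l9wT D qf n R St β om B c) e τ
      = l9wNd D e n St τ * ((∏ i ∈ R \ St, (D.Sf (l9cDp τ i) - qf (l9cDp τ i))) * ∏ i ∈ Finset.range n \ R, D.env (l9cDp τ i)) := by
  have hτ' : IsTr (D.X e).N (2 * n) τ := by rw [hD.N_eq e]; exact hτ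
  unfold L9cD.num l9wNd
  show (D.X e).nu (2 * n) τ (fun σ => ∏ i ∈ Finset.range n, D.fac (l9wT D qf n R St β om B c) e τ σ i) = _
  rw [← l9w_nu_mul_const (hD.pos e) hτ']
  congr 1
  funext σ
  have hSn : St ⊆ Finset.range n := hSt.trans hR
  rw [← Finset.prod_sdiff hSn, mul_comm]
  congr 1
  · refine Finset.prod_congr rfl fun i hi => ?_
    unfold L9cD.fac
    rw [if_pos (show i ∈ (l9wT D qf n R St β om B c).St from hi)]
  · have hsub : R \ St ⊆ Finset.range n \ St := Finset.sdiff_subset_sdiff hR le_rfl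
    rw [← Finset.prod_sdiff hsub, mul_comm]
    have e2 : (Finset.range n \ St) \ (R \ St) = Finset.range n \ R := by
      ext i
      simp only [Finset.mem_sdiff]
      constructor
      · rintro ⟨⟨h1, h2⟩, h3⟩
        exact ⟨h1, fun h => h3 ⟨h, h2⟩⟩
      · rintro ⟨h1, h2⟩
        exact ⟨⟨h1, fun h => h2 (hSt h)⟩, fun h => h2 h.1⟩
    rw [e2]
    congr 1
    · refine Finset.prod_congr rfl fun i hi => ?_
      unfold L9cD.fac
      rw [if_neg (show ¬ i ∈ (l9wT D qf n R St β om B c).St from (Finset.mem_sdiff.1 hi).2)]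
      show (if i ∈ R then _ else _) = _
      rw [if_pos (Finset.mem_sdiff.1 hi).1]
    · refine Finset.prod_congr rfl fun i hi => ?_
      unfold L9cD.fac
      rw [if_neg (show ¬ i ∈ (l9wT D qf n R St β om B c).St from fun h => (Finset.mem_sdiff.1 hi).2 (hSt h))]
      show (if i ∈ R then _ else _) = _
      rw [if_neg (Finset.mem_sdiff.1 hi).2]


theorem l9w_sl_nonneg {N : ℕ} {ms : ℕ → ℝ} (hms : IsMs N ms) {w : ℝ} (hw : 0 ≤ w) {om : ℕ → ℝ} (hom : ∀ t, 0 ≤ om t) (n : ℕ) (τ : JtTopo) (s : ℕ) :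
    0 ≤ l9wSl ms N w om n τ s := by
  unfold l9wSl
  split_ifs with h1 h2
  · exact div_nonneg (l9a_mu_nonneg hms h1.2.1) hw
  · exact hom _
  · exact zero_le_one

theorem l9w_rat_nonneg (n : ℕ) (β : ℕ → ℕ) (τ : JtTopo) : 0 ≤ l9wRat n β τ := by
  unfold l9wRat
  split_ifs
  · positivity
  · exact zero_le_one

theorem l9w_T_ok {D : L9cD S} (hD : D.Ok) {qf : ℕ → ℝ} (hLm1 : 1 ≤ D.Lm) (hLo8 : 8 ≤ D.Lo)
    (hf : ∀ t, D.rg t → |D.Sf t - qf t| ≤ D.Lm * D.env t) (hfM : ∀ t, D.rg t → |D.Sf t - qf t| ≤ D.M) (heM : ∀ t, D.rg t → D.env t ≤ D.M)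
    {n : ℕ} (hn : 2 ≤ n) (hnp : n ≤ D.p0) {R St : Finset ℕ} (hR : R ⊆ Finset.range n) (hSt : St ⊆ R) (β : ℕ → ℕ) {om : ℕ → ℝ}
    (hom0 : ∀ t, 0 ≤ om t) (hom : ∑ t ∈ Finset.range (D.N + 2), om t ≤ 8) (B : JtTopo → ℝ) {L0 : ℝ} (hL0 : 0 < L0)
    (hsupp : ∀ τ, B τ ≠ 0 → ∀ i, i < n → D.rg (l9cDp τ i) ∧ D.sc (l9cDp τ i) = 2 ^ β i)
    (hB : ∀ τ ∈ l9aTab D.N (2 * n), |B τ| ≤ L0 * (D.Sc.lam * (l9Bw D.Sc.Y n β ^ 5 / l9Bw D.Sc.Y n β ^ n)
      * (∏ i ∈ Finset.range n \ R, D.env (l9cDp τ i)) * l9wRat n β τ * ∏ s ∈ Finset.Ico 1 (2 * n), l9wSl D.ms D.N (l9Bw D.Sc.Y n β) om n τ s)) :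
    (l9wT D qf n R St β om B L0⁻¹).Ok D where
  hj := hn
  hjp := hnp
  hSt := hSt.trans hR
  ha1 := fun i _ => one_le_pow₀ (by norm_num)
  haA := fun i hi => pow_le_pow_right₀ (by norm_num) (Finset.le_sup (f := β) (Finset.mem_range.2 hi))
  hmax := by
    obtain ⟨i, hi, he⟩ := Finset.exists_mem_eq_sup (Finset.range n) ⟨0, Finset.mem_range.2 (by omega)⟩ β
    exact ⟨i, Finset.mem_range.1 hi, by show (2 : ℝ) ^ β i = 2 ^ ((Finset.range n).sup β); rw [he]⟩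
  hV := fun i t _ h => h
  hphi := by
    intro i t _ _ hV
    show |if i ∈ R then D.Sf t - qf t else D.env t| ≤ _
    split_ifs
    · exact hf t hV.1
    · rw [abs_of_nonneg (hD.env0 t)]
      exact le_mul_of_one_le_left (hD.env0 t) hLm1
  hphiM := by
    intro i t _ _ hV
    show |if i ∈ R then D.Sf t - qf t else D.env t| ≤ _
    split_ifs
    · exact hfM t hV.1
    · rw [abs_of_nonneg (hD.env0 t)]
      exact heM t hV.1
  hom0 := hom0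
  hom1 := hom.trans hLo8
  supp := by
    intro τ _ hH i hi
    have hB0 : B τ ≠ 0 := by
      intro h0
      apply hH
      show L0⁻¹ * B τ / _ = 0
      rw [h0, mul_zero, zero_div]
    exact hsupp τ hB0 i hi
  e2 := by
    intro τ hτ
    have hY := D.Sc.Y_pos
    have hw : 0 < l9Bw D.Sc.Y n β := by unfold l9Bw; positivity
    set w := l9Bw D.Sc.Y n β with hwdef
    set X : ℝ := D.Sc.lam * (w ^ 5 / w ^ n) * l9wRat n β τ * ∏ s ∈ Finset.Ico 1 (2 * n), l9wSl D.ms D.N w om n τ s with hX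
    have hX0 : 0 ≤ X := by
      refine mul_nonneg (mul_nonneg (mul_nonneg D.Sc.hlam.le (by positivity)) (l9w_rat_nonneg _ _ _)) ?_
      exact Finset.prod_nonneg fun s _ => l9w_sl_nonneg hD.hms hw.le hom0 _ _ _
    have hR1 : D.Lo * D.Sc.lam * ((l9wT D qf n R St β om B L0⁻¹).A * D.Sc.Y) ^ ((5 : ℤ) - ((l9wT D qf n R St β om B L0⁻¹).j : ℕ))
        * l9cKap (l9wT D qf n R St β om B L0⁻¹) τ * ∏ s ∈ Finset.Ico 1 (2 * (l9wT D qf n R St β om B L0⁻¹).j), l9cWt D (l9wT D qf n R St β om B L0⁻¹) τ s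
        = D.Lo * X := by
      have e1 : ((l9wT D qf n R St β om B L0⁻¹).A * D.Sc.Y) ^ ((5 : ℤ) - ((l9wT D qf n R St β om B L0⁻¹).j : ℕ)) = w ^ 5 / w ^ n := by
        show w ^ ((5 : ℤ) - (n : ℕ)) = _
        rw [zpow_sub₀ hw.ne', zpow_natCast]
        norm_cast
      have e2 : l9cKap (l9wT D qf n R St β om B L0⁻¹) τ = l9wRat n β τ := rfl
      have e3 : ∀ s, l9cWt D (l9wT D qf n R St β om B L0⁻¹) τ s = l9wSl D.ms D.N w om n τ s := by
        intro s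
        unfold l9cWt l9wSl l9wDes
        by_cases h1 : L9aNew D.N τ s
        · rw [if_pos h1, if_pos h1]
          by_cases h2 : ∃ i, i < n ∧ l9aVx τ (2 * i) (2 * i + 1) = s
          · rw [if_pos h2, if_pos (show ∃ i, i < (l9wT D qf n R St β om B L0⁻¹).j ∧ l9aVx τ (2 * i) (2 * i + 1) = s from h2)]
            rfl
          · rw [if_neg h2, if_neg (show ¬ ∃ i, i < (l9wT D qf n R St β om B L0⁻¹).j ∧ l9aVx τ (2 * i) (2 * i + 1) = s from h2)]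
            rfl
        · rw [if_neg h1, if_neg h1]
      rw [e1, e2, hX]
      simp only [e3]
      show _ * ∏ s ∈ Finset.Ico 1 (2 * n), _ = _
      ring
    rw [hR1]
    have hLo1 : (1 : ℝ) ≤ D.Lo := hD.hLo
    refine le_trans ?_ (le_mul_of_one_le_left hX0 hLo1)
    show |L0⁻¹ * B τ / ∏ i ∈ Finset.range n \ R, D.env (τ (2 * i) (2 * i + 1))| ≤ X
    by_cases hB0 : B τ = 0
    · rw [hB0, mul_zero, zero_div, abs_zero]; exact hX0
    · have hE : 0 < ∏ i ∈ Finset.range n \ R, D.env (τ (2 * i) (2 * i + 1)) :=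
        Finset.prod_pos fun i hi => hD.envp _ (hsupp τ hB0 i (Finset.mem_range.1 (Finset.mem_sdiff.1 hi).1)).1
      rw [abs_div, abs_mul, abs_of_pos hE, abs_of_pos (inv_pos.2 hL0), div_le_iff₀ hE, inv_mul_le_iff₀ hL0]
      refine (hB τ hτ).trans (le_of_eq ?_)
      rw [hX]
      unfold l9cDp
      ring


/-- **ADAPTER, abstract form**: the table level of 30 for the `2^|R|` terms of `Δ = δ + f` -/
theorem l9w_cc_abs {D : L9cD S} (hD : D.Ok) {qf : ℕ → ℝ} (hq : ∀ e, (D.X e).qC = qf) (hLm1 : 1 ≤ D.Lm) (hLo8 : 8 ≤ D.Lo)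
    (hf : ∀ t, D.rg t → |D.Sf t - qf t| ≤ D.Lm * D.env t) (hfM : ∀ t, D.rg t → |D.Sf t - qf t| ≤ D.M) (heM : ∀ t, D.rg t → D.env t ≤ D.M)
    {J0 : ℕ} (hp0 : J0 ≤ D.p0) {Bd : ℝ} (hBd : ∀ T : L9cT, T.Ok D → T.j ≤ J0 → |D.val T| ≤ Bd)
    {n : ℕ} (hn : 2 ≤ n) (hnJ : n ≤ J0) {R : Finset ℕ} (hR : R ⊆ Finset.range n) (β : ℕ → ℕ) {om : ℕ → ℝ}
    (hom0 : ∀ t, 0 ≤ om t) (hom : ∑ t ∈ Finset.range (D.N + 2), om t ≤ 8) (B : JtTopo → ℝ) {L0 : ℝ} (hL0 : 0 ≤ L0)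
    (hsupp : ∀ τ, B τ ≠ 0 → ∀ i, i < n → D.rg (l9cDp τ i) ∧ D.sc (l9cDp τ i) = 2 ^ β i)
    (hB : ∀ τ ∈ l9aTab D.N (2 * n), |B τ| ≤ L0 * (D.Sc.lam * (l9Bw D.Sc.Y n β ^ 5 / l9Bw D.Sc.Y n β ^ n)
      * (∏ i ∈ Finset.range n \ R, D.env (l9cDp τ i)) * l9wRat n β τ * ∏ s ∈ Finset.Ico 1 (2 * n), l9wSl D.ms D.N (l9Bw D.Sc.Y n β) om n τ s)) :
    |∑ τ ∈ l9aTab D.N (2 * n), B τ * (l9rNum (D.X true) R (2 * n) τ - l9rNum (D.X false) R (2 * n) τ)| ≤ L0 * (2 ^ n * Bd) := by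
  rcases hL0.eq_or_lt with h0 | hpos
  · have hz : ∀ τ ∈ l9aTab D.N (2 * n), B τ * (l9rNum (D.X true) R (2 * n) τ - l9rNum (D.X false) R (2 * n) τ) = 0 := by
      intro τ hτ
      have := hB τ hτ
      rw [← h0, zero_mul] at this
      rw [abs_nonpos_iff.1 this, zero_mul]
    rw [Finset.sum_eq_zero hz, abs_zero, ← h0, zero_mul]
  · have hok : ∀ St ∈ R.powerset, (l9wT D qf n R St β om B L0⁻¹).Ok D := fun St hSt =>
      l9w_T_ok hD hLm1 hLo8 hf hfM heM hn (hnJ.trans hp0) hR (Finset.mem_powerset.1 hSt) β hom0 hom B hpos hsupp hB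
    have hval : ∀ St ∈ R.powerset, D.val (l9wT D qf n R St β om B L0⁻¹)
        = L0⁻¹ * ∑ τ ∈ l9aTab D.N (2 * n), B τ * ((l9wNd D true n St τ - l9wNd D false n St τ)
            * ∏ i ∈ R \ St, (D.Sf (l9cDp τ i) - qf (l9cDp τ i))) := by
      intro St hSt
      unfold L9cD.val
      rw [Finset.mul_sum]
      show ∑ τ ∈ l9aTab D.N (2 * n), _ = _
      refine Finset.sum_congr rfl fun τ hτ => ?_
      have hτ' : IsTr D.N (2 * n) τ := (l9a_mem_tab.1 hτ).1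
      unfold L9cD.dnum
      rw [l9w_T_num hD qf true hR (Finset.mem_powerset.1 hSt) β om B _ hτ', l9w_T_num hD qf false hR (Finset.mem_powerset.1 hSt) β om B _ hτ']
      show L0⁻¹ * B τ / (∏ i ∈ Finset.range n \ R, D.env (τ (2 * i) (2 * i + 1))) * _ = _
      by_cases hB0 : B τ = 0
      · rw [hB0]; ring
      · have hE : (∏ i ∈ Finset.range n \ R, D.env (τ (2 * i) (2 * i + 1))) ≠ 0 :=
          (Finset.prod_pos fun i hi => hD.envp _ (hsupp τ hB0 i (Finset.mem_range.1 (Finset.mem_sdiff.1 hi).1)).1).ne'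
        unfold l9cDp
        field_simp
    have hsum : ∑ St ∈ R.powerset, D.val (l9wT D qf n R St β om B L0⁻¹)
        = L0⁻¹ * ∑ τ ∈ l9aTab D.N (2 * n), B τ * (l9rNum (D.X true) R (2 * n) τ - l9rNum (D.X false) R (2 * n) τ) := by
      rw [Finset.sum_congr rfl hval, ← Finset.mul_sum, Finset.sum_comm]
      congr 1
      refine Finset.sum_congr rfl fun τ hτ => ?_
      have hτ' : IsTr D.N (2 * n) τ := (l9a_mem_tab.1 hτ).1
      rw [l9w_expand hD true (hq true) n R hτ', l9w_expand hD false (hq false) n R hτ', ← Finset.sum_sub_distrib, Finset.mul_sum]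
      exact Finset.sum_congr rfl fun St _ => by ring
    have hBd0 : 0 ≤ Bd := (abs_nonneg _).trans (hBd _ (hok ∅ (Finset.empty_mem_powerset R)) hnJ)
    have h1 : |∑ St ∈ R.powerset, D.val (l9wT D qf n R St β om B L0⁻¹)| ≤ 2 ^ n * Bd := by
      refine (Finset.abs_sum_le_sum_abs _ _).trans ?_
      refine (Finset.sum_le_sum fun St hSt => hBd _ (hok St hSt) hnJ).trans ?_
      rw [Finset.sum_const, nsmul_eq_mul, Finset.card_powerset]
      refine mul_le_mul_of_nonneg_right ?_ hBd0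
      push_cast
      refine pow_le_pow_right₀ (by norm_num) ?_
      simpa using Finset.card_le_card hR
    rw [hsum, abs_mul, abs_of_pos (inv_pos.2 hpos), inv_mul_le_iff₀ hpos] at h1
    exact h1

end adapter


namespace L9Q

variable (Q : L9Q) (Mj : L9Mj)

/-- **(E2)** on the full tables, band vector `β` -/
noncomputable def E2w (e om : ℕ → ℝ) (n : ℕ) (R : Finset ℕ) (β : ℕ → ℕ) (τ : JtTopo) : ℝ :=
  Q.lam * (l9Bw (Q.Y Mj) n β ^ 5 / l9Bw (Q.Y Mj) n β ^ n) * (∏ i ∈ Finset.range n \ R, e (τ (2 * i) (2 * i + 1))) * l9wRat n β τ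
    * ∏ s ∈ Finset.Ico 1 (2 * n), l9wSl Q.ms Q.N (l9Bw (Q.Y Mj) n β) om n τ s

/-- the base pairs are different leaves, in the bands `β`, at masses `≤ vt` -/
def InB (vt : ℝ) (n : ℕ) (β : ℕ → ℕ) (τ : JtTopo) : Prop :=
  ∀ i, i < n → τ (2 * i) (2 * i + 1) ≤ Q.N ∧ l9Band (Q.Y Mj) (β i) (Q.vm τ i) ∧ Q.vm τ i ≤ vt

/-- tilted minus untilted -/
noncomputable def dNum (R : Finset ℕ) (n : ℕ) (τ : JtTopo) : ℝ := l9rNum (Q.X true) R (2 * n) τ - l9rNum (Q.X false) R (2 * n) τ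

/-- **CC = Lemma 9.1 on full tables, any degree** -/
def CCw (e : ℕ → ℝ) (A vt K : ℝ) (J0 : ℕ) : Prop :=
  ∀ n, 2 ≤ n → n ≤ J0 → ∀ R, R ⊆ Finset.range n → ∀ (β : ℕ → ℕ) (om : ℕ → ℝ), (∀ t, 0 ≤ om t) →
    ∑ t ∈ Finset.range (Q.N + 2), om t ≤ 8 →
    ∀ (B : JtTopo → ℝ) (L0 : ℝ), 0 ≤ L0 → (∀ τ, B τ ≠ 0 → Q.InB Mj vt n β τ) →
      (∀ τ ∈ l9aTab Q.N (2 * n), |B τ| ≤ L0 * Q.E2w Mj e om n R β τ) →
      |∑ τ ∈ l9aTab Q.N (2 * n), B τ * Q.dNum R n τ| ≤ L0 * (A * Q.E3 Mj K)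

end L9Q

/-- the data of 30 at the point `Q` -/
structure L9wAt (Q : L9Q) (Mj : L9Mj) (vt : ℝ) (J0 : ℕ) (D : L9cD (SkCfg Q.I.m)) : Prop where
  ok : D.Ok
  X : D.X = Q.X
  ms : D.ms = Q.ms
  lam : D.Sc.lam = Q.lam
  Y : D.Sc.Y = Q.Y Mj
  Lm1 : 1 ≤ D.Lm
  Lo8 : 8 ≤ D.Lo
  p0 : J0 ≤ D.p0
  rg : ∀ t, t ≤ Q.N → Q.ms t ≤ vt → D.rg t
  sc : ∀ t k, D.rg t → l9Band (Q.Y Mj) k (Q.ms t) → D.sc t = 2 ^ k
  /-- `|S - q| ≲ e` -/
  f_le : ∀ t, D.rg t → |D.Sf t - (Q.X false).qC t| ≤ D.Lm * D.env t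
  f_M : ∀ t, D.rg t → |D.Sf t - (Q.X false).qC t| ≤ D.M
  e_M : ∀ t, D.rg t → D.env t ≤ D.M

/-- **ADAPTER**: the table level of 30 at the point `Q` gives `CCw`, envelope `e = D.env` -/
theorem l9w_cc_of_tab {Q : L9Q} {Mj : L9Mj} {vt : ℝ} {J0 : ℕ} {D : L9cD (SkCfg Q.I.m)} (h : L9wAt Q Mj vt J0 D) {Bd A K : ℝ} (hBd0 : 0 ≤ Bd)
    (hBd : ∀ T : L9cT, T.Ok D → T.j ≤ J0 → |D.val T| ≤ Bd) (hA : 2 ^ J0 * Bd ≤ A * Q.E3 Mj K) : Q.CCw Mj D.env A vt K J0 := by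
  intro n hn hnJ R hR β om hom0 hom B L0 hL0 hsupp hB
  have hN : D.N = Q.N := by
    unfold L9cD.N
    rw [h.X]
    rfl
  have hq : ∀ e, (D.X e).qC = (Q.X false).qC := by
    intro e
    rw [h.X]
    cases e <;> rfl
  have key := l9w_cc_abs h.ok hq h.Lm1 h.Lo8 h.f_le h.f_M h.e_M h.p0 hBd hn hnJ hR β hom0 (by rw [hN]; exact hom) B hL0
    (fun τ hτ i hi => by
      obtain ⟨h1, h2, h3⟩ := hsupp τ hτ i hi
      have hr : D.rg (l9cDp τ i) := h.rg _ h1 h3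
      exact ⟨hr, h.sc _ _ hr h2⟩)
    (by
      intro τ hτ
      rw [hN] at hτ
      have := hB τ hτ
      unfold L9Q.E2w at this
      rw [hN, h.lam, h.Y, h.ms]
      exact this)
  rw [hN, h.X] at key
  refine key.trans (mul_le_mul_of_nonneg_left (le_trans ?_ hA) hL0)
  exact mul_le_mul_of_nonneg_right (pow_le_pow_right₀ (by norm_num) hnJ) hBd0


/-! ## 3. BANDS -/

theorem l9w_band_le {Y v : ℝ} {k : ℕ} (h : l9Band Y k v) : v ≤ 2 ^ (k + 1) * Y := by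
  unfold l9Band at h
  split_ifs at h with h0
  · rw [h0]; simpa using h
  · exact h.2

theorem l9w_band_uniq {Y v : ℝ} (hY : 0 < Y) {k k' : ℕ} (h : l9Band Y k v) (h' : l9Band Y k' v) : k = k' := by
  have key : ∀ {a b : ℕ}, l9Band Y a v → l9Band Y b v → ¬ a < b := by
    intro a b ha hb hab
    have h1 := l9w_band_le ha
    unfold l9Band at hb
    rw [if_neg (by omega)] at hb
    have h2 : (2 : ℝ) ^ (a + 1) ≤ 2 ^ b := pow_le_pow_right₀ (by norm_num) hab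
    have h3 := mul_le_mul_of_nonneg_right h2 hY.le
    linarith [hb.1]
  rcases lt_trichotomy k k' with hlt | heq | hgt
  · exact (key h h' hlt).elim
  · exact heq
  · exact (key h' h hgt).elim

theorem l9w_band_ex {Y v : ℝ} {Kb : ℕ} (hKb1 : 1 ≤ Kb) (hv : v ≤ 2 ^ Kb * Y) : ∃ k, k < Kb ∧ l9Band Y k v := by
  classical
  have hex : ∃ k, v ≤ 2 ^ (k + 1) * Y := ⟨Kb - 1, by rw [Nat.sub_add_cancel hKb1]; exact hv⟩
  refine ⟨Nat.find hex, ?_, ?_⟩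
  · have : Nat.find hex ≤ Kb - 1 := Nat.find_min' hex (by rw [Nat.sub_add_cancel hKb1]; exact hv)
    omega
  · have hs := Nat.find_spec hex
    unfold l9Band
    split_ifs with h0
    · rw [h0] at hs; simpa using hs
    · refine ⟨?_, hs⟩
      have hm := Nat.find_min hex (m := Nat.find hex - 1) (by omega)
      rw [Nat.sub_add_cancel (by omega)] at hm
      exact not_le.1 hm

theorem l9w_mem_bs {Kb n : ℕ} {β : ℕ → ℕ} : β ∈ l9cBs Kb n ↔ (∀ i, i < n → β i < Kb) ∧ ∀ i, n ≤ i → β i = 0 := by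
  classical
  unfold l9cBs
  rw [Finset.mem_image]
  constructor
  · rintro ⟨f, hf, rfl⟩
    rw [Fintype.mem_piFinset] at hf
    refine ⟨fun i hi => ?_, fun i hi => ?_⟩
    · beta_reduce; rw [dif_pos hi]; exact Finset.mem_range.1 (hf _)
    · beta_reduce; rw [dif_neg (by omega)]
  · rintro ⟨h1, h2⟩
    refine ⟨fun i => β i, Fintype.mem_piFinset.2 fun i => Finset.mem_range.2 (h1 i i.2), ?_⟩
    funext i
    by_cases hi : i < n
    · rw [dif_pos hi]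
    · rw [dif_neg hi, h2 i (by omega)]

open Classical in
/-- **BANDS**: a sum over tables whose designated masses are `≤ 2^Kb Y` is the sum over the band vectors -/
theorem l9w_bands {α : Type} (𝒯 : Finset α) (v : α → ℕ → ℝ) {Y : ℝ} (hY : 0 < Y) {Kb : ℕ} (hKb1 : 1 ≤ Kb) (n : ℕ)
    (hv : ∀ τ ∈ 𝒯, ∀ i, i < n → v τ i ≤ 2 ^ Kb * Y) (G : α → ℝ) :
    ∑ τ ∈ 𝒯, G τ = ∑ β ∈ l9cBs Kb n, ∑ τ ∈ 𝒯, if ∀ i, i < n → l9Band Y (β i) (v τ i) then G τ else 0 := by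
  rw [Finset.sum_comm]
  refine Finset.sum_congr rfl fun τ hτ => ?_
  choose! k hk using fun i (hi : i < n) => l9w_band_ex hKb1 (hv τ hτ i hi)
  set β₀ : ℕ → ℕ := fun i => if i < n then k i else 0 with hβ₀
  have hmem : β₀ ∈ l9cBs Kb n := l9w_mem_bs.2
    ⟨fun i hi => by simp only [hβ₀, if_pos hi]; exact (hk i hi).1, fun i hi => by simp only [hβ₀]; rw [if_neg (by omega)]⟩
  have hsat : ∀ i, i < n → l9Band Y (β₀ i) (v τ i) := fun i hi => by simp only [hβ₀, if_pos hi]; exact (hk i hi).2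
  rw [Finset.sum_eq_single β₀, if_pos hsat]
  · intro β hβ hne
    rw [if_neg]
    intro hb
    apply hne
    funext i
    by_cases hi : i < n
    · exact l9w_band_uniq hY (hb i hi) (hsat i hi)
    · rw [(l9w_mem_bs.1 hβ).2 i (by omega), (l9w_mem_bs.1 hmem).2 i (by omega)]
  · intro h; exact (h hmem).elim

theorem l9w_bs_card (Kb n : ℕ) : (l9cBs Kb n).card ≤ Kb ^ n := by
  classical
  unfold l9cBs
  refine Finset.card_image_le.trans ?_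
  rw [Fintype.card_piFinset]
  simp



/-! ## 4. TERM: one monomial, one set of tables -/

open Classical in
/-- the designated forks -/
noncomputable def l9wDs (N n : ℕ) (τ : JtTopo) : Finset ℕ := (Finset.Ico 1 (2 * n)).filter fun s => L9aNew N τ s ∧ l9wDes n τ s

theorem l9w_ds_eq {N n : ℕ} {τ : JtTopo} (hτ : IsTr N (2 * n) τ) (hoff : ∀ i, i < n → τ (2 * i) (2 * i + 1) ≤ N) :
    l9wDs N n τ = (Finset.range n).image fun i => l9aVx τ (2 * i) (2 * i + 1) := by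
  classical
  ext s
  unfold l9wDs l9wDes
  simp only [Finset.mem_filter, Finset.mem_Ico, Finset.mem_image, Finset.mem_range]
  constructor
  · rintro ⟨-, -, i, hi, rfl⟩
    exact ⟨i, hi, rfl⟩
  · rintro ⟨i, hi, rfl⟩
    obtain ⟨h1, h2, -⟩ := l9a_vx_spec hτ (a := 2 * i) (b := 2 * i + 1) (by omega) (by omega) (hoff i hi)
    exact ⟨⟨h2.1, h1⟩, h2, i, hi, rfl⟩

theorem l9w_ds_card {N n : ℕ} {τ : JtTopo} (hτ : IsTr N (2 * n) τ) (hoff : ∀ i, i < n → τ (2 * i) (2 * i + 1) ≤ N) (hn : 1 ≤ n) :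
    1 ≤ (l9wDs N n τ).card ∧ (l9wDs N n τ).card ≤ n := by
  classical
  rw [l9w_ds_eq hτ hoff]
  refine ⟨Finset.card_pos.2 ⟨_, Finset.mem_image_of_mem _ (Finset.mem_range.2 hn)⟩, ?_⟩
  exact Finset.card_image_le.trans (by rw [Finset.card_range])

theorem l9w_ds_card_two {N : ℕ} {τ : JtTopo} (hτ : IsTr N (2 * 2) τ) (hoff : ∀ i, i < 2 → τ (2 * i) (2 * i + 1) ≤ N) :
    (l9wDs N 2 τ).card = if l9aVx τ 0 1 = l9aVx τ 2 3 then 1 else 2 := by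
  classical
  rw [l9w_ds_eq hτ hoff]
  have e : (Finset.range 2).image (fun i => l9aVx τ (2 * i) (2 * i + 1)) = {l9aVx τ 0 1, l9aVx τ 2 3} := by
    ext s
    simp only [Finset.mem_image, Finset.mem_range, Finset.mem_insert, Finset.mem_singleton]
    constructor
    · rintro ⟨i, hi, rfl⟩
      interval_cases i
      · left; rfl
      · right; rfl
    · rintro (rfl | rfl)
      · exact ⟨0, by norm_num, rfl⟩
      · exact ⟨1, by norm_num, rfl⟩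
  rw [e]
  split_ifs with h
  · rw [h]; simp
  · exact Finset.card_pair h

/-- change of the unit of the designated forks -/
theorem l9w_sl_scale (ms : ℕ → ℝ) (N : ℕ) {w : ℝ} (hw : w ≠ 0) (om : ℕ → ℝ) (n : ℕ) (τ : JtTopo) :
    ∏ s ∈ Finset.Ico 1 (2 * n), l9wSl ms N 1 om n τ s
      = w ^ (l9wDs N n τ).card * ∏ s ∈ Finset.Ico 1 (2 * n), l9wSl ms N w om n τ s := by
  classical
  unfold l9wDs
  rw [← Finset.prod_const, Finset.prod_filter, ← Finset.prod_mul_distrib]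
  refine Finset.prod_congr rfl fun s _ => ?_
  unfold l9wSl
  by_cases h1 : L9aNew N τ s
  · by_cases h2 : l9wDes n τ s
    · rw [if_pos h1, if_pos h2, if_pos ⟨h1, h2⟩, if_pos h1, if_pos h2]
      field_simp
    · rw [if_pos h1, if_neg h2, if_neg (fun h => h2 h.2), if_pos h1, if_neg h2, one_mul]
  · rw [if_neg h1, if_neg (fun h => h1 h.1), if_neg h1, one_mul]

namespace L9Q
variable (Q : L9Q) (Mj : L9Mj)

/-- raw majorant of a flat coefficient: envelopes of the deterministic factors, `dv` at a designated fork, `om` at another fork -/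
noncomputable def Raw (e om : ℕ → ℝ) (n : ℕ) (R : Finset ℕ) (τ : JtTopo) : ℝ :=
  (∏ i ∈ Finset.range n \ R, e (τ (2 * i) (2 * i + 1))) * ∏ s ∈ Finset.Ico 1 (2 * n), l9wSl Q.ms Q.N 1 om n τ s

open Classical in
/-- the parity factor: `n = 2`, two distinct designated forks -/
noncomputable def rho (n : ℕ) (τ : JtTopo) : ℝ := if n = 2 ∧ l9aVx τ 0 1 ≠ l9aVx τ 2 3 then min (Q.vm τ 0) (Q.vm τ 1) else 1

end L9Q

theorem l9w_E2w_nonneg {Q : L9Q} {Mj : L9Mj} (hms : IsMs Q.N Q.ms) (hlam : 0 < Q.lam) (hY : 0 < Q.Y Mj) {e om : ℕ → ℝ} (he : ∀ t, 0 ≤ e t)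
    (hom : ∀ t, 0 ≤ om t) (n : ℕ) (R : Finset ℕ) (β : ℕ → ℕ) (τ : JtTopo) : 0 ≤ Q.E2w Mj e om n R β τ := by
  have hw : 0 < l9Bw (Q.Y Mj) n β := by unfold l9Bw; positivity
  unfold L9Q.E2w
  refine mul_nonneg (mul_nonneg (mul_nonneg (mul_nonneg hlam.le (by positivity)) (Finset.prod_nonneg fun i _ => he _)) (l9w_rat_nonneg _ _ _)) ?_
  exact Finset.prod_nonneg fun s _ => l9w_sl_nonneg hms hw.le hom _ _ _

/-- **the weight check** (09 l.296-306): a raw majorant is `(E2)` with the prefactor `Λ Wf / λ` -/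
theorem l9w_raw_le {Q : L9Q} {Mj : L9Mj} (hms : IsMs Q.N Q.ms) (hlam : 0 < Q.lam) (hY : 0 < Q.Y Mj) {e om : ℕ → ℝ} (he : ∀ t, 0 ≤ e t)
    (hom : ∀ t, 0 ≤ om t) {n : ℕ} (hn : 2 ≤ n) (R : Finset ℕ) {vt : ℝ} {β : ℕ → ℕ} {τ : JtTopo} (hτ : IsTr Q.N (2 * n) τ) (hB : Q.InB Mj vt n β τ)
    {Λ Wf : ℝ} (hΛ : 0 ≤ Λ) (hWf : n = 2 → 2 ≤ Wf)
    (hW : ∀ l, 1 ≤ l → l ≤ n → (n = 2 → l = 1) → l9Bw (Q.Y Mj) n β ^ l * l9Bw (Q.Y Mj) n β ^ n ≤ Wf * l9Bw (Q.Y Mj) n β ^ 5) :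
    Λ * Q.rho n τ * Q.Raw e om n R τ ≤ Λ * Wf / Q.lam * Q.E2w Mj e om n R β τ := by
  have hw : 0 < l9Bw (Q.Y Mj) n β := by unfold l9Bw; positivity
  set w := l9Bw (Q.Y Mj) n β with hwdef
  have hoff : ∀ i, i < n → τ (2 * i) (2 * i + 1) ≤ Q.N := fun i hi => (hB i hi).1
  obtain ⟨hl1, hln⟩ := l9w_ds_card hτ hoff (by omega)
  set l := (l9wDs Q.N n τ).card with hl
  set E := ∏ i ∈ Finset.range n \ R, e (τ (2 * i) (2 * i + 1)) with hE
  set P := ∏ s ∈ Finset.Ico 1 (2 * n), l9wSl Q.ms Q.N w om n τ s with hP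
  have hE0 : 0 ≤ E := Finset.prod_nonneg fun i _ => he _
  have hP0 : 0 ≤ P := Finset.prod_nonneg fun s _ => l9w_sl_nonneg hms hw.le hom _ _ _
  have key : Q.rho n τ * w ^ l ≤ Wf * (w ^ 5 / w ^ n) * l9wRat n β τ := by
    unfold L9Q.rho l9wRat
    by_cases hc : n = 2 ∧ l9aVx τ 0 1 ≠ l9aVx τ 2 3
    · rw [if_pos hc, if_pos hc]
      obtain ⟨rfl, hne⟩ := hc
      have hl2 : l = 2 := by rw [hl, l9w_ds_card_two hτ hoff, if_neg hne]
      have h0 := l9w_band_le (hB 0 (by norm_num)).2.1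
      have h1 := l9w_band_le (hB 1 (by norm_num)).2.1
      have hmin : min (Q.vm τ 0) (Q.vm τ 1) ≤ 2 * (min ((2 : ℝ) ^ β 0) ((2 : ℝ) ^ β 1) * Q.Y Mj) := by
        rcases le_total ((2 : ℝ) ^ β 0) ((2 : ℝ) ^ β 1) with h | h
        · rw [min_eq_left h]
          refine (min_le_left _ _).trans (h0.trans (le_of_eq ?_))
          rw [pow_succ]; ring
        · rw [min_eq_right h]
          refine (min_le_right _ _).trans (h1.trans (le_of_eq ?_))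
          rw [pow_succ]; ring
      have hm0 : 0 ≤ min ((2 : ℝ) ^ β 0) ((2 : ℝ) ^ β 1) * Q.Y Mj := by positivity
      have e1 : Wf * (w ^ 5 / w ^ 2) * (min ((2 : ℝ) ^ β 0) ((2 : ℝ) ^ β 1) / (2 : ℝ) ^ ((Finset.range 2).sup β))
          = Wf * (min ((2 : ℝ) ^ β 0) ((2 : ℝ) ^ β 1) * Q.Y Mj) * w ^ 2 := by
        have hw' : w = 2 ^ ((Finset.range 2).sup β) * Q.Y Mj := rfl
        have h2 : (2 : ℝ) ^ ((Finset.range 2).sup β) ≠ 0 := by positivity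
        rw [hw']
        field_simp
      rw [e1, hl2]
      refine mul_le_mul_of_nonneg_right ?_ (by positivity)
      refine hmin.trans (mul_le_mul_of_nonneg_right (hWf rfl) hm0)
    · rw [if_neg hc, if_neg hc, one_mul, mul_one, mul_div_assoc', le_div_iff₀ (by positivity)]
      refine hW l hl1 hln fun h2 => ?_
      subst h2
      rw [hl, l9w_ds_card_two hτ hoff, if_pos]
      by_contra hne
      exact hc ⟨rfl, hne⟩
  unfold L9Q.Raw L9Q.E2w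
  rw [l9w_sl_scale Q.ms Q.N hw.ne' om n τ]
  calc Λ * Q.rho n τ * (E * (w ^ l * P)) = Λ * E * P * (Q.rho n τ * w ^ l) := by ring
    _ ≤ Λ * E * P * (Wf * (w ^ 5 / w ^ n) * l9wRat n β τ) := mul_le_mul_of_nonneg_left key (by positivity)
    _ = Λ * Wf / Q.lam * (Q.lam * (w ^ 5 / w ^ n) * E * l9wRat n β τ * P) := by
      field_simp


open Classical in
/-- **TERM**: one monomial on a set of tables; sum over the band vectors, weight check, `CCw` -/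
theorem l9w_term {Q : L9Q} {Mj : L9Mj} {e : ℕ → ℝ} {A vt K : ℝ} {J0 : ℕ} (hCC : Q.CCw Mj e A vt K J0) (hms : IsMs Q.N Q.ms) (hlam : 0 < Q.lam)
    (hY : 0 < Q.Y Mj) (he : ∀ t, 0 ≤ e t) (hAE : 0 ≤ A * Q.E3 Mj K) {n : ℕ} (hn : 2 ≤ n) (hnJ : n ≤ J0) {R : Finset ℕ} (hR : R ⊆ Finset.range n)
    {om : ℕ → ℝ} (hom0 : ∀ t, 0 ≤ om t) (hom : ∑ t ∈ Finset.range (Q.N + 2), om t ≤ 8)
    (𝒯 : Finset JtTopo) (h𝒯 : 𝒯 ⊆ l9aTab Q.N (2 * n)) {Kb : ℕ} (hKb1 : 1 ≤ Kb)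
    (hv : ∀ τ ∈ 𝒯, ∀ i, i < n → Q.vm τ i ≤ 2 ^ Kb * Q.Y Mj ∧ Q.vm τ i ≤ vt)
    (Hc : JtTopo → ℝ) (hoff : ∀ τ ∈ 𝒯, Hc τ ≠ 0 → ∀ i, i < n → τ (2 * i) (2 * i + 1) ≤ Q.N)
    {Λ Wf : ℝ} (hΛ : 0 ≤ Λ) (hWf0 : 0 ≤ Wf) (hWf : n = 2 → 2 ≤ Wf)
    (hW : ∀ τ ∈ 𝒯, ∀ β, Q.InB Mj vt n β τ → ∀ l, 1 ≤ l → l ≤ n → (n = 2 → l = 1) →
      l9Bw (Q.Y Mj) n β ^ l * l9Bw (Q.Y Mj) n β ^ n ≤ Wf * l9Bw (Q.Y Mj) n β ^ 5)
    (hH : ∀ τ ∈ 𝒯, |Hc τ| ≤ Λ * Q.rho n τ * Q.Raw e om n R τ) :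
    |∑ τ ∈ 𝒯, Hc τ * Q.dNum R n τ| ≤ (Kb : ℝ) ^ n * (Λ * Wf / Q.lam * (A * Q.E3 Mj K)) := by
  have hL0 : 0 ≤ Λ * Wf / Q.lam := by positivity
  rw [l9w_bands 𝒯 (fun τ => Q.vm τ) hY hKb1 n (fun τ hτ i hi => (hv τ hτ i hi).1) fun τ => Hc τ * Q.dNum R n τ]
  refine (Finset.abs_sum_le_sum_abs _ _).trans ?_
  have hone : ∀ β ∈ l9cBs Kb n, |∑ τ ∈ 𝒯, if ∀ i, i < n → l9Band (Q.Y Mj) (β i) (Q.vm τ i) then Hc τ * Q.dNum R n τ else 0|
      ≤ Λ * Wf / Q.lam * (A * Q.E3 Mj K) := by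
    intro β _
    set B : JtTopo → ℝ := fun τ => if τ ∈ 𝒯 ∧ ∀ i, i < n → l9Band (Q.Y Mj) (β i) (Q.vm τ i) then Hc τ else 0 with hBdef
    have e1 : (∑ τ ∈ 𝒯, if ∀ i, i < n → l9Band (Q.Y Mj) (β i) (Q.vm τ i) then Hc τ * Q.dNum R n τ else 0)
        = ∑ τ ∈ l9aTab Q.N (2 * n), B τ * Q.dNum R n τ := by
      rw [← Finset.sum_subset h𝒯]
      · refine Finset.sum_congr rfl fun τ hτ => ?_
        simp only [hBdef]
        by_cases hb : ∀ i, i < n → l9Band (Q.Y Mj) (β i) (Q.vm τ i)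
        · rw [if_pos hb, if_pos ⟨hτ, hb⟩]
        · rw [if_neg hb, if_neg (fun h => hb h.2), zero_mul]
      · intro τ _ hτ
        simp only [hBdef]
        rw [if_neg (fun h => hτ h.1), zero_mul]
    rw [e1]
    have hin : ∀ τ, B τ ≠ 0 → Q.InB Mj vt n β τ := by
      intro τ hτ i hi
      simp only [hBdef] at hτ
      by_cases hc : τ ∈ 𝒯 ∧ ∀ i, i < n → l9Band (Q.Y Mj) (β i) (Q.vm τ i)
      · rw [if_pos hc] at hτ
        exact ⟨hoff τ hc.1 hτ i hi, hc.2 i hi, (hv τ hc.1 i hi).2⟩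
      · rw [if_neg hc] at hτ
        exact (hτ rfl).elim
    refine hCC n hn hnJ R hR β om hom0 hom B _ hL0 hin fun τ hτ => ?_
    by_cases hB0 : B τ = 0
    · rw [hB0, abs_zero]
      exact mul_nonneg hL0 (l9w_E2w_nonneg hms hlam hY he hom0 _ _ _ _)
    · have hI := hin τ hB0
      have hc : τ ∈ 𝒯 ∧ ∀ i, i < n → l9Band (Q.Y Mj) (β i) (Q.vm τ i) := by
        by_contra hc
        apply hB0
        simp only [hBdef]
        rw [if_neg hc]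
      have e2 : B τ = Hc τ := by simp only [hBdef]; rw [if_pos hc]
      rw [e2]
      exact (hH τ hc.1).trans (l9w_raw_le hms hlam hY he hom0 hn R (l9a_mem_tab.1 hτ).1 hI hΛ hWf (hW τ hc.1 β hI))
  refine (Finset.sum_le_sum hone).trans ?_
  rw [Finset.sum_const, nsmul_eq_mul]
  refine mul_le_mul_of_nonneg_right ?_ (mul_nonneg hL0 hAE)
  exact_mod_cast l9w_bs_card Kb n



/-! ## 5. COEF: the real coefficients -/

open Classical in
/-- factor of a non designated fork (a dotted weight tied to it) -/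
noncomputable def l9wG (N : ℕ) (g : ℕ → ℝ) (n : ℕ) (τ : JtTopo) (s : ℕ) : ℝ :=
  if L9aNew N τ s ∧ ¬ l9wDes n τ s then 1 + g (l9aBj τ s) else 1

/-- measure of a non designated fork -/
noncomputable def l9wOm (ms : ℕ → ℝ) (N : ℕ) (g : ℕ → ℝ) (t : ℕ) : ℝ := if t ≤ N then l9aMu ms t * (1 + g t) else 0

namespace L9Q
variable (Q : L9Q)

/-- the base pairs are different leaves at masses `≤ vt` -/
def Low (vt : ℝ) (n : ℕ) (τ : JtTopo) : Prop := ∀ i, i < n → τ (2 * i) (2 * i + 1) ≤ Q.N ∧ Q.vm τ i ≤ vt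

/-- **bound of the real coefficients**, degrees `n0 ≤ n ≤ J0` -/
def Co (A T0 vt : ℝ) (e g : ℕ → ℝ) (n0 J0 : ℕ) : Prop :=
  ∀ n, n0 ≤ n → n ≤ J0 → ∀ R, R ⊆ Finset.range n → R.Nonempty → ∀ τ ∈ l9aTab Q.N (2 * n), Q.Low vt n τ →
    |Q.co n R τ| ≤ A * T0 * (∏ i ∈ Finset.range n \ R, e (τ (2 * i) (2 * i + 1))) * ∏ s ∈ Finset.Ico 1 (2 * n), l9wG Q.N g n τ s

/-- degree two: parity, square counterterm -/
structure Co2 (A T0 vt : ℝ) (e : ℕ → ℝ) : Prop where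
  par : ∀ R, R ⊆ Finset.range 2 → R.Nonempty → ∀ τ ∈ l9aTab Q.N (2 * 2), Q.Low vt 2 τ → τ 0 1 ≠ τ 2 3 →
    |Q.co 2 R τ| ≤ A * T0 * min (Q.vm τ 0) (Q.vm τ 1) * ∏ i ∈ Finset.range 2 \ R, e (τ (2 * i) (2 * i + 1))
  sq : ∀ τ, τ 0 1 ≤ Q.N → Q.vm τ 0 ≤ vt → |Q.coq τ| ≤ A * T0

end L9Q

theorem l9w_om_nonneg {N : ℕ} {ms : ℕ → ℝ} (hms : IsMs N ms) {g : ℕ → ℝ} (hg : ∀ t, 0 ≤ g t) (t : ℕ) : 0 ≤ l9wOm ms N g t := by
  unfold l9wOm
  split_ifs with h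
  · exact mul_nonneg (l9a_mu_nonneg hms h) (by linarith [hg t])
  · exact le_rfl

theorem l9w_om_sum (ms : ℕ → ℝ) (N : ℕ) (g : ℕ → ℝ) :
    ∑ t ∈ Finset.range (N + 2), l9wOm ms N g t = ms N + ∑ t ∈ Finset.range (N + 1), l9aMu ms t * g t := by
  rw [Finset.sum_range_succ, ← l9a_mu_sum ms N, ← Finset.sum_add_distrib]
  have e1 : l9wOm ms N g (N + 1) = 0 := by unfold l9wOm; rw [if_neg (by omega)]
  rw [e1, add_zero]
  refine Finset.sum_congr rfl fun t ht => ?_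
  unfold l9wOm
  rw [if_pos (by have := Finset.mem_range.1 ht; omega)]
  ring

/-- the constant of the weights -/
noncomputable def l9wC (n : ℕ) (a : ℝ) : ℝ := max 1 (((2 * n : ℕ) : ℝ) * a) ^ (2 * n)

theorem l9w_C_one_le (n : ℕ) (a : ℝ) : 1 ≤ l9wC n a := one_le_pow₀ (le_max_left _ _)

/-- the allocation weight times the dotted factors -/
theorem l9w_wt_le {N : ℕ} {ms : ℕ → ℝ} (hms : IsMs N ms) {g : ℕ → ℝ} (hg : ∀ t, 0 ≤ g t) {n : ℕ} {τ : JtTopo} (hτ : IsTr N (2 * n) τ) :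
    |l9aWt ms N 1 (2 * n) τ| * ∏ s ∈ Finset.Ico 1 (2 * n), l9wG N g n τ s
      ≤ l9wC n (ms N) * ∏ s ∈ Finset.Ico 1 (2 * n), l9wSl ms N 1 (l9wOm ms N g) n τ s := by
  classical
  set C : ℝ := max 1 (((2 * n : ℕ) : ℝ) * ms N) with hC
  have hC1 : 1 ≤ C := le_max_left _ _
  have hG0 : ∀ s, 0 ≤ l9wG N g n τ s := by
    intro s
    unfold l9wG
    split_ifs
    · linarith [hg (l9aBj τ s)]
    · exact zero_le_one
  have hsl0 : ∀ s, 0 ≤ l9wSl ms N 1 (l9wOm ms N g) n τ s := fun s => l9w_sl_nonneg hms zero_le_one (l9w_om_nonneg hms hg) _ _ _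
  calc |l9aWt ms N 1 (2 * n) τ| * ∏ s ∈ Finset.Ico 1 (2 * n), l9wG N g n τ s
      ≤ (∏ s ∈ Finset.Ico 1 (2 * n), if L9aNew N τ s then l9aMu ms (l9aBj τ s) else ((2 * n : ℕ) : ℝ) * ms N)
          * ∏ s ∈ Finset.Ico 1 (2 * n), l9wG N g n τ s :=
        mul_le_mul_of_nonneg_right (l9a_wt_abs_le hms hτ) (Finset.prod_nonneg fun s _ => hG0 s)
    _ = ∏ s ∈ Finset.Ico 1 (2 * n), (if L9aNew N τ s then l9aMu ms (l9aBj τ s) else ((2 * n : ℕ) : ℝ) * ms N) * l9wG N g n τ s :=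
        Finset.prod_mul_distrib.symm
    _ ≤ ∏ s ∈ Finset.Ico 1 (2 * n), C * l9wSl ms N 1 (l9wOm ms N g) n τ s := by
        refine Finset.prod_le_prod (fun s _ => mul_nonneg ?_ (hG0 s)) fun s _ => ?_
        · split_ifs with h
          · exact l9a_mu_nonneg hms h.2.1
          · exact mul_nonneg (Nat.cast_nonneg _) (hms.nonneg N)
        · unfold l9wG l9wSl
          by_cases h1 : L9aNew N τ s
          · have hmu := l9a_mu_nonneg hms h1.2.1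
            by_cases h2 : l9wDes n τ s
            · rw [if_pos h1, if_neg (fun h => h.2 h2), if_pos h1, if_pos h2, mul_one, div_one]
              exact le_mul_of_one_le_left hmu hC1
            · rw [if_pos h1, if_pos ⟨h1, h2⟩, if_pos h1, if_neg h2]
              unfold l9wOm
              rw [if_pos h1.2.1]
              exact le_mul_of_one_le_left (mul_nonneg hmu (by linarith [hg (l9aBj τ s)])) hC1
          · rw [if_neg h1, if_neg (fun h => h1 h.1), if_neg h1, mul_one, mul_one]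
            exact le_max_right _ _
    _ = C ^ (2 * n - 1) * ∏ s ∈ Finset.Ico 1 (2 * n), l9wSl ms N 1 (l9wOm ms N g) n τ s := by
        rw [Finset.prod_mul_distrib, Finset.prod_const, Nat.card_Ico]
    _ ≤ l9wC n (ms N) * ∏ s ∈ Finset.Ico 1 (2 * n), l9wSl ms N 1 (l9wOm ms N g) n τ s := by
        refine mul_le_mul_of_nonneg_right ?_ (Finset.prod_nonneg fun s _ => hsl0 s)
        exact pow_le_pow_right₀ hC1 (by omega)

theorem l9w_off_abs {S : Type} (X : JtCtx S) (q n : ℕ) (τ : JtTopo) : |X.off q n τ| ≤ 1 := by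
  unfold JtCtx.off
  rw [Finset.abs_prod]
  refine Finset.prod_le_one (fun i _ => abs_nonneg _) fun i _ => ?_
  split_ifs <;> simp

theorem l9w_off_ne {S : Type} {X : JtCtx S} {n : ℕ} {τ : JtTopo} (h : X.off 0 n τ ≠ 0) (i : ℕ) (hi : i < n) : τ (2 * i) (2 * i + 1) ≤ X.N := by
  unfold JtCtx.off at h
  rw [Finset.prod_ne_zero_iff] at h
  have := h i (Finset.mem_range.2 hi)
  by_contra hc
  apply this
  have e1 : jtC 0 i = 2 * i := by unfold jtC; omega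
  have e2 : jtD 0 i = 2 * i + 1 := by unfold jtD; omega
  rw [e1, e2, if_neg hc]

/-- **COEF**: the flat coefficient from a bound of the real coefficient -/
theorem l9w_H_le {Q : L9Q} (hms : IsMs Q.N Q.ms) {g : ℕ → ℝ} (hg : ∀ t, 0 ≤ g t) {n : ℕ} {R : Finset ℕ} {τ : JtTopo} (hτ : IsTr Q.N (2 * n) τ)
    {c : ℝ} (hc0 : 0 ≤ c) (hc : |Q.co n R τ| ≤ c * ∏ s ∈ Finset.Ico 1 (2 * n), l9wG Q.N g n τ s) :
    |Q.H n R τ| ≤ l9wC n (Q.ms Q.N) * c * ∏ s ∈ Finset.Ico 1 (2 * n), l9wSl Q.ms Q.N 1 (l9wOm Q.ms Q.N g) n τ s := by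
  unfold L9Q.H
  rw [abs_mul, abs_mul, abs_mul]
  have h1 : |((2 : ℝ) ^ n * (n ! : ℝ))⁻¹| ≤ 1 := by
    rw [abs_of_nonneg (by positivity)]
    refine inv_le_one_of_one_le₀ ?_
    have h2 : (1 : ℝ) ≤ 2 ^ n := one_le_pow₀ (by norm_num)
    have h3 : (1 : ℝ) ≤ (n ! : ℝ) := by exact_mod_cast Nat.succ_le_of_lt (Nat.factorial_pos n)
    nlinarith
  have h2 := l9w_off_abs (Q.X false) 0 n τ
  have h3 := l9w_wt_le hms hg hτ
  have hw0 := abs_nonneg (l9aWt Q.ms Q.N 1 (2 * n) τ)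
  calc |((2 : ℝ) ^ n * (n ! : ℝ))⁻¹| * |l9aWt Q.ms Q.N 1 (2 * n) τ| * |(Q.X false).off 0 n τ| * |Q.co n R τ|
      ≤ 1 * |l9aWt Q.ms Q.N 1 (2 * n) τ| * 1 * (c * ∏ s ∈ Finset.Ico 1 (2 * n), l9wG Q.N g n τ s) := by
        gcongr
    _ = c * (|l9aWt Q.ms Q.N 1 (2 * n) τ| * ∏ s ∈ Finset.Ico 1 (2 * n), l9wG Q.N g n τ s) := by ring
    _ ≤ c * (l9wC n (Q.ms Q.N) * ∏ s ∈ Finset.Ico 1 (2 * n), l9wSl Q.ms Q.N 1 (l9wOm Q.ms Q.N g) n τ s) :=
        mul_le_mul_of_nonneg_left h3 hc0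
    _ = _ := by ring



/-! ## 6. FLAT (any local region), REGION -/

/-- (E1) restricted to a local region, tilted minus untilted, as sums over tables -/
theorem l9w_doeg (Q : L9Q) {δm : ℝ} (hA : Q.Adm δm) (Rg : L9Rg) (hLoc : Rg.Loc) (J0 : ℕ) :
    Q.DOEg Rg J0 = (∑ n ∈ Finset.Icc 2 J0, ∑ R ∈ (Finset.range n).powerset, ∑ τ ∈ Q.Tb Rg n, Q.H n R τ * Q.dNum R n τ)
      + ∑ τ ∈ Q.Tb Rg 2, Q.Hq τ * Q.dNum {0, 1} 2 τ := by
  classical
  have h1 : ∀ en : Bool, Q.OEg Rg J0 en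
      = (∑ n ∈ Finset.Icc 2 J0, ∑ R ∈ (Finset.range n).powerset, l9rD0 (Q.X en) R (2 * n) (Q.Tb Rg n) (Q.H n R))
        + l9rD0 (Q.X en) {0, 1} 4 (Q.Tb Rg 2) Q.Hq := by
    intro en
    unfold L9Q.OEg
    rw [sub_eq_add_neg, l9c_flat_sq Q hA Rg hLoc en]
    congr 1
    refine Finset.sum_congr rfl fun n hn => Finset.sum_congr rfl fun R hR => ?_
    exact l9c_flat Q Rg hLoc (by have := (Finset.mem_Icc.1 hn).1; omega) (Finset.mem_powerset.1 hR) en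
  unfold L9Q.DOEg
  rw [h1 true, h1 false]
  unfold l9rD0 L9Q.dNum
  simp only [mul_sub, Finset.sum_sub_distrib]
  ring

/-- a product without stochastic factor cancels -/
theorem l9w_dnum_empty (Q : L9Q) {δm : ℝ} (hA : Q.Adm δm) (n : ℕ) (τ : JtTopo) : Q.dNum ∅ n τ = 0 := by
  unfold L9Q.dNum l9rNum
  simp only [Finset.prod_empty]
  rw [(l9c_law Q hA true).nu.const, (l9c_law Q hA false).nu.const, sub_self]

/-- **REGION**: a local region all of whose monomials have raw majorants -/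
theorem l9w_region {Q : L9Q} {Mj : L9Mj} {e : ℕ → ℝ} {A vt K δm : ℝ} {J0 : ℕ} (hA : Q.Adm δm) (hCC : Q.CCw Mj e A vt K J0) (hlam : 0 < Q.lam)
    (hY : 0 < Q.Y Mj) (he : ∀ t, 0 ≤ e t) (hAE : 0 ≤ A * Q.E3 Mj K) (hJ : 2 ≤ J0) (Rg : L9Rg) (hLoc : Rg.Loc)
    {om : ℕ → ℝ} (hom0 : ∀ t, 0 ≤ om t) (hom : ∑ t ∈ Finset.range (Q.N + 2), om t ≤ 8) {Kb : ℕ} (hKb1 : 1 ≤ Kb)
    (hv : ∀ n, ∀ τ ∈ Q.Tb Rg n, ∀ i, i < n → Q.vm τ i ≤ 2 ^ Kb * Q.Y Mj ∧ Q.vm τ i ≤ vt)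
    {Λ Wf : ℝ} (hΛ : 0 ≤ Λ) (hWf0 : 0 ≤ Wf) (hWf : (Q.Tb Rg 2).Nonempty → 2 ≤ Wf)
    (hW : ∀ n, 2 ≤ n → n ≤ J0 → ∀ τ ∈ Q.Tb Rg n, ∀ β, Q.InB Mj vt n β τ → ∀ l, 1 ≤ l → l ≤ n → (n = 2 → l = 1) →
      l9Bw (Q.Y Mj) n β ^ l * l9Bw (Q.Y Mj) n β ^ n ≤ Wf * l9Bw (Q.Y Mj) n β ^ 5)
    (hH : ∀ n, 2 ≤ n → n ≤ J0 → ∀ R, R ⊆ Finset.range n → R.Nonempty → ∀ τ ∈ Q.Tb Rg n, |Q.H n R τ| ≤ Λ * Q.rho n τ * Q.Raw e om n R τ)
    (hHq : ∀ τ ∈ Q.Tb Rg 2, |Q.Hq τ| ≤ Λ * Q.rho 2 τ * Q.Raw e om 2 {0, 1} τ)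
    (hHq0 : ∀ τ ∈ Q.Tb Rg 2, Q.Hq τ ≠ 0 → ∀ i, i < 2 → τ (2 * i) (2 * i + 1) ≤ Q.N) :
    |Q.DOEg Rg J0| ≤ ((J0 : ℝ) * 2 ^ J0 + 1) * ((Kb : ℝ) ^ J0 * (Λ * Wf / Q.lam * (A * Q.E3 Mj K))) := by
  classical
  have hms : IsMs Q.N Q.ms := (l9c_law Q hA false).isMs
  have hsub : ∀ n, Q.Tb Rg n ⊆ l9aTab Q.N (2 * n) := fun n => Finset.filter_subset _ _
  set X : ℝ := Λ * Wf / Q.lam * (A * Q.E3 Mj K) with hX
  have hX0 : 0 ≤ X := mul_nonneg (by positivity) hAE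
  have hKb : (1 : ℝ) ≤ Kb := by exact_mod_cast hKb1
  have hpow : ∀ n, n ≤ J0 → (Kb : ℝ) ^ n * X ≤ (Kb : ℝ) ^ J0 * X := fun n hn =>
    mul_le_mul_of_nonneg_right (pow_le_pow_right₀ hKb hn) hX0
  have hWf' : ∀ n, (∃ τ, τ ∈ Q.Tb Rg n) → n = 2 → 2 ≤ Wf := by
    rintro n ⟨τ, hτ⟩ rfl
    exact hWf ⟨τ, hτ⟩
  have hterm : ∀ n ∈ Finset.Icc 2 J0, ∀ R ∈ (Finset.range n).powerset,
      |∑ τ ∈ Q.Tb Rg n, Q.H n R τ * Q.dNum R n τ| ≤ (Kb : ℝ) ^ J0 * X := by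
    intro n hn R hR
    obtain ⟨hn2, hnJ⟩ := Finset.mem_Icc.1 hn
    rcases R.eq_empty_or_nonempty with rfl | hne
    · rw [Finset.sum_eq_zero fun τ _ => by rw [l9w_dnum_empty Q hA, mul_zero], abs_zero]
      positivity
    · rcases (Q.Tb Rg n).eq_empty_or_nonempty with h0 | ⟨τ0, hτ0⟩
      · rw [h0, Finset.sum_empty, abs_zero]; positivity
      · refine le_trans ?_ (hpow n hnJ)
        exact l9w_term hCC hms hlam hY he hAE hn2 hnJ (Finset.mem_powerset.1 hR) hom0 hom (Q.Tb Rg n) (hsub n) hKb1 (hv n) (Q.H n R)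
          (fun τ _ h0 i hi => by
            have : (Q.X false).off 0 n τ ≠ 0 := by
              intro hz
              apply h0
              unfold L9Q.H
              rw [hz]; ring
            exact l9w_off_ne this i hi)
          hΛ hWf0 (hWf' n ⟨τ0, hτ0⟩) (hW n hn2 hnJ) (hH n hn2 hnJ R (Finset.mem_powerset.1 hR) hne)
  have hsq : |∑ τ ∈ Q.Tb Rg 2, Q.Hq τ * Q.dNum {0, 1} 2 τ| ≤ (Kb : ℝ) ^ J0 * X := by
    rcases (Q.Tb Rg 2).eq_empty_or_nonempty with h0 | ⟨τ0, hτ0⟩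
    · rw [h0, Finset.sum_empty, abs_zero]; positivity
    · refine le_trans ?_ (hpow 2 hJ)
      refine l9w_term hCC hms hlam hY he hAE le_rfl hJ ?_ hom0 hom (Q.Tb Rg 2) (hsub 2) hKb1 (hv 2) Q.Hq hHq0
        hΛ hWf0 (hWf' 2 ⟨τ0, hτ0⟩) (hW 2 le_rfl hJ) hHq
      intro x hx
      simp only [Finset.mem_insert, Finset.mem_singleton] at hx
      rw [Finset.mem_range]; omega
  rw [l9w_doeg Q hA Rg hLoc J0]
  refine (abs_add_le _ _).trans ?_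
  have hsum : |∑ n ∈ Finset.Icc 2 J0, ∑ R ∈ (Finset.range n).powerset, ∑ τ ∈ Q.Tb Rg n, Q.H n R τ * Q.dNum R n τ|
      ≤ (J0 : ℝ) * 2 ^ J0 * ((Kb : ℝ) ^ J0 * X) := by
    refine (Finset.abs_sum_le_sum_abs _ _).trans ?_
    have h1 : ∀ n ∈ Finset.Icc 2 J0, |∑ R ∈ (Finset.range n).powerset, ∑ τ ∈ Q.Tb Rg n, Q.H n R τ * Q.dNum R n τ|
        ≤ 2 ^ J0 * ((Kb : ℝ) ^ J0 * X) := by
      intro n hn
      refine (Finset.abs_sum_le_sum_abs _ _).trans ((Finset.sum_le_sum (hterm n hn)).trans ?_)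
      rw [Finset.sum_const, nsmul_eq_mul, Finset.card_powerset, Finset.card_range]
      push_cast
      exact mul_le_mul_of_nonneg_right (pow_le_pow_right₀ (by norm_num) (Finset.mem_Icc.1 hn).2) (by positivity)
    refine (Finset.sum_le_sum h1).trans ?_
    rw [Finset.sum_const, nsmul_eq_mul, Nat.card_Icc, mul_assoc]
    refine mul_le_mul_of_nonneg_right ?_ (by positivity)
    exact_mod_cast (by omega : J0 + 1 - 2 ≤ J0)
  calc _ ≤ (J0 : ℝ) * 2 ^ J0 * ((Kb : ℝ) ^ J0 * X) + (Kb : ℝ) ^ J0 * X := add_le_add hsum hsq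
    _ = _ := by ring


/-! ## 7. POINT -/

theorem l9w_ms_top (Q : L9Q) : Q.ms Q.N = Q.p.a := by
  unfold L9Q.ms L9Q.N llMs
  simp

theorem l9w_ms_le (Q : L9Q) {δm : ℝ} (hA : Q.Adm δm) (t : ℕ) : Q.ms t ≤ Q.p.a := by
  have hms : IsMs Q.N Q.ms := (l9c_law Q hA false).isMs
  by_cases ht : t ≤ Q.N
  · rw [← l9w_ms_top]; exact hms.mono t Q.N ht le_rfl
  · unfold L9Q.ms llMs
    unfold L9Q.N at ht
    rw [List.getElem?_eq_none (by simp; omega)]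
    simp

/-- number of bands -/
theorem l9w_Kb {x Y : ℝ} (hx : 0 < x) (hx1 : x ≤ 1) (hxY : x ≤ Y) : ∃ Kb : ℕ, 1 ≤ Kb ∧ 4 ≤ 2 ^ Kb * Y ∧ (Kb : ℝ) ≤ 3 + Real.logb 2 (1 / x) := by
  have h4 : (0 : ℝ) < 4 / x := by positivity
  have hl : Real.logb 2 (4 / x) = 2 + Real.logb 2 (1 / x) := by
    rw [show (4 : ℝ) / x = 4 * (1 / x) by ring, Real.logb_mul (by norm_num) (by positivity)]
    congr 1
    rw [show (4 : ℝ) = 2 ^ (2 : ℕ) by norm_num, Real.logb_pow]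
    simp
  have hl0 : 0 ≤ Real.logb 2 (1 / x) := Real.logb_nonneg (by norm_num) (by rw [le_div_iff₀ hx]; linarith)
  refine ⟨⌈Real.logb 2 (4 / x)⌉₊, ?_, ?_, ?_⟩
  · rw [Nat.one_le_ceil_iff]; linarith
  · have h1 : Real.logb 2 (4 / x) ≤ (⌈Real.logb 2 (4 / x)⌉₊ : ℝ) := Nat.le_ceil _
    have h2 : 4 / x ≤ (2 : ℝ) ^ ⌈Real.logb 2 (4 / x)⌉₊ := by
      rw [← Real.rpow_natCast, ← Real.logb_le_iff_le_rpow (by norm_num) h4]
      exact h1
    calc (4 : ℝ) = 4 / x * x := by field_simp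
      _ ≤ 2 ^ ⌈Real.logb 2 (4 / x)⌉₊ * Y := mul_le_mul h2 hxY hx.le (by positivity)
  · have := Nat.ceil_lt_add_one (a := Real.logb 2 (4 / x)) (by linarith)
    linarith

theorem l9w_C_mono {n J0 : ℕ} (hn : n ≤ J0) {a : ℝ} (ha : a ≤ 4) : l9wC n a ≤ l9wC J0 4 := by
  unfold l9wC
  have h1 : max 1 (((2 * n : ℕ) : ℝ) * a) ≤ max 1 (((2 * J0 : ℕ) : ℝ) * 4) := by
    refine max_le_max le_rfl ?_
    have h2 : ((2 * n : ℕ) : ℝ) ≤ ((2 * J0 : ℕ) : ℝ) := by exact_mod_cast (by omega : 2 * n ≤ 2 * J0)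
    have h3 : (0 : ℝ) ≤ ((2 * n : ℕ) : ℝ) := Nat.cast_nonneg _
    nlinarith
  calc max 1 (((2 * n : ℕ) : ℝ) * a) ^ (2 * n) ≤ max 1 (((2 * J0 : ℕ) : ℝ) * 4) ^ (2 * n) :=
        pow_le_pow_left₀ (le_trans zero_le_one (le_max_left _ _)) h1 _
    _ ≤ _ := pow_le_pow_right₀ (le_max_left _ _) (by omega)

theorem l9w_loc_L5 (V : ℝ) : (l9RgL5 V).Loc := by
  intro n v v' h
  unfold l9RgL5
  constructor
  · rintro ⟨h1, h2⟩; exact ⟨fun i hi => by rw [← h i hi]; exact h1 i hi, h2⟩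
  · rintro ⟨h1, h2⟩; exact ⟨fun i hi => by rw [h i hi]; exact h1 i hi, h2⟩

theorem l9w_loc_Hi (V : ℝ) : (l9RgHi V).Loc := by
  intro n v v' h
  unfold l9RgHi
  constructor
  · rintro ⟨i, hi, h1⟩; exact ⟨i, hi, by rw [← h i hi]; exact h1⟩
  · rintro ⟨i, hi, h1⟩; exact ⟨i, hi, by rw [h i hi]; exact h1⟩

/-- the largest band scale is `Y` or below one of the masses -/
theorem l9w_bw_le {Q : L9Q} {Mj : L9Mj} {vt : ℝ} {n : ℕ} (hn : 1 ≤ n) {β : ℕ → ℕ} {τ : JtTopo} (hB : Q.InB Mj vt n β τ) {V : ℝ} (hYV : Q.Y Mj ≤ V)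
    (hv : ∀ i, i < n → Q.vm τ i ≤ V) : l9Bw (Q.Y Mj) n β ≤ V := by
  obtain ⟨i, hi, he⟩ := Finset.exists_mem_eq_sup (Finset.range n) ⟨0, Finset.mem_range.2 hn⟩ β
  unfold l9Bw
  rw [he]
  have hb := (hB i (Finset.mem_range.1 hi)).2.1
  unfold l9Band at hb
  split_ifs at hb with h0
  · rw [h0]; simpa using hYV
  · exact hb.1.le.trans (hv i (Finset.mem_range.1 hi))

theorem l9w_raw_nonneg {Q : L9Q} (hms : IsMs Q.N Q.ms) {e om : ℕ → ℝ} (he : ∀ t, 0 ≤ e t) (hom : ∀ t, 0 ≤ om t) (n : ℕ) (R : Finset ℕ) (τ : JtTopo) :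
    0 ≤ Q.Raw e om n R τ := by
  unfold L9Q.Raw
  exact mul_nonneg (Finset.prod_nonneg fun i _ => he _) (Finset.prod_nonneg fun s _ => l9w_sl_nonneg hms zero_le_one hom _ _ _)

/-- **POINT, degrees `≥ 5`, all the base pairs below `V`** (09 l.404-409) -/
theorem l9w_point5 {Q : L9Q} {Mj : L9Mj} {e g : ℕ → ℝ} {A Ac T0 vt K V δm : ℝ} {J0 : ℕ} (hA : Q.Adm δm) (hCC : Q.CCw Mj e A vt K J0)
    (hCo : Q.Co Ac T0 vt e g 5 J0) (hx : 0 < Q.x) (hx1 : Q.x ≤ 1) (hlam : 0 < Q.lam) (hxY : Q.x ≤ Q.Y Mj) (hYV : Q.Y Mj ≤ V) (hV1 : V ≤ 1)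
    (hVt : V ≤ vt) (ha4 : Q.p.a ≤ 4) (he : ∀ t, 0 ≤ e t) (hg : ∀ t, 0 ≤ g t) (hgs : ∑ t ∈ Finset.range (Q.N + 1), l9aMu Q.ms t * g t ≤ 4)
    (hAc : 0 ≤ Ac * T0) (hAE : 0 ≤ A * Q.E3 Mj K) (hJ : 2 ≤ J0) :
    |Q.DOEg (l9RgL5 V) J0| ≤ ((J0 : ℝ) * 2 ^ J0 + 1) * (Q.Lg ^ J0 * (l9wC J0 4 * (Ac * T0) * V / Q.lam * (A * Q.E3 Mj K))) := by
  classical
  have hms : IsMs Q.N Q.ms := (l9c_law Q hA false).isMs
  have hY : 0 < Q.Y Mj := lt_of_lt_of_le hx hxY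
  have hV0 : 0 < V := lt_of_lt_of_le hY hYV
  obtain ⟨Kb, hKb1, hKb4, hKbL⟩ := l9w_Kb hx hx1 hxY
  have hC1 := l9w_C_one_le J0 4
  have hΛ : 0 ≤ l9wC J0 4 * (Ac * T0) := mul_nonneg (by linarith) hAc
  have hmem : ∀ n, ∀ τ ∈ Q.Tb (l9RgL5 V) n, τ ∈ l9aTab Q.N (2 * n) ∧ (∀ i, i < n → Q.vm τ i < V) ∧ 5 ≤ n := by
    intro n τ hτ
    unfold L9Q.Tb at hτ
    rw [Finset.mem_filter] at hτ
    exact ⟨hτ.1, hτ.2.1, hτ.2.2⟩
  have hom0 := l9w_om_nonneg hms hg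
  have key := l9w_region hA hCC hlam hY he hAE hJ (l9RgL5 V) (l9w_loc_L5 V) (om := l9wOm Q.ms Q.N g) hom0
    (by rw [l9w_om_sum, l9w_ms_top]; linarith) hKb1
    (fun n τ hτ i hi => ⟨by linarith [(hmem n τ hτ).2.1 i hi], by linarith [(hmem n τ hτ).2.1 i hi]⟩)
    hΛ hV0.le
    (by rintro ⟨τ, hτ⟩; have := (hmem 2 τ hτ).2.2; omega)
    (by
      intro n hn2 _ τ hτ β hB l hl1 _ _
      have h5 := (hmem n τ hτ).2.2
      have hw0 : 0 < l9Bw (Q.Y Mj) n β := by unfold l9Bw; positivity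
      have hwV : l9Bw (Q.Y Mj) n β ≤ V := l9w_bw_le (by omega) hB hYV fun i hi => ((hmem n τ hτ).2.1 i hi).le
      set w := l9Bw (Q.Y Mj) n β
      have hw1 : w ≤ 1 := hwV.trans hV1
      have e1 : w ^ l * w ^ n = w ^ (l + n - 6) * w * w ^ 5 := by
        rw [← pow_add, ← pow_succ, ← pow_add]
        congr 1
        omega
      rw [e1]
      refine mul_le_mul_of_nonneg_right ?_ (by positivity)
      calc w ^ (l + n - 6) * w ≤ 1 * V := mul_le_mul (pow_le_one₀ hw0.le hw1) hwV hw0.le zero_le_one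
        _ = V := one_mul _)
    (by
      intro n hn2 hnJ R hR hne τ hτ
      obtain ⟨hτt, hlt, h5⟩ := hmem n τ hτ
      have hτ' : IsTr Q.N (2 * n) τ := (l9a_mem_tab.1 hτt).1
      have hrho : Q.rho n τ = 1 := by unfold L9Q.rho; rw [if_neg (by omega)]
      rw [hrho, mul_one]
      have hraw := l9w_raw_nonneg hms he hom0 n R τ
      by_cases h0 : Q.H n R τ = 0
      · rw [h0, abs_zero]; exact mul_nonneg hΛ hraw
      · have hoff : (Q.X false).off 0 n τ ≠ 0 := by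
          intro hz
          apply h0
          unfold L9Q.H
          rw [hz]; ring
        have hlow : Q.Low vt n τ := fun i hi => ⟨l9w_off_ne hoff i hi, by linarith [hlt i hi]⟩
        have hE0 : 0 ≤ ∏ i ∈ Finset.range n \ R, e (τ (2 * i) (2 * i + 1)) := Finset.prod_nonneg fun i _ => he _
        have h1 := l9w_H_le hms hg hτ' (mul_nonneg hAc hE0) (hCo n h5 hnJ R hR hne τ hτt hlow)
        refine h1.trans ?_
        have hCm : l9wC n (Q.ms Q.N) ≤ l9wC J0 4 := l9w_C_mono hnJ (by rw [l9w_ms_top]; exact ha4)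
        unfold L9Q.Raw
        have hP0 : 0 ≤ ∏ s ∈ Finset.Ico 1 (2 * n), l9wSl Q.ms Q.N 1 (l9wOm Q.ms Q.N g) n τ s :=
          Finset.prod_nonneg fun s _ => l9w_sl_nonneg hms zero_le_one hom0 _ _ _
        calc l9wC n (Q.ms Q.N) * (Ac * T0 * ∏ i ∈ Finset.range n \ R, e (τ (2 * i) (2 * i + 1)))
              * ∏ s ∈ Finset.Ico 1 (2 * n), l9wSl Q.ms Q.N 1 (l9wOm Q.ms Q.N g) n τ s
            ≤ l9wC J0 4 * (Ac * T0 * ∏ i ∈ Finset.range n \ R, e (τ (2 * i) (2 * i + 1)))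
              * ∏ s ∈ Finset.Ico 1 (2 * n), l9wSl Q.ms Q.N 1 (l9wOm Q.ms Q.N g) n τ s :=
              mul_le_mul_of_nonneg_right (mul_le_mul_of_nonneg_right hCm (mul_nonneg hAc hE0)) hP0
          _ = _ := by ring)
    (by intro τ hτ; have := (hmem 2 τ hτ).2.2; omega)
    (by intro τ hτ; have := (hmem 2 τ hτ).2.2; omega)
  refine key.trans ?_
  have hX0 : 0 ≤ l9wC J0 4 * (Ac * T0) * V / Q.lam * (A * Q.E3 Mj K) := mul_nonneg (by positivity) hAE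
  refine mul_le_mul_of_nonneg_left (mul_le_mul_of_nonneg_right ?_ hX0) (by positivity)
  exact pow_le_pow_left₀ (Nat.cast_nonneg _) hKbL _


/-! ### the square counterterm -/

/-- coincident labels have the same rows -/
theorem l9w_row_eq {N q : ℕ} {τ : JtTopo} (hτ : IsTr N q τ) {x y z : ℕ} (hx : x < q) (hy : y < q) (hz : z < q) (h : τ x y = N + 1) : τ x z = τ y z := by
  have h1 := hτ.ultra y x z hy hx hz
  have h2 := hτ.ultra x y z hx hy hz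
  have h3 := hτ.symm x y hx hy
  have h4 := hτ.le x z hx hz
  have h5 := hτ.le y z hy hz
  omega

theorem l9w_vx_le {τ : JtTopo} {a b s : ℕ} (h1 : τ a b ≤ τ a s) {y : ℕ} (hy : y < s) (h2 : τ s y = τ a b) : l9aVx τ a b ≤ s :=
  Nat.sInf_le ⟨h1, y, hy, h2⟩

/-- a table with a repeated pair -/
def l9wRep (N : ℕ) (τ : JtTopo) : Prop := (τ 0 2 = N + 1 ∧ τ 1 3 = N + 1) ∨ (τ 0 3 = N + 1 ∧ τ 1 2 = N + 1)

theorem l9w_rep_facts {N : ℕ} {τ : JtTopo} (hτ : IsTr N 4 τ) (hr : l9wRep N τ) (h01 : τ 0 1 ≤ N) :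
    τ 2 3 = τ 0 1 ∧ l9aVx τ 0 1 = 1 ∧ l9aVx τ 2 3 = 1 ∧ L9aNew N τ 1 ∧ l9aBj τ 1 = τ 0 1 ∧ ¬ L9aNew N τ 2 ∧ ¬ L9aNew N τ 3 := by
  have s10 := hτ.symm 1 0 (by norm_num) (by norm_num)
  have h23 : τ 2 3 = τ 0 1 := by
    rcases hr with ⟨h1, h2⟩ | ⟨h1, h2⟩
    · have a1 := l9w_row_eq hτ (x := 0) (y := 2) (z := 3) (by norm_num) (by norm_num) (by norm_num) h1
      have a2 := l9w_row_eq hτ (x := 1) (y := 3) (z := 0) (by norm_num) (by norm_num) (by norm_num) h2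
      have a3 := hτ.symm 3 0 (by norm_num) (by norm_num)
      omega
    · have a1 := l9w_row_eq hτ (x := 0) (y := 3) (z := 2) (by norm_num) (by norm_num) (by norm_num) h1
      have a2 := l9w_row_eq hτ (x := 1) (y := 2) (z := 0) (by norm_num) (by norm_num) (by norm_num) h2
      have a3 := hτ.symm 3 2 (by norm_num) (by norm_num)
      have a4 := hτ.symm 2 0 (by norm_num) (by norm_num)
      omega
  obtain ⟨-, n01, b01⟩ := l9a_vx_spec hτ (a := 0) (b := 1) (by norm_num) (by norm_num) h01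
  obtain ⟨-, n23, -⟩ := l9a_vx_spec hτ (a := 2) (b := 3) (by norm_num) (by norm_num) (by omega)
  have v01 : l9aVx τ 0 1 = 1 := le_antisymm (l9w_vx_le le_rfl (y := 0) (by norm_num) s10) n01.1
  have v23 : l9aVx τ 2 3 = 1 := by
    rcases hr with ⟨h1, _⟩ | ⟨_, h2⟩
    · have h21 := l9w_row_eq hτ (x := 0) (y := 2) (z := 1) (by norm_num) (by norm_num) (by norm_num) h1
      exact le_antisymm (l9w_vx_le (by omega) (y := 0) (by norm_num) (by omega)) n23.1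
    · have a1 := hτ.symm 2 1 (by norm_num) (by norm_num)
      have a2 := hτ.le 2 3 (by norm_num) (by norm_num)
      exact le_antisymm (l9w_vx_le (by omega) (y := 0) (by norm_num) (by omega)) n23.1
  rw [v01] at n01 b01
  refine ⟨h23, v01, v23, n01, b01, ?_, ?_⟩
  · intro hn
    have hb := hn.2.1
    rcases hr with ⟨h1, _⟩ | ⟨_, h2⟩
    · have this : τ 2 0 ≤ l9aBj τ 2 := Finset.le_sup (f := fun y => τ 2 y) (Finset.mem_range.mpr (by norm_num : 0 < 2))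
      have a1 := hτ.symm 2 0 (by norm_num) (by norm_num)
      omega
    · have this : τ 2 1 ≤ l9aBj τ 2 := Finset.le_sup (f := fun y => τ 2 y) (Finset.mem_range.mpr (by norm_num : 1 < 2))
      have a1 := hτ.symm 2 1 (by norm_num) (by norm_num)
      omega
  · intro hn
    have hb := hn.2.1
    rcases hr with ⟨_, h2⟩ | ⟨h1, _⟩
    · have this : τ 3 1 ≤ l9aBj τ 3 := Finset.le_sup (f := fun y => τ 3 y) (Finset.mem_range.mpr (by norm_num : 1 < 3))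
      have a1 := hτ.symm 3 1 (by norm_num) (by norm_num)
      omega
    · have this : τ 3 0 ≤ l9aBj τ 3 := Finset.le_sup (f := fun y => τ 3 y) (Finset.mem_range.mpr (by norm_num : 0 < 3))
      have a1 := hτ.symm 3 0 (by norm_num) (by norm_num)
      omega

theorem l9w_rho_nonneg {Q : L9Q} (hms : IsMs Q.N Q.ms) (n : ℕ) (τ : JtTopo) : 0 ≤ Q.rho n τ := by
  unfold L9Q.rho
  split_ifs
  · exact le_min (hms.nonneg _) (hms.nonneg _)
  · exact zero_le_one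

/-- **COEF, square counterterm** -/
theorem l9w_Hq_le {Q : L9Q} (hms : IsMs Q.N Q.ms) {τ : JtTopo} (hτ : IsTr Q.N (2 * 2) τ) (e : ℕ → ℝ) {om : ℕ → ℝ} (hom : ∀ t, 0 ≤ om t) {c : ℝ}
    (hc0 : 0 ≤ c) (hc : τ 0 1 ≤ Q.N → |Q.coq τ| ≤ c) :
    |Q.Hq τ| ≤ c * Q.rho 2 τ * Q.Raw e om 2 {0, 1} τ ∧ (Q.Hq τ ≠ 0 → ∀ i, i < 2 → τ (2 * i) (2 * i + 1) ≤ Q.N) := by
  classical
  have hτ4 : IsTr Q.N 4 τ := hτ
  have hE : ∏ i ∈ Finset.range 2 \ {0, 1}, e (τ (2 * i) (2 * i + 1)) = 1 := by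
    have : Finset.range 2 \ {0, 1} = ∅ := by decide
    rw [this, Finset.prod_empty]
  have hP0 : 0 ≤ ∏ s ∈ Finset.Ico 1 (2 * 2), l9wSl Q.ms Q.N 1 om 2 τ s :=
    Finset.prod_nonneg fun s _ => l9w_sl_nonneg hms zero_le_one hom _ _ _
  by_cases h0 : Q.Hq τ = 0
  · refine ⟨?_, fun h => (h h0).elim⟩
    rw [h0, abs_zero]
    unfold L9Q.Raw
    rw [hE, one_mul]
    exact mul_nonneg (mul_nonneg hc0 (l9w_rho_nonneg hms _ _)) hP0
  · have hr : l9wRep Q.N τ := by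
      by_contra hr
      apply h0
      unfold L9Q.Hq
      exact if_neg hr
    have hq : Q.Hq τ = -(8 : ℝ)⁻¹ * l9aWt Q.ms Q.N 1 2 τ * (Q.X false).off 0 1 τ * Q.coq τ := by
      unfold L9Q.Hq
      exact if_pos hr
    have hoff : (Q.X false).off 0 1 τ ≠ 0 := by
      intro hz
      apply h0
      rw [hq, hz]; ring
    have h01 : τ 0 1 ≤ Q.N := l9w_off_ne hoff 0 (by norm_num)
    obtain ⟨h23, v01, v23, n1, b1, n2, n3⟩ := l9w_rep_facts hτ4 hr h01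
    refine ⟨?_, ?_⟩
    · have hrho : Q.rho 2 τ = 1 := by
        unfold L9Q.rho
        rw [if_neg (by rw [v01, v23]; simp)]
      have hmu := l9a_mu_nonneg hms n1.2.1
      have hwt : |l9aWt Q.ms Q.N 1 2 τ| = l9aMu Q.ms (l9aBj τ 1) := by
        unfold l9aWt
        rw [show Finset.Ico 1 2 = {1} by decide, Finset.prod_singleton, l9a_w1_new hτ4 (by norm_num) n1, abs_neg, abs_of_nonneg hmu]
      have hP : ∏ s ∈ Finset.Ico 1 (2 * 2), l9wSl Q.ms Q.N 1 om 2 τ s = l9aMu Q.ms (l9aBj τ 1) := by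
        rw [show Finset.Ico 1 (2 * 2) = {1, 2, 3} by decide, Finset.prod_insert (by decide), Finset.prod_insert (by decide), Finset.prod_singleton]
        unfold l9wSl
        rw [if_pos n1, if_pos (show l9wDes 2 τ 1 from ⟨0, by norm_num, v01⟩), if_neg n2, if_neg n3]
        ring
      unfold L9Q.Raw
      rw [hE, hP, hrho, hq, abs_mul, abs_mul, abs_mul, hwt]
      have h8 : |-(8 : ℝ)⁻¹| ≤ 1 := by rw [abs_neg, abs_of_nonneg (by norm_num)]; norm_num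
      have ho := l9w_off_abs (Q.X false) 0 1 τ
      calc |-(8 : ℝ)⁻¹| * l9aMu Q.ms (l9aBj τ 1) * |(Q.X false).off 0 1 τ| * |Q.coq τ|
          ≤ 1 * l9aMu Q.ms (l9aBj τ 1) * 1 * c := by
            gcongr
            exact hc h01
        _ = _ := by ring
    · intro _ i hi
      interval_cases i
      · exact h01
      · show τ 2 3 ≤ Q.N
        omega


theorem l9w_G_zero (N n : ℕ) (τ : JtTopo) (I : Finset ℕ) : ∏ s ∈ I, l9wG N (fun _ => 0) n τ s = 1 := by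
  refine Finset.prod_eq_one fun s _ => ?_
  unfold l9wG
  split_ifs <;> simp

/-- **POINT, a base pair at mass at least `c_D`** (09 l.396-403), direct paths -/
theorem l9w_pointHi {Q : L9Q} {Mj : L9Mj} {e : ℕ → ℝ} {A Ac T0 vt K cD δm : ℝ} {J0 : ℕ} (hA : Q.Adm δm) (hCC : Q.CCw Mj e A vt K J0)
    (hCo : Q.Co Ac T0 vt e (fun _ => 0) 2 J0) (hCo2 : Q.Co2 Ac T0 vt e) (hx : 0 < Q.x) (hx1 : Q.x ≤ 1) (hlam : 0 < Q.lam) (hxY : Q.x ≤ Q.Y Mj)
    (hY4 : Q.Y Mj ≤ 4) (hcD : 0 < cD) (hcD1 : cD ≤ 1) (ha4 : Q.p.a ≤ 4) (hat : Q.p.a ≤ vt) (he : ∀ t, 0 ≤ e t)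
    (hAc : 0 ≤ Ac * T0) (hAE : 0 ≤ A * Q.E3 Mj K) (hJ : 2 ≤ J0) :
    |Q.DOEg (l9RgHi cD) J0|
      ≤ ((J0 : ℝ) * 2 ^ J0 + 1) * (Q.Lg ^ J0 * (l9wC J0 4 * (Ac * T0) / cD * (4 ^ (2 * J0) * (2 / cD) ^ 5) / Q.lam * (A * Q.E3 Mj K))) := by
  classical
  have hms : IsMs Q.N Q.ms := (l9c_law Q hA false).isMs
  have hY : 0 < Q.Y Mj := lt_of_lt_of_le hx hxY
  obtain ⟨Kb, hKb1, hKb4, hKbL⟩ := l9w_Kb hx hx1 hxY
  have hC1 := l9w_C_one_le J0 4
  have hΛ0 : 0 ≤ l9wC J0 4 * (Ac * T0) := mul_nonneg (by linarith) hAc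
  have hΛ : 0 ≤ l9wC J0 4 * (Ac * T0) / cD := div_nonneg hΛ0 hcD.le
  have hΛle : l9wC J0 4 * (Ac * T0) ≤ l9wC J0 4 * (Ac * T0) / cD := by
    rw [le_div_iff₀ hcD]
    exact mul_le_of_le_one_right hΛ0 hcD1
  have hg0 : ∀ t : ℕ, (0 : ℝ) ≤ (fun _ : ℕ => (0 : ℝ)) t := fun _ => le_rfl
  have hmem : ∀ n, ∀ τ ∈ Q.Tb (l9RgHi cD) n, τ ∈ l9aTab Q.N (2 * n) ∧ ∃ i, i < n ∧ cD ≤ Q.vm τ i := by
    intro n τ hτ
    unfold L9Q.Tb at hτ
    rw [Finset.mem_filter] at hτ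
    exact ⟨hτ.1, hτ.2⟩
  have hvm : ∀ τ i, Q.vm τ i ≤ Q.p.a := fun τ i => l9w_ms_le Q hA _
  have hom0 := l9w_om_nonneg hms hg0
  have h2c : (1 : ℝ) ≤ 2 / cD := by rw [le_div_iff₀ hcD]; linarith
  have hWf2 : (2 : ℝ) ≤ 4 ^ (2 * J0) * (2 / cD) ^ 5 := by
    have h1 : (1 : ℝ) ≤ 4 ^ (2 * J0) := one_le_pow₀ (by norm_num)
    have h2 : (2 : ℝ) ≤ 2 / cD := by rw [le_div_iff₀ hcD]; nlinarith
    have h3 : (2 : ℝ) / cD ≤ (2 / cD) ^ 5 := le_self_pow₀ h2c (by norm_num)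
    nlinarith
  have key := l9w_region hA hCC hlam hY he hAE hJ (l9RgHi cD) (l9w_loc_Hi cD) (om := l9wOm Q.ms Q.N fun _ => 0) hom0
    (by rw [l9w_om_sum, l9w_ms_top]; simp; linarith) hKb1
    (fun n τ _ i _ => ⟨by linarith [hvm τ i], by linarith [hvm τ i]⟩)
    hΛ (by linarith) (fun _ => hWf2)
    (by
      intro n hn2 hnJ τ hτ β hB l _ hln _
      obtain ⟨i, hi, hci⟩ := (hmem n τ hτ).2
      have hw0 : 0 < l9Bw (Q.Y Mj) n β := by unfold l9Bw; positivity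
      have hw4 : l9Bw (Q.Y Mj) n β ≤ 4 := l9w_bw_le (by omega) hB hY4 fun i _ => (hvm τ i).trans ha4
      have hwc : cD / 2 ≤ l9Bw (Q.Y Mj) n β := by
        have h1 := l9w_band_le (hB i hi).2.1
        have h2 : (2 : ℝ) ^ β i ≤ 2 ^ ((Finset.range n).sup β) :=
          pow_le_pow_right₀ (by norm_num) (Finset.le_sup (f := β) (Finset.mem_range.2 hi))
        have h3 := mul_le_mul_of_nonneg_right h2 hY.le
        unfold l9Bw
        rw [pow_succ] at h1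
        linarith
      set w := l9Bw (Q.Y Mj) n β
      have h1 : w ^ l * w ^ n ≤ 4 ^ (2 * J0) := by
        rw [← pow_add]
        calc w ^ (l + n) ≤ 4 ^ (l + n) := pow_le_pow_left₀ hw0.le hw4 _
          _ ≤ 4 ^ (2 * J0) := pow_le_pow_right₀ (by norm_num) (by omega)
      have h2 : (1 : ℝ) ≤ (2 / cD) ^ 5 * w ^ 5 := by
        rw [← mul_pow]
        refine one_le_pow₀ ?_
        rw [div_mul_eq_mul_div, le_div_iff₀ hcD]
        linarith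
      calc w ^ l * w ^ n ≤ 4 ^ (2 * J0) * 1 := by rw [mul_one]; exact h1
        _ ≤ 4 ^ (2 * J0) * ((2 / cD) ^ 5 * w ^ 5) := mul_le_mul_of_nonneg_left h2 (by positivity)
        _ = _ := by ring)
    (by
      intro n hn2 hnJ R hR hne τ hτ
      obtain ⟨hτt, i0, hi0, hci⟩ := hmem n τ hτ
      have hτ' : IsTr Q.N (2 * n) τ := (l9a_mem_tab.1 hτt).1
      have hraw := l9w_raw_nonneg hms he hom0 n R τ
      have hrho := l9w_rho_nonneg hms n τ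
      by_cases h0 : Q.H n R τ = 0
      · rw [h0, abs_zero]; exact mul_nonneg (mul_nonneg hΛ hrho) hraw
      · have hoff : (Q.X false).off 0 n τ ≠ 0 := by
          intro hz
          apply h0
          unfold L9Q.H
          rw [hz]; ring
        have hlow : Q.Low vt n τ := fun i hi => ⟨l9w_off_ne hoff i hi, (hvm τ i).trans hat⟩
        have hE0 : 0 ≤ ∏ i ∈ Finset.range n \ R, e (τ (2 * i) (2 * i + 1)) := Finset.prod_nonneg fun i _ => he _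
        have hCm : l9wC n (Q.ms Q.N) ≤ l9wC J0 4 := l9w_C_mono hnJ (by rw [l9w_ms_top]; exact ha4)
        have hP0 : 0 ≤ ∏ s ∈ Finset.Ico 1 (2 * n), l9wSl Q.ms Q.N 1 (l9wOm Q.ms Q.N fun _ => 0) n τ s :=
          Finset.prod_nonneg fun s _ => l9w_sl_nonneg hms zero_le_one hom0 _ _ _
        -- it is enough to bound the real coefficient by `(Ac T0 / cD) ρ E`
        have hred : |Q.co n R τ| ≤ Ac * T0 / cD * Q.rho n τ * ∏ i ∈ Finset.range n \ R, e (τ (2 * i) (2 * i + 1)) := by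
          have hmain := hCo n hn2 hnJ R hR hne τ hτt hlow
          rw [l9w_G_zero, mul_one] at hmain
          have hAcd : Ac * T0 ≤ Ac * T0 / cD := by
            rw [le_div_iff₀ hcD]
            exact mul_le_of_le_one_right hAc hcD1
          unfold L9Q.rho
          by_cases hc : n = 2 ∧ l9aVx τ 0 1 ≠ l9aVx τ 2 3
          · rw [if_pos hc]
            obtain ⟨rfl, -⟩ := hc
            by_cases hd : τ 0 1 = τ 2 3
            · have hv01 : Q.vm τ 0 = Q.vm τ 1 := by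
                unfold L9Q.vm
                show Q.ms (τ 0 1) = Q.ms (τ 2 3)
                rw [hd]
              have hcv : cD ≤ min (Q.vm τ 0) (Q.vm τ 1) := by
                rw [← hv01, min_self]
                interval_cases i0
                · exact hci
                · rw [hv01]; exact hci
              refine hmain.trans (mul_le_mul_of_nonneg_right ?_ hE0)
              rw [div_mul_eq_mul_div, le_div_iff₀ hcD]
              exact mul_le_mul_of_nonneg_left hcv hAc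
            · refine (hCo2.par R hR hne τ hτt hlow hd).trans (mul_le_mul_of_nonneg_right ?_ hE0)
              exact mul_le_mul_of_nonneg_right hAcd (le_min (hms.nonneg _) (hms.nonneg _))
          · rw [if_neg hc, mul_one]
            exact hmain.trans (mul_le_mul_of_nonneg_right hAcd hE0)
        have hc0 : 0 ≤ Ac * T0 / cD * Q.rho n τ * ∏ i ∈ Finset.range n \ R, e (τ (2 * i) (2 * i + 1)) :=
          mul_nonneg (mul_nonneg (div_nonneg hAc hcD.le) hrho) hE0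
        have h1 := l9w_H_le hms hg0 hτ' hc0 (by rw [l9w_G_zero, mul_one]; exact hred)
        refine h1.trans ?_
        unfold L9Q.Raw
        calc l9wC n (Q.ms Q.N) * (Ac * T0 / cD * Q.rho n τ * ∏ i ∈ Finset.range n \ R, e (τ (2 * i) (2 * i + 1)))
              * ∏ s ∈ Finset.Ico 1 (2 * n), l9wSl Q.ms Q.N 1 (l9wOm Q.ms Q.N fun _ => 0) n τ s
            ≤ l9wC J0 4 * (Ac * T0 / cD * Q.rho n τ * ∏ i ∈ Finset.range n \ R, e (τ (2 * i) (2 * i + 1)))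
              * ∏ s ∈ Finset.Ico 1 (2 * n), l9wSl Q.ms Q.N 1 (l9wOm Q.ms Q.N fun _ => 0) n τ s :=
              mul_le_mul_of_nonneg_right (mul_le_mul_of_nonneg_right hCm hc0) hP0
          _ = _ := by ring)
    (by
      intro τ hτ
      have hτ' : IsTr Q.N (2 * 2) τ := (l9a_mem_tab.1 (hmem 2 τ hτ).1).1
      have h1 := (l9w_Hq_le hms hτ' e hom0 hAc fun h01 => hCo2.sq τ h01 ((hvm τ 0).trans hat)).1
      refine h1.trans ?_
      have hle : Ac * T0 ≤ l9wC J0 4 * (Ac * T0) / cD := le_trans (le_mul_of_one_le_left hAc hC1) hΛle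
      exact mul_le_mul_of_nonneg_right (mul_le_mul_of_nonneg_right hle (l9w_rho_nonneg hms _ _)) (l9w_raw_nonneg hms he hom0 _ _ _))
    (by
      intro τ hτ
      have hτ' : IsTr Q.N (2 * 2) τ := (l9a_mem_tab.1 (hmem 2 τ hτ).1).1
      exact (l9w_Hq_le hms hτ' e hom0 hAc fun h01 => hCo2.sq τ h01 ((hvm τ 0).trans hat)).2)
  refine key.trans ?_
  have hX0 : 0 ≤ l9wC J0 4 * (Ac * T0) / cD * (4 ^ (2 * J0) * (2 / cD) ^ 5) / Q.lam * (A * Q.E3 Mj K) :=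
    mul_nonneg (div_nonneg (mul_nonneg hΛ (by linarith)) hlam.le) hAE
  refine mul_le_mul_of_nonneg_left (mul_le_mul_of_nonneg_right ?_ hX0) (by positivity)
  exact pow_le_pow_left₀ (Nat.cast_nonneg _) hKbL _


theorem l9w_defs_eqns_cite : True := by
  have := @l9wDes.eq_1; have := @l9wSl.eq_1; have := @l9wRat.eq_1; have := @l9wT.eq_1; have := @l9wNd.eq_1
  have := @L9Q.E2w.eq_1; have := @L9Q.InB.eq_1; have := @L9Q.dNum.eq_1; have := @L9Q.CCw.eq_1; have := @l9wDs.eq_1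
  have := @L9Q.Raw.eq_1; have := @L9Q.rho.eq_1; have := @l9wG.eq_1; have := @l9wOm.eq_1; have := @L9Q.Low.eq_1
  have := @L9Q.Co.eq_1; have := @l9wC.eq_1; have := @l9wRep.eq_1
  trivial

end Claimed.Agent.R286
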