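/-
OWNER helper30.  TEX[LL:exp:lem-centered-count]
Row 286 (S0533), LL Lemma 9.1: FIT of the consumer forms at one point `Q : L9Q`, uniform bound, numerics.      prefix `l9cf`      (0 sorry)
§1 `l9cf_vol_le`, **`l9cf_cc_of_ccw`** : `Q.CCw Mj e A vt K 4` (Lemma 9.1 on the FULL tables, 299 `L09/W5.lean`) ⟹ `Q.CC Mj e (2 A) vt K Cs` (Lemma 9.1 on the SKELETONS at a cut `m_c ≍ w`, 282 `L09/RedC.lean`), `4 ≤ Cs`.
§2 `D.BdU J0 W Kz err = D.BdM J0 Kz * (λ Y⁵ (x / Y + g_B)) + D.BdE J0 W err`, **`l9cf_val_le`** : `|D.val T| ≤ D.BdU ..` for ALL the terms `T.Ok D`, `T.j ≤ J0` (from `L9dImp`, `sc t * Y ≤ W` on the region).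
§3 constants of the centred half at `Tt = Lo` : `l9cf_BdM_le` (`≤ l9cfCM J * Lo ^ l9cfPM J`), `l9cf_BdE_le`;   powers of `x` : `l9cf_pow_loss`, `l9cf_pow_err`.
§4 THE INSTANCE (`l9ciD Q.i8 ..` of 70, hypotheses `H : L9ciHyp Q.i8 Sc e A (Q.Y Mj) ..`, `Sc.Z = Q.Zc Mj`): `l9cf_at : L9wAt ..`, `l9cf_ccw_pt`,
   **`l9cf_ccw_pow`** : `Lo ≤ CL x^(-δL)`, `Lm / Lo ≤ x^δ2`, `l9cfPM jm * δL ≤ δ`, `K + jm + (l9cfPE jm + jm) δL ≤ δ2 (2 pm)` ⟹ `Q.CCw Mj (l9rsE Q.N e) (l9cfC jm W0 CL * x^(-δ)) vt K jm`   (supply of W5);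
   **`l9cf_cc_pow`**  : the same at `jm = 4` ⟹ `Q.CC Mj (l9rsE Q.N e) (2 (l9cfC 4 W0 CL * x^(-δ))) vt K Cs`   (supply of RED: contracts `L9cCCD`, `L9cCCS` of `L09/RedSup.lean`).
-/
import Claimed.Agent.R286.L09.W5
import Claimed.Agent.R286.L09.CCAd
import Claimed.Agent.R286.L09.CCInst
import Claimed.Agent.R286.L09.RedSup

set_option autoImplicit false
set_option linter.unusedSectionVars false

namespace Claimed.Agent.R286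

open Finset

/-- **the skeleton volume is dominated by the slot weights** -/
theorem l9cf_vol_le {N : ℕ} {ms : ℕ → ℝ} (hms : IsMs N ms) {w : ℝ} (hw : 0 < w) {c : ℕ} (hc : c ≤ N + 1) (hpos : 0 < trPm ms c)
    (hwc : w ≤ trPm ms c) {n : ℕ} {sk : JtTopo} (hsk : IsTr N (2 * n) sk)
    (hle : ∀ x y, x < 2 * n → y < 2 * n → x ≠ y → sk x y ≤ c) (hdc : ∀ i, i < n → sk (2 * i) (2 * i + 1) < c) :
    l9rVol ms (2 * n) c sk ≤ ∏ s ∈ Ico 1 (2 * n), l9wSl ms N w (l9dOm ms c) n sk s := by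
  classical
  refine (l9r_vol_le_gw hms hc hpos hsk hle).trans ?_
  unfold l9aGW
  apply Finset.prod_le_prod
  · intro s _
    exact l9r_w_nonneg hms hc _ _ _ _
  · intro s hs
    rw [mem_Ico] at hs
    have hs1 : IsTr N (s + 1) sk := tr_isTr_mono hsk (by omega)
    obtain ⟨b1, b2, b3, b4, _⟩ := l9a_birth hs1 hs.1
    unfold l9rW l9wSl
    rw [if_pos b3]
    by_cases hn : L9aNew N sk s
    · rw [if_pos hn, if_neg (l9d_new_no_sep hs1 hn)]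
      by_cases hdes : l9wDes n sk s
      · rw [if_pos hdes]
        obtain ⟨i, hi, hv⟩ := hdes
        have hlt := hdc i hi
        have hdN : sk (2 * i) (2 * i + 1) ≤ N := by omega
        obtain ⟨_, _, v3⟩ := l9a_vx_spec hsk (show 2 * i < 2 * n by omega) (show 2 * i + 1 < 2 * n by omega) hdN
        rw [hv] at v3
        have hjc : l9aBj sk s < c := by rw [v3]; exact hlt
        rw [if_pos hjc]
        exact div_le_div_of_nonneg_left (l9a_mu_nonneg hms hn.2.1) hw hwc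
      · rw [if_neg hdes]
        exact le_rfl
    · rw [if_neg hn]
      split_ifs with h1 h2 h3
      · exact le_rfl
      · exact l9r_rho_le_one hms hc hpos h1
      · exact le_rfl
      · exact zero_le_one

theorem l9cf_sl_nonneg {N : ℕ} {ms : ℕ → ℝ} (hms : IsMs N ms) {w : ℝ} (hw : 0 < w) {om : ℕ → ℝ} (hom : ∀ t, 0 ≤ om t) (n : ℕ) (τ : JtTopo) (s : ℕ) :
    0 ≤ l9wSl ms N w om n τ s := by
  unfold l9wSl
  split_ifs with h1 h2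
  · exact div_nonneg (l9a_mu_nonneg hms h1.2.1) hw.le
  · exact hom _
  · exact zero_le_one

theorem l9cf_rat_nonneg (n : ℕ) (β : ℕ → ℕ) (τ : JtTopo) : 0 ≤ l9wRat n β τ := by
  unfold l9wRat
  split_ifs
  · positivity
  · exact zero_le_one

/-- **Lemma 9.1 on the skeletons from Lemma 9.1 on the full tables** -/
theorem l9cf_cc_of_ccw {Q : L9Q} {Mj : L9Mj} {e : ℕ → ℝ} {A vt K Cs : ℝ} (hms : IsMs Q.N Q.ms) (hY : 0 < Q.Y Mj) (hlam : 0 ≤ Q.lam)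
    (he0 : ∀ t, 0 ≤ e t) (h : Q.CCw Mj e A vt K 4) (hCs : 4 ≤ Cs) : Q.CC Mj e (2 * A) vt K Cs := by
  classical
  intro n hn2 hn4 R hR _ β V c hc h1 _ h3 B L0 hL0 hsupp hB
  set w := l9Bw (Q.Y Mj) n β with hw
  have hw0 : 0 < w := hY.trans_le (l9c_bw_ge hY.le n β)
  have hwc : w ≤ Q.mc c := by nlinarith
  have hpos : 0 < trPm Q.ms c := hw0.trans_le hwc
  set Sk := l9rSk (l9aTab Q.N (2 * n)) (2 * n) c with hSk
  have hsub : Sk ⊆ l9aTab Q.N (2 * n) := by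
    intro sk hsk
    obtain ⟨τ, hτ, rfl⟩ := mem_image.mp hsk
    exact l9r_tc_mem_tab (l9a_mem_tab.mp hτ).1 c
  have hskle : ∀ sk ∈ Sk, ∀ x y, x < 2 * n → y < 2 * n → x ≠ y → sk x y ≤ c := by
    intro sk hsk x y hx hy hxy
    obtain ⟨τ, _, rfl⟩ := mem_image.mp hsk
    rw [l9r_tc_apply τ hx hy hxy]
    exact min_le_right _ _
  -- the designated splits lie below the cut
  have hdep : ∀ sk, B sk ≠ 0 → ∀ i, i < n → sk (2 * i) (2 * i + 1) < c ∧ Q.vm sk i ≤ 2 * w := by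
    intro sk hne i hi
    have hb := (hsupp sk hne i hi).1
    have h2 : Q.vm sk i ≤ 2 * w := l9c_band_le_w hY.le hi hb
    refine ⟨?_, h2⟩
    refine l9c_depth_lt hms (fun v hv => by rw [Q.ms_top hv, Q.ms_top le_rfl]) hc ?_
    show Q.vm sk i < Q.mc c
    nlinarith
  set B' : JtTopo → ℝ := fun τ => if τ ∈ Sk then B τ else 0 with hB'
  have hB'1 : ∀ τ ∈ Sk, B' τ = B τ := fun τ hτ => by rw [hB']; simp only [if_pos hτ]
  have hB'0 : ∀ τ, τ ∉ Sk → B' τ = 0 := fun τ hτ => by rw [hB']; simp only [if_neg hτ]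
  have hne' : ∀ τ, B' τ ≠ 0 → τ ∈ Sk ∧ B τ ≠ 0 := by
    intro τ hne
    by_cases hτ : τ ∈ Sk
    · exact ⟨hτ, by rw [← hB'1 τ hτ]; exact hne⟩
    · exact absurd (hB'0 τ hτ) hne
  have e1 : ∑ sk ∈ Sk, B sk * (l9rNum (Q.X true) R (2 * n) sk - l9rNum (Q.X false) R (2 * n) sk)
      = ∑ τ ∈ l9aTab Q.N (2 * n), B' τ * Q.dNum R n τ := by
    rw [← Finset.sum_subset hsub]
    · exact Finset.sum_congr rfl fun τ hτ => by rw [hB'1 τ hτ]; rfl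
    · intro τ _ hn
      rw [hB'0 τ hn, zero_mul]
  rw [e1]
  have key := h n hn2 hn4 R hR β (l9dOm Q.ms c) (l9d_om_nonneg hms hc) (by rw [l9d_om_sum hc hpos]; norm_num) B' (2 * L0)
    (by linarith) ?_ ?_
  · calc _ ≤ 2 * L0 * (A * Q.E3 Mj K) := key
      _ = L0 * (2 * A * Q.E3 Mj K) := by ring
  · intro τ hne i hi
    obtain ⟨hτ, hb⟩ := hne' τ hne
    obtain ⟨d1, d2⟩ := hdep τ hb i hi
    refine ⟨by omega, (hsupp τ hb i hi).1, ?_⟩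
    have : Q.mc c ≤ vt := h3
    nlinarith
  · intro τ hτt
    have hE0 : 0 ≤ Q.E2w Mj e (l9dOm Q.ms c) n R β τ := by
      unfold L9Q.E2w
      refine mul_nonneg (mul_nonneg (mul_nonneg (mul_nonneg hlam (div_nonneg (pow_pos hw0 5).le (pow_pos hw0 n).le))
        (Finset.prod_nonneg fun i _ => he0 _)) (l9cf_rat_nonneg n β τ))
        (Finset.prod_nonneg fun s _ => l9cf_sl_nonneg hms hw0 (l9d_om_nonneg hms hc) n τ s)
    by_cases hne : B' τ = 0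
    · rw [hne, abs_zero]
      exact mul_nonneg (by linarith) hE0
    · obtain ⟨hτ, hb⟩ := hne' τ hne
      rw [hB'1 τ hτ]
      refine (hB τ).trans ?_
      have htr := (l9a_mem_tab.mp hτt).1
      have hv := l9cf_vol_le hms hw0 hc hpos hwc htr (hskle τ hτ) (fun i hi => (hdep τ hb i hi).1)
      have hvol0 : 0 ≤ l9rVol Q.ms (2 * n) c τ := l9r_vol_nonneg hms (2 * n) hc τ
      -- the ratio
      have hrat : (if n = 2 ∧ ¬ l9Same τ then max (min (Q.vm τ 0) (Q.vm τ 1)) (Q.Y Mj) / w else 1) ≤ 2 * l9wRat n β τ := by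
        unfold l9wRat
        by_cases hn : n = 2
        · subst hn
          have d0 : τ 0 1 < c := (hdep τ hb 0 (by norm_num)).1
          have d1 : τ 2 3 < c := (hdep τ hb 1 (by norm_num)).1
          have hiff := l9d_vx_eq_iff htr (a := 0) (b := 1) (a' := 2) (b' := 3) (by norm_num) (by norm_num) (by norm_num) (by norm_num)
            (by omega) (by omega)
          by_cases hs : l9Same τ
          · have : l9aVx τ 0 1 = l9aVx τ 2 3 := hiff.mpr hs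
            simp [hs, this]
          · have : l9aVx τ 0 1 ≠ l9aVx τ 2 3 := fun hh => hs (hiff.mp hh)
            rw [if_pos ⟨rfl, hs⟩, if_pos ⟨rfl, this⟩]
            have b0 := l9c_band_le (hsupp τ hb 0 (by norm_num)).1
            have b1 := l9c_band_le (hsupp τ hb 1 (by norm_num)).1
            have p0 : (1 : ℝ) ≤ 2 ^ β 0 := one_le_pow₀ (by norm_num)
            have p1 : (1 : ℝ) ≤ 2 ^ β 1 := one_le_pow₀ (by norm_num)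
            have hm : max (min (Q.vm τ 0) (Q.vm τ 1)) (Q.Y Mj) ≤ 2 * min ((2 : ℝ) ^ β 0) ((2 : ℝ) ^ β 1) * Q.Y Mj := by
              apply max_le
              · rcases le_total ((2 : ℝ) ^ β 0) ((2 : ℝ) ^ β 1) with hle | hle
                · rw [min_eq_left hle]
                  refine (min_le_left _ _).trans (b0.trans (le_of_eq ?_))
                  rw [pow_succ]; ring
                · rw [min_eq_right hle]
                  refine (min_le_right _ _).trans (b1.trans (le_of_eq ?_))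
                  rw [pow_succ]; ring
              · have : (1 : ℝ) ≤ min ((2 : ℝ) ^ β 0) ((2 : ℝ) ^ β 1) := le_min p0 p1
                nlinarith
            rw [div_le_iff₀ hw0]
            refine hm.trans (le_of_eq ?_)
            rw [hw]
            unfold l9Bw
            have : (2 : ℝ) ^ ((Finset.range 2).sup β) ≠ 0 := by positivity
            field_simp
        · simp [hn]
      unfold L9Q.E2 L9Q.E2w
      have hk : 0 ≤ Q.lam * (w ^ 5 / w ^ n) * ∏ i ∈ Finset.range n \ R, e (τ (2 * i) (2 * i + 1)) :=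
        mul_nonneg (mul_nonneg hlam (div_nonneg (pow_pos hw0 5).le (pow_pos hw0 n).le)) (Finset.prod_nonneg fun i _ => he0 _)
      have hr0 := l9cf_rat_nonneg n β τ
      calc L0 * (Q.lam * (w ^ 5 / w ^ n) * (∏ i ∈ Finset.range n \ R, e (τ (2 * i) (2 * i + 1)))
              * (if n = 2 ∧ ¬ l9Same τ then max (min (Q.vm τ 0) (Q.vm τ 1)) (Q.Y Mj) / w else 1) * l9rVol Q.ms (2 * n) c τ)
          ≤ L0 * (Q.lam * (w ^ 5 / w ^ n) * (∏ i ∈ Finset.range n \ R, e (τ (2 * i) (2 * i + 1)))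
              * (2 * l9wRat n β τ) * ∏ s ∈ Ico 1 (2 * n), l9wSl Q.ms Q.N w (l9dOm Q.ms c) n τ s) := by
            apply mul_le_mul_of_nonneg_left _ hL0
            apply mul_le_mul (mul_le_mul_of_nonneg_left hrat hk) hv hvol0
            exact mul_nonneg hk (by linarith)
        _ = _ := by ring


/-! ## 2. the bound of Lemma 9.1, uniform in the term -/

section unif
variable {S : Type} [Fintype S] [Inhabited S] {D : L9cD S}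

noncomputable def l9cfCard (J0 : ℕ) : ℝ := ∑ j ∈ range (J0 + 1), (Fintype.card (L9aChart (2 * j)) : ℝ)

theorem l9cf_card_le {j J0 : ℕ} (h : j ≤ J0) : (Fintype.card (L9aChart (2 * j)) : ℝ) ≤ l9cfCard J0 :=
  Finset.single_le_sum (f := fun j => (Fintype.card (L9aChart (2 * j)) : ℝ)) (fun _ _ => Nat.cast_nonneg _) (mem_range.mpr (by omega))

theorem l9cf_card_nonneg (J0 : ℕ) : 0 ≤ l9cfCard J0 := Finset.sum_nonneg fun _ _ => Nat.cast_nonneg _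

noncomputable def L9cD.BdM (D : L9cD S) (J0 : ℕ) (Kz : ℝ) : ℝ :=
  l9cfCard J0 * J0 * (2 * Kz * D.Lo ^ ((2 * J0 + 1) * (2 * J0 + 4)))

noncomputable def L9cD.BdE (D : L9cD S) (J0 : ℕ) (W err : ℝ) : ℝ :=
  l9cfCard J0 * J0 * (2 * D.Lo ^ ((2 * J0 + 1) * (J0 + 2)) * (D.Sc.lam * (max 1 W ^ 5 * max 1 (1 / D.Sc.Y) ^ J0)
    * (max 1 D.M ^ J0 * J0 * (D.Lm / D.Lo) ^ D.p0 + err)))

noncomputable def L9cD.BdU (D : L9cD S) (J0 : ℕ) (W Kz err : ℝ) : ℝ :=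
  D.BdM J0 Kz * (D.Sc.lam * D.Sc.Y ^ 5 * (D.Sc.x / D.Sc.Y + D.Sc.gB)) + D.BdE J0 W err

theorem l9cf_zpow_le {Y A W : ℝ} (hY : 0 < Y) (hA : 1 ≤ A) (hW : A * Y ≤ W) {j J0 : ℕ} (hj : j ≤ J0) :
    (A * Y) ^ ((5 : ℤ) - (j : ℕ)) ≤ max 1 W ^ 5 * max 1 (1 / Y) ^ J0 := by
  have hAY : 0 < A * Y := by positivity
  have h1 : (A * Y) ^ ((5 : ℤ) - (j : ℕ)) = (A * Y) ^ 5 * ((A * Y)⁻¹) ^ j := by
    rw [zpow_sub₀ hAY.ne', inv_pow, div_eq_mul_inv]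
    norm_cast
  rw [h1]
  have h2 : (A * Y) ^ 5 ≤ max 1 W ^ 5 := pow_le_pow_left₀ hAY.le (hW.trans (le_max_right _ _)) 5
  have h3 : (A * Y)⁻¹ ≤ max 1 (1 / Y) := by
    refine le_trans ?_ (le_max_right _ _)
    rw [one_div]
    exact inv_anti₀ hY (by nlinarith)
  have h4 : ((A * Y)⁻¹) ^ j ≤ max 1 (1 / Y) ^ J0 :=
    (pow_le_pow_left₀ (inv_nonneg.mpr hAY.le) h3 j).trans (pow_le_pow_right₀ (le_max_left _ _) hj)
  exact mul_le_mul h2 h4 (pow_nonneg (inv_nonneg.mpr hAY.le) _) (by positivity)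

theorem l9cf_BdM_nonneg (hD : D.Ok) (J0 : ℕ) {Kz : ℝ} (hKz : 1 ≤ Kz) : 0 ≤ D.BdM J0 Kz := by
  unfold L9cD.BdM
  have := hD.hLo
  have := l9cf_card_nonneg J0
  positivity

theorem l9cf_BdE_nonneg (hD : D.Ok) (J0 : ℕ) (W : ℝ) {err : ℝ} (herr : 0 ≤ err) : 0 ≤ D.BdE J0 W err := by
  unfold L9cD.BdE
  have := hD.hLo
  have := hD.hLm0
  have := l9cf_card_nonneg J0
  have := D.Sc.hlam
  positivity

theorem l9cf_BdU_nonneg (hD : D.Ok) (J0 : ℕ) (W : ℝ) {Kz err : ℝ} (hKz : 1 ≤ Kz) (herr : 0 ≤ err) : 0 ≤ D.BdU J0 W Kz err := by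
  unfold L9cD.BdU
  have := l9cf_BdM_nonneg hD J0 hKz
  have := l9cf_BdE_nonneg hD J0 W herr
  have := D.Sc.hlam
  have := D.Sc.hx
  have := D.Sc.Y_pos
  have := D.Sc.gB_pos
  positivity

theorem l9cf_Bd_le (hD : D.Ok) {j J0 : ℕ} (hj : j ≤ J0) {A W Kz err : ℝ} (hA : 1 ≤ A) (hW : A * D.Sc.Y ≤ W) (hKz : 1 ≤ Kz) (herr : 0 ≤ err) :
    D.Bd j A Kz err ≤ D.BdU J0 W Kz err := by
  have hLo := hD.hLo
  have hLm0 := hD.hLm0
  have hl := D.Sc.hlam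
  have hx := D.Sc.hx
  have hY := D.Sc.Y_pos
  have hg := D.Sc.gB_pos
  have hc0 := l9cf_card_nonneg J0
  have hjr : (j : ℝ) ≤ J0 := by exact_mod_cast hj
  have p1 : (D.Lo ^ (2 * j + 1)) ^ (2 * j + 3) ≤ D.Lo ^ ((2 * J0 + 1) * (2 * J0 + 4)) := by
    rw [← pow_mul]
    exact pow_le_pow_right₀ hLo (Nat.mul_le_mul (by omega) (by omega))
  have p2 : (D.Lo ^ (2 * j + 1)) ^ (2 * j + 4) ≤ D.Lo ^ ((2 * J0 + 1) * (2 * J0 + 4)) := by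
    rw [← pow_mul]
    exact pow_le_pow_right₀ hLo (Nat.mul_le_mul (by omega) (by omega))
  have p3 : (D.Lo ^ (2 * j + 1)) ^ (j + 2) ≤ D.Lo ^ ((2 * J0 + 1) * (J0 + 2)) := by
    rw [← pow_mul]
    exact pow_le_pow_right₀ hLo (Nat.mul_le_mul (by omega) (by omega))
  have p4 := l9cf_zpow_le hY hA hW hj
  have p5 : D.M ^ j ≤ max 1 D.M ^ J0 :=
    (pow_le_pow_left₀ hD.hM0 (le_max_right _ _) j).trans (pow_le_pow_right₀ (le_max_left _ _) hj)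
  have hr0 : 0 ≤ (D.Lm / D.Lo) ^ D.p0 := by positivity
  have hz0 : 0 ≤ (A * D.Sc.Y) ^ ((5 : ℤ) - (j : ℕ)) := zpow_nonneg (by positivity) _
  have hM0 := hD.hM0
  have hL0 : 0 ≤ D.Lo ^ ((2 * J0 + 1) * (2 * J0 + 4)) := by positivity
  have e1 : D.M ^ j * j * (D.Lm / D.Lo) ^ D.p0 + err ≤ max 1 D.M ^ J0 * J0 * (D.Lm / D.Lo) ^ D.p0 + err := by
    have : D.M ^ j * j ≤ max 1 D.M ^ J0 * J0 := mul_le_mul p5 hjr (Nat.cast_nonneg _) (by positivity)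
    nlinarith
  have t1 : 2 * (D.Lo ^ (2 * j + 1)) ^ (2 * j + 3) * (D.Sc.lam * D.Sc.Y ^ 5 * (D.Sc.x / D.Sc.Y))
      ≤ 2 * Kz * D.Lo ^ ((2 * J0 + 1) * (2 * J0 + 4)) * (D.Sc.lam * D.Sc.Y ^ 5 * (D.Sc.x / D.Sc.Y)) := by
    refine mul_le_mul_of_nonneg_right ?_ (by positivity)
    nlinarith
  have t2 : 2 * Kz * (D.Lo ^ (2 * j + 1)) ^ (2 * j + 4) * (D.Sc.lam * D.Sc.Y ^ 5 * D.Sc.gB)
      ≤ 2 * Kz * D.Lo ^ ((2 * J0 + 1) * (2 * J0 + 4)) * (D.Sc.lam * D.Sc.Y ^ 5 * D.Sc.gB) := by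
    refine mul_le_mul_of_nonneg_right ?_ (by positivity)
    exact mul_le_mul_of_nonneg_left p2 (by positivity)
  have t3 : 2 * (D.Lo ^ (2 * j + 1)) ^ (j + 2) * (D.Sc.lam * (A * D.Sc.Y) ^ ((5 : ℤ) - (j : ℕ)) * (D.M ^ j * j * (D.Lm / D.Lo) ^ D.p0 + err))
      ≤ 2 * D.Lo ^ ((2 * J0 + 1) * (J0 + 2)) * (D.Sc.lam * (max 1 W ^ 5 * max 1 (1 / D.Sc.Y) ^ J0)
        * (max 1 D.M ^ J0 * J0 * (D.Lm / D.Lo) ^ D.p0 + err)) := by
    refine mul_le_mul (mul_le_mul_of_nonneg_left p3 (by norm_num)) ?_ (by positivity) (by positivity)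
    exact mul_le_mul (mul_le_mul_of_nonneg_left p4 hl.le) e1 (by positivity) (by positivity)
  have hcj : (Fintype.card (L9aChart (2 * j)) : ℝ) * j ≤ l9cfCard J0 * J0 :=
    mul_le_mul (l9cf_card_le hj) hjr (Nat.cast_nonneg _) hc0
  unfold L9cD.Bd L9cD.BdU L9cD.BdM L9cD.BdE
  calc _ ≤ l9cfCard J0 * J0 * (2 * (D.Lo ^ (2 * j + 1)) ^ (2 * j + 3) * (D.Sc.lam * D.Sc.Y ^ 5 * (D.Sc.x / D.Sc.Y))
      + (2 * Kz * (D.Lo ^ (2 * j + 1)) ^ (2 * j + 4) * (D.Sc.lam * D.Sc.Y ^ 5 * D.Sc.gB)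
        + 2 * (D.Lo ^ (2 * j + 1)) ^ (j + 2) * (D.Sc.lam * (A * D.Sc.Y) ^ ((5 : ℤ) - (j : ℕ)) * (D.M ^ j * j * (D.Lm / D.Lo) ^ D.p0 + err)))) :=
        mul_le_mul_of_nonneg_right hcj (by positivity)
    _ ≤ l9cfCard J0 * J0 * (2 * Kz * D.Lo ^ ((2 * J0 + 1) * (2 * J0 + 4)) * (D.Sc.lam * D.Sc.Y ^ 5 * (D.Sc.x / D.Sc.Y))
      + (2 * Kz * D.Lo ^ ((2 * J0 + 1) * (2 * J0 + 4)) * (D.Sc.lam * D.Sc.Y ^ 5 * D.Sc.gB)
        + 2 * D.Lo ^ ((2 * J0 + 1) * (J0 + 2)) * (D.Sc.lam * (max 1 W ^ 5 * max 1 (1 / D.Sc.Y) ^ J0)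
        * (max 1 D.M ^ J0 * J0 * (D.Lm / D.Lo) ^ D.p0 + err)))) :=
        mul_le_mul_of_nonneg_left (by linarith) (by positivity)
    _ = _ := by ring

/-- **Lemma 9.1, uniform in the term** -/
theorem l9cf_val_le (hD : D.Ok) {J0 : ℕ} {W Kz err : ℝ} (hW : ∀ t, D.rg t → D.sc t * D.Sc.Y ≤ W) (hKz : 1 ≤ Kz) (herr : 0 ≤ err)
    (hI : L9dImp D J0 Kz err) {T : L9cT} (hT : T.Ok D) (hj : T.j ≤ J0) : |D.val T| ≤ D.BdU J0 W Kz err := by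
  classical
  by_cases h0 : ∃ τ ∈ l9aTab D.N (2 * T.j), T.H τ ≠ 0
  · obtain ⟨τ, hτ, hH⟩ := h0
    obtain ⟨i, hi, hiA⟩ := hT.hmax
    obtain ⟨h1, h2⟩ := hT.hV i _ hi (hT.supp τ hτ hH i hi)
    have hA : 1 ≤ T.A := hiA ▸ hT.ha1 i hi
    have hWA : T.A * D.Sc.Y ≤ W := by
      rw [← hiA, ← h2]
      exact hW _ h1
    exact (l9d_val hD hKz herr hI hT hj).trans (l9cf_Bd_le hD hj hA hWA hKz herr)
  · have : D.val T = 0 := by
      unfold L9cD.val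
      refine Finset.sum_eq_zero fun τ hτ => ?_
      have : T.H τ = 0 := by
        by_contra hn
        exact h0 ⟨τ, hτ, hn⟩
      rw [this, zero_mul]
    rw [this, abs_zero]
    exact l9cf_BdU_nonneg hD J0 W hKz herr

end unif

/-! ## 3. the constants of the centred half (`Tt = Lo`), powers of `x` -/

section num
variable {S : Type} [Fintype S] [Inhabited S] {D : L9cD S}

/-- exponent of the loss in the main part -/
def l9cfPM (J : ℕ) : ℕ := 2 * J + ((2 * J + 1) * J + 1) + (2 * J + 1) * (2 * J + 4)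
/-- constant of the main part -/
noncomputable def l9cfCM (J : ℕ) : ℝ := 2 ^ J * (l9cfCard J * J * (2 * (1 + 24 * J)))
/-- exponent of the loss in the error part -/
def l9cfPE (J : ℕ) : ℕ := (2 * J + 1) * (J + 2) + (2 * J + 1)
/-- constant of the error part -/
noncomputable def l9cfCE (J : ℕ) : ℝ := 2 ^ J * (l9cfCard J * J * (2 * (J + 15 * 5 ^ J * (J + 1))))

theorem l9cf_KJ_le (hLo : 1 ≤ D.Lo) {A : ℝ} (hA : 1 ≤ A) (hALo : 2 * A ≤ D.Lo) (J : ℕ) :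
    max 1 (l13zKJ D J (A * (2 * A) ^ J) A D.Lo) ≤ (1 + 24 * J) * D.Lo ^ (2 * J + ((2 * J + 1) * J + 1)) := by
  have hJ0 : (0 : ℝ) ≤ J := Nat.cast_nonneg _
  have hL0 : (0 : ℝ) ≤ D.Lo := by linarith
  apply max_le
  · have : (1 : ℝ) ≤ D.Lo ^ (2 * J + ((2 * J + 1) * J + 1)) := one_le_pow₀ hLo
    nlinarith
  · unfold l13zKJ
    have e1 : (D.Lo * D.Lo) ^ J = D.Lo ^ (2 * J) := by rw [← pow_two, ← pow_mul]
    have e2 : (D.Lo ^ (2 * J + 1)) ^ J = D.Lo ^ ((2 * J + 1) * J) := by rw [← pow_mul]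
    have hALo' : A ≤ D.Lo := by linarith
    have a1 : A * (2 * A) ^ J ≤ D.Lo ^ ((2 * J + 1) * J + 1) := by
      calc A * (2 * A) ^ J ≤ D.Lo * D.Lo ^ J := mul_le_mul hALo' (pow_le_pow_left₀ (by linarith) hALo J) (by positivity) hL0
        _ = D.Lo ^ (J + 1) := by rw [pow_succ]; ring
        _ ≤ _ := pow_le_pow_right₀ hLo (by nlinarith)
    have a2 : 24 * (J : ℝ) * A * D.Lo ^ ((2 * J + 1) * J) ≤ 24 * J * D.Lo ^ ((2 * J + 1) * J + 1) := by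
      rw [pow_succ]
      have : 0 ≤ D.Lo ^ ((2 * J + 1) * J) := by positivity
      nlinarith [mul_nonneg hJ0 this, mul_le_mul_of_nonneg_left hALo' (mul_nonneg hJ0 this)]
    rw [e1, e2, pow_add]
    have : 0 ≤ D.Lo ^ (2 * J) := by positivity
    calc D.Lo ^ (2 * J) * (A * (2 * A) ^ J + 24 * J * A * D.Lo ^ ((2 * J + 1) * J))
        ≤ D.Lo ^ (2 * J) * (D.Lo ^ ((2 * J + 1) * J + 1) + 24 * J * D.Lo ^ ((2 * J + 1) * J + 1)) :=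
          mul_le_mul_of_nonneg_left (add_le_add a1 a2) this
      _ = _ := by ring

/-- the main part is a power of the loss -/
theorem l9cf_BdM_le (hLo : 1 ≤ D.Lo) {A : ℝ} (hA : 1 ≤ A) (hALo : 2 * A ≤ D.Lo) (J : ℕ) :
    2 ^ J * D.BdM J (max 1 (l13zKJ D J (A * (2 * A) ^ J) A D.Lo)) ≤ l9cfCM J * D.Lo ^ l9cfPM J := by
  have h := l9cf_KJ_le hLo hA hALo J
  have hc := l9cf_card_nonneg J
  have hL0 : (0 : ℝ) ≤ D.Lo := by linarith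
  unfold L9cD.BdM l9cfCM l9cfPM
  rw [pow_add D.Lo (2 * J + ((2 * J + 1) * J + 1))]
  calc 2 ^ J * (l9cfCard J * J * (2 * max 1 (l13zKJ D J (A * (2 * A) ^ J) A D.Lo) * D.Lo ^ ((2 * J + 1) * (2 * J + 4))))
      ≤ 2 ^ J * (l9cfCard J * J * (2 * ((1 + 24 * J) * D.Lo ^ (2 * J + ((2 * J + 1) * J + 1))) * D.Lo ^ ((2 * J + 1) * (2 * J + 4)))) := by
        gcongr
    _ = _ := by ring

/-- the error part -/
theorem l9cf_BdE_le (hLo : 1 ≤ D.Lo) (hLm : 0 ≤ D.Lm) (J : ℕ) (W : ℝ) :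
    2 ^ J * D.BdE J W (l13zEJ D J D.Lo) ≤ l9cfCE J * D.Lo ^ l9cfPE J
      * (D.Sc.lam * (max 1 W ^ 5 * max 1 (1 / D.Sc.Y) ^ J) * (max 1 D.M ^ J * (D.Lm / D.Lo) ^ D.p0)) := by
  have hc := l9cf_card_nonneg J
  have hL0 : (0 : ℝ) < D.Lo := by linarith
  have hl := D.Sc.hlam
  have hJ0 : (0 : ℝ) ≤ J := Nat.cast_nonneg _
  have hr : 0 ≤ (D.Lm / D.Lo) ^ D.p0 := by positivity
  have hM : 0 ≤ max 1 D.M ^ J := by positivity
  have hL1 : (1 : ℝ) ≤ D.Lo ^ (2 * J + 1) := one_le_pow₀ hLo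
  have inner : max 1 D.M ^ J * J * (D.Lm / D.Lo) ^ D.p0 + l13zEJ D J D.Lo
      ≤ D.Lo ^ (2 * J + 1) * ((J + 15 * 5 ^ J * (J + 1)) * (max 1 D.M ^ J * (D.Lm / D.Lo) ^ D.p0)) := by
    unfold l13zEJ
    have h0 : 0 ≤ max 1 D.M ^ J * J * (D.Lm / D.Lo) ^ D.p0 := by positivity
    calc max 1 D.M ^ J * J * (D.Lm / D.Lo) ^ D.p0 + D.Lo ^ (2 * J + 1) * max 1 D.M ^ J * (15 * 5 ^ J * ((J + 1) * (D.Lm / D.Lo) ^ D.p0))
        ≤ D.Lo ^ (2 * J + 1) * (max 1 D.M ^ J * J * (D.Lm / D.Lo) ^ D.p0)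
          + D.Lo ^ (2 * J + 1) * max 1 D.M ^ J * (15 * 5 ^ J * ((J + 1) * (D.Lm / D.Lo) ^ D.p0)) := by nlinarith
      _ = _ := by ring
  unfold L9cD.BdE l9cfCE l9cfPE
  rw [pow_add D.Lo ((2 * J + 1) * (J + 2))]
  calc 2 ^ J * (l9cfCard J * J * (2 * D.Lo ^ ((2 * J + 1) * (J + 2)) * (D.Sc.lam * (max 1 W ^ 5 * max 1 (1 / D.Sc.Y) ^ J)
        * (max 1 D.M ^ J * J * (D.Lm / D.Lo) ^ D.p0 + l13zEJ D J D.Lo))))
      ≤ 2 ^ J * (l9cfCard J * J * (2 * D.Lo ^ ((2 * J + 1) * (J + 2)) * (D.Sc.lam * (max 1 W ^ 5 * max 1 (1 / D.Sc.Y) ^ J)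
        * (D.Lo ^ (2 * J + 1) * ((J + 15 * 5 ^ J * (J + 1)) * (max 1 D.M ^ J * (D.Lm / D.Lo) ^ D.p0)))))) := by
        gcongr
    _ = _ := by ring

/-- a power of a loss `≤ C x^(-δL)` -/
theorem l9cf_pow_loss {x Lo CL δL δ : ℝ} (hx : 0 < x) (hx1 : x ≤ 1) (hLo : 0 ≤ Lo) (hU : Lo ≤ CL * x ^ (-δL)) (P : ℕ) (hδ : P * δL ≤ δ) :
    Lo ^ P ≤ CL ^ P * x ^ (-δ) := by
  have hC : 0 ≤ CL := by
    by_contra hn
    have : CL * x ^ (-δL) < 0 := mul_neg_of_neg_of_pos (not_le.mp hn) (Real.rpow_pos_of_pos hx _)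
    linarith
  calc Lo ^ P ≤ (CL * x ^ (-δL)) ^ P := pow_le_pow_left₀ hLo hU P
    _ = CL ^ P * x ^ (-δL * P) := by rw [mul_pow, ← Real.rpow_natCast (x ^ (-δL)), ← Real.rpow_mul hx.le]
    _ ≤ CL ^ P * x ^ (-δ) := mul_le_mul_of_nonneg_left (Real.rpow_le_rpow_of_exponent_ge hx hx1 (by nlinarith)) (by positivity)

/-- the error part in powers of `x` -/
theorem l9cf_pow_err {x Y lam W M Lo Lm CL W0 δL δ2 K : ℝ} (hx : 0 < x) (hx1 : x ≤ 1) (hxY : x ≤ Y) (_hl0 : 0 ≤ lam) (hl1 : lam ≤ 1)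
    (hW : max 1 W ≤ W0) (hLo : 1 ≤ Lo) (hM : max 1 M ≤ Lo * W0) (hLm : 0 ≤ Lm) (hr : Lm / Lo ≤ x ^ δ2) (hU : Lo ≤ CL * x ^ (-δL))
    (P J p0 : ℕ) (hK : K + J + ((P + J : ℕ) : ℝ) * δL ≤ δ2 * p0) :
    Lo ^ P * (lam * (max 1 W ^ 5 * max 1 (1 / Y) ^ J) * (max 1 M ^ J * (Lm / Lo) ^ p0)) ≤ CL ^ (P + J) * W0 ^ (5 + J) * x ^ K := by
  have hLo0 : 0 < Lo := by linarith
  have hW0 : 1 ≤ W0 := (le_max_left _ _).trans hW
  have h1 : max 1 W ^ 5 ≤ W0 ^ 5 := pow_le_pow_left₀ (by positivity) hW 5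
  have h2 : max 1 (1 / Y) ^ J ≤ x ^ (-(J : ℝ)) := by
    have : max 1 (1 / Y) ≤ x⁻¹ := by
      apply max_le
      · exact (one_le_inv₀ hx).mpr hx1
      · rw [one_div]; exact inv_anti₀ hx hxY
    calc max 1 (1 / Y) ^ J ≤ (x⁻¹) ^ J := pow_le_pow_left₀ (by positivity) this J
      _ = x ^ (-(J : ℝ)) := by rw [Real.rpow_neg hx.le, Real.rpow_natCast, inv_pow]
  have h3 : max 1 M ^ J ≤ Lo ^ J * W0 ^ J := by
    rw [← mul_pow]; exact pow_le_pow_left₀ (by positivity) hM J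
  have h4 : (Lm / Lo) ^ p0 ≤ x ^ (δ2 * p0) := by
    calc (Lm / Lo) ^ p0 ≤ (x ^ δ2) ^ p0 := pow_le_pow_left₀ (by positivity) hr p0
      _ = x ^ (δ2 * p0) := by rw [← Real.rpow_natCast (x ^ δ2), ← Real.rpow_mul hx.le]
  have h5 := l9cf_pow_loss hx hx1 hLo0.le hU (P + J) (δ := ((P + J : ℕ) : ℝ) * δL) le_rfl
  have hxa : 0 < x ^ (-(J : ℝ)) := Real.rpow_pos_of_pos hx _
  have hxb : 0 < x ^ (δ2 * p0) := Real.rpow_pos_of_pos hx _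
  have hC : 0 ≤ CL := by
    by_contra hn
    have : CL * x ^ (-δL) < 0 := mul_neg_of_neg_of_pos (not_le.mp hn) (Real.rpow_pos_of_pos hx _)
    linarith
  calc Lo ^ P * (lam * (max 1 W ^ 5 * max 1 (1 / Y) ^ J) * (max 1 M ^ J * (Lm / Lo) ^ p0))
      ≤ Lo ^ P * (1 * (W0 ^ 5 * x ^ (-(J : ℝ))) * (Lo ^ J * W0 ^ J * x ^ (δ2 * p0))) := by
        gcongr
    _ = Lo ^ (P + J) * W0 ^ (5 + J) * (x ^ (-(J : ℝ)) * x ^ (δ2 * p0)) := by rw [pow_add, pow_add]; ring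
    _ ≤ CL ^ (P + J) * x ^ (-(((P + J : ℕ) : ℝ) * δL)) * W0 ^ (5 + J) * (x ^ (-(J : ℝ)) * x ^ (δ2 * p0)) := by
        gcongr
    _ = CL ^ (P + J) * W0 ^ (5 + J) * x ^ (-(((P + J : ℕ) : ℝ) * δL) + (-(J : ℝ) + δ2 * p0)) := by
        rw [Real.rpow_add hx, Real.rpow_add hx]; ring
    _ ≤ CL ^ (P + J) * W0 ^ (5 + J) * x ^ K :=
        mul_le_mul_of_nonneg_left (Real.rpow_le_rpow_of_exponent_ge hx hx1 (by linarith)) (by positivity)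

end num

/-! ## 4. the instance at one point `Q` -/

section inst
variable {Q : L9Q} {Mj : L9Mj} {Sc : L13Scales} {e : ℕ → ℝ} {A Zh vt vp cE : ℝ} {pm jm : ℕ} {Lo Lm M : ℝ} {Kb : ℕ}

/-- the table level at the point `Q` (record of 299) for the concrete data of 70 -/
theorem l9cf_at (H : L9ciHyp Q.i8 Sc e A (Q.Y Mj) Zh vt vp cE pm jm Lo Lm M Kb) {J0 : ℕ} (hJ : J0 ≤ 2 * pm) (hLo : 8 ≤ Lo) :
    L9wAt Q Mj vt J0 (l9ciD Q.i8 Sc e vt Lo Lm M (2 * pm)) where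
  ok := l9ci_ok H
  X := rfl
  ms := rfl
  lam := H.lk.lam
  Y := H.lk.Y
  Lm1 := l9ci_Lm1 H
  Lo8 := hLo
  p0 := hJ
  rg := fun _ h1 h2 => ⟨h1, h2⟩
  sc := fun t k _ hb => by
    have h1 := (l9ci_sc_band H.Ypos k _).mp hb
    show l9ciSc Sc.Y _ = _
    rw [H.lk.Y]
    exact h1
  f_le := (l9ci_dlk H).f_env
  f_M := (l9ci_dlk H).f_M
  e_M := l9ci_env_M H

/-- the largest band -/
theorem l9cf_W (H : L9ciHyp Q.i8 Sc e A (Q.Y Mj) Zh vt vp cE pm jm Lo Lm M Kb) (t : ℕ) (ht : (l9ciD Q.i8 Sc e vt Lo Lm M (2 * pm)).rg t) :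
    (l9ciD Q.i8 Sc e vt Lo Lm M (2 * pm)).sc t * (l9ciD Q.i8 Sc e vt Lo Lm M (2 * pm)).Sc.Y ≤ max vt (Q.Y Mj) := by
  show l9ciSc Sc.Y (llMs Q.i8.a Q.i8.LP t) * Sc.Y ≤ _
  rcases lt_or_eq_of_le (l9ci_sc_one Sc.Y (llMs Q.i8.a Q.i8.LP t)) with h | h
  · exact ((l9ci_sc_lt h).le.trans ht.2).trans (le_max_left _ _)
  · rw [← h, one_mul, H.lk.Y]
    exact le_max_right _ _

/-- (E3) in the scales of the table level -/
theorem l9cf_E3 (H : L9ciHyp Q.i8 Sc e A (Q.Y Mj) Zh vt vp cE pm jm Lo Lm M Kb) (hZ : Sc.Z = Q.Zc Mj) (K : ℝ) :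
    Q.E3 Mj K = Sc.lam * Sc.Y ^ 5 * (Sc.x / Sc.Y + Sc.gB) + Q.x ^ K := by
  have h1 : Sc.gB = Q.gB Mj := by
    unfold L13Scales.gB L13Scales.g0 L9Q.gB
    rw [H.lk.lam, H.lk.s, H.lk.eta, hZ]
    rfl
  rw [h1, H.lk.lam, H.lk.Y, H.lk.x]
  rfl

/-- **Lemma 9.1 on the full tables at one point**, two numerical conditions left -/
theorem l9cf_ccw_pt (H : L9ciHyp Q.i8 Sc e A (Q.Y Mj) Zh vt vp cE pm jm Lo Lm M Kb) (hZ : Sc.Z = Q.Zc Mj)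
    (hJ : jm ≤ 2 * pm) (hLo : 8 ≤ Lo) {A' K : ℝ}
    (h1 : 2 ^ jm * (l9ciD Q.i8 Sc e vt Lo Lm M (2 * pm)).BdM jm
      (max 1 (l13zKJ (l9ciD Q.i8 Sc e vt Lo Lm M (2 * pm)) jm (A * (2 * A) ^ jm) A Lo)) ≤ A')
    (h2 : 2 ^ jm * (l9ciD Q.i8 Sc e vt Lo Lm M (2 * pm)).BdE jm (max vt (Q.Y Mj)) (l13zEJ (l9ciD Q.i8 Sc e vt Lo Lm M (2 * pm)) jm Lo)
      ≤ A' * Q.x ^ K) :
    Q.CCw Mj (l9rsE Q.N e) A' vt K jm := by
  set D := l9ciD Q.i8 Sc e vt Lo Lm M (2 * pm) with hDd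
  have hD : D.Ok := l9ci_ok H
  have hLo1 : (1 : ℝ) ≤ Lo := by linarith
  have hI := l9ci_imp H hLo1 H.hLmLo
  have hE0 : 0 ≤ l13zEJ D jm Lo := by
    unfold l13zEJ
    have := hD.hLo
    have := hD.hLm0
    positivity
  have hI' : L9dImp D jm (max 1 (l13zKJ D jm (A * (2 * A) ^ jm) A Lo)) (l13zEJ D jm Lo) := by
    intro T hT hj hhi
    obtain ⟨a1, a2⟩ := hI T hT hj hhi
    refine ⟨fun χ hχ i1 b1 b2 b3 => (a1 χ hχ i1 b1 b2 b3).l13z_mono hD hT (le_max_right _ _) le_rfl, fun i0 hi0 => ?_⟩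
    intro χ hχ b1 b2 b3 b4 b5 en
    exact (a2 i0 hi0 χ hχ b1 b2 b3 b4 b5 en).l13z_mono hD hT (le_max_right _ _) le_rfl
  have hB := fun (T : L9cT) (hT : T.Ok D) (hj : T.j ≤ jm) => l9cf_val_le hD (l9cf_W H) (le_max_left _ _) hE0 hI' hT hj
  have hB0 := l9cf_BdU_nonneg hD jm (max vt (Q.Y Mj)) (le_max_left 1 (l13zKJ D jm (A * (2 * A) ^ jm) A Lo)) hE0
  refine l9w_cc_of_tab (l9cf_at H hJ hLo) hB0 hB ?_
  rw [l9cf_E3 H hZ K]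
  unfold L9cD.BdU
  have hm : 0 ≤ Sc.lam * Sc.Y ^ 5 * (Sc.x / Sc.Y + Sc.gB) := by
    have := Sc.hlam
    have := Sc.hx
    have := Sc.Y_pos
    have := Sc.gB_pos
    positivity
  have h1' := mul_le_mul_of_nonneg_right h1 hm
  show 2 ^ jm * (D.BdM jm _ * (Sc.lam * Sc.Y ^ 5 * (Sc.x / Sc.Y + Sc.gB)) + D.BdE jm _ _) ≤ _
  nlinarith

/-- the constant of the exit -/
noncomputable def l9cfC (J : ℕ) (W0 CL : ℝ) : ℝ := max (l9cfCM J * CL ^ l9cfPM J) (l9cfCE J * (CL ^ (l9cfPE J + J) * W0 ^ (5 + J)))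

/-- **Lemma 9.1 on the full tables at one point, in powers of `x`**: loss `Lo ≤ CL x^(-δL)`, gain `Lm / Lo ≤ x^δ2`, order `2 pm` -/
theorem l9cf_ccw_pow (H : L9ciHyp Q.i8 Sc e A (Q.Y Mj) Zh vt vp cE pm jm Lo Lm M Kb) (hZ : Sc.Z = Q.Zc Mj)
    (hJ : jm ≤ 2 * pm) (hLo : 8 ≤ Lo) (hx1 : Q.x ≤ 1) {W0 CL δL δ2 δ K : ℝ} (hW : max 1 (max vt (Q.Y Mj)) ≤ W0) (hM : max 1 M ≤ Lo * W0)
    (hU : Lo ≤ CL * Q.x ^ (-δL)) (hr : Lm / Lo ≤ Q.x ^ δ2) (hδ0 : 0 ≤ δ) (hδ : (l9cfPM jm : ℝ) * δL ≤ δ)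
    (hK : K + jm + ((l9cfPE jm + jm : ℕ) : ℝ) * δL ≤ δ2 * (2 * pm : ℕ)) :
    Q.CCw Mj (l9rsE Q.N e) (l9cfC jm W0 CL * Q.x ^ (-δ)) vt K jm := by
  set D := l9ciD Q.i8 Sc e vt Lo Lm M (2 * pm) with hDd
  have hD : D.Ok := l9ci_ok H
  have hx : 0 < Q.x := by
    have := Sc.hx
    rw [H.lk.x] at this
    exact this
  have hLo1 : (1 : ℝ) ≤ D.Lo := by show (1 : ℝ) ≤ Lo; linarith
  have hA2 : 2 * A ≤ D.Lo := H.hLm.trans H.hLmLo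
  have hxd : 1 ≤ Q.x ^ (-δ) := Real.one_le_rpow_of_pos_of_le_one_of_nonpos hx hx1 (by linarith)
  have hcM : 0 ≤ l9cfCM jm := by
    unfold l9cfCM
    have := l9cf_card_nonneg jm
    positivity
  have hcE : 0 ≤ l9cfCE jm := by
    unfold l9cfCE
    have := l9cf_card_nonneg jm
    positivity
  refine l9cf_ccw_pt H hZ hJ hLo ?_ ?_
  · refine (l9cf_BdM_le hLo1 H.A1 hA2 jm).trans ?_
    have h1 := l9cf_pow_loss hx hx1 (by linarith : (0 : ℝ) ≤ D.Lo) hU (l9cfPM jm) hδ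
    calc l9cfCM jm * D.Lo ^ l9cfPM jm ≤ l9cfCM jm * (CL ^ l9cfPM jm * Q.x ^ (-δ)) := mul_le_mul_of_nonneg_left h1 hcM
      _ = l9cfCM jm * CL ^ l9cfPM jm * Q.x ^ (-δ) := by ring
      _ ≤ _ := mul_le_mul_of_nonneg_right (le_max_left _ _) (by linarith)
  · refine (l9cf_BdE_le hLo1 hD.hLm0.le jm _).trans ?_
    have hxY : Q.x ≤ D.Sc.Y := by
      have := H.lk.x_le_Y
      rw [H.lk.x] at this
      exact this
    have hl1 : D.Sc.lam ≤ 1 := by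
      show Sc.lam ≤ 1
      rw [H.lk.lam]
      exact H.lk.lam1
    have h2 := l9cf_pow_err (x := Q.x) (Y := D.Sc.Y) (lam := D.Sc.lam) (W := max vt (Q.Y Mj)) (M := D.M) (Lo := D.Lo) (Lm := D.Lm) hx hx1 hxY
      D.Sc.hlam.le hl1 hW hLo1 hM hD.hLm0.le hr hU (l9cfPE jm) jm D.p0 hK
    have hxK : 0 ≤ Q.x ^ K := Real.rpow_nonneg hx.le _
    calc l9cfCE jm * D.Lo ^ l9cfPE jm * (D.Sc.lam * (max 1 (max vt (Q.Y Mj)) ^ 5 * max 1 (1 / D.Sc.Y) ^ jm) * (max 1 D.M ^ jm * (D.Lm / D.Lo) ^ D.p0))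
        = l9cfCE jm * (D.Lo ^ l9cfPE jm * (D.Sc.lam * (max 1 (max vt (Q.Y Mj)) ^ 5 * max 1 (1 / D.Sc.Y) ^ jm) * (max 1 D.M ^ jm * (D.Lm / D.Lo) ^ D.p0))) := by
          ring
      _ ≤ l9cfCE jm * (CL ^ (l9cfPE jm + jm) * W0 ^ (5 + jm) * Q.x ^ K) := mul_le_mul_of_nonneg_left h2 hcE
      _ = l9cfCE jm * (CL ^ (l9cfPE jm + jm) * W0 ^ (5 + jm)) * Q.x ^ K := by ring
      _ ≤ l9cfC jm W0 CL * Q.x ^ K := mul_le_mul_of_nonneg_right (le_max_right _ _) hxK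
      _ ≤ l9cfC jm W0 CL * Q.x ^ (-δ) * Q.x ^ K := by
          have hC0 : 0 ≤ l9cfC jm W0 CL := by
            refine le_trans ?_ (le_max_left _ _)
            have hCL : 0 ≤ CL := by
              by_contra hn
              have : CL * Q.x ^ (-δL) < 0 := mul_neg_of_neg_of_pos (not_le.mp hn) (Real.rpow_pos_of_pos hx _)
              linarith
            positivity
          refine mul_le_mul_of_nonneg_right ?_ hxK
          nlinarith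

/-- **Lemma 9.1 on the skeletons at one point, in powers of `x`** (`jm = 4`) -/
theorem l9cf_cc_pow {Cs : ℝ} (H : L9ciHyp Q.i8 Sc e A (Q.Y Mj) Zh vt vp cE pm 4 Lo Lm M Kb) (hZ : Sc.Z = Q.Zc Mj)
    (hJ : 2 ≤ pm) (hLo : 8 ≤ Lo) (hx1 : Q.x ≤ 1) {W0 CL δL δ2 δ K : ℝ} (hW : max 1 (max vt (Q.Y Mj)) ≤ W0) (hM : max 1 M ≤ Lo * W0)
    (hU : Lo ≤ CL * Q.x ^ (-δL)) (hr : Lm / Lo ≤ Q.x ^ δ2) (hδ0 : 0 ≤ δ) (hδ : (l9cfPM 4 : ℝ) * δL ≤ δ)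
    (hK : K + (4 : ℕ) + ((l9cfPE 4 + 4 : ℕ) : ℝ) * δL ≤ δ2 * (2 * pm : ℕ)) (hCs : 4 ≤ Cs) :
    Q.CC Mj (l9rsE Q.N e) (2 * (l9cfC 4 W0 CL * Q.x ^ (-δ))) vt K Cs := by
  have h := l9cf_ccw_pow H hZ (by omega) hLo hx1 hW hM hU hr hδ0 hδ hK
  have hl : 0 ≤ Q.lam := by
    have := Sc.hlam
    rw [H.lk.lam] at this
    exact this.le
  refine l9cf_cc_of_ccw H.isMs H.Ypos hl (fun t => ?_) h hCs
  unfold l9rsE
  split_ifs with ht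
  · exact (H.e_pos ht).le
  · exact le_rfl

/-- `CCw` is monotone in the degree -/
theorem l9cf_ccw_anti {e' : ℕ → ℝ} {A' vt' K : ℝ} {J0 J1 : ℕ} (h : Q.CCw Mj e' A' vt' K J0) (hJ : J1 ≤ J0) : Q.CCw Mj e' A' vt' K J1 :=
  fun n h2 hn => h n h2 (hn.trans hJ)

/-- `CCw` above the top of the masses -/
theorem l9cf_ccw_top {e' : ℕ → ℝ} {A' vt' vt'' K : ℝ} {J0 : ℕ} (h : Q.CCw Mj e' A' vt' K J0) (htop : ∀ t, t ≤ Q.N → Q.ms t ≤ vt') :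
    Q.CCw Mj e' A' vt'' K J0 := by
  intro n h2 hn R hR β om hom0 hom B L0 hL0 hsupp hB
  refine h n h2 hn R hR β om hom0 hom B L0 hL0 (fun τ hτ i hi => ?_) hB
  obtain ⟨a1, a2, _⟩ := hsupp τ hτ i hi
  exact ⟨a1, a2, htop _ a1⟩

/-- `CCw` is monotone in the loss -/
theorem l9cf_ccw_mono {e' : ℕ → ℝ} {A' A'' vt' K : ℝ} {J0 : ℕ} (h : Q.CCw Mj e' A' vt' K J0) (hA : A' ≤ A'') (hE : 0 ≤ Q.E3 Mj K) :
    Q.CCw Mj e' A'' vt' K J0 := by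
  intro n h2 hn R hR β om hom0 hom B L0 hL0 hsupp hB
  exact (h n h2 hn R hR β om hom0 hom B L0 hL0 hsupp hB).trans (mul_le_mul_of_nonneg_left (mul_le_mul_of_nonneg_right hA hE) hL0)

/-- **both consumer forms from ONE instance** (`4 ≤ jm`): the SAME envelope for RED (`Q.CC`) and W5 (`Q.CCw`) -/
theorem l9cf_both_pow {Cs : ℝ} (H : L9ciHyp Q.i8 Sc e A (Q.Y Mj) Zh vt vp cE pm jm Lo Lm M Kb) (hZ : Sc.Z = Q.Zc Mj) (h4 : 4 ≤ jm)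
    (hJ : jm ≤ 2 * pm) (hLo : 8 ≤ Lo) (hx1 : Q.x ≤ 1) {W0 CL δL δ2 δ K : ℝ} (hW : max 1 (max vt (Q.Y Mj)) ≤ W0) (hM : max 1 M ≤ Lo * W0)
    (hU : Lo ≤ CL * Q.x ^ (-δL)) (hr : Lm / Lo ≤ Q.x ^ δ2) (hδ0 : 0 ≤ δ) (hδ : (l9cfPM jm : ℝ) * δL ≤ δ)
    (hK : K + jm + ((l9cfPE jm + jm : ℕ) : ℝ) * δL ≤ δ2 * (2 * pm : ℕ)) (hCs : 4 ≤ Cs) :
    Q.CCw Mj (l9rsE Q.N e) (l9cfC jm W0 CL * Q.x ^ (-δ)) vt K jm ∧ Q.CC Mj (l9rsE Q.N e) (2 * (l9cfC jm W0 CL * Q.x ^ (-δ))) vt K Cs := by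
  have h := l9cf_ccw_pow H hZ hJ hLo hx1 hW hM hU hr hδ0 hδ hK
  have hl : 0 ≤ Q.lam := by
    have := Sc.hlam
    rw [H.lk.lam] at this
    exact this.le
  refine ⟨h, l9cf_cc_of_ccw H.isMs H.Ypos hl (fun t => ?_) (l9cf_ccw_anti h h4) hCs⟩
  unfold l9rsE
  split_ifs with ht
  · exact (H.e_pos ht).le
  · exact le_rfl

end inst

end Claimed.Agent.R286
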