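/-
OWNER helper64.  TEX[LL:exp:lem-centered-count] (the CENTRED half of the proof, part 1: language + CASE A).      Prefix `l13z_` / `L13z`.
Row 286, package L13 (LL 09-expansion, Lemma 9.1 "Centered allocation estimate", l.145-160): produces the hypothesis `hcenA` of `L13Fac.cc_high` (helper30, L09/CCAbs)
from TWO abstract single paths `P false` (untilted), `P true` (tilted) : `L8P` (helper75, L08/SP*; concrete: `I.sp tl` of L08/Defs) and the exports of L08/Cen (helper187).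
No own open leaf in this file.      v2 (04:50Z): NO DENSITY of the tilt here: the tilt enters ONLY through the numbers of `L8In.Rnd true` (LL08 exit of helper75).

MAP
 0. generic: `l13z_prod_sub_pow`, `l13z_alias` (a product of versions against the power of ONE version; truncation + Markov tails).
 1. `L13zTree P ν sh` = a law `ν` of `q` paths of which ONLY the single and pair marginals are used: path law `μ`, fork law at the cut `sh a b`.
    `P.l13zV S0 k u`, `P.l13zT S0 k` = the versions of helper187 (`l8cV`, `l8cT`) centred at an EXTERNAL constant `S0 k` (the untilted mean, common to both ensembles).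
    `prefix_sq`, `alias_dist` (pair -> ancestor -> 2L on ANY path through the fork: `≤ 3 al`), `alias_prod`, `linear_exact`.
 3. bookkeeping of `L13Fac`: `zDet`, `zMst`, `z_T_eq`, `z_env_prod`.
 4. INTERFACE `L13zRep Fc P S0 q` (representation of the numbers of one term by laws of `q` paths) and `L13zNum` (numbers of LL08 at a vertex).
    `zA_main`: tilted minus untilted `≤` the `L²` norm in the tilted ensemble of the integral centred at its untilted mean (= field `d10` of `Rnd true`).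
    **`L13zRep.zA`** = case A, explicit constants:  `Bc = Lm^#det (B10 + 6 n Tt^(n-1) A1)`,  `err = Lo M^#det 4 5^n (n+1) (Lm/Tt)^p0`.
 Case C (later linear singleton, fixed marginal), the bridge from `L8L.Ok` and the wrappers to `L13CC.Zhyp`: L09/CCCenC.lean.
-/
import Claimed.Agent.R286.L08.Cen
import Claimed.Agent.R286.L09.CCAbs

set_option autoImplicit false
set_option linter.unusedSectionVars false

namespace Claimed.Agent.R286

open MeasureTheory ProbabilityTheory Finset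
open scoped ENNReal

/-! ## 0. Generic steps (any probability space) -/
section generic

/-- product of versions against the power of one version, all below `b` -/
theorem l13z_prod_sub_pow {J : Type*} (s : Finset J) (x : J → ℝ) (y b : ℝ) (hx : ∀ i ∈ s, |x i| ≤ b)
    (hy : |y| ≤ b) : |∏ i ∈ s, x i - y ^ s.card| ≤ b ^ (s.card - 1) * ∑ i ∈ s, |x i - y| := by
  classical
  induction s using Finset.induction_on with
  | empty => simp
  | insert a s ha ih =>
    have hb : 0 ≤ b := (abs_nonneg _).trans hy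
    rw [Finset.prod_insert ha, Finset.card_insert_of_notMem ha, Finset.sum_insert ha]
    have ih' := ih (fun i hi => hx i (Finset.mem_insert_of_mem hi))
    have hP : |∏ i ∈ s, x i| ≤ b ^ s.card := by
      rw [Finset.abs_prod]
      calc ∏ i ∈ s, |x i| ≤ ∏ _i ∈ s, b :=
            Finset.prod_le_prod (fun i _ => abs_nonneg _) (fun i hi => hx i (Finset.mem_insert_of_mem hi))
        _ = b ^ s.card := by simp
    have e : x a * ∏ i ∈ s, x i - y ^ (s.card + 1)
        = (x a - y) * ∏ i ∈ s, x i + y * (∏ i ∈ s, x i - y ^ s.card) := by ring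
    have hS : 0 ≤ ∑ i ∈ s, |x i - y| := Finset.sum_nonneg fun i _ => abs_nonneg _
    have h2 : b * (b ^ (s.card - 1) * ∑ i ∈ s, |x i - y|) = b ^ s.card * ∑ i ∈ s, |x i - y| := by
      rcases Nat.eq_zero_or_pos s.card with h0 | h0
      · rw [Finset.card_eq_zero.mp h0]; simp
      · obtain ⟨n, hn⟩ : ∃ n, s.card = n + 1 := ⟨s.card - 1, by omega⟩
        rw [hn, Nat.add_sub_cancel]; ring
    rw [e, Nat.add_sub_cancel]
    calc |(x a - y) * ∏ i ∈ s, x i + y * (∏ i ∈ s, x i - y ^ s.card)|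
        ≤ |(x a - y) * ∏ i ∈ s, x i| + |y * (∏ i ∈ s, x i - y ^ s.card)| := abs_add_le _ _
      _ = |x a - y| * |∏ i ∈ s, x i| + |y| * |∏ i ∈ s, x i - y ^ s.card| := by rw [abs_mul, abs_mul]
      _ ≤ |x a - y| * b ^ s.card + b * (b ^ (s.card - 1) * ∑ i ∈ s, |x i - y|) :=
          add_le_add (mul_le_mul_of_nonneg_left hP (abs_nonneg _))
            (mul_le_mul hy ih' (abs_nonneg _) hb)
      _ = b ^ s.card * (|x a - y| + ∑ i ∈ s, |x i - y|) := by rw [h2]; ring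

variable {α : Type*} [MeasurableSpace α] {ν : Measure α} [IsProbabilityMeasure ν]

/-- **alias replacement in a product**: all the factors `ξ i` are replaced by ONE variable `Λ`; truncation at `b`, Markov tails built in -/
theorem l13z_alias {J : Type*} (s : Finset J) (ξ : J → α → ℝ) (Λ : α → ℝ) (B b : ℝ) (hb : 0 < b) (p : ℕ)
    (hξ : ∀ i, L13Rv ν (ξ i) B) (hΛ : L13Rv ν Λ B) :
    |∫ x, ∏ i ∈ s, ξ i x ∂ν - ∫ x, Λ x ^ s.card ∂ν|
      ≤ b ^ (s.card - 1) * ∑ i ∈ s, ∫ x, |ξ i x - Λ x| ∂ν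
        + 2 * B ^ s.card * ((∑ i ∈ s, ∫ x, |ξ i x| ^ p ∂ν) + ∫ x, |Λ x| ^ p ∂ν) / b ^ p := by
  classical
  have hbp : 0 < b ^ p := pow_pos hb p
  have hpt : ∀ x, |∏ i ∈ s, ξ i x - Λ x ^ s.card|
      ≤ b ^ (s.card - 1) * ∑ i ∈ s, |ξ i x - Λ x|
        + 2 * B ^ s.card * ((∑ i ∈ s, |ξ i x| ^ p) + |Λ x| ^ p) / b ^ p := by
    intro x
    have hB : 0 ≤ B := (abs_nonneg _).trans (hΛ.bdd x)
    have hs0 : 0 ≤ ∑ i ∈ s, |ξ i x| ^ p := Finset.sum_nonneg fun i _ => pow_nonneg (abs_nonneg _) _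
    have hl0 : 0 ≤ |Λ x| ^ p := pow_nonneg (abs_nonneg _) _
    by_cases hall : (∀ i ∈ s, |ξ i x| ≤ b) ∧ |Λ x| ≤ b
    · have h1 := l13z_prod_sub_pow s (fun i => ξ i x) (Λ x) b hall.1 hall.2
      have h2 : 0 ≤ 2 * B ^ s.card * ((∑ i ∈ s, |ξ i x| ^ p) + |Λ x| ^ p) / b ^ p := by positivity
      linarith
    · have h1 : b ^ p ≤ (∑ i ∈ s, |ξ i x| ^ p) + |Λ x| ^ p := by
        by_cases h : ∀ i ∈ s, |ξ i x| ≤ b
        · have h' : b < |Λ x| := by
            by_contra hc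
            exact hall ⟨h, not_lt.mp hc⟩
          have := pow_le_pow_left₀ hb.le h'.le p
          linarith
        · push Not at h
          obtain ⟨i0, hi0, hlt⟩ := h
          have h3 := pow_le_pow_left₀ hb.le hlt.le p
          have h4 := Finset.single_le_sum (f := fun i => |ξ i x| ^ p)
            (fun i _ => pow_nonneg (abs_nonneg _) _) hi0
          linarith
      have h2 : |∏ i ∈ s, ξ i x - Λ x ^ s.card| ≤ 2 * B ^ s.card := by
        have ha : |∏ i ∈ s, ξ i x| ≤ B ^ s.card := by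
          rw [Finset.abs_prod]
          calc ∏ i ∈ s, |ξ i x| ≤ ∏ _i ∈ s, B :=
                Finset.prod_le_prod (fun i _ => abs_nonneg _) (fun i _ => (hξ i).bdd x)
            _ = B ^ s.card := by simp
        have hc : |Λ x ^ s.card| ≤ B ^ s.card := by
          rw [abs_pow]; exact pow_le_pow_left₀ (abs_nonneg _) (hΛ.bdd x) _
        calc |∏ i ∈ s, ξ i x - Λ x ^ s.card| ≤ |∏ i ∈ s, ξ i x| + |Λ x ^ s.card| := abs_sub _ _
          _ ≤ 2 * B ^ s.card := by linarith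
      have h3 : 2 * B ^ s.card ≤ 2 * B ^ s.card * ((∑ i ∈ s, |ξ i x| ^ p) + |Λ x| ^ p) / b ^ p := by
        rw [le_div_iff₀ hbp]
        exact mul_le_mul_of_nonneg_left h1 (by positivity)
      have h4 : 0 ≤ b ^ (s.card - 1) * ∑ i ∈ s, |ξ i x - Λ x| :=
        mul_nonneg (pow_nonneg hb.le _) (Finset.sum_nonneg fun i _ => abs_nonneg _)
      linarith
  have hd : ∀ i, L13Rv ν (fun x => ξ i x - Λ x) (B + B) := fun i =>
    ⟨(hξ i).meas.sub hΛ.meas, fun x => (abs_sub _ _).trans (add_le_add ((hξ i).bdd x) (hΛ.bdd x))⟩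
  have hi1 : Integrable (fun x => ∏ i ∈ s, ξ i x) ν := (L13Rv.prod s hξ).integrable
  have hi2 : Integrable (fun x => Λ x ^ s.card) ν := (hΛ.pow _).integrable
  have hi3 : Integrable (fun x => b ^ (s.card - 1) * ∑ i ∈ s, |ξ i x - Λ x|) ν :=
    (integrable_finsetSum _ fun i _ => (hd i).abs.integrable).const_mul _
  have hi4 : Integrable (fun x => 2 * B ^ s.card * ((∑ i ∈ s, |ξ i x| ^ p) + |Λ x| ^ p) / b ^ p) ν :=
    (((integrable_finsetSum _ fun i _ => ((hξ i).abs.pow p).integrable).add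
      (hΛ.abs.pow p).integrable).const_mul _).div_const _
  rw [← integral_sub hi1 hi2]
  calc |∫ x, (∏ i ∈ s, ξ i x - Λ x ^ s.card) ∂ν| ≤ ∫ x, |∏ i ∈ s, ξ i x - Λ x ^ s.card| ∂ν :=
        abs_integral_le_integral_abs
    _ ≤ ∫ x, (b ^ (s.card - 1) * ∑ i ∈ s, |ξ i x - Λ x|
          + 2 * B ^ s.card * ((∑ i ∈ s, |ξ i x| ^ p) + |Λ x| ^ p) / b ^ p) ∂ν :=
        integral_mono_of_nonneg (Filter.Eventually.of_forall fun x => abs_nonneg _) (hi3.add hi4)
          (Filter.Eventually.of_forall hpt)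
    _ = _ := by
        rw [integral_add hi3 hi4, integral_const_mul, integral_div, integral_const_mul,
          integral_add (integrable_finsetSum _ fun i _ => ((hξ i).abs.pow p).integrable)
            (hΛ.abs.pow p).integrable,
          integral_finsetSum _ (fun i _ => (hd i).abs.integrable),
          integral_finsetSum _ (fun i _ => ((hξ i).abs.pow p).integrable)]

/-- `L¹ ≤ L²` on a probability space -/
theorem l13z_l1_le_l2 {f : α → ℝ} {M : ℝ} (hf : L13Rv ν f M) : ∫ x, |f x| ∂ν ≤ √(∫ x, f x ^ 2 ∂ν) := by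
  have h := l13_cs hf (L13Rv.const (P := ν) 1)
  simpa using h

/-- Cauchy-Schwarz, square integrable factors (no boundedness: the density of the tilt is unbounded) -/
theorem l13z_cs {μ : Measure α} {f g : α → ℝ} (hf : MemLp f 2 μ) (hg : MemLp g 2 μ) :
    |∫ x, f x * g x ∂μ| ≤ √(∫ x, f x ^ 2 ∂μ) * √(∫ x, g x ^ 2 ∂μ) := by
  have hpq : (2 : ℝ).HolderConjugate 2 := Real.HolderConjugate.two_two
  have h2 : (ENNReal.ofReal 2) = 2 := by simp
  have h := integral_mul_norm_le_Lp_mul_Lq (μ := μ) (f := f) (g := g) hpq (by rw [h2]; exact hf) (by rw [h2]; exact hg)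
  have e : ∀ u : α → ℝ, (∫ x, ‖u x‖ ^ (2 : ℝ) ∂μ) ^ (1 / (2 : ℝ)) = √(∫ x, u x ^ 2 ∂μ) := by
    intro u
    rw [Real.sqrt_eq_rpow]
    congr 2
    ext x
    rw [Real.rpow_two, Real.norm_eq_abs, sq_abs]
  rw [e f, e g] at h
  calc |∫ x, f x * g x ∂μ| ≤ ∫ x, |f x * g x| ∂μ := abs_integral_le_integral_abs
    _ = ∫ x, ‖f x‖ * ‖g x‖ ∂μ := by simp_rw [abs_mul, Real.norm_eq_abs]
    _ ≤ _ := h

end generic

/-! ## 1. Laws of several paths over an abstract single path -/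

variable {Ω : Type} [mΩ : MeasurableSpace Ω] {m : ℕ}

/-- finite sums of bounded measurable functions (any universe of indices) -/
theorem l13z_bd_sum {κ : Type*} (s : Finset κ) {f : κ → Ω → ℝ} (hf : ∀ i ∈ s, L8Bd (f i)) : L8Bd (fun ω => ∑ i ∈ s, f i ω) := by
  classical
  induction s using Finset.induction_on with
  | empty => simpa using l8Bd_const (Ω := Ω) 0
  | insert a s ha ih =>
    have h1 := (hf a (Finset.mem_insert_self a s)).add (ih fun i hi => hf i (Finset.mem_insert_of_mem hi))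
    simpa [Finset.sum_insert ha] using h1

/-- **a law of `q` paths** (positive law of a tree in ONE ensemble, pushed to the `q` paths): only its SINGLE and PAIR marginals are used:
every path has the law `μ`, two paths which share `sh a b` revelations have the fork law at the cut `sh a b`.
(The tilted ensemble is the hierarchy of its OWN single path `P true`: no density, no forest.) -/
structure L13zTree (P : L8P Ω m) {q : ℕ} (ν : Measure (Fin q → Ω)) (sh : Fin q → Fin q → ℕ) : Prop where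
  prob : IsProbabilityMeasure ν
  one : ∀ (a : Fin q) (F : Ω → ℝ), L8Bd F → ∫ w, F (w a) ∂ν = ∫ ω, F ω ∂P.μ
  pair : ∀ a b : Fin q, a ≠ b → ∀ F : Ω × Ω → ℝ, Measurable F → (∃ c, ∀ p, |F p| ≤ c) →
    ∫ w, F (w a, w b) ∂ν = ∫ p, F p ∂(P.fork (sh a b))

/-- admissible centring constants -/
def L13zCen (S0 : ℕ → ℝ) : Prop := ∀ k, 0 ≤ S0 k ∧ S0 k ≤ 1

namespace L8P

variable (P : L8P Ω m)

/-- a function of the first branch under the fork law -/
theorem l13z_fork_fst (h : P.Ok) (k : ℕ) {f : Ω → ℝ} (hf : Measurable f) : ∫ p, f p.1 ∂(P.fork k) = ∫ ω, f ω ∂P.μ := by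
  rw [← P.l8s_fork_fst h k, integral_map measurable_fst.aemeasurable hf.aestronglyMeasurable]

/-- the versions of the inserted value at the cut `k`, centred at an EXTERNAL constant `S0 k` (LL 09 l.98: the centring `S` is common to the two ensembles = the UNTILTED mean) -/
noncomputable def l13zV (S0 : ℕ → ℝ) (k : ℕ) (u : L8cVer) (x : Ω × Ω) : ℝ := P.l8cV k u x + (P.S k - S0 k)

/-- `2 L_k - S0 k` -/
noncomputable def l13zT (S0 : ℕ → ℝ) (k : ℕ) (ω : Ω) : ℝ := P.l8cT k ω + (P.S k - S0 k)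

theorem l13z_T_eq (S0 : ℕ → ℝ) (k : ℕ) (ω : Ω) : P.l13zT S0 k ω = 2 * P.L k ω - S0 k := by
  unfold l13zT l8cT; ring

theorem l13z_V_pair (S0 : ℕ → ℝ) (k c1 c2 : ℕ) (x : Ω × Ω) : P.l13zV S0 k (.pair c1 c2) x = P.QX c1 c2 x - S0 k := by
  simp only [l13zV, l8cV]; ring

theorem l13z_V_term (h : P.Ok) (S0 : ℕ → ℝ) (k : ℕ) (x : Ω × Ω) : P.l13zV S0 k (.pair (P.n + 1) (P.n + 1)) x = P.Q x - S0 k := by
  rw [l13zV, P.l8c_ver_term h]; ring

theorem l13z_V_path (S0 : ℕ → ℝ) (k : ℕ) (x : Ω × Ω) : P.l13zV S0 k .path x = P.l13zT S0 k x.1 := rfl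

theorem l13z_V_self (k : ℕ) (u : L8cVer) (x : Ω × Ω) : P.l13zV P.S k u x = P.l8cV k u x := by simp [l13zV]

theorem l13z_T_self (k : ℕ) (ω : Ω) : P.l13zT P.S k ω = P.l8cT k ω := by simp [l13zT]

theorem l13z_V_meas (h : P.Ok) (S0 : ℕ → ℝ) (k : ℕ) (u : L8cVer) : Measurable (P.l13zV S0 k u) :=
  (P.l8c_ver_meas h k u).add_const _

theorem l13z_shift_le (h : P.Ok) {S0 : ℕ → ℝ} (hS : L13zCen S0) (k : ℕ) : |P.S k - S0 k| ≤ 1 := by
  have h1 := P.l8s_S_nonneg k
  have h2 := P.l8s_S_le_one h k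
  rw [abs_le]; constructor <;> linarith [(hS k).1, (hS k).2]

theorem l13z_V_abs_le (h : P.Ok) {S0 : ℕ → ℝ} (hS : L13zCen S0) (k : ℕ) (u : L8cVer) (x : Ω × Ω) : |P.l13zV S0 k u x| ≤ 5 :=
  (abs_add_le _ _).trans (by linarith [P.l8c_ver_abs_le h k u x, P.l13z_shift_le h hS k])

theorem l13z_T_bd (h : P.Ok) (S0 : ℕ → ℝ) (k : ℕ) : L8Bd (P.l13zT S0 k) := (P.l8c_T_bd h k).add (l8Bd_const _)

theorem l13z_T_abs_le (h : P.Ok) {S0 : ℕ → ℝ} (hS : L13zCen S0) (k : ℕ) (ω : Ω) : |P.l13zT S0 k ω| ≤ 5 :=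
  (abs_add_le _ _).trans (by linarith [P.l8c_T_abs_le h k ω, P.l13z_shift_le h hS k])

/-- `|E I| ≤ ‖I‖₂` -/
theorem l13z_mean_le (h : P.Ok) {I : Ω → ℝ} (hI : L8Bd I) {B : ℝ} (hB0 : 0 ≤ B) (hB : ∫ ω, I ω ^ 2 ∂P.μ ≤ B ^ 2) : |∫ ω, I ω ∂P.μ| ≤ B := by
  have := h.prob
  obtain ⟨hm, c, hc⟩ := hI
  have r : L13Rv P.μ I c := ⟨hm.aestronglyMeasurable, hc⟩
  calc |∫ ω, I ω ∂P.μ| ≤ ∫ ω, |I ω| ∂P.μ := abs_integral_le_integral_abs
    _ ≤ √(∫ ω, I ω ^ 2 ∂P.μ) := l13z_l1_le_l2 r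
    _ ≤ √(B ^ 2) := Real.sqrt_le_sqrt hB
    _ = B := Real.sqrt_sq hB0

end L8P

namespace L13zTree

variable {P : L8P Ω m} {q : ℕ} {ν : Measure (Fin q → Ω)} {sh : Fin q → Fin q → ℕ}

/-- bounded measurable function of two paths -/
theorem rv_pair (F : Ω × Ω → ℝ) (hF : Measurable F) {c : ℝ} (hc : ∀ p, |F p| ≤ c) (a b : Fin q) :
    L13Rv ν (fun w => F (w a, w b)) c :=
  ⟨(hF.comp ((measurable_pi_apply a).prodMk (measurable_pi_apply b))).aestronglyMeasurable, fun _ => hc _⟩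

theorem rv_one (F : Ω → ℝ) (hF : Measurable F) {c : ℝ} (hc : ∀ p, |F p| ≤ c) (a : Fin q) :
    L13Rv ν (fun w => F (w a)) c :=
  ⟨(hF.comp (measurable_pi_apply a)).aestronglyMeasurable, fun _ => hc _⟩

/-- two paths which share the cut `k` have the same prefix observables at `k` -/
theorem prefix_sq (hT : L13zTree P ν sh) (h : P.Ok) {k : ℕ} {a c : Fin q} (hac : a = c ∨ k ≤ sh a c)
    {g : Ω → ℝ} (hg : Measurable[P.ℱ k] g) (hgb : L8Bd g) : ∫ w, (g (w a) - g (w c)) ^ 2 ∂ν = 0 := by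
  by_cases hne : a = c
  · subst hne; simp
  · have hk : k ≤ sh a c := hac.resolve_left hne
    obtain ⟨hgm, cg, hcg⟩ := hgb
    have hF : Measurable fun p : Ω × Ω => (g p.1 - g p.2) ^ 2 :=
      ((hgm.comp measurable_fst).sub (hgm.comp measurable_snd)).pow_const 2
    have hb : ∃ c', ∀ p : Ω × Ω, |(g p.1 - g p.2) ^ 2| ≤ c' := by
      refine ⟨(cg + cg) ^ 2, fun p => ?_⟩
      rw [abs_pow]
      exact pow_le_pow_left₀ (abs_nonneg _) ((abs_sub _ _).trans (add_le_add (hcg _) (hcg _))) 2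
    rw [hT.pair a c hne (fun p => (g p.1 - g p.2) ^ 2) hF hb]
    have hae := P.l8s_fork_prefix h (sh a c) (hg.mono (P.ℱ.mono hk) le_rfl)
    have : (fun p : Ω × Ω => (g p.1 - g p.2) ^ 2) =ᵐ[P.fork (sh a c)] fun _ => 0 := by
      filter_upwards [hae] with p hp
      rw [hp]; simp
    rw [integral_congr_ae this]; simp

/-- **distance of a (projected) pair to `2 L - S` on a path through the fork** -/
theorem alias_dist (hT : L13zTree P ν sh) (h : P.Ok) (S0 : ℕ → ℝ) {k c1 c2 : ℕ} {a b c : Fin q} (hab : a ≠ b)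
    (hsab : sh a b = k) (hac : a = c ∨ k ≤ sh a c) (hc1 : k ≤ c1) (hc2 : k ≤ c2) {al : ℝ} (hal0 : 0 ≤ al)
    (hal : ∀ u u' : L8cVer, u.Valid k → u'.Valid k → ∫ p, (P.l8cV k u p - P.l8cV k u' p) ^ 2 ∂(P.fork k) ≤ al ^ 2) :
    ∫ w, |P.l13zV S0 k (.pair c1 c2) (w a, w b) - P.l13zT S0 k (w c)| ∂ν ≤ 3 * al := by
  have := hT.prob
  set A1 : (Fin q → Ω) → ℝ := fun w => P.l8cV k (.pair c1 c2) (w a, w b) - P.l8cV k .anc (w a, w b) with hA1
  set A2 : (Fin q → Ω) → ℝ := fun w => P.nX k (w a) - P.nX k (w c) with hA2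
  set A3 : (Fin q → Ω) → ℝ := fun w => P.nX k (w c) - P.S k - P.l8cT k (w c) with hA3
  have hdec : ∀ w, P.l13zV S0 k (.pair c1 c2) (w a, w b) - P.l13zT S0 k (w c) = A1 w + A2 w + A3 w := by
    intro w
    simp only [hA1, hA2, hA3, L8P.l8cV, L8P.l13zV, L8P.l13zT]
    ring
  -- the three pieces as bounded variables
  have hm1 : Measurable fun p : Ω × Ω => P.l8cV k (.pair c1 c2) p - P.l8cV k .anc p :=
    (P.l8c_ver_meas h k _).sub (P.l8c_ver_meas h k _)
  have hb1 : ∀ p : Ω × Ω, |P.l8cV k (.pair c1 c2) p - P.l8cV k .anc p| ≤ 8 := fun p =>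
    (abs_sub _ _).trans (by linarith [P.l8c_ver_abs_le h k (.pair c1 c2) p, P.l8c_ver_abs_le h k .anc p])
  have r1 : L13Rv ν A1 8 := rv_pair _ hm1 hb1 a b
  obtain ⟨hnm, cn, hcn⟩ := P.l8s_nX_bd_aux h k
  have r2 : L13Rv ν A2 (cn + cn) :=
    ⟨((hnm.comp (measurable_pi_apply a)).sub (hnm.comp (measurable_pi_apply c))).aestronglyMeasurable,
      fun w => (abs_sub _ _).trans (add_le_add (hcn _) (hcn _))⟩
  have hm3 : Measurable fun ω : Ω => P.nX k ω - P.S k - P.l8cT k ω := (hnm.sub_const _).sub (P.l8c_T_bd h k).1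
  have hb3 : ∀ ω : Ω, |P.nX k ω - P.S k - P.l8cT k ω| ≤ 8 := by
    intro ω
    have h1 := P.l8c_ver_abs_le h k .anc (ω, ω)
    have h2 := P.l8c_T_abs_le h k ω
    simp only [L8P.l8cV] at h1
    exact (abs_sub _ _).trans (by linarith)
  have r3 : L13Rv ν A3 8 := rv_one _ hm3 hb3 c
  -- second moments
  have e1 : ∫ w, A1 w ^ 2 ∂ν ≤ al ^ 2 := by
    have hp := hT.pair a b hab
      (fun p => (P.l8cV k (.pair c1 c2) p - P.l8cV k .anc p) ^ 2) (hm1.pow_const 2)
      ⟨8 ^ 2, fun p => by rw [abs_pow]; exact pow_le_pow_left₀ (abs_nonneg _) (hb1 p) 2⟩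
    rw [hsab] at hp
    calc ∫ w, A1 w ^ 2 ∂ν = _ := hp
      _ ≤ al ^ 2 := hal _ _ ⟨hc1, hc2⟩ trivial
  have e2 : ∫ w, A2 w ^ 2 ∂ν = 0 := hT.prefix_sq h hac (P.l8s_nX_meas_aux h k) (P.l8s_nX_bd_aux h k)
  have e3 : ∫ w, A3 w ^ 2 ∂ν ≤ al ^ 2 := by
    have hp := hT.one c (fun ω => (P.nX k ω - P.S k - P.l8cT k ω) ^ 2)
      ⟨hm3.pow_const 2, 8 ^ 2, fun p => by rw [abs_pow]; exact pow_le_pow_left₀ (abs_nonneg _) (hb3 p) 2⟩
    have hq := hal .anc .path trivial trivial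
    have hf := P.l13z_fork_fst h k (f := fun ω => (P.nX k ω - P.S k - P.l8cT k ω) ^ 2) (hm3.pow_const 2)
    simp only [L8P.l8cV] at hq
    calc ∫ w, A3 w ^ 2 ∂ν = _ := hp
      _ = _ := hf.symm
      _ ≤ al ^ 2 := hq
  have r : L13Rv ν (fun w => A1 w + A2 w + A3 w) (8 + (cn + cn) + 8) :=
    ⟨(r1.meas.add r2.meas).add r3.meas, fun w =>
      (abs_add_le _ _).trans (add_le_add ((abs_add_le _ _).trans (add_le_add (r1.bdd w) (r2.bdd w))) (r3.bdd w))⟩
  have hsq : ∫ w, (A1 w + A2 w + A3 w) ^ 2 ∂ν ≤ (3 * al) ^ 2 := by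
    have hi : Integrable (fun w => 3 * (A1 w ^ 2 + A2 w ^ 2 + A3 w ^ 2)) ν :=
      (((r1.pow 2).integrable.add (r2.pow 2).integrable).add (r3.pow 2).integrable).const_mul 3
    calc ∫ w, (A1 w + A2 w + A3 w) ^ 2 ∂ν ≤ ∫ w, 3 * (A1 w ^ 2 + A2 w ^ 2 + A3 w ^ 2) ∂ν := by
          refine integral_mono (r.pow 2).integrable hi fun w => ?_
          nlinarith [sq_nonneg (A1 w - A2 w), sq_nonneg (A1 w - A3 w), sq_nonneg (A2 w - A3 w)]
      _ = 3 * (∫ w, A1 w ^ 2 ∂ν + ∫ w, A2 w ^ 2 ∂ν + ∫ w, A3 w ^ 2 ∂ν) := by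
          have i12 : Integrable (fun w => A1 w ^ 2 + A2 w ^ 2) ν := (r1.pow 2).integrable.add (r2.pow 2).integrable
          rw [integral_const_mul, integral_add i12 (r3.pow 2).integrable,
            integral_add (r1.pow 2).integrable (r2.pow 2).integrable]
      _ ≤ (3 * al) ^ 2 := by nlinarith [sq_nonneg al]
  simp_rw [hdec]
  calc ∫ w, |A1 w + A2 w + A3 w| ∂ν ≤ √(∫ w, (A1 w + A2 w + A3 w) ^ 2 ∂ν) := l13z_l1_le_l2 r
    _ ≤ √((3 * al) ^ 2) := Real.sqrt_le_sqrt hsq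
    _ = 3 * al := Real.sqrt_sq (by positivity)

/-- moments of a version of a pair -/
theorem mom_pair (hT : L13zTree P ν sh) (h : P.Ok) {S0 : ℕ → ℝ} (hS : L13zCen S0) {k : ℕ} {a b : Fin q} (hab : a ≠ b) (hsab : sh a b = k)
    (u : L8cVer) (p : ℕ) :
    ∫ w, |P.l13zV S0 k u (w a, w b)| ^ p ∂ν = ∫ x, |P.l13zV S0 k u x| ^ p ∂(P.fork k) := by
  have hp := hT.pair a b hab (fun x => |P.l13zV S0 k u x| ^ p)
    ((P.l13z_V_meas h S0 k u).abs.pow_const p)
    ⟨5 ^ p, fun x => by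
      rw [abs_pow, abs_abs]; exact pow_le_pow_left₀ (abs_nonneg _) (P.l13z_V_abs_le h hS k u x) p⟩
  rw [hsab] at hp
  exact hp

/-- moments of `2 L - S` on one path -/
theorem mom_path (hT : L13zTree P ν sh) (h : P.Ok) {S0 : ℕ → ℝ} (hS : L13zCen S0) (k : ℕ) (c : Fin q) (p : ℕ) :
    ∫ w, |P.l13zT S0 k (w c)| ^ p ∂ν = ∫ x, |P.l13zV S0 k .path x| ^ p ∂(P.fork k) := by
  have hm : Measurable fun ω => |P.l13zT S0 k ω| ^ p := (P.l13z_T_bd h S0 k).1.abs.pow_const p
  have hp := hT.one c (fun ω => |P.l13zT S0 k ω| ^ p)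
    ⟨hm, 5 ^ p, fun x => by
      rw [abs_pow, abs_abs]; exact pow_le_pow_left₀ (abs_nonneg _) (P.l13z_T_abs_le h hS k x) p⟩
  have hf := P.l13z_fork_fst h k (f := fun ω => |P.l13zT S0 k ω| ^ p) hm
  simp only [L8P.l13z_V_path]
  exact hp.trans hf.symm

/-- **all the stochastic factors at ONE fork**: the product of the (projected) pairs is the power of `2 L - S` on a path `c` through the fork,
up to the alias errors (LL 09 l.147-150, LL 08 par. "Aliases and projected endpoints") -/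
theorem alias_prod (hT : L13zTree P ν sh) (h : P.Ok) {S0 : ℕ → ℝ} (hS : L13zCen S0) {J : Type*} (s : Finset J) (la lb : J → Fin q)
    (c1 c2 : J → ℕ) {k : ℕ} (c : Fin q) (hne : ∀ i ∈ s, la i ≠ lb i) (hsp : ∀ i ∈ s, sh (la i) (lb i) = k)
    (hanc : ∀ i ∈ s, la i = c ∨ k ≤ sh (la i) c) (hcut : ∀ i ∈ s, k ≤ c1 i ∧ k ≤ c2 i) {al b Mo : ℝ} (hal0 : 0 ≤ al) (hb : 0 < b) (p : ℕ)
    (hal : ∀ u u' : L8cVer, u.Valid k → u'.Valid k → ∫ x, (P.l8cV k u x - P.l8cV k u' x) ^ 2 ∂(P.fork k) ≤ al ^ 2)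
    (hmom : ∀ u : L8cVer, u.Valid k → ∫ x, |P.l13zV S0 k u x| ^ p ∂(P.fork k) ≤ Mo) :
    |∫ w, ∏ i ∈ s, P.l13zV S0 k (.pair (c1 i) (c2 i)) (w (la i), w (lb i)) ∂ν - ∫ ω, P.l13zT S0 k ω ^ s.card ∂P.μ|
      ≤ b ^ (s.card - 1) * (s.card * (3 * al)) + 2 * 5 ^ s.card * ((s.card + 1) * Mo) / b ^ p := by
  have := hT.prob
  have hξ : ∀ i, L13Rv ν (fun w => P.l13zV S0 k (.pair (c1 i) (c2 i)) (w (la i), w (lb i))) 5 := fun i =>
    rv_pair _ (P.l13z_V_meas h S0 k _) (P.l13z_V_abs_le h hS k _) _ _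
  have hΛ : L13Rv ν (fun w => P.l13zT S0 k (w c)) 5 := rv_one _ (P.l13z_T_bd h S0 k).1 (P.l13z_T_abs_le h hS k) c
  have h0 := l13z_alias s (fun i (w : Fin q → Ω) => P.l13zV S0 k (.pair (c1 i) (c2 i)) (w (la i), w (lb i)))
    (fun w : Fin q → Ω => P.l13zT S0 k (w c)) 5 b hb p hξ hΛ
  have h1 : ∫ w, P.l13zT S0 k (w c) ^ s.card ∂ν = ∫ ω, P.l13zT S0 k ω ^ s.card ∂P.μ :=
    hT.one c (fun ω => P.l13zT S0 k ω ^ s.card) ((P.l13z_T_bd h S0 k).pow _)
  rw [h1] at h0
  refine h0.trans (add_le_add ?_ ?_)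
  · refine mul_le_mul_of_nonneg_left ?_ (pow_nonneg hb.le _)
    calc ∑ i ∈ s, ∫ w, |P.l13zV S0 k (.pair (c1 i) (c2 i)) (w (la i), w (lb i)) - P.l13zT S0 k (w c)| ∂ν
        ≤ ∑ _i ∈ s, 3 * al := Finset.sum_le_sum fun i hi =>
          hT.alias_dist h S0 (hne i hi) (hsp i hi) (hanc i hi) (hcut i hi).1 (hcut i hi).2 hal0 hal
      _ = s.card * (3 * al) := by rw [Finset.sum_const, nsmul_eq_mul]
  · refine div_le_div_of_nonneg_right ?_ (pow_pos hb p).le
    refine mul_le_mul_of_nonneg_left ?_ (by positivity)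
    have e1 : ∑ i ∈ s, ∫ w, |P.l13zV S0 k (.pair (c1 i) (c2 i)) (w (la i), w (lb i))| ^ p ∂ν ≤ ∑ _i ∈ s, Mo :=
      Finset.sum_le_sum fun i hi => by
        rw [hT.mom_pair h hS (hne i hi) (hsp i hi)]
        exact hmom _ (hcut i hi)
    have e2 : ∫ w, |P.l13zT S0 k (w c)| ^ p ∂ν ≤ Mo := by
      rw [hT.mom_path h hS]
      exact hmom _ trivial
    rw [Finset.sum_const, nsmul_eq_mul] at e1
    linarith

/-- **one stochastic factor**: no alias error (LL 08 l.884-886: conditional averaging) -/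
theorem linear_exact (hT : L13zTree P ν sh) (h : P.Ok) (S0 : ℕ → ℝ) {k c1 c2 : ℕ} {a b : Fin q} (hab : a ≠ b)
    (hsab : sh a b = k) (hc1 : k ≤ c1) (hc2 : k ≤ c2) :
    ∫ w, P.l13zV S0 k (.pair c1 c2) (w a, w b) ∂ν = ∫ ω, P.l13zT S0 k ω ∂P.μ := by
  have := hT.prob
  have := h.prob
  have hp := hT.pair a b hab (P.l8cV k (.pair c1 c2)) (P.l8c_ver_meas h k _) ⟨4, P.l8c_ver_abs_le h k _⟩
  rw [hsab] at hp
  have hl := P.l8c_ver_linear h (a := .pair c1 c2) ⟨hc1, hc2⟩ (R := fun _ => 1) measurable_const (integrable_const 1)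
  simp only [one_mul] at hl
  have r : L13Rv ν (fun w => P.l8cV k (.pair c1 c2) (w a, w b)) 4 := rv_pair _ (P.l8c_ver_meas h k _) (P.l8c_ver_abs_le h k _) a b
  unfold L8P.l13zV L8P.l13zT
  rw [integral_add r.integrable (integrable_const _), integral_add ((P.l8c_T_bd h k).integrable _) (integrable_const _), hp, hl]
  simp

end L13zTree

/-! ## 3. Bookkeeping of the factors of one term (`L13Fac` of helper30) -/

section book

variable {ι Lv O : Type*} [Fintype ι] [DecidableEq ι] [Fintype Lv] [Fintype O]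

/-- on the support of the weight all the assigned levels are in their bands -/
theorem L13CC.z_nu_ne (C : L13CC ι Lv O) {v : ι → Lv} {o : O} (h : C.H v o ≠ 0) (s : ι) : C.nu s (v s) ≠ 0 := by
  intro h0
  apply h
  have h1 := C.hH v o
  have h2 : ∏ s, ((C.a s * C.S.Y) / (C.A * C.S.Y) * C.nu s (v s)) = 0 :=
    Finset.prod_eq_zero (Finset.mem_univ s) (by rw [h0, mul_zero])
  rw [h2, mul_zero] at h1
  exact abs_nonpos_iff.mp h1

namespace L13Fac

variable {C : L13CC ι Lv O} {J W : Type*} [Fintype J] [DecidableEq J] [Fintype W] (Fc : L13Fac C J W)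

/-- product of the deterministic factors -/
def zDet (v : ι → Lv) : ℝ := ∏ i ∈ Fc.Stᶜ, Fc.phi i (v (Fc.sig i))

/-- expectation of the product of the stochastic factors -/
def zMst (e : Bool) (v : ι → Lv) (o : O) : ℝ := ∑ ω, Fc.w e v o ω * ∏ i ∈ Fc.St, Fc.X e v o i ω

/-- deterministic factors at the vertex `s0` -/
def zD0 (s0 : ι) (j : Lv) : ℝ := ∏ i ∈ Fc.Stᶜ.filter (fun i => Fc.sig i = s0), Fc.phi i j

/-- deterministic factors at the other vertices -/
def zDO (s0 : ι) (v : ι → Lv) : ℝ := ∏ i ∈ Fc.Stᶜ.filter (fun i => ¬ Fc.sig i = s0), Fc.phi i (v (Fc.sig i))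

theorem z_T_eq (e : Bool) (v : ι → Lv) (o : O) : Fc.T e v o = Fc.zDet v * Fc.zMst e v o := by
  unfold T zDet zMst
  rw [Finset.mul_sum]
  refine Finset.sum_congr rfl fun ω _ => ?_
  rw [← Finset.prod_mul_prod_compl Fc.St (fun i => Fc.X e v o i ω)]
  have : ∏ i ∈ Fc.Stᶜ, Fc.X e v o i ω = ∏ i ∈ Fc.Stᶜ, Fc.phi i (v (Fc.sig i)) :=
    Finset.prod_congr rfl fun i hi => Fc.hdet e v o i ω (Finset.mem_compl.mp hi)
  rw [this]; ring

theorem z_det_update (s0 : ι) (v : ι → Lv) (j : Lv) : Fc.zDet (Function.update v s0 j) = Fc.zD0 s0 j * Fc.zDO s0 v := by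
  unfold zDet zD0 zDO
  rw [← Finset.prod_filter_mul_prod_filter_not Fc.Stᶜ (fun i => Fc.sig i = s0)]
  congr 1
  · refine Finset.prod_congr rfl fun i hi => ?_
    rw [(Finset.mem_filter.mp hi).2, Function.update_self]
  · refine Finset.prod_congr rfl fun i hi => ?_
    rw [Function.update_of_ne (Finset.mem_filter.mp hi).2]

theorem z_nonempty (Fc : L13Fac C J W) (v : ι → Lv) (o : O) : Nonempty W := by
  by_contra hne
  rw [not_nonempty_iff] at hne
  have := Fc.hw1 false v o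
  simp at this

theorem z_M_nonneg {v : ι → Lv} {o : O} (h : C.H v o ≠ 0) [Nonempty J] : 0 ≤ Fc.M := by
  obtain ⟨ω⟩ := Fc.z_nonempty v o
  obtain ⟨i⟩ := (inferInstance : Nonempty J)
  exact (abs_nonneg _).trans (Fc.hM false v o i ω h)

/-- the deterministic factors are bounded by `M` -/
theorem z_det_le_M {v : ι → Lv} {o : O} (h : C.H v o ≠ 0) : |Fc.zDet v| ≤ Fc.M ^ Fc.Stᶜ.card := by
  obtain ⟨ω⟩ := Fc.z_nonempty v o
  unfold zDet
  rw [Finset.abs_prod]
  calc ∏ i ∈ Fc.Stᶜ, |Fc.phi i (v (Fc.sig i))| ≤ ∏ _i ∈ Fc.Stᶜ, Fc.M := by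
        refine Finset.prod_le_prod (fun i _ => abs_nonneg _) fun i hi => ?_
        rw [← Fc.hdet false v o i ω (Finset.mem_compl.mp hi)]
        exact Fc.hM false v o i ω h
    _ = Fc.M ^ Fc.Stᶜ.card := by simp

theorem z_D0_le (s0 : ι) {j : Lv} (hj : C.nu s0 j ≠ 0) :
    |Fc.zD0 s0 j| ≤ (Fc.Lm * C.env s0 j) ^ (Fc.Stᶜ.filter (fun i => Fc.sig i = s0)).card := by
  unfold zD0
  rw [Finset.abs_prod]
  calc ∏ i ∈ Fc.Stᶜ.filter (fun i => Fc.sig i = s0), |Fc.phi i j|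
      ≤ ∏ _i ∈ Fc.Stᶜ.filter (fun i => Fc.sig i = s0), Fc.Lm * C.env s0 j := by
        refine Finset.prod_le_prod (fun i _ => abs_nonneg _) fun i hi => ?_
        obtain ⟨h1, h2⟩ := Finset.mem_filter.mp hi
        have := Fc.hphi i j (Finset.mem_compl.mp h1) (by rw [h2]; exact hj)
        rwa [h2] at this
    _ = _ := by simp

/-- product of the envelopes over the factors at the vertices `≠ s0` -/
theorem z_env_prod (s0 : ι) (v : ι → Lv) (K : ℝ) :
    ∏ i ∈ Finset.univ.filter (fun i => ¬ Fc.sig i = s0), (K * C.env (Fc.sig i) (v (Fc.sig i)))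
      = K ^ (Finset.univ.filter (fun i => ¬ Fc.sig i = s0)).card * ∏ s ∈ Finset.univ.erase s0, C.env s (v s) ^ (C.k s) := by
  rw [Finset.prod_mul_distrib, Finset.prod_const]
  congr 1
  rw [← Finset.prod_fiberwise_of_maps_to (s := Finset.univ.filter (fun i => ¬ Fc.sig i = s0)) (t := Finset.univ.erase s0)
    (g := Fc.sig) (fun i hi => Finset.mem_erase.mpr ⟨(Finset.mem_filter.mp hi).2, Finset.mem_univ _⟩)]
  refine Finset.prod_congr rfl fun s hs => ?_
  have hs' : s ≠ s0 := Finset.ne_of_mem_erase hs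
  have e : (Finset.univ.filter (fun i => ¬ Fc.sig i = s0)).filter (fun i => Fc.sig i = s)
      = Finset.univ.filter fun i => Fc.sig i = s := by
    ext i
    simp only [Finset.mem_filter, Finset.mem_univ, true_and]
    constructor
    · exact fun h => h.2
    · exact fun h => ⟨by rw [h]; exact hs', h⟩
  rw [e, Fc.hsig s, ← Finset.prod_const]
  refine Finset.prod_congr rfl fun i hi => ?_
  rw [(Finset.mem_filter.mp hi).2]

/-- the deterministic factors at the other vertices, when all the factors there are deterministic or are replaced by their truncation level -/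
theorem z_DO_le (s0 : ι) {v : ι → Lv} (hv : ∀ s, s ≠ s0 → C.nu s (v s) ≠ 0) :
    |Fc.zDO s0 v| ≤ ∏ i ∈ Fc.Stᶜ.filter (fun i => ¬ Fc.sig i = s0), (Fc.Lm * C.env (Fc.sig i) (v (Fc.sig i))) := by
  unfold zDO
  rw [Finset.abs_prod]
  refine Finset.prod_le_prod (fun i _ => abs_nonneg _) fun i hi => ?_
  obtain ⟨h1, h2⟩ := Finset.mem_filter.mp hi
  exact Fc.hphi i _ (Finset.mem_compl.mp h1) (hv _ h2)

/-- number of deterministic factors at `s0` when all the stochastic factors sit at `s0` -/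
theorem z_card_D0 (s0 : ι) (hs0 : ∀ i ∈ Fc.St, Fc.sig i = s0) :
    (Fc.Stᶜ.filter (fun i => Fc.sig i = s0)).card + Fc.St.card = C.k s0 := by
  rw [Fc.hsig s0, ← Finset.card_union_of_disjoint]
  · congr 1
    ext i
    simp only [Finset.mem_union, Finset.mem_filter, Finset.mem_compl, Finset.mem_univ, true_and]
    constructor
    · rintro (h | h)
      · exact h.2
      · exact hs0 i h
    · intro h
      by_cases hi : i ∈ Fc.St
      · exact Or.inr hi
      · exact Or.inl ⟨hi, h⟩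
  · rw [Finset.disjoint_left]
    intro i hi hi'
    exact (Finset.mem_compl.mp (Finset.mem_filter.mp hi).1) hi'

theorem z_filter_DO (s0 : ι) (hs0 : ∀ i ∈ Fc.St, Fc.sig i = s0) :
    Fc.Stᶜ.filter (fun i => ¬ Fc.sig i = s0) = Finset.univ.filter (fun i => ¬ Fc.sig i = s0) := by
  ext i
  simp only [Finset.mem_filter, Finset.mem_compl, Finset.mem_univ, true_and]
  exact ⟨fun h => h.2, fun h => ⟨fun hi => h (hs0 i hi), h⟩⟩

theorem z_card_split (s0 : ι) :
    (Fc.Stᶜ.filter (fun i => Fc.sig i = s0)).card + (Fc.Stᶜ.filter (fun i => ¬ Fc.sig i = s0)).card = Fc.Stᶜ.card :=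
  Finset.card_filter_add_card_filter_not _

end L13Fac

/-! ## 4. The interface: the numbers of one term as expectations over the two abstract single paths -/

variable {C : L13CC ι Lv O} {J W : Type*} [Fintype J] [DecidableEq J] [Fintype W]

/-- **REPRESENTATION of one term of LL Lemma 9.1 over the two abstract single paths** `P false` (untilted), `P true` (tilted; `I.sp tl` of L08/Defs).
`q` labels; `ν e v o` = positive law of the tree `τ(v, o)` in the ensemble `e`, pushed to the `q` paths; `sh v o a b` = number of revelations shared by `a, b`;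
the stochastic factor `i` = (projected) overlap of the pair `(la i, lb i)` at the cuts `c1 i, c2 i` (`n + 1` = terminal leaf) minus the COMMON centring `S0` (= the untilted mean `S`).
INSTANCE: `L13zTree` from a consistent family of path laws `L8L.Ok` (helper234, L08/LsAbs; SK instance L08/LsInst): `l13z_tree_of_L8L` in L09/CCCenC. -/
structure L13zRep (Fc : L13Fac C J W) (P : Bool → L8P Ω m) (S0 : ℕ → ℝ) (q : ℕ) where
  lev : Lv → ℕ
  la : J → Fin q
  lb : J → Fin q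
  c1 : J → ℕ
  c2 : J → ℕ
  ν : Bool → (ι → Lv) → O → Measure (Fin q → Ω)
  sh : (ι → Lv) → O → Fin q → Fin q → ℕ
  tree : ∀ e v o, C.H v o ≠ 0 → L13zTree (P e) (ν e v o) (sh v o)
  ne : ∀ i ∈ Fc.St, la i ≠ lb i
  split : ∀ v o, C.H v o ≠ 0 → ∀ i ∈ Fc.St, sh v o (la i) (lb i) = lev (v (Fc.sig i))
  cut : ∀ v o, C.H v o ≠ 0 → ∀ i ∈ Fc.St, lev (v (Fc.sig i)) ≤ c1 i ∧ lev (v (Fc.sig i)) ≤ c2 i
  rep : ∀ e v o, C.H v o ≠ 0 → Fc.zMst e v o
    = ∫ w, ∏ i ∈ Fc.St, (P e).l13zV S0 (lev (v (Fc.sig i))) (.pair (c1 i) (c2 i)) (w (la i), w (lb i)) ∂(ν e v o)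

/-- **the numbers of LL08 at the vertex `s`**, both ensembles: `al e j` = `L²` size of the alias errors at the level `j` ((D7) line 2, `l8c_ver_dist`);
moments of order `p0` of all the versions ((D2), both ensembles) -/
structure L13zNum (C : L13CC ι Lv O) (P : Bool → L8P Ω m) (S0 : ℕ → ℝ) (lev : Lv → ℕ) (s : ι) (Lm : ℝ) (p0 : ℕ) (al : Bool → Lv → ℝ) : Prop where
  al0 : ∀ e j, 0 ≤ al e j
  ali : ∀ e j, C.nu s j ≠ 0 → ∀ u u' : L8cVer, u.Valid (lev j) → u'.Valid (lev j) →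
    ∫ x, ((P e).l8cV (lev j) u x - (P e).l8cV (lev j) u' x) ^ 2 ∂((P e).fork (lev j)) ≤ al e j ^ 2
  mom : ∀ e j, C.nu s j ≠ 0 → ∀ u : L8cVer, u.Valid (lev j) →
    ∫ x, |(P e).l13zV S0 (lev j) u x| ^ p0 ∂((P e).fork (lev j)) ≤ (Lm * C.env s j) ^ p0

namespace L13zRep

variable {Fc : L13Fac C J W} {P : Bool → L8P Ω m} {S0 : ℕ → ℝ} {q : ℕ}

/-- the path number which replaces the product of the stochastic factors at one vertex -/
noncomputable def zN (Rp : L13zRep Fc P S0 q) (e : Bool) (j : Lv) : ℝ :=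
  ∫ ω, (P e).l13zT S0 (Rp.lev j) ω ^ Fc.St.card ∂(P e).μ

/-- the difference of the two ensembles of a path polynomial, integrated against ANY coefficient `g`, is at most the `L²` norm IN THE TILTED ENSEMBLE of the integral centred
at its UNTILTED expectation (= (D10) with the tilt conventions, field `d10` of `L8In.Rnd true`) -/
theorem zA_main (Rp : L13zRep Fc P S0 q) (h : ∀ e, (P e).Ok) (g : Lv → ℝ) {B10 : ℝ} (hB0 : 0 ≤ B10)
    (hB : ∫ ω, (∑ j, g j * ((P true).l13zT S0 (Rp.lev j) ω ^ Fc.St.card - Rp.zN false j)) ^ 2 ∂(P true).μ ≤ B10 ^ 2) :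
    |∑ j, g j * (Rp.zN true j - Rp.zN false j)| ≤ B10 := by
  have := (h true).prob
  have hTb : ∀ j, L8Bd fun ω => (P true).l13zT S0 (Rp.lev j) ω ^ Fc.St.card := fun j => ((P true).l13z_T_bd (h true) S0 (Rp.lev j)).pow _
  have hb : ∀ j, L8Bd fun ω => g j * ((P true).l13zT S0 (Rp.lev j) ω ^ Fc.St.card - Rp.zN false j) := fun j =>
    ((hTb j).sub (l8Bd_const _)).const_mul _
  have hIb : L8Bd fun ω => ∑ j, g j * ((P true).l13zT S0 (Rp.lev j) ω ^ Fc.St.card - Rp.zN false j) := l13z_bd_sum _ fun j _ => hb j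
  have e : ∑ j, g j * (Rp.zN true j - Rp.zN false j)
      = ∫ ω, ∑ j, g j * ((P true).l13zT S0 (Rp.lev j) ω ^ Fc.St.card - Rp.zN false j) ∂(P true).μ := by
    rw [integral_finsetSum _ fun j _ => (hb j).integrable _]
    refine Finset.sum_congr rfl fun j _ => ?_
    rw [integral_const_mul, integral_sub ((hTb j).integrable _) (integrable_const _)]
    simp [zN]
  rw [e]
  exact (P true).l13z_mean_le (h true) hIb hB0 hB

/-- **case A, core**: all the stochastic factors at the vertex `s0`; `er e j` = any bound of the alias error at the level `j` -/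
theorem zA_core (Rp : L13zRep Fc P S0 q) (h : ∀ e, (P e).Ok) (s0 : ι) (hs0 : ∀ i ∈ Fc.St, Fc.sig i = s0) {B10 : ℝ} (hB0 : 0 ≤ B10)
    (hD10 : ∀ g : Lv → ℝ, (∀ j, |g j| ≤ C.nu s0 j * C.env s0 j ^ (C.k s0 - Fc.St.card)) →
      ∫ ω, (∑ j, g j * ((P true).l13zT S0 (Rp.lev j) ω ^ Fc.St.card - Rp.zN false j)) ^ 2 ∂(P true).μ ≤ B10 ^ 2)
    (v : ι → Lv) (o : O) (c : Lv → ℝ) (hc1 : ∀ j, |c j| ≤ C.nu s0 j) (er : Bool → Lv → ℝ)
    (hEr : ∀ e j, c j ≠ 0 → |Fc.zMst e (Function.update v s0 j) o - Rp.zN e j| ≤ er e j) :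
    |∑ j, c j * Fc.dT (Function.update v s0 j) o|
      ≤ |Fc.zDO s0 v| * (Fc.Lm ^ (C.k s0 - Fc.St.card) * B10)
        + ∑ j, |c j| * |Fc.zDet (Function.update v s0 j)| * (er true j + er false j) := by
  set kd : ℕ := C.k s0 - Fc.St.card with hkd
  have hkd' : (Fc.Stᶜ.filter (fun i => Fc.sig i = s0)).card = kd := by
    have := Fc.z_card_D0 s0 hs0
    omega
  have hLm := Fc.hLm0
  have hLk : 0 < Fc.Lm ^ kd := pow_pos hLm kd
  -- decomposition
  have e1 : ∀ j, c j * Fc.dT (Function.update v s0 j) o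
      = Fc.zDO s0 v * (c j * Fc.zD0 s0 j * (Rp.zN true j - Rp.zN false j))
        + c j * Fc.zDet (Function.update v s0 j) * ((Fc.zMst true (Function.update v s0 j) o - Rp.zN true j)
          - (Fc.zMst false (Function.update v s0 j) o - Rp.zN false j)) := by
    intro j
    unfold L13Fac.dT
    rw [Fc.z_T_eq, Fc.z_T_eq, Fc.z_det_update]
    ring
  simp_rw [e1]
  rw [Finset.sum_add_distrib, ← Finset.mul_sum]
  refine (abs_add_le _ _).trans (add_le_add ?_ ?_)
  · rw [abs_mul]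
    refine mul_le_mul_of_nonneg_left ?_ (abs_nonneg _)
    -- the main term
    set g : Lv → ℝ := fun j => c j * Fc.zD0 s0 j / Fc.Lm ^ kd with hg
    have hgb : ∀ j, |g j| ≤ C.nu s0 j * C.env s0 j ^ kd := by
      intro j
      rw [hg]
      simp only
      rw [abs_div, abs_of_pos hLk, div_le_iff₀ hLk, abs_mul]
      by_cases hj : C.nu s0 j = 0
      · have : c j = 0 := by
          have := hc1 j
          rw [hj] at this
          exact abs_nonpos_iff.mp this
        rw [this, hj]; simp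
      · have h1 := Fc.z_D0_le s0 hj
        rw [hkd', mul_pow] at h1
        calc |c j| * |Fc.zD0 s0 j| ≤ C.nu s0 j * (Fc.Lm ^ kd * C.env s0 j ^ kd) :=
              mul_le_mul (hc1 j) h1 (abs_nonneg _) (C.hnu0 s0 j)
          _ = _ := by ring
    have hm := Rp.zA_main h g hB0 (hD10 g hgb)
    have e2 : ∑ j, c j * Fc.zD0 s0 j * (Rp.zN true j - Rp.zN false j)
        = Fc.Lm ^ kd * ∑ j, g j * (Rp.zN true j - Rp.zN false j) := by
      rw [Finset.mul_sum]
      refine Finset.sum_congr rfl fun j _ => ?_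
      rw [hg]
      field_simp
    rw [e2, abs_mul, abs_of_pos hLk]
    exact mul_le_mul_of_nonneg_left hm hLk.le
  · refine (Finset.abs_sum_le_sum_abs _ _).trans (Finset.sum_le_sum fun j _ => ?_)
    rw [abs_mul, abs_mul]
    by_cases hj : c j = 0
    · rw [hj]; simp
    · refine mul_le_mul_of_nonneg_left ?_ (mul_nonneg (abs_nonneg _) (abs_nonneg _))
      exact (abs_sub _ _).trans (add_le_add (hEr true j hj) (hEr false j hj))

/-- the product of the stochastic factors when they all sit at `s0` -/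
theorem zA_rep (Rp : L13zRep Fc P S0 q) (s0 : ι) (hs0 : ∀ i ∈ Fc.St, Fc.sig i = s0) (e : Bool) (v : ι → Lv) (o : O) (j : Lv)
    (hH : C.H (Function.update v s0 j) o ≠ 0) :
    Fc.zMst e (Function.update v s0 j) o
      = ∫ w, ∏ i ∈ Fc.St, (P e).l13zV S0 (Rp.lev j) (.pair (Rp.c1 i) (Rp.c2 i)) (w (Rp.la i), w (Rp.lb i)) ∂(Rp.ν e (Function.update v s0 j) o) := by
  rw [Rp.rep e _ o hH]
  congr 1
  funext w
  refine Finset.prod_congr rfl fun i hi => ?_
  rw [hs0 i hi, Function.update_self]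

/-- alias error, at least two stochastic factors at the fork (LL 09 l.147-150) -/
theorem zA_err_many (Rp : L13zRep Fc P S0 q) (h : ∀ e, (P e).Ok) (hS : L13zCen S0) (s0 : ι) (hs0 : ∀ i ∈ Fc.St, Fc.sig i = s0)
    (hne : Fc.St.Nonempty)
    (hanc : ∀ v o, C.H v o ≠ 0 → ∀ i ∈ Fc.St, ∀ i' ∈ Fc.St, Rp.la i = Rp.la i' ∨ Rp.lev (v s0) ≤ Rp.sh v o (Rp.la i) (Rp.la i'))
    {al : Bool → Lv → ℝ} (hN : L13zNum C P S0 Rp.lev s0 Fc.Lm Fc.p0 al) {Tt : ℝ} (hTt : 0 < Tt) (e : Bool) (v : ι → Lv) (o : O) (j : Lv)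
    (hH : C.H (Function.update v s0 j) o ≠ 0) :
    |Fc.zMst e (Function.update v s0 j) o - Rp.zN e j|
      ≤ (Tt * C.env s0 j) ^ (Fc.St.card - 1) * (Fc.St.card * (3 * al e j))
        + 2 * 5 ^ Fc.St.card * ((Fc.St.card + 1) * (Fc.Lm / Tt) ^ Fc.p0) := by
  obtain ⟨i0, hi0⟩ := hne
  have hνj : C.nu s0 j ≠ 0 := by
    have := C.z_nu_ne hH s0
    rwa [Function.update_self] at this
  have henv : 0 < C.env s0 j := Fc.henvpos s0 j hνj
  have hlev : ∀ i ∈ Fc.St, Rp.lev (Function.update v s0 j (Fc.sig i)) = Rp.lev j := fun i hi => by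
    rw [hs0 i hi, Function.update_self]
  have hb : 0 < Tt * C.env s0 j := mul_pos hTt henv
  have key := (Rp.tree e _ o hH).alias_prod (h e) hS Fc.St Rp.la Rp.lb Rp.c1 Rp.c2 (k := Rp.lev j)
    (Rp.la i0) Rp.ne
    (fun i hi => by rw [← hlev i hi]; exact Rp.split _ o hH i hi)
    (fun i hi => by
      have := hanc _ o hH i hi i0 hi0
      rwa [Function.update_self] at this)
    (fun i hi => by rw [← hlev i hi]; exact Rp.cut _ o hH i hi)
    (hN.al0 e j) hb Fc.p0 (hN.ali e j hνj) (hN.mom e j hνj)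
  rw [Rp.zA_rep s0 hs0 e v o j hH]
  refine key.trans (le_of_eq ?_)
  congr 1
  rw [mul_pow, mul_pow, div_pow]
  have h1 : C.env s0 j ^ Fc.p0 ≠ 0 := (pow_pos henv _).ne'
  have h2 : Tt ^ Fc.p0 ≠ 0 := (pow_pos hTt _).ne'
  field_simp

/-- ONE stochastic factor: no alias error (needed on the lower band) -/
theorem zA_err_one (Rp : L13zRep Fc P S0 q) (h : ∀ e, (P e).Ok) (s0 : ι) (hs0 : ∀ i ∈ Fc.St, Fc.sig i = s0)
    (h1 : Fc.St.card = 1) (e : Bool) (v : ι → Lv) (o : O) (j : Lv) (hH : C.H (Function.update v s0 j) o ≠ 0) :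
    Fc.zMst e (Function.update v s0 j) o = Rp.zN e j := by
  obtain ⟨i0, hi0⟩ := Finset.card_eq_one.mp h1
  have hm : i0 ∈ Fc.St := by rw [hi0]; exact Finset.mem_singleton_self _
  have hlev : Rp.lev (Function.update v s0 j (Fc.sig i0)) = Rp.lev j := by rw [hs0 i0 hm, Function.update_self]
  rw [Rp.zA_rep s0 hs0 e v o j hH, zN, h1, hi0]
  simp only [Finset.prod_singleton, pow_one]
  exact (Rp.tree e _ o hH).linear_exact (h e) S0 (Rp.ne i0 hm)
    (by rw [← hlev]; exact Rp.split _ o hH i0 hm) (by rw [← hlev]; exact (Rp.cut _ o hH i0 hm).1)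
    (by rw [← hlev]; exact (Rp.cut _ o hH i0 hm).2)

/-- the deterministic factors at the other vertices against the product of the raw envelopes -/
theorem zA_DO_le (Fc : L13Fac C J W) (s0 : ι) (hs0 : ∀ i ∈ Fc.St, Fc.sig i = s0) {v : ι → Lv} (hv : ∀ s, s ≠ s0 → C.nu s (v s) ≠ 0) :
    |Fc.zDO s0 v| ≤ Fc.Lm ^ (Fc.Stᶜ.filter (fun i => ¬ Fc.sig i = s0)).card * ∏ s ∈ Finset.univ.erase s0, C.env s (v s) ^ (C.k s) := by
  have h1 := Fc.z_DO_le s0 hv
  rw [Fc.z_filter_DO s0 hs0, Fc.z_env_prod s0 v Fc.Lm] at h1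
  rw [Fc.z_filter_DO s0 hs0]
  exact h1

/-- **CASE A of LL Lemma 9.1** (09 l.145-160): all the stochastic factors at ONE vertex `s0`; difference of the two ensembles.
`B10` = (D10) in the tilted ensemble about the untilted mean (or the low linear bound), `A1` = alias errors after Cauchy-Schwarz in mass ((D7) line 2),
`Tt` = truncation level (in units of the envelope). -/
theorem zA (Rp : L13zRep Fc P S0 q) (h : ∀ e, (P e).Ok) (hS : L13zCen S0) (hM : 0 ≤ Fc.M) (s0 : ι) (hs0 : ∀ i ∈ Fc.St, Fc.sig i = s0)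
    (hne : Fc.St.Nonempty)
    (hanc : ∀ v o, C.H v o ≠ 0 → ∀ i ∈ Fc.St, ∀ i' ∈ Fc.St, Rp.la i = Rp.la i' ∨ Rp.lev (v s0) ≤ Rp.sh v o (Rp.la i) (Rp.la i'))
    {al : Bool → Lv → ℝ} (hN : Fc.St.card ≠ 1 → L13zNum C P S0 Rp.lev s0 Fc.Lm Fc.p0 al) {Tt B10 A1 : ℝ} (hTt : 0 < Tt) (hB0 : 0 ≤ B10)
    (hA10 : 0 ≤ A1)
    (hD10 : ∀ g : Lv → ℝ, (∀ j, |g j| ≤ C.nu s0 j * C.env s0 j ^ (C.k s0 - Fc.St.card)) →
      ∫ ω, (∑ j, g j * ((P true).l13zT S0 (Rp.lev j) ω ^ Fc.St.card - Rp.zN false j)) ^ 2 ∂(P true).μ ≤ B10 ^ 2)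
    (hA1 : Fc.St.card ≠ 1 → ∀ e, ∑ j, C.nu s0 j * (C.env s0 j ^ (C.k s0 - 1) * al e j) ≤ A1)
    (v : ι → Lv) (o : O) (c : Lv → ℝ) (hc1 : ∀ j, |c j| ≤ C.nu s0 j) (hc2 : ∀ j, C.H (Function.update v s0 j) o = 0 → c j = 0) :
    |∑ j, c j * Fc.dT (Function.update v s0 j) o|
      ≤ Fc.Lm ^ Fc.Stᶜ.card * (B10 + 6 * Fc.St.card * Tt ^ (Fc.St.card - 1) * A1)
          * ∏ s ∈ Finset.univ.erase s0, C.env s (v s) ^ (C.k s)
        + C.Lo * Fc.M ^ Fc.Stᶜ.card * (4 * 5 ^ Fc.St.card * ((Fc.St.card + 1) * (Fc.Lm / Tt) ^ Fc.p0)) := by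
  set n : ℕ := Fc.St.card with hn
  set E : ℝ := ∏ s ∈ Finset.univ.erase s0, C.env s (v s) ^ (C.k s) with hE
  set kd : ℕ := C.k s0 - n with hkd
  set tl : ℝ := 2 * 5 ^ n * ((n + 1) * (Fc.Lm / Tt) ^ Fc.p0) with htl
  have hLm := Fc.hLm0
  have hE0 : 0 ≤ E := Finset.prod_nonneg fun s _ => pow_nonneg (C.henv0 s _) _
  have htl0 : 0 ≤ tl := by positivity
  have hn1 : 1 ≤ n := Finset.card_pos.mpr hne
  have hcard := Fc.z_card_D0 s0 hs0
  have hkd' : (Fc.Stᶜ.filter (fun i => Fc.sig i = s0)).card = kd := by omega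
  have hsplit := Fc.z_card_split s0
  have hLo := C.Lo_pos
  have hX0 : 0 ≤ 6 * (n : ℝ) * Tt ^ (n - 1) * A1 := by positivity
  have herr : C.Lo * Fc.M ^ Fc.Stᶜ.card * (4 * 5 ^ n * ((n + 1) * (Fc.Lm / Tt) ^ Fc.p0)) = C.Lo * Fc.M ^ Fc.Stᶜ.card * (2 * tl) := by
    rw [htl]; ring
  rw [herr]
  by_cases hall : ∀ j, c j = 0
  · have : ∑ j, c j * Fc.dT (Function.update v s0 j) o = 0 := Finset.sum_eq_zero fun j _ => by rw [hall j, zero_mul]
    rw [this, abs_zero]
    positivity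
  push Not at hall
  obtain ⟨j0, hj0⟩ := hall
  have hH : ∀ j, c j ≠ 0 → C.H (Function.update v s0 j) o ≠ 0 := fun j hj h0 => hj (hc2 j h0)
  have hv : ∀ s, s ≠ s0 → C.nu s (v s) ≠ 0 := by
    intro s hs
    have := C.z_nu_ne (hH j0 hj0) s
    rwa [Function.update_of_ne hs] at this
  have hDO := zA_DO_le Fc s0 hs0 hv
  rw [← hE] at hDO
  set dO : ℕ := (Fc.Stᶜ.filter (fun i => ¬ Fc.sig i = s0)).card with hdO
  have hpow : Fc.Lm ^ dO * Fc.Lm ^ kd = Fc.Lm ^ Fc.Stᶜ.card := by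
    rw [← pow_add]; congr 1; omega
  -- the main term
  have hmain : |Fc.zDO s0 v| * (Fc.Lm ^ kd * B10) ≤ Fc.Lm ^ Fc.Stᶜ.card * B10 * E := by
    calc |Fc.zDO s0 v| * (Fc.Lm ^ kd * B10) ≤ (Fc.Lm ^ dO * E) * (Fc.Lm ^ kd * B10) :=
          mul_le_mul_of_nonneg_right hDO (by positivity)
      _ = (Fc.Lm ^ dO * Fc.Lm ^ kd) * B10 * E := by ring
      _ = _ := by rw [hpow]
  by_cases h1 : n = 1
  · -- one stochastic factor: exact
    have hc := Rp.zA_core h s0 hs0 hB0 hD10 v o c hc1 (fun _ _ => 0)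
      (fun e j hj => by rw [Rp.zA_err_one h s0 hs0 h1 e v o j (hH j hj)]; simp)
    simp only [add_zero, mul_zero, Finset.sum_const_zero] at hc
    have h2 : 0 ≤ Fc.Lm ^ Fc.Stᶜ.card * (6 * (n : ℝ) * Tt ^ (n - 1) * A1) * E := by positivity
    have h3 : 0 ≤ C.Lo * Fc.M ^ Fc.Stᶜ.card * (2 * tl) := by positivity
    calc _ ≤ _ := hc
      _ ≤ _ := hmain
      _ ≤ _ := by nlinarith
  · -- several stochastic factors
    have hNN := hN h1
    set a1 : Bool → Lv → ℝ := fun e j => (Tt * C.env s0 j) ^ (n - 1) * (n * (3 * al e j)) with ha1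
    have ha10 : ∀ e j, 0 ≤ a1 e j := fun e j =>
      mul_nonneg (pow_nonneg (mul_nonneg hTt.le (C.henv0 s0 j)) _) (mul_nonneg (Nat.cast_nonneg _) (mul_nonneg (by norm_num) (hNN.al0 e j)))
    have hc := Rp.zA_core h s0 hs0 hB0 hD10 v o c hc1 (fun e j => a1 e j + tl)
      (fun e j hj => Rp.zA_err_many h hS s0 hs0 hne hanc hNN hTt e v o j (hH j hj))
    have hterm : ∀ j, |c j| * |Fc.zDet (Function.update v s0 j)| * ((a1 true j + tl) + (a1 false j + tl))
        ≤ Fc.Lm ^ Fc.Stᶜ.card * E * (3 * n * Tt ^ (n - 1)) * (C.nu s0 j * (C.env s0 j ^ (C.k s0 - 1) * al true j)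
            + C.nu s0 j * (C.env s0 j ^ (C.k s0 - 1) * al false j))
          + Fc.M ^ Fc.Stᶜ.card * (2 * tl) * C.nu s0 j := by
      intro j
      have hν0 := C.hnu0 s0 j
      have henv0 := C.henv0 s0 j
      by_cases hj : c j = 0
      · rw [hj, abs_zero, zero_mul, zero_mul]
        have := hNN.al0 true j
        have := hNN.al0 false j
        positivity
      · have hHj := hH j hj
        have hνj : C.nu s0 j ≠ 0 := by
          have := C.z_nu_ne hHj s0
          rwa [Function.update_self] at this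
        have d1 : |Fc.zDet (Function.update v s0 j)| ≤ Fc.Lm ^ Fc.Stᶜ.card * E * C.env s0 j ^ kd := by
          rw [Fc.z_det_update, abs_mul]
          have hD0 := Fc.z_D0_le s0 hνj
          rw [hkd', mul_pow] at hD0
          calc |Fc.zD0 s0 j| * |Fc.zDO s0 v| ≤ (Fc.Lm ^ kd * C.env s0 j ^ kd) * (Fc.Lm ^ dO * E) :=
                mul_le_mul hD0 hDO (abs_nonneg _) (by positivity)
            _ = (Fc.Lm ^ dO * Fc.Lm ^ kd) * E * C.env s0 j ^ kd := by ring
            _ = _ := by rw [hpow]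
        have d2 : |Fc.zDet (Function.update v s0 j)| ≤ Fc.M ^ Fc.Stᶜ.card := Fc.z_det_le_M hHj
        have hpw : C.env s0 j ^ kd * (Tt * C.env s0 j) ^ (n - 1) = Tt ^ (n - 1) * C.env s0 j ^ (C.k s0 - 1) := by
          rw [mul_pow]
          have : C.k s0 - 1 = kd + (n - 1) := by omega
          rw [this, pow_add]; ring
        have p1 : |c j| * |Fc.zDet (Function.update v s0 j)| * (a1 true j + a1 false j)
            ≤ C.nu s0 j * (Fc.Lm ^ Fc.Stᶜ.card * E * C.env s0 j ^ kd) * (a1 true j + a1 false j) :=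
          mul_le_mul_of_nonneg_right (mul_le_mul (hc1 j) d1 (abs_nonneg _) hν0) (add_nonneg (ha10 _ _) (ha10 _ _))
        have p2 : |c j| * |Fc.zDet (Function.update v s0 j)| * (2 * tl) ≤ C.nu s0 j * Fc.M ^ Fc.Stᶜ.card * (2 * tl) :=
          mul_le_mul_of_nonneg_right (mul_le_mul (hc1 j) d2 (abs_nonneg _) hν0) (by positivity)
        have e3 : C.nu s0 j * (Fc.Lm ^ Fc.Stᶜ.card * E * C.env s0 j ^ kd) * (a1 true j + a1 false j)
            = Fc.Lm ^ Fc.Stᶜ.card * E * (3 * n * Tt ^ (n - 1)) * (C.nu s0 j * (C.env s0 j ^ (C.k s0 - 1) * al true j)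
              + C.nu s0 j * (C.env s0 j ^ (C.k s0 - 1) * al false j)) := by
          rw [ha1]
          simp only
          calc _ = C.nu s0 j * (Fc.Lm ^ Fc.Stᶜ.card * E) * (C.env s0 j ^ kd * (Tt * C.env s0 j) ^ (n - 1))
                * (n * 3 * (al true j + al false j)) := by ring
            _ = _ := by rw [hpw]; ring
        calc |c j| * |Fc.zDet (Function.update v s0 j)| * ((a1 true j + tl) + (a1 false j + tl))
            = |c j| * |Fc.zDet (Function.update v s0 j)| * (a1 true j + a1 false j)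
              + |c j| * |Fc.zDet (Function.update v s0 j)| * (2 * tl) := by ring
          _ ≤ _ := add_le_add (p1.trans (le_of_eq e3)) (p2.trans (le_of_eq (by ring)))
    have hsum : ∑ j, |c j| * |Fc.zDet (Function.update v s0 j)| * ((a1 true j + tl) + (a1 false j + tl))
        ≤ Fc.Lm ^ Fc.Stᶜ.card * E * (3 * n * Tt ^ (n - 1)) * (A1 + A1) + Fc.M ^ Fc.Stᶜ.card * (2 * tl) * C.Lo := by
      refine (Finset.sum_le_sum fun j _ => hterm j).trans ?_
      rw [Finset.sum_add_distrib, ← Finset.mul_sum, ← Finset.mul_sum, Finset.sum_add_distrib]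
      refine add_le_add ?_ ?_
      · exact mul_le_mul_of_nonneg_left (add_le_add (hA1 h1 true) (hA1 h1 false)) (by positivity)
      · exact mul_le_mul_of_nonneg_left (C.hnu1 s0) (by positivity)
    calc _ ≤ _ := hc
      _ ≤ Fc.Lm ^ Fc.Stᶜ.card * B10 * E
          + (Fc.Lm ^ Fc.Stᶜ.card * E * (3 * n * Tt ^ (n - 1)) * (A1 + A1) + Fc.M ^ Fc.Stᶜ.card * (2 * tl) * C.Lo) :=
          add_le_add hmain hsum
      _ = _ := by ring

end L13zRep

end book

end Claimed.Agent.R286
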