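/-
OWNER helper64.  TEX[LL:exp:lem-centered-count] (the CENTRED half of the proof, part 2: CASE C).      Prefix `l13z_` / `L13z`.
Row 286, package L13 (LL 09-expansion, Lemma 9.1, l.186-222 + Remark 8.13 "earlier pair"): produces the hypothesis `hcenC` of `L13Fac.cc_high` (helper30, L09/CCAbs).
v2 (04:50Z): two single paths `P false`, `P true` (no density of the tilt), common centring `S0`.      No own open leaf in this file.
MAP  `l13z_trunc` | `L13zMom` ((D2), all vertices) | `L13zFix` (THE FIXED MARGINAL: the law of the three paths `a1, b1, pL` does not move with the level of `late`) |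
     `zC_rep`, `zC_tail`, `zC_S1` (alias of the later pair, earlier factors truncated), `zC_S3` (centred path integral under ONE law), `zC_Mst` |
     **`L13zRep.zC`** = case C, per ensemble:  `Bc = Tt^#{i : sig i ≠ late} (BI + 3 A1)`,  `err = Lo M^#det 15 5^n' n' (Lm/Tt)^p0`.
-/
import Claimed.Agent.R286.L09.CCCen

set_option autoImplicit false
set_option linter.unusedSectionVars false

namespace Claimed.Agent.R286

open MeasureTheory ProbabilityTheory Finset
open scoped ENNReal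

section generic

variable {α : Type*} [MeasurableSpace α] {ν : Measure α} [IsProbabilityMeasure ν]

/-- truncation of the other factors at their envelopes (`l13_trunc` of helper30, index set = a `Finset`) -/
theorem l13z_trunc {J : Type*} (s : Finset J) {F : α → ℝ} {MF : ℝ} (hF : L13Rv ν F MF) (g : J → α → ℝ) (Mg : ℝ)
    (hg : ∀ i, L13Rv ν (g i) Mg) (th : J → ℝ) (hth : ∀ i ∈ s, 0 < th i) (p : ℕ) {t : ℝ}
    (ht : ∀ i ∈ s, (∫ x, |g i x| ^ p ∂ν) / th i ^ p ≤ t) :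
    |∫ x, F x * ∏ i ∈ s, g i x ∂ν| ≤ (∏ i ∈ s, th i) * ∫ x, |F x| ∂ν + MF * Mg ^ s.card * (s.card * t) := by
  have h := l13_trunc hF (fun i : ↥s => g i.1) (fun _ => Mg) (fun i => hg i.1) (fun i => th i.1) (fun i => hth i.1 i.2) p
  have e1 : ∀ x, ∏ i : ↥s, g i.1 x = ∏ i ∈ s, g i x := fun x => Finset.prod_coe_sort s (fun i => g i x)
  have e2 : ∏ i : ↥s, th i.1 = ∏ i ∈ s, th i := Finset.prod_coe_sort s th
  have e3 : ∑ i : ↥s, (∫ x, |g i.1 x| ^ p ∂ν) / th i.1 ^ p = ∑ i ∈ s, (∫ x, |g i x| ^ p ∂ν) / th i ^ p :=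
    Finset.sum_coe_sort s (fun i => (∫ x, |g i x| ^ p ∂ν) / th i ^ p)
  simp_rw [e1] at h
  rw [e2, e3] at h
  have hMF : 0 ≤ MF := by
    obtain ⟨x⟩ := nonempty_of_isProbabilityMeasure ν
    exact (abs_nonneg _).trans (hF.bdd x)
  have hMg : 0 ≤ Mg ^ s.card := by
    rcases s.eq_empty_or_nonempty with h0 | ⟨i, _⟩
    · rw [h0]; simp
    · obtain ⟨x⟩ := nonempty_of_isProbabilityMeasure ν
      exact pow_nonneg ((abs_nonneg _).trans ((hg i).bdd x)) _
  calc |∫ x, F x * ∏ i ∈ s, g i x ∂ν| ≤ ∫ x, |F x * ∏ i ∈ s, g i x| ∂ν := abs_integral_le_integral_abs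
    _ ≤ _ := h
    _ ≤ _ := by
        refine add_le_add le_rfl ?_
        have : ∏ _i : ↥s, Mg = Mg ^ s.card := by simp
        rw [this]
        refine mul_le_mul_of_nonneg_left ?_ (mul_nonneg hMF hMg)
        calc ∑ i ∈ s, (∫ x, |g i x| ^ p ∂ν) / th i ^ p ≤ ∑ _i ∈ s, t := Finset.sum_le_sum ht
          _ = s.card * t := by rw [Finset.sum_const, nsmul_eq_mul]

end generic

variable {Ω : Type} [mΩ : MeasurableSpace Ω] {m : ℕ}
variable {ι Lv O : Type*} [Fintype ι] [DecidableEq ι] [Fintype Lv] [Fintype O]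
variable {C : L13CC ι Lv O} {J W : Type*} [Fintype J] [DecidableEq J] [Fintype W]

/-- (D2), both ensembles, all the vertices: moments of order `p0` of all the versions of a pair split at a level of the band of `s` -/
def L13zMom (C : L13CC ι Lv O) (P : Bool → L8P Ω m) (S0 : ℕ → ℝ) (lev : Lv → ℕ) (Lm : ℝ) (p0 : ℕ) : Prop :=
  ∀ (s : ι) (e : Bool) (j : Lv), C.nu s j ≠ 0 → ∀ u : L8cVer, u.Valid (lev j) →
    ∫ x, |(P e).l13zV S0 (lev j) u x| ^ p0 ∂((P e).fork (lev j)) ≤ (Lm * C.env s j) ^ p0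

/-- **THE FIXED MARGINAL of case C** (LL 09 l.203-222, Remark 8.13 "An earlier pair retained above a moving fork").
`iL` = the later linear stochastic factor, at the moving vertex `late`.  All the other stochastic factors live on ONE pair of labels `(a1, b1)`.
`pL` = the label of the `L`-path: a path through the moving fork (`thru`) such that the joint law of the paths `(a1, b1, pL)` does not depend on the level of `late` (`fix`):
the endpoint of the earlier pair which descends through the moving fork if there is one, else a leaf of the later pair (it separates from `a1, b1` at OTHER vertices). -/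
structure L13zFix {Fc : L13Fac C J W} {P : Bool → L8P Ω m} {S0 : ℕ → ℝ} {q : ℕ} (Rp : L13zRep Fc P S0 q) (late : ι) (iL : J) where
  a1 : Fin q
  b1 : Fin q
  pL : Fin q
  lab : ∀ i ∈ Fc.St, i ≠ iL → Rp.la i = a1 ∧ Rp.lb i = b1
  thru : ∀ v o, C.H v o ≠ 0 → Rp.la iL = pL ∨ Rp.lev (v late) ≤ Rp.sh v o (Rp.la iL) pL
  fix : ∀ e v o j j', C.H (Function.update v late j) o ≠ 0 → C.H (Function.update v late j') o ≠ 0 →
    ∀ F : Ω × Ω × Ω → ℝ, Measurable F → (∃ c, ∀ u, |F u| ≤ c) →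
      ∫ w, F (w a1, w b1, w pL) ∂(Rp.ν e (Function.update v late j) o) = ∫ w, F (w a1, w b1, w pL) ∂(Rp.ν e (Function.update v late j') o)

namespace L13zRep

variable {Fc : L13Fac C J W} {P : Bool → L8P Ω m} {S0 : ℕ → ℝ} {q : ℕ}

/-- the earlier stochastic factors, as a function of the two retained paths -/
noncomputable def zG (Rp : L13zRep Fc P S0 q) (e : Bool) (iL : J) (v : ι → Lv) (x : Ω × Ω) : ℝ :=
  ∏ i ∈ Fc.St.erase iL, (P e).l13zV S0 (Rp.lev (v (Fc.sig i))) (.pair (Rp.c1 i) (Rp.c2 i)) x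

/-- the product of the stochastic factors = later factor times the earlier ones -/
theorem zC_rep (Rp : L13zRep Fc P S0 q) {late : ι} {iL : J} (Fx : L13zFix Rp late iL) (hiL : iL ∈ Fc.St) (hsL : Fc.sig iL = late)
    (honly : ∀ i, Fc.sig i = late → i = iL) (e : Bool) (v : ι → Lv) (o : O) (j : Lv) (hH : C.H (Function.update v late j) o ≠ 0) :
    Fc.zMst e (Function.update v late j) o
      = ∫ w, (P e).l13zV S0 (Rp.lev j) (.pair (Rp.c1 iL) (Rp.c2 iL)) (w (Rp.la iL), w (Rp.lb iL)) * Rp.zG e iL v (w Fx.a1, w Fx.b1)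
          ∂(Rp.ν e (Function.update v late j) o) := by
  rw [Rp.rep e _ o hH]
  congr 1
  funext w
  rw [← Finset.mul_prod_erase Fc.St _ hiL, hsL, Function.update_self]
  congr 1
  unfold zG
  refine Finset.prod_congr rfl fun i hi => ?_
  obtain ⟨h1, h2⟩ := Finset.mem_erase.mp hi
  have h3 : Fc.sig i ≠ late := fun h => h1 (honly i h)
  rw [Function.update_of_ne h3, (Fx.lab i h2 h1).1, (Fx.lab i h2 h1).2]

/-- the Markov tail of an earlier stochastic factor at the truncation level `Tt * env` -/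
theorem zC_tail (Rp : L13zRep Fc P S0 q) {late : ι} {iL : J} (Fx : L13zFix Rp late iL) (h : ∀ e, (P e).Ok) (hS : L13zCen S0)
    (honly : ∀ i, Fc.sig i = late → i = iL) (hmom : L13zMom C P S0 Rp.lev Fc.Lm Fc.p0) {Tt : ℝ} (hTt : 0 < Tt) (e : Bool) (v : ι → Lv) (o : O)
    (j : Lv) (hH : C.H (Function.update v late j) o ≠ 0) (i : J) (hi : i ∈ Fc.St.erase iL) :
    0 < Tt * C.env (Fc.sig i) (v (Fc.sig i)) ∧
    (∫ w, |(P e).l13zV S0 (Rp.lev (v (Fc.sig i))) (.pair (Rp.c1 i) (Rp.c2 i)) (w Fx.a1, w Fx.b1)| ^ Fc.p0 ∂(Rp.ν e (Function.update v late j) o))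
      / (Tt * C.env (Fc.sig i) (v (Fc.sig i))) ^ Fc.p0 ≤ (Fc.Lm / Tt) ^ Fc.p0 := by
  obtain ⟨h1, h2⟩ := Finset.mem_erase.mp hi
  have h3 : Fc.sig i ≠ late := fun h => h1 (honly i h)
  have hup : Function.update v late j (Fc.sig i) = v (Fc.sig i) := Function.update_of_ne h3 _ _
  have hν : C.nu (Fc.sig i) (v (Fc.sig i)) ≠ 0 := by
    have := C.z_nu_ne hH (Fc.sig i)
    rwa [hup] at this
  have henv : 0 < C.env (Fc.sig i) (v (Fc.sig i)) := Fc.henvpos _ _ hν
  have hb : 0 < Tt * C.env (Fc.sig i) (v (Fc.sig i)) := mul_pos hTt henv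
  refine ⟨hb, ?_⟩
  have hab : Fx.a1 ≠ Fx.b1 := by
    rw [← (Fx.lab i h2 h1).1, ← (Fx.lab i h2 h1).2]; exact Rp.ne i h2
  have hsp : Rp.sh (Function.update v late j) o Fx.a1 Fx.b1 = Rp.lev (v (Fc.sig i)) := by
    rw [← (Fx.lab i h2 h1).1, ← (Fx.lab i h2 h1).2, Rp.split _ o hH i h2, hup]
  have hcut : (L8cVer.pair (Rp.c1 i) (Rp.c2 i)).Valid (Rp.lev (v (Fc.sig i))) := by
    have := Rp.cut _ o hH i h2
    rwa [hup] at this
  rw [(Rp.tree e _ o hH).mom_pair (h e) hS hab hsp, div_le_iff₀ (pow_pos hb _)]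
  refine (hmom _ e _ hν _ hcut).trans (le_of_eq ?_)
  rw [← mul_pow]
  congr 1
  field_simp

theorem zC_G_rv (Rp : L13zRep Fc P S0 q) (h : ∀ e, (P e).Ok) (hS : L13zCen S0) (e : Bool) (v : ι → Lv) (a b : Fin q) (ν : Measure (Fin q → Ω)) (i : J) :
    L13Rv ν (fun w => (P e).l13zV S0 (Rp.lev (v (Fc.sig i))) (.pair (Rp.c1 i) (Rp.c2 i)) (w a, w b)) 5 :=
  L13zTree.rv_pair _ ((P e).l13z_V_meas (h e) S0 _ _) ((P e).l13z_V_abs_le (h e) hS _ _) _ _

/-- **step 1 of case C**: the later pair is replaced by `2 L - S` on the path `pL`; the earlier factors are truncated -/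
theorem zC_S1 (Rp : L13zRep Fc P S0 q) {late : ι} {iL : J} (Fx : L13zFix Rp late iL) (h : ∀ e, (P e).Ok) (hS : L13zCen S0) (hiL : iL ∈ Fc.St)
    (hsL : Fc.sig iL = late) (honly : ∀ i, Fc.sig i = late → i = iL) (hmom : L13zMom C P S0 Rp.lev Fc.Lm Fc.p0) {al : Bool → Lv → ℝ}
    (hN : L13zNum C P S0 Rp.lev late Fc.Lm Fc.p0 al) {Tt : ℝ} (hTt : 0 < Tt) (e : Bool) (v : ι → Lv) (o : O) (j : Lv)
    (hH : C.H (Function.update v late j) o ≠ 0) :
    |∫ w, ((P e).l13zV S0 (Rp.lev j) (.pair (Rp.c1 iL) (Rp.c2 iL)) (w (Rp.la iL), w (Rp.lb iL)) - (P e).l13zT S0 (Rp.lev j) (w Fx.pL))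
        * Rp.zG e iL v (w Fx.a1, w Fx.b1) ∂(Rp.ν e (Function.update v late j) o)|
      ≤ (∏ i ∈ Fc.St.erase iL, (Tt * C.env (Fc.sig i) (v (Fc.sig i)))) * (3 * al e j)
        + 10 * 5 ^ (Fc.St.erase iL).card * ((Fc.St.erase iL).card * (Fc.Lm / Tt) ^ Fc.p0) := by
  have hT := Rp.tree e _ o hH
  have := hT.prob
  have hlev : Rp.lev (Function.update v late j (Fc.sig iL)) = Rp.lev j := by rw [hsL, Function.update_self]
  have hνj : C.nu late j ≠ 0 := by
    have := C.z_nu_ne hH late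
    rwa [Function.update_self] at this
  have r1 : L13Rv (Rp.ν e (Function.update v late j) o)
      (fun w => (P e).l13zV S0 (Rp.lev j) (.pair (Rp.c1 iL) (Rp.c2 iL)) (w (Rp.la iL), w (Rp.lb iL))) 5 :=
    L13zTree.rv_pair _ ((P e).l13z_V_meas (h e) S0 _ _) ((P e).l13z_V_abs_le (h e) hS _ _) _ _
  have r2 : L13Rv (Rp.ν e (Function.update v late j) o) (fun w => (P e).l13zT S0 (Rp.lev j) (w Fx.pL)) 5 :=
    L13zTree.rv_one _ ((P e).l13z_T_bd (h e) S0 _).1 ((P e).l13z_T_abs_le (h e) hS _) _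
  have rF : L13Rv (Rp.ν e (Function.update v late j) o)
      (fun w => (P e).l13zV S0 (Rp.lev j) (.pair (Rp.c1 iL) (Rp.c2 iL)) (w (Rp.la iL), w (Rp.lb iL)) - (P e).l13zT S0 (Rp.lev j) (w Fx.pL)) 10 :=
    ⟨r1.meas.sub r2.meas, fun w => (abs_sub _ _).trans (by linarith [r1.bdd w, r2.bdd w])⟩
  have key := l13z_trunc (Fc.St.erase iL) rF
    (fun i w => (P e).l13zV S0 (Rp.lev (v (Fc.sig i))) (.pair (Rp.c1 i) (Rp.c2 i)) (w Fx.a1, w Fx.b1)) 5
    (fun i => Rp.zC_G_rv h hS e v _ _ _ i) (fun i => Tt * C.env (Fc.sig i) (v (Fc.sig i)))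
    (fun i hi => (Rp.zC_tail Fx h hS honly hmom hTt e v o j hH i hi).1) Fc.p0
    (fun i hi => (Rp.zC_tail Fx h hS honly hmom hTt e v o j hH i hi).2)
  have hd := hT.alias_dist (h e) S0 (Rp.ne iL hiL) (k := Rp.lev j) (c := Fx.pL)
    (c1 := Rp.c1 iL) (c2 := Rp.c2 iL)
    (by rw [← hlev]; exact Rp.split _ o hH iL hiL)
    (by
      have := Fx.thru _ o hH
      rwa [Function.update_self] at this)
    (by rw [← hlev]; exact (Rp.cut _ o hH iL hiL).1) (by rw [← hlev]; exact (Rp.cut _ o hH iL hiL).2)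
    (hN.al0 e j) (hN.ali e j hνj)
  refine key.trans (add_le_add ?_ le_rfl)
  refine mul_le_mul_of_nonneg_left hd (Finset.prod_nonneg fun i hi => ?_)
  exact (Rp.zC_tail Fx h hS honly hmom hTt e v o j hH i hi).1.le

/-- **step 3 of case C**: the centred path integral against the earlier factors, under ONE law (unconditional centred estimate, then truncation) -/
theorem zC_S3 (Rp : L13zRep Fc P S0 q) {late : ι} {iL : J} (Fx : L13zFix Rp late iL) (h : ∀ e, (P e).Ok) (hS : L13zCen S0)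
    (honly : ∀ i, Fc.sig i = late → i = iL) (hmom : L13zMom C P S0 Rp.lev Fc.Lm Fc.p0) {Tt BI : ℝ} (hTt : 0 < Tt) (hBI0 : 0 ≤ BI) (e : Bool)
    (v : ι → Lv) (o : O) (j0 : Lv) (hH : C.H (Function.update v late j0) o ≠ 0) (c : Lv → ℝ) (hc1 : ∀ j, |c j| ≤ C.nu late j)
    (hBI : ∫ ω, (∑ j, c j * (P e).l13zT S0 (Rp.lev j) ω) ^ 2 ∂(P e).μ ≤ BI ^ 2) :
    |∫ w, (∑ j, c j * (P e).l13zT S0 (Rp.lev j) (w Fx.pL)) * Rp.zG e iL v (w Fx.a1, w Fx.b1) ∂(Rp.ν e (Function.update v late j0) o)|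
      ≤ (∏ i ∈ Fc.St.erase iL, (Tt * C.env (Fc.sig i) (v (Fc.sig i)))) * BI
        + 5 * C.Lo * 5 ^ (Fc.St.erase iL).card * ((Fc.St.erase iL).card * (Fc.Lm / Tt) ^ Fc.p0) := by
  have hT := Rp.tree e _ o hH
  have := hT.prob
  have hIb : L8Bd fun ω => ∑ j, c j * (P e).l13zT S0 (Rp.lev j) ω := l13z_bd_sum _ fun j _ => ((P e).l13z_T_bd (h e) S0 _).const_mul _
  have hI4 : ∀ ω, |∑ j, c j * (P e).l13zT S0 (Rp.lev j) ω| ≤ 5 * C.Lo := by
    intro ω
    calc |∑ j, c j * (P e).l13zT S0 (Rp.lev j) ω| ≤ ∑ j, |c j * (P e).l13zT S0 (Rp.lev j) ω| := Finset.abs_sum_le_sum_abs _ _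
      _ ≤ ∑ j, C.nu late j * 5 := Finset.sum_le_sum fun j _ => by
          rw [abs_mul]
          exact mul_le_mul (hc1 j) ((P e).l13z_T_abs_le (h e) hS _ ω) (abs_nonneg _) (C.hnu0 late j)
      _ = (∑ j, C.nu late j) * 5 := by rw [Finset.sum_mul]
      _ ≤ 5 * C.Lo := by linarith [C.hnu1 late]
  have rF : L13Rv (Rp.ν e (Function.update v late j0) o) (fun w => ∑ j, c j * (P e).l13zT S0 (Rp.lev j) (w Fx.pL)) (5 * C.Lo) :=
    L13zTree.rv_one _ hIb.1 hI4 _
  have key := l13z_trunc (Fc.St.erase iL) rF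
    (fun i w => (P e).l13zV S0 (Rp.lev (v (Fc.sig i))) (.pair (Rp.c1 i) (Rp.c2 i)) (w Fx.a1, w Fx.b1)) 5
    (fun i => Rp.zC_G_rv h hS e v _ _ _ i) (fun i => Tt * C.env (Fc.sig i) (v (Fc.sig i)))
    (fun i hi => (Rp.zC_tail Fx h hS honly hmom hTt e v o j0 hH i hi).1) Fc.p0
    (fun i hi => (Rp.zC_tail Fx h hS honly hmom hTt e v o j0 hH i hi).2)
  have hd : ∫ w, |∑ j, c j * (P e).l13zT S0 (Rp.lev j) (w Fx.pL)| ∂(Rp.ν e (Function.update v late j0) o) ≤ BI := by
    have h2 := hT.one Fx.pL (fun ω => (∑ j, c j * (P e).l13zT S0 (Rp.lev j) ω) ^ 2) (hIb.pow 2)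
    calc _ ≤ √(∫ w, (∑ j, c j * (P e).l13zT S0 (Rp.lev j) (w Fx.pL)) ^ 2 ∂(Rp.ν e (Function.update v late j0) o)) := l13z_l1_le_l2 rF
      _ ≤ √(BI ^ 2) := Real.sqrt_le_sqrt (by rw [h2]; exact hBI)
      _ = BI := Real.sqrt_sq hBI0
  refine key.trans (add_le_add ?_ le_rfl)
  refine mul_le_mul_of_nonneg_left hd (Finset.prod_nonneg fun i hi => ?_)
  exact (Rp.zC_tail Fx h hS honly hmom hTt e v o j0 hH i hi).1.le

/-- **steps 1-3**: the sum over the moving level of the expectation of the stochastic factors -/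
theorem zC_Mst (Rp : L13zRep Fc P S0 q) {late : ι} {iL : J} (Fx : L13zFix Rp late iL) (h : ∀ e, (P e).Ok) (hS : L13zCen S0) (hiL : iL ∈ Fc.St)
    (hsL : Fc.sig iL = late) (honly : ∀ i, Fc.sig i = late → i = iL) (hmom : L13zMom C P S0 Rp.lev Fc.Lm Fc.p0) {al : Bool → Lv → ℝ}
    (hN : L13zNum C P S0 Rp.lev late Fc.Lm Fc.p0 al) {Tt BI A1 : ℝ} (hTt : 0 < Tt) (hBI0 : 0 ≤ BI) (e : Bool)
    (hA1 : ∑ j, C.nu late j * al e j ≤ A1)
    (v : ι → Lv) (o : O) (j0 : Lv) (hH0 : C.H (Function.update v late j0) o ≠ 0) (c : Lv → ℝ) (hc1 : ∀ j, |c j| ≤ C.nu late j)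
    (hc2 : ∀ j, C.H (Function.update v late j) o = 0 → c j = 0)
    (hBI : ∫ ω, (∑ j, c j * (P e).l13zT S0 (Rp.lev j) ω) ^ 2 ∂(P e).μ ≤ BI ^ 2) :
    |∑ j, c j * Fc.zMst e (Function.update v late j) o|
      ≤ (∏ i ∈ Fc.St.erase iL, (Tt * C.env (Fc.sig i) (v (Fc.sig i)))) * (BI + 3 * A1)
        + C.Lo * (15 * 5 ^ (Fc.St.erase iL).card * ((Fc.St.erase iL).card * (Fc.Lm / Tt) ^ Fc.p0)) := by
  set Th : ℝ := ∏ i ∈ Fc.St.erase iL, (Tt * C.env (Fc.sig i) (v (Fc.sig i))) with hTh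
  set tl : ℝ := 5 ^ (Fc.St.erase iL).card * ((Fc.St.erase iL).card * (Fc.Lm / Tt) ^ Fc.p0) with htl
  have hTh0 : 0 ≤ Th := Finset.prod_nonneg fun i hi => (Rp.zC_tail Fx h hS honly hmom hTt e v o j0 hH0 i hi).1.le
  have htl0 : 0 ≤ tl := by
    have := Fc.hLm0
    positivity
  have hGm : Measurable (Rp.zG e iL v) := Finset.measurable_prod _ fun i _ => (P e).l13z_V_meas (h e) S0 _ _
  have hGb : ∀ x, |Rp.zG e iL v x| ≤ 5 ^ (Fc.St.erase iL).card := by
    intro x
    unfold zG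
    rw [Finset.abs_prod]
    calc ∏ i ∈ Fc.St.erase iL, |(P e).l13zV S0 (Rp.lev (v (Fc.sig i))) (.pair (Rp.c1 i) (Rp.c2 i)) x| ≤ ∏ _i ∈ Fc.St.erase iL, (5 : ℝ) :=
          Finset.prod_le_prod (fun i _ => abs_nonneg _) fun i _ => (P e).l13z_V_abs_le (h e) hS _ _ x
      _ = _ := by simp
  -- decomposition of each term
  set D : Lv → ℝ := fun j => ∫ w, ((P e).l13zV S0 (Rp.lev j) (.pair (Rp.c1 iL) (Rp.c2 iL)) (w (Rp.la iL), w (Rp.lb iL)) - (P e).l13zT S0 (Rp.lev j) (w Fx.pL))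
        * Rp.zG e iL v (w Fx.a1, w Fx.b1) ∂(Rp.ν e (Function.update v late j) o) with hD
  have hterm : ∀ j, c j * Fc.zMst e (Function.update v late j) o
      = c j * D j + ∫ w, c j * (P e).l13zT S0 (Rp.lev j) (w Fx.pL) * Rp.zG e iL v (w Fx.a1, w Fx.b1) ∂(Rp.ν e (Function.update v late j0) o) := by
    intro j
    by_cases hj : c j = 0
    · rw [hj]; simp
    · have hH : C.H (Function.update v late j) o ≠ 0 := fun h0 => hj (hc2 j h0)
      have := (Rp.tree e _ o hH).prob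
      have rG : L13Rv (Rp.ν e (Function.update v late j) o) (fun w => Rp.zG e iL v (w Fx.a1, w Fx.b1)) (5 ^ (Fc.St.erase iL).card) :=
        L13zTree.rv_pair _ hGm hGb _ _
      have r1 : L13Rv (Rp.ν e (Function.update v late j) o)
          (fun w => (P e).l13zV S0 (Rp.lev j) (.pair (Rp.c1 iL) (Rp.c2 iL)) (w (Rp.la iL), w (Rp.lb iL))) 5 :=
        L13zTree.rv_pair _ ((P e).l13z_V_meas (h e) S0 _ _) ((P e).l13z_V_abs_le (h e) hS _ _) _ _
      have r2 : L13Rv (Rp.ν e (Function.update v late j) o) (fun w => (P e).l13zT S0 (Rp.lev j) (w Fx.pL)) 5 :=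
        L13zTree.rv_one _ ((P e).l13z_T_bd (h e) S0 _).1 ((P e).l13z_T_abs_le (h e) hS _) _
      have hfix := Fx.fix e v o j j0 hH hH0 (fun u => (P e).l13zT S0 (Rp.lev j) u.2.2 * Rp.zG e iL v (u.1, u.2.1))
        ((((P e).l13z_T_bd (h e) S0 _).1.comp (measurable_snd.comp measurable_snd)).mul
          (hGm.comp (measurable_fst.prodMk (measurable_fst.comp measurable_snd))))
        ⟨5 * 5 ^ (Fc.St.erase iL).card, fun u => by
          rw [abs_mul]
          exact mul_le_mul ((P e).l13z_T_abs_le (h e) hS _ _) (hGb _) (abs_nonneg _) (by norm_num)⟩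
      simp only at hfix
      have e1 : ∫ w, c j * (P e).l13zT S0 (Rp.lev j) (w Fx.pL) * Rp.zG e iL v (w Fx.a1, w Fx.b1) ∂(Rp.ν e (Function.update v late j0) o)
          = c j * ∫ w, (P e).l13zT S0 (Rp.lev j) (w Fx.pL) * Rp.zG e iL v (w Fx.a1, w Fx.b1) ∂(Rp.ν e (Function.update v late j) o) := by
        rw [hfix, ← integral_const_mul]
        congr 1
        funext w
        ring
      rw [e1, Rp.zC_rep Fx hiL hsL honly e v o j hH, hD, ← mul_add, ← integral_add ((r1.mul rG).integrable.sub (r2.mul rG).integrable |>.congr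
        (Filter.Eventually.of_forall fun w => by simp only [Pi.sub_apply]; ring)) (r2.mul rG).integrable]
      congr 2
      funext w
      ring
  simp_rw [hterm]
  rw [Finset.sum_add_distrib]
  have := (Rp.tree e _ o hH0).prob
  have rG0 : L13Rv (Rp.ν e (Function.update v late j0) o) (fun w => Rp.zG e iL v (w Fx.a1, w Fx.b1)) (5 ^ (Fc.St.erase iL).card) :=
    L13zTree.rv_pair _ hGm hGb _ _
  have hsw : ∑ j, ∫ w, c j * (P e).l13zT S0 (Rp.lev j) (w Fx.pL) * Rp.zG e iL v (w Fx.a1, w Fx.b1) ∂(Rp.ν e (Function.update v late j0) o)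
      = ∫ w, (∑ j, c j * (P e).l13zT S0 (Rp.lev j) (w Fx.pL)) * Rp.zG e iL v (w Fx.a1, w Fx.b1) ∂(Rp.ν e (Function.update v late j0) o) := by
    rw [← integral_finsetSum _ fun j _ => ?_]
    · congr 1
      funext w
      rw [Finset.sum_mul]
    · have r2 : L13Rv (Rp.ν e (Function.update v late j0) o) (fun w => (P e).l13zT S0 (Rp.lev j) (w Fx.pL)) 5 :=
        L13zTree.rv_one _ ((P e).l13z_T_bd (h e) S0 _).1 ((P e).l13z_T_abs_le (h e) hS _) _
      exact (((L13Rv.const (c j)).mul r2).mul rG0).integrable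
  rw [hsw]
  have h3 := Rp.zC_S3 Fx h hS honly hmom hTt hBI0 e v o j0 hH0 c hc1 hBI
  have h1 : |∑ j, c j * D j| ≤ Th * (3 * A1) + C.Lo * (10 * tl) := by
    calc |∑ j, c j * D j| ≤ ∑ j, |c j * D j| := Finset.abs_sum_le_sum_abs _ _
      _ ≤ ∑ j, (Th * 3 * (C.nu late j * al e j) + 10 * tl * C.nu late j) := by
          refine Finset.sum_le_sum fun j _ => ?_
          rw [abs_mul]
          by_cases hj : c j = 0
          · rw [hj, abs_zero, zero_mul]
            have := hN.al0 e j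
            have := C.hnu0 late j
            positivity
          · have hH : C.H (Function.update v late j) o ≠ 0 := fun h0 => hj (hc2 j h0)
            have hs1 := Rp.zC_S1 Fx h hS hiL hsL honly hmom hN hTt e v o j hH
            calc |c j| * |D j| ≤ C.nu late j * (Th * (3 * al e j) + 10 * 5 ^ (Fc.St.erase iL).card * ((Fc.St.erase iL).card * (Fc.Lm / Tt) ^ Fc.p0)) :=
                  mul_le_mul (hc1 j) hs1 (abs_nonneg _) (C.hnu0 late j)
              _ = _ := by rw [htl]; ring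
      _ = Th * 3 * ∑ j, C.nu late j * al e j + 10 * tl * ∑ j, C.nu late j := by
          rw [Finset.sum_add_distrib, ← Finset.mul_sum, ← Finset.mul_sum]
      _ ≤ Th * 3 * A1 + 10 * tl * C.Lo :=
          add_le_add (mul_le_mul_of_nonneg_left hA1 (by positivity)) (mul_le_mul_of_nonneg_left (C.hnu1 late) (by positivity))
      _ = _ := by ring
  calc _ ≤ |∑ j, c j * D j| + _ := abs_add_le _ _
    _ ≤ (Th * (3 * A1) + C.Lo * (10 * tl)) + (Th * BI + 5 * C.Lo * 5 ^ (Fc.St.erase iL).card * ((Fc.St.erase iL).card * (Fc.Lm / Tt) ^ Fc.p0)) :=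
        add_le_add h1 h3
    _ = _ := by rw [htl]; ring

/-- **CASE C of LL Lemma 9.1** (09 l.186-222): the LATER vertex carries one linear stochastic factor `iL`; the other stochastic factors live on one earlier pair;
each ensemble separately.  `BI` = (D10) with `j = 1` in the ensemble `e` (`l8c_linear`, `l8c_linear_tilt`), `A1` = integrated alias errors ((D7) line 2). -/
theorem zC (Rp : L13zRep Fc P S0 q) {late : ι} {iL : J} (Fx : L13zFix Rp late iL) (h : ∀ e, (P e).Ok) (hS : L13zCen S0) (hM : 0 ≤ Fc.M)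
    (hiL : iL ∈ Fc.St) (hsL : Fc.sig iL = late) (honly : ∀ i, Fc.sig i = late → i = iL) (hmom : L13zMom C P S0 Rp.lev Fc.Lm Fc.p0)
    {al : Bool → Lv → ℝ} (hN : L13zNum C P S0 Rp.lev late Fc.Lm Fc.p0 al) {Tt BI A1 : ℝ} (hTt : Fc.Lm ≤ Tt) (hBI0 : 0 ≤ BI) (hA10 : 0 ≤ A1)
    (e : Bool) (hA1 : ∑ j, C.nu late j * al e j ≤ A1)
    (hBI : ∀ c : Lv → ℝ, (∀ j, |c j| ≤ C.nu late j) → ∫ ω, (∑ j, c j * (P e).l13zT S0 (Rp.lev j) ω) ^ 2 ∂(P e).μ ≤ BI ^ 2)
    (v : ι → Lv) (o : O) (c : Lv → ℝ) (hc1 : ∀ j, |c j| ≤ C.nu late j) (hc2 : ∀ j, C.H (Function.update v late j) o = 0 → c j = 0) :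
    |∑ j, c j * Fc.T e (Function.update v late j) o|
      ≤ Tt ^ (Finset.univ.filter (fun i => ¬ Fc.sig i = late)).card * (BI + 3 * A1) * ∏ s ∈ Finset.univ.erase late, C.env s (v s) ^ (C.k s)
        + C.Lo * Fc.M ^ Fc.Stᶜ.card * (15 * 5 ^ (Fc.St.erase iL).card * ((Fc.St.erase iL).card * (Fc.Lm / Tt) ^ Fc.p0)) := by
  have hLm := Fc.hLm0
  have hTt0 : 0 < Tt := lt_of_lt_of_le hLm hTt
  have hLo := C.Lo_pos
  set E : ℝ := ∏ s ∈ Finset.univ.erase late, C.env s (v s) ^ (C.k s) with hE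
  set tl : ℝ := 15 * 5 ^ (Fc.St.erase iL).card * ((Fc.St.erase iL).card * (Fc.Lm / Tt) ^ Fc.p0) with htl
  have hE0 : 0 ≤ E := Finset.prod_nonneg fun s _ => pow_nonneg (C.henv0 s _) _
  have htl0 : 0 ≤ tl := by positivity
  by_cases hall : ∀ j, c j = 0
  · have : ∑ j, c j * Fc.T e (Function.update v late j) o = 0 := Finset.sum_eq_zero fun j _ => by rw [hall j, zero_mul]
    rw [this, abs_zero]
    positivity
  push Not at hall
  obtain ⟨j0, hj0⟩ := hall
  have hH0 : C.H (Function.update v late j0) o ≠ 0 := fun h0 => hj0 (hc2 j0 h0)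
  have hv : ∀ s, s ≠ late → C.nu s (v s) ≠ 0 := by
    intro s hs
    have := C.z_nu_ne hH0 s
    rwa [Function.update_of_ne hs] at this
  -- no deterministic factor at the moving vertex
  have hemp : Fc.Stᶜ.filter (fun i => Fc.sig i = late) = ∅ := by
    rw [Finset.filter_eq_empty_iff]
    intro i hi hs
    rw [honly i hs] at hi
    exact (Finset.mem_compl.mp hi) hiL
  have hD0 : ∀ j, Fc.zD0 late j = 1 := fun j => by unfold L13Fac.zD0; rw [hemp]; simp
  have hdet : ∀ j, Fc.zDet (Function.update v late j) = Fc.zDO late v := fun j => by rw [Fc.z_det_update, hD0, one_mul]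
  have e1 : ∑ j, c j * Fc.T e (Function.update v late j) o = Fc.zDO late v * ∑ j, c j * Fc.zMst e (Function.update v late j) o := by
    rw [Finset.mul_sum]
    refine Finset.sum_congr rfl fun j _ => ?_
    rw [Fc.z_T_eq, hdet]; ring
  have hm := Rp.zC_Mst Fx h hS hiL hsL honly hmom hN hTt0 hBI0 e hA1 v o j0 hH0 c hc1 hc2 (hBI c hc1)
  set Th : ℝ := ∏ i ∈ Fc.St.erase iL, (Tt * C.env (Fc.sig i) (v (Fc.sig i))) with hTh
  have hTh0 : 0 ≤ Th := Finset.prod_nonneg fun i _ => mul_nonneg hTt0.le (C.henv0 _ _)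
  -- the two bounds of the deterministic factors
  have d2 : |Fc.zDO late v| ≤ Fc.M ^ Fc.Stᶜ.card := by rw [← hdet j0]; exact Fc.z_det_le_M hH0
  have d1 : |Fc.zDO late v| * Th ≤ Tt ^ (Finset.univ.filter (fun i => ¬ Fc.sig i = late)).card * E := by
    have hu : Finset.univ.filter (fun i => ¬ Fc.sig i = late) = Fc.Stᶜ.filter (fun i => ¬ Fc.sig i = late) ∪ Fc.St.erase iL := by
      ext i
      simp only [Finset.mem_filter, Finset.mem_univ, true_and, Finset.mem_union, Finset.mem_compl, Finset.mem_erase]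
      constructor
      · intro hi
        by_cases hS : i ∈ Fc.St
        · exact Or.inr ⟨fun h' => hi (by rw [h']; exact hsL), hS⟩
        · exact Or.inl ⟨hS, hi⟩
      · rintro (hi | hi)
        · exact hi.2
        · exact fun hs => hi.1 (honly i hs)
    have hdis : Disjoint (Fc.Stᶜ.filter (fun i => ¬ Fc.sig i = late)) (Fc.St.erase iL) := by
      rw [Finset.disjoint_left]
      intro i hi hi'
      exact (Finset.mem_compl.mp (Finset.mem_filter.mp hi).1) (Finset.mem_erase.mp hi').2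
    rw [← Fc.z_env_prod late v Tt, hu, Finset.prod_union hdis]
    refine mul_le_mul_of_nonneg_right ?_ hTh0
    refine (Fc.z_DO_le late hv).trans (Finset.prod_le_prod (fun i _ => mul_nonneg hLm.le (C.henv0 _ _)) fun i _ => ?_)
    exact mul_le_mul_of_nonneg_right hTt (C.henv0 _ _)
  rw [e1, abs_mul]
  calc |Fc.zDO late v| * |∑ j, c j * Fc.zMst e (Function.update v late j) o|
      ≤ |Fc.zDO late v| * (Th * (BI + 3 * A1) + C.Lo * tl) := mul_le_mul_of_nonneg_left hm (abs_nonneg _)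
    _ = (|Fc.zDO late v| * Th) * (BI + 3 * A1) + |Fc.zDO late v| * (C.Lo * tl) := by ring
    _ ≤ (Tt ^ (Finset.univ.filter (fun i => ¬ Fc.sig i = late)).card * E) * (BI + 3 * A1) + Fc.M ^ Fc.Stᶜ.card * (C.Lo * tl) :=
        add_le_add (mul_le_mul_of_nonneg_right d1 (by positivity)) (mul_le_mul_of_nonneg_right d2 (by positivity))
    _ = _ := by ring

end L13zRep

end Claimed.Agent.R286
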