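/-
OWNER helper64.  TEX[LL:exp:lem-centered-count] (the CENTRED half of the proof, part 3: TABLE LEVEL EXIT).      Prefix `l13z_` / `L13z`.

MAP.  EXITS: `l13z_impA : L9cImpA D T (l13zKz D T K10 Kc Tt) (l13zEr D T Tt)` and
`l13z_impC : L9cImpC D T i0 (l13zKz ..) (l13zEr ..)` (the two imports of `l9c_main`, CCTab of helper30), 0 sorry of this file;
`l13z_main : |D.val T| <= card charts * j * (bLow + bHigh Kz Er)` = `l9c_main` with the two imports discharged.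
INPUTS (to be produced at the SK instance):
 * `Lk : L13zLk D P Tl sp (2 * T.j)`: the two single paths `P e : L8P` (e = false untilted, true tilted), their tree laws `Tl e : L8L`
   with `L8LRep (D.X e) (Tl e) sp r` (helper234/257), and the dictionary `ov`, `msk`, `Sf`, `mu`, `fork`, `hn`;
 * `Nb : L13zNb D P jm K10 Kc`: the NUMBERS: `mom` (moments of the centred increment, D2), `d10` (L2 bound of the band sums of the
   conditional expectations about the UNTILTED mean, D10 + centre shift), `d7c` (alias cost, D7-C);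
 * `hhi`: every allowed depth of the table is above the lower band;  `Tt >= max 1 Lm` free truncation parameter.
-/
import Claimed.Agent.R286.L09.CCCenC
import Claimed.Agent.R286.L09.CCTab
import Claimed.Agent.R286.L08.LsLink

set_option autoImplicit false
set_option linter.unusedSectionVars false

namespace Claimed.Agent.R286

open MeasureTheory ProbabilityTheory Finset
open scoped ENNReal

/-! ## 1. From a consistent family of path laws (`L8L.Ok`, helper234) to the laws of `q` paths -/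
section bridge

variable {Ω : Type} [mΩ : MeasurableSpace Ω] {m : ℕ}

/-- the paths of the labels `< q` -/
def l13zPr (q : ℕ) (w : ℕ → Ω) : Fin q → Ω := fun a => w a.1

theorem l13z_pr_meas (q : ℕ) : Measurable (l13zPr (Ω := Ω) q) :=
  measurable_pi_lambda _ fun a => measurable_pi_apply a.1

/-- the single marginal of a tree law -/
theorem L8L.Ok.l13z_marg1 {Tl : L8L Ω} (hT : Tl.Ok) {τ : ℕ → ℕ → ℕ} (hτ : Tl.V τ) {x : ℕ} (hx : x < Tl.r) :
    (Tl.law τ).map (fun w => w x) = Tl.μ := by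
  obtain ⟨y, hy, hxy⟩ : ∃ y, y < Tl.r ∧ x ≠ y := by
    have := hT.two
    by_cases h0 : x = 0
    · exact ⟨1, by omega, by omega⟩
    · exact ⟨0, by omega, h0⟩
  have h1 := hT.marg2 τ hτ x y hx hy hxy
  have h2 := hT.fst (τ x y)
  have hm : Measurable fun w : ℕ → Ω => (w x, w y) := (measurable_pi_apply x).prodMk (measurable_pi_apply y)
  rw [← h1, Measure.map_map measurable_fst hm] at h2
  exact h2

/-- **a tree law of a consistent family is a law of `q` paths over the single path** -/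
theorem l13z_tree_of_L8L {P : L8P Ω m} {Tl : L8L Ω} (hT : Tl.Ok) (hμ : Tl.μ = P.μ) (hf : ∀ l, Tl.fork l = P.fork l)
    {τ : ℕ → ℕ → ℕ} (hτ : Tl.V τ) {q : ℕ} (hq : q ≤ Tl.r) :
    L13zTree P ((Tl.law τ).map (l13zPr q)) (fun a b => τ a.1 b.1) := by
  have := hT.prob τ hτ
  refine ⟨Measure.isProbabilityMeasure_map (l13z_pr_meas q).aemeasurable, ?_, ?_⟩
  · intro a F hF
    have hm : Measurable fun w : Fin q → Ω => F (w a) := hF.1.comp (measurable_pi_apply a)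
    rw [integral_map (l13z_pr_meas q).aemeasurable hm.aestronglyMeasurable, ← hμ,
      ← hT.l13z_marg1 hτ (lt_of_lt_of_le a.2 hq), integral_map (measurable_pi_apply a.1).aemeasurable hF.1.aestronglyMeasurable]
    rfl
  · intro a b hab F hF _
    have hab' : a.1 ≠ b.1 := fun h => hab (Fin.ext h)
    have hm : Measurable fun w : Fin q → Ω => F (w a, w b) := hF.comp ((measurable_pi_apply a).prodMk (measurable_pi_apply b))
    have hm2 : Measurable fun w : ℕ → Ω => (w a.1, w b.1) := (measurable_pi_apply a.1).prodMk (measurable_pi_apply b.1)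
    rw [integral_map (l13z_pr_meas q).aemeasurable hm.aestronglyMeasurable, ← hf,
      ← hT.marg2 τ hτ a.1 b.1 (lt_of_lt_of_le a.2 hq) (lt_of_lt_of_le b.2 hq) hab',
      integral_map hm2.aemeasurable hF.aestronglyMeasurable]
    rfl

/-- **the fixed marginal**: the law of three paths depends only on the table of their labels -/
theorem l13z_fix_of_L8L {Tl : L8L Ω} (hT : Tl.Ok) {τ τ' : ℕ → ℕ → ℕ} (hτ : Tl.V τ) (hτ' : Tl.V τ') {q : ℕ} (a b c : Fin q)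
    (hab : τ a.1 b.1 = τ' a.1 b.1) (hba : τ b.1 a.1 = τ' b.1 a.1) (hac : τ a.1 c.1 = τ' a.1 c.1) (hca : τ c.1 a.1 = τ' c.1 a.1)
    (hbc : τ b.1 c.1 = τ' b.1 c.1) (hcb : τ c.1 b.1 = τ' c.1 b.1)
    (F : Ω × Ω × Ω → ℝ) (hF : Measurable F) (hb : ∃ M, ∀ u, |F u| ≤ M) :
    ∫ w, F (w a, w b, w c) ∂((Tl.law τ).map (l13zPr q)) = ∫ w, F (w a, w b, w c) ∂((Tl.law τ').map (l13zPr q)) := by
  have hm : Measurable fun w : Fin q → Ω => F (w a, w b, w c) :=
    hF.comp ((measurable_pi_apply a).prodMk ((measurable_pi_apply b).prodMk (measurable_pi_apply c)))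
  rw [integral_map (l13z_pr_meas q).aemeasurable hm.aestronglyMeasurable,
    integral_map (l13z_pr_meas q).aemeasurable hm.aestronglyMeasurable]
  obtain ⟨M, hM⟩ := hb
  refine hT.rc τ τ' hτ hτ' {a.1, b.1, c.1} (fun w => F (l13zPr q w a, l13zPr q w b, l13zPr q w c)) (hm.comp (l13z_pr_meas q)) ?_
    ⟨M, fun w => hM _⟩ ?_
  · intro w w' h
    have h1 : w a.1 = w' a.1 := h a.1 (by simp)
    have h2 : w b.1 = w' b.1 := h b.1 (by simp)
    have h3 : w c.1 = w' c.1 := h c.1 (by simp)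
    simp only [l13zPr, h1, h2, h3]
  · intro x hx y hy hxy
    simp only [Finset.mem_insert, Finset.mem_singleton] at hx hy
    rcases hx with rfl | rfl | rfl <;> rcases hy with h | h | h <;>
      first
        | exact absurd h.symm hxy
        | (rw [h]; assumption)
        | (exfalso; exact hxy h.symm)

end bridge

/-! ## 2. The two cases with the numbers of LL08 in their integrated form -/
section wrap

variable {Ω : Type} [mΩ : MeasurableSpace Ω] {m : ℕ}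
variable {ι Lv O : Type*} [Fintype ι] [DecidableEq ι] [Fintype Lv] [Fintype O]
variable {C : L13CC ι Lv O} {J W : Type*} [Fintype J] [DecidableEq J] [Fintype W]

/-- the alias cost at the cut `k` ((D7) line 2): `E X_kᵀ C_k X_k + E tr C_k²` -/
noncomputable def L8P.l13zC (P : L8P Ω m) (k : ℕ) : ℝ := ∫ ω, P.xCx k ω ∂P.μ + ∫ ω, P.trC2 k ω ∂P.μ

theorem L8P.l13z_C_nonneg (P : L8P Ω m) (h : P.Ok) (k : ℕ) : 0 ≤ P.l13zC k :=
  add_nonneg (P.l8c_xCx_nonneg h k) (P.l8c_trC2_nonneg k)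

/-- the numbers at a vertex from (D2) alone: the alias errors are those of helper187 (`l8c_ver_dist`) -/
theorem l13z_num_of {P : Bool → L8P Ω m} (h : ∀ e, (P e).Ok) {S0 : ℕ → ℝ} {lev : Lv → ℕ} {Lm : ℝ} {p0 : ℕ}
    (hmom : L13zMom C P S0 lev Lm p0) (s : ι) : L13zNum C P S0 lev s Lm p0 (fun e j => 4 * √((P e).l13zC (lev j))) := by
  refine ⟨fun e j => by positivity, fun e j _ u u' hu hu' => ?_, fun e j hj u hu => hmom s e j hj u hu⟩
  refine ((P e).l8c_ver_dist (h e) hu hu').trans (le_of_eq ?_)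
  rw [mul_pow, Real.sq_sqrt ((P e).l13z_C_nonneg (h e) _)]
  unfold L8P.l13zC
  norm_num

/-- the integrated alias errors after Cauchy-Schwarz in mass -/
theorem L13CC.z_alias_sum (C : L13CC ι Lv O) (s : ι) (cC : Lv → ℝ) (hc0 : ∀ j, 0 ≤ cC j) {Kc : ℝ} (hKc : 0 ≤ Kc)
    (hsum : ∑ j, C.nu s j * cC j ≤ (Kc * (C.S.gB / C.a s * (C.S.Y ^ 2 / (C.a s * C.S.Y)))) ^ 2) {k : ℕ} (hk : 1 ≤ k) :
    ∑ j, C.nu s j * (C.env s j ^ (k - 1) * (4 * √(cC j)))
      ≤ 4 * Kc * C.Lo ^ k * (C.S.gB / C.a s * l13_P C.S.Y (C.a s * C.S.Y) k) := by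
  set X : ℝ := Kc * (C.S.gB / C.a s * (C.S.Y ^ 2 / (C.a s * C.S.Y))) with hX
  have hX0 : 0 ≤ X := by
    have := C.S.gB_pos
    have := C.a_pos s
    have := C.S.Y_pos
    positivity
  have hV : ∑ j, C.nu s j * (4 * √(cC j)) ^ 2 ≤ (4 * X) ^ 2 := by
    have e : ∀ j, C.nu s j * (4 * √(cC j)) ^ 2 = 16 * (C.nu s j * cC j) := fun j => by
      rw [mul_pow, Real.sq_sqrt (hc0 j)]; ring
    simp_rw [e]
    rw [← Finset.mul_sum]
    nlinarith
  have h := l13_cs_sum (C.nu s) (C.env s) (fun j => 4 * √(cC j)) C.Lo C.S.Y (C.a s * C.S.Y) (C.hnu0 s) (C.henv0 s)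
    (fun j => by positivity) C.hLo (C.r_pos s) (C.hnu1 s) (C.henv1 s) (C.henv2 s) hV hk
  refine h.trans (le_of_eq ?_)
  rw [Real.sqrt_sq (by positivity), l13_P_eq_mQ _ _ hk, hX]
  ring

namespace L13zRep

variable {Fc : L13Fac C J W} {P : Bool → L8P Ω m} {S0 : ℕ → ℝ} {q : ℕ}

/-- **CASE A**, numbers in the form `K * (g_B / a) P_k` -/
theorem zA' (Rp : L13zRep Fc P S0 q) (h : ∀ e, (P e).Ok) (hS : L13zCen S0) (s0 : ι) (hs0 : ∀ i ∈ Fc.St, Fc.sig i = s0)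
    (hne : Fc.St.Nonempty)
    (hanc : ∀ v o, C.H v o ≠ 0 → ∀ i ∈ Fc.St, ∀ i' ∈ Fc.St, Rp.la i = Rp.la i' ∨ Rp.lev (v s0) ≤ Rp.sh v o (Rp.la i) (Rp.la i'))
    (hmom : L13zMom C P S0 Rp.lev Fc.Lm Fc.p0) {Tt K10 Kc : ℝ} (hTt : 0 < Tt) (hK10 : 0 ≤ K10) (hKc : 0 ≤ Kc)
    (hD10 : ∀ g : Lv → ℝ, (∀ j, |g j| ≤ C.nu s0 j * C.env s0 j ^ (C.k s0 - Fc.St.card)) →
      ∫ ω, (∑ j, g j * ((P true).l13zT S0 (Rp.lev j) ω ^ Fc.St.card - Rp.zN false j)) ^ 2 ∂(P true).μ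
        ≤ (K10 * (C.S.gB / C.a s0 * l13_P C.S.Y (C.a s0 * C.S.Y) (C.k s0))) ^ 2)
    (hC : Fc.St.card ≠ 1 → ∀ e, ∑ j, C.nu s0 j * (P e).l13zC (Rp.lev j) ≤ (Kc * (C.S.gB / C.a s0 * (C.S.Y ^ 2 / (C.a s0 * C.S.Y)))) ^ 2)
    (v : ι → Lv) (o : O) (c : Lv → ℝ) (hc1 : ∀ j, |c j| ≤ C.nu s0 j) (hc2 : ∀ j, C.H (Function.update v s0 j) o = 0 → c j = 0) :
    |∑ j, c j * Fc.dT (Function.update v s0 j) o|
      ≤ Fc.Lm ^ Fc.Stᶜ.card * (K10 + 24 * Fc.St.card * Tt ^ (Fc.St.card - 1) * Kc * C.Lo ^ (C.k s0))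
          * (C.S.gB / C.a s0 * l13_P C.S.Y (C.a s0 * C.S.Y) (C.k s0)) * ∏ s ∈ Finset.univ.erase s0, C.env s (v s) ^ (C.k s)
        + C.Lo * Fc.M ^ Fc.Stᶜ.card * (4 * 5 ^ Fc.St.card * ((Fc.St.card + 1) * (Fc.Lm / Tt) ^ Fc.p0)) := by
  set G : ℝ := C.S.gB / C.a s0 * l13_P C.S.Y (C.a s0 * C.S.Y) (C.k s0) with hG
  have hG0 : 0 ≤ G := mul_nonneg (div_pos C.S.gB_pos (C.a_pos s0)).le (l13_P_nonneg (C.r_pos s0).le _)
  have hLo := C.Lo_pos
  have key := Rp.zA h hS Fc.hM0 s0 hs0 hne hanc (fun _ => l13z_num_of h hmom s0) hTt (mul_nonneg hK10 hG0)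
    (A1 := 4 * Kc * C.Lo ^ (C.k s0) * G) (by positivity) hD10
    (fun h1 e => C.z_alias_sum s0 (fun j => (P e).l13zC (Rp.lev j)) (fun j => (P e).l13z_C_nonneg (h e) _) hKc (hC h1 e) (C.hk s0))
    v o c hc1 hc2
  refine key.trans (le_of_eq ?_)
  ring

/-- **CASE C**, numbers in the form `K * (g_B / a) P_1` -/
theorem zC' (Rp : L13zRep Fc P S0 q) {late : ι} {iL : J} (Fx : L13zFix Rp late iL) (h : ∀ e, (P e).Ok) (hS : L13zCen S0)
    (hiL : iL ∈ Fc.St) (hsL : Fc.sig iL = late) (honly : ∀ i, Fc.sig i = late → i = iL) (hmom : L13zMom C P S0 Rp.lev Fc.Lm Fc.p0)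
    {Tt K10 Kc : ℝ} (hTt : Fc.Lm ≤ Tt) (hK10 : 0 ≤ K10) (hKc : 0 ≤ Kc) (e : Bool)
    (hC : ∑ j, C.nu late j * (P e).l13zC (Rp.lev j) ≤ (Kc * (C.S.gB / C.a late * (C.S.Y ^ 2 / (C.a late * C.S.Y)))) ^ 2)
    (hBI : ∀ c : Lv → ℝ, (∀ j, |c j| ≤ C.nu late j) → ∫ ω, (∑ j, c j * (P e).l13zT S0 (Rp.lev j) ω) ^ 2 ∂(P e).μ
      ≤ (K10 * (C.S.gB / C.a late * l13_P C.S.Y (C.a late * C.S.Y) 1)) ^ 2)
    (v : ι → Lv) (o : O) (c : Lv → ℝ) (hc1 : ∀ j, |c j| ≤ C.nu late j) (hc2 : ∀ j, C.H (Function.update v late j) o = 0 → c j = 0) :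
    |∑ j, c j * Fc.T e (Function.update v late j) o|
      ≤ Tt ^ (Finset.univ.filter (fun i => ¬ Fc.sig i = late)).card * (K10 + 12 * Kc * C.Lo)
          * (C.S.gB / C.a late * l13_P C.S.Y (C.a late * C.S.Y) 1) * ∏ s ∈ Finset.univ.erase late, C.env s (v s) ^ (C.k s)
        + C.Lo * Fc.M ^ Fc.Stᶜ.card * (15 * 5 ^ (Fc.St.erase iL).card * ((Fc.St.erase iL).card * (Fc.Lm / Tt) ^ Fc.p0)) := by
  set G : ℝ := C.S.gB / C.a late * l13_P C.S.Y (C.a late * C.S.Y) 1 with hG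
  have hG0 : 0 ≤ G := mul_nonneg (div_pos C.S.gB_pos (C.a_pos late)).le (l13_P_nonneg (C.r_pos late).le _)
  have hLo := C.Lo_pos
  have hA := C.z_alias_sum late (fun j => (P e).l13zC (Rp.lev j)) (fun j => (P e).l13z_C_nonneg (h e) _) hKc hC (le_refl 1)
  simp only [Nat.sub_self, pow_zero, one_mul, pow_one] at hA
  have key := Rp.zC Fx h hS Fc.hM0 hiL hsL honly hmom (l13z_num_of h hmom late) hTt (mul_nonneg hK10 hG0)
    (A1 := 4 * Kc * C.Lo * G) (by positivity) e hA hBI v o c hc1 hc2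
  refine key.trans (le_of_eq ?_)
  ring

end L13zRep

end wrap

/-! ## 3. Dictionary of the charts (helper276, helper30) -/
section dict

theorem l13z_vx_mem {N r : ℕ} {τ : ℕ → ℕ → ℕ} (hτ : IsTr N r τ) {a b : ℕ} (ha : a < r) (hb : b < r) (hab : τ a b ≤ N) :
    τ a b ≤ τ a (l9aVx τ a b) := by
  have hne : a ≠ b := by
    intro h
    rw [← h, hτ.diag a ha] at hab
    omega
  have hmaxmem : max a b ∈ {s | τ a b ≤ τ a s ∧ ∃ y, y < s ∧ τ s y = τ a b} := by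
    rcases lt_or_gt_of_ne hne with h | h
    · rw [max_eq_right h.le]
      exact ⟨le_rfl, a, h, by rw [hτ.symm b a hb ha]⟩
    · rw [max_eq_left h.le]
      exact ⟨by rw [hτ.diag a ha]; omega, b, h, rfl⟩
  exact (Nat.sInf_mem (s := {s | τ a b ≤ τ a s ∧ ∃ y, y < s ∧ τ s y = τ a b}) ⟨_, hmaxmem⟩).1

/-- a leaf of a pair passes through the fork of the pair -/
theorem L9aOk.l13z_thru {N r : ℕ} {χ : L9aChart r} {c : Fin r → Fin (N + 2)} (h : L9aOk N χ c) {a b s : Fin r}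
    (hs : χ.1 a b = some s) : l9aRec χ c a b ≤ l9aRec χ c a s := by
  have h1 := congrArg (fun χ : L9aChart r => χ.1 a b) h.2.1
  simp only [l9aCh] at h1
  rw [hs] at h1
  by_cases e : l9aRec χ c a b = N + 1
  · rw [if_pos e] at h1
    exact absurd h1 (by simp)
  · rw [if_neg e] at h1
    have hle := h.isTr.le a b a.2 b.2
    have hN : l9aRec χ c a b ≤ N := by omega
    obtain ⟨v1, _, _⟩ := l9a_vx_spec h.isTr a.2 b.2 hN
    rw [dif_pos v1] at h1
    have h2 : (⟨l9aVx (l9aRec χ c) a b, v1⟩ : Fin r) = s := Option.some.inj h1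
    have h3 := l13z_vx_mem h.isTr a.2 b.2 hN
    rw [← h2]
    exact h3

variable {j N : ℕ}

theorem l13z_gl_des (χ : L9aChart (2 * j)) (v : L9cI χ → Fin (N + 2)) (o : L9cO N χ) (s : L9cI χ) : l9cGl χ v o s.1 = v s := by
  unfold l9cGl
  rw [dif_pos s.2]

theorem l13z_gl_self (χ : L9aChart (2 * j)) (cc : Fin (2 * j) → Fin (N + 2)) :
    l9cGl χ (fun s : L9cI χ => cc s.1) (fun s => cc s.1) = cc := by
  funext s
  unfold l9cGl
  split_ifs <;> rfl

theorem l13z_gl_update (χ : L9aChart (2 * j)) (v : L9cI χ → Fin (N + 2)) (o : L9cO N χ) (s0 : L9cI χ) (t : Fin (N + 2)) :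
    l9cGl χ (Function.update v s0 t) o = Function.update (l9cGl χ v o) s0.1 t := by
  funext s
  by_cases hs : s = s0.1
  · subst hs
    rw [Function.update_self, l13z_gl_des, Function.update_self]
  · rw [Function.update_of_ne hs]
    unfold l9cGl
    split_ifs with h
    · rw [Function.update_of_ne (fun h' => hs (congrArg Subtype.val h'))]
    · rfl

/-- the chart entry of a pair -/
theorem l13z_sg_some (χ : L9aChart (2 * j)) (i : Fin j) (hi : (χ.1 (l9cL i) (l9cR i)).isSome) :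
    χ.1 (l9cL i) (l9cR i) = some (l9cSg χ i) := by
  unfold l9cSg
  obtain ⟨s, hs⟩ := Option.isSome_iff_exists.mp hi
  rw [hs]; rfl

/-- the split depth of a pair is the coordinate of its fork -/
theorem l13z_rec_pair (χ : L9aChart (2 * j)) (c : Fin (2 * j) → Fin (N + 2)) (i : Fin j) (hi : (χ.1 (l9cL i) (l9cR i)).isSome) :
    l9aRec χ c (l9cL i).1 (l9cR i).1 = c (l9cSg χ i) := by
  rw [l9a_rec_apply, l13z_sg_some χ i hi]; rfl

/-- an entry which is not the moving fork does not move -/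
theorem l13z_rec_fixed (χ : L9aChart (2 * j)) (c : Fin (2 * j) → Fin (N + 2)) (s0 : Fin (2 * j)) (t t' : Fin (N + 2)) (a b : Fin (2 * j))
    (h : χ.1 a b ≠ some s0) : l9aRec χ (Function.update c s0 t) a.1 b.1 = l9aRec χ (Function.update c s0 t') a.1 b.1 := by
  rw [l9a_rec_apply, l9a_rec_apply]
  cases hx : χ.1 a b with
  | none => rfl
  | some s =>
    have hs : s ≠ s0 := fun h' => h (by rw [hx, h'])
    simp only [l9aVal, Function.update_of_ne hs]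

/-- two pairs with the same fork pass through the same vertex of the tree -/
theorem L9aOk.l13z_same {χ : L9aChart (2 * j)} {c : Fin (2 * j) → Fin (N + 2)} (h : L9aOk N χ c) (i i' : Fin j)
    (hi : (χ.1 (l9cL i) (l9cR i)).isSome) (hi' : (χ.1 (l9cL i') (l9cR i')).isSome) (hs : l9cSg χ i = l9cSg χ i') :
    (c (l9cSg χ i) : ℕ) ≤ l9aRec χ c (l9cL i).1 (l9cL i').1 := by
  have h1 := h.l13z_thru (l13z_sg_some χ i hi)
  have h2 := h.l13z_thru (l13z_sg_some χ i' hi')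
  rw [l13z_rec_pair χ c i hi] at h1
  rw [l13z_rec_pair χ c i' hi', ← hs] at h2
  have hu := h.isTr.ultra (l9cL i).1 (l9cSg χ i).1 (l9cL i').1 (l9cL i).2 (l9cSg χ i).2 (l9cL i').2
  have hsy := h.isTr.symm (l9cSg χ i).1 (l9cL i').1 (l9cSg χ i).2 (l9cL i').2
  omega

end dict

/-! ## 4. The link of the table level with the two single paths; the representation -/
section table

variable {S : Type} [Fintype S] [Inhabited S] {D : L9cD S} {T : L9cT} {χ : L9aChart (2 * T.j)}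
variable {Ω : Type} [mΩ : MeasurableSpace Ω] {m : ℕ} {P : Bool → L8P Ω m} {Tl : Bool → L8L Ω} {sp : Ω → S}

/-- **THE LINK**: the positive laws of the two jet contexts `D.X e` on `r` labels are the spin marginals of consistent families `Tl e` of path laws (helper234's `L8LRep`; SK instance: L08/LsInst)
whose single and fork laws are those of the single paths `P e` (`I.sp e` of L08/Defs); above `x` nothing is masked; the centring of helper30 is the untilted `S`. -/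
structure L13zLk (D : L9cD S) (P : Bool → L8P Ω m) (Tl : Bool → L8L Ω) (sp : Ω → S) (r : ℕ) : Prop where
  ok : ∀ e, (P e).Ok
  rep : ∀ e, L8LRep (D.X e) (Tl e) sp r
  mu : ∀ e, (Tl e).μ = (P e).μ
  fork : ∀ e l, (Tl e).fork l = (P e).fork l
  hn : ∀ e, (P e).n = D.N
  ov : ∀ e x, (D.X e).ov (sp x.1) (sp x.2) = (P e).Q x
  msk : ∀ e t, D.rg t → ¬ D.lw t → (D.X e).msk t = 1
  Sf : ∀ t, D.rg t → ¬ D.lw t → D.Sf t = (P false).S t

/-- the centring is admissible -/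
theorem l13z_cen_S (P : L8P Ω m) (h : P.Ok) : L13zCen P.S := fun k => ⟨P.l8s_S_nonneg k, P.l8s_S_le_one h k⟩

/-- the factor `δ` of helper30 on two paths = the terminal version centred at the untilted mean -/
theorem L13zLk.dl_eq {r : ℕ} (Lk : L13zLk D P Tl sp r) (e : Bool) {t : ℕ} (h1 : D.rg t) (h2 : ¬ D.lw t) (x : Ω × Ω) :
    D.dl e t (sp x.1) (sp x.2) = (P e).l13zV (P false).S t (.pair (D.N + 1) (D.N + 1)) x := by
  have h := (P e).l13z_V_term (Lk.ok e) (P false).S t x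
  rw [Lk.hn e] at h
  rw [h, L9cD.dl, Lk.msk e t h1 h2, Lk.ov e x, Lk.Sf t h1 h2, one_mul]

/-- the product of the stochastic factors as a spin test -/
def l13zPf (D : L9cD S) (T : L9cT) (χ : L9aChart (2 * T.j)) (e : Bool) (v : L9cI χ → Fin (D.N + 2)) (σ : ℕ → S) : ℝ :=
  ∏ i ∈ univ.filter (fun i : Fin T.j => (i : ℕ) ∈ T.St), D.dl e (v (l9cSi χ i)) (σ (2 * i)) (σ (2 * i + 1))

theorem l13z_pf_uses (e : Bool) (v : L9cI χ → Fin (D.N + 2)) : TrUses (2 * T.j) (l13zPf D T χ e v) := by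
  intro σ σ' h
  unfold l13zPf
  refine Finset.prod_congr rfl fun i _ => ?_
  rw [h (2 * i) (by omega), h (2 * i + 1) (by omega)]

theorem l13z_ext_L {n : ℕ} (ω : Fin (2 * n) → S) (i : Fin n) : trExt ω (2 * i) = ω (l9cL i) := by
  unfold trExt
  rw [dif_pos (by omega)]; rfl

theorem l13z_ext_R {n : ℕ} (ω : Fin (2 * n) → S) (i : Fin n) : trExt ω (2 * i + 1) = ω (l9cR i) := by
  unfold trExt
  rw [dif_pos (by omega)]; rfl

/-- **the representation of one chart of one term** -/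
noncomputable def l13zRp (hD : D.Ok) (hT : T.Ok D) (hχ : L9cGood T χ) (Lk : L13zLk D P Tl sp (2 * T.j))
    (hhi : ∀ i t, i < T.j → T.V i t → ¬ D.lw t) : L13zRep (l9cFc hD hT hχ) P (P false).S (2 * T.j) where
  lev := fun k => k.1
  la := l9cL
  lb := l9cR
  c1 := fun _ => D.N + 1
  c2 := fun _ => D.N + 1
  ν := fun e v o => ((Tl e).law (l9aRec χ (l9cGl χ v o))).map (l13zPr (2 * T.j))
  sh := fun v o a b => l9aRec χ (l9cGl χ v o) a.1 b.1
  tree := fun e v o h => by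
    have htr := (l9c_supp_ok h).isTr
    refine l13z_tree_of_L8L (Lk.rep e).ok (Lk.mu e) (Lk.fork e) ?_ (le_of_eq (Lk.rep e).hr.symm)
    rw [(Lk.rep e).hV, hD.N_eq e]
    exact htr
  ne := fun i _ h => by
    have := congrArg Fin.val h
    simp only [l9cL, l9cR] at this
    omega
  split := fun v o _ i _ => by
    show l9aRec χ (l9cGl χ v o) (l9cL i).1 (l9cR i).1 = (v (l9cSi χ i)).1
    rw [l13z_rec_pair χ _ i (hχ.1 i)]
    exact congrArg Fin.val (l13z_gl_des χ v o (l9cSi χ i))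
  cut := fun v o _ i _ => by
    have := (v (l9cSi χ i)).2
    exact ⟨by show (v (l9cSi χ i)).1 ≤ D.N + 1; omega, by show (v (l9cSi χ i)).1 ≤ D.N + 1; omega⟩
  rep := fun e v o h => by
    have htr := (l9c_supp_ok h).isTr
    have e1 : (l9cFc hD hT hχ).zMst e v o = (D.X e).nu (2 * T.j) (l9aRec χ (l9cGl χ v o)) (l13zPf D T χ e v) := by
      rw [l9c_w_rep hD e htr]
      unfold L13Fac.zMst
      refine Finset.sum_congr rfl fun ω _ => ?_
      congr 1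
      unfold l13zPf
      refine Finset.prod_congr rfl fun i hi => ?_
      have hi' := (mem_filter.mp hi).2
      show l9cX D T χ e v i ω = _
      unfold l9cX
      rw [if_pos hi', l13z_ext_L, l13z_ext_R]
    have hm : Measurable fun w : Fin (2 * T.j) → Ω => ∏ i ∈ (l9cFc hD hT hχ).St,
        (P e).l13zV (P false).S (v (l9cSi χ i)).1 (.pair (D.N + 1) (D.N + 1)) (w (l9cL i), w (l9cR i)) :=
      Finset.measurable_prod _ fun i _ => ((P e).l13z_V_meas (Lk.ok e) _ _ _).comp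
        ((measurable_pi_apply _).prodMk (measurable_pi_apply _))
    rw [e1, (Lk.rep e).rep _ (by rw [hD.N_eq e]; exact htr) _ (l13z_pf_uses e v)]
    show _ = ∫ w, ∏ i ∈ (l9cFc hD hT hχ).St,
        (P e).l13zV (P false).S (v (l9cSi χ i)).1 (.pair (D.N + 1) (D.N + 1)) (w (l9cL i), w (l9cR i))
        ∂(((Tl e).law (l9aRec χ (l9cGl χ v o))).map (l13zPr (2 * T.j)))
    rw [integral_map (l13z_pr_meas _).aemeasurable hm.aestronglyMeasurable]
    congr 1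
    funext w
    unfold l13zPf
    refine Finset.prod_congr rfl fun i _ => ?_
    have hV := l9c_supp_V hD hT hχ h i
    exact Lk.dl_eq e (hT.hV i _ i.2 hV).1 (hhi i _ i.2 hV) (w (2 * i), w (2 * i + 1))

/-! ### the numbers -/

open Classical in
/-- **THE NUMBERS of LL08 in the vocabulary of helper30's `L9cD`** (bands `{t : rg t, sc t = a, not lw t}`, weights `μ_t = l9aMu ms t`, envelope `env`), both ensembles, centring = untilted:
`mom` = (D2) for all the versions;   `d10` = (D10) with the tilt conventions (`a > 1`), low linear bound after (D9) (`a = 1`, `n = 1`);   `d7c` = (D7) line 2.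
PRODUCER on the SK objects: fields `ref_*`, `d10`, `d10_low`, `d7_C` of `L8In.Rnd` (helper75, L08/Defs) + `L13CC.center_vertex` (helper30). -/
structure L13zNb (D : L9cD S) (P : Bool → L8P Ω m) (jm : ℕ) (K10 Kc : ℝ) : Prop where
  K10_nonneg : 0 ≤ K10
  Kc_nonneg : 0 ≤ Kc
  mom : ∀ e t, D.rg t → ¬ D.lw t → ∀ u : L8cVer, u.Valid t →
    ∫ x, |(P e).l13zV (P false).S t u x| ^ D.p0 ∂((P e).fork t) ≤ (D.Lm * D.env t) ^ D.p0
  d10 : ∀ (e : Bool) (a : ℝ) (k n : ℕ), 1 ≤ a → 1 ≤ n → n ≤ k → k ≤ jm → (1 < a ∨ n = 1) → ∀ g : ℕ → ℝ,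
    (∀ t, g t ≠ 0 → D.rg t ∧ D.sc t = a ∧ ¬ D.lw t ∧ |g t| ≤ l9aMu D.ms t / (a * D.Sc.Y) * D.env t ^ (k - n)) →
    ∫ ω, (∑ t ∈ range (D.N + 2), g t * ((P e).l13zT (P false).S t ω ^ n
        - ∫ ω', (P false).l13zT (P false).S t ω' ^ n ∂(P false).μ)) ^ 2 ∂(P e).μ
      ≤ (K10 * (D.Sc.gB / a * l13_P D.Sc.Y (a * D.Sc.Y) k)) ^ 2
  d7c : ∀ (e : Bool) (a : ℝ), 1 < a →
    ∑ t ∈ (range (D.N + 1)).filter (fun t => D.rg t ∧ D.sc t = a ∧ ¬ D.lw t), l9aMu D.ms t * (P e).l13zC t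
      ≤ (a * D.Sc.Y) * (Kc * (D.Sc.gB / a * (D.Sc.Y ^ 2 / (a * D.Sc.Y)))) ^ 2

/-- the allowed depths of a vertex -/
theorem l13z_nu_ne (hT : T.Ok D) (hhi : ∀ i t, i < T.j → T.V i t → ¬ D.lw t) {s : L9cI χ} {k : Fin (D.N + 2)} (h : l9cNu D T χ s k ≠ 0) :
    (∀ i : Fin T.j, l9cSi χ i = s → T.V i k) ∧ D.rg k ∧ D.sc k = l9cAv T χ s ∧ ¬ D.lw k := by
  have hc : ∀ i : Fin T.j, l9cSi χ i = s → T.V i k := by
    by_contra hn
    exact h (by unfold l9cNu; rw [if_neg hn])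
  exact ⟨hc, (l9c_nu_cond hT hc).1, (l9c_nu_cond hT hc).2, hhi _ _ (l9cPr χ s).2 (hc _ (l9c_pr_spec χ s))⟩

theorem l13z_nu_eq {s : L9cI χ} {k : Fin (D.N + 2)} (hc : ∀ i : Fin T.j, l9cSi χ i = s → T.V i k) :
    l9cNu D T χ s k = l9aMu D.ms k / (l9cAv T χ s * D.Sc.Y) := by
  unfold l9cNu; rw [if_pos hc]

/-- (D2) on the chart -/
theorem L13zNb.mom_chart {jm : ℕ} {K10 Kc : ℝ} (Nb : L13zNb D P jm K10 Kc) (hD : D.Ok) (hT : T.Ok D) (hχ : L9cGood T χ)
    (hhi : ∀ i t, i < T.j → T.V i t → ¬ D.lw t) :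
    L13zMom (l9cCC hD hT hχ) P (P false).S (fun k : Fin (D.N + 2) => k.1) D.Lm D.p0 := by
  intro s e j hj u hu
  obtain ⟨_, h1, _, h2⟩ := l13z_nu_ne hT hhi (s := s) (k := j) hj
  exact Nb.mom e j h1 h2 u hu

/-- (D7) line 2 on the chart -/
theorem L13zNb.d7c_chart {jm : ℕ} {K10 Kc : ℝ} (Nb : L13zNb D P jm K10 Kc) (hP : ∀ e, (P e).Ok) (hD : D.Ok) (hT : T.Ok D)
    (hhi : ∀ i t, i < T.j → T.V i t → ¬ D.lw t) (s : L9cI χ) (ha : 1 < l9cAv T χ s) (e : Bool) :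
    ∑ j : Fin (D.N + 2), l9cNu D T χ s j * (P e).l13zC j.1
      ≤ (Kc * (D.Sc.gB / l9cAv T χ s * (D.Sc.Y ^ 2 / (l9cAv T χ s * D.Sc.Y)))) ^ 2 := by
  classical
  set a : ℝ := l9cAv T χ s with ha'
  have hr : 0 < a * D.Sc.Y := mul_pos (by linarith) D.Sc.Y_pos
  have h1 := l9c_band_sum hD (fun t => ∀ i : Fin T.j, l9cSi χ i = s → T.V i t) (fun t => D.rg t ∧ D.sc t = a ∧ ¬ D.lw t)
    (fun t ht => by
      have h2 := hT.hV _ _ (l9cPr χ s).2 (ht _ (l9c_pr_spec χ s))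
      exact ⟨⟨h2.1, h2.2, hhi _ _ (l9cPr χ s).2 (ht _ (l9c_pr_spec χ s))⟩, hD.rgN t h2.1⟩)
    (fun t => (P e).l13zC t) (fun t => (P e).l13z_C_nonneg (hP e) t)
  have h2 := h1.trans (le_trans (le_of_eq (by
    refine Finset.sum_congr ?_ fun _ _ => rfl
    ext t
    simp only [Finset.mem_filter])) (Nb.d7c e a ha))
  have h3 := (div_le_iff₀ hr).mpr (h2.trans (le_of_eq (mul_comm _ _)))
  refine le_trans (le_of_eq ?_) h3
  rw [Finset.sum_div]
  refine Finset.sum_congr rfl fun k _ => ?_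
  by_cases hc : ∀ i : Fin T.j, l9cSi χ i = s → T.V i k
  · rw [if_pos hc, l13z_nu_eq hc, ← ha']; ring
  · rw [if_neg hc]
    unfold l9cNu
    rw [if_neg hc]; simp

/-- the number of stochastic pairs -/
theorem l13z_card_St (hT : T.Ok D) : (univ.filter fun i : Fin T.j => (i : ℕ) ∈ T.St).card = T.St.card := by
  rw [← Finset.card_map Fin.valEmbedding]
  congr 1
  ext x
  simp only [Finset.mem_map, Finset.mem_filter, Finset.mem_univ, true_and, Fin.valEmbedding_apply]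
  constructor
  · rintro ⟨i, hi, rfl⟩; exact hi
  · intro hx
    exact ⟨⟨x, Finset.mem_range.mp (hT.hSt hx)⟩, hx, rfl⟩

/-- (D10) on the chart: sums over `Fin (N + 2)` -/
theorem L13zNb.d10_chart {jm : ℕ} {K10 Kc : ℝ} (Nb : L13zNb D P jm K10 Kc) (hT : T.Ok D)
    (hhi : ∀ i t, i < T.j → T.V i t → ¬ D.lw t) (s : L9cI χ) (e : Bool) (k n : ℕ) (hn : 1 ≤ n) (hnk : n ≤ k) (hk : k ≤ jm)
    (han : 1 < l9cAv T χ s ∨ n = 1) (g : Fin (D.N + 2) → ℝ) (hg : ∀ j, |g j| ≤ l9cNu D T χ s j * D.env j ^ (k - n)) :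
    ∫ ω, (∑ j : Fin (D.N + 2), g j * ((P e).l13zT (P false).S j.1 ω ^ n
        - ∫ ω', (P false).l13zT (P false).S j.1 ω' ^ n ∂(P false).μ)) ^ 2 ∂(P e).μ
      ≤ (K10 * (D.Sc.gB / l9cAv T χ s * l13_P D.Sc.Y (l9cAv T χ s * D.Sc.Y) k)) ^ 2 := by
  set g' : ℕ → ℝ := fun t => if h : t < D.N + 2 then g ⟨t, h⟩ else 0 with hg'
  have hgg : ∀ j : Fin (D.N + 2), g' j.1 = g j := fun j => by simp only [hg', dif_pos j.2]
  have key := Nb.d10 e (l9cAv T χ s) k n (hT.ha1 _ (l9cPr χ s).2) hn hnk hk han g' (by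
    intro t ht
    by_cases h : t < D.N + 2
    · have e1 : g' t = g ⟨t, h⟩ := hgg ⟨t, h⟩
      rw [e1] at ht ⊢
      have hν : l9cNu D T χ s ⟨t, h⟩ ≠ 0 := by
        intro h0
        have := hg ⟨t, h⟩
        rw [h0, zero_mul] at this
        exact ht (abs_nonpos_iff.mp this)
      obtain ⟨hc, h1, h2, h3⟩ := l13z_nu_ne hT hhi hν
      refine ⟨h1, h2, h3, ?_⟩
      have := hg ⟨t, h⟩
      rwa [l13z_nu_eq hc] at this
    · exact absurd (by simp only [hg', dif_neg h]) ht)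
  refine le_trans (le_of_eq ?_) key
  congr 1
  funext ω
  congr 1
  rw [← Fin.sum_univ_eq_sum_range (fun t => g' t * ((P e).l13zT (P false).S t ω ^ n
        - ∫ ω', (P false).l13zT (P false).S t ω' ^ n ∂(P false).μ)) (D.N + 2)]
  exact Finset.sum_congr rfl fun j _ => by rw [hgg j]

/-! ### from the abstract form to the table form -/

/-- **`Zhyp` on the chart gives the table form of the centred estimate** (converse of `l9c_zhyp` of helper30) -/
theorem l13z_cen_of (hD : D.Ok) (hT : T.Ok D) (hχ : L9cGood T χ) (i0 : Fin T.j) (G : JtTopo → ℝ)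
    (Tf : (L9cI χ → Fin (D.N + 2)) → L9cO D.N χ → ℝ) (hG : ∀ v o, L9aOk D.N χ (l9cGl χ v o) → Tf v o = G (l9aRec χ (l9cGl χ v o)))
    (Kz err : ℝ) (hZ : (l9cCC hD hT hχ).Zhyp (l9cSi χ i0) Tf Kz err) : L9cCen D T χ i0 G Kz err := by
  intro cc c hc
  set v : L9cI χ → Fin (D.N + 2) := fun s => cc s.1 with hv
  set o : L9cO D.N χ := fun s => cc s.1 with ho
  have hup : ∀ t, l9cGl χ (Function.update v (l9cSi χ i0) t) o = Function.update cc (l9cSg χ i0) t := by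
    intro t
    rw [l13z_gl_update, hv, ho, l13z_gl_self]
    rfl
  have hc1 : ∀ t, |c t| ≤ (l9cCC hD hT hχ).nu (l9cSi χ i0) t := by
    intro t
    by_cases h0 : c t = 0
    · rw [h0, abs_zero]; exact (l9cCC hD hT hχ).hnu0 _ _
    · obtain ⟨h1, h2, h3⟩ := hc t h0
      have hcond : ∀ i : Fin T.j, l9cSi χ i = l9cSi χ i0 → T.V i t := by
        intro i hi
        have h4 := hT.supp _ h2.1 h3 i i.2
        have h5 : l9cDp (l9aRec χ (Function.update cc (l9cSg χ i0) t)) i = t := by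
          have h6 := l13z_rec_pair χ (Function.update cc (l9cSg χ i0) t) i (hχ.1 i)
          have h7 : l9cSg χ i = l9cSg χ i0 := congrArg Subtype.val hi
          rw [h7, Function.update_self] at h6
          exact h6
        rwa [h5] at h4
      show |c t| ≤ l9cNu D T χ (l9cSi χ i0) t
      rw [l13z_nu_eq hcond, l9c_av_eq hχ]
      exact h1
  have hc2 : ∀ t, (l9cCC hD hT hχ).H (Function.update v (l9cSi χ i0) t) o = 0 → c t = 0 := by
    intro t h0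
    by_contra hne
    obtain ⟨_, h2, h3⟩ := hc t hne
    apply h3
    have : l9cHc D T χ (Function.update v (l9cSi χ i0) t) o = 0 := h0
    unfold l9cHc at this
    rw [hup t, if_pos h2] at this
    exact this
  have key := hZ v o c hc1 hc2
  have e1 : ∑ t, c t * G (l9aRec χ (Function.update cc (l9cSg χ i0) t)) = ∑ t, c t * Tf (Function.update v (l9cSi χ i0) t) o := by
    refine Finset.sum_congr rfl fun t _ => ?_
    by_cases h0 : c t = 0
    · rw [h0, zero_mul, zero_mul]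
    · rw [hG _ _ (by rw [hup t]; exact (hc t h0).2.1), hup t]
  have e2 : ∏ s ∈ Finset.univ.erase (l9cSi χ i0), (l9cCC hD hT hχ).env s (v s) ^ ((l9cCC hD hT hχ).k s)
      = ∏ i ∈ univ.filter (fun i => l9cSg χ i ≠ l9cSg χ i0), D.env (cc (l9cSg χ i)) := by
    have h := (l9cFc hD hT hχ).z_env_prod (l9cSi χ i0) v 1
    simp only [one_mul, one_pow] at h
    rw [← h]
    refine Finset.prod_congr ?_ fun i _ => rfl
    ext i
    simp only [Finset.mem_filter, Finset.mem_univ, true_and]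
    exact not_congr Subtype.ext_iff
  have e3 : (l9cCC hD hT hχ).k (l9cSi χ i0) = (univ.filter fun i => l9cSg χ i = l9cSg χ i0).card := by
    show l9cKv T χ (l9cSi χ i0) = _
    unfold l9cKv
    congr 1
    ext i
    simp only [Finset.mem_filter, Finset.mem_univ, true_and]
    exact Subtype.ext_iff
  have e4 : (l9cCC hD hT hχ).a (l9cSi χ i0) = T.a i0 := l9c_av_eq hχ i0
  rw [e1]
  rw [e2, e3, e4] at key
  exact key

/-- the constant of the centred estimates -/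
noncomputable def l13zKz (D : L9cD S) (T : L9cT) (K10 Kc Tt : ℝ) : ℝ := (D.Lo * Tt) ^ T.j * (K10 + 24 * T.j * Kc * D.LoC T ^ T.j)

/-- the truncation error of the centred estimates -/
noncomputable def l13zEr (D : L9cD S) (T : L9cT) (Tt : ℝ) : ℝ :=
  D.LoC T * max 1 D.M ^ T.j * (15 * 5 ^ T.j * ((T.j + 1) * (D.Lm / Tt) ^ D.p0))

theorem l13z_pow_le_max {M : ℝ} (hM : 0 ≤ M) {d n : ℕ} (hd : d ≤ n) : M ^ d ≤ max 1 M ^ n :=
  (pow_le_pow_left₀ hM (le_max_right 1 M) d).trans (pow_le_pow_right₀ (le_max_left 1 M) hd)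

theorem l13z_arith_A {Lm Lo Tt K10 Kc L : ℝ} {d n k j : ℕ} (hLm0 : 0 < Lm) (hLm : Lm ≤ Lo) (hLo : 1 ≤ Lo) (hTt : 1 ≤ Tt) (hK10 : 0 ≤ K10)
    (hKc : 0 ≤ Kc) (hL : 1 ≤ L) (hd : d ≤ j) (hn : n ≤ j) (hk : k ≤ j) :
    Lm ^ d * (K10 + 24 * n * Tt ^ (n - 1) * Kc * L ^ k) ≤ (Lo * Tt) ^ j * (K10 + 24 * j * Kc * L ^ j) := by
  have h1 : Lm ^ d ≤ Lo ^ j := (pow_le_pow_left₀ hLm0.le hLm d).trans (pow_le_pow_right₀ hLo hd)
  have hT1 : (1 : ℝ) ≤ Tt ^ j := one_le_pow₀ hTt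
  have hT2 : Tt ^ (n - 1) ≤ Tt ^ j := pow_le_pow_right₀ hTt (by omega)
  have hL2 : L ^ k ≤ L ^ j := pow_le_pow_right₀ hL hk
  have hn' : (n : ℝ) ≤ j := by exact_mod_cast hn
  have hL0 : 0 ≤ L ^ k := by positivity
  have hT0 : 0 ≤ Tt ^ (n - 1) := by positivity
  have h2 : K10 + 24 * n * Tt ^ (n - 1) * Kc * L ^ k ≤ Tt ^ j * (K10 + 24 * j * Kc * L ^ j) := by
    have a1 : K10 ≤ Tt ^ j * K10 := le_mul_of_one_le_left hK10 hT1
    have a2 : 24 * (n : ℝ) * Tt ^ (n - 1) * Kc * L ^ k ≤ 24 * (j : ℝ) * Tt ^ j * Kc * L ^ j := by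
      have b1 : 24 * (n : ℝ) * Tt ^ (n - 1) ≤ 24 * (j : ℝ) * Tt ^ j :=
        mul_le_mul (by linarith) hT2 hT0 (by positivity)
      exact mul_le_mul (mul_le_mul_of_nonneg_right b1 hKc) hL2 hL0 (by positivity)
    nlinarith
  calc Lm ^ d * (K10 + 24 * n * Tt ^ (n - 1) * Kc * L ^ k) ≤ Lo ^ j * (Tt ^ j * (K10 + 24 * j * Kc * L ^ j)) :=
        mul_le_mul h1 h2 (by positivity) (by positivity)
    _ = _ := by rw [mul_pow]; ring

theorem l13z_arith_C {Lo Tt K10 Kc L : ℝ} {d j : ℕ} (hLo : 1 ≤ Lo) (hTt : 1 ≤ Tt) (hK10 : 0 ≤ K10)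
    (hKc : 0 ≤ Kc) (hL : 1 ≤ L) (hd : d ≤ j) (hj : 1 ≤ j) :
    Tt ^ d * (K10 + 12 * Kc * L) ≤ (Lo * Tt) ^ j * (K10 + 24 * j * Kc * L ^ j) := by
  have h1 : Tt ^ d ≤ (Lo * Tt) ^ j :=
    (pow_le_pow_right₀ hTt hd).trans (pow_le_pow_left₀ (by linarith) (le_mul_of_one_le_left (by linarith) hLo) j)
  have hL2 : L ≤ L ^ j := le_self_pow₀ hL (by omega)
  have hj' : (1 : ℝ) ≤ j := by exact_mod_cast hj
  have h2 : K10 + 12 * Kc * L ≤ K10 + 24 * j * Kc * L ^ j := by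
    have : 12 * Kc * L ≤ 24 * (j : ℝ) * Kc * L ^ j :=
      mul_le_mul (by nlinarith) hL2 (by linarith) (by positivity)
    linarith
  exact mul_le_mul h1 h2 (by positivity) (by positivity)

/-- **EXIT A** (`L9cImpA` of helper30): all the stochastic factors at ONE vertex -/
theorem l13z_impA (hD : D.Ok) (hT : T.Ok D) (Lk : L13zLk D P Tl sp (2 * T.j)) (hhi : ∀ i t, i < T.j → T.V i t → ¬ D.lw t)
    {jm : ℕ} {K10 Kc : ℝ} (Nb : L13zNb D P jm K10 Kc) (hjm : T.j ≤ jm) {Tt : ℝ} (hTt : 1 ≤ Tt) :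
    L9cImpA D T (l13zKz D T K10 Kc Tt) (l13zEr D T Tt) := by
  intro χ hχ i1 hi1 hall han
  refine l13z_cen_of hD hT hχ i1 (D.dnum T) (l9cFc hD hT hχ).dT (fun v o h => ?_) _ _ ?_
  · unfold L13Fac.dT L9cD.dnum
    rw [l9c_T_eq hD hT hχ true v o h, l9c_T_eq hD hT hχ false v o h]
  · intro v o c hc1 hc2
    have hs0 : ∀ i ∈ (l9cFc hD hT hχ).St, (l9cFc hD hT hχ).sig i = l9cSi χ i1 := fun i hi =>
      Subtype.ext (hall i (mem_filter.mp hi).2)
    have hne : (l9cFc hD hT hχ).St.Nonempty := ⟨i1, mem_filter.mpr ⟨mem_univ _, hi1⟩⟩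
    have hcardSt : (l9cFc hD hT hχ).St.card = T.St.card := l13z_card_St hT
    have han' : 1 < l9cAv T χ (l9cSi χ i1) ∨ (l9cFc hD hT hχ).St.card = 1 := by
      rw [l9c_av_eq hχ, hcardSt]; exact han
    have hkj : (l9cCC hD hT hχ).k (l9cSi χ i1) ≤ T.j := by
      show l9cKv T χ (l9cSi χ i1) ≤ T.j
      unfold l9cKv
      exact (Finset.card_le_univ _).trans (le_of_eq (Fintype.card_fin _))
    have hnk : (l9cFc hD hT hχ).St.card ≤ (l9cCC hD hT hχ).k (l9cSi χ i1) := by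
      have := (l9cFc hD hT hχ).z_card_D0 (l9cSi χ i1) hs0
      omega
    have hanc : ∀ v o, (l9cCC hD hT hχ).H v o ≠ 0 → ∀ i ∈ (l9cFc hD hT hχ).St, ∀ i' ∈ (l9cFc hD hT hχ).St,
        (l13zRp hD hT hχ Lk hhi).la i = (l13zRp hD hT hχ Lk hhi).la i' ∨
          (l13zRp hD hT hχ Lk hhi).lev (v (l9cSi χ i1)) ≤ (l13zRp hD hT hχ Lk hhi).sh v o ((l13zRp hD hT hχ Lk hhi).la i) ((l13zRp hD hT hχ Lk hhi).la i') := by
      intro v o h i hi i' hi'
      right
      have hok := l9c_supp_ok h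
      have h1 := hok.l13z_same i i' (hχ.1 i) (hχ.1 i')
        (by rw [hall i (mem_filter.mp hi).2, hall i' (mem_filter.mp hi').2])
      have h2 : l9cGl χ v o (l9cSg χ i) = v (l9cSi χ i1) := by
        rw [hall i (mem_filter.mp hi).2]
        exact l13z_gl_des χ v o (l9cSi χ i1)
      rw [h2] at h1
      exact h1
    have key := (l13zRp hD hT hχ Lk hhi).zA' Lk.ok (l13z_cen_S _ (Lk.ok false)) (l9cSi χ i1) hs0 hne hanc
      (Nb.mom_chart hD hT hχ hhi) (lt_of_lt_of_le one_pos hTt) Nb.K10_nonneg Nb.Kc_nonneg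
      (fun g hg => Nb.d10_chart hT hhi (l9cSi χ i1) true _ _ (Finset.card_pos.mpr hne) hnk (hkj.trans hjm) han' g hg)
      (fun h1 e => Nb.d7c_chart Lk.ok hD hT hhi (l9cSi χ i1) (han'.resolve_right h1) e) v o c hc1 hc2
    refine key.trans ?_
    have hG0 : 0 ≤ (l9cCC hD hT hχ).S.gB / (l9cCC hD hT hχ).a (l9cSi χ i1)
        * l13_P (l9cCC hD hT hχ).S.Y ((l9cCC hD hT hχ).a (l9cSi χ i1) * (l9cCC hD hT hχ).S.Y) ((l9cCC hD hT hχ).k (l9cSi χ i1)) :=
      mul_nonneg (div_pos (l9cCC hD hT hχ).S.gB_pos ((l9cCC hD hT hχ).a_pos _)).le (l13_P_nonneg ((l9cCC hD hT hχ).r_pos _).le _)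
    have hE0 : 0 ≤ ∏ s ∈ Finset.univ.erase (l9cSi χ i1), (l9cCC hD hT hχ).env s (v s) ^ ((l9cCC hD hT hχ).k s) :=
      Finset.prod_nonneg fun s _ => pow_nonneg ((l9cCC hD hT hχ).henv0 s _) _
    have hdj : (l9cFc hD hT hχ).Stᶜ.card ≤ T.j := (Finset.card_le_univ _).trans (le_of_eq (Fintype.card_fin _))
    have hnj : (l9cFc hD hT hχ).St.card ≤ T.j := (Finset.card_le_univ _).trans (le_of_eq (Fintype.card_fin _))
    have hLoC : (1 : ℝ) ≤ (l9cCC hD hT hχ).Lo := (l9cCC hD hT hχ).hLo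
    have hq0 : 0 ≤ (D.Lm / Tt) ^ D.p0 := pow_nonneg (div_nonneg hD.hLm0.le (by linarith)) _
    refine add_le_add ?_ ?_
    · refine mul_le_mul_of_nonneg_right (mul_le_mul_of_nonneg_right ?_ hG0) hE0
      exact l13z_arith_A hD.hLm0 hD.hLm hD.hLo hTt Nb.K10_nonneg Nb.Kc_nonneg hLoC hdj hnj hkj
    · show D.LoC T * D.M ^ (l9cFc hD hT hχ).Stᶜ.card * (4 * 5 ^ (l9cFc hD hT hχ).St.card * (((l9cFc hD hT hχ).St.card + 1) * (D.Lm / Tt) ^ D.p0))
        ≤ l13zEr D T Tt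
      unfold l13zEr
      have hL0 : 0 ≤ D.LoC T := le_trans zero_le_one hLoC
      have h5 : (5 : ℝ) ^ (l9cFc hD hT hχ).St.card ≤ 5 ^ T.j := pow_le_pow_right₀ (by norm_num) hnj
      have hn' : ((l9cFc hD hT hχ).St.card : ℝ) ≤ T.j := by exact_mod_cast hnj
      refine mul_le_mul (mul_le_mul_of_nonneg_left (l13z_pow_le_max hD.hM0 hdj) hL0) ?_ (by positivity) (by positivity)
      refine mul_le_mul (by nlinarith [pow_pos (show (0:ℝ) < 5 by norm_num) (l9cFc hD hT hχ).St.card]) ?_ (by positivity) (by positivity)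
      exact mul_le_mul_of_nonneg_right (by linarith) hq0

/-! ### case C: the fixed marginal on a chart -/

/-- an entry of the table which does not see the moving fork `s0` -/
def L13zFxd (χ : L9aChart (2 * T.j)) (s0 x y : Fin (2 * T.j)) : Prop := x = y ∨ χ.1 x y ≠ some s0 ∨ χ.1 y x ≠ some s0

theorem L13zFxd.eq {N : ℕ} {s0 x y : Fin (2 * T.j)} (h : L13zFxd χ s0 x y) (c : Fin (2 * T.j) → Fin (N + 2)) (t t' : Fin (N + 2))
    (h1 : IsTr N (2 * T.j) (l9aRec χ (Function.update c s0 t))) (h2 : IsTr N (2 * T.j) (l9aRec χ (Function.update c s0 t'))) :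
    l9aRec χ (Function.update c s0 t) x.1 y.1 = l9aRec χ (Function.update c s0 t') x.1 y.1 ∧
      l9aRec χ (Function.update c s0 t) y.1 x.1 = l9aRec χ (Function.update c s0 t') y.1 x.1 := by
  rcases h with h | h | h
  · subst h
    rw [h1.diag x.1 x.2, h2.diag x.1 x.2]
    exact ⟨rfl, rfl⟩
  · have e := l13z_rec_fixed χ c s0 t t' x y h
    exact ⟨e, by rw [h1.symm y.1 x.1 y.2 x.2, h2.symm y.1 x.1 y.2 x.2, e]⟩
  · have e := l13z_rec_fixed χ c s0 t t' y x h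
    exact ⟨by rw [h1.symm x.1 y.1 x.2 y.2, h2.symm x.1 y.1 x.2 y.2, e], e⟩

/-- builder of the fixed marginal -/
noncomputable def l13zFx (hD : D.Ok) (hT : T.Ok D) (hχ : L9cGood T χ) (Lk : L13zLk D P Tl sp (2 * T.j))
    (hhi : ∀ i t, i < T.j → T.V i t → ¬ D.lw t) (i0 : Fin T.j) (a1 b1 pL : Fin (2 * T.j))
    (lab : ∀ i ∈ (l9cFc hD hT hχ).St, i ≠ i0 → l9cL i = a1 ∧ l9cR i = b1)
    (thru : l9cL i0 = pL ∨ χ.1 (l9cL i0) pL = some (l9cSg χ i0))
    (f1 : L13zFxd χ (l9cSg χ i0) a1 b1) (f2 : L13zFxd χ (l9cSg χ i0) a1 pL) (f3 : L13zFxd χ (l9cSg χ i0) b1 pL) :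
    L13zFix (l13zRp hD hT hχ Lk hhi) (l9cSi χ i0) i0 where
  a1 := a1
  b1 := b1
  pL := pL
  lab := lab
  thru := fun v o _ => by
    rcases thru with h | h
    · exact Or.inl h
    · right
      show (v (l9cSi χ i0)).1 ≤ l9aRec χ (l9cGl χ v o) (l9cL i0).1 pL.1
      rw [l9a_rec_apply, h]
      show (v (l9cSi χ i0)).1 ≤ (l9cGl χ v o (l9cSg χ i0)).1
      exact le_of_eq (congrArg Fin.val (l13z_gl_des χ v o (l9cSi χ i0)).symm)
  fix := fun e v o j j' h h' F hF hb => by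
    have t1 := (l9c_supp_ok h).isTr
    have t2 := (l9c_supp_ok h').isTr
    have hV : ∀ τ, IsTr D.N (2 * T.j) τ → (Tl e).V τ := fun τ hτ => by
      rw [(Lk.rep e).hV, hD.N_eq e]; exact hτ
    have hV1 := hV _ t1
    have hV2 := hV _ t2
    show ∫ w, F (w a1, w b1, w pL) ∂(((Tl e).law (l9aRec χ (l9cGl χ (Function.update v (l9cSi χ i0) j) o))).map (l13zPr (2 * T.j)))
      = ∫ w, F (w a1, w b1, w pL) ∂(((Tl e).law (l9aRec χ (l9cGl χ (Function.update v (l9cSi χ i0) j') o))).map (l13zPr (2 * T.j)))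
    rw [l13z_gl_update] at t1 hV1 ⊢
    rw [l13z_gl_update] at t2 hV2 ⊢
    have g1 := f1.eq (l9cGl χ v o) j j' t1 t2
    have g2 := f2.eq (l9cGl χ v o) j j' t1 t2
    have g3 := f3.eq (l9cGl χ v o) j j' t1 t2
    exact l13z_fix_of_L8L (Lk.rep e).ok hV1 hV2 a1 b1 pL g1.1 g1.2 g2.1 g2.2 g3.1 g3.2 F hF hb

/-- **the fixed marginal exists** (LL 09 l.203-222): at most one earlier stochastic pair -/
theorem l13z_fix_chart (hD : D.Ok) (hT : T.Ok D) (hχ : L9cGood T χ) (Lk : L13zLk D P Tl sp (2 * T.j))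
    (hhi : ∀ i t, i < T.j → T.V i t → ¬ D.lw t) (i0 : Fin T.j) (honly : ∀ i : Fin T.j, l9cSg χ i = l9cSg χ i0 → i = i0)
    (hle : (univ.filter fun i : Fin T.j => (i : ℕ) ∈ T.St ∧ l9cSg χ i ≠ l9cSg χ i0).card ≤ 1) :
    Nonempty (L13zFix (l13zRp hD hT hχ Lk hhi) (l9cSi χ i0) i0) := by
  by_cases hex : ∃ i1 : Fin T.j, (i1 : ℕ) ∈ T.St ∧ i1 ≠ i0
  · obtain ⟨i1, hi1, hne⟩ := hex
    have hmem : ∀ i : Fin T.j, (i : ℕ) ∈ T.St → i ≠ i0 → i ∈ univ.filter fun i : Fin T.j => (i : ℕ) ∈ T.St ∧ l9cSg χ i ≠ l9cSg χ i0 :=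
      fun i hi hn => mem_filter.mpr ⟨mem_univ _, hi, fun h => hn (honly i h)⟩
    have lab : ∀ i ∈ (l9cFc hD hT hχ).St, i ≠ i0 → l9cL i = l9cL i1 ∧ l9cR i = l9cR i1 := by
      intro i hi hn
      have : i = i1 := Finset.card_le_one.mp hle i (hmem i (mem_filter.mp hi).2 hn) i1 (hmem i1 hi1 hne)
      rw [this]; exact ⟨rfl, rfl⟩
    have hs1 : χ.1 (l9cL i1) (l9cR i1) ≠ some (l9cSg χ i0) := by
      rw [l13z_sg_some χ i1 (hχ.1 i1)]
      exact fun h => hne (honly i1 (Option.some.inj h))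
    by_cases hA : χ.1 (l9cL i0) (l9cL i1) = some (l9cSg χ i0)
    · exact ⟨l13zFx hD hT hχ Lk hhi i0 (l9cL i1) (l9cR i1) (l9cL i1) lab (Or.inr hA) (Or.inr (Or.inl hs1)) (Or.inl rfl)
        (Or.inr (Or.inr hs1))⟩
    · by_cases hB : χ.1 (l9cL i0) (l9cR i1) = some (l9cSg χ i0)
      · exact ⟨l13zFx hD hT hχ Lk hhi i0 (l9cL i1) (l9cR i1) (l9cR i1) lab (Or.inr hB) (Or.inr (Or.inl hs1)) (Or.inr (Or.inl hs1))
          (Or.inl rfl)⟩
      · exact ⟨l13zFx hD hT hχ Lk hhi i0 (l9cL i1) (l9cR i1) (l9cL i0) lab (Or.inl rfl) (Or.inr (Or.inl hs1)) (Or.inr (Or.inr hA))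
          (Or.inr (Or.inr hB))⟩
  · push Not at hex
    exact ⟨l13zFx hD hT hχ Lk hhi i0 (l9cL i0) (l9cL i0) (l9cL i0)
      (fun i hi hn => absurd (hex i (mem_filter.mp hi).2) hn) (Or.inl rfl) (Or.inl rfl) (Or.inl rfl) (Or.inl rfl)⟩

/-- **EXIT C** (`L9cImpC` of helper30): the later vertex is a linear stochastic singleton above the lower band; each ensemble separately -/
theorem l13z_impC (hD : D.Ok) (hT : T.Ok D) (Lk : L13zLk D P Tl sp (2 * T.j)) (hhi : ∀ i t, i < T.j → T.V i t → ¬ D.lw t)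
    {jm : ℕ} {K10 Kc : ℝ} (Nb : L13zNb D P jm K10 Kc) (hjm : T.j ≤ jm) {Tt : ℝ} (hTt : 1 ≤ Tt) (hTL : D.Lm ≤ Tt) (i0 : Fin T.j) :
    L9cImpC D T i0 (l13zKz D T K10 Kc Tt) (l13zEr D T Tt) := by
  intro χ hχ _ honly hi0 ha hle e
  refine l13z_cen_of hD hT hχ i0 (D.num T e) ((l9cFc hD hT hχ).T e) (fun v o h => l9c_T_eq hD hT hχ e v o h) _ _ ?_
  intro v o c hc1 hc2
  obtain ⟨Fx⟩ := l13z_fix_chart hD hT hχ Lk hhi i0 honly hle
  have hiL : i0 ∈ (l9cFc hD hT hχ).St := mem_filter.mpr ⟨mem_univ _, hi0⟩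
  have honly' : ∀ i, (l9cFc hD hT hχ).sig i = l9cSi χ i0 → i = i0 := fun i hi => honly i (congrArg Subtype.val hi)
  have ha' : 1 < l9cAv T χ (l9cSi χ i0) := by rw [l9c_av_eq hχ]; exact ha
  have hj1 : 1 ≤ T.j := le_trans (by norm_num) hT.hj
  have hk1 : (l9cCC hD hT hχ).k (l9cSi χ i0) = 1 := by
    show l9cKv T χ (l9cSi χ i0) = 1
    unfold l9cKv
    rw [Finset.card_eq_one]
    refine ⟨i0, ?_⟩
    ext i
    simp only [Finset.mem_filter, Finset.mem_univ, true_and, Finset.mem_singleton]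
    exact ⟨fun h => honly' i h, fun h => by rw [h]⟩
  have hmean : ∀ t : ℕ, ∫ ω', (P false).l13zT (P false).S t ω' ∂(P false).μ = 0 := by
    intro t
    simp only [L8P.l13z_T_self]
    exact (P false).l8c_T_mean (Lk.ok false) t
  have key := (l13zRp hD hT hχ Lk hhi).zC' Fx Lk.ok (l13z_cen_S _ (Lk.ok false)) hiL rfl honly'
    (Nb.mom_chart hD hT hχ hhi) hTL Nb.K10_nonneg Nb.Kc_nonneg e (Nb.d7c_chart Lk.ok hD hT hhi (l9cSi χ i0) ha' e)
    (fun g hg => by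
      have h := Nb.d10_chart hT hhi (l9cSi χ i0) e 1 1 le_rfl le_rfl (hj1.trans hjm) (Or.inl ha') g
        (fun j => by
          simp only [Nat.sub_self, pow_zero, mul_one]
          exact hg j)
      simp only [pow_one, hmean, sub_zero] at h
      exact h) v o c hc1 hc2
  rw [hk1]
  refine key.trans ?_
  have hG0 : 0 ≤ (l9cCC hD hT hχ).S.gB / (l9cCC hD hT hχ).a (l9cSi χ i0)
      * l13_P (l9cCC hD hT hχ).S.Y ((l9cCC hD hT hχ).a (l9cSi χ i0) * (l9cCC hD hT hχ).S.Y) 1 :=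
    mul_nonneg (div_pos (l9cCC hD hT hχ).S.gB_pos ((l9cCC hD hT hχ).a_pos _)).le (l13_P_nonneg ((l9cCC hD hT hχ).r_pos _).le _)
  have hE0 : 0 ≤ ∏ s ∈ Finset.univ.erase (l9cSi χ i0), (l9cCC hD hT hχ).env s (v s) ^ ((l9cCC hD hT hχ).k s) :=
    Finset.prod_nonneg fun s _ => pow_nonneg ((l9cCC hD hT hχ).henv0 s _) _
  have hcj : ∀ s : Finset (Fin T.j), s.card ≤ T.j := fun s => (Finset.card_le_univ _).trans (le_of_eq (Fintype.card_fin _))
  have hLoC : (1 : ℝ) ≤ (l9cCC hD hT hχ).Lo := (l9cCC hD hT hχ).hLo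
  have hq0 : 0 ≤ (D.Lm / Tt) ^ D.p0 := pow_nonneg (div_nonneg hD.hLm0.le (by linarith)) _
  refine add_le_add ?_ ?_
  · refine mul_le_mul_of_nonneg_right (mul_le_mul_of_nonneg_right ?_ hG0) hE0
    exact l13z_arith_C hD.hLo hTt Nb.K10_nonneg Nb.Kc_nonneg hLoC (hcj _) hj1
  · show D.LoC T * D.M ^ (l9cFc hD hT hχ).Stᶜ.card * (15 * 5 ^ ((l9cFc hD hT hχ).St.erase i0).card
        * ((((l9cFc hD hT hχ).St.erase i0).card : ℝ) * (D.Lm / Tt) ^ D.p0)) ≤ l13zEr D T Tt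
    unfold l13zEr
    have hL0 : 0 ≤ D.LoC T := le_trans zero_le_one hLoC
    have h5 : (5 : ℝ) ^ ((l9cFc hD hT hχ).St.erase i0).card ≤ 5 ^ T.j := pow_le_pow_right₀ (by norm_num) (hcj _)
    have hn' : (((l9cFc hD hT hχ).St.erase i0).card : ℝ) ≤ T.j := by exact_mod_cast hcj _
    refine mul_le_mul (mul_le_mul_of_nonneg_left (l13z_pow_le_max hD.hM0 (hcj _)) hL0) ?_ (by positivity) (by positivity)
    refine mul_le_mul (by linarith) ?_ (by positivity) (by positivity)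
    exact mul_le_mul_of_nonneg_right (by linarith) hq0

/-- **LL Lemma 9.1, (E3), TABLE LEVEL, no import left but the link and the numbers** (`l9c_main` of helper30 + the two exits) -/
theorem l13z_main (hD : D.Ok) (hT : T.Ok D) (Lk : L13zLk D P Tl sp (2 * T.j)) {jm : ℕ} {K10 Kc : ℝ} (Nb : L13zNb D P jm K10 Kc)
    (hjm : T.j ≤ jm) (hK : 1 ≤ K10) {Tt : ℝ} (hTt : 1 ≤ Tt) (hTL : D.Lm ≤ Tt) :
    |D.val T| ≤ (Fintype.card (L9aChart (2 * T.j)) : ℝ) * T.j * (D.bLow T + D.bHigh T (l13zKz D T K10 Kc Tt) (l13zEr D T Tt)) := by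
  have hOk : ∀ i0, (D.tHigh T i0).Ok D := fun i0 => L9cT.res_ok hT _ _ fun τ hP i hi => hP.1 i hi
  have hLoC : (1 : ℝ) ≤ D.LoC T := one_le_pow₀ hD.hLo
  have hKz : 1 ≤ l13zKz D T K10 Kc Tt := by
    unfold l13zKz
    have h1 : (1 : ℝ) ≤ (D.Lo * Tt) ^ T.j := one_le_pow₀ (by nlinarith [hD.hLo])
    have h2 : (0 : ℝ) ≤ 24 * T.j * Kc * D.LoC T ^ T.j :=
      mul_nonneg (mul_nonneg (by positivity) Nb.Kc_nonneg) (pow_nonneg (by linarith) _)
    nlinarith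
  have hEr : 0 ≤ l13zEr D T Tt := by
    unfold l13zEr
    have hq0 : 0 ≤ (D.Lm / Tt) ^ D.p0 := pow_nonneg (div_nonneg hD.hLm0.le (by linarith)) _
    have : (0 : ℝ) ≤ D.LoC T := by linarith
    positivity
  exact l9c_main hD hT _ _ hKz hEr
    (fun i0 _ => l13z_impA hD (hOk i0) Lk (fun i t _ ht => ht.2) Nb hjm hTt)
    (fun i0 => l13z_impC hD (hOk i0) Lk (fun i t _ ht => ht.2) Nb hjm hTt hTL i0)

end table

end Claimed.Agent.R286
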