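/-
OWNER helper64.  TEX[LL:exp:lem-centered-count] (the CENTRED half of the proof, part 4: THE SK INSTANCE).      Prefix `l13z_` / `L13z`.

MAP.
§1 ABSTRACT  `L9cCen.l13z_mono`, `l13zKJ`, `l13zEJ`, **`l13z_imp : L9dImp D J0 (l13zKJ ..) (l13zEJ ..)`** = THE import of `L09/CCAd.lean` (helper30) from the link `L13zLk` (all `r ≥ 2`) and the numbers `L13zNb`.
§2 DICTIONARY `L13zDic I D e A Y Zh vt pm` between the data `D : L9cD (SkCfg I.m)` of Lemma 9.1 (concrete one: `l9ciD` of helper70) and an instance `I : L8In` of LL 08.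
§3 LINK      **`l13z_lk_of`** : `L13zLk D I.sp (fun tl => l8liSk ..) Prod.snd r`   (LsInst of helper257, DList of helper220).
NUMBERS + EXIT at the concrete data `l9ciD`: `l9ci_nb`, `l9ci_imp`, `l9ci_val` of helper70 (`L09/CCInst.lean`, PROVED).
-/
import Claimed.Agent.R286.L09.CCCenT
import Claimed.Agent.R286.L09.CCAd
import Claimed.Agent.R286.L08.LsInst
import Claimed.Agent.R286.L08.DList

set_option autoImplicit false
set_option linter.unusedSectionVars false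

namespace Claimed.Agent.R286

open MeasureTheory ProbabilityTheory Finset
open scoped ENNReal

/-! ## 1. the one import of `L09/CCAd.lean`, abstract -/
section abs

variable {S : Type} [Fintype S] [Inhabited S] {D : L9cD S} {Ω : Type} [mΩ : MeasurableSpace Ω] {m : ℕ}

/-- the centred estimate is monotone in its two constants -/
theorem L9cCen.l13z_mono (hD : D.Ok) {T : L9cT} (hT : T.Ok D) {χ : L9aChart (2 * T.j)} {i0 : Fin T.j} {G : JtTopo → ℝ} {Kz err Kz' err' : ℝ}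
    (h : L9cCen D T χ i0 G Kz err) (hK : Kz ≤ Kz') (hE : err ≤ err') : L9cCen D T χ i0 G Kz' err' := by
  intro cc c hc
  refine (h cc c hc).trans (add_le_add ?_ hE)
  have ha : 0 < T.a i0 := lt_of_lt_of_le zero_lt_one (hT.ha1 i0 i0.2)
  have h1 : 0 ≤ D.Sc.gB / T.a i0 * l13_P D.Sc.Y (T.a i0 * D.Sc.Y) (univ.filter fun i => l9cSg χ i = l9cSg χ i0).card :=
    mul_nonneg (div_pos D.Sc.gB_pos ha).le (l13_P_nonneg (mul_pos ha D.Sc.Y_pos).le _)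
  have h2 : 0 ≤ ∏ i ∈ univ.filter (fun i => l9cSg χ i ≠ l9cSg χ i0), D.env (cc (l9cSg χ i)) :=
    Finset.prod_nonneg fun i _ => hD.env0 _
  exact mul_le_mul_of_nonneg_right (mul_le_mul_of_nonneg_right hK h1) h2

/-- the constant of the centred estimates, all degrees `≤ J0` -/
noncomputable def l13zKJ (D : L9cD S) (J0 : ℕ) (K10 Kc Tt : ℝ) : ℝ := (D.Lo * Tt) ^ J0 * (K10 + 24 * J0 * Kc * (D.Lo ^ (2 * J0 + 1)) ^ J0)

/-- the truncation error, all degrees `≤ J0` -/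
noncomputable def l13zEJ (D : L9cD S) (J0 : ℕ) (Tt : ℝ) : ℝ :=
  D.Lo ^ (2 * J0 + 1) * max 1 D.M ^ J0 * (15 * 5 ^ J0 * ((J0 + 1) * (D.Lm / Tt) ^ D.p0))

theorem l13z_LoC_le (hD : D.Ok) {T : L9cT} {J0 : ℕ} (hj : T.j ≤ J0) : D.LoC T ≤ D.Lo ^ (2 * J0 + 1) :=
  pow_le_pow_right₀ hD.hLo (by omega)

theorem l13z_KJ_le (hD : D.Ok) {T : L9cT} {J0 : ℕ} (hj : T.j ≤ J0) {K10 Kc Tt : ℝ} (hK10 : 0 ≤ K10) (hKc : 0 ≤ Kc) (hTt : 1 ≤ Tt) :
    l13zKz D T K10 Kc Tt ≤ l13zKJ D J0 K10 Kc Tt := by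
  unfold l13zKz l13zKJ
  have hLo := hD.hLo
  have h1 : (1 : ℝ) ≤ D.Lo * Tt := by nlinarith
  have hL1 : (1 : ℝ) ≤ D.LoC T := one_le_pow₀ hLo
  have hL2 := l13z_LoC_le hD hj
  have hjr : (T.j : ℝ) ≤ J0 := by exact_mod_cast hj
  have h3 : D.LoC T ^ T.j ≤ (D.Lo ^ (2 * J0 + 1)) ^ J0 :=
    (pow_le_pow_left₀ (by linarith) hL2 _).trans (pow_le_pow_right₀ (hL1.trans hL2) hj)
  have h4 : 24 * (T.j : ℝ) * Kc ≤ 24 * J0 * Kc := by nlinarith
  refine mul_le_mul (pow_le_pow_right₀ h1 hj) ?_ ?_ (by positivity)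
  · exact add_le_add le_rfl (mul_le_mul h4 h3 (by positivity) (by positivity))
  · have : (0 : ℝ) ≤ D.LoC T ^ T.j := by positivity
    positivity

theorem l13z_EJ_le (hD : D.Ok) {T : L9cT} {J0 : ℕ} (hj : T.j ≤ J0) {Tt : ℝ} (hTt : 1 ≤ Tt) : l13zEr D T Tt ≤ l13zEJ D J0 Tt := by
  unfold l13zEr l13zEJ
  have hLo := hD.hLo
  have hL1 : (1 : ℝ) ≤ D.LoC T := one_le_pow₀ hLo
  have hL2 := l13z_LoC_le hD hj
  have hjr : (T.j : ℝ) ≤ J0 := by exact_mod_cast hj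
  have hq0 : 0 ≤ (D.Lm / Tt) ^ D.p0 := pow_nonneg (div_nonneg hD.hLm0.le (by linarith)) _
  have h5 : (5 : ℝ) ^ T.j ≤ 5 ^ J0 := pow_le_pow_right₀ (by norm_num) hj
  have hM : max 1 D.M ^ T.j ≤ max 1 D.M ^ J0 := pow_le_pow_right₀ (le_max_left _ _) hj
  have hL0 : (0 : ℝ) ≤ D.LoC T := by linarith
  refine mul_le_mul (mul_le_mul hL2 hM (by positivity) (by positivity)) ?_ (by positivity) (by positivity)
  refine mul_le_mul (by linarith) ?_ (by positivity) (by positivity)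
  exact mul_le_mul_of_nonneg_right (by linarith) hq0

/-- **THE IMPORT of Lemma 9.1** (`L9dImp` of helper30) from the link and the numbers -/
theorem l13z_imp (hD : D.Ok) {P : Bool → L8P Ω m} {Tl : ℕ → Bool → L8L Ω} {sp : Ω → S} (Lk : ∀ r, 2 ≤ r → L13zLk D P (Tl r) sp r)
    {J0 : ℕ} {K10 Kc : ℝ} (Nb : L13zNb D P J0 K10 Kc) {Tt : ℝ} (hTt : 1 ≤ Tt) (hTL : D.Lm ≤ Tt) :
    L9dImp D J0 (l13zKJ D J0 K10 Kc Tt) (l13zEJ D J0 Tt) := by
  intro T hT hj hhi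
  have hr : 2 ≤ 2 * T.j := by have := hT.hj; omega
  have hK := l13z_KJ_le hD hj Nb.K10_nonneg Nb.Kc_nonneg hTt
  have hE := l13z_EJ_le hD hj hTt
  refine ⟨?_, fun i0 _ => ?_⟩
  · intro χ hχ i1 h1 h2 h3
    exact (l13z_impA hD hT (Lk _ hr) hhi Nb hj hTt χ hχ i1 h1 h2 h3).l13z_mono hD hT hK hE
  · intro χ hχ h1 h2 h3 h4 h5 e
    exact (l13z_impC hD hT (Lk _ hr) hhi Nb hj hTt hTL i0 χ hχ h1 h2 h3 h4 h5 e).l13z_mono hD hT hK hE

end abs

/-! ## 2. the dictionary with an instance of LL 08 -/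

/-- **the dictionary** between the data of Lemma 9.1 and an instance of LL 08 (`e` envelope, `A` loss, `Y`, `Zh`, `vt`, `pm` = the parameters of `I.Env`, `I.Rnd`) -/
structure L13zDic (I : L8In) (D : L9cD (SkCfg I.m)) (e : ℕ → ℝ) (A Y Zh vt : ℝ) (pm : ℕ) : Prop where
  hX : ∀ tl, D.X tl = I.X tl
  hmu : ∀ t, t ≤ I.n → l9aMu D.ms t = I.dv t
  henv : ∀ t, D.rg t → D.env t = e t
  hx : D.Sc.x = I.x
  hlam : D.Sc.lam = I.lam
  hs : D.Sc.s = I.F.sS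
  heta : D.Sc.eta = I.F.eta
  hU : D.Sc.U = I.U
  hY : D.Sc.Y = Y
  hZh0 : 0 ≤ Zh
  hZh : Zh ≤ D.Sc.Z
  hA1 : 1 ≤ A
  rg : ∀ t, D.rg t → t ≤ I.n ∧ I.v t ≤ vt
  lw : ∀ t, ¬ D.lw t → I.x ≤ I.v t
  sc_hi : ∀ t, D.rg t → I.v t ≤ 2 * (D.sc t * Y)
  sc_lo : ∀ t, D.rg t → 1 < D.sc t → D.sc t * Y ≤ I.v t
  /-- the cuts of mass `≥ x` are active in the tilted ensemble -/
  js : ∀ t, t ≤ I.n → I.x ≤ I.v t → I.js < t
  hLm : 2 * A ≤ D.Lm
  hp0 : D.p0 = 2 * pm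
  pm1 : 1 ≤ pm

section inst

variable {I : L8In} {D : L9cD (SkCfg I.m)} {e : ℕ → ℝ} {A Y Zh vt vp cE : ℝ} {pm jm : ℕ}

theorem L13zDic.N (h : L13zDic I D e A Y Zh vt pm) : D.N = I.n := by
  unfold L9cD.N
  rw [h.hX false]
  rfl

theorem L13zDic.act (h : L13zDic I D e A Y Zh vt pm) (tl : Bool) {t : ℕ} (h1 : D.rg t) (h2 : ¬ D.lw t) : I.act tl t :=
  ⟨(h.rg t h1).1, fun _ => h.js t (h.rg t h1).1 (h.lw t h2)⟩

/-- the untilted mean on the single path -/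
theorem l13z_sp_S (hS : I.Std) {t : ℕ} (ht : t ≤ I.n) : (I.sp false).S t = I.S t :=
  l8i_S I.m I.a hS.a_pos (I.P false) (l8d_P_adm hS false) t (by rw [l8d_P_len]; exact ht)

theorem l13z_sp_ok (hS : I.Std) (tl : Bool) : (I.sp tl).Ok := l8i_ok I.m hS.m_pos I.a hS.a_pos (I.P tl) (l8d_P_adm hS tl)

/-! ## 3. the link -/

/-- **THE LINK at the SK instance** -/
theorem l13z_lk_of (hS : I.Std) (h : L13zDic I D e A Y Zh vt pm) {r : ℕ} (hr : 2 ≤ r) :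
    L13zLk D I.sp (fun tl => l8liSk I.m I.a I.LP (l8dTl I tl) r) Prod.snd r where
  ok := l13z_sp_ok hS
  rep := fun tl => by
    rw [h.hX tl]
    exact l8li_rep I.m I.a hS.a_pos I.LP hS.adm (l8dTl I tl) r hr
  mu := fun tl => rfl
  fork := fun tl l => rfl
  hn := fun tl => by
    rw [h.N]
    exact l8d_P_len I tl
  ov := fun tl x => by
    rw [h.hX tl]
    exact (l8d_Q I.m I.a (I.P tl) x).symm
  msk := fun tl t h1 h2 => by
    rw [h.hX tl]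
    exact l8d_msk_act (h.act tl h1 h2)
  Sf := fun t h1 h2 => by
    rw [l13z_sp_S hS (h.rg t h1).1, ← l8d_S hS (h.rg t h1).1]
    unfold L9cD.Sf
    rw [h.N, h.hX false]
    have : (I.X false).msk t = 1 := rfl
    simp only [this, one_mul]
    rfl

end inst

end Claimed.Agent.R286
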