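import Claimed.Agent.R286.L09.RedSup
import Claimed.Agent.R286.L09.CCInst
import Claimed.Agent.R286.L09.CCCenI
import Claimed.Agent.R286.L08.CenX

/-!
# Row 286 (S0533), unit L09, node RED, file RedCC: THE CONTRACTS OF CC (`L9cCCD`, `L9cCCS` of `L09/RedSup.lean`) FROM THE TABLE LEVEL OF LEMMA 9.1      (owner helper153; prefix `l9rc`)

* §1  `L8In.Both.congr` (the records of LL 08 see the envelope on the cuts `k ≤ n` only), `L8In.Both.mono` (monotone in the loss);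
* §2  the scales `Q.sc13 : L13Scales` of 30 at a point, `L9ciLk`;
* §3  the choice of the losses: unit `G = l9rcG x A vt = 4 A (Kb + 2) (1 + vt)`, `Kb = ⌈log₂ (1/x)⌉`, `Lm = M = G`, `Lo = G / ρ`:   `l9rc_hyp : Ok + Fine + Both ⟹ L9ciHyp Q.i8 (Q.sc13 ..) e A (Q.Y Mj) Zh vt vp cE pm jm (G / ρ) G G Kb` (70);
* §4  `L9rcNum Mj J0 Ψ` = THE POINTWISE FORM (table level + numerics: 30, 64, 70): from `L9ciHyp` at `ρ = x^d1`, `G ≤ Cg x^(-2 d1)` to `Ψ Q (l9rsE Q.N e) (C x^(-δ)) vt`, `Ψ` = `Q.CC ..` or `Q.CCw ..` (any degree `J0`);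
      `l9rc_shellD`, `l9rc_shellS` : the shells "for every target a source, for every source constant" on the two segments, for ANY `Ψ`, `J0`;
* §5  `l9rc_ccD : L9cCCD ..`, `l9rc_ccS : L9cCCS ..` from `L9rcNum .. 4 (Q.CC ..)`.
-/

set_option autoImplicit false

namespace Claimed.Agent.R286

open Filter Set

noncomputable section

/-! ## 1. congruence and monotonicity of the records of LL 08 -/

theorem l9rc_int_congr (I : L8In) (lo hi : ℝ) {g g' : ℕ → ℝ} (h : ∀ k ≤ I.n, g k = g' k) : I.int lo hi g = I.int lo hi g' := by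
  unfold L8In.int
  refine Finset.sum_congr rfl fun k hk => ?_
  rw [h k (Nat.lt_succ_iff.mp (Finset.mem_range.mp (Finset.mem_filter.mp hk).1))]

theorem l9rc_band_congr (I : L8In) (r : ℝ) {g g' : ℕ → ℝ} (h : ∀ k ≤ I.n, g k = g' k) : I.band r g = I.band r g' :=
  l9rc_int_congr I _ _ h

theorem L8In.Env.l9rc_congr {I : L8In} {e e' : ℕ → ℝ} {A Y vt cE : ℝ} (h : I.Env e A Y vt cE) (he : ∀ k ≤ I.n, e' k = e k) :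
    I.Env e' A Y vt cE :=
  ⟨fun k hk => by rw [he k hk]; exact h.lo k hk, fun k hk => by rw [he k hk]; exact h.low k hk, fun k hk => by rw [he k hk]; exact h.hi k hk,
    fun r h1 h2 => by rw [l9rc_band_congr I r (g' := fun k => e k ^ 2) fun k hk => by rw [he k hk]]; exact h.bud r h1 h2,
    fun k hk => by rw [he k hk]; exact h.f_le k hk, fun k hk => by rw [he k hk]; exact h.d_le k hk⟩

theorem L8In.Rnd.l9rc_congr {I : L8In} {tl : Bool} {e e' : ℕ → ℝ} {A Y Zh vt vp : ℝ} {pm jm : ℕ} (h : I.Rnd tl e A Y Zh vt vp pm jm)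
    (he : ∀ k ≤ I.n, e' k = e k) : I.Rnd tl e' A Y Zh vt vp pm jm :=
  ⟨h.raw_X, h.raw_L, h.raw_Q, fun r h1 h2 k hk => by rw [he k hk.1]; exact h.ref_X r h1 h2 k hk,
    fun r h1 h2 k hk => by rw [he k hk.1]; exact h.ref_L r h1 h2 k hk, fun r h1 h2 k hk => by rw [he k hk.1]; exact h.ref_Q r h1 h2 k hk,
    fun r h1 h2 j hj => by
      rw [l9rc_band_congr I r (g' := fun k => I.ex tl ((I.sp tl).W k) * e k ^ (2 * j)) fun k hk => by rw [he k hk]]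
      exact h.d7_W r h1 h2 j hj,
    h.d7_C, h.d7_Q, h.d9_W, h.d9_Q,
    fun r h1 h2 j hj1 hj2 c hc => h.d10 r h1 h2 j hj1 hj2 c fun i hi k hk => by rw [← he k hk]; exact hc i hi k hk,
    h.d10_low, h.proj⟩

/-- **the records of LL 08 see the envelope on the cuts of the chain only** -/
theorem L8In.Both.congr {I : L8In} {e e' : ℕ → ℝ} {A Y Zh vt vp cE : ℝ} {pm jm : ℕ} (h : I.Both e A Y Zh vt vp cE pm jm)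
    (he : ∀ k ≤ I.n, e' k = e k) : I.Both e' A Y Zh vt vp cE pm jm :=
  ⟨h.env.l9rc_congr he, h.num, fun tl => (h.rnd tl).l9rc_congr he⟩

theorem L8In.Cen.l9rc_mono {I : L8In} {tl : Bool} {e : ℕ → ℝ} {A A' Y Zh vt vp : ℝ} {pm jm : ℕ} (h : I.Cen tl e A Y Zh vt vp pm jm) (hOk : I.Ok)
    (hE : I.Ex) (hY : 0 ≤ Y) (hZ : 0 ≤ Zh) (hA0 : 0 ≤ A) (hA : A ≤ A') : I.Cen tl e A' Y Zh vt vp pm jm := by
  refine ⟨fun r h1 h2 j hj1 hj2 c hc => (h.d10 r h1 h2 j hj1 hj2 c hc).trans ?_, fun c hc => (h.d10_low c hc).trans ?_,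
    fun r h1 h2 c' h3 h4 k kc h5 h6 h7 h8 k₁ k₂ h9 h10 => (h.proj r h1 h2 c' h3 h4 k kc h5 h6 h7 h8 k₁ k₂ h9 h10).trans ?_⟩
  · have hr : 0 ≤ r := hY.trans h1
    have h0 : 0 ≤ I.z0 r * r * Zh * (if j = 1 then 1 else Y ^ 2 / r * r ^ (j - 2)) := by
      refine mul_nonneg (mul_nonneg (mul_nonneg (I.l8x_z0_nonneg hr) hr) hZ) ?_
      split_ifs
      · exact zero_le_one
      · positivity
    exact pow_le_pow_left₀ (mul_nonneg (mul_nonneg hA0 hr) h0) (mul_le_mul_of_nonneg_right (mul_le_mul_of_nonneg_right hA hr) h0) 2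
  · have h0 : 0 ≤ I.E0 Y := I.l8x_epsw_nonneg hOk hE Y _
    exact pow_le_pow_left₀ (mul_nonneg hA0 h0) (mul_le_mul_of_nonneg_right hA h0) 2
  · have hc : 0 ≤ c' := hY.trans h3
    exact L8In.l8x_pow_mono (by rw [abs_of_nonneg hA0]; exact hA) (mul_nonneg (I.l8x_z0_nonneg hc) hc) r

/-- **the records of LL 08 are monotone in the loss** -/
theorem L8In.Both.mono {I : L8In} {e : ℕ → ℝ} {A A' Y Zh vt vp cE : ℝ} {pm jm : ℕ} (h : I.Both e A Y Zh vt vp cE pm jm) (hOk : I.Ok)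
    (hadm : LlStpAdm I.a I.LP) (hE : I.Ex) (hY : 0 ≤ Y) (hZ : 0 ≤ Zh) (hA0 : 0 ≤ A) (hA : A ≤ A') : I.Both e A' Y Zh vt vp cE pm jm := by
  have he : ∀ k ≤ I.n, 0 ≤ e k := fun k hk => (Real.rpow_nonneg I.x_nonneg cE).trans (h.env.lo k hk)
  exact ⟨h.env.mono hOk hadm hY hA le_rfl, h.num.mono hOk hadm hE hY hZ hA le_rfl, fun tl =>
    L8In.Rnd.of ((h.rnd tl).core.mono hOk hadm hE he hY hZ (by rw [abs_of_nonneg hA0]; exact hA) le_rfl le_rfl le_rfl)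
      ((h.rnd tl).cen.l9rc_mono hOk hE hY hZ hA0 hA)⟩

/-! ## 2. the scales of 30 at a point -/

/-- the scales of `L09/Table.lean` at a point of Sec. 9 (`Z` = the capped majorant) -/
def L9Q.sc13 (Q : L9Q) (Mj : L9Mj) (hx : 0 < Q.x) (hl : 0 < Q.lam) (hz : 1 ≤ Q.Zc Mj) : L13Scales :=
  ⟨Q.x, Q.lam, Q.Zc Mj, Q.I.F.sS, Q.I.F.eta, hx, hl, hz⟩

theorem l9rc_lk (Q : L9Q) (Mj : L9Mj) (hx : 0 < Q.x) (hl : 0 < Q.lam) (hz : 1 ≤ Q.Zc Mj) (hU1 : Q.x * Q.lam ^ (-(Q.I.F.sS / 2)) ≤ 1) {Zh : ℝ}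
    (h0 : 0 ≤ Zh) (h1 : Zh ≤ Q.Zc Mj) (hl1 : Q.lam ≤ 1) (hs : 0 ≤ Q.I.F.sS) : L9ciLk Q.i8 (Q.sc13 Mj hx hl hz) (Q.Y Mj) Zh where
  x := rfl
  lam := rfl
  s := rfl
  eta := rfl
  U1 := hU1
  Y := by
    show Q.x * Q.lam ^ (-Q.I.F.sS / 2) * Q.Zc Mj = min 1 (Q.x * Q.lam ^ (-(Q.I.F.sS / 2))) * Q.Zc Mj
    rw [min_eq_right hU1, neg_div]
  Zh0 := h0
  Zh := h1
  lam1 := hl1
  s0 := hs

/-! ## 3. the choice of the losses -/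

/-- number of dyadic scales between `x` and `1` -/
def l9rcKb (x : ℝ) : ℕ := ⌈Real.logb 2 (1 / x)⌉₊

theorem l9rc_Kb_ge {x : ℝ} (hx : 0 < x) : 1 ≤ 2 ^ l9rcKb x * x := by
  have h1 : Real.logb 2 (1 / x) ≤ (l9rcKb x : ℝ) := Nat.le_ceil _
  have h2 : (2 : ℝ) ^ Real.logb 2 (1 / x) = 1 / x := Real.rpow_logb (by norm_num) (by norm_num) (by positivity)
  have h3 : 1 / x ≤ (2 : ℝ) ^ l9rcKb x := by
    rw [← h2, ← Real.rpow_natCast]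
    exact Real.rpow_le_rpow_of_exponent_le (by norm_num) h1
  calc (1 : ℝ) = 1 / x * x := by field_simp
    _ ≤ _ := mul_le_mul_of_nonneg_right h3 hx.le

theorem l9rc_Kb_le {x : ℝ} (hx : 0 < x) (hx1 : x ≤ 1) : (l9rcKb x : ℝ) + 2 ≤ 3 + Real.logb 2 (1 / x) := by
  have h0 : 0 ≤ Real.logb 2 (1 / x) := Real.logb_nonneg (by norm_num) (by rw [le_div_iff₀ hx]; linarith)
  have := Nat.ceil_lt_add_one h0
  unfold l9rcKb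
  linarith

/-- the unit of loss -/
def l9rcG (x A vt : ℝ) : ℝ := 4 * A * ((l9rcKb x : ℝ) + 2) * (1 + vt)

theorem l9rc_G_ge {x A vt : ℝ} (hA : 1 ≤ A) (hvt : 0 ≤ vt) :
    8 * A ≤ l9rcG x A vt ∧ 4 * A * ((l9rcKb x : ℝ) + 2) ≤ l9rcG x A vt ∧ 8 * A * (1 + vt) ≤ l9rcG x A vt := by
  have hK : (0 : ℝ) ≤ l9rcKb x := Nat.cast_nonneg _
  have h1 : 0 ≤ A * (l9rcKb x : ℝ) := by positivity
  have h2 : 0 ≤ A * vt := by positivity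
  have h3 : 0 ≤ A * (l9rcKb x : ℝ) * vt := by positivity
  unfold l9rcG
  refine ⟨by nlinarith, by nlinarith, by nlinarith⟩

/-- **the hypotheses of the instance of Lemma 9.1 (70) at a point of Sec. 9**, from LL 08 -/
theorem l9rc_hyp (Q : L9Q) (Mj : L9Mj) {e : ℕ → ℝ} {A0 A Zh vt vp cE η ρ : ℝ} {pm jm : ℕ} (hok : Q.i8.Ok) (hf : Q.i8.Fine η) (hEx : Q.i8.Ex)
    (hB : Q.i8.Both e A0 (Q.Y Mj) Zh vt vp cE pm jm) (hAA : A0 ≤ A) (hA1 : 1 ≤ A) (hsv : Q.I.s ≤ vt) (hpm : 1 ≤ pm)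
    (hx : 0 < Q.x) (hl : 0 < Q.lam) (hz : 1 ≤ Q.Zc Mj) (hU1 : Q.x * Q.lam ^ (-(Q.I.F.sS / 2)) ≤ 1) (hZ0 : 0 ≤ Zh) (hZ1 : Zh ≤ Q.Zc Mj)
    (hl1 : Q.lam ≤ 1) (hY0 : 0 ≤ Q.Y Mj) (hY1 : Q.Y Mj ≤ 1) (hvt : 0 ≤ vt) (hρ0 : 0 < ρ) (hρ1 : ρ ≤ 1) :
    L9ciHyp Q.i8 (Q.sc13 Mj hx hl hz) e A (Q.Y Mj) Zh vt vp cE pm jm (l9rcG Q.x A vt / ρ) (l9rcG Q.x A vt) (l9rcG Q.x A vt) (l9rcKb Q.x) := by
  have hB' := hB.mono hok hf.adm hEx hY0 hZ0 (l9rs_A_nonneg Q.i8 hok hf hB.env hsv) hAA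
  obtain ⟨g1, g2, g3⟩ := l9rc_G_ge (x := Q.x) hA1 hvt
  have hG0 : 0 ≤ l9rcG Q.x A vt := by linarith
  have hGρ : l9rcG Q.x A vt ≤ l9rcG Q.x A vt / ρ := by
    rw [le_div_iff₀ hρ0]
    nlinarith
  refine ⟨⟨l9ri_a_pos _ hok, l9ri_m_pos _ hok, hf.adm⟩, hok, ⟨η, hf⟩, l9rc_lk Q Mj hx hl hz hU1 hZ0 hZ1 hl1 hEx.2.1, hB'.env, hB'.num, hB'.rnd, hA1, hpm,
    by linarith, hGρ, hY1.trans (l9rc_Kb_ge hx), ?_, by linarith, ?_⟩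
  · have hK : (0 : ℝ) ≤ l9rcKb Q.x := Nat.cast_nonneg _
    have : 0 ≤ A * ((l9rcKb Q.x : ℝ) + 2) := by positivity
    linarith
  · have h1 : max vt (Q.Y Mj) ≤ 1 + vt := max_le (by linarith) (by linarith)
    have : A * max vt (Q.Y Mj) ≤ A * (1 + vt) := mul_le_mul_of_nonneg_left h1 (by linarith)
    have h2 : 0 ≤ A * (1 + vt) := by positivity
    linarith

/-! ## 4. the shells -/

/-- **POINTWISE FORM**: what the table level of Lemma 9.1 and its numerics deliver at one point, for a conclusion `Ψ Q e A' vt` (`= Q.CC ..`, `Q.CCw ..`).      For the target loss `δ`: the unit exponent `d1` and the order `pm`; then, for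
every bound `G ≤ Cg x^(-2 d1)` of the unit of loss and `vt ≤ Vt`, a constant `C`. -/
def L9rcNum (Mj : L9Mj) (J0 : ℕ) (Ψ : L9Q → (ℕ → ℝ) → ℝ → ℝ → Prop) : Prop :=
  ∀ δ : ℝ, 0 < δ → ∃ (d1 : ℝ) (pm : ℕ), 0 < d1 ∧ d1 ≤ δ ∧ 2 ≤ pm ∧ ∀ Cg Vt : ℝ, ∃ C : ℝ,
    ∀ (Q : L9Q) (hx : 0 < Q.x) (hl : 0 < Q.lam) (hz : 1 ≤ Q.Zc Mj) (e : ℕ → ℝ) (A Zh vt vp cE G : ℝ) (jm Kb : ℕ),
      L9ciHyp Q.i8 (Q.sc13 Mj hx hl hz) e A (Q.Y Mj) Zh vt vp cE pm jm (G / Q.x ^ d1) G G Kb → J0 ≤ jm → G ≤ Cg * Q.x ^ (-(2 * d1)) → vt ≤ Vt →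
        Q.x ≤ 1 → Q.Y Mj ≤ 1 → Ψ Q (l9rsE Q.N e) (C * Q.x ^ (-δ)) vt

/-- the unit of loss is a subpower -/
theorem l9rc_G_le {d1 : ℝ} (hd : 0 < d1) (C1 Vt : ℝ) : ∃ Cg : ℝ, ∀ x vt : ℝ, 0 < x → x ≤ 1 → 0 ≤ vt → vt ≤ Vt →
    l9rcG x ((|C1| + 1) * x ^ (-d1)) vt ≤ Cg * x ^ (-(2 * d1)) := by
  obtain ⟨CL, hCL, hL⟩ := l9cn_Lg hd
  refine ⟨4 * (|C1| + 1) * CL * (1 + Vt), fun x vt hx hx1 hvt hvV => ?_⟩
  have h1 := l9rc_Kb_le hx hx1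
  have h0 : 0 ≤ Real.logb 2 (1 / x) := Real.logb_nonneg (by norm_num) (by rw [le_div_iff₀ hx]; linarith)
  have h2 : 3 + Real.logb 2 (1 / x) ≤ (3 + Real.logb 2 (1 / x)) ^ 5 := le_self_pow₀ (by linarith) (by norm_num)
  have h3 : (l9rcKb x : ℝ) + 2 ≤ CL * x ^ (-d1) := h1.trans (h2.trans (hL x hx hx1))
  have hp : 0 < x ^ (-d1) := Real.rpow_pos_of_pos hx _
  have e1 : x ^ (-(2 * d1)) = x ^ (-d1) * x ^ (-d1) := by rw [← Real.rpow_add hx]; congr 1; ring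
  have hK : (0 : ℝ) ≤ (l9rcKb x : ℝ) + 2 := by positivity
  unfold l9rcG
  rw [e1]
  calc 4 * ((|C1| + 1) * x ^ (-d1)) * ((l9rcKb x : ℝ) + 2) * (1 + vt)
      ≤ 4 * ((|C1| + 1) * x ^ (-d1)) * (CL * x ^ (-d1)) * (1 + Vt) :=
        mul_le_mul (mul_le_mul_of_nonneg_left h3 (by positivity)) (by linarith) (by linarith) (by positivity)
    _ = _ := by ring

/-- the source loss is below the normalised loss `A = (|C1| + 1) x^(-d1) ≥ 1` -/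
theorem l9rc_A_ge {x d1 : ℝ} (hx : 0 < x) (hx1 : x ≤ 1) (hd : 0 < d1) (C1 : ℝ) :
    C1 * x ^ (-d1) ≤ (|C1| + 1) * x ^ (-d1) ∧ 1 ≤ (|C1| + 1) * x ^ (-d1) := by
  have h1 : 1 ≤ x ^ (-d1) := Real.one_le_rpow_of_pos_of_le_one_of_nonpos hx hx1 (by linarith)
  refine ⟨mul_le_mul_of_nonneg_right (by linarith [le_abs_self C1]) (by linarith), ?_⟩
  nlinarith [abs_nonneg C1]

/-- **SHELL, strength sweep** -/
theorem l9rc_shellD (𝔹 : LlBase) (F : LlFix) (hF : 0 ≤ F.eta ∧ 0 ≤ F.sS ∧ 0 ≤ F.pS) (c : ℝ) {κ : ℝ} (hκ : 0 < κ) {J0 : ℕ}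
    {Ψ : L9Q → (ℕ → ℝ) → ℝ → ℝ → Prop} (hnum : L9rcNum (l8Mj c) J0 Ψ) (v0 cE : ℝ) {δ : ℝ} (hδ : 0 < δ) :
    ∃ (pm : ℕ) (δ1 : ℝ), 2 ≤ pm ∧ 0 < δ1 ∧ δ1 ≤ δ ∧ ∀ (jm : ℕ) (Km : ℝ), J0 ≤ jm → ∀ ε : ℝ, 0 < ε → ∀ q : ℝ, 0 < q → ∀ C1 : ℝ, ∃ C : ℝ, ∀ N : ℕ, 2 ≤ N →
      ∀ (Fs : Finset GhPos) (m : ℕ) (ell : ℝ) (γ : Fin (N + 1) → ℝ) (t : ℝ),
        L9HyD F 𝔹 (l8Mj c) κ N (q * skX N ^ (1 + ε)) (skX N ^ ε) Fs m ell γ t →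
        ∀ (Q : L9Q) (e : ℕ → ℝ), Q = l9QD F 𝔹 (q * skX N ^ (1 + ε)) Fs m N ell γ t → Q.i8.Ok → Q.i8.Fine (Q.x ^ Km) →
          Q.i8.Both e (C1 * skX N ^ (-δ1)) Q.i8.Y Q.i8.Z Q.i8.a v0 cE pm jm → Ψ Q (l9rsE Q.N e) (C * skX N ^ (-δ)) Q.i8.a := by
  obtain ⟨d1, pm, hd1, hd1δ, hpm, hn⟩ := hnum δ hδ
  refine ⟨pm, d1, hpm, hd1, hd1δ, fun jm Km hjm ε hε q hq C1 => ?_⟩
  obtain ⟨Cg, hCg⟩ := l9rc_G_le hd1 C1 4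
  obtain ⟨C, hC⟩ := hn Cg 4
  refine ⟨C, fun N hN Fs m ell γ t hy Q e hQ hok hfi hBo => ?_⟩
  have hsm : Q.p.sm = false := by rw [hQ]; rfl
  have hxN : Q.x = skX N := by rw [hQ]; rfl
  have hFQ : Q.I.F = F := by rw [hQ]; rfl
  have hEx : Q.i8.Ex := by
    show 0 ≤ Q.I.F.eta ∧ 0 ≤ Q.I.F.sS ∧ 0 ≤ Q.I.F.pS
    rw [hFQ]; exact hF
  obtain ⟨hx, hx1, hl, hl1, hxU⟩ := l9rs_scales Q.i8 hok hEx.2.2 hEx.2.1
  have hxlt : Q.x < 1 := by rw [hxN]; exact l9c_X_lt hN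
  have hZc := l9rs_Zc_D Q c hok hsm
  have hz1 : 1 ≤ Q.Zc (l8Mj c) := by rw [hZc]; exact l9rs_Z_ge _
  have hU : 0 < Q.U := hx.trans_le hxU
  have hY : Q.Y (l8Mj c) = Q.i8.Y := by unfold L9Q.Y; rw [hZc]; rfl
  have hYκ : Q.Y (l8Mj c) ≤ Q.x ^ κ := by
    have h7 := hy.2.2.2.2.2.2
    have e1 : Q.Y (l8Mj c) = (l9PtL N ell γ t).U F * (l8Mj c).Z F 𝔹 Fs (l9PtL N ell γ t) m := by
      unfold L9Q.Y L9Q.Zc
      rw [if_neg (by simp [hsm]), hQ]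
      rfl
    rw [e1, hxN]
    exact h7
  have hκ1 : Q.x ^ κ < 1 := Real.rpow_lt_one hx.le hxlt hκ
  have hY1 : Q.Y (l8Mj c) ≤ 1 := hYκ.trans hκ1.le
  have hY0 : 0 ≤ Q.Y (l8Mj c) := mul_nonneg hU.le (by linarith)
  have hU1 : Q.x * Q.lam ^ (-(Q.I.F.sS / 2)) ≤ 1 := by
    by_contra hn1
    have hU' : Q.U = 1 := min_eq_left (not_le.mp hn1).le
    have : 1 ≤ Q.Y (l8Mj c) := by unfold L9Q.Y; rw [hU', one_mul]; exact hz1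
    linarith [hYκ]
  have ha1 : 1 ≤ Q.i8.a := by
    show 1 ≤ Q.p.a
    unfold LlPt.a
    rw [if_neg (by simp [hsm])]
    exact hok.pt.ell1
  have ha4 : Q.i8.a ≤ 4 := by
    show Q.p.a ≤ 4
    unfold LlPt.a
    rw [if_neg (by simp [hsm])]
    refine hok.pt.ell2.trans ?_
    calc (2 : ℝ) ^ (1 / 6 : ℝ) ≤ 2 ^ (1 : ℝ) := Real.rpow_le_rpow_of_exponent_le (by norm_num) (by norm_num)
      _ ≤ 4 := by norm_num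
  obtain ⟨a1, a2⟩ := l9rc_A_ge hx hx1 hd1 C1
  have hs : Q.I.s ≤ Q.i8.a := hok.s_lt.le.trans (hx1.trans ha1)
  have H := l9rc_hyp Q (l8Mj c) (A := (|C1| + 1) * Q.x ^ (-d1)) (ρ := Q.x ^ d1) hok hfi hEx (hY ▸ hxN ▸ hBo) a1 a2 hs (by omega) hx hl hz1 hU1
    (by linarith [l9rs_Z_ge Q.i8]) hZc.ge hl1 hY0 hY1 (by linarith) (Real.rpow_pos_of_pos hx _) (Real.rpow_le_one hx.le hx1 hd1.le)
  have := hC Q hx hl hz1 e _ _ _ _ _ _ jm _ H hjm (hCg Q.x Q.i8.a hx hx1 (by linarith) ha4) ha4 hx1 hY1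
  rw [hxN] at this
  exact this

/-- **SHELL, size segment** -/
theorem l9rc_shellS (𝔹 : LlBase) (F : LlFix) (hF : 0 ≤ F.eta ∧ 0 ≤ F.sS ∧ 0 ≤ F.pS) (hps : F.pS * F.sS ≤ 2) (c : ℝ) {J0 : ℕ}
    {Ψ : L9Q → (ℕ → ℝ) → ℝ → ℝ → Prop} (hnum : L9rcNum (l8Mj c) J0 Ψ) {v0 : ℝ} (hv0 : 0 < v0) (v1 cE : ℝ) {δ : ℝ} (hδ : 0 < δ) :
    ∃ (pm : ℕ) (δ1 : ℝ), 2 ≤ pm ∧ 0 < δ1 ∧ δ1 ≤ δ ∧ ∀ (jm : ℕ) (Km : ℝ), J0 ≤ jm → ∀ ε : ℝ, 0 < ε → ∀ q : ℝ, 0 < q → ∀ C1 : ℝ, ∃ (C : ℝ) (N0 : ℕ),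
      ∀ N : ℕ, N0 ≤ N → ∀ (Fs : Finset GhPos) (m : ℕ) (γ : Fin (N + 1) → ℝ) (θ : ℝ),
        L9HyS F 𝔹 N (q * skX N ^ (1 + ε)) (skX N ^ ε) Fs m γ θ →
        ∀ (Q : L9Q) (e : ℕ → ℝ), Q = l9QS F 𝔹 (q * skX N ^ (1 + ε)) Fs m N γ θ → Q.i8.Ok → Q.i8.Fine (Q.x ^ Km) → 1 ≤ Q.i8.Zc llDStar →
          Q.i8.Both e (C1 * skX N ^ (-δ1)) (Q.i8.Yc llDStar) 1 v0 v1 cE pm jm → Ψ Q (l9rsE Q.N e) (C * skX N ^ (-δ)) v0 := by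
  obtain ⟨d1, pm, hd1, hd1δ, hpm, hn⟩ := hnum δ hδ
  refine ⟨pm, d1, hpm, hd1, hd1δ, fun jm Km hjm ε hε q hq C1 => ?_⟩
  obtain ⟨Cg, hCg⟩ := l9rc_G_le hd1 C1 v0
  obtain ⟨C, hC⟩ := hn Cg v0
  obtain ⟨N3, hN3⟩ := l9s_small 1 (1 / v0) one_pos (by positivity)
  refine ⟨C, N3 + 2, fun N hN Fs m γ θ _ Q e hQ hok hfi hZ1 hBo => ?_⟩
  have hsm : Q.p.sm = true := by rw [hQ]; rfl
  have hxN : Q.x = skX N := by rw [hQ]; rfl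
  have hFQ : Q.I.F = F := by rw [hQ]; rfl
  have hlam : Q.lam = Q.x ^ F.pS := by rw [hQ]; rfl
  have hEx : Q.i8.Ex := by
    show 0 ≤ Q.I.F.eta ∧ 0 ≤ Q.I.F.sS ∧ 0 ≤ Q.I.F.pS
    rw [hFQ]; exact hF
  obtain ⟨hx, hx1, hl, hl1, hxU⟩ := l9rs_scales Q.i8 hok hEx.2.2 hEx.2.1
  have hZc := l9rs_Zc_S Q c hok hsm
  have hz1 : 1 ≤ Q.Zc (l8Mj c) := by rw [hZc]; exact hZ1
  have hU : 0 < Q.U := hx.trans_le hxU
  have hY : Q.Y (l8Mj c) = Q.i8.Yc llDStar := by unfold L9Q.Y; rw [hZc]; rfl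
  have hY0 : 0 ≤ Q.Y (l8Mj c) := mul_nonneg hU.le (by linarith)
  have hY1 : Q.Y (l8Mj c) ≤ 1 := by
    rw [hY]
    unfold L8In.Yc L8In.Zc
    have hU' : 0 < Q.i8.U := hU
    calc Q.i8.U * min Q.i8.Z (Q.i8.x ^ (llDStar / 3) / Q.i8.U) ≤ Q.i8.U * (Q.i8.x ^ (llDStar / 3) / Q.i8.U) :=
          mul_le_mul_of_nonneg_left (min_le_right _ _) hU'.le
      _ = Q.i8.x ^ (llDStar / 3) := by field_simp
      _ ≤ 1 := Real.rpow_le_one hx.le hx1 (by unfold llDStar; norm_num)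
  have hU1 : Q.x * Q.lam ^ (-(Q.I.F.sS / 2)) ≤ 1 := by
    have hx' : 0 < Q.x := hx
    rw [hlam, hFQ, ← Real.rpow_mul hx'.le]
    nth_rewrite 1 [← Real.rpow_one Q.x]
    rw [← Real.rpow_add hx']
    exact Real.rpow_le_one hx'.le hx1 (by nlinarith)
  have hxv : Q.x ≤ v0 := by
    have := hN3 N (by omega)
    rw [Real.rpow_one, div_mul_eq_mul_div, one_mul, div_lt_one hv0] at this
    rw [hxN]; exact this.le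
  obtain ⟨a1, a2⟩ := l9rc_A_ge hx hx1 hd1 C1
  have hs : Q.I.s ≤ v0 := hok.s_lt.le.trans hxv
  have H := l9rc_hyp Q (l8Mj c) (A := (|C1| + 1) * Q.x ^ (-d1)) (ρ := Q.x ^ d1) hok hfi hEx (hY ▸ hxN ▸ hBo) a1 a2 hs (by omega) hx hl hz1 hU1
    zero_le_one hz1 hl1 hY0 hY1 hv0.le (Real.rpow_pos_of_pos hx _) (Real.rpow_le_one hx.le hx1 hd1.le)
  have := hC Q hx hl hz1 e _ _ _ _ _ _ jm _ H hjm (hCg Q.x v0 hx hx1 hv0.le le_rfl) le_rfl hx1 hY1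
  rw [hxN] at this
  exact this

/-! ## 5. the contracts of `L09/RedSup.lean` -/

theorem L9Q.CC.anti {Q : L9Q} {Mj : L9Mj} {e : ℕ → ℝ} {A vt vt' K Cs : ℝ} (h : Q.CC Mj e A vt K Cs) (hv : vt' ≤ vt) : Q.CC Mj e A vt' K Cs :=
  fun n h2 h4 R hR hRn β V c hc h5 h6 h7 => h n h2 h4 R hR hRn β V c hc h5 h6 (h7.trans hv)

/-- **`L9cCCD`** from the pointwise form -/
theorem l9rc_ccD (𝔹 : LlBase) (F : LlFix) (hF : 0 ≤ F.eta ∧ 0 ≤ F.sS ∧ 0 ≤ F.pS) (c : ℝ) {κ : ℝ} (hκ : 0 < κ)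
    (hnum : ∀ K Cs : ℝ, 4 ≤ Cs → L9rcNum (l8Mj c) 4 fun Q e A vt => Q.CC (l8Mj c) e A vt K Cs) (C0 : ℝ) {δ0 : ℝ} (hδ0 : 0 < δ0) (v0 cE : ℝ) :
    L9cCCD 𝔹 (l8Mj c) κ F C0 δ0 v0 cE := by
  intro K Cs hCs δ hδ
  obtain ⟨pm, δ1, hpm, hδ1, hδ1', H⟩ := l9rc_shellD 𝔹 F hF c hκ (hnum K Cs hCs) v0 cE hδ
  refine ⟨pm, 4, 1, δ1, δ0, hpm, le_rfl, hδ1, hδ1', hδ0, le_rfl, fun ε hε q hq C1 => ?_⟩
  obtain ⟨C, hC⟩ := H 4 1 le_rfl ε hε q hq C1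
  refine ⟨C, 2, fun N hN => Eventually.of_forall fun Fs m ell γ t hy Q e hQ hok hfi hBo _ => ?_⟩
  refine (hC N hN Fs m ell γ t hy Q e hQ hok hfi hBo).anti ((min_le_right _ _).trans ?_)
  show 1 ≤ Q.p.a
  unfold LlPt.a
  rw [if_neg (by rw [hQ]; simp [L9Q.p, l9QD, l9PtL, ll04Pt])]
  exact hok.pt.ell1

/-- **`L9cCCS`** from the pointwise form -/
theorem l9rc_ccS (𝔹 : LlBase) (F : LlFix) (hF : 0 ≤ F.eta ∧ 0 ≤ F.sS ∧ 0 ≤ F.pS) (hps : F.pS * F.sS ≤ 2) (c : ℝ)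
    (hnum : ∀ K Cs : ℝ, 4 ≤ Cs → L9rcNum (l8Mj c) 4 fun Q e A vt => Q.CC (l8Mj c) e A vt K Cs) {v0 : ℝ} (hv0 : 0 < v0) (v1 cE : ℝ) :
    L9cCCS 𝔹 (l8Mj c) F v0 v1 cE := by
  intro K Cs hCs δ hδ
  obtain ⟨pm, δ1, hpm, hδ1, hδ1', H⟩ := l9rc_shellS 𝔹 F hF hps c (hnum K Cs hCs) hv0 v1 cE hδ
  refine ⟨pm, 4, 1, δ1, hpm, le_rfl, hδ1, hδ1', fun ε hε q hq C1 => ?_⟩
  obtain ⟨C, N0, hC⟩ := H 4 1 le_rfl ε hε q hq C1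
  refine ⟨C, N0, fun N hN => Eventually.of_forall fun Fs m γ θ hy Q e hQ hok hfi hZ hBo => ?_⟩
  exact (hC N hN Fs m γ θ hy Q e hQ hok hfi hZ hBo).anti (min_le_left _ _)

end

theorem l9rc_eqns_cite : True := by
  have := @L9Q.sc13.eq_1; have := @l9rcKb.eq_1; have := @l9rcG.eq_1; have := @L9rcNum.eq_1
  trivial

end Claimed.Agent.R286
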