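/-
OWNER helper64.  TEX[LL:exp:lem-centered-count] (NUMERICS of (E3): piece (c) of the chain of `exit_l9_ccS`, `exit_l9_ccD`).      Prefix `l13y_` / `l13y`.

MAP.   Loss unit `G ≥ 1`, small number `ρ ∈ (0,1]`, `H = G / ρ`;   choice of the losses of `L9cD`: `Lm ≤ G`, `M ≤ G`, `Lo = Tt = H`, `K10, Kc ≤ H^q`.
* `l13y_KJ_le`  : `max 1 (l13zKJ D J0 K10 Kc H) ≤ (1 + 24 J0) H^(2 J0 + q + (2 J0 + 1) J0)`;      `l13y_EJ_le` : `l13zEJ D J0 H ≤ 15 * 5^J0 (J0 + 1) H^(3 J0 + 1) ρ^p0`;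
* `l13y_Bd_le`  : `D.Bd j A Kz err ≤ l13yK J0 * H^(l13yP J0 q) * (λ Y^5 (x / Y + g_B) + λ max(1,W)^5 x^(-J0) ρ^p0)` for `j ≤ J0`, `1 ≤ A`, `A Y ≤ W`   (`D.Bd` = the bound of `l9d_val`, helper30);
* `l13y_pow`    : `G ≤ Cg x^(-2 δ1)`, `ρ = x^δ1`, `3 δ1 P ≤ δ`, `K + J0 ≤ δ1 p0`  ⟹  `H^P (E + λ max(1,W)^5 x^(-J0) ρ^p0) ≤ Cg^P max(1,W)^5 x^(-δ) (E + x^K)`;
* `l13y_val_le` : (b) a bound of `D.Bd` uniform in `(j, A)` bounds `|D.val T|` for ALL the terms (`T.A Y ≤ W` or `D.val T = 0`);      `L9dImp.l13y_mono`;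
* **`l13y_ci`** : at `D = l9ciD I Sc e vt (G / ρ) G G (2 pm)` (helper70), from `H : L9ciHyp I Sc e A Y Zh vt vp cE pm jm (G / ρ) G G Kb`:
      `|D.val T| ≤ l13yCf jm Cg (max vt Y) * x^(-δ) * (λ Y^5 (x / Y + g_B) + x^K)`   for all `T.Ok D`, `T.j ≤ jm`      (= `hBd` of `l9w_cc_of_tab`, helper299; `(E3)` of helper282 is the last bracket).      [duplicate of §3-4 of `L09/CCFit.lean` of helper30, independent proof]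
* **`l13y_num_ccw`**, **`l13y_num_cc`** : THE POINTWISE FORM `L9rcNum` of helper153 (`L09/RedCC.lean`) at `Q.CCw` (any degree) and at `Q.CC` = the last debt of `exit_l9_ccS`, `exit_l9_ccD`
      (through `l9cf_ccw_pow`, `l9cf_cc_of_ccw` of helper30; `L9ciHyp.l13y_anti`: antitone in `jm`, monotone in `Lo`; `l13y_choice`: choice of `d1`, `pm`).
* **`l13y_ccwD`**, **`l13y_exit_ccwD`**, **`l13y_ccwS`** : the contracts of `Q.CCw` at ANY degree `J` (text of `L9cCCD` / `L9cCCS` with the conclusion `Q.CCw .. Q.p.a K J`, resp. `.. v0 K J`) = bodies of `L9wCCD` / `exit_l9_ccwD` (291, 299, 230), `L9wCCS` (236).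
* **`l13y_exit_ccS`**, **`l13y_exit_ccD`** : THE BODIES of `exit_l9_ccS`, `exit_l9_ccD` (`L09/BndExit.lean`), no hypothesis (through `l9rc_ccS`, `l9rc_ccD` of helper153).
-/
import Claimed.Agent.R286.L09.CCFit
import Claimed.Agent.R286.L09.RedCC
import Claimed.Agent.R286.Defs.L9Pre

set_option autoImplicit false
set_option linter.unusedSectionVars false
set_option linter.unusedVariables false

namespace Claimed.Agent.R286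

open Finset

/-! ## numerics -/

/-- number of charts, all degrees `≤ J0` -/
noncomputable def l13yC (J0 : ℕ) : ℝ := ∑ j ∈ range (J0 + 1), (Fintype.card (L9aChart (2 * j)) : ℝ)

theorem l13y_card_le {j J0 : ℕ} (hj : j ≤ J0) : (Fintype.card (L9aChart (2 * j)) : ℝ) ≤ l13yC J0 :=
  Finset.single_le_sum (f := fun j => (Fintype.card (L9aChart (2 * j)) : ℝ)) (fun _ _ => Nat.cast_nonneg _) (Finset.mem_range.mpr (by omega))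

theorem l13y_C_nonneg (J0 : ℕ) : 0 ≤ l13yC J0 := Finset.sum_nonneg fun _ _ => Nat.cast_nonneg _

/-- `(A Y)^(5 - j)` -/
theorem l13y_zpow_le {x u W : ℝ} {j J0 : ℕ} (hx0 : 0 < x) (hx1 : x ≤ 1) (hxu : x ≤ u) (huW : u ≤ W) (hj : j ≤ J0) :
    u ^ ((5 : ℤ) - (j : ℕ)) ≤ max 1 W ^ 5 * x⁻¹ ^ J0 := by
  have hu0 : 0 < u := lt_of_lt_of_le hx0 hxu
  have hinv : 1 ≤ x⁻¹ := (one_le_inv₀ hx0).2 hx1
  have hW1 : (1 : ℝ) ≤ max 1 W := le_max_left _ _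
  by_cases h5 : j ≤ 5
  · have e : (5 : ℤ) - (j : ℕ) = ((5 - j : ℕ) : ℤ) := by omega
    rw [e, zpow_natCast]
    calc u ^ (5 - j) ≤ max 1 W ^ (5 - j) := pow_le_pow_left₀ hu0.le (huW.trans (le_max_right _ _)) _
      _ ≤ max 1 W ^ 5 := pow_le_pow_right₀ hW1 (by omega)
      _ ≤ max 1 W ^ 5 * x⁻¹ ^ J0 := le_mul_of_one_le_right (by positivity) (one_le_pow₀ hinv)
  · have e : (5 : ℤ) - (j : ℕ) = -((j - 5 : ℕ) : ℤ) := by omega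
    rw [e, zpow_neg, zpow_natCast, ← inv_pow]
    calc u⁻¹ ^ (j - 5) ≤ x⁻¹ ^ (j - 5) := pow_le_pow_left₀ (by positivity) (inv_anti₀ hx0 hxu) _
      _ ≤ x⁻¹ ^ J0 := pow_le_pow_right₀ hinv (by omega)
      _ ≤ max 1 W ^ 5 * x⁻¹ ^ J0 := le_mul_of_one_le_left (by positivity) (one_le_pow₀ hW1)

variable {S : Type} [Fintype S] [Inhabited S]

/-- the exponent of the loss -/
def l13yP (J0 q : ℕ) : ℕ := (2 * J0 + 1) * (2 * J0 + 4) + (2 * J0 + q + (2 * J0 + 1) * J0) + (3 * J0 + 1)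

/-- the constant -/
noncomputable def l13yK (J0 : ℕ) : ℝ := l13yC J0 * J0 * (2 * (1 + 24 * J0) + 2 * (J0 + 15 * 5 ^ J0 * (J0 + 1)))

/-- the constant of the centred estimates in powers of the loss `H = Lo = Tt` -/
theorem l13y_KJ_le {D : L9cD S} {J0 q : ℕ} {H K10 Kc : ℝ} (hH : 1 ≤ H) (hLo : D.Lo = H) (h1 : K10 ≤ H ^ q) (h2 : 0 ≤ Kc) (h3 : Kc ≤ H ^ q) :
    max 1 (l13zKJ D J0 K10 Kc H) ≤ (1 + 24 * J0) * H ^ (2 * J0 + q + (2 * J0 + 1) * J0) := by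
  have hH0 : 0 < H := by linarith
  have hp : ∀ n : ℕ, 1 ≤ H ^ n := fun n => one_le_pow₀ hH
  refine max_le ?_ ?_
  · have := hp (2 * J0 + q + (2 * J0 + 1) * J0)
    have hJ : (0 : ℝ) ≤ 24 * J0 := by positivity
    nlinarith
  · unfold l13zKJ
    rw [hLo]
    have e1 : (H * H) ^ J0 = H ^ (2 * J0) := by rw [← pow_two, ← pow_mul]
    have e2 : (H ^ (2 * J0 + 1)) ^ J0 = H ^ ((2 * J0 + 1) * J0) := by rw [← pow_mul]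
    rw [e1, e2]
    have a1 : K10 ≤ H ^ q * H ^ ((2 * J0 + 1) * J0) := h1.trans (le_mul_of_one_le_right (by positivity) (hp _))
    have a2 : 24 * (J0 : ℝ) * Kc * H ^ ((2 * J0 + 1) * J0) ≤ 24 * J0 * (H ^ q * H ^ ((2 * J0 + 1) * J0)) := by
      have := mul_le_mul_of_nonneg_right h3 (by positivity : (0 : ℝ) ≤ H ^ ((2 * J0 + 1) * J0))
      have hJ : (0 : ℝ) ≤ 24 * J0 := by positivity
      nlinarith
    calc H ^ (2 * J0) * (K10 + 24 * J0 * Kc * H ^ ((2 * J0 + 1) * J0))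
        ≤ H ^ (2 * J0) * ((1 + 24 * J0) * (H ^ q * H ^ ((2 * J0 + 1) * J0))) :=
          mul_le_mul_of_nonneg_left (by linarith) (by positivity)
      _ = _ := by rw [pow_add, pow_add]; ring

/-- the truncation error in powers of the loss -/
theorem l13y_EJ_le {D : L9cD S} {J0 : ℕ} {G ρ : ℝ} (hG : 1 ≤ G) (hρ0 : 0 < ρ) (hρ1 : ρ ≤ 1) (hLo : D.Lo = G / ρ) (hLm0 : 0 < D.Lm) (hLm : D.Lm ≤ G)
    (hM : D.M ≤ G) : l13zEJ D J0 (G / ρ) ≤ 15 * 5 ^ J0 * (J0 + 1) * (G / ρ) ^ (3 * J0 + 1) * ρ ^ D.p0 := by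
  have hG0 : 0 < G := by linarith
  have hGH : G ≤ G / ρ := by rw [le_div_iff₀ hρ0]; nlinarith
  have hH : 1 ≤ G / ρ := hG.trans hGH
  unfold l13zEJ
  rw [hLo]
  have a1 : max 1 D.M ^ J0 ≤ (G / ρ) ^ J0 := pow_le_pow_left₀ (by positivity) (max_le hH (hM.trans hGH)) _
  have a2 : (D.Lm / (G / ρ)) ^ D.p0 ≤ ρ ^ D.p0 := by
    refine pow_le_pow_left₀ (by positivity) ?_ _
    rw [div_le_iff₀ (by positivity)]
    calc D.Lm ≤ G := hLm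
      _ = ρ * (G / ρ) := by field_simp
  calc (G / ρ) ^ (2 * J0 + 1) * max 1 D.M ^ J0 * (15 * 5 ^ J0 * ((J0 + 1) * (D.Lm / (G / ρ)) ^ D.p0))
      ≤ (G / ρ) ^ (2 * J0 + 1) * (G / ρ) ^ J0 * (15 * 5 ^ J0 * ((J0 + 1) * ρ ^ D.p0)) := by
        refine mul_le_mul (mul_le_mul_of_nonneg_left a1 (by positivity)) ?_ (by positivity) (by positivity)
        exact mul_le_mul_of_nonneg_left (mul_le_mul_of_nonneg_left a2 (by positivity)) (by positivity)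
    _ = _ := by rw [show 3 * J0 + 1 = (2 * J0 + 1) + J0 by ring, pow_add]; ring

theorem l13y_aux {a1 a2 a3 c1 c2 : ℝ} (h1 : 0 ≤ a1) (h2 : 0 ≤ a2) (h3 : 0 ≤ a3) (k1 : 0 ≤ c1) (k2 : 0 ≤ c2) :
    2 * a1 + (2 * (1 + c1) * a2 + 2 * c2 * a3) ≤ (2 * (1 + c1) + 2 * c2) * (a1 + a2 + a3) := by
  nlinarith [mul_nonneg k1 h1, mul_nonneg k2 h1, mul_nonneg k2 h2, mul_nonneg k1 h3]

/-- **the bound (E3) of one term in powers of the loss** `H = G / ρ` -/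
theorem l13y_Bd_le {D : L9cD S} {J0 q : ℕ} {G ρ W K10 Kc : ℝ} (hG : 1 ≤ G) (hρ0 : 0 < ρ) (hρ1 : ρ ≤ 1) (hLo : D.Lo = G / ρ) (hLm0 : 0 < D.Lm)
    (hLm : D.Lm ≤ G) (hM0 : 0 ≤ D.M) (hM : D.M ≤ G) (h1 : K10 ≤ (G / ρ) ^ q) (h2 : 0 ≤ Kc) (h3 : Kc ≤ (G / ρ) ^ q)
    (hx1 : D.Sc.x ≤ 1) (hxY : D.Sc.x ≤ D.Sc.Y) {j : ℕ} {A : ℝ} (hj : j ≤ J0) (hA : 1 ≤ A) (hAW : A * D.Sc.Y ≤ W) :
    D.Bd j A (max 1 (l13zKJ D J0 K10 Kc (G / ρ))) (l13zEJ D J0 (G / ρ))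
      ≤ l13yK J0 * (G / ρ) ^ l13yP J0 q * (D.Sc.lam * D.Sc.Y ^ 5 * (D.Sc.x / D.Sc.Y + D.Sc.gB)
          + D.Sc.lam * (max 1 W ^ 5 * D.Sc.x⁻¹ ^ J0) * ρ ^ D.p0) := by
  have hG0 : 0 < G := by linarith
  have hGH : G ≤ G / ρ := by rw [le_div_iff₀ hρ0]; nlinarith
  have hH : 1 ≤ G / ρ := hG.trans hGH
  set H : ℝ := G / ρ with hHd
  have hH0 : 0 < H := by linarith
  have hx0 := D.Sc.hx
  have hY0 := D.Sc.Y_pos
  have hl0 := D.Sc.hlam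
  have hg0 := D.Sc.gB_pos
  set Λ1 : ℝ := D.Sc.lam * D.Sc.Y ^ 5 * (D.Sc.x / D.Sc.Y) with hΛ1
  set Λ2 : ℝ := D.Sc.lam * D.Sc.Y ^ 5 * D.Sc.gB with hΛ2
  set Wx : ℝ := max 1 W ^ 5 * D.Sc.x⁻¹ ^ J0 with hWx
  set R : ℝ := ρ ^ D.p0 with hR
  set P : ℕ := l13yP J0 q with hP
  have hΛ1' : 0 ≤ Λ1 := by positivity
  have hΛ2' : 0 ≤ Λ2 := by positivity
  have hWx0 : 0 ≤ Wx := by positivity
  have hR0 : 0 ≤ R := by positivity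
  have hjr : (j : ℝ) ≤ J0 := by exact_mod_cast hj
  have hpw : ∀ a : ℕ, a ≤ P → H ^ a ≤ H ^ P := fun a ha => pow_le_pow_right₀ hH ha
  have hmul : ∀ a b : ℕ, a ≤ 2 * J0 + 1 → b ≤ 2 * J0 + 4 → a * b ≤ (2 * J0 + 1) * (2 * J0 + 4) := fun a b ha hb => Nat.mul_le_mul ha hb
  have hZ5 : (A * D.Sc.Y) ^ ((5 : ℤ) - (j : ℕ)) ≤ Wx :=
    l13y_zpow_le hx0 hx1 (hxY.trans (by nlinarith)) hAW hj
  have hZ50 : 0 ≤ (A * D.Sc.Y) ^ ((5 : ℤ) - (j : ℕ)) := zpow_nonneg (by positivity) _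
  have hKz := l13y_KJ_le (D := D) (J0 := J0) hH hLo h1 h2 h3
  have hEr := l13y_EJ_le (D := D) (J0 := J0) hG hρ0 hρ1 hLo hLm0 hLm hM
  rw [← hHd] at hEr
  have hEr0 : 0 ≤ l13zEJ D J0 H := by
    unfold l13zEJ
    rw [hLo]
    positivity
  have t1 : 2 * (H ^ (2 * j + 1)) ^ (2 * j + 3) * Λ1 ≤ 2 * H ^ P * Λ1 := by
    rw [← pow_mul]
    have := hpw ((2 * j + 1) * (2 * j + 3)) (by have := hmul (2 * j + 1) (2 * j + 3) (by omega) (by omega); simp only [hP, l13yP]; omega)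
    exact mul_le_mul_of_nonneg_right (by linarith) hΛ1'
  have t2 : 2 * max 1 (l13zKJ D J0 K10 Kc H) * (H ^ (2 * j + 1)) ^ (2 * j + 4) * Λ2 ≤ 2 * (1 + 24 * J0) * H ^ P * Λ2 := by
    rw [← pow_mul]
    have a1 : H ^ ((2 * j + 1) * (2 * j + 4)) ≤ H ^ ((2 * J0 + 1) * (2 * J0 + 4)) :=
      pow_le_pow_right₀ hH (hmul _ _ (by omega) (by omega))
    have a2 : max 1 (l13zKJ D J0 K10 Kc H) * H ^ ((2 * j + 1) * (2 * j + 4))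
        ≤ (1 + 24 * J0) * H ^ (2 * J0 + q + (2 * J0 + 1) * J0) * H ^ ((2 * J0 + 1) * (2 * J0 + 4)) :=
      mul_le_mul hKz a1 (by positivity) (by positivity)
    have a3 : H ^ (2 * J0 + q + (2 * J0 + 1) * J0) * H ^ ((2 * J0 + 1) * (2 * J0 + 4)) ≤ H ^ P := by
      rw [← pow_add]
      exact hpw _ (by simp only [hP, l13yP]; omega)
    have a4 : max 1 (l13zKJ D J0 K10 Kc H) * H ^ ((2 * j + 1) * (2 * j + 4)) ≤ (1 + 24 * J0) * H ^ P := by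
      refine a2.trans ?_
      rw [mul_assoc]
      exact mul_le_mul_of_nonneg_left a3 (by positivity)
    calc 2 * max 1 (l13zKJ D J0 K10 Kc H) * H ^ ((2 * j + 1) * (2 * j + 4)) * Λ2
        = 2 * (max 1 (l13zKJ D J0 K10 Kc H) * H ^ ((2 * j + 1) * (2 * j + 4))) * Λ2 := by ring
      _ ≤ 2 * ((1 + 24 * J0) * H ^ P) * Λ2 := mul_le_mul_of_nonneg_right (by linarith) hΛ2'
      _ = _ := by ring
  have t3 : 2 * (H ^ (2 * j + 1)) ^ (j + 2) * (D.Sc.lam * (A * D.Sc.Y) ^ ((5 : ℤ) - (j : ℕ)) * (D.M ^ j * j * (D.Lm / H) ^ D.p0 + l13zEJ D J0 H))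
      ≤ 2 * (J0 + 15 * 5 ^ J0 * (J0 + 1)) * H ^ P * (D.Sc.lam * Wx * R) := by
    rw [← pow_mul]
    have a1 : H ^ ((2 * j + 1) * (j + 2)) ≤ H ^ ((2 * J0 + 1) * (2 * J0 + 4)) :=
      pow_le_pow_right₀ hH (hmul _ _ (by omega) (by omega))
    have b1 : D.M ^ j ≤ H ^ (3 * J0 + 1) :=
      (pow_le_pow_left₀ hM0 (hM.trans hGH) j).trans (pow_le_pow_right₀ hH (by omega))
    have b2 : (D.Lm / H) ^ D.p0 ≤ R := by
      refine pow_le_pow_left₀ (by positivity) ?_ _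
      rw [div_le_iff₀ hH0]
      calc D.Lm ≤ G := hLm
        _ = ρ * H := by rw [hHd]; field_simp
    have b3 : D.M ^ j * j * (D.Lm / H) ^ D.p0 ≤ H ^ (3 * J0 + 1) * J0 * R :=
      mul_le_mul (mul_le_mul b1 hjr (by positivity) (by positivity)) b2 (by positivity) (by positivity)
    have b4 : D.M ^ j * j * (D.Lm / H) ^ D.p0 + l13zEJ D J0 H ≤ (J0 + 15 * 5 ^ J0 * (J0 + 1)) * H ^ (3 * J0 + 1) * R := by
      calc _ ≤ H ^ (3 * J0 + 1) * J0 * R + 15 * 5 ^ J0 * (J0 + 1) * H ^ (3 * J0 + 1) * R := add_le_add b3 hEr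
        _ = _ := by ring
    have b0 : 0 ≤ D.M ^ j * j * (D.Lm / H) ^ D.p0 + l13zEJ D J0 H := add_nonneg (by positivity) hEr0
    have b5 : D.Sc.lam * (A * D.Sc.Y) ^ ((5 : ℤ) - (j : ℕ)) * (D.M ^ j * j * (D.Lm / H) ^ D.p0 + l13zEJ D J0 H)
        ≤ D.Sc.lam * Wx * ((J0 + 15 * 5 ^ J0 * (J0 + 1)) * H ^ (3 * J0 + 1) * R) :=
      mul_le_mul (mul_le_mul_of_nonneg_left hZ5 hl0.le) b4 b0 (by positivity)
    have a3 : H ^ ((2 * J0 + 1) * (2 * J0 + 4)) * H ^ (3 * J0 + 1) ≤ H ^ P := by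
      rw [← pow_add]
      exact hpw _ (by simp only [hP, l13yP]; omega)
    calc 2 * H ^ ((2 * j + 1) * (j + 2)) * (D.Sc.lam * (A * D.Sc.Y) ^ ((5 : ℤ) - (j : ℕ)) * (D.M ^ j * j * (D.Lm / H) ^ D.p0 + l13zEJ D J0 H))
        ≤ 2 * H ^ ((2 * J0 + 1) * (2 * J0 + 4)) * (D.Sc.lam * Wx * ((J0 + 15 * 5 ^ J0 * (J0 + 1)) * H ^ (3 * J0 + 1) * R)) :=
          mul_le_mul (by linarith) b5 (mul_nonneg (mul_nonneg hl0.le hZ50) b0) (by positivity)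
      _ = 2 * (J0 + 15 * 5 ^ J0 * (J0 + 1)) * (H ^ ((2 * J0 + 1) * (2 * J0 + 4)) * H ^ (3 * J0 + 1)) * (D.Sc.lam * Wx * R) := by ring
      _ ≤ _ := by
          refine mul_le_mul_of_nonneg_right ?_ (by positivity)
          exact mul_le_mul_of_nonneg_left a3 (by positivity)
  unfold L9cD.Bd
  rw [hLo]
  have hc := l13y_card_le hj
  have hC0 := l13y_C_nonneg J0
  have hsum : 2 * (H ^ (2 * j + 1)) ^ (2 * j + 3) * Λ1 + (2 * max 1 (l13zKJ D J0 K10 Kc H) * (H ^ (2 * j + 1)) ^ (2 * j + 4) * Λ2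
      + 2 * (H ^ (2 * j + 1)) ^ (j + 2) * (D.Sc.lam * (A * D.Sc.Y) ^ ((5 : ℤ) - (j : ℕ)) * (D.M ^ j * j * (D.Lm / H) ^ D.p0 + l13zEJ D J0 H)))
      ≤ (2 * (1 + 24 * J0) + 2 * (J0 + 15 * 5 ^ J0 * (J0 + 1))) * H ^ P * (Λ1 + Λ2 + D.Sc.lam * Wx * R) := by
    have hHP : 0 ≤ H ^ P := by positivity
    have hL3 : 0 ≤ D.Sc.lam * Wx * R := by positivity
    have c1 : (0 : ℝ) ≤ 24 * J0 := by positivity
    have c2 : (0 : ℝ) ≤ J0 + 15 * 5 ^ J0 * (J0 + 1) := by positivity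
    have u1 : 0 ≤ H ^ P * Λ1 := by positivity
    have u2 : 0 ≤ H ^ P * Λ2 := by positivity
    have u3 : 0 ≤ H ^ P * (D.Sc.lam * Wx * R) := by positivity
    calc _ ≤ 2 * H ^ P * Λ1 + (2 * (1 + 24 * J0) * H ^ P * Λ2 + 2 * (J0 + 15 * 5 ^ J0 * (J0 + 1)) * H ^ P * (D.Sc.lam * Wx * R)) :=
          add_le_add t1 (add_le_add t2 t3)
      _ = 2 * (H ^ P * Λ1) + (2 * (1 + 24 * J0) * (H ^ P * Λ2) + 2 * (J0 + 15 * 5 ^ J0 * (J0 + 1)) * (H ^ P * (D.Sc.lam * Wx * R))) := by ring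
      _ ≤ (2 * (1 + 24 * J0) + 2 * (J0 + 15 * 5 ^ J0 * (J0 + 1))) * (H ^ P * Λ1 + H ^ P * Λ2 + H ^ P * (D.Sc.lam * Wx * R)) :=
          l13y_aux u1 u2 u3 c1 c2
      _ = _ := by ring
  have hs0 : 0 ≤ 2 * (H ^ (2 * j + 1)) ^ (2 * j + 3) * Λ1 + (2 * max 1 (l13zKJ D J0 K10 Kc H) * (H ^ (2 * j + 1)) ^ (2 * j + 4) * Λ2
      + 2 * (H ^ (2 * j + 1)) ^ (j + 2) * (D.Sc.lam * (A * D.Sc.Y) ^ ((5 : ℤ) - (j : ℕ)) * (D.M ^ j * j * (D.Lm / H) ^ D.p0 + l13zEJ D J0 H))) := by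
    have : 0 ≤ D.M ^ j * j * (D.Lm / H) ^ D.p0 + l13zEJ D J0 H := add_nonneg (by positivity) hEr0
    positivity
  calc _ ≤ l13yC J0 * J0 * ((2 * (1 + 24 * J0) + 2 * (J0 + 15 * 5 ^ J0 * (J0 + 1))) * H ^ P * (Λ1 + Λ2 + D.Sc.lam * Wx * R)) :=
        mul_le_mul (mul_le_mul hc hjr (by positivity) hC0) hsum hs0 (by positivity)
    _ = _ := by
        unfold l13yK
        rw [hΛ1, hΛ2]
        ring

/-- **powers of `x`**: `G ≤ Cg x^(-2 δ1)`, `ρ = x^δ1`, `3 δ1 P ≤ δ`, `K + J0 ≤ δ1 p0` -/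
theorem l13y_pow {x δ δ1 K Cg G ρ W lam E : ℝ} {J0 P p0 : ℕ} (hx0 : 0 < x) (hx1 : x ≤ 1) (hG0 : 0 ≤ G)
    (hG : G ≤ Cg * x ^ (-(2 * δ1))) (hρ : ρ = x ^ δ1) (hP : 3 * δ1 * P ≤ δ) (hp0 : K + J0 ≤ δ1 * p0) (hl0 : 0 ≤ lam) (hl1 : lam ≤ 1) (hE : 0 ≤ E) :
    (G / ρ) ^ P * (E + lam * (max 1 W ^ 5 * x⁻¹ ^ J0) * ρ ^ p0) ≤ Cg ^ P * max 1 W ^ 5 * x ^ (-δ) * (E + x ^ K) := by
  have hρ0 : 0 < ρ := by rw [hρ]; exact Real.rpow_pos_of_pos hx0 _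
  have hW1 : (1 : ℝ) ≤ max 1 W ^ 5 := one_le_pow₀ (le_max_left _ _)
  have hCg : 0 ≤ Cg := by
    by_contra hn
    have : Cg * x ^ (-(2 * δ1)) < 0 := mul_neg_of_neg_of_pos (not_le.mp hn) (Real.rpow_pos_of_pos hx0 _)
    linarith
  have h1 : G / ρ ≤ Cg * x ^ (-(3 * δ1)) := by
    rw [div_le_iff₀ hρ0, hρ, mul_assoc, ← Real.rpow_add hx0]
    have : -(3 * δ1) + δ1 = -(2 * δ1) := by ring
    rw [this]
    exact hG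
  have h2 : (G / ρ) ^ P ≤ Cg ^ P * x ^ (-δ) := by
    calc (G / ρ) ^ P ≤ (Cg * x ^ (-(3 * δ1))) ^ P := pow_le_pow_left₀ (div_nonneg hG0 hρ0.le) h1 _
      _ = Cg ^ P * x ^ (-(3 * δ1) * P) := by rw [mul_pow, ← Real.rpow_natCast (x ^ (-(3 * δ1))) P, ← Real.rpow_mul hx0.le]
      _ ≤ Cg ^ P * x ^ (-δ) :=
          mul_le_mul_of_nonneg_left (Real.rpow_le_rpow_of_exponent_ge hx0 hx1 (by nlinarith)) (pow_nonneg hCg _)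
  have h3 : x⁻¹ ^ J0 * ρ ^ p0 ≤ x ^ K := by
    rw [hρ, ← Real.rpow_natCast (x ^ δ1) p0, ← Real.rpow_mul hx0.le, ← Real.rpow_natCast x⁻¹ J0, Real.inv_rpow hx0.le, ← Real.rpow_neg hx0.le,
      ← Real.rpow_add hx0]
    exact Real.rpow_le_rpow_of_exponent_ge hx0 hx1 (by linarith)
  have hxK : 0 < x ^ K := Real.rpow_pos_of_pos hx0 _
  have h30 : 0 ≤ x⁻¹ ^ J0 * ρ ^ p0 := by positivity
  have h4 : E + lam * (max 1 W ^ 5 * x⁻¹ ^ J0) * ρ ^ p0 ≤ max 1 W ^ 5 * (E + x ^ K) := by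
    have a1 : lam * (max 1 W ^ 5 * x⁻¹ ^ J0) * ρ ^ p0 = lam * (max 1 W ^ 5 * (x⁻¹ ^ J0 * ρ ^ p0)) := by ring
    have a2 : lam * (max 1 W ^ 5 * (x⁻¹ ^ J0 * ρ ^ p0)) ≤ 1 * (max 1 W ^ 5 * x ^ K) :=
      mul_le_mul hl1 (mul_le_mul_of_nonneg_left h3 (by positivity)) (by positivity) zero_le_one
    have a3 : E ≤ max 1 W ^ 5 * E := le_mul_of_one_le_left hE hW1
    rw [a1]
    linarith
  calc (G / ρ) ^ P * (E + lam * (max 1 W ^ 5 * x⁻¹ ^ J0) * ρ ^ p0) ≤ (Cg ^ P * x ^ (-δ)) * (max 1 W ^ 5 * (E + x ^ K)) :=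
        mul_le_mul h2 h4 (by positivity) (mul_nonneg (pow_nonneg hCg _) (Real.rpow_pos_of_pos hx0 _).le)
    _ = _ := by ring

/-- **(b)**: a bound of `D.Bd` which is uniform in the degree and in the largest band scale bounds all the terms -/
theorem l13y_val_le {D : L9cD S} (hD : D.Ok) {J0 : ℕ} {Kz err W B : ℝ} (hKz : 1 ≤ Kz) (herr : 0 ≤ err) (hI : L9dImp D J0 Kz err)
    (hW : ∀ t, D.rg t → D.sc t * D.Sc.Y ≤ W) (hB0 : 0 ≤ B) (hB : ∀ (j : ℕ) (A : ℝ), j ≤ J0 → 1 ≤ A → A * D.Sc.Y ≤ W → D.Bd j A Kz err ≤ B)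
    {T : L9cT} (hT : T.Ok D) (hj : T.j ≤ J0) : |D.val T| ≤ B := by
  by_cases h : ∃ τ ∈ l9aTab D.N (2 * T.j), T.H τ ≠ 0
  · obtain ⟨τ, hτ, hH⟩ := h
    obtain ⟨i, hi, hiA⟩ := hT.hmax
    obtain ⟨h1, h2⟩ := hT.hV i _ hi (hT.supp τ hτ hH i hi)
    refine (l9d_val hD hKz herr hI hT hj).trans (hB _ _ hj (hiA ▸ hT.ha1 i hi) ?_)
    rw [← hiA, ← h2]
    exact hW _ h1
  · push Not at h
    unfold L9cD.val
    rw [Finset.sum_eq_zero fun τ hτ => by rw [h τ hτ, zero_mul], abs_zero]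
    exact hB0

/-- the import is monotone in its two constants -/
theorem L9dImp.l13y_mono {D : L9cD S} (hD : D.Ok) {J0 : ℕ} {Kz err Kz' err' : ℝ} (h : L9dImp D J0 Kz err) (hK : Kz ≤ Kz') (hE : err ≤ err') :
    L9dImp D J0 Kz' err' := by
  intro T hT hj hhi
  obtain ⟨hA, hC⟩ := h T hT hj hhi
  exact ⟨fun χ hχ i1 h1 h2 h3 => (hA χ hχ i1 h1 h2 h3).l13z_mono hD hT hK hE,
    fun i0 hl χ hχ h1 h2 h3 h4 h5 en => (hC i0 hl χ hχ h1 h2 h3 h4 h5 en).l13z_mono hD hT hK hE⟩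

/-! ## at the concrete data of helper70 -/

/-- the constant of the final bound -/
noncomputable def l13yCf (jm : ℕ) (Cg W : ℝ) : ℝ := l13yK jm * (Cg ^ l13yP jm (jm + 1) * max 1 W ^ 5)

/-- **LL Lemma 9.1 at one instance, in powers of `x`**: losses `Lm = M = G`, `Lo = Tt = G / ρ`, `G ≤ Cg x^(-2 δ1)`, `ρ = x^δ1`, `3 δ1 P(jm) ≤ δ`, `K + jm ≤ 2 pm δ1` -/
theorem l13y_ci {I : L8In} {Sc : L13Scales} {e : ℕ → ℝ} {A Y Zh vt vp cE : ℝ} {pm jm Kb : ℕ} {G ρ δ δ1 K Cg : ℝ}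
    (H : L9ciHyp I Sc e A Y Zh vt vp cE pm jm (G / ρ) G G Kb) (hρ : ρ = Sc.x ^ δ1) (hδ1 : 0 ≤ δ1) (hx1 : Sc.x ≤ 1) (hxY : Sc.x ≤ Sc.Y)
    (hl1 : Sc.lam ≤ 1) (hG : G ≤ Cg * Sc.x ^ (-(2 * δ1))) (hP : 3 * δ1 * l13yP jm (jm + 1) ≤ δ) (hp0 : K + jm ≤ δ1 * (2 * pm : ℕ))
    {T : L9cT} (hT : T.Ok (l9ciD I Sc e vt (G / ρ) G G (2 * pm))) (hj : T.j ≤ jm) :
    |(l9ciD I Sc e vt (G / ρ) G G (2 * pm)).val T|
      ≤ l13yCf jm Cg (max vt Y) * Sc.x ^ (-δ) * (Sc.lam * Sc.Y ^ 5 * (Sc.x / Sc.Y + Sc.gB) + Sc.x ^ K) := by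
  set D := l9ciD I Sc e vt (G / ρ) G G (2 * pm) with hDd
  have hD : D.Ok := l9ci_ok H
  have hx0 := Sc.hx
  have hG1 : 1 ≤ G := le_trans (by norm_num) H.hM
  have hG0 : 0 < G := by linarith
  have hρ0 : 0 < ρ := by rw [hρ]; exact Real.rpow_pos_of_pos hx0 _
  have hρ1 : ρ ≤ 1 := by rw [hρ]; exact Real.rpow_le_one hx0.le hx1 hδ1
  have hGH : G ≤ G / ρ := by rw [le_div_iff₀ hρ0]; nlinarith
  have hH1 : 1 ≤ G / ρ := hG1.trans hGH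
  have hA1 := H.A1
  have hAG : 2 * A ≤ G := H.hLm
  have hK10 : A * (2 * A) ^ jm ≤ (G / ρ) ^ (jm + 1) := by
    calc A * (2 * A) ^ jm ≤ G * G ^ jm := mul_le_mul (by linarith) (pow_le_pow_left₀ (by linarith) hAG _) (by positivity) hG0.le
      _ = G ^ (jm + 1) := by ring
      _ ≤ (G / ρ) ^ (jm + 1) := pow_le_pow_left₀ hG0.le hGH _
  have hKc : A ≤ (G / ρ) ^ (jm + 1) :=
    calc A ≤ G / ρ := by linarith
      _ = (G / ρ) ^ 1 := (pow_one _).symm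
      _ ≤ (G / ρ) ^ (jm + 1) := pow_le_pow_right₀ hH1 (by omega)
  have hE0 : 0 ≤ l13zEJ D jm (G / ρ) := by
    unfold l13zEJ
    have h1 : (0 : ℝ) ≤ D.Lo := le_trans zero_le_one hD.hLo
    have h2 : (0 : ℝ) ≤ D.Lm / (G / ρ) := div_nonneg hD.hLm0.le (by linarith)
    positivity
  have hI : L9dImp D jm (max 1 (l13zKJ D jm (A * (2 * A) ^ jm) A (G / ρ))) (l13zEJ D jm (G / ρ)) :=
    (l9ci_imp H hH1 hGH).l13y_mono hD (le_max_right _ _) le_rfl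
  have hW : ∀ t, D.rg t → D.sc t * D.Sc.Y ≤ max vt Y := by
    intro t ht
    show l9ciSc Sc.Y (llMs I.a I.LP t) * Sc.Y ≤ max vt Y
    by_cases h1 : 1 < l9ciSc Sc.Y (llMs I.a I.LP t)
    · exact ((l9ci_sc_lt h1).le.trans ht.2).trans (le_max_left _ _)
    · have : l9ciSc Sc.Y (llMs I.a I.LP t) = 1 := le_antisymm (not_lt.mp h1) (l9ci_sc_one _ _)
      rw [this, one_mul, H.lk.Y]
      exact le_max_right _ _
  have hEE : 0 ≤ Sc.lam * Sc.Y ^ 5 * (Sc.x / Sc.Y + Sc.gB) := by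
    have := Sc.hlam; have := Sc.Y_pos; have := Sc.gB_pos
    positivity
  have hpow := l13y_pow (W := max vt Y) (J0 := jm) (P := l13yP jm (jm + 1)) (p0 := 2 * pm) hx0 hx1 hG0.le hG hρ hP hp0 Sc.hlam.le hl1 hEE
  have hK0 : 0 ≤ l13yK jm := by
    unfold l13yK
    have := l13y_C_nonneg jm
    positivity
  have hB : ∀ (j : ℕ) (A' : ℝ), j ≤ jm → 1 ≤ A' → A' * D.Sc.Y ≤ max vt Y →
      D.Bd j A' (max 1 (l13zKJ D jm (A * (2 * A) ^ jm) A (G / ρ))) (l13zEJ D jm (G / ρ))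
        ≤ l13yCf jm Cg (max vt Y) * Sc.x ^ (-δ) * (Sc.lam * Sc.Y ^ 5 * (Sc.x / Sc.Y + Sc.gB) + Sc.x ^ K) := by
    intro j A' hj' hA' hAW
    refine (l13y_Bd_le (D := D) (q := jm + 1) hG1 hρ0 hρ1 rfl hD.hLm0 le_rfl hD.hM0 le_rfl hK10 (by linarith) hKc hx1 hxY hj' hA' hAW).trans ?_
    rw [mul_assoc]
    refine (mul_le_mul_of_nonneg_left hpow hK0).trans (le_of_eq ?_)
    unfold l13yCf
    ring
  refine l13y_val_le hD (le_max_left _ _) hE0 hI hW ?_ hB hT hj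
  have hCg : 0 ≤ Cg := by
    by_contra hn
    have : Cg * Sc.x ^ (-(2 * δ1)) < 0 := mul_neg_of_neg_of_pos (not_le.mp hn) (Real.rpow_pos_of_pos hx0 _)
    linarith
  have h1 := Real.rpow_pos_of_pos hx0 (-δ)
  have h2 := Real.rpow_pos_of_pos hx0 K
  unfold l13yCf
  positivity

/-! ## the pointwise form of helper153 -/

/-- the random records are antitone in the degree -/
theorem L8In.Rnd.l13y_anti {I : L8In} {tl : Bool} {e : ℕ → ℝ} {A Y Zh vt vp : ℝ} {pm jm jm' : ℕ} (h : I.Rnd tl e A Y Zh vt vp pm jm) (hj : jm' ≤ jm) :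
    I.Rnd tl e A Y Zh vt vp pm jm' :=
  ⟨h.raw_X, h.raw_L, h.raw_Q, h.ref_X, h.ref_L, h.ref_Q, fun r h1 h2 j hj' => h.d7_W r h1 h2 j (hj'.trans hj), h.d7_C, h.d7_Q, h.d9_W, h.d9_Q,
    fun r h1 h2 j hj1 hj2 => h.d10 r h1 h2 j hj1 (hj2.trans hj), h.d10_low, h.proj⟩

/-- the hypotheses of helper70 are antitone in the degree and monotone in the loss `Lo` -/
theorem L9ciHyp.l13y_anti {I : L8In} {Sc : L13Scales} {e : ℕ → ℝ} {A Y Zh vt vp cE : ℝ} {pm jm jm' Kb : ℕ} {Lo Lo' Lm M : ℝ}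
    (H : L9ciHyp I Sc e A Y Zh vt vp cE pm jm Lo Lm M Kb) (hj : jm' ≤ jm) (hLo : Lo ≤ Lo') : L9ciHyp I Sc e A Y Zh vt vp cE pm jm' Lo' Lm M Kb :=
  ⟨H.std, H.ok, H.fine, H.lk, H.env, H.num, fun en => (H.rnd en).l13y_anti hj, H.A1, H.pm1, H.hLm, H.hLmLo.trans hLo, H.hKb, H.hLo.trans hLo, H.hM, H.hMe⟩

/-- the choice of the exponent and of the order -/
theorem l13y_choice (PM PE J : ℕ) (K : ℝ) {δ : ℝ} (hδ : 0 < δ) : ∃ (d1 : ℝ) (pm : ℕ), 0 < d1 ∧ d1 ≤ δ ∧ 2 ≤ pm ∧ J ≤ 2 * pm ∧ (PM : ℝ) * (3 * d1) ≤ δ ∧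
    K + J + ((PE + J : ℕ) : ℝ) * (3 * d1) ≤ d1 * (2 * pm : ℕ) := by
  set d1 : ℝ := δ / (3 * (PM + 1)) with hd
  have hPM : (0 : ℝ) < 3 * (PM + 1) := by positivity
  have hd0 : 0 < d1 := div_pos hδ hPM
  set pm : ℕ := max (max 2 J) ⌈(K + J + ((PE + J : ℕ) : ℝ) * (3 * d1)) / (2 * d1)⌉₊ with hpm
  refine ⟨d1, pm, hd0, ?_, le_trans (le_max_left 2 J) (le_max_left _ _), ?_, ?_, ?_⟩
  · rw [hd, div_le_iff₀ hPM]
    have : (0 : ℝ) ≤ PM := Nat.cast_nonneg _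
    nlinarith
  · have : J ≤ pm := le_trans (le_max_right 2 J) (le_max_left _ _)
    omega
  · have e : (PM : ℝ) * (3 * d1) = δ * (PM / (PM + 1)) := by rw [hd]; field_simp
    rw [e]
    have : (PM : ℝ) / (PM + 1) ≤ 1 := by rw [div_le_one (by positivity)]; linarith
    nlinarith
  · have h1 : (K + J + ((PE + J : ℕ) : ℝ) * (3 * d1)) / (2 * d1) ≤ (pm : ℝ) :=
      (Nat.le_ceil _).trans (by exact_mod_cast le_max_right _ _)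
    rw [div_le_iff₀ (by positivity)] at h1
    push_cast at h1 ⊢
    linarith

section num
variable (Mj : L9Mj)

/-- **POINTWISE FORM, full tables** (`L9rcNum` of helper153 at `Q.CCw`, any degree): supply of W5 -/
theorem l13y_num_ccw (K : ℝ) (J0 : ℕ) : L9rcNum Mj J0 fun Q e A vt => Q.CCw Mj e A vt K J0 := by
  intro δ hδ
  obtain ⟨d1, pm, hd0, hdδ, hpm, hJ, h1, h2⟩ := l13y_choice (l9cfPM J0) (l9cfPE J0) J0 K hδ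
  refine ⟨d1, pm, hd0, hdδ, hpm, fun Cg Vt => ⟨l9cfC J0 (max 1 Vt) (2 * Cg), ?_⟩⟩
  intro Q hx hl hz e A Zh vt vp cE G jm Kb H hjm hG hvt hx1 hY1
  have hρ0 : 0 < Q.x ^ d1 := Real.rpow_pos_of_pos hx _
  have hρ1 : Q.x ^ d1 ≤ 1 := Real.rpow_le_one hx.le hx1 hd0.le
  have hG2 : (2 : ℝ) ≤ G := H.hM
  have hLo4 : 4 ≤ G / Q.x ^ d1 := by
    have h3 := H.hLo
    have h4 := H.A1
    have h5 : (0 : ℝ) ≤ Kb := Nat.cast_nonneg _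
    nlinarith
  have H' := H.l13y_anti (Lo' := 2 * (G / Q.x ^ d1)) hjm (by linarith)
  have hGH : G ≤ G / Q.x ^ d1 := by rw [le_div_iff₀ hρ0]; nlinarith
  refine l9cf_ccw_pow (δL := 3 * d1) (δ2 := d1) (W0 := max 1 Vt) (CL := 2 * Cg) H' rfl hJ (by linarith) hx1 ?_ ?_ ?_ ?_ hδ.le h1 h2
  · exact max_le (le_max_left _ _) (max_le (hvt.trans (le_max_right _ _)) (hY1.trans (le_max_left _ _)))
  · have hW : (1 : ℝ) ≤ max 1 Vt := le_max_left _ _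
    have : max 1 G ≤ 2 * (G / Q.x ^ d1) := max_le (by linarith) (by linarith)
    exact this.trans (le_mul_of_one_le_right (by linarith) hW)
  · rw [mul_assoc]
    refine mul_le_mul_of_nonneg_left ?_ (by norm_num)
    rw [div_le_iff₀ hρ0, mul_assoc, ← Real.rpow_add hx]
    have : -(3 * d1) + d1 = -(2 * d1) := by ring
    rw [this]
    exact hG
  · have : G / (2 * (G / Q.x ^ d1)) = Q.x ^ d1 / 2 := by
      have hG0 : G ≠ 0 := by linarith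
      field_simp
    rw [this]
    linarith

/-- **POINTWISE FORM, skeletons** (`L9rcNum` of helper153 at `Q.CC`): supply of RED -/
theorem l13y_num_cc (K Cs : ℝ) (hCs : 4 ≤ Cs) : L9rcNum Mj 4 fun Q e A vt => Q.CC Mj e A vt K Cs := by
  intro δ hδ
  obtain ⟨d1, pm, hd0, hdδ, hpm, hC⟩ := l13y_num_ccw Mj K 4 δ hδ
  refine ⟨d1, pm, hd0, hdδ, hpm, fun Cg Vt => ?_⟩
  obtain ⟨C, hC'⟩ := hC Cg Vt
  refine ⟨2 * C, ?_⟩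
  intro Q hx hl hz e A Zh vt vp cE G jm Kb H hjm hG hvt hx1 hY1
  have h := hC' Q hx hl hz e A Zh vt vp cE G jm Kb H hjm hG hvt hx1 hY1
  rw [mul_assoc]
  refine l9cf_cc_of_ccw H.isMs H.Ypos hl.le (fun t => ?_) h hCs
  unfold l9rsE
  split_ifs with ht
  · exact (H.e_pos ht).le
  · exact le_rfl

end num

/-! ## the two exits -/

theorem l13y_F_ok (F0 : LlFix) (par : LLPar) :
    (0 ≤ (l9qF F0 par).eta ∧ 0 ≤ (l9qF F0 par).sS ∧ 0 ≤ (l9qF F0 par).pS) ∧ (l9qF F0 par).pS * (l9qF F0 par).sS ≤ 2 := by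
  have h := l9q_expOk par
  have hs : (l9qF F0 par).sS = par.sStar := rfl
  have hη : (l9qF F0 par).eta = par.eta := rfl
  have hpS : (l9qF F0 par).pS = par.pStar := rfl
  have h1 := h.s_lo
  have h2 := h.s_hi
  have h3 := h.e_lo
  have h4 := h.p_lo
  have h5 := h.p_hi
  rw [hs, hη, hpS]
  refine ⟨⟨h3.le, by linarith, h4.le⟩, ?_⟩
  nlinarith

/-- **CC = Lemma 9.1 on tables, size**: body of `exit_l9_ccS` (`L09/BndExit.lean`) -/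
theorem l13y_exit_ccS (F0 : LlFix) : LLGood fun par => ∀ v0 v1 cE : ℝ, 0 < v0 → 0 < v1 → 0 < cE → L9cCCS llBase (l9qMj par) (l9qF F0 par) v0 v1 cE :=
  .of_forall fun par v0 v1 cE hv0 _ _ =>
    l9rc_ccS llBase (l9qF F0 par) (l13y_F_ok F0 par).1 (l13y_F_ok F0 par).2 par.cC (fun K Cs hCs => l13y_num_cc _ K Cs hCs) hv0 v1 cE

/-- **CC = Lemma 9.1 on tables, direct**: body of `exit_l9_ccD` (`L09/BndExit.lean`) -/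
theorem l13y_exit_ccD (F0 : LlFix) : LLGood fun par => ∀ C0 δ0 v0 cE : ℝ, 1 ≤ C0 → 0 < δ0 → 0 < v0 → 0 < cE →
    L9cCCD llBase (l9qMj par) par.kappa (l9qF F0 par) C0 δ0 v0 cE :=
  .of_forall fun par C0 δ0 v0 cE _ hδ0 _ _ =>
    l9rc_ccD llBase (l9qF F0 par) (l13y_F_ok F0 par).1 par.cC par.kappa_pos (fun K Cs hCs => l13y_num_cc _ K Cs hCs) C0 hδ0 v0 cE

/-! ## the contracts of `Q.CCw` (W5, TRD), any degree -/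

open Filter in
/-- **CCw = Lemma 9.1 on full tables, ANY degree `J`, strength sweep, all masses (`vt = Q.p.a`)**: the text of `L9cCCD` (153) with the conclusion `Q.CCw` (= `L9wCCD` of 291 / 299, unfolded) -/
theorem l13y_ccwD (𝔹 : LlBase) (F : LlFix) (hF : 0 ≤ F.eta ∧ 0 ≤ F.sS ∧ 0 ≤ F.pS) (c : ℝ) {κ : ℝ} (hκ : 0 < κ) (C0 : ℝ) {δ0 : ℝ} (hδ0 : 0 < δ0)
    (v0 cE : ℝ) (J : ℕ) :
    ∀ K : ℝ, ∀ δ : ℝ, 0 < δ → ∃ (pm jm : ℕ) (Km δ1 δ' : ℝ), 2 ≤ pm ∧ 1 ≤ Km ∧ 0 < δ1 ∧ δ1 ≤ δ ∧ 0 < δ' ∧ δ' ≤ δ0 ∧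
    ∀ ε : ℝ, 0 < ε → ∀ q : ℝ, 0 < q → ∀ C1 : ℝ, ∃ (C : ℝ) (N0 : ℕ), ∀ N : ℕ, N0 ≤ N → ∀ᶠ Fs : Finset GhPos in atTop,
      ∀ (m : ℕ) (ell : ℝ) (γ : Fin (N + 1) → ℝ) (t : ℝ), L9HyD F 𝔹 (l8Mj c) κ N (q * skX N ^ (1 + ε)) (skX N ^ ε) Fs m ell γ t →
        ∀ (Q : L9Q) (e : ℕ → ℝ), Q = l9QD F 𝔹 (q * skX N ^ (1 + ε)) Fs m N ell γ t → Q.i8.Ok → Q.i8.Fine (Q.x ^ Km) →
          Q.i8.Both e (C1 * skX N ^ (-δ1)) Q.i8.Y Q.i8.Z Q.i8.a v0 cE pm jm → Q.i8.D8 e (C1 * skX N ^ (-δ1)) C0 δ' →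
            Q.CCw (l8Mj c) (l9rsE Q.N e) (C * skX N ^ (-δ)) Q.p.a K J := by
  intro K δ hδ
  obtain ⟨pm, δ1, hpm, hδ1, hδ1', H⟩ := l9rc_shellD 𝔹 F hF c hκ (l13y_num_ccw (l8Mj c) K J) v0 cE hδ
  refine ⟨pm, J, 1, δ1, δ0, hpm, le_rfl, hδ1, hδ1', hδ0, le_rfl, fun ε hε q hq C1 => ?_⟩
  obtain ⟨C, hC⟩ := H J 1 le_rfl ε hε q hq C1
  exact ⟨C, 2, fun N hN => Eventually.of_forall fun Fs m ell γ t hy Q e hQ hok hfi hBo _ => hC N hN Fs m ell γ t hy Q e hQ hok hfi hBo⟩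

open Filter in
/-- the same in the form `LLGood` (body of `exit_l9_ccwD`) -/
theorem l13y_exit_ccwD (F0 : LlFix) : LLGood fun par => ∀ (J : ℕ) (C0 δ0 v0 cE : ℝ), 1 ≤ C0 → 0 < δ0 → 0 < v0 → 0 < cE →
    ∀ K : ℝ, ∀ δ : ℝ, 0 < δ → ∃ (pm jm : ℕ) (Km δ1 δ' : ℝ), 2 ≤ pm ∧ 1 ≤ Km ∧ 0 < δ1 ∧ δ1 ≤ δ ∧ 0 < δ' ∧ δ' ≤ δ0 ∧
    ∀ ε : ℝ, 0 < ε → ∀ q : ℝ, 0 < q → ∀ C1 : ℝ, ∃ (C : ℝ) (N0 : ℕ), ∀ N : ℕ, N0 ≤ N → ∀ᶠ Fs : Finset GhPos in atTop,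
      ∀ (m : ℕ) (ell : ℝ) (γ : Fin (N + 1) → ℝ) (t : ℝ), L9HyD (l9qF F0 par) llBase (l9qMj par) par.kappa N (q * skX N ^ (1 + ε)) (skX N ^ ε) Fs m ell γ t →
        ∀ (Q : L9Q) (e : ℕ → ℝ), Q = l9QD (l9qF F0 par) llBase (q * skX N ^ (1 + ε)) Fs m N ell γ t → Q.i8.Ok → Q.i8.Fine (Q.x ^ Km) →
          Q.i8.Both e (C1 * skX N ^ (-δ1)) Q.i8.Y Q.i8.Z Q.i8.a v0 cE pm jm → Q.i8.D8 e (C1 * skX N ^ (-δ1)) C0 δ' →
            Q.CCw (l9qMj par) (l9rsE Q.N e) (C * skX N ^ (-δ)) Q.p.a K J :=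
  .of_forall fun par J C0 δ0 v0 cE _ hδ0 _ _ => l13y_ccwD llBase (l9qF F0 par) (l13y_F_ok F0 par).1 par.cC par.kappa_pos C0 hδ0 v0 cE J

open Filter in
/-- **CCw, size segment, ANY degree `J`**: the text of `L9cCCS` (153) with the conclusion `Q.CCw` at `vt = v0` -/
theorem l13y_ccwS (𝔹 : LlBase) (F : LlFix) (hF : 0 ≤ F.eta ∧ 0 ≤ F.sS ∧ 0 ≤ F.pS) (hps : F.pS * F.sS ≤ 2) (c : ℝ) {v0 : ℝ} (hv0 : 0 < v0) (v1 cE : ℝ) (J : ℕ) :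
    ∀ K : ℝ, ∀ δ : ℝ, 0 < δ → ∃ (pm jm : ℕ) (Km δ1 : ℝ), 2 ≤ pm ∧ 1 ≤ Km ∧ 0 < δ1 ∧ δ1 ≤ δ ∧
    ∀ ε : ℝ, 0 < ε → ∀ q : ℝ, 0 < q → ∀ C1 : ℝ, ∃ (C : ℝ) (N0 : ℕ), ∀ N : ℕ, N0 ≤ N → ∀ᶠ Fs : Finset GhPos in atTop,
      ∀ (m : ℕ) (γ : Fin (N + 1) → ℝ) (θ : ℝ), L9HyS F 𝔹 N (q * skX N ^ (1 + ε)) (skX N ^ ε) Fs m γ θ →
        ∀ (Q : L9Q) (e : ℕ → ℝ), Q = l9QS F 𝔹 (q * skX N ^ (1 + ε)) Fs m N γ θ → Q.i8.Ok → Q.i8.Fine (Q.x ^ Km) → 1 ≤ Q.i8.Zc llDStar →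
          Q.i8.Both e (C1 * skX N ^ (-δ1)) (Q.i8.Yc llDStar) 1 v0 v1 cE pm jm →
            Q.CCw (l8Mj c) (l9rsE Q.N e) (C * skX N ^ (-δ)) v0 K J := by
  intro K δ hδ
  obtain ⟨pm, δ1, hpm, hδ1, hδ1', H⟩ := l9rc_shellS 𝔹 F hF hps c (l13y_num_ccw (l8Mj c) K J) hv0 v1 cE hδ
  refine ⟨pm, J, 1, δ1, hpm, le_rfl, hδ1, hδ1', fun ε hε q hq C1 => ?_⟩
  obtain ⟨C, N0, hC⟩ := H J 1 le_rfl ε hε q hq C1
  exact ⟨C, N0, fun N hN => Eventually.of_forall fun Fs m γ θ hy Q e hQ hok hfi hZ hBo => hC N hN Fs m γ θ hy Q e hQ hok hfi hZ hBo⟩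

end Claimed.Agent.R286
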