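import Claimed.Agent.R286.L09.KeyA

/-!
# Row 286 (S0533), LL Sec. 9, node LC1, S5 KEY, ABSTRACT PART, file B: ASSEMBLY      (owner: helper98, third architect of KEY; prefix `l9y`)      with helper285 (`L09/KeyA.lean`: defs, LOCU, CUT, INDEP, SRC)

**`l9z_key`** (= `l9y_key`) PROVED HERE, 0 sorry, from the leaves `l9z_cut`, `l9z_indep`, `l9z_src` of `L09/KeyA.lean` (helper285, helper239, helper26; proved).      §4 = helper255.
* §1 `trFld` : bounded continuous functions, linearity (`l9y_fld_*`; on `ghA`, `GhBC` of `Defs/GhBasic`);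
* §2 `l9zW`  : congruence, boundedness, LINEARITY IN ONE LEAF (`l9y_W_lin`);
* §3 MARKOV  : `l9y_markov` : a fixed table, tests which live in the blocks of the leaves of `s` (induction on `s`: CUT, INDEP);
* §4 REGULARITY : `L9zReg` for tree numbers, `ghE`, closure under `𝒟`; `𝒟^[n]` commutes with finite sums;
* §5 the slots are summed one at a time (induction on the list of anchors, the table generalised): `l9y_main`, `l9y_key`.
-/

set_option autoImplicit false

namespace Claimed.Agent.R286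

open MeasureTheory ProbabilityTheory

section
variable {S ι : Type} [Fintype S] [Fintype ι]

/-! ## 1. `trFld` -/

omit [Fintype S] [Fintype ι] in
theorem l9y_nn_drop {ls : List (GhLv S ι)} (h : GhNn ls) (u : ℕ) : GhNn (ls.drop u) :=
  fun l hl => h l (List.mem_of_mem_drop hl)

omit [Fintype S] [Fintype ι] in
theorem l9y_adm_drop {B : GhB S} {ls : List (GhLv S ι)} (h : GhAdm B 0 ls) (u : ℕ) : GhAdm B 0 (ls.drop u) :=
  ⟨h.1.sublist (List.drop_sublist u ls), fun l hl => h.2 l (List.mem_of_mem_drop hl)⟩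

theorem l9y_fld_bc {B : GhB S} (hB : B.Ok) {f : (S → ℝ) → ℝ} {M : ℝ} (hf : GhBC f M) :
    ∀ (ls : List (GhLv S ι)), GhNn ls → ∀ n : ℕ, GhBC (fun z => trFld B ls n z f) M
  | [], _, _ => by simpa [trFld] using hf
  | _ :: _, _, 0 => by simpa [trFld] using hf
  | l :: ls, h, n + 1 => gh_b_A_bc hB h (l9y_fld_bc hB hf ls h.tail n)

theorem l9y_fld_add {B : GhB S} (hB : B.Ok) {f g : (S → ℝ) → ℝ} {M M' : ℝ} (hf : GhBC f M) (hg : GhBC g M') :
    ∀ (ls : List (GhLv S ι)), GhNn ls → ∀ (n : ℕ) (z : S → ℝ),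
      trFld B ls n z (fun y => f y + g y) = trFld B ls n z f + trFld B ls n z g
  | [], _, _, _ => by simp [trFld]
  | _ :: _, _, 0, _ => by simp [trFld]
  | l :: ls, h, n + 1, z => by
      have e : (fun z' => trFld B ls n z' fun y => f y + g y) = fun z' => trFld B ls n z' f + trFld B ls n z' g :=
        funext fun z' => l9y_fld_add hB hf hg ls h.tail n z'
      show ghA B l ls (fun z' => trFld B ls n z' fun y => f y + g y) z = ghA B l ls (fun z' => trFld B ls n z' f) z
        + ghA B l ls (fun z' => trFld B ls n z' g) z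
      rw [e]
      exact gh_b_A_add hB h (l9y_fld_bc hB hf ls h.tail n) (l9y_fld_bc hB hg ls h.tail n) z

theorem l9y_fld_const_mul (B : GhB S) (c : ℝ) (f : (S → ℝ) → ℝ) :
    ∀ (ls : List (GhLv S ι)) (n : ℕ) (z : S → ℝ), trFld B ls n z (fun y => c * f y) = c * trFld B ls n z f
  | [], _, _ => by simp [trFld]
  | _ :: _, 0, _ => by simp [trFld]
  | l :: ls, n + 1, z => by
      have e : (fun z' => trFld B ls n z' fun y => c * f y) = fun z' => c * trFld B ls n z' f :=
        funext fun z' => l9y_fld_const_mul B c f ls n z'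
      show ghA B l ls (fun z' => trFld B ls n z' fun y => c * f y) z = c * ghA B l ls (fun z' => trFld B ls n z' f) z
      rw [e]
      exact gh_b_A_const_mul _ c z

theorem l9y_bc_sum {κ : Type} (I : Finset κ) (w : κ → ℝ) {f : κ → (S → ℝ) → ℝ} (hf : ∀ i ∈ I, ∃ M, GhBC (f i) M) :
    ∃ M, GhBC (fun y => ∑ i ∈ I, w i * f i y) M := by
  classical
  induction I using Finset.induction_on with
  | empty => exact ⟨_, by simpa using gh_b_bc_const (S := S) 0⟩
  | insert a I ha ih =>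
    obtain ⟨M1, h1⟩ := hf a (Finset.mem_insert_self a I)
    obtain ⟨M2, h2⟩ := ih fun i hi => hf i (Finset.mem_insert_of_mem hi)
    refine ⟨|w a| * M1 + M2, ?_⟩
    simp only [Finset.sum_insert ha]
    exact (h1.const_mul (w a)).add h2

theorem l9y_fld_sum {B : GhB S} (hB : B.Ok) {ls : List (GhLv S ι)} (h : GhNn ls) (n : ℕ) (z : S → ℝ) {κ : Type} (I : Finset κ)
    (w : κ → ℝ) {f : κ → (S → ℝ) → ℝ} (hf : ∀ i ∈ I, ∃ M, GhBC (f i) M) :
    trFld B ls n z (fun y => ∑ i ∈ I, w i * f i y) = ∑ i ∈ I, w i * trFld B ls n z (f i) := by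
  classical
  induction I using Finset.induction_on with
  | empty => simpa using tr_b3_fld_const hB 0 ls h n z
  | insert a I ha ih =>
    obtain ⟨M1, h1⟩ := hf a (Finset.mem_insert_self a I)
    obtain ⟨M2, h2⟩ := l9y_bc_sum I w fun i hi => hf i (Finset.mem_insert_of_mem hi)
    simp only [Finset.sum_insert ha]
    rw [l9y_fld_add hB (h1.const_mul (w a)) h2 ls h n z, l9y_fld_const_mul, ih fun i hi => hf i (Finset.mem_insert_of_mem hi)]

/-! ## 2. `l9zW` -/

theorem l9y_labs_nonempty : ∀ s : L9Bt, s.labs.Nonempty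
  | .leaf A => ⟨A, by simp [L9Bt.labs]⟩
  | .fork _ l _ => by
      obtain ⟨A, hA⟩ := l9y_labs_nonempty l
      exact ⟨A, by simp [L9Bt.labs, hA]⟩

theorem l9y_W_congr (B : GhB S) (ls : List (GhLv S ι)) (t : ℕ) {f g : ℕ → (S → ℝ) → ℝ} :
    ∀ (s : L9Bt), (∀ A ∈ s.labs, f A = g A) → ∀ (u : ℕ) (z : S → ℝ), l9zW B ls t f s u z = l9zW B ls t g s u z
  | .leaf A, h, u, z => by
      simp only [l9zW]
      rw [h A (by simp [L9Bt.labs])]
  | .fork d l r, h, u, z => by
      simp only [l9zW]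
      congr 1
      funext G
      rw [l9y_W_congr B ls t l (fun A hA => h A (by simp [L9Bt.labs, hA])) d G,
        l9y_W_congr B ls t r (fun A hA => h A (by simp [L9Bt.labs, hA])) d G]

theorem l9y_W_bc {B : GhB S} (hB : B.Ok) {ls : List (GhLv S ι)} (h : GhNn ls) (t : ℕ) {f : ℕ → (S → ℝ) → ℝ} :
    ∀ (s : L9Bt), (∀ A ∈ s.labs, ∃ M, GhBC (f A) M) → ∀ u : ℕ, ∃ M, GhBC (fun z => l9zW B ls t f s u z) M
  | .leaf A, hf, u => by
      obtain ⟨M, hM⟩ := hf A (by simp [L9Bt.labs])
      exact ⟨M, by simpa only [l9zW] using l9y_fld_bc hB hM (ls.drop u) (l9y_nn_drop h u) (t - u)⟩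
  | .fork d l r, hf, u => by
      obtain ⟨M1, h1⟩ := l9y_W_bc hB h t l (fun A hA => hf A (by simp [L9Bt.labs, hA])) d
      obtain ⟨M2, h2⟩ := l9y_W_bc hB h t r (fun A hA => hf A (by simp [L9Bt.labs, hA])) d
      exact ⟨M1 * M2, by simpa only [l9zW] using l9y_fld_bc hB (h1.mul h2) (ls.drop u) (l9y_nn_drop h u) (d - u)⟩

/-- **LIN**: `l9zW` is linear in the function of one leaf -/
theorem l9y_W_lin {B : GhB S} (hB : B.Ok) {ls : List (GhLv S ι)} (h : GhNn ls) (t : ℕ) {sk : ℕ → ℕ → ℕ} {κ : Type} (I : Finset κ)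
    (w : κ → ℝ) (a : ℕ) {f : ℕ → (S → ℝ) → ℝ} {g : κ → (S → ℝ) → ℝ} (hg : ∀ i ∈ I, ∃ M, GhBC (g i) M) :
    ∀ (s : L9Bt), s.Cd sk t → a ∈ s.labs → (∀ A ∈ s.labs, ∃ M, GhBC (f A) M) → ∀ (u : ℕ) (z : S → ℝ),
      l9zW B ls t (Function.update f a fun G => ∑ i ∈ I, w i * g i G) s u z
        = ∑ i ∈ I, w i * l9zW B ls t (Function.update f a (g i)) s u z
  | .leaf A, _, ha, _, u, z => by
      have e : a = A := by simpa [L9Bt.labs] using ha
      subst e
      simp only [l9zW, Function.update_self]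
      exact l9y_fld_sum hB (l9y_nn_drop h u) (t - u) z I w hg
  | .fork d l r, hs, ha, hf, u, z => by
      obtain ⟨_, hdisj, _, hl, hr⟩ := hs
      have hfl : ∀ A ∈ l.labs, ∃ M, GhBC (f A) M := fun A hA => hf A (by simp [L9Bt.labs, hA])
      have hfr : ∀ A ∈ r.labs, ∃ M, GhBC (f A) M := fun A hA => hf A (by simp [L9Bt.labs, hA])
      have hup : ∀ (s' : L9Bt), (∀ A ∈ s'.labs, ∃ M, GhBC (f A) M) → ∀ i ∈ I, ∀ A ∈ s'.labs, ∃ M, GhBC (Function.update f a (g i) A) M := by
        intro s' hs' i hi A hA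
        by_cases e : A = a
        · subst e; rw [Function.update_self]; exact hg i hi
        · rw [Function.update_of_ne e]; exact hs' A hA
      have hno : ∀ (s' : L9Bt), a ∉ s'.labs → ∀ (F : (S → ℝ) → ℝ) (G : S → ℝ),
          l9zW B ls t (Function.update f a F) s' d G = l9zW B ls t f s' d G := fun s' hs' F G =>
        l9y_W_congr B ls t s' (fun A hA => Function.update_of_ne (by rintro rfl; exact hs' hA) _ _) d G
      simp only [l9zW]
      rcases Finset.mem_union.1 ha with hal | har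
      · have har : a ∉ r.labs := Finset.disjoint_left.1 hdisj hal
        have e : (fun G => l9zW B ls t (Function.update f a fun G => ∑ i ∈ I, w i * g i G) l d G
              * l9zW B ls t (Function.update f a fun G => ∑ i ∈ I, w i * g i G) r d G)
            = fun G => ∑ i ∈ I, w i * (l9zW B ls t (Function.update f a (g i)) l d G * l9zW B ls t f r d G) := by
          funext G
          rw [l9y_W_lin hB h t I w a hg l hl hal hfl d G, hno r har, Finset.sum_mul]
          exact Finset.sum_congr rfl fun i _ => by ring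
        rw [e, l9y_fld_sum hB (l9y_nn_drop h u) (d - u) z I w (fun i hi => by
          obtain ⟨M1, h1⟩ := l9y_W_bc hB h t l (hup l hfl i hi) d
          obtain ⟨M2, h2⟩ := l9y_W_bc hB h t r hfr d
          exact ⟨M1 * M2, h1.mul h2⟩)]
        refine Finset.sum_congr rfl fun i _ => ?_
        simp only [hno r har]
      · have hal : a ∉ l.labs := Finset.disjoint_right.1 hdisj har
        have e : (fun G => l9zW B ls t (Function.update f a fun G => ∑ i ∈ I, w i * g i G) l d G
              * l9zW B ls t (Function.update f a fun G => ∑ i ∈ I, w i * g i G) r d G)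
            = fun G => ∑ i ∈ I, w i * (l9zW B ls t f l d G * l9zW B ls t (Function.update f a (g i)) r d G) := by
          funext G
          rw [l9y_W_lin hB h t I w a hg r hr har hfr d G, hno l hal, Finset.mul_sum]
          exact Finset.sum_congr rfl fun i _ => by ring
        rw [e, l9y_fld_sum hB (l9y_nn_drop h u) (d - u) z I w (fun i hi => by
          obtain ⟨M1, h1⟩ := l9y_W_bc hB h t l hfl d
          obtain ⟨M2, h2⟩ := l9y_W_bc hB h t r (hup r hfr i hi) d
          exact ⟨M1 * M2, h1.mul h2⟩)]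
        refine Finset.sum_congr rfl fun i _ => ?_
        simp only [hno l hal]

/-! ## 3. MARKOV -/

theorem l9y_sub_isTr {N q : ℕ} {T : ℕ → ℕ → ℕ} (hT : IsTr N q T) {u : ℕ} (hu : u ≤ N) : IsTr (N - u) q fun x y => T x y - u where
  le := fun x y hx hy => by have := hT.le x y hx hy; omega
  diag := fun x hx => by have := hT.diag x hx; omega
  symm := fun x y hx hy => by rw [hT.symm x y hx hy]
  ultra := fun x y z hx hy hz => by have := hT.ultra x y z hx hy hz; omega

section markov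
variable [Inhabited S]

/-- CUT between two depths -/
theorem l9y_cut {B : GhB S} (hB : B.Ok) {ls : List (GhLv S ι)} (hls : GhAdm B 0 ls) {q : ℕ} {T : ℕ → ℕ → ℕ}
    (hT : IsTr ls.length q T) {u v : ℕ} (huv : u ≤ v) (hv : v ≤ ls.length) (z : S → ℝ) (U : ℕ → Prop) (hU : ∀ x, U x → x < q)
    (P : (ℕ → S) → ℝ) (hP : L9zUs U P) (hsh : ∀ x y, U x → U y → v ≤ T x y) :
    trNu B (ls.drop u) q (fun x y => T x y - u) z P
      = trFld B (ls.drop u) (v - u) z fun G => trNu B (ls.drop v) q (fun x y => T x y - v) G P := by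
  have hT' : IsTr (ls.drop u).length q fun x y => T x y - u := by
    rw [List.length_drop]; exact l9y_sub_isTr hT (huv.trans hv)
  rw [l9z_cut hB (l9y_adm_drop hls u) hT' z U hU P hP (v := v - u) (by rw [List.length_drop]; omega)
    (fun x y hx hy => by have := hsh x y hx hy; omega)]
  have e1 : (ls.drop u).drop (v - u) = ls.drop v := by rw [List.drop_drop]; congr 1; omega
  have e2 : (fun x y => T x y - u - (v - u)) = fun x y => T x y - v := by funext x y; omega
  rw [e1, e2]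

/-- INDEP at a depth -/
theorem l9y_indep {B : GhB S} (hB : B.Ok) {ls : List (GhLv S ι)} (hls : GhAdm B 0 ls) {q : ℕ} {T : ℕ → ℕ → ℕ}
    (hT : IsTr ls.length q T) {d : ℕ} (hd : d ≤ ls.length) (z : S → ℝ) (U₁ U₂ : ℕ → Prop) (hU₁ : ∀ x, U₁ x → x < q)
    (hU₂ : ∀ x, U₂ x → x < q) (P Q : (ℕ → S) → ℝ) (hP : L9zUs U₁ P) (hQ : L9zUs U₂ Q) (h0 : ∀ x y, U₁ x → U₂ y → T x y ≤ d) :
    trNu B (ls.drop d) q (fun x y => T x y - d) z (fun σ => P σ * Q σ)
      = trNu B (ls.drop d) q (fun x y => T x y - d) z P * trNu B (ls.drop d) q (fun x y => T x y - d) z Q := by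
  have hT' : IsTr (ls.drop d).length q fun x y => T x y - d := by
    rw [List.length_drop]; exact l9y_sub_isTr hT hd
  exact l9z_indep hB (l9y_adm_drop hls d) hT' z U₁ U₂ hU₁ hU₂ P Q hP hQ (fun x y hx hy => by have := h0 x y hx hy; omega)

omit [Fintype S] [Inhabited S] in
theorem l9y_us_prod {U : ℕ → Prop} (L : Finset ℕ) (P : ℕ → (ℕ → S) → ℝ) (h : ∀ A ∈ L, L9zUs U (P A)) :
    L9zUs U fun σ => ∏ A ∈ L, P A σ := fun σ σ' hσ => Finset.prod_congr rfl fun A hA => h A hA σ σ' hσ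

omit [Fintype S] [Inhabited S] in
theorem l9y_us_mono {U U' : ℕ → Prop} {P : (ℕ → S) → ℝ} (h : L9zUs U P) (hU : ∀ x, U x → U' x) : L9zUs U' P :=
  fun σ σ' hσ => h σ σ' fun x hx => hσ x (hU x hx)

/-- **MARKOV**: a fixed table `T`; the test is a product over the leaves `A` of `s` of tests which live in the block of depth `t` above `A` -/
theorem l9y_markov {B : GhB S} (hB : B.Ok) {ls : List (GhLv S ι)} (hls : GhAdm B 0 ls) {q : ℕ} {T : ℕ → ℕ → ℕ}
    (hT : IsTr ls.length q T) {t : ℕ} (ht : t ≤ ls.length) (P : ℕ → (ℕ → S) → ℝ) :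
    ∀ (s : L9Bt), s.Cd T t → (∀ A ∈ s.labs, A < q) → (∀ A ∈ s.labs, L9zUs (fun x => x < q ∧ t ≤ T A x) (P A)) →
      ∀ (u : ℕ), u ≤ t → (∀ A ∈ s.labs, ∀ A' ∈ s.labs, u ≤ T A A') → ∀ z : S → ℝ,
      trNu B (ls.drop u) q (fun x y => T x y - u) z (fun σ => ∏ A ∈ s.labs, P A σ)
        = l9zW B ls t (fun A G => trNu B (ls.drop t) q (fun x y => T x y - t) G (P A)) s u z
  | .leaf A, _, hq, hP, u, hu, _, z => by
      have hA : A ∈ (L9Bt.leaf A).labs := by simp [L9Bt.labs]
      simp only [l9zW, L9Bt.labs, Finset.prod_singleton]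
      refine l9y_cut hB hls hT hu ht z (fun x => x < q ∧ t ≤ T A x) (fun x hx => hx.1) (P A) (hP A hA) ?_
      intro x y hx hy
      exact l9p_trans hT hx.1 (hq A hA) hy.1 (l9p_symm hT (hq A hA) hx.1 hx.2) hy.2
  | .fork d l r, hs, hq, hP, u, hu, hsh, z => by
      obtain ⟨hdt, hdisj, hcross, hl, hr⟩ := hs
      have hml : ∀ A ∈ l.labs, A ∈ (L9Bt.fork d l r).labs := fun A hA => by simp [L9Bt.labs, hA]
      have hmr : ∀ A ∈ r.labs, A ∈ (L9Bt.fork d l r).labs := fun A hA => by simp [L9Bt.labs, hA]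
      obtain ⟨A0, hA0⟩ := l9y_labs_nonempty l
      obtain ⟨B0, hB0⟩ := l9y_labs_nonempty r
      have hud : u ≤ d := by rw [← hcross A0 hA0 B0 hB0]; exact hsh A0 (hml A0 hA0) B0 (hmr B0 hB0)
      have hdN : d ≤ ls.length := hdt.le.trans ht
      -- pairs of leaves share at least `d` stages
      have hll : ∀ A ∈ l.labs, ∀ A' ∈ l.labs, d ≤ T A A' := fun A hA A' hA' =>
        l9p_trans hT (hq A (hml A hA)) (hq B0 (hmr B0 hB0)) (hq A' (hml A' hA')) (hcross A hA B0 hB0).ge
          (l9p_symm hT (hq A' (hml A' hA')) (hq B0 (hmr B0 hB0)) (hcross A' hA' B0 hB0).ge)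
      have hrr : ∀ A ∈ r.labs, ∀ A' ∈ r.labs, d ≤ T A A' := fun A hA A' hA' =>
        l9p_trans hT (hq A (hmr A hA)) (hq A0 (hml A0 hA0)) (hq A' (hmr A' hA'))
          (l9p_symm hT (hq A0 (hml A0 hA0)) (hq A (hmr A hA)) (hcross A0 hA0 A hA).ge) (hcross A0 hA0 A' hA').ge
      have hall : ∀ A ∈ (L9Bt.fork d l r).labs, ∀ A' ∈ (L9Bt.fork d l r).labs, d ≤ T A A' := by
        intro A hA A' hA'
        rcases Finset.mem_union.1 hA with h1 | h1 <;> rcases Finset.mem_union.1 hA' with h2 | h2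
        · exact hll A h1 A' h2
        · exact (hcross A h1 A' h2).ge
        · exact l9p_symm hT (hq A' hA') (hq A hA) (hcross A' h2 A h1).ge
        · exact hrr A h1 A' h2
      let Ul : ℕ → Prop := fun x => x < q ∧ ∃ A ∈ l.labs, t ≤ T A x
      let Ur : ℕ → Prop := fun x => x < q ∧ ∃ A ∈ r.labs, t ≤ T A x
      have hPl : L9zUs Ul fun σ => ∏ A ∈ l.labs, P A σ :=
        l9y_us_prod _ _ fun A hA => l9y_us_mono (hP A (hml A hA)) fun x hx => ⟨hx.1, A, hA, hx.2⟩
      have hPr : L9zUs Ur fun σ => ∏ A ∈ r.labs, P A σ :=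
        l9y_us_prod _ _ fun A hA => l9y_us_mono (hP A (hmr A hA)) fun x hx => ⟨hx.1, A, hA, hx.2⟩
      have e0 : (fun σ : ℕ → S => ∏ A ∈ (L9Bt.fork d l r).labs, P A σ)
          = fun σ => (∏ A ∈ l.labs, P A σ) * ∏ A ∈ r.labs, P A σ := by
        funext σ
        exact Finset.prod_union hdisj
      have hPP : L9zUs (fun x => Ul x ∨ Ur x) fun σ => (∏ A ∈ l.labs, P A σ) * ∏ A ∈ r.labs, P A σ := fun σ σ' hσ => by
        have h1 : (∏ A ∈ l.labs, P A σ) = ∏ A ∈ l.labs, P A σ' := hPl σ σ' fun x hx => hσ x (Or.inl hx)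
        have h2 : (∏ A ∈ r.labs, P A σ) = ∏ A ∈ r.labs, P A σ' := hPr σ σ' fun x hx => hσ x (Or.inr hx)
        show _ * _ = _ * _
        rw [h1, h2]
      have hanc : ∀ x, Ul x ∨ Ur x → x < q ∧ ∃ A ∈ (L9Bt.fork d l r).labs, t ≤ T A x := by
        rintro x (⟨h1, A, hA, h2⟩ | ⟨h1, A, hA, h2⟩)
        · exact ⟨h1, A, hml A hA, h2⟩
        · exact ⟨h1, A, hmr A hA, h2⟩
      rw [e0, l9y_cut hB hls hT hud hdN z (fun x => Ul x ∨ Ur x) (fun x hx => (hanc x hx).1) _ hPP (by
        intro x y hx hy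
        obtain ⟨hxq, A, hA, h1⟩ := hanc x hx
        obtain ⟨hyq, A', hA', h2⟩ := hanc y hy
        exact l9p_trans hT hxq (hq A hA) hyq (l9p_symm hT (hq A hA) hxq (hdt.le.trans h1))
          (l9p_trans hT (hq A hA) (hq A' hA') hyq (hall A hA A' hA') (hdt.le.trans h2)))]
      simp only [l9zW]
      congr 1
      funext G
      rw [l9y_indep hB hls hT hdN G Ul Ur (fun x hx => hx.1) (fun x hx => hx.1) _ _ hPl hPr (by
        rintro x y ⟨hxq, A, hA, h1⟩ ⟨hyq, A', hA', h2⟩
        by_contra hcon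
        have h3 : d + 1 ≤ T x y := by omega
        have h4 : d + 1 ≤ T A A' :=
          l9p_trans hT (hq A (hml A hA)) hxq (hq A' (hmr A' hA')) (by omega)
            (l9p_trans hT hxq hyq (hq A' (hmr A' hA')) h3 (l9p_symm hT (hq A' (hmr A' hA')) hyq (by omega)))
        rw [hcross A hA A' hA'] at h4
        omega),
        l9y_markov hB hls hT ht P l hl (fun A hA => hq A (hml A hA)) (fun A hA => hP A (hml A hA)) d hdt.le hll G,
        l9y_markov hB hls hT ht P r hr (fun A hA => hq A (hmr A hA)) (fun A hA => hP A (hmr A hA)) d hdt.le hrr G]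

end markov

/-! ## 4. REGULARITY      (all 8 statements PROVED, helper255) -/

section reg
variable [Inhabited S]

omit [Inhabited S] in
theorem l9y_reg_bc {f : (S → ℝ) → ℝ} (hf : L9zReg f) : ∃ M, GhBC f M := by
  obtain ⟨C, hC⟩ := (hf 0).bdd
  exact ⟨C, (hf 0).continuous, fun z => by simpa using hC z⟩

omit [Fintype ι] in
/-- a test which uses `q` labels is bounded (`S` finite) -/
theorem l9y_uses_bdd {q : ℕ} (P : (ℕ → S) → ℝ) (hP : TrUses q P) : ∃ M, ∀ σ, |P σ| ≤ M := by
  classical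
  refine ⟨∑ ρ : Fin q → S, |P (trExt ρ)|, fun σ => ?_⟩
  have e : P σ = P (trExt fun i : Fin q => σ i.1) := hP _ _ fun i hi => by simp [trExt, hi]
  rw [e]
  exact Finset.single_le_sum (f := fun ρ : Fin q → S => |P (trExt ρ)|) (fun _ _ => abs_nonneg _) (Finset.mem_univ _)

theorem l9y_reg_nu {B : GhB S} (hB : B.Ok) {ls' : List (GhLv S ι)} (hls' : GhAdm B 0 ls') {q : ℕ} {τ : ℕ → ℕ → ℕ}
    (hτ : IsTr ls'.length q τ) (P : (ℕ → S) → ℝ) (hP : TrUses q P) : L9zReg fun G => trNu B ls' q τ G P := by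
  obtain ⟨M, hM⟩ := l9y_uses_bdd P hP
  obtain ⟨h1, h2⟩ := tr_nu_src_bounds hB hls' hτ P hP M hM
  exact fun k => ⟨h1.of_le (by exact_mod_cast le_top), fun j _ => ⟨_, fun x => h2 j x⟩⟩

theorem l9y_reg_E {B : GhB S} (hB : B.Ok) {ls' : List (GhLv S ι)} (hls' : GhAdm B 0 ls') (φ : S → ℝ) : L9zReg (ghE B ls' φ) := by
  have hτ : IsTr ls'.length 1 (fun _ _ => ls'.length + 1) :=
    ⟨fun _ _ _ _ => le_rfl, fun _ _ => rfl, fun _ _ _ _ => rfl, fun _ _ _ _ _ _ => by simp⟩
  have h := l9y_reg_nu hB hls' hτ (fun σ => φ (σ 0)) (fun σ σ' h => by show φ (σ 0) = φ (σ' 0); rw [h 0 one_pos])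
  have e : (fun G => trNu B ls' 1 (fun _ _ => ls'.length + 1) G fun σ => φ (σ 0)) = ghE B ls' φ :=
    funext fun G => tr_nu_one_leaf hB hls' _ G φ
  rwa [e] at h

omit [Inhabited S] in
theorem l9y_D_eq (B : GhB S) (ls' : List (GhLv S ι)) (c : ℝ) (φ : S → ℝ) {f : (S → ℝ) → ℝ} (hf : Differentiable ℝ f) :
    l9zD B ls' c φ f = fun G => fderiv ℝ f G φ + c * ghE B ls' φ G * f G := by
  funext G
  unfold l9zD
  congr 1
  have h1 : HasDerivAt (fun ε : ℝ => G + ε • φ) φ 0 := by
    simpa using ((hasDerivAt_id (0 : ℝ)).smul_const φ).const_add G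
  have h2 : HasFDerivAt f (fderiv ℝ f G) (G + (0 : ℝ) • φ) := by
    simpa using (hf G).hasFDerivAt
  exact (h2.comp_hasDerivAt 0 h1).deriv

theorem l9y_reg_D {B : GhB S} (hB : B.Ok) {ls' : List (GhLv S ι)} (hls' : GhAdm B 0 ls') (c : ℝ) (φ : S → ℝ) {f : (S → ℝ) → ℝ}
    (hf : L9zReg f) : L9zReg (l9zD B ls' c φ f) := by
  intro k
  have hd : Differentiable ℝ f := (bRegN_succ_iff.1 (hf 1)).2.1
  rw [l9y_D_eq B ls' c φ hd]
  have h1 : BRegN k (fun G => fderiv ℝ f G φ) := (bRegN_succ_iff.1 (hf (k + 1))).2.2.apply φ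
  have h2 : BRegN k (fun G => c * ghE B ls' φ G * f G) := by
    have := (((l9y_reg_E hB hls' φ) k).const_smul c).mul (hf k)
    simpa using this
  exact h1.add h2

theorem l9y_reg_Dit {B : GhB S} (hB : B.Ok) {ls' : List (GhLv S ι)} (hls' : GhAdm B 0 ls') (c : ℝ) (φ : S → ℝ) {f : (S → ℝ) → ℝ}
    (hf : L9zReg f) (n : ℕ) : L9zReg ((l9zD B ls' c φ)^[n] f) := by
  induction n with
  | zero => exact hf
  | succ n ih =>
    rw [Function.iterate_succ_apply']
    exact l9y_reg_D hB hls' c φ ih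

omit [Inhabited S] [Fintype ι] in
theorem l9y_reg_sum {κ : Type} (I : Finset κ) (w : κ → ℝ) {f : κ → (S → ℝ) → ℝ} (hf : ∀ i ∈ I, L9zReg (f i)) :
    L9zReg fun G => ∑ i ∈ I, w i * f i G := by
  classical
  induction I using Finset.induction_on with
  | empty => intro k; simpa using bRegN_const (E := S → ℝ) k (0 : ℝ)
  | insert a I ha ih =>
    intro k
    simp only [Finset.sum_insert ha]
    have h1 : BRegN k (fun G => w a * f a G) := by simpa using (hf a (Finset.mem_insert_self a I) k).const_smul (w a)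
    exact h1.add (ih (fun i hi => hf i (Finset.mem_insert_of_mem hi)) k)

omit [Inhabited S] in
theorem l9y_D_sum (B : GhB S) (ls' : List (GhLv S ι)) (c : ℝ) (φ : S → ℝ) {κ : Type} (I : Finset κ) (w : κ → ℝ)
    {f : κ → (S → ℝ) → ℝ} (hf : ∀ i ∈ I, L9zReg (f i)) :
    l9zD B ls' c φ (fun G => ∑ i ∈ I, w i * f i G) = fun G => ∑ i ∈ I, w i * l9zD B ls' c φ (f i) G := by
  have hd : ∀ i ∈ I, Differentiable ℝ (f i) := fun i hi => (bRegN_succ_iff.1 (hf i hi 1)).2.1
  have hds : Differentiable ℝ fun G => ∑ i ∈ I, w i * f i G := (bRegN_succ_iff.1 (l9y_reg_sum I w hf 1)).2.1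
  rw [l9y_D_eq B ls' c φ hds]
  funext G
  have e1 : fderiv ℝ (fun G => ∑ i ∈ I, w i * f i G) G = ∑ i ∈ I, w i • fderiv ℝ (f i) G := by
    rw [fderiv_fun_sum fun i hi => ((hd i hi) G).const_mul (w i)]
    exact Finset.sum_congr rfl fun i hi => fderiv_const_mul ((hd i hi) G) (w i)
  rw [e1, ContinuousLinearMap.sum_apply, Finset.mul_sum, ← Finset.sum_add_distrib]
  refine Finset.sum_congr rfl fun i hi => ?_
  rw [l9y_D_eq B ls' c φ (hd i hi)]
  simp only [ContinuousLinearMap.smul_apply, smul_eq_mul]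
  ring

theorem l9y_Dit_sum {B : GhB S} (hB : B.Ok) {ls' : List (GhLv S ι)} (hls' : GhAdm B 0 ls') (c : ℝ) (φ : S → ℝ) {κ : Type}
    (I : Finset κ) (w : κ → ℝ) {f : κ → (S → ℝ) → ℝ} (hf : ∀ i ∈ I, L9zReg (f i)) (n : ℕ) :
    (l9zD B ls' c φ)^[n] (fun G => ∑ i ∈ I, w i * f i G) = fun G => ∑ i ∈ I, w i * (l9zD B ls' c φ)^[n] (f i) G := by
  induction n with
  | zero => rfl
  | succ n ih =>
    rw [Function.iterate_succ_apply', ih, l9y_D_sum B ls' c φ I w fun i hi => l9y_reg_Dit hB hls' c φ (hf i hi) n]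
    funext G
    refine Finset.sum_congr rfl fun i _ => ?_
    rw [Function.iterate_succ_apply']

end reg

/-! ## 5. the slots are summed one at a time -/

/-- the test of the block of the ghost `A`: the slots `m < k` whose anchor is `A` -/
def l9yP (φ : S → ℝ) (D k : ℕ) (anc : ℕ → ℕ) (A : ℕ) (σ : ℕ → S) : ℝ :=
  ∏ m ∈ Finset.range k, if anc m = A then φ (σ (D + m)) else 1

/-- a table with the ghosts `< D` (skeleton `sk`) and `k` slots, the slot `D + m` in the block of depth `t` above its anchor -/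
structure L9yV (N t D k : ℕ) (sk : ℕ → ℕ → ℕ) (anc : ℕ → ℕ) (T : ℕ → ℕ → ℕ) : Prop where
  tr : IsTr N (D + k) T
  gh : ∀ A A', A < D → A' < D → T A A' = sk A A'
  blk : ∀ m, m < k → t ≤ T (anc m) (D + m)

theorem l9y_eqns_cite : True := by
  have := @l9yP.eq_1
  trivial

section main

omit [Fintype S] in
theorem l9y_P_us {N t D k : ℕ} {sk : ℕ → ℕ → ℕ} {anc : ℕ → ℕ} {T : ℕ → ℕ → ℕ} (hV : L9yV N t D k sk anc T) (φ : S → ℝ) (A : ℕ) :
    L9zUs (fun x => x < D + k ∧ t ≤ T A x) (l9yP φ D k anc A) := by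
  intro σ σ' h
  unfold l9yP
  refine Finset.prod_congr rfl fun m hm => ?_
  have hm' := Finset.mem_range.1 hm
  by_cases e : anc m = A
  · rw [if_pos e, if_pos e, h (D + m) ⟨by omega, by rw [← e]; exact hV.blk m hm'⟩]
  · rw [if_neg e, if_neg e]

omit [Fintype S] in
theorem l9y_P_uses (φ : S → ℝ) (D k : ℕ) (anc : ℕ → ℕ) (A : ℕ) : TrUses (D + k) (l9yP φ D k anc A) := by
  intro σ σ' h
  unfold l9yP
  refine Finset.prod_congr rfl fun m hm => ?_
  have hm' := Finset.mem_range.1 hm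
  rw [h (D + m) (by omega)]

omit [Fintype S] in
theorem l9y_P_prod (φ : S → ℝ) (D k : ℕ) (anc : ℕ → ℕ) (L : Finset ℕ) (h : ∀ m, m < k → anc m ∈ L) (σ : ℕ → S) :
    ∏ A ∈ L, l9yP φ D k anc A σ = ∏ m ∈ Finset.range k, φ (σ (D + m)) := by
  unfold l9yP
  rw [Finset.prod_comm]
  refine Finset.prod_congr rfl fun m hm => ?_
  rw [Finset.prod_ite_eq, if_pos (h m (Finset.mem_range.1 hm))]

omit [Fintype S] in
theorem l9y_P_succ (φ : S → ℝ) (D k : ℕ) (anc : ℕ → ℕ) (a A : ℕ) :
    l9yP φ D (k + 1) (Function.update anc k a) A = fun σ => l9yP φ D k anc A σ * if a = A then φ (σ (D + k)) else 1 := by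
  funext σ
  unfold l9yP
  rw [Finset.prod_range_succ, Function.update_self]
  congr 1
  refine Finset.prod_congr rfl fun m hm => ?_
  rw [Function.update_of_ne (Finset.mem_range.1 hm).ne]

omit [Fintype S] in
theorem l9y_P_succ_self (φ : S → ℝ) (D k : ℕ) (anc : ℕ → ℕ) (a : ℕ) :
    l9yP φ D (k + 1) (Function.update anc k a) a = fun σ => l9yP φ D k anc a σ * φ (σ (D + k)) := by
  rw [l9y_P_succ]
  funext σ
  rw [if_pos rfl]

omit [Fintype S] in
theorem l9y_P_succ_ne (φ : S → ℝ) (D k : ℕ) (anc : ℕ → ℕ) {a A : ℕ} (h : a ≠ A) :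
    l9yP φ D (k + 1) (Function.update anc k a) A = l9yP φ D k anc A := by
  rw [l9y_P_succ]
  funext σ
  rw [if_neg h, mul_one]

theorem l9y_cd_congr {sk T : ℕ → ℕ → ℕ} {t : ℕ} : ∀ (s : L9Bt), (∀ A ∈ s.labs, ∀ A' ∈ s.labs, T A A' = sk A A') → s.Cd sk t → s.Cd T t
  | .leaf _, _, _ => trivial
  | .fork d l r, h, hs => by
      obtain ⟨h1, h2, h3, h4, h5⟩ := hs
      refine ⟨h1, h2, fun A hA A' hA' => ?_, l9y_cd_congr l (fun A hA A' hA' => h A (by simp [L9Bt.labs, hA]) A' (by simp [L9Bt.labs, hA'])) h4,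
        l9y_cd_congr r (fun A hA A' hA' => h A (by simp [L9Bt.labs, hA]) A' (by simp [L9Bt.labs, hA'])) h5⟩
      rw [h A (by simp [L9Bt.labs, hA]) A' (by simp [L9Bt.labs, hA'])]
      exact h3 A hA A' hA'

theorem l9y_in_eq (ms : ℕ → ℝ) (N q : ℕ) (T : ℕ → ℕ → ℕ) (t a : ℕ) (ψ : ℕ → ℕ → ℝ) :
    l9In ms N q T t a ψ = ∑ p ∈ ((Finset.range q).filter fun y => t ≤ T a y) ×ˢ Finset.Icc t (N + 1), trWt ms N q T p.1 p.2 * ψ p.2 p.1 := by
  unfold l9In
  rw [Finset.sum_product]

/-- the enlarged table is valid -/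
theorem l9y_V_att {N t D k : ℕ} {sk : ℕ → ℕ → ℕ} {anc : ℕ → ℕ} {T : ℕ → ℕ → ℕ} (hV : L9yV N t D k sk anc T) {a y j : ℕ} (ha : a < D)
    (hanc : ∀ m, m < k → anc m < D) (hy : y < D + k) (hty : t ≤ T a y) (htj : t ≤ j) (hj : j ≤ N + 1) :
    L9yV N t D (k + 1) sk (Function.update anc k a) (trAtt N (D + k) T y j) where
  tr := l9p_att_isTr hV.tr hy hj
  gh := fun A A' hA hA' => by rw [l9p_att_old N (D + k) T y j (by omega) (by omega)]; exact hV.gh A A' hA hA'
  blk := fun m hm => by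
    rcases Nat.lt_succ_iff_lt_or_eq.1 hm with h | h
    · rw [Function.update_of_ne h.ne, l9p_att_old N (D + k) T y j (by have := hanc m h; omega) (by omega)]
      exact hV.blk m h
    · subst h
      rw [Function.update_self]
      unfold trAtt
      rw [if_neg (by omega), if_pos rfl]
      exact le_min htj hty

variable [Inhabited S]

theorem l9y_main {B : GhB S} (hB : B.Ok) {ls : List (GhLv S ι)} (hls : GhAdm B 0 ls) {t D R : ℕ} (ht : t ≤ ls.length)
    {sk : ℕ → ℕ → ℕ} (s : L9Bt) (hs : s.Cd sk t) (hsD : ∀ A ∈ s.labs, A < D) (φ z : S → ℝ) :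
    ∀ (as : List ℕ) (k : ℕ) (anc : ℕ → ℕ) (T : ℕ → ℕ → ℕ), k + as.length = R → L9yV ls.length t D k sk anc T →
      (∀ A ∈ as, A ∈ s.labs) → (∀ m, m < k → anc m ∈ s.labs) →
      l9It (trMs B ls) ls.length t as (D + k) T (fun T' => trNu B ls (D + R) T' z fun σ => ∏ m ∈ Finset.range R, φ (σ (D + m)))
        = l9zW B ls t (fun A => (l9zD B (ls.drop t) (trPm (trMs B ls) t) φ)^[as.count A]
            fun G => trNu B (ls.drop t) (D + k) (fun x y => T x y - t) G (l9yP φ D k anc A)) s 0 z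
  | [], k, anc, T, hk, hV, _, hanc => by
      have hkR : k = R := by simpa using hk
      subst hkR
      have hcd : s.Cd T t := l9y_cd_congr s (fun A hA A' hA' => hV.gh A A' (hsD A hA) (hsD A' hA')) hs
      have h := l9y_markov hB hls hV.tr ht (l9yP φ D k anc) s hcd (fun A hA => by have := hsD A hA; omega)
        (fun A _ => l9y_P_us hV φ A) 0 (Nat.zero_le _) (fun _ _ _ _ => Nat.zero_le _) z
      simp only [List.drop_zero, Nat.sub_zero] at h
      simp only [l9It, List.count_nil, Function.iterate_zero, id_eq]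
      rw [← h]
      congr 1
      funext σ
      exact (l9y_P_prod φ D k anc s.labs hanc σ).symm
  | a :: as, k, anc, T, hk, hV, has, hanc => by
      have hnn : GhNn ls := hls.ghNn le_rfl
      have hls' : GhAdm B 0 (ls.drop t) := l9y_adm_drop hls t
      have haS : a ∈ s.labs := has a (List.mem_cons_self)
      have haD : a < D := hsD a haS
      have hancD : ∀ m, m < k → anc m < D := fun m hm => hsD _ (hanc m hm)
      have hTt : ∀ {q' : ℕ} {T' : ℕ → ℕ → ℕ}, IsTr ls.length q' T' → IsTr (ls.drop t).length q' fun x y => T' x y - t := by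
        intro q' T' h'
        rw [List.length_drop]
        exact l9y_sub_isTr h' ht
      set Dop := l9zD B (ls.drop t) (trPm (trMs B ls) t) φ with hDop
      set Φ : (ℕ → ℕ → ℕ) → ℝ := fun T' => trNu B ls (D + R) T' z fun σ => ∏ m ∈ Finset.range R, φ (σ (D + m)) with hΦ
      set I := ((Finset.range (D + k)).filter fun y => t ≤ T a y) ×ˢ Finset.Icc t (ls.length + 1) with hI
      -- the functions of the leaves
      let F : ℕ → (S → ℝ) → ℝ := fun A G => trNu B (ls.drop t) (D + k) (fun x y => T x y - t) G (l9yP φ D k anc A)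
      let f : ℕ → (S → ℝ) → ℝ := fun A => Dop^[as.count A] (F A)
      let hh : ℕ × ℕ → (S → ℝ) → ℝ := fun p G =>
        trNu B (ls.drop t) (D + k + 1) (fun x y => trAtt ls.length (D + k) T p.1 p.2 x y - t) G fun σ => l9yP φ D k anc a σ * φ (σ (D + k))
      have hFreg : ∀ A, L9zReg (F A) := fun A => l9y_reg_nu hB hls' (hTt hV.tr) _ (l9y_P_uses φ D k anc A)
      have hfbc : ∀ A ∈ s.labs, ∃ M, GhBC (f A) M := fun A _ => l9y_reg_bc (l9y_reg_Dit hB hls' _ φ (hFreg A) _)
      have hmem : ∀ p ∈ I, p.1 < D + k ∧ t ≤ T a p.1 ∧ t ≤ p.2 ∧ p.2 ≤ ls.length + 1 := by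
        intro p hp
        rw [hI, Finset.mem_product, Finset.mem_filter, Finset.mem_range, Finset.mem_Icc] at hp
        exact ⟨hp.1.1, hp.1.2, hp.2.1, hp.2.2⟩
      have hhreg : ∀ p ∈ I, L9zReg (hh p) := by
        intro p hp
        obtain ⟨h1, _, _, h4⟩ := hmem p hp
        refine l9y_reg_nu hB hls' (hTt (l9p_att_isTr hV.tr h1 h4)) _ ?_
        intro σ σ' h
        show _ * _ = _ * _
        rw [l9y_P_uses φ D k anc a σ σ' (fun i hi => h i (by omega)), h (D + k) (by omega)]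
      have hgbc : ∀ p ∈ I, ∃ M, GhBC (Dop^[as.count a] (hh p)) M := fun p hp =>
        l9y_reg_bc (l9y_reg_Dit hB hls' _ φ (hhreg p hp) _)
      -- Step 1, 2: the induction hypothesis at every attachment
      have step : ∀ p ∈ I, l9It (trMs B ls) ls.length t as (D + k + 1) (trAtt ls.length (D + k) T p.1 p.2) Φ
          = l9zW B ls t (Function.update f a (Dop^[as.count a] (hh p))) s 0 z := by
        intro p hp
        obtain ⟨h1, h2, h3, h4⟩ := hmem p hp
        have hV' := l9y_V_att hV haD hancD h1 h2 h3 h4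
        have ih := l9y_main (R := R) hB hls ht s hs hsD φ z as (k + 1) (Function.update anc k a) (trAtt ls.length (D + k) T p.1 p.2)
          (by simp only [List.length_cons] at hk; omega) hV' (fun A hA => has A (List.mem_cons_of_mem _ hA))
          (fun m hm => by
            rcases Nat.lt_succ_iff_lt_or_eq.1 hm with h | h
            · rw [Function.update_of_ne h.ne]; exact hanc m h
            · subst h; rw [Function.update_self]; exact haS)
        refine ih.trans (l9y_W_congr B ls t s (fun A _ => ?_) 0 z)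
        by_cases e : A = a
        · subst e
          rw [Function.update_self, l9y_P_succ_self]
          rfl
        · rw [Function.update_of_ne e, l9y_P_succ_ne φ D k anc (Ne.symm e)]
          show Dop^[as.count A] _ = Dop^[as.count A] (F A)
          congr 1
          funext G
          have hpr := tr_nu_prune (q := D + k) hB hls' (hTt hV'.tr) G (l9y_P_uses φ D k anc A)
          refine hpr.trans ?_
          exact tr_nu_congr B _ (fun x y hx hy => by rw [l9p_att_old _ _ _ _ _ hx hy]) G _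
      -- Step 5: SRC
      have src : (fun G => ∑ p ∈ I, trWt (trMs B ls) ls.length (D + k) T p.1 p.2 * hh p G) = Dop (F a) := by
        funext G
        have h := l9z_src hB hls ht hV.tr (a := a) (by omega) (l9yP φ D k anc a) (l9y_P_us hV φ a) φ G
        rw [l9y_in_eq] at h
        exact h
      show l9In (trMs B ls) ls.length (D + k) T t a (fun j y => l9It (trMs B ls) ls.length t as (D + k + 1) (trAtt ls.length (D + k) T y j) Φ) = _
      rw [l9y_in_eq, Finset.sum_congr rfl fun p hp => by rw [step p hp],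
        ← l9y_W_lin hB hnn t I (fun p => trWt (trMs B ls) ls.length (D + k) T p.1 p.2) a hgbc s hs haS hfbc 0 z,
        ← l9y_Dit_sum hB hls' _ φ I _ hhreg, src, ← Function.iterate_succ_apply]
      refine l9y_W_congr B ls t s (fun A _ => ?_) 0 z
      by_cases e : A = a
      · subst e
        rw [Function.update_self, List.count_cons_self]
      · rw [Function.update_of_ne e, List.count_cons_of_ne (Ne.symm e)]

/-- **KEY, abstract form** (the statement `l9z_key` of `L09/KeyA.lean`) -/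
theorem l9y_key {B : GhB S} (hB : B.Ok) {ls : List (GhLv S ι)} (hls : GhAdm B 0 ls) {t D : ℕ} (ht : t ≤ ls.length)
    {sk : ℕ → ℕ → ℕ} (hsk : IsTr ls.length D sk) (s : L9Bt) (hs : s.Cd sk t) (hsD : ∀ A ∈ s.labs, A < D)
    (as : List ℕ) (has : ∀ A ∈ as, A ∈ s.labs) (φ z : S → ℝ) :
    l9It (trMs B ls) ls.length t as D sk
        (fun T => trNu B ls (D + as.length) T z fun σ => ∏ m ∈ Finset.range as.length, φ (σ (D + m)))
      = l9zW B ls t (fun A => (l9zD B (ls.drop t) (trPm (trMs B ls) t) φ)^[as.count A] fun _ => 1) s 0 z := by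
  have h := l9y_main hB hls ht s hs hsD φ z as 0 (fun _ => 0) sk (Nat.zero_add _) ⟨hsk, fun _ _ _ _ => rfl, fun m hm => absurd hm (Nat.not_lt_zero m)⟩
    has (fun m hm => absurd hm (Nat.not_lt_zero m))
  refine h.trans (l9y_W_congr B ls t s (fun A _ => ?_) 0 z)
  congr 1
  funext G
  exact gh_n_const B hB 1 _ ((l9y_adm_drop hls t).ghNn le_rfl) _ _

/-- **KEY, abstract form**, under the name and with the hypotheses announced by helper285 -/
theorem l9z_key {B : GhB S} (hB : B.Ok) {ls : List (GhLv S ι)} (hls : GhAdm B 0 ls) {t D : ℕ} (_ht1 : 1 ≤ t) (ht : t ≤ ls.length)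
    {sk : ℕ → ℕ → ℕ} (hsk : IsTr ls.length D sk) (s : L9Bt) (hs : s.Cd sk t) (hsD : ∀ A ∈ s.labs, A < D)
    (as : List ℕ) (has : ∀ A ∈ as, A ∈ s.labs) (φ z : S → ℝ) :
    l9It (trMs B ls) ls.length t as D sk
        (fun T => trNu B ls (D + as.length) T z fun σ => ∏ m ∈ Finset.range as.length, φ (σ (D + m)))
      = l9zW B ls t (fun A => (l9zD B (ls.drop t) (trPm (trMs B ls) t) φ)^[as.count A] fun _ => 1) s 0 z :=
  l9y_key hB hls ht hsk s hs hsD as has φ z

end main

end

end Claimed.Agent.R286
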