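import Claimed.Agent.R286.L09.Mod1

/-!
# Row 286 (S0533), LL 09, the FILLED STEP MODEL on `Sc/` is a reference (`L9mRef.Ok`)      OWNER helper288

`π = [(m₁, s₁), (m₂, s₂), ..]` step profile (mass, duration), `F` the terminal function.   Label `u` ↦ time `K u`:
`L9mClk π c0 K kap mu`: `K` is piecewise affine on `[0, c0]` with slope `kap ≥ 0`; where the slope is positive the time `K u` runs in one
cell of the grid of `π` and the mass of this cell is `mu u`.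
`l9mSc F hF π K kap mu : L9mRef`:   `T u v φ = scPt F π (K u) (K v) φ`,   `g j u = scD j F π (K u)` (`j ≥ 1`).
MAIN: `l9m_sc_ok` (constants depend only on the mass bound `a`, the bounds `A n` of `F'` and `C0`).
-/

set_option autoImplicit false

namespace Claimed.Agent.R286

open MeasureTheory Set Filter Topology

/-! ## A. the clock -/

/-- filled step clock -/
structure L9mClk (π : List (ℝ × ℝ)) (c0 : ℝ) (K kap mu : ℝ → ℝ) : Prop where
  K0 : 0 ≤ K 0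
  top : K c0 ≤ scLen π
  fin : ∃ S : Set ℝ, S.Finite ∧ ∀ a b, 0 ≤ a → a ≤ b → b ≤ c0 → Disjoint (Ioo a b) S →
    ∃ κ m : ℝ, 0 ≤ κ ∧ (∀ u ∈ Icc a b, K u = K a + κ * (u - a)) ∧ (∀ u ∈ Ioo a b, kap u = κ ∧ mu u = m) ∧
      (0 < κ → ∀ r ∈ Ioo (K a) (K b), scAl π r = m ∧ r ∉ scGrid π)

namespace L9mClk

variable {π : List (ℝ × ℝ)} {c0 : ℝ} {K kap mu : ℝ → ℝ}

theorem mono (h : L9mClk π c0 K kap mu) {a b : ℝ} (h0 : 0 ≤ a) (hab : a ≤ b) (hb : b ≤ c0) : K a ≤ K b := by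
  obtain ⟨S, hS, hf⟩ := h.fin
  have key : 0 ≤ a → b ≤ c0 → K a ≤ K b := by
    refine sc_piecewise_induction hS (P := fun a b => 0 ≤ a → b ≤ c0 → K a ≤ K b) ?_ ?_ hab
    · intro a b hab hd h0 hb
      obtain ⟨κ, m, hκ, hK, -⟩ := hf a b h0 hab hb hd
      rw [hK b (right_mem_Icc.2 hab)]
      have := mul_nonneg hκ (sub_nonneg.2 hab)
      linarith
    · intro a b c hab hbc h1 h2 h0 hc
      exact (h1 h0 (hbc.trans hc)).trans (h2 (h0.trans hab) hc)
  exact key h0 hb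

theorem cont (h : L9mClk π c0 K kap mu) {a b : ℝ} (h0 : 0 ≤ a) (hab : a ≤ b) (hb : b ≤ c0) :
    ContinuousOn K (Icc a b) := by
  obtain ⟨S, hS, hf⟩ := h.fin
  have key : 0 ≤ a → b ≤ c0 → ContinuousOn K (Icc a b) := by
    refine sc_piecewise_induction hS (P := fun a b => 0 ≤ a → b ≤ c0 → ContinuousOn K (Icc a b)) ?_ ?_ hab
    · intro a b hab hd h0 hb
      obtain ⟨κ, m, hκ, hK, -⟩ := hf a b h0 hab hb hd
      have : ContinuousOn (fun u => K a + κ * (u - a)) (Icc a b) := by fun_prop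
      exact this.congr hK
    · intro a b c hab hbc h1 h2 h0 hc
      rw [← Icc_union_Icc_eq_Icc hab hbc]
      exact (h1 h0 (hbc.trans hc)).union_of_isClosed (h2 (h0.trans hab) hc) isClosed_Icc isClosed_Icc
  exact key h0 hb

theorem nonneg (h : L9mClk π c0 K kap mu) {u : ℝ} (h0 : 0 ≤ u) (hu : u ≤ c0) : 0 ≤ K u :=
  h.K0.trans (h.mono le_rfl h0 hu)

theorem le_len (h : L9mClk π c0 K kap mu) {u : ℝ} (h0 : 0 ≤ u) (hu : u ≤ c0) : K u ≤ scLen π :=
  (h.mono h0 hu le_rfl).trans h.top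

theorem mapsTo (h : L9mClk π c0 K kap mu) {a b : ℝ} (h0 : 0 ≤ a) (hb : b ≤ c0) :
    MapsTo K (Icc a b) (Icc (K a) (K b)) := fun _ hu =>
  ⟨h.mono h0 hu.1 (hu.2.trans hb), h.mono (h0.trans hu.1) hu.2 hb⟩

theorem kap_tp (h : L9mClk π c0 K kap mu) : L9mTP 0 c0 0 (fun u _ => kap u) := by
  obtain ⟨S, hS, hf⟩ := h.fin
  refine ⟨S, hS, fun a b h0 hab hb hd => ?_⟩
  obtain ⟨κ, m, -, -, hk, -⟩ := hf a b h0 hab hb hd
  exact ⟨fun _ _ => κ, (ScE.const 0 κ).scT _, fun r hr => by simp only [(hk r hr).1]⟩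

theorem mu_tp (h : L9mClk π c0 K kap mu) : L9mTP 0 c0 0 (fun u _ => mu u) := by
  obtain ⟨S, hS, hf⟩ := h.fin
  refine ⟨S, hS, fun a b h0 hab hb hd => ?_⟩
  obtain ⟨κ, m, -, -, hk, -⟩ := hf a b h0 hab hb hd
  exact ⟨fun _ _ => m, (ScE.const 0 m).scT _, fun r hr => by simp only [(hk r hr).2]⟩

/-- the local picture off the break labels -/
theorem loc (h : L9mClk π c0 K kap mu) : ∃ S : Set ℝ, S.Finite ∧ ∀ u ∈ Ioo 0 c0, u ∉ S →
    0 ≤ kap u ∧ HasDerivAt K (kap u) u ∧ (kap u = 0 → ∀ᶠ v in 𝓝 u, K v = K u) ∧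
    (0 < kap u → scAl π (K u) = mu u ∧ K u ∉ scGrid π ∧ (∀ v, u < v → v ≤ c0 → K u < K v) ∧
      (∀ v, 0 ≤ v → v < u → K v < K u)) := by
  obtain ⟨S, hS, hf⟩ := h.fin
  refine ⟨S, hS, fun u hu huS => ?_⟩
  have hopen : IsOpen (Sᶜ ∩ Ioo 0 c0) := hS.isClosed.isOpen_compl.inter isOpen_Ioo
  obtain ⟨ε, hε, hball⟩ := Metric.isOpen_iff.1 hopen u ⟨huS, hu⟩
  have hsub : Icc (u - ε / 2) (u + ε / 2) ⊆ Sᶜ ∩ Ioo 0 c0 := by
    intro x hx
    refine hball ?_
    rw [Metric.mem_ball, Real.dist_eq, abs_lt]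
    constructor <;> [linarith [hx.1]; linarith [hx.2]]
  have ha' : 0 ≤ u - ε / 2 := (hsub (left_mem_Icc.2 (by linarith))).2.1.le
  have hb' : u + ε / 2 ≤ c0 := (hsub (right_mem_Icc.2 (by linarith))).2.2.le
  have hdis : Disjoint (Ioo (u - ε / 2) (u + ε / 2)) S := by
    rw [Set.disjoint_left]
    intro x hx hxS
    exact (hsub (Ioo_subset_Icc_self hx)).1 hxS
  obtain ⟨κ, m, hκ, hK, hk, hg⟩ := hf (u - ε / 2) (u + ε / 2) ha' (by linarith) hb' hdis
  have hu' : u ∈ Ioo (u - ε / 2) (u + ε / 2) := ⟨by linarith, by linarith⟩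
  have hnhds : Icc (u - ε / 2) (u + ε / 2) ∈ 𝓝 u := Icc_mem_nhds hu'.1 hu'.2
  have hev : K =ᶠ[𝓝 u] fun v => K (u - ε / 2) + κ * (v - (u - ε / 2)) := by
    filter_upwards [hnhds] with v hv using hK v hv
  have hKu := hK u (Ioo_subset_Icc_self hu')
  rw [(hk u hu').1, (hk u hu').2]
  refine ⟨hκ, ?_, ?_, ?_⟩
  · have h1 : HasDerivAt (fun v => K (u - ε / 2) + κ * (v - (u - ε / 2))) κ u := by
      simpa using (((hasDerivAt_id u).sub_const (u - ε / 2)).const_mul κ).const_add (K (u - ε / 2))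
    exact h1.congr_of_eventuallyEq hev
  · intro h0
    filter_upwards [hnhds] with v hv
    rw [hK v hv, hKu, h0]; ring
  · intro hpos
    have hKb := hK (u + ε / 2) (right_mem_Icc.2 (by linarith))
    have h1 : K (u - ε / 2) < K u := by
      rw [hKu]; nlinarith
    have h2 : K u < K (u + ε / 2) := by
      rw [hKu, hKb]; nlinarith
    refine ⟨(hg hpos (K u) ⟨h1, h2⟩).1, (hg hpos (K u) ⟨h1, h2⟩).2, fun v huv hv => ?_, fun v hv hvu => ?_⟩
    · rcases le_total v (u + ε / 2) with hle | hle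
      · rw [hKu, hK v ⟨by linarith, hle⟩]; nlinarith
      · exact h2.trans_le (h.mono (by linarith) hle hv)
    · rcases le_total (u - ε / 2) v with hle | hle
      · rw [hKu, hK v ⟨hle, by linarith⟩]; nlinarith
      · exact (h.mono hv hle (by linarith)).trans_lt h1

end L9mClk

/-- chain rule along the clock -/
theorem l9m_clk_comp {K : ℝ → ℝ} {κ u : ℝ} (hK : HasDerivAt K κ u) (h0 : κ = 0 → ∀ᶠ v in 𝓝 u, K v = K u)
    {Φ : ℝ → ℝ} {Φ' : ℝ} (hΦ : κ ≠ 0 → HasDerivAt Φ Φ' (K u)) : HasDerivAt (fun v => Φ (K v)) (κ * Φ') u := by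
  by_cases hκ : κ = 0
  · have h1 : (fun v => Φ (K v)) =ᶠ[𝓝 u] fun _ => Φ (K u) := by
      filter_upwards [h0 hκ] with v hv
      rw [hv]
    rw [hκ, zero_mul]
    exact (hasDerivAt_const u (Φ (K u))).congr_of_eventuallyEq h1
  · have := (hΦ hκ).comp u hK
    rw [mul_comm]
    exact this

/-! ## B. regularity along an affine piece of the clock -/

theorem l9m_pt_T_aff {F : ℝ → ℝ} (hF : ScBI F) (π : List (ℝ × ℝ)) {n : ℕ} {s a b κ k0 : ℝ} (hκ : 0 ≤ κ)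
    (hs : s ≤ k0) {χ : ℝ → ℝ → ℝ} (hχ : ScT (Icc a b) n χ) :
    ScT (Icc a b) n (fun r => scPt F π s (k0 + κ * (r - a)) (χ r)) := by
  rcases hκ.eq_or_lt with h0 | hpos
  · simp only [← h0, zero_mul, add_zero]
    exact sc_Pt_T_fixed hF π s k0 hχ
  · -- time change
    have hu : ContinuousOn (fun ρ : ℝ => a + (ρ - k0) / κ) (Icc k0 (k0 + κ * (b - a))) := by fun_prop
    have hm : MapsTo (fun ρ : ℝ => a + (ρ - k0) / κ) (Icc k0 (k0 + κ * (b - a))) (Icc a b) := by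
      intro ρ hρ
      constructor
      · have : 0 ≤ (ρ - k0) / κ := div_nonneg (by linarith [hρ.1]) hpos.le
        show a ≤ a + (ρ - k0) / κ
        linarith
      · have : (ρ - k0) / κ ≤ b - a := by
          rw [div_le_iff₀ hpos]; nlinarith [hρ.2]
        show a + (ρ - k0) / κ ≤ b
        linarith
    have h1 : ScT (Icc k0 (k0 + κ * (b - a))) n (fun ρ => χ (a + (ρ - k0) / κ)) := sc_T_comp_time hχ hu hm
    have h2 := sc_pt_T hF π hs h1
    have hK : ContinuousOn (fun r : ℝ => k0 + κ * (r - a)) (Icc a b) := by fun_prop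
    have hKm : MapsTo (fun r : ℝ => k0 + κ * (r - a)) (Icc a b) (Icc k0 (k0 + κ * (b - a))) := by
      intro r hr
      constructor
      · have := mul_nonneg hpos.le (sub_nonneg.2 hr.1)
        show k0 ≤ k0 + κ * (r - a)
        linarith
      · have := mul_le_mul_of_nonneg_left (sub_le_sub_right hr.2 a) hpos.le
        show k0 + κ * (r - a) ≤ k0 + κ * (b - a)
        linarith
    have h3 := sc_T_comp_time h2 hK hKm
    refine h3.congr' fun r _ => ?_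
    have : a + (k0 + κ * (r - a) - k0) / κ = r := by
      field_simp; ring
    simp only [this]

theorem l9m_sc_T_tp {F : ℝ → ℝ} (hF : ScBI F) {π : List (ℝ × ℝ)} {c0 : ℝ} {K kap mu : ℝ → ℝ}
    (hc : L9mClk π c0 K kap mu) {a b : ℝ} {n : ℕ} {H : ℝ → ℝ → ℝ} (h0 : 0 ≤ a) (hb : b ≤ c0) (hH : L9mTP a b n H) :
    L9mTP a b n (fun r => scPt F π (K a) (K r) (H r)) := by
  obtain ⟨S1, hS1, hf⟩ := hc.fin
  obtain ⟨S2, hS2, hG⟩ := hH
  refine ⟨S1 ∪ S2, hS1.union hS2, fun a' b' ha hab' hb' hd => ?_⟩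
  obtain ⟨κ, m, hκ, hK, -⟩ := hf a' b' (h0.trans ha) hab' (hb'.trans hb) (hd.mono_right subset_union_left)
  obtain ⟨H', g1, g2⟩ := hG a' b' ha hab' hb' (hd.mono_right subset_union_right)
  refine ⟨_, l9m_pt_T_aff hF π hκ (hc.mono h0 ha (hab'.trans (hb'.trans hb))) g1, fun r hr => ?_⟩
  simp only [hK r (Ioo_subset_Icc_self hr), g2 r hr]

/-! ## C. the reference -/

/-- **the filled step model** -/
noncomputable def l9mSc (F : ℝ → ℝ) (hF : ScBI F) (π : List (ℝ × ℝ)) (K kap mu : ℝ → ℝ) : L9mRef where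
  kap := kap
  mu := mu
  g := fun j u => match j with
    | 0 => 0
    | j + 1 => ⟨scD (j + 1) F π (K u), fun n => sc_D_Bd hF j n π (K u)⟩
  T := fun u v φ => ⟨scPt F π (K u) (K v) φ.1, fun n => sc_Pt_Bd hF (φ.2 n) π _ _⟩

section fields

variable {F : ℝ → ℝ} (hF : ScBI F) (π : List (ℝ × ℝ)) (K kap mu : ℝ → ℝ)

@[simp] theorem l9mSc_kap : (l9mSc F hF π K kap mu).kap = kap := rfl
@[simp] theorem l9mSc_mu : (l9mSc F hF π K kap mu).mu = mu := rfl

theorem l9mSc_T_coe (u v : ℝ) (φ : L9mF) : ((l9mSc F hF π K kap mu).T u v φ).1 = scPt F π (K u) (K v) φ.1 := rfl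

theorem l9mSc_g_succ (j : ℕ) (u : ℝ) : ((l9mSc F hF π K kap mu).g (j + 1) u).1 = scD (j + 1) F π (K u) := rfl

theorem l9mSc_g_zero (u : ℝ) : (l9mSc F hF π K kap mu).g 0 u = 0 := rfl

theorem l9mSc_g_coe {j : ℕ} (hj : 1 ≤ j) (u : ℝ) : ((l9mSc F hF π K kap mu).g j u).1 = scD j F π (K u) := by
  obtain ⟨i, rfl⟩ : ∃ i, j = i + 1 := ⟨j - 1, by omega⟩
  rfl

theorem l9mSc_g_D (j : ℕ) (u : ℝ) (hj : 1 ≤ j) :
    l9mD ((l9mSc F hF π K kap mu).g j u) = (l9mSc F hF π K kap mu).g (j + 1) u := by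
  obtain ⟨i, rfl⟩ : ∃ i, j = i + 1 := ⟨j - 1, by omega⟩
  apply Subtype.ext
  exact sc_D_succ (i + 1) F π (K u)

theorem l9mSc_g_sg (he : ∀ z, F (-z) = F z) (j : ℕ) (u : ℝ) :
    l9mSg ((l9mSc F hF π K kap mu).g j u) = l9mCst ((-1) ^ j) * (l9mSc F hF π K kap mu).g j u := by
  cases j with
  | zero => simp [l9mSc_g_zero]
  | succ i =>
    apply Subtype.ext
    rw [l9mSg_coe]
    funext z
    exact sc_D_parity hF he (i + 1) π (K u) z

theorem l9mSc_T_add (u v : ℝ) (φ ψ : L9mF) : (l9mSc F hF π K kap mu).T u v (φ + ψ) =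
    (l9mSc F hF π K kap mu).T u v φ + (l9mSc F hF π K kap mu).T u v ψ :=
  Subtype.ext (sc_Pt_add hF (φ.scE 0) (ψ.scE 0) π (K u) (K v))

theorem l9mSc_T_cst_mul (u v x : ℝ) (φ : L9mF) : (l9mSc F hF π K kap mu).T u v (l9mCst x * φ) =
    l9mCst x * (l9mSc F hF π K kap mu).T u v φ :=
  Subtype.ext (sc_Pt_const_mul F φ.1 π (K u) (K v) x)

theorem l9mSc_T_one (u v : ℝ) : (l9mSc F hF π K kap mu).T u v 1 = 1 :=
  Subtype.ext (sc_Pt_const hF π (K u) (K v) 1)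

theorem l9mSc_T_refl (u : ℝ) (φ : L9mF) : (l9mSc F hF π K kap mu).T u u φ = φ :=
  Subtype.ext (sc_Pt_self F π (K u) φ.1)

end fields

/-- the transition operators commute with the reflection -/
theorem l9m_Pt_refl {F φ : ℝ → ℝ} (hF : ScBI F) (he : ∀ z, F (-z) = F z) (hφ : ScE 0 φ) (π : List (ℝ × ℝ)) (s t z : ℝ) :
    scPt F π s t (fun y => φ (-y)) z = scPt F π s t φ (-z) := by
  have hφm : ScE 0 (fun y => φ (-y)) := by simpa using hφ.comp_affine (-1) 0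
  have hE : ScE 0 (fun y => 1 / 2 * (φ y + φ (-y))) := (hφ.add hφm).const_mul (1 / 2)
  have hO : ScE 0 (fun y => 1 / 2 * (φ y - φ (-y))) := (hφ.sub hφm).const_mul (1 / 2)
  have e1 : φ = fun y => 1 / 2 * (φ y + φ (-y)) + 1 / 2 * (φ y - φ (-y)) := by funext y; ring
  have e2 : (fun y => φ (-y)) = fun y => 1 / 2 * (φ y + φ (-y)) - 1 / 2 * (φ y - φ (-y)) := by funext y; ring
  have h1 := sc_Pt_even (φ := fun y => 1 / 2 * (φ y + φ (-y))) he (fun y => by simp only [neg_neg]; ring) π s t z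
  have h2 := sc_Pt_odd (φ := fun y => 1 / 2 * (φ y - φ (-y))) he (fun y => by simp only [neg_neg]; ring) π s t z
  calc scPt F π s t (fun y => φ (-y)) z
      = scPt F π s t (fun y => 1 / 2 * (φ y + φ (-y))) z - scPt F π s t (fun y => 1 / 2 * (φ y - φ (-y))) z := by
        rw [e2, sc_Pt_sub hF hE hO]
    _ = scPt F π s t (fun y => 1 / 2 * (φ y + φ (-y))) (-z) + scPt F π s t (fun y => 1 / 2 * (φ y - φ (-y))) (-z) := by
        rw [h1, h2]; ring
    _ = scPt F π s t φ (-z) := by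
        conv_rhs => rw [e1]
        rw [sc_Pt_add hF hE hO]

theorem l9mSc_T_sg {F : ℝ → ℝ} (hF : ScBI F) (he : ∀ z, F (-z) = F z) (π : List (ℝ × ℝ)) (K kap mu : ℝ → ℝ) (u v : ℝ)
    (φ : L9mF) : l9mSg ((l9mSc F hF π K kap mu).T u v φ) = (l9mSc F hF π K kap mu).T u v (l9mSg φ) := by
  apply Subtype.ext
  rw [l9mSg_coe, l9mSc_T_coe, l9mSc_T_coe, l9mSg_coe]
  funext z
  exact (l9m_Pt_refl hF he (φ.scE 0) π (K u) (K v) z).symm

/-! ## D. the backward equations in label time -/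

section back

variable {F : ℝ → ℝ} (hF : ScBI F) {π : List (ℝ × ℝ)} (hπ : ScPos π) {c0 : ℝ} {K kap mu : ℝ → ℝ}
  (hc : L9mClk π c0 K kap mu)

include hF hπ hc

theorem l9m_sc_D_T {a b : ℝ} (h0 : 0 ≤ a) (hab : a ≤ b) (hb : b ≤ c0) (k n : ℕ) :
    ScT (Icc a b) n (fun u => scD k F π (K u)) :=
  sc_T_comp_time (sc_D_T hF hπ k n) (hc.cont h0 hab hb) fun _ hu =>
    ⟨hc.nonneg (h0.trans hu.1) (hu.2.trans hb), hc.le_len (h0.trans hu.1) (hu.2.trans hb)⟩

theorem l9m_sc_reg_g1 (hc0 : 0 ≤ c0) : L9mReg 0 c0 (fun u => scD 1 F π (K u))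
    (fun u z => -(kap u * (1 / 2 * scD 3 F π (K u) z + mu u * (scD 1 F π (K u) z * scD 2 F π (K u) z)))) := by
  obtain ⟨S, hS, hl⟩ := hc.loc
  refine ⟨fun n => l9m_sc_D_T hF hπ hc le_rfl hc0 le_rfl 1 n, fun n => ?_, S, hS, fun u hu huS y => ?_⟩
  · have h1 : L9mTP 0 c0 n (fun u _ => kap u) := hc.kap_tp.time n
    have h2 : L9mTP 0 c0 n (fun u _ => mu u) := hc.mu_tp.time n
    have d1 := L9mTP.of_T (l9m_sc_D_T hF hπ hc le_rfl hc0 le_rfl 1 n)
    have d2 := L9mTP.of_T (l9m_sc_D_T hF hπ hc le_rfl hc0 le_rfl 2 n)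
    have d3 := L9mTP.of_T (l9m_sc_D_T hF hπ hc le_rfl hc0 le_rfl 3 n)
    exact (h1.mul ((d3.const_mul (1 / 2)).add (h2.mul (d1.mul d2)))).neg
  · obtain ⟨hk0, hK, hz, hp⟩ := hl u hu huS
    have := l9m_clk_comp hK hz (Φ := fun r => scD 1 F π r y)
      (Φ' := -(1 / 2 * scD 3 F π (K u) y + mu u * (scD 1 F π (K u) y * scD 2 F π (K u) y))) (fun hne => by
        obtain ⟨e1, e2, e3, e4⟩ := hp (lt_of_le_of_ne hk0 (Ne.symm hne))
        have h3 := sc_D_pde hF hπ 1 (r := K u) (lt_of_le_of_lt hc.K0 (e4 0 le_rfl hu.1))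
          ((e3 c0 hu.2 le_rfl).trans_le hc.top) e2 y
        convert h3 using 1
        rw [e1, Function.iterate_one, sc_dyn_D1_sq1 hF π (K u)]
        ring)
    convert this using 1
    ring

theorem l9m_sc_reg_back {b : ℝ} (h0 : 0 ≤ b) (hb : b ≤ c0) {φ : ℝ → ℝ} (hφ : ∀ n, ScE n φ) :
    L9mReg 0 b (fun u => scPt F π (K u) (K b) φ)
      (fun u z => -(kap u * (1 / 2 * deriv (deriv (scPt F π (K u) (K b) φ)) z
        + mu u * (scD 1 F π (K u) z * deriv (scPt F π (K u) (K b) φ) z)))) := by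
  obtain ⟨S, hS, hl⟩ := hc.loc
  have hreg : ∀ n, ScT (Icc 0 b) n (fun u => scPt F π (K u) (K b) φ) := fun n =>
    sc_T_comp_time (sc_Pt_T hF (hφ n) hπ (K b)) (hc.cont le_rfl h0 hb) fun _ hu =>
      ⟨hc.nonneg hu.1 (hu.2.trans hb), hc.mono hu.1 hu.2 hb⟩
  refine ⟨hreg, fun n => ?_, S, hS, fun u hu huS y => ?_⟩
  · have h1 : L9mTP 0 b n (fun u _ => kap u) := (hc.kap_tp.time n).subset le_rfl hb
    have h2 : L9mTP 0 b n (fun u _ => mu u) := (hc.mu_tp.time n).subset le_rfl hb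
    have d1 := L9mTP.of_T (l9m_sc_D_T hF hπ hc le_rfl h0 hb 1 n)
    have f1 : L9mTP 0 b n (fun u => deriv (scPt F π (K u) (K b) φ)) := L9mTP.of_T (hreg (n + 1)).2.2.2
    have f2 : L9mTP 0 b n (fun u => deriv (deriv (scPt F π (K u) (K b) φ))) :=
      L9mTP.of_T (hreg (n + 2)).2.2.2.2.2.2
    exact (h1.mul ((f2.const_mul (1 / 2)).add (h2.mul (d1.mul f1)))).neg
  · obtain ⟨hk0, hK, hz, hp⟩ := hl u ⟨hu.1, hu.2.trans_le hb⟩ huS
    have := l9m_clk_comp hK hz (Φ := fun r => scPt F π r (K b) φ y)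
      (Φ' := -(1 / 2 * deriv (deriv (scPt F π (K u) (K b) φ)) y
        + mu u * (scD 1 F π (K u) y * deriv (scPt F π (K u) (K b) φ) y))) (fun hne => by
        obtain ⟨e1, e2, e3, e4⟩ := hp (lt_of_le_of_ne hk0 (Ne.symm hne))
        have h3 := sc_Pt_backward hF (hφ 2) hπ (r := K u) (t := K b) (lt_of_le_of_lt hc.K0 (e4 0 le_rfl hu.1))
          (e3 b hu.2 hb) (hc.le_len h0 hb) e2 y
        convert h3 using 1
        rw [e1]
        ring)
    convert this using 1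
    ring

end back

/-! ## E. the Dynkin formula in label time -/

/-- the right side `h = ft + L f` as a function -/
noncomputable def l9mScH (F : ℝ → ℝ) (π : List (ℝ × ℝ)) (K kap mu : ℝ → ℝ) (f ft : ℝ → ℝ → ℝ) (r : ℝ) : ℝ → ℝ :=
  fun y => ft r y + kap r * (1 / 2 * deriv (deriv (f r)) y + mu r * (scD 1 F π (K r) y * deriv (f r) y))

section dyn

variable {F : ℝ → ℝ} (hF : ScBI F) {π : List (ℝ × ℝ)} (hπ : ScPos π) {c0 : ℝ} {K kap mu : ℝ → ℝ}
  (hc : L9mClk π c0 K kap mu)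

include hF hπ hc

theorem l9m_sc_H_tp {a b : ℝ} (h0 : 0 ≤ a) (hab : a ≤ b) (hb : b ≤ c0) {f ft : ℝ → ℝ → ℝ} (hr : L9mReg a b f ft) (n : ℕ) :
    L9mTP a b n (l9mScH F π K kap mu f ft) := by
  have h1 : L9mTP a b n (fun u _ => kap u) := (hc.kap_tp.time n).subset h0 hb
  have h2 : L9mTP a b n (fun u _ => mu u) := (hc.mu_tp.time n).subset h0 hb
  have d1 := L9mTP.of_T (l9m_sc_D_T hF hπ hc h0 hab hb 1 n)
  have f1 : L9mTP a b n (fun u => deriv (f u)) := L9mTP.of_T (hr.reg (n + 1)).2.2.2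
  have f2 : L9mTP a b n (fun u => deriv (deriv (f u))) := L9mTP.of_T (hr.reg (n + 2)).2.2.2.2.2.2
  exact (hr.gen n).add (h1.mul ((f2.const_mul (1 / 2)).add (h2.mul (d1.mul f1))))

omit hπ hc in
/-- one affine piece of the clock, slope `0` -/
theorem l9m_sc_dyn_flat {s k0 a b : ℝ} (hab : a ≤ b) {f ft : ℝ → ℝ → ℝ} (hr : L9mReg a b f ft)
    (hK : ∀ u ∈ Icc a b, K u = k0) (hk : ∀ u ∈ Ioo a b, kap u = 0) (z : ℝ) :
    scPt F π s (K b) (f b) z - scPt F π s (K a) (f a) z =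
      ∫ r in a..b, scPt F π s (K r) (l9mScH F π K kap mu f ft r) z := by
  have hfb : ScE 0 (f b) := (hr.reg 0).scE (right_mem_Icc.2 hab)
  have hfa : ScE 0 (f a) := (hr.reg 0).scE (left_mem_Icc.2 hab)
  rw [hK b (right_mem_Icc.2 hab), hK a (left_mem_Icc.2 hab)]
  have e1 : scPt F π s k0 (f b) z - scPt F π s k0 (f a) z = scPt F π s k0 (fun y => f b y - f a y) z := by
    rw [sc_Pt_sub hF hfb hfa]
  have e2 : (fun y => f b y - f a y) = fun y => ∫ r in a..b, ft r y := funext fun y => hr.ftc hab y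
  rw [e1, e2, sc_Pt_integral hF π s k0 hab (hr.gen 0).tp z]
  refine sc_integral_congr_Ioo hab fun r hr' => ?_
  rw [hK r (Ioo_subset_Icc_self hr')]
  congr 1
  funext y
  simp [l9mScH, hk r hr']

omit hc in
/-- one affine piece of the clock, positive slope -/
theorem l9m_sc_dyn_aff {s a b κ m : ℝ} (hs : 0 ≤ s) (hsa : s ≤ K a) (hab : a < b) (hκ : 0 < κ) (hb : K b ≤ scLen π)
    {f ft ft' : ℝ → ℝ → ℝ} (hf : ScT (Icc a b) 2 f) (hft' : ScT (Icc a b) 0 ft') (hff : ∀ r ∈ Ioo a b, ft r = ft' r)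
    (hd : ∀ r ∈ Ioo a b, ∀ y, HasDerivAt (fun r => f r y) (ft r y) r)
    (hK : ∀ u ∈ Icc a b, K u = K a + κ * (u - a)) (hk : ∀ u ∈ Ioo a b, kap u = κ ∧ mu u = m)
    (hg : ∀ r ∈ Ioo (K a) (K b), scAl π r = m ∧ r ∉ scGrid π) (z : ℝ) :
    scPt F π s (K b) (f b) z - scPt F π s (K a) (f a) z =
      ∫ r in a..b, scPt F π s (K r) (l9mScH F π K kap mu f ft r) z := by
  have hKb : K b = K a + κ * (b - a) := hK b (right_mem_Icc.2 hab.le)
  have hKab : K a < K b := by rw [hKb]; nlinarith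
  -- the inverse clock
  set U : ℝ → ℝ := fun ρ => a + (ρ - K a) / κ with hU
  have hUK : ∀ r ∈ Icc a b, U (K r) = r := by
    intro r hr
    simp only [hU, hK r hr]
    field_simp; ring
  have hKU : ∀ ρ ∈ Icc (K a) (K b), K (U ρ) = ρ ∧ U ρ ∈ Icc a b := by
    intro ρ hρ
    have h1 : 0 ≤ (ρ - K a) / κ := div_nonneg (by linarith [hρ.1]) hκ.le
    have h2 : (ρ - K a) / κ ≤ b - a := by
      rw [div_le_iff₀ hκ]; nlinarith [hρ.2]
    have hm : U ρ ∈ Icc a b := ⟨by simp only [hU]; linarith, by simp only [hU]; linarith⟩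
    refine ⟨?_, hm⟩
    rw [hK _ hm]
    simp only [hU]
    field_simp; ring
  have hUo : ∀ ρ ∈ Ioo (K a) (K b), U ρ ∈ Ioo a b := by
    intro ρ hρ
    have h1 : 0 < (ρ - K a) / κ := div_pos (by linarith [hρ.1]) hκ
    have h2 : (ρ - K a) / κ < b - a := by
      rw [div_lt_iff₀ hκ]; nlinarith [hρ.2]
    exact ⟨by simp only [hU]; linarith, by simp only [hU]; linarith⟩
  have hUc : ContinuousOn U (Icc (K a) (K b)) := by
    simp only [hU]; fun_prop
  have hUm : MapsTo U (Icc (K a) (K b)) (Icc a b) := fun ρ hρ => (hKU ρ hρ).2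
  have hUd : ∀ ρ, HasDerivAt U (1 / κ) ρ := by
    intro ρ
    simpa [hU] using (((hasDerivAt_id ρ).sub_const (K a)).div_const κ).const_add a
  -- the data in the time of `Sc`
  have hφ : ScT (Icc (K a) (K b)) 2 (fun ρ => f (U ρ)) := sc_T_comp_time hf hUc hUm
  have hG' : ScT (Icc (K a) (K b)) 0 (fun ρ y => 1 / κ * ft' (U ρ) y
      + (1 / 2 * deriv (deriv (f (U ρ))) y + m * (scD 1 F π ρ y * deriv (f (U ρ)) y))) := by
    have g1 : ScT (Icc (K a) (K b)) 0 (fun ρ => ft' (U ρ)) := sc_T_comp_time hft' hUc hUm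
    have g2 : ScT (Icc (K a) (K b)) 0 (fun ρ => deriv (deriv (f (U ρ)))) := hφ.2.2.2.2.2.2
    have g3 : ScT (Icc (K a) (K b)) 0 (fun ρ => deriv (f (U ρ))) := hφ.2.2.2.of_succ
    have g4 : ScT (Icc (K a) (K b)) 0 (scD 1 F π) := sc_dyn_space_DT hF hπ (hs.trans hsa) hb 1 0
    exact (g1.const_mul (1 / κ)).add ((g2.const_mul (1 / 2)).add ((g4.mul g3).const_mul m))
  have hGG : ∀ ρ ∈ Ioo (K a) (K b), (fun y => 1 / κ * l9mScH F π K kap mu f ft (U ρ) y) = (fun y => 1 / κ * ft' (U ρ) y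
      + (1 / 2 * deriv (deriv (f (U ρ))) y + m * (scD 1 F π ρ y * deriv (f (U ρ)) y))) := by
    intro ρ hρ
    funext y
    have h1 := hUo ρ hρ
    simp only [l9mScH, (hk _ h1).1, (hk _ h1).2, (hKU ρ (Ioo_subset_Icc_self hρ)).1, hff _ h1]
    field_simp
  have hdis : Disjoint (Ioo (K a) (K b)) (scGrid π) := by
    rw [Set.disjoint_left]
    exact fun ρ hρ => (hg ρ hρ).2
  have key := (sc_dynkin_piece hF hπ hs hsa hKab hb hdis (φ := fun ρ => f (U ρ))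
    (G := fun ρ y => 1 / κ * l9mScH F π K kap mu f ft (U ρ) y) hφ hG' hGG (fun ρ hρ y => by
      have h1 := hUo ρ hρ
      have h2 : HasDerivAt (fun ρ => f (U ρ) y) (ft (U ρ) y * (1 / κ)) ρ :=
        HasDerivAt.comp ρ (h₂ := fun r => f r y) (hd (U ρ) h1 y) (hUd ρ)
      convert h2 using 1
      simp only [l9mScH, (hk _ h1).1, (hk _ h1).2, (hKU ρ (Ioo_subset_Icc_self hρ)).1, (hg ρ hρ).1]
      field_simp
      ring) z).2
  simp only [hUK b (right_mem_Icc.2 hab.le), hUK a (left_mem_Icc.2 hab.le)] at key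
  rw [key]
  -- change of variables
  have hcv := intervalIntegral.smul_integral_comp_mul_add (a := a) (b := b)
    (fun ρ => scPt F π s ρ (fun y => 1 / κ * l9mScH F π K kap mu f ft (U ρ) y) z) κ (K a - κ * a)
  rw [smul_eq_mul] at hcv
  have ea : κ * a + (K a - κ * a) = K a := by ring
  have eb : κ * b + (K a - κ * a) = K b := by rw [hKb]; ring
  rw [ea, eb] at hcv
  rw [← hcv, ← intervalIntegral.integral_const_mul]
  refine sc_integral_congr_Ioo hab.le fun r hr => ?_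
  have hr' := Ioo_subset_Icc_self hr
  have e1 : κ * r + (K a - κ * a) = K r := by rw [hK r hr']; ring
  rw [e1, hUK r hr', sc_Pt_const_mul]
  field_simp

/-- **the Dynkin formula in label time** -/
theorem l9m_sc_dyn {a b : ℝ} (h0 : 0 ≤ a) (hab : a ≤ b) (hb : b ≤ c0) {f ft : ℝ → ℝ → ℝ} (hr : L9mReg a b f ft) (z : ℝ) :
    scPt F π (K a) (K b) (f b) z - f a z = ∫ r in a..b, scPt F π (K a) (K r) (l9mScH F π K kap mu f ft r) z := by
  obtain ⟨S1, hS1, hf⟩ := hc.fin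
  obtain ⟨S2, hS2, hG⟩ := hr.gen 0
  obtain ⟨S3, hS3, hd⟩ := hr.der
  have hint : L9mTP a b 0 (fun r => scPt F π (K a) (K r) (l9mScH F π K kap mu f ft r)) :=
    l9m_sc_T_tp hF hc h0 hb (l9m_sc_H_tp hF hπ hc h0 hab hb hr 0)
  have key : a ≤ a → b ≤ b → scPt F π (K a) (K b) (f b) z - scPt F π (K a) (K a) (f a) z =
      ∫ r in a..b, scPt F π (K a) (K r) (l9mScH F π K kap mu f ft r) z := by
    refine sc_piecewise_induction ((hS1.union hS2).union hS3)
      (P := fun a' b' => a ≤ a' → b' ≤ b → scPt F π (K a) (K b') (f b') z - scPt F π (K a) (K a') (f a') z =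
        ∫ r in a'..b', scPt F π (K a) (K r) (l9mScH F π K kap mu f ft r) z) ?_ ?_ hab
    · intro a' b' hab' hdis ha hb'
      have hd1 : Disjoint (Ioo a' b') S1 := hdis.mono_right (subset_union_left.trans subset_union_left)
      have hd2 : Disjoint (Ioo a' b') S2 := hdis.mono_right (subset_union_right.trans subset_union_left)
      have hd3 : Disjoint (Ioo a' b') S3 := hdis.mono_right subset_union_right
      obtain ⟨κ, m, hκ, hK, hk, hg⟩ := hf a' b' (h0.trans ha) hab' (hb'.trans hb) hd1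
      obtain ⟨ft', g1, g2⟩ := hG a' b' ha hab' hb' hd2
      rcases hab'.eq_or_lt with rfl | hlt
      · simp
      rcases hκ.eq_or_lt with hz | hpos
      · exact l9m_sc_dyn_flat hF (k0 := K a') hab' (hr.subset ha hb')
          (fun u hu => by rw [hK u hu, ← hz]; ring) (fun u hu => by rw [(hk u hu).1, hz]) z
      · exact l9m_sc_dyn_aff hF hπ (hc.nonneg h0 (hab.trans hb)) (hc.mono h0 ha (hab'.trans (hb'.trans hb))) hlt hpos
          (hc.le_len ((h0.trans ha).trans hab') (hb'.trans hb)) ((hr.reg 2).subset (Icc_subset_Icc ha hb')) g1 g2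
          (fun r hr' y => hd r ⟨lt_of_le_of_lt ha hr'.1, lt_of_lt_of_le hr'.2 hb'⟩
            (fun hx => Set.disjoint_left.1 hd3 hr' hx) y) hK hk (hg hpos) z
    · intro a' b' c' hab' hbc h1 h2 ha hc'
      rw [← intervalIntegral.integral_add_adjacent_intervals
        ((hint.subset ha (hbc.trans hc')).intervalIntegrable hab' z)
        ((hint.subset (ha.trans hab') hc').intervalIntegrable hbc z), ← h1 ha (hbc.trans hc'), ← h2 (ha.trans hab') hc']
      ring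
  have := key le_rfl le_rfl
  rwa [sc_Pt_self] at this

end dyn

/-! ## F. the filled step model is a reference -/

theorem l9m_N_iter {i n : ℕ} {M : ℝ} {φ : ℝ → ℝ} (h : ScN (i + n) M φ) : ScN n M (deriv^[i] φ) := by
  induction i generalizing φ with
  | zero => simpa using h
  | succ i ih =>
    rw [Function.iterate_succ_apply]
    refine ih ?_
    have e : i + 1 + n = (i + n) + 1 := by omega
    rw [e] at h
    exact h.der

/-- `Ok` from bounds with explicit constants -/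
theorem l9m_sc_ok_of {F : ℝ → ℝ} (hF : ScBI F) (he : ∀ z, F (-z) = F z) {π : List (ℝ × ℝ)} (hπ : ScPos π) {c0 eps : ℝ}
    {K kap mu : ℝ → ℝ} (hc : L9mClk π c0 K kap mu) {Cn : ℕ → ℝ} (c0_pos : 0 < c0) (c0_le : c0 ≤ 1)
    (eps_nonneg : 0 ≤ eps) (eps_le : eps ≤ 1) (Cn_ge : ∀ n, 1 ≤ Cn n) (Cn_mono : Monotone Cn)
    (mu_ge : ∀ u, 0 ≤ u → u ≤ c0 → u ≤ mu u) (mu_le : ∀ u, 0 ≤ u → u ≤ c0 → mu u ≤ u + eps)
    (kap_bd : ∀ u, 0 ≤ u → u ≤ c0 → |kap u| ≤ Cn 0)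
    (kap_lip : ∀ u, 0 ≤ u → u ≤ c0 → |kap u - kap 0| ≤ Cn 0 * (u + eps))
    (hD : ∀ j n t, 1 ≤ j → ScN n (Cn (j + n)) (scD j F π t))
    (chi : 1 ≤ Cn 0 * (scD 2 F π (K 0) 0) ^ 2)
    (hT : ∀ (n : ℕ) (M : ℝ) (φ : ℝ → ℝ) (s t : ℝ), ScN n M φ → ScN n (Cn n * M) (scPt F π s t φ)) :
    (l9mSc F hF π K kap mu).Ok c0 eps Cn where
  c0_pos := c0_pos
  c0_le := c0_le
  eps_nonneg := eps_nonneg
  eps_le := eps_le
  Cn_ge := Cn_ge
  Cn_mono := Cn_mono
  mu_ge := mu_ge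
  mu_le := mu_le
  mu_tp := hc.mu_tp
  kap_tp := hc.kap_tp
  kap_bd := kap_bd
  kap_lip := kap_lip
  g_D := l9mSc_g_D hF π K kap mu
  g_N := fun j n u hj _ _ => by
    rw [l9mSc_g_coe hF π K kap mu hj u]
    exact hD j n (K u) hj
  g_sg := l9mSc_g_sg hF π K kap mu he
  chi := chi
  T_add := l9mSc_T_add hF π K kap mu
  T_cst_mul := l9mSc_T_cst_mul hF π K kap mu
  T_one := l9mSc_T_one hF π K kap mu
  T_refl := l9mSc_T_refl hF π K kap mu
  T_comp := fun u v w φ h0 huv hvw hw => Subtype.ext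
    (sc_Pt_Pt hF (φ.scE 0) hπ (hc.mono h0 huv (hvw.trans hw)) (hc.mono (h0.trans huv) hvw hw))
  T_sg := l9mSc_T_sg hF he π K kap mu
  T_N := fun n M φ u v _ _ _ h => hT n M φ.1 (K u) (K v) h
  T_tp := fun a b n H h0 _ hb hH => l9m_sc_T_tp hF hc h0 hb hH
  reg_g1 := l9m_sc_reg_g1 hF hπ hc c0_pos.le
  reg_back := fun b φ h0 hb => l9m_sc_reg_back hF hπ hc h0 hb φ.scE
  dyn := fun a b f h H z => by
    have h1 := l9m_sc_dyn hF hπ hc H.1 H.2.1 H.2.2.1 H.2.2.2 z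
    have e : ∀ r, l9mScH F π K kap mu (fun u => (f u).1)
        (fun u => (h u - (l9mSc F hF π K kap mu).L u (f u)).1) r = (h r).1 := by
      intro r
      funext y
      exact sub_add_cancel ((h r).1 y) _
    simp only [e] at h1
    exact h1

/-- the hypotheses on the step profile and its filled clock; `a` mass bound, `A n` bounds of `F'`, `C0` clock and `χ` -/
structure L9mScHyp (a : ℝ) (A : ℕ → ℝ) (C0 : ℝ) (F : ℝ → ℝ) (π : List (ℝ × ℝ)) (c0 eps : ℝ) (K kap mu : ℝ → ℝ) : Prop where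
  even : ∀ z, F (-z) = F z
  FN : ∀ n, ScN n (A n) (deriv F)
  adm : ScAdm a π
  inc : ScInc π
  clk : L9mClk π c0 K kap mu
  c0_pos : 0 < c0
  c0_le : c0 ≤ 1
  eps_nonneg : 0 ≤ eps
  eps_le : eps ≤ 1
  mu_ge : ∀ u, 0 ≤ u → u ≤ c0 → u ≤ mu u
  mu_le : ∀ u, 0 ≤ u → u ≤ c0 → mu u ≤ u + eps
  kap_bd : ∀ u, 0 ≤ u → u ≤ c0 → |kap u| ≤ C0
  kap_lip : ∀ u, 0 ≤ u → u ≤ c0 → |kap u - kap 0| ≤ C0 * (u + eps)
  chi : 1 ≤ C0 * (scD 2 F π (K 0) 0) ^ 2

/-- **INSTANCE**: the filled step model is a reference, with constants which depend only on `a, A, C0` -/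
theorem l9m_sc_ok {a : ℝ} (ha : 0 ≤ a) {A : ℕ → ℝ} (hA : ∀ n, 0 ≤ A n) {C0 : ℝ} (hC0 : 1 ≤ C0) :
    ∃ Cn : ℕ → ℝ, ∀ (F : ℝ → ℝ) (hF : ScBI F) (π : List (ℝ × ℝ)) (c0 eps : ℝ) (K kap mu : ℝ → ℝ),
      L9mScHyp a A C0 F π c0 eps K kap mu → (l9mSc F hF π K kap mu).Ok c0 eps Cn := by
  choose KT hKT HT using fun n => sc_tau_Pt ha n (hA n)
  choose CV hCV HV using fun n => sc_tau_V ha n (hA n)
  have hterm : ∀ k, 0 ≤ KT k + CV k := fun k => add_nonneg (zero_le_one.trans (hKT k)) (hCV k)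
  set Cn : ℕ → ℝ := fun n => C0 + ∑ k ∈ Finset.range (n + 1), (KT k + CV k) with hCn
  have hle : ∀ {m n : ℕ}, m ≤ n → KT m + CV m ≤ Cn n := by
    intro m n hmn
    have h1 : KT m + CV m ≤ ∑ k ∈ Finset.range (n + 1), (KT k + CV k) :=
      Finset.single_le_sum (f := fun k => KT k + CV k) (fun k _ => hterm k) (Finset.mem_range.2 (by omega))
    simp only [hCn]
    linarith
  have hC0le : ∀ n, C0 ≤ Cn n := by
    intro n
    have : 0 ≤ ∑ k ∈ Finset.range (n + 1), (KT k + CV k) := Finset.sum_nonneg fun k _ => hterm k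
    simp only [hCn]
    linarith
  have hmono : Monotone Cn := by
    intro m n hmn
    have : ∑ k ∈ Finset.range (m + 1), (KT k + CV k) ≤ ∑ k ∈ Finset.range (n + 1), (KT k + CV k) :=
      Finset.sum_le_sum_of_subset_of_nonneg (Finset.range_subset_range.2 (by omega)) fun k _ _ => hterm k
    simp only [hCn]
    linarith
  refine ⟨Cn, fun F hF π c0 eps K kap mu H => ?_⟩
  refine l9m_sc_ok_of hF H.even H.adm.pos H.clk H.c0_pos H.c0_le H.eps_nonneg H.eps_le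
    (fun n => hC0.trans (hC0le n)) hmono H.mu_ge H.mu_le (fun u h0 h1 => (H.kap_bd u h0 h1).trans (hC0le 0))
    (fun u h0 h1 => (H.kap_lip u h0 h1).trans
      (mul_le_mul_of_nonneg_right (hC0le 0) (add_nonneg h0 H.eps_nonneg))) ?_ ?_ ?_
  · intro j n t hj
    obtain ⟨i, rfl⟩ : ∃ i, j = i + 1 := ⟨j - 1, by omega⟩
    have h1 := HV (i + n) F (scAfter π t) hF (H.FN (i + n)) (sc_after_adm H.adm t) (sc_after_inc H.inc t)
    have h2 : ScN n (CV (i + n)) (scD (i + 1) F π t) := by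
      unfold scD
      rw [sc_Vt_after, Function.iterate_succ_apply]
      exact l9m_N_iter h1
    refine h2.weaken ?_
    have := hle (m := i + n) (n := i + 1 + n) (by omega)
    linarith [zero_le_one.trans (hKT (i + n))]
  · exact H.chi.trans (mul_le_mul_of_nonneg_right (hC0le 0) (sq_nonneg _))
  · intro n M φ s t hφ
    refine (HT n F π φ M hF (H.FN n) H.adm H.inc hφ s t).weaken ?_
    refine mul_le_mul_of_nonneg_right ?_ hφ.nonneg
    have := hle (m := n) (n := n) le_rfl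
    linarith [hCV n]

end Claimed.Agent.R286
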