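import Claimed.Agent.R286.L09.Cut
import Claimed.Agent.R286.L09.KeyB
import Claimed.Agent.R286.L09.ModSc
import Claimed.Agent.R286.L09.Lc1
import Claimed.Agent.R286.Sc.LinkTr
import Claimed.Agent.R286.L02.Inst

/-!
# Row 286 (S0533), LL Sec. 9, node LC1, S5 KEY: DICTIONARY + LINK      (owner: helper219; prefix `l9ky`, `L9ky`)      split with helper285 (`L09/KeyA.lean`: abstract KEY `l9z_key`), exit for helper276 (`L09/Lc1.lean`: `L9lKey`)

LL 09 l.505-611.   0 sorry (`l9z_key` is proved in `L09/KeyB`, 98 + 285 + 26 + 239 + 255).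

1. `l9ky_Pt_grid`, `l9ky_Fld` : the scalar step calculus between two STAGES `u ≤ t`: `trFld (ls.drop u) (t - u) = scPt` between the variance times `slkT P u`, `slkT P t`.
2. `l9kySlot L c φ = ∂_z φ + c G_z(c,·) φ` (operator of one slot in ANY `L14Calc`),   `l9ky_slot_sig` : `𝒟^k 1 = L.sig c k`.
3. `L9Bt.dep`, `L9Bt.Mo` (monotone depths),   `l9kySk ms hD : L9Bt → L14Sk D` (depth `d` ↦ incoming mass `trPm ms d`);   `l9ky_sk_mass, _mem, _ok, _split`.
4. `l9ky_dict` : DICTIONARY: a table on `D ≥ 1` ghosts which pairwise split below the cut is coded by a discrete skeleton (`Cd` of 285 + `Mo`).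
5. `L9kyLk a P K t` (hypotheses of the link; `clk : K (trPm ms u) = slkT P u` for the depths `u ≤ t`),   `l9ky_D_iter` (`l9zD` = `l9kySlot` of model 1),   `l9ky_W` (`l9zW` = `L14Sk.W` of model 1).
6. **`l9ky_key`** (one-site step path),   **`l9ky_key_ll`** (fine LL path, exit form `L9lKey`).
7. `L9kyDic ms n D c sk β ρ hD b` + **`l9ky_blk`** (existence, from `L9kBlk`): `Ok`, `labels = univ`, `split = trPm ms (sk x y)`;   `L9kyDic.vs`, `L9kyDic.dist` (words of `l9lGr`),   **`L9kyDic.key`**.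

USE (producer of (E4)): `obtain ⟨b, d⟩ := l9ky_blk hms h hc hD`;   `s := l9kySk ms hD b` (ONE skeleton for the two ends `t`, `t + h`: it depends on `ms`, `sk` only);
`d.ok`, `d.full` = fields of `L14Hyp`;   `d.key .. hR .. hK ..` at each end = `KEY0`, `KEY1` of `l9l_e4`.
DEBT `hK : ∀ u ≤ c, K (trPm (llMs a P) u) = llCumK P u` of `L9kyDic.key`: PAID by 47 for his filled clock: `l9ph_hK_gen`, `l9ph_hK` (`L09/PhysI`).
-/

set_option autoImplicit false

namespace Claimed.Agent.R286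

open MeasureTheory ProbabilityTheory Filter Topology Set

/-! ## 1. the scalar step calculus between two stages -/

theorem l9ky_pos_drop {π : List (ℝ × ℝ)} (h : ScPos π) (t : ℕ) : ScPos (π.drop t) := fun p hp => h p (List.mem_of_mem_drop hp)

/-- start at the time of the stage `u` = start at `0` in the remaining profile -/
theorem l9ky_Pt_drop (F φ : ℝ → ℝ) : ∀ {π : List (ℝ × ℝ)}, ScPos π → ∀ (u : ℕ) (t : ℝ),
    scPt F π (scLen (π.take u)) t φ = scPt F (π.drop u) 0 (t - scLen (π.take u)) φ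
  | [], _, u, t => by simp [scPt]
  | p :: π, _, 0, t => by simp [scLen]
  | p :: π, h, u + 1, t => by
      have h0 := sc_len_nonneg (slk_pos_take h.of_cons u)
      simp only [List.take_succ_cons, List.drop_succ_cons, scLen]
      rw [sc_Pt_cons_ge F p π (by linarith), add_sub_cancel_left, l9ky_Pt_drop F φ h.of_cons u]
      congr 1
      ring

theorem l9ky_len_take (π : List (ℝ × ℝ)) {u t : ℕ} (hut : u ≤ t) :
    scLen (π.take t) = scLen (π.take u) + scLen ((π.drop u).take (t - u)) := by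
  obtain ⟨k, rfl⟩ := Nat.exists_eq_add_of_le hut
  rw [Nat.add_sub_cancel_left, List.take_add, sc_len_append]

/-- **transition between the stages `u ≤ t`** -/
theorem l9ky_Pt_grid (F φ : ℝ → ℝ) {π : List (ℝ × ℝ)} (h : ScPos π) {u t : ℕ} (hut : u ≤ t) :
    scPt F π (scLen (π.take u)) (scLen (π.take t)) φ = scP (scV F (π.drop t)) ((π.drop u).take (t - u)) φ := by
  rw [l9ky_Pt_drop F φ h, l9ky_len_take π hut, add_sub_cancel_left, slk_Pt_take F φ (l9ky_pos_drop h u), List.drop_drop]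
  congr 3
  omega

/-- the law of the field between the stages `u ≤ t`, time form -/
theorem l9ky_Fld (a : ℝ) {f : (SkCfg 1 → ℝ) → ℝ} (hf : ScE 0 fun y => f (slkZ y)) {P : SkStp} (h : SlkOk P)
    (hh : ∀ e ∈ P, 0 ≤ e.dh) {u t : ℕ} (hut : u ≤ t) (x : ℝ) :
    trFld (skBase 1 a) ((skLvs 1 P).drop u) (t - u) (slkZ x) f
      = scPt (scLC a) (slkPi P) (slkT P u) (slkT P t) (fun y => f (slkZ y)) x := by
  have e1 : (skLvs 1 P).drop u = skLvs 1 (P.drop u) := by simp [skLvs, List.map_drop]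
  rw [e1, slk_Fld a hf (P.drop u) (fun e he => h e (List.mem_of_mem_drop he)), slkT, slkT]
  simp only [slk_Pi_take, slk_Pi_drop]
  rw [l9ky_Pt_grid _ _ (slk_pos hh) hut, List.drop_drop]
  congr 4
  omega

/-! ## 2. the operator of one slot in the abstract calculus -/

section slotop
variable {bd : L14Bd} {𝕂 𝓕 : Type} [CommRing 𝕂] [CommRing 𝓕] (L : L14Calc bd 𝕂 𝓕)

/-- the operator of one slot: `𝒟 φ = ∂_z φ + c G_z(c, ·) φ` -/
def l9kySlot (c : ℝ) (φ : 𝓕) : 𝓕 := L.D φ + L.cst (L.re c) * (L.g 1 c * φ)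

/-- `𝒟^k 1 = e^{-cG} ∂_z^k e^{cG} = σ_k` -/
theorem l9ky_slot_sig (c : ℝ) : ∀ k : ℕ, (l9kySlot L c)^[k] 1 = L.sig c k
  | 0 => rfl
  | 1 => by
      have h1 : L.D 1 = 0 := by simpa using L.D_cst 1
      simp [l9kySlot, L14Calc.sig, L14Calc.st, h1]
  | k + 2 => by
      rw [Function.iterate_succ_apply', l9ky_slot_sig c (k + 1)]
      simp only [l9kySlot, L14Calc.sig, L14Calc.st, L.D_mul, L.D_cst]
      ring

end slotop

/-! ## 3. discrete skeletons: depths, the skeleton of the calculus -/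

namespace L9Bt

/-- depth of the root (the leaves sit at the cut `t`) -/
def dep (t : ℕ) : L9Bt → ℕ
  | leaf _ => t
  | fork d _ _ => d

/-- the depths are `≤ t` and nondecreasing towards the leaves -/
def Mo (t : ℕ) : L9Bt → Prop
  | leaf _ => True
  | fork d l r => d ≤ t ∧ d ≤ l.dep t ∧ d ≤ r.dep t ∧ l.Mo t ∧ r.Mo t

theorem dep_le {t : ℕ} : ∀ {b : L9Bt}, b.Mo t → b.dep t ≤ t
  | leaf _, _ => le_rfl
  | fork _ _ _, h => h.1

end L9Bt

/-- the skeleton of the calculus: depth `d` ↦ incoming mass `trPm ms d` -/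
def l9kySk (ms : ℕ → ℝ) {D : ℕ} (hD : 0 < D) : L9Bt → L14Sk D
  | .leaf A => .leaf ⟨A % D, Nat.mod_lt _ hD⟩
  | .fork d l r => .fork (trPm ms d) (l9kySk ms hD l) (l9kySk ms hD r)

theorem l9ky_eqns_cite : True := by
  have := @l9kySlot.eq_1
  have := @L9Bt.dep.eq_1; have := @L9Bt.dep.eq_2; have := @L9Bt.dep.eq_def
  have := @L9Bt.Mo.eq_1; have := @L9Bt.Mo.eq_2; have := @L9Bt.Mo.eq_def
  have := @l9kySk.eq_1; have := @l9kySk.eq_2; have := @l9kySk.eq_def
  have := @L9Bt.Mo.induct; have := @l9kySk.induct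
  trivial

section sk
variable {ms : ℕ → ℝ} {D : ℕ} (hD : 0 < D)

theorem l9ky_sk_mass (t : ℕ) : ∀ b : L9Bt, (l9kySk ms hD b).mass (trPm ms t) = trPm ms (b.dep t)
  | .leaf _ => rfl
  | .fork _ _ _ => rfl

theorem l9ky_sk_mem : ∀ {b : L9Bt}, (∀ A ∈ b.labs, A < D) → ∀ A : Fin D, A ∈ (l9kySk ms hD b).labels ↔ A.1 ∈ b.labs
  | .leaf B, h, A => by
      have hB : B < D := h B (by simp [L9Bt.labs])
      simp only [l9kySk, L14Sk.labels, L9Bt.labs, Finset.mem_singleton, Fin.ext_iff, Nat.mod_eq_of_lt hB]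
  | .fork d l r, h, A => by
      have hl : ∀ A ∈ l.labs, A < D := fun A hA => h A (by simp [L9Bt.labs, hA])
      have hr : ∀ A ∈ r.labs, A < D := fun A hA => h A (by simp [L9Bt.labs, hA])
      simp only [l9kySk, L14Sk.labels, L9Bt.labs, Finset.mem_union, l9ky_sk_mem hl, l9ky_sk_mem hr]

theorem l9ky_pm_nonneg {N : ℕ} (hms : IsMs N ms) (j : ℕ) : 0 ≤ trPm ms j := by
  unfold trPm
  split_ifs
  · exact le_rfl
  · exact hms.nonneg _

theorem l9ky_pm_mono {N : ℕ} (hms : IsMs N ms) {i j : ℕ} (hij : i ≤ j) (hj : j ≤ N + 1) : trPm ms i ≤ trPm ms j := by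
  unfold trPm
  by_cases hi : i = 0
  · rw [if_pos hi]
    split_ifs
    · exact le_rfl
    · exact hms.nonneg _
  · rw [if_neg hi, if_neg (by omega)]
    exact hms.mono _ _ (by omega) (by omega)

theorem l9ky_sk_ok {N t : ℕ} (hms : IsMs N ms) (ht : t ≤ N + 1) {sk : ℕ → ℕ → ℕ} : ∀ {b : L9Bt}, b.Mo t → b.Cd sk t →
    (∀ A ∈ b.labs, A < D) → (l9kySk ms hD b).Ok (trPm ms t)
  | .leaf _, _, _, _ => trivial
  | .fork d l r, hm, hc, h => by
      have hl : ∀ A ∈ l.labs, A < D := fun A hA => h A (by simp [L9Bt.labs, hA])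
      have hr : ∀ A ∈ r.labs, A < D := fun A hA => h A (by simp [L9Bt.labs, hA])
      refine ⟨l9ky_pm_nonneg hms d, ?_, ?_, ?_, l9ky_sk_ok hms ht hm.2.2.2.1 hc.2.2.2.1 hl, l9ky_sk_ok hms ht hm.2.2.2.2 hc.2.2.2.2 hr⟩
      · rw [l9ky_sk_mass]
        exact l9ky_pm_mono hms hm.2.1 ((L9Bt.dep_le hm.2.2.2.1).trans ht)
      · rw [l9ky_sk_mass]
        exact l9ky_pm_mono hms hm.2.2.1 ((L9Bt.dep_le hm.2.2.2.2).trans ht)
      · rw [Finset.disjoint_left]
        intro A h1 h2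
        rw [l9ky_sk_mem hD hl] at h1
        rw [l9ky_sk_mem hD hr] at h2
        exact (Finset.disjoint_left.1 hc.2.1) h1 h2

theorem l9ky_sk_split {t : ℕ} {sk : ℕ → ℕ → ℕ} (hsym : ∀ A B, A < D → B < D → sk A B = sk B A) : ∀ {b : L9Bt}, b.Cd sk t →
    (∀ A ∈ b.labs, A < D) → ∀ A B : Fin D, A.1 ∈ b.labs → B.1 ∈ b.labs → A ≠ B →
      (l9kySk ms hD b).split (trPm ms t) A B = trPm ms (sk A.1 B.1)
  | .leaf C, _, _, A, B, hA, hB, hAB => by
      simp only [L9Bt.labs, Finset.mem_singleton] at hA hB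
      exact absurd (Fin.ext (hA.trans hB.symm)) hAB
  | .fork d l r, hc, h, A, B, hA, hB, hAB => by
      have hl : ∀ A ∈ l.labs, A < D := fun A hA => h A (by simp [L9Bt.labs, hA])
      have hr : ∀ A ∈ r.labs, A < D := fun A hA => h A (by simp [L9Bt.labs, hA])
      have hdis := Finset.disjoint_left.1 hc.2.1
      simp only [l9kySk, L14Sk.split, l9ky_sk_mem hD hl, l9ky_sk_mem hD hr]
      simp only [L9Bt.labs, Finset.mem_union] at hA hB
      by_cases h1 : A.1 ∈ l.labs ∧ B.1 ∈ l.labs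
      · rw [if_pos h1]
        exact l9ky_sk_split hsym hc.2.2.2.1 hl A B h1.1 h1.2 hAB
      · rw [if_neg h1]
        by_cases h2 : A.1 ∈ r.labs ∧ B.1 ∈ r.labs
        · rw [if_pos h2]
          exact l9ky_sk_split hsym hc.2.2.2.2 hr A B h2.1 h2.2 hAB
        · rw [if_neg h2]
          rcases hA with hA | hA
          · rcases hB with hB | hB
            · exact absurd ⟨hA, hB⟩ h1
            · rw [hc.2.2.1 _ hA _ hB]
          · rcases hB with hB | hB
            · rw [hsym _ _ A.2 B.2, hc.2.2.1 _ hB _ hA]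
            · exact absurd ⟨hA, hB⟩ h2

end sk

/-! ## 4. the dictionary: tables on the ghosts -> discrete skeletons -/

theorem l9ky_dict_aux {N D t : ℕ} {sk : ℕ → ℕ → ℕ} (hsk : IsTr N D sk) (ht : t ≤ N + 1)
    (hlt : ∀ A B, A < D → B < D → A ≠ B → sk A B < t) :
    ∀ (n : ℕ) (C : Finset ℕ), C.card = n → C.Nonempty → (∀ A ∈ C, A < D) →
      ∃ b : L9Bt, b.labs = C ∧ b.Cd sk t ∧ b.Mo t ∧
        ∀ e, e ≤ t → (∀ A ∈ C, ∀ B ∈ C, A ≠ B → e ≤ sk A B) → e ≤ b.dep t := by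
  intro n
  induction n using Nat.strong_induction_on with
  | _ n ih =>
    intro C hcard hne hCD
    obtain ⟨A0, hA0⟩ := hne
    by_cases h1 : C = {A0}
    · exact ⟨.leaf A0, by simp [L9Bt.labs, h1], trivial, trivial, fun e he _ => he⟩
    · have hne' : (C.erase A0).Nonempty := by
        rw [Finset.nonempty_iff_ne_empty]
        intro h0
        apply h1
        ext x
        constructor
        · intro hx
          by_contra hx'
          have : x ∈ C.erase A0 := Finset.mem_erase.2 ⟨by simpa using hx', hx⟩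
          rw [h0] at this
          simp at this
        · intro hx
          rw [Finset.mem_singleton.1 hx]
          exact hA0
      obtain ⟨B0, hB0, hmin⟩ := Finset.exists_min_image (C.erase A0) (fun B => sk A0 B) hne'
      have hB0C : B0 ∈ C := Finset.mem_of_mem_erase hB0
      have hB0ne : B0 ≠ A0 := Finset.ne_of_mem_erase hB0
      set d := sk A0 B0 with hd
      have hdt : d < t := hlt A0 B0 (hCD _ hA0) (hCD _ hB0C) hB0ne.symm
      set C1 := C.filter (fun B => d < sk A0 B) with hC1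
      set C2 := C.filter (fun B => ¬ d < sk A0 B) with hC2
      have hA0C1 : A0 ∈ C1 := by
        rw [hC1, Finset.mem_filter]
        refine ⟨hA0, ?_⟩
        rw [hsk.diag A0 (hCD _ hA0)]
        omega
      have hB0C2 : B0 ∈ C2 := by
        rw [hC2, Finset.mem_filter]
        exact ⟨hB0C, lt_irrefl _⟩
      have hC2d : ∀ B ∈ C2, B ∈ C ∧ sk A0 B = d := by
        intro B hB
        rw [hC2, Finset.mem_filter] at hB
        have hBA : B ≠ A0 := by
          rintro rfl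
          apply hB.2
          rw [hsk.diag B (hCD _ hA0)]
          omega
        have := hmin B (Finset.mem_erase.2 ⟨hBA, hB.1⟩)
        exact ⟨hB.1, by omega⟩
      have hC1d : ∀ B ∈ C1, B ∈ C ∧ d < sk A0 B := by
        intro B hB
        rw [hC1, Finset.mem_filter] at hB
        exact hB
      have hs1 : C1.card < n := by
        rw [← hcard]
        apply Finset.card_lt_card
        refine ⟨Finset.filter_subset _ _, fun h => ?_⟩
        have := (hC1d B0 (h hB0C)).2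
        omega
      have hs2 : C2.card < n := by
        rw [← hcard]
        apply Finset.card_lt_card
        refine ⟨Finset.filter_subset _ _, fun h => ?_⟩
        have := (hC2d A0 (h hA0)).2
        rw [hsk.diag A0 (hCD _ hA0)] at this
        omega
      obtain ⟨b1, l1, c1, m1, e1⟩ := ih _ hs1 C1 rfl ⟨A0, hA0C1⟩ (fun A hA => hCD A (hC1d A hA).1)
      obtain ⟨b2, l2, c2, m2, e2⟩ := ih _ hs2 C2 rfl ⟨B0, hB0C2⟩ (fun A hA => hCD A (hC2d A hA).1)
      refine ⟨.fork d b1 b2, ?_, ⟨hdt, ?_, ?_, c1, c2⟩, ⟨hdt.le, ?_, ?_, m1, m2⟩, ?_⟩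
      · simp only [L9Bt.labs, l1, l2, hC1, hC2]
        exact Finset.filter_union_filter_not_eq _ _
      · rw [l1, l2, hC1, hC2]
        exact Finset.disjoint_filter_filter_not _ _ _
      · intro A hA B hB
        rw [l1] at hA
        rw [l2] at hB
        obtain ⟨a1, a2⟩ := hC1d A hA
        obtain ⟨b1', b2'⟩ := hC2d B hB
        have u1 := hsk.ultra A A0 B (hCD _ a1) (hCD _ hA0) (hCD _ b1')
        have u2 := hsk.ultra A0 A B (hCD _ hA0) (hCD _ a1) (hCD _ b1')
        have s1 := hsk.symm A A0 (hCD _ a1) (hCD _ hA0)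
        omega
      · apply e1 d hdt.le
        intro A hA B hB _
        obtain ⟨a1, a2⟩ := hC1d A hA
        obtain ⟨b1', b2'⟩ := hC1d B hB
        have u1 := hsk.ultra A A0 B (hCD _ a1) (hCD _ hA0) (hCD _ b1')
        have s1 := hsk.symm A A0 (hCD _ a1) (hCD _ hA0)
        omega
      · apply e2 d hdt.le
        intro A hA B hB _
        obtain ⟨a1, a2⟩ := hC2d A hA
        obtain ⟨b1', b2'⟩ := hC2d B hB
        have u1 := hsk.ultra A A0 B (hCD _ a1) (hCD _ hA0) (hCD _ b1')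
        have s1 := hsk.symm A A0 (hCD _ a1) (hCD _ hA0)
        omega
      · intro e _ he
        exact he A0 hA0 B0 hB0C hB0ne.symm

/-- **DICTIONARY**: a table on `D ≥ 1` ghosts which pairwise split below the cut of depth `t` is coded by a discrete skeleton -/
theorem l9ky_dict {N D t : ℕ} {sk : ℕ → ℕ → ℕ} (hsk : IsTr N D sk) (ht : t ≤ N + 1) (hD : 0 < D)
    (hlt : ∀ A B, A < D → B < D → A ≠ B → sk A B < t) :
    ∃ b : L9Bt, b.labs = Finset.range D ∧ b.Cd sk t ∧ b.Mo t := by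
  obtain ⟨b, h1, h2, h3, -⟩ := l9ky_dict_aux hsk ht hlt _ (Finset.range D) rfl ⟨0, Finset.mem_range.2 hD⟩
    (fun A hA => Finset.mem_range.1 hA)
  exact ⟨b, h1, h2, h3⟩

/-! ## 5. LINK: the one-site hierarchy below a cut = model 1 (filled step model) -/

/-- hypotheses of the link: one-site path `P` (no matrix clock), cut of depth `t`;   the clock `K` of the model sends the incoming mass of the depth `u ≤ t`
to the variance time of the stage `u` -/
structure L9kyLk (a : ℝ) (P : SkStp) (K : ℝ → ℝ) (t : ℕ) : Prop where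
  a_pos : 0 < a
  ok : SlkOk P
  adm : SkAdm a P
  clk : ∀ u, u ≤ t → K (trPm (trMs (skBase 1 a) (skLvs 1 P)) u) = slkT P u

section link
variable {a : ℝ} {P : SkStp} {K kap mu : ℝ → ℝ} {c0 eps : ℝ} {Cn : ℕ → ℝ} {t : ℕ}

theorem L9kyLk.dh (H : L9kyLk a P K t) : ∀ e ∈ P, 0 ≤ e.dh := fun e he => (H.adm.2 e he).2.2.2

/-- the operator of one slot -/
theorem l9ky_D_iter (H : L9kyLk a P K t) (hR : (l9mSc (scLC a) (slk_LC_BI a) (slkPi P) K kap mu).Ok c0 eps Cn) : ∀ (k : ℕ) (y : ℝ),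
    ((l9zD (skBase 1 a) ((skLvs 1 P).drop t) (trPm (trMs (skBase 1 a) (skLvs 1 P)) t) slkSp)^[k] fun _ => 1) (slkZ y)
      = ((l9kySlot (l9mMod1 hR) (trPm (trMs (skBase 1 a) (skLvs 1 P)) t))^[k] 1).1 y
  | 0, y => rfl
  | k + 1, y => by
      rw [Function.iterate_succ_apply', Function.iterate_succ_apply']
      have IH := l9ky_D_iter H hR k
      generalize ((l9zD (skBase 1 a) ((skLvs 1 P).drop t) (trPm (trMs (skBase 1 a) (skLvs 1 P)) t) slkSp)^[k] fun _ => 1) = f at IH ⊢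
      generalize ((l9kySlot (l9mMod1 hR) (trPm (trMs (skBase 1 a) (skLvs 1 P)) t))^[k] 1) = ψ at IH ⊢
      have e1 : (skLvs 1 P).drop t = skLvs 1 (P.drop t) := by simp [skLvs, List.map_drop]
      have e2 : (fun ε : ℝ => f (slkZ y + ε • slkSp)) = fun ε => ψ.1 (y + ε) := by
        funext ε
        rw [slk_Z_smul, IH]
      have e3 : deriv (fun ε => ψ.1 (y + ε)) 0 = deriv ψ.1 y := by
        rw [deriv_comp_const_add, add_zero]
      unfold l9zD
      rw [e2, e3, e1, slk_E_time H.a_pos.ne' H.ok H.dh, IH, ← H.clk t le_rfl]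
      show _ = deriv ψ.1 y + trPm (trMs (skBase 1 a) (skLvs 1 P)) t
        * (scD 1 (scLC a) (slkPi P) (K (trPm (trMs (skBase 1 a) (skLvs 1 P)) t)) y * ψ.1 y)
      ring

/-- **the low part**: the conditional expectation on a discrete skeleton is `W` of the calculus -/
theorem l9ky_W (H : L9kyLk a P K t) (hR : (l9mSc (scLC a) (slk_LC_BI a) (slkPi P) K kap mu).Ok c0 eps Cn) {D : ℕ} (hD : 0 < D)
    (f : ℕ → (SkCfg 1 → ℝ) → ℝ) (φ : Fin D → L9mF) (hf : ∀ (A : Fin D) (y : ℝ), f A.1 (slkZ y) = (φ A).1 y) :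
    ∀ (b : L9Bt), b.Mo t → (∀ A ∈ b.labs, A < D) → ∀ u, u ≤ b.dep t → ∀ x,
      l9zW (skBase 1 a) (skLvs 1 P) t f b u (slkZ x)
        = ((l9kySk (trMs (skBase 1 a) (skLvs 1 P)) hD b).W (l9mMod1 hR) (trPm (trMs (skBase 1 a) (skLvs 1 P)) t) φ
            (trPm (trMs (skBase 1 a) (skLvs 1 P)) u)).1 x
  | .leaf A, _, hl, u, hu, x => by
      have hA : A < D := hl A (by simp [L9Bt.labs])
      have e0 : (fun y => f A (slkZ y)) = (φ ⟨A, hA⟩).1 := funext fun y => hf ⟨A, hA⟩ y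
      have e1 : (⟨A % D, Nat.mod_lt _ hD⟩ : Fin D) = ⟨A, hA⟩ := Fin.ext (Nat.mod_eq_of_lt hA)
      have hu' : u ≤ t := hu
      show trFld (skBase 1 a) ((skLvs 1 P).drop u) (t - u) (slkZ x) (f A)
        = scPt (scLC a) (slkPi P) (K (trPm (trMs (skBase 1 a) (skLvs 1 P)) u)) (K (trPm (trMs (skBase 1 a) (skLvs 1 P)) t))
            (φ ⟨A % D, Nat.mod_lt _ hD⟩).1 x
      rw [l9ky_Fld a (by rw [e0]; exact (φ _).scE 0) H.ok H.dh hu', e0, e1, H.clk u hu', H.clk t le_rfl]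
  | .fork d l r, hm, hl, u, hu, x => by
      have hll : ∀ A ∈ l.labs, A < D := fun A hA => hl A (by simp [L9Bt.labs, hA])
      have hlr : ∀ A ∈ r.labs, A < D := fun A hA => hl A (by simp [L9Bt.labs, hA])
      have hu' : u ≤ d := hu
      have I1 := l9ky_W H hR hD f φ hf l hm.2.2.2.1 hll d hm.2.1
      have I2 := l9ky_W H hR hD f φ hf r hm.2.2.2.2 hlr d hm.2.2.1
      set ms := trMs (skBase 1 a) (skLvs 1 P) with hms
      set Wl := (l9kySk ms hD l).W (l9mMod1 hR) (trPm ms t) φ (trPm ms d) with hWl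
      set Wr := (l9kySk ms hD r).W (l9mMod1 hR) (trPm ms t) φ (trPm ms d) with hWr
      have e0 : (fun y => l9zW (skBase 1 a) (skLvs 1 P) t f l d (slkZ y) * l9zW (skBase 1 a) (skLvs 1 P) t f r d (slkZ y))
          = (Wl * Wr).1 := by
        funext y
        rw [I1, I2]
        rfl
      show trFld (skBase 1 a) ((skLvs 1 P).drop u) (d - u) (slkZ x)
          (fun G => l9zW (skBase 1 a) (skLvs 1 P) t f l d G * l9zW (skBase 1 a) (skLvs 1 P) t f r d G)
        = scPt (scLC a) (slkPi P) (K (trPm ms u)) (K (trPm ms d)) (Wl * Wr).1 x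
      rw [l9ky_Fld a (f := fun G => l9zW (skBase 1 a) (skLvs 1 P) t f l d G * l9zW (skBase 1 a) (skLvs 1 P) t f r d G)
        (by rw [e0]; exact (Wl * Wr).scE 0) H.ok H.dh hu', e0, H.clk u (hu'.trans hm.1), H.clk d hm.1]

end link

/-! ## 6. KEY -/

section key
variable {a : ℝ} {P : SkStp} {K kap mu : ℝ → ℝ} {c0 eps : ℝ} {Cn : ℕ → ℝ} {t : ℕ}

/-- **KEY, one-site step path** (`l9z_key` of 285 + LINK): the iterated block sums of the slots over the ghosts are `E_low` of the source functions `σ_k` -/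
theorem l9ky_key (H : L9kyLk a P K t) (hR : (l9mSc (scLC a) (slk_LC_BI a) (slkPi P) K kap mu).Ok c0 eps Cn) {D : ℕ} (hD : 0 < D)
    (ht1 : 1 ≤ t) (ht : t ≤ P.length) {sk : ℕ → ℕ → ℕ} (hsk : IsTr P.length D sk) {b : L9Bt} (hb : b.Cd sk t) (hm : b.Mo t)
    (hl : b.labs = Finset.range D) (as : List ℕ) (has : ∀ A ∈ as, A < D) :
    l9It (trMs (skBase 1 a) (skLvs 1 P)) P.length t as D sk
        (fun T => trNu (skBase 1 a) (skLvs 1 P) (D + as.length) T 0 fun σ => ∏ m ∈ Finset.range as.length, slkSp (σ (D + m)))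
      = (l9kySk (trMs (skBase 1 a) (skLvs 1 P)) hD b).Elow (l9mMod1 hR) (trPm (trMs (skBase 1 a) (skLvs 1 P)) t)
          (fun A => (l9mMod1 hR).sig (trPm (trMs (skBase 1 a) (skLvs 1 P)) t) (as.count A.1)) := by
  have hlen : (skLvs 1 P).length = P.length := ll2_lvs_len 1 P
  have hlD : ∀ A ∈ b.labs, A < D := fun A hA => by rw [hl] at hA; exact Finset.mem_range.1 hA
  have k := l9z_key (slk_base_ok H.a_pos) (sk_sy_adm (n := 1) H.adm) ht1 (by rw [hlen]; exact ht) (by rw [hlen]; exact hsk) b hb hlD as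
    (fun A hA => by rw [hl]; exact Finset.mem_range.2 (has A hA)) slkSp 0
  rw [hlen] at k
  rw [k, ← slk_Z_zero]
  rw [l9ky_W H hR hD _ (fun A => (l9mMod1 hR).sig (trPm (trMs (skBase 1 a) (skLvs 1 P)) t) (as.count A.1))
    (fun A y => by rw [l9ky_D_iter H hR, l9ky_slot_sig]) b hm hlD 0 (Nat.zero_le _) 0]
  rfl

end key

/-- the spins of `Defs/Jet` and of `Defs/Sk` -/
theorem l9ky_sp (σ : SkCfg 1) : slkSp σ = jtSp (σ 0) := by
  simp [slkSp, skSp, jtSp, Claims.C0461.pmSpin]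

theorem l9ky_sc_ok (P : LlStp) : SlkOk (llSc P) := by
  intro e he
  obtain ⟨e', _, rfl⟩ := List.mem_map.1 he
  rfl

theorem l9ky_sc_T (P : LlStp) (t : ℕ) : slkT (llSc P) t = llCumK P t := by
  rw [slk_T_eq]
  simp [skCumH, llCumK, llSc, List.map_take]
  rfl

/-- **KEY, exit form** (`L9lKey` of 276): fine LL path `P`, cut of depth `1 ≤ c ≤ N`, model 1 on the filled step model of the scalar reference;
`hK`: the clock of the model sends the incoming mass of the depth `u ≤ c` to the cumulative reference clock after `u` stages -/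
theorem l9ky_key_ll {S : Type} {a : ℝ} (ha : 0 < a) {P : LlStp} (hP : LlStpAdm a P) {K kap mu : ℝ → ℝ} {c0 eps : ℝ} {Cn : ℕ → ℝ}
    (hR : (l9mSc (scLC a) (slk_LC_BI a) (slkPi (llSc P)) K kap mu).Ok c0 eps Cn) {c D : ℕ} (hc1 : 1 ≤ c) (hc : c ≤ P.length)
    (hK : ∀ u, u ≤ c → K (trPm (llMs a P) u) = llCumK P u) (hD : 0 < D) {skG : ℕ → ℕ → ℕ} (hsk : IsTr P.length D skG)
    {b : L9Bt} (hb : b.Cd skG c) (hm : b.Mo c) (hl : b.labs = Finset.range D) (Y : JtCtx S) (hY : Y.nuK = llNuS a P) :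
    L9lKey (llMs a P) P.length c D skG Y (l9mMod1 hR) (trPm (llMs a P) c) (l9kySk (llMs a P) hD b) := by
  intro as has
  have ems : trMs (skBase 1 a) (skLvs 1 (llSc P)) = llMs a P := ll2_trMs 1 a (llSc P) P (ll2_sc_mass P)
  have elen : (llSc P).length = P.length := by simp [llSc]
  have H : L9kyLk a (llSc P) K c := ⟨ha, l9ky_sc_ok P, hP.2, fun u hu => by rw [ems, hK u hu, l9ky_sc_T]⟩
  have k := l9ky_key H hR hD hc1 (by rw [elen]; exact hc) (by rw [elen]; exact hsk) hb hm hl as has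
  rw [ems, elen] at k
  rw [← k, hY]
  have e : (fun T => llNuS a P (D + as.length) T fun t => ∏ m ∈ Finset.range as.length, jtSp (t (D + m)))
      = fun T => trNu (skBase 1 a) (skLvs 1 (llSc P)) (D + as.length) T 0 fun σ => ∏ m ∈ Finset.range as.length, slkSp (σ (D + m)) := by
    funext T
    unfold llNuS
    have e' : (fun σ : ℕ → SkCfg 1 => ∏ m ∈ Finset.range as.length, jtSp (σ (D + m) 0))
        = fun σ => ∏ m ∈ Finset.range as.length, slkSp (σ (D + m)) :=
      funext fun σ => Finset.prod_congr rfl fun m _ => (l9ky_sp _).symm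
    rw [e']
  rw [e]

/-! ## 7. DICTIONARY, exit form: truncated tables with their blocks (276: `L9kBlk`) -/

/-- `b` is a discrete skeleton of the truncated table `sk` (blocks `β`, representatives `ρ`, cut of depth `c`);   `l9kySk ms hD b` is its skeleton in the calculus.
`b` does not depend on the masses, `l9kySk ms hD b` does not depend on the reference (clock): ONE skeleton for the two ends of a finite difference. -/
structure L9kyDic (ms : ℕ → ℝ) (n D c : ℕ) (sk : ℕ → ℕ → ℕ) (β ρ : ℕ → ℕ) (hD : 0 < D) (b : L9Bt) : Prop where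
  labs : b.labs = Finset.range D
  cd : b.Cd (l9kG sk ρ) c
  mo : b.Mo c
  ok : (l9kySk ms hD b).Ok (trPm ms c)
  full : (l9kySk ms hD b).labels = Finset.univ
  split : ∀ x y, x < n → y < n → sk x y < c → ∀ A B : Fin D, A.1 = β x → B.1 = β y →
    (l9kySk ms hD b).split (trPm ms c) A B = trPm ms (sk x y)

theorem l9ky_blk_lt {N n D c : ℕ} {sk : ℕ → ℕ → ℕ} {β ρ : ℕ → ℕ} (h : L9kBlk N n D c sk β ρ) {A B : ℕ} (hA : A < D) (hB : B < D)
    (hAB : A ≠ B) : l9kG sk ρ A B < c := by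
  by_contra h1
  have h2 := (h.eq (ρ A) (ρ B) (h.rl A hA) (h.rl B hB)).1 (not_lt.1 h1)
  rw [h.br A hA, h.br B hB] at h2
  exact hAB h2

/-- **DICTIONARY** -/
theorem l9ky_blk {N n D c : ℕ} {ms : ℕ → ℝ} (hms : IsMs N ms) {sk : ℕ → ℕ → ℕ} {β ρ : ℕ → ℕ} (h : L9kBlk N n D c sk β ρ)
    (hc : c ≤ N + 1) (hD : 0 < D) : ∃ b : L9Bt, L9kyDic ms n D c sk β ρ hD b := by
  have hG := h.g_isTr
  obtain ⟨b, h1, h2, h3⟩ := l9ky_dict hG hc hD (fun A B hA hB hAB => l9ky_blk_lt h hA hB hAB)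
  have hlD : ∀ A ∈ b.labs, A < D := fun A hA => by rw [h1] at hA; exact Finset.mem_range.1 hA
  refine ⟨b, h1, h2, h3, l9ky_sk_ok hD hms hc h3 h2 hlD, ?_, ?_⟩
  · ext A
    rw [l9ky_sk_mem hD hlD, h1]
    simp [A.2]
  · intro x y hx hy hxy A B hA hB
    have hne : A ≠ B := by
      intro e
      have e1 : β x = β y := by rw [← hA, ← hB, e]
      have := (h.eq x y hx hy).2 e1
      omega
    rw [l9ky_sk_split hD (fun A B hA hB => hG.symm A B hA hB) h2 hlD A B (by rw [h1]; exact Finset.mem_range.2 A.2)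
      (by rw [h1]; exact Finset.mem_range.2 B.2) hne, hA, hB]
    congr 1
    have bx := h.bl x hx
    have bY := h.bl y hy
    exact l9k_transfer h.tr hx (h.rl _ bx) hy (h.rl _ bY) ((h.eq x (ρ (β x)) hx (h.rl _ bx)).2 (h.br _ bx).symm)
      ((h.eq y (ρ (β y)) hy (h.rl _ bY)).2 (h.br _ bY).symm) hxy

/-- the designated fork of the pair `i` sits at the incoming mass of the depth `sk (2 i) (2 i + 1)` -/
theorem L9kyDic.vs {N j D c : ℕ} {ms : ℕ → ℝ} {sk : ℕ → ℕ → ℕ} {β ρ : ℕ → ℕ} {hD : 0 < D} {b : L9Bt}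
    (d : L9kyDic ms (2 * j) D c sk β ρ hD b) (h : L9kBlk N (2 * j) D c sk β ρ) (hsp : ∀ i, i < j → sk (2 * i) (2 * i + 1) < c)
    (i : Fin j) : (l9lGr h hsp).vs (trPm ms c) (l9kySk ms hD b) i = trPm ms (sk (2 * i) (2 * i + 1)) :=
  d.split (2 * i) (2 * i + 1) (by have := i.2; omega) (by have := i.2; omega) (hsp i i.2) _ _ rfl rfl

/-- **KEY + DICTIONARY**: the exit for the producer of (E4) -/
theorem L9kyDic.key {S : Type} {a : ℝ} (ha : 0 < a) {P : LlStp} (hP : LlStpAdm a P) {K kap mu : ℝ → ℝ} {c0 eps : ℝ} {Cn : ℕ → ℝ}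
    (hR : (l9mSc (scLC a) (slk_LC_BI a) (slkPi (llSc P)) K kap mu).Ok c0 eps Cn) {n c D : ℕ} (hc1 : 1 ≤ c) (hc : c ≤ P.length)
    (hK : ∀ u, u ≤ c → K (trPm (llMs a P) u) = llCumK P u) {hD : 0 < D} {sk : ℕ → ℕ → ℕ} {β ρ : ℕ → ℕ}
    (h : L9kBlk P.length n D c sk β ρ) {b : L9Bt} (d : L9kyDic (llMs a P) n D c sk β ρ hD b) (Y : JtCtx S) (hY : Y.nuK = llNuS a P) :
    L9lKey (llMs a P) P.length c D (l9kG sk ρ) Y (l9mMod1 hR) (trPm (llMs a P) c) (l9kySk (llMs a P) hD b) :=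
  l9ky_key_ll ha hP hR hc1 hc hK hD h.g_isTr d.cd d.mo d.labs Y hY

/-- `j = 2`: the two designated forks are distinct vertices of the skeleton, in the words of the table -/
theorem L9kyDic.dist {N D c : ℕ} {ms : ℕ → ℝ} {sk : ℕ → ℕ → ℕ} {β ρ : ℕ → ℕ} {hD : 0 < D} {b : L9Bt}
    (d : L9kyDic ms (2 * 2) D c sk β ρ hD b) (h : L9kBlk N (2 * 2) D c sk β ρ) (hsp : ∀ i, i < 2 → sk (2 * i) (2 * i + 1) < c)
    (hd : trPm ms (sk 0 1) ≠ trPm ms (sk 2 3) ∨
      (sk 0 2 < c ∧ trPm ms (sk 0 2) < min (trPm ms (sk 0 1)) (trPm ms (sk 2 3)))) :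
    (l9lGr h hsp).Dist (trPm ms c) (l9kySk ms hD b) := by
  have v0 : (l9lGr h hsp).vs (trPm ms c) (l9kySk ms hD b) 0 = trPm ms (sk 0 1) := d.vs h hsp 0
  have v1 : (l9lGr h hsp).vs (trPm ms c) (l9kySk ms hD b) 1 = trPm ms (sk 2 3) := d.vs h hsp 1
  unfold L14Gr.Dist
  rw [v0, v1]
  rcases hd with hd | ⟨h1, h2⟩
  · exact Or.inl hd
  · right
    rw [d.split 0 2 (by norm_num) (by norm_num) h1 _ _ rfl rfl]
    exact h2

end Claimed.Agent.R286
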