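import Claimed.Agent.R286.L09.E4
import Claimed.Agent.R286.L09.Key
import Claimed.Agent.R286.L09.PhysI
import Claimed.Agent.R286.L09.GridFD
import Claimed.Agent.R286.L09.RegSz

/-!
# Row 286 (S0533), unit L09, PRODUCER OF (E4), SIZE HALF: `L9cE4S`      (owner helper11; head of the producer helper242 (`L09/E4.lean`, point route); direct half helper166; head of the unit helper60; prefix `l9es`, `L9es`)

TEX[LL:exp:prop-low-coefficients] 09-expansion.tex l.410-460 (statement), l.493-888 (proof).      CONSUMER: `l9c_redS` (282, `L09/RedC.lean`), hypothesis `hE4 : L9cE4S 𝔹 F Cs Cl`.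

THE ROUTE (263 `GRID_263.md`, 242): on ONE chain `O f = ρ f + f'` is replaced by the finite difference operator at a SIGNED step `hh`, `|hh| = h0 = h0(N)` chosen BEFORE the chain.
ORDER OF THE CHOICES (shape `L9esSb`):      constants `c0, Cn, Kb` | smallness exponent `Kη` | `N0` | `N` | `h1(N)` | `h0 ≤ h1` | eventually `Fs` | `s, m, γ, θ, hh` (`θ, θ + hh ∈ [0, log 2]`, `|hh| = h0`, `Dif` at `θ`).
Every error which is not relative (grid errors, Taylor defects (M), `e^{-cM}`) is `≤ κ = x^Kη`;   the stop `s m ψ ≤ 4 L` is NOT used ((E4) is a statement on deterministic coefficients of the untilted context).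

## THE RECORD AT ONE POINT AND ONE STEP = END FORMS OF THE SUPPLIERS
`Q : L9Q`, step `hh`;   `Q.p = Q.pf Q.t`, `Q.p1 hh = Q.pf (Q.t + hh)`;   references `Q.I.ref Q.p`, `Q.I.ref (Q.p1 hh)` (47, `L09/PhysI`).
| group                       | content                                                                                           | supplier (END form)                          |
| `Q.InCh hh`                 | terminal mass does not move, both fine paths admissible                                           | 11 (`l9es_ch`, PROVED)                        |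
| `Q.InRef c0 Cn κ hh`        | `Ok c0 κ Cn` at the two ends, `L9mClose .. |hh| e^(-hh/6) Cn`                                       | 209 (`L09/E4R`): 47 `l9ph_main` + 120 + 288  |
| `Q.InClk cmax hh`           | the filled clock interpolates `llCumK` at the incoming masses `≤ cmax` (debt `hK` of KEY, 219)    | 11 (`l9es_clk`, PROVED from 47 `l9ph_main`)  |
| `Q.InE6 κ hh`               | (E6) at the step `hh`, defects `≤ |hh| κ`                                                          | 209 (`L09/E4R`): 120 (`chi`, `gg`), 47 (`k0`) |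
| `Q.InBo Kb cmax hh`         | `b = b∘ + O(λ max(v,U)²)` in the PAIR norm at the distance `|hh|`, depths of POSITIVE stage mass    | 98 (`L09/E4B`; 120: bo vs b0)                |
| `Q.InM Cs cmax κ hh`        | (M°) = the field `m` of `L9uLk` (242) verbatim, `η = κ`                                            | 263 (`L09/GridM`)                            |
| `Q.InDif`                   | `dd`, `dy` of `L9uSup` (242) verbatim; shape `L9SbS` (open range of `θ`)                            | 65                                           |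
`Q.E4In` = all of them + side conditions.      POINT THEOREM (`L9esPoint`): `∃ C, ∀ Q hh κ, Q.E4In .. κ hh → κ ≤ λ U^6 → L9uE4 Q C Cs cmax`   = ADAPTER `E4In ⟹ L9uSup` (276, `L09/E4L.lean`) + `l9u_point` (242).
DEGENERATE SKELETONS (`l9rVol = 0`: a designated split at a stage of mass `0`, e.g. depth `0` where `bC 0 = 0` is NOT near `b∘`): no link exists; `l9es_deg`: the grouped coefficient VANISHES (pure combinatorics).
## GLUE (this file)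
`L9esSb.and`, `L9esSb.mono` | `l9es_in` (groups ⟹ record) | **`l9es_shell`** (record + point theorem + `L9cAdmS` ⟹ `L9uE4S`).
-/

set_option autoImplicit false

namespace Claimed.Agent.R286

open scoped BigOperators Nat
open Filter Set

noncomputable section

/-! ## 1. vocabulary at one point and one step -/

namespace L9Q

variable (Q : L9Q)

/-- the path point at the shifted parameter -/
def p1 (hh : ℝ) : LlPt := Q.pf (Q.t + hh)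
/-- `χ = G_zz(0,0)` of the reference of the chain at the point `p` -/
def chiAt (p : LlPt) : ℝ := ((Q.I.ref p).g 2 0).1 0
/-- `g = G_zzzz(0,0)` -/
def ggAt (p : LlPt) : ℝ := ((Q.I.ref p).g 4 0).1 0
/-- `b∘ = χ⁻²` (of the chain) -/
def boAt (p : LlPt) : ℝ := (Q.chiAt p ^ 2)⁻¹
/-- the pair `b(v) - b∘` at the two ends -/
def bPair (hh : ℝ) (v : ℕ) : ℝ × ℝ := ((Q.I.X0 Q.p).bC v - Q.boAt Q.p, (Q.I.X0 (Q.p1 hh)).bC v - Q.boAt (Q.p1 hh))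

/-- **CHAIN** -/
structure InCh (hh : ℝ) : Prop where
  a_pos : 0 < Q.p.a
  a_eq : (Q.p1 hh).a = Q.p.a
  adm0 : LlStpAdm Q.p.a (Q.I.P Q.p)
  adm1 : LlStpAdm (Q.p1 hh).a (Q.I.P (Q.p1 hh))

/-- **REFERENCES**: the two filled step models and their closeness at the distance `|hh|`, twist `σ = ℓ / ℓ' = e^(-hh/6)`; drift mesh `κ` -/
structure InRef (c0 : ℝ) (Cn : ℕ → ℝ) (κ hh : ℝ) : Prop where
  ok0 : (Q.I.ref Q.p).Ok c0 κ Cn
  ok1 : (Q.I.ref (Q.p1 hh)).Ok c0 κ Cn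
  close : L9mClose (Q.I.ref Q.p) (Q.I.ref (Q.p1 hh)) c0 κ |hh| (Real.exp (-hh / 6)) Cn

/-- **CLOCK AT THE NODES** (debt `hK` of `L9kyDic.key`) -/
structure InClk (cmax hh : ℝ) : Prop where
  clk0 : ∀ u, u ≤ Q.N → trPm Q.ms u ≤ cmax → Q.I.fK Q.p (trPm Q.ms u) = llCumK (Q.I.P Q.p) u
  clk1 : ∀ u, u ≤ Q.N → trPm Q.ms u ≤ cmax → Q.I.fK (Q.p1 hh) (trPm Q.ms u) = llCumK (Q.I.P (Q.p1 hh)) u

/-- **(E6) at the step `hh`** -/
structure InE6 (κ hh : ℝ) : Prop where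
  chi : |Q.chiAt (Q.p1 hh) - Real.exp (1 / 6 * hh) * Q.chiAt Q.p| ≤ |hh| * κ
  gg : |Q.ggAt (Q.p1 hh) - Real.exp (1 / 2 * hh) * Q.ggAt Q.p| ≤ |hh| * κ
  k0 : |(Q.I.ref (Q.p1 hh)).kap 0 - Real.exp (-(1 / 2) * hh) * (Q.I.ref Q.p).kap 0| ≤ |hh| * κ

/-- **THE MATRIX CLOCK**: `b - b∘ = O_*(λ max(v,U)²)` at the depths `v` whose stage has POSITIVE mass, of incoming mass `≤ cmax` -/
structure InBo (Kb cmax hh : ℝ) : Prop where
  b_bd : ∀ v, v ≤ Q.N → 0 < l9rMu Q.ms v → trPm Q.ms v ≤ cmax → l9mNrm2 |hh| (Q.bPair hh v) ≤ Kb * Q.lam * max (trPm Q.ms v) Q.U ^ 2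

open Classical in
/-- **(M°)**: second order Taylor defect in the path parameter of the grouped coefficient WITHOUT defect factors (= field `m` of `L9uLk`, `η = κ`) -/
structure InM (Cs cmax κ hh : ℝ) : Prop where
  m : ∀ n, 2 ≤ n → n ≤ 4 → ∀ R, R ⊆ Finset.range n → R.Nonempty → ∀ c, c ≤ Q.N + 1 → Q.U ≤ Q.mc c → Q.mc c ≤ cmax →
    ∀ sk, Q.Sep Cs n c sk →
      |∑ τ ∈ (l9aTab Q.N (2 * n)).filter (fun τ => l9rTc (2 * n) c τ = sk),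
          (l9uHt Q.ms Q.N (l9uYf Q (Q.t + hh)) n R τ - l9uHt Q.ms Q.N (l9uYf Q Q.t) n R τ - hh * l9uHd Q.ms Q.N (l9uYf Q) Q.t n R τ)|
        ≤ |hh| * (κ * l9rVol Q.ms (2 * n) c sk)

/-- **DIF** (= fields `dd`, `dy` of `L9uSup`) -/
structure InDif : Prop where
  dd : ∀ v, DifferentiableAt ℝ (fun t' => (l9uYf Q t').dC v) Q.t
  dy : ∀ (n : ℕ) (R : Finset ℕ) (τ : JtTopo), τ ∈ l9aTab Q.N (2 * n) → DifferentiableAt ℝ (fun t' => l9uy (l9uYf Q t') n R τ) Q.t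

/-- the six groups which see the step (`InDif` needs a two-sided neighbourhood of the parameter: it comes in the shape `L9SbS`, remark of 65) -/
structure E4Gr (c0 : ℝ) (Cn : ℕ → ℝ) (Kb Cs cmax κ hh : ℝ) : Prop where
  ch : Q.InCh hh
  rf : Q.InRef c0 Cn κ hh
  clk : Q.InClk cmax hh
  e6 : Q.InE6 κ hh
  bb : Q.InBo Kb cmax hh
  mm : Q.InM Cs cmax κ hh

/-- **THE RECORD** of one point and one step -/
structure E4In (c0 : ℝ) (Cn : ℕ → ℝ) (Kb Cs cmax κ hh : ℝ) : Prop where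
  h_ne : hh ≠ 0
  h_le : |hh| ≤ κ
  c_le : cmax ≤ c0
  c_a : cmax < Q.p.a
  lam_pos : 0 < Q.lam
  lam_le : Q.lam ≤ 1
  U_pos : 0 < Q.U
  U_le : Q.U ≤ 1
  Kb_nn : 0 ≤ Kb
  Kb_lam : Kb * Q.lam ≤ 1
  ch : Q.InCh hh
  rf : Q.InRef c0 Cn κ hh
  clk : Q.InClk cmax hh
  e6 : Q.InE6 κ hh
  bb : Q.InBo Kb cmax hh
  mm : Q.InM Cs cmax κ hh
  dif : Q.InDif

end L9Q

/-! ## 2. the shape, the contracts -/

/-- **shape of the supplies of the finite difference route, SIZE segment**: `Φ κ Q hh`, `κ = x^Kη` -/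
def L9esSb (𝔹 : LlBase) (F : LlFix) (Φ : ℝ → L9Q → ℝ → Prop) : Prop :=
  ∀ Kη : ℝ, 1 ≤ Kη → ∃ N0 : ℕ, ∀ N : ℕ, N0 ≤ N → ∃ h1 : ℝ, 0 < h1 ∧ ∀ h0 : ℝ, 0 < h0 → h0 ≤ h1 → ∀ᶠ Fs : Finset GhPos in atTop,
    ∀ (s : ℝ) (m : ℕ) (γ : Fin (N + 1) → ℝ) (θ hh : ℝ), θ ∈ Icc (0 : ℝ) (Real.log 2) → θ + hh ∈ Icc (0 : ℝ) (Real.log 2) → |hh| = h0 →
      (⟨F, 𝔹, s, Fs, m⟩ : L9I).Dif (l9PtS F N γ) θ → Φ (skX N ^ Kη) (l9QS F 𝔹 s Fs m N γ θ) hh

/-- the same shape on the OPEN range of `θ` (this is what the shell consumes: `L9HyS` has `θ ∈ Ioo`);   for the supplies which need a two-sided neighbourhood of `θ` inside the segment (`L9gIn.adm`) -/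
def L9esSo (𝔹 : LlBase) (F : LlFix) (Φ : ℝ → L9Q → ℝ → Prop) : Prop :=
  ∀ Kη : ℝ, 1 ≤ Kη → ∃ N0 : ℕ, ∀ N : ℕ, N0 ≤ N → ∃ h1 : ℝ, 0 < h1 ∧ ∀ h0 : ℝ, 0 < h0 → h0 ≤ h1 → ∀ᶠ Fs : Finset GhPos in atTop,
    ∀ (s : ℝ) (m : ℕ) (γ : Fin (N + 1) → ℝ) (θ hh : ℝ), θ ∈ Ioo (0 : ℝ) (Real.log 2) → θ + hh ∈ Icc (0 : ℝ) (Real.log 2) → |hh| = h0 →
      (⟨F, 𝔹, s, Fs, m⟩ : L9I).Dif (l9PtS F N γ) θ → Φ (skX N ^ Kη) (l9QS F 𝔹 s Fs m N γ θ) hh

/-- **THE POINT THEOREM** (owner helper242): constants first, uniform in the point -/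
def L9esPoint (c0 : ℝ) (Cn : ℕ → ℝ) (Kb Cs Cl : ℝ) : Prop :=
  ∃ C : ℝ, 0 ≤ C ∧ ∀ (Q : L9Q) (cmax κ hh : ℝ), Q.u = 1 → Q.e = 1 / 6 → cmax ≤ Cl * Q.lam → Q.E4In c0 Cn Kb Cs cmax κ hh →
    κ ≤ Q.lam * Q.U ^ 6 → L9uE4 Q C Cs cmax

end

theorem l9es_defs_eqns_cite : True := by
  have := @L9Q.p1.eq_1; have := @L9Q.chiAt.eq_1; have := @L9Q.ggAt.eq_1; have := @L9Q.boAt.eq_1
  have := @L9Q.bPair.eq_1; have := @L9esSb.eq_1; have := @L9esPoint.eq_1; have := @L9esSo.eq_1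
  trivial

/-! ## 3. the shape: conjunction, monotonicity -/

theorem L9esSb.mono {𝔹 : LlBase} {F : LlFix} {Φ Ψ : ℝ → L9Q → ℝ → Prop} (h : L9esSb 𝔹 F Φ) (hi : ∀ κ Q hh, Φ κ Q hh → Ψ κ Q hh) :
    L9esSb 𝔹 F Ψ := by
  intro Kη hK
  obtain ⟨N0, H⟩ := h Kη hK
  refine ⟨N0, fun N hN => ?_⟩
  obtain ⟨h1, hp, H1⟩ := H N hN
  refine ⟨h1, hp, fun h0 hh0 hh1 => ?_⟩
  filter_upwards [H1 h0 hh0 hh1] with Fs a s m γ θ hh e1 e2 e3 e4
  exact hi _ _ _ (a s m γ θ hh e1 e2 e3 e4)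

theorem L9esSb.and {𝔹 : LlBase} {F : LlFix} {Φ Ψ : ℝ → L9Q → ℝ → Prop} (h : L9esSb 𝔹 F Φ) (h' : L9esSb 𝔹 F Ψ) :
    L9esSb 𝔹 F fun κ Q hh => Φ κ Q hh ∧ Ψ κ Q hh := by
  intro Kη hK
  obtain ⟨N0, H⟩ := h Kη hK
  obtain ⟨N0', H'⟩ := h' Kη hK
  refine ⟨max N0 N0', fun N hN => ?_⟩
  obtain ⟨h1, hp, H1⟩ := H N ((le_max_left _ _).trans hN)
  obtain ⟨h1', hp', H1'⟩ := H' N ((le_max_right _ _).trans hN)
  refine ⟨min h1 h1', lt_min hp hp', fun h0 hh0 hh1 => ?_⟩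
  filter_upwards [H1 h0 hh0 (hh1.trans (min_le_left _ _)), H1' h0 hh0 (hh1.trans (min_le_right _ _))] with Fs a a' s m γ θ hh e1 e2 e3 e4
  exact ⟨a s m γ θ hh e1 e2 e3 e4, a' s m γ θ hh e1 e2 e3 e4⟩

theorem L9esSb.op {𝔹 : LlBase} {F : LlFix} {Φ : ℝ → L9Q → ℝ → Prop} (h : L9esSb 𝔹 F Φ) : L9esSo 𝔹 F Φ := by
  intro Kη hK
  obtain ⟨N0, H⟩ := h Kη hK
  refine ⟨N0, fun N hN => ?_⟩
  obtain ⟨h1, hp, H1⟩ := H N hN
  refine ⟨h1, hp, fun h0 hh0 hh1 => ?_⟩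
  filter_upwards [H1 h0 hh0 hh1] with Fs a s m γ θ hh e1 e2 e3 e4
  exact a s m γ θ hh (Ioo_subset_Icc_self e1) e2 e3 e4

theorem L9esSo.mono {𝔹 : LlBase} {F : LlFix} {Φ Ψ : ℝ → L9Q → ℝ → Prop} (h : L9esSo 𝔹 F Φ) (hi : ∀ κ Q hh, Φ κ Q hh → Ψ κ Q hh) :
    L9esSo 𝔹 F Ψ := by
  intro Kη hK
  obtain ⟨N0, H⟩ := h Kη hK
  refine ⟨N0, fun N hN => ?_⟩
  obtain ⟨h1, hp, H1⟩ := H N hN
  refine ⟨h1, hp, fun h0 hh0 hh1 => ?_⟩
  filter_upwards [H1 h0 hh0 hh1] with Fs a s m γ θ hh e1 e2 e3 e4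
  exact hi _ _ _ (a s m γ θ hh e1 e2 e3 e4)

theorem L9esSo.and {𝔹 : LlBase} {F : LlFix} {Φ Ψ : ℝ → L9Q → ℝ → Prop} (h : L9esSo 𝔹 F Φ) (h' : L9esSo 𝔹 F Ψ) :
    L9esSo 𝔹 F fun κ Q hh => Φ κ Q hh ∧ Ψ κ Q hh := by
  intro Kη hK
  obtain ⟨N0, H⟩ := h Kη hK
  obtain ⟨N0', H'⟩ := h' Kη hK
  refine ⟨max N0 N0', fun N hN => ?_⟩
  obtain ⟨h1, hp, H1⟩ := H N ((le_max_left _ _).trans hN)
  obtain ⟨h1', hp', H1'⟩ := H' N ((le_max_right _ _).trans hN)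
  refine ⟨min h1 h1', lt_min hp hp', fun h0 hh0 hh1 => ?_⟩
  filter_upwards [H1 h0 hh0 (hh1.trans (min_le_left _ _)), H1' h0 hh0 (hh1.trans (min_le_right _ _))] with Fs a a' s m γ θ hh e1 e2 e3 e4
  exact ⟨a s m γ θ hh e1 e2 e3 e4, a' s m γ θ hh e1 e2 e3 e4⟩

/-- **the groups give the record**;   `hM` on the OPEN range -/
theorem l9es_in {𝔹 : LlBase} {F : LlFix} {c0 : ℝ} {Cn : ℕ → ℝ} {Kb Cs Cl : ℝ}
    (hCh : L9esSb 𝔹 F fun _ Q hh => Q.InCh hh) (hRf : L9esSb 𝔹 F fun κ Q hh => Q.InRef c0 Cn κ hh)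
    (hClk : L9esSb 𝔹 F fun _ Q hh => Q.InClk (Cl * Q.lam) hh) (hE6 : L9esSb 𝔹 F fun κ Q hh => Q.InE6 κ hh)
    (hB : L9esSb 𝔹 F fun _ Q hh => Q.InBo Kb (Cl * Q.lam) hh) (hM : L9esSo 𝔹 F fun κ Q hh => Q.InM Cs (Cl * Q.lam) κ hh) :
    L9esSo 𝔹 F fun κ Q hh => Q.E4Gr c0 Cn Kb Cs (Cl * Q.lam) κ hh :=
  (((((hCh.and hRf).and hClk).and hE6).and hB).op.and hM).mono
    fun _ _ _ ⟨⟨⟨⟨⟨a, b⟩, c⟩, d⟩, e⟩, f⟩ => ⟨a, b, c, d, e, f⟩

/-! ## 4. numbers of the size segment -/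

theorem l9es_lam (F : LlFix) (𝔹 : LlBase) (s : ℝ) (Fs : Finset GhPos) (m N : ℕ) (γ : Fin (N + 1) → ℝ) (θ : ℝ) :
    (l9QS F 𝔹 s Fs m N γ θ).lam = skX N ^ F.pS := rfl

theorem l9es_a (F : LlFix) (𝔹 : LlBase) (s : ℝ) (Fs : Finset GhPos) (m N : ℕ) (γ : Fin (N + 1) → ℝ) (θ : ℝ) :
    (l9QS F 𝔹 s Fs m N γ θ).p.a = 4 := rfl

/-- `x ≤ U` on the size segment -/
theorem l9es_x_le_U (F : LlFix) (hs : 0 ≤ F.sS) (hp : 0 ≤ F.pS) (𝔹 : LlBase) (s : ℝ) (Fs : Finset GhPos) (m : ℕ) {N : ℕ} (hN : 1 ≤ N)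
    (γ : Fin (N + 1) → ℝ) (θ : ℝ) : skX N ≤ (l9QS F 𝔹 s Fs m N γ θ).U := by
  have hx := l9b_skX_pos hN
  have hx1 := l9b_skX_le_one hN
  show skX N ≤ min 1 (skX N * (skX N ^ F.pS) ^ (-(F.sS / 2)))
  refine le_min hx1 ?_
  have h1 : (1 : ℝ) ≤ (skX N ^ F.pS) ^ (-(F.sS / 2)) := by
    refine Real.one_le_rpow_of_pos_of_le_one_of_nonpos (Real.rpow_pos_of_pos hx _) (Real.rpow_le_one hx.le hx1 hp) (by linarith)
  nlinarith

/-- `x^(p_* + 6) ≤ λ U^6` -/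
theorem l9es_kap_le (F : LlFix) (hs : 0 ≤ F.sS) (hp : 0 ≤ F.pS) (𝔹 : LlBase) (s : ℝ) (Fs : Finset GhPos) (m : ℕ) {N : ℕ} (hN : 1 ≤ N)
    (γ : Fin (N + 1) → ℝ) (θ : ℝ) :
    skX N ^ (F.pS + 6) ≤ (l9QS F 𝔹 s Fs m N γ θ).lam * (l9QS F 𝔹 s Fs m N γ θ).U ^ 6 := by
  have hx := l9b_skX_pos hN
  rw [l9es_lam, Real.rpow_add hx]
  refine mul_le_mul_of_nonneg_left ?_ (Real.rpow_pos_of_pos hx _).le
  have h6 : skX N ^ (6 : ℝ) = skX N ^ 6 := by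
    rw [show (6 : ℝ) = ((6 : ℕ) : ℝ) by norm_num, Real.rpow_natCast]
  rw [h6]
  exact pow_le_pow_left₀ hx.le (l9es_x_le_U F hs hp 𝔹 s Fs m hN γ θ) 6

theorem l9es_small (ε q : ℝ) (hε : 0 < ε) (hq : 0 < q) : ∃ N0 : ℕ, ∀ N : ℕ, N0 ≤ N → skX N ^ ε ≤ q := by
  have hlim : Tendsto (fun N : ℕ => skX N ^ ε) atTop (nhds 0) := by
    have h1 : Tendsto (fun N : ℕ => (N : ℝ) ^ (-(ε / 6))) atTop (nhds 0) :=
      (tendsto_rpow_neg_atTop (by positivity : 0 < ε / 6)).comp tendsto_natCast_atTop_atTop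
    refine h1.congr fun N => ?_
    unfold skX
    rw [← Real.rpow_mul (Nat.cast_nonneg N)]
    congr 1
    ring
  obtain ⟨N0, hN0⟩ := eventually_atTop.1 (hlim.eventually (gt_mem_nhds hq))
  exact ⟨N0, fun N hN => (hN0 N hN).le⟩

/-! ## 5. THE SHELL -/

/-- **SHELL of the size half**: the record in the shape `L9esSb` + the point theorem + the chains ⟹ `L9uE4S` (= `L9cE4S` with the relaxed `ref`) -/
theorem l9es_shell (𝔹 : LlBase) (F : LlFix) (hs : 0 ≤ F.sS) (hp : 0 < F.pS) {c0 : ℝ} {Cn : ℕ → ℝ} {Kb Cs Cl : ℝ} (hc0 : 0 < c0) (hc1 : c0 ≤ 1)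
    (hCl : 0 < Cl) (hKb : 0 ≤ Kb) (hPt : L9esPoint c0 Cn Kb Cs Cl) (hIn : L9esSo 𝔹 F fun κ Q hh => Q.E4Gr c0 Cn Kb Cs (Cl * Q.lam) κ hh)
    (hDf : L9SbS 𝔹 F fun _ Q => Q.InDif) (hAdm : L9cAdmS 𝔹 F) : L9uE4S 𝔹 F Cs Cl := by
  obtain ⟨C, hC, HP⟩ := hPt
  intro δ hδ ε hε q hq
  obtain ⟨_, N4, H4⟩ := hDf δ hδ ε hε q hq
  obtain ⟨N1, H1⟩ := hIn (F.pS + 6) (by linarith)
  obtain ⟨N2, H2⟩ := l9es_small F.pS (min (c0 / Cl) (1 / (Kb + 1))) hp (lt_min (by positivity) (by positivity))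
  obtain ⟨_, N3, H3⟩ := hAdm 1 δ hδ ε hε q hq
  refine ⟨C, max (max 1 (max N1 (max N2 N3))) N4, fun N hN' => ?_⟩
  have hN : max 1 (max N1 (max N2 N3)) ≤ N := (le_max_left _ _).trans hN'
  have g4 : N4 ≤ N := (le_max_right _ _).trans hN'
  have g0 : 1 ≤ N := (le_max_left _ _).trans hN
  have g1 : N1 ≤ N := ((le_max_left _ _).trans (le_max_right _ _)).trans hN
  have g2 : N2 ≤ N := (((le_max_left _ _).trans (le_max_right _ _)).trans (le_max_right _ _)).trans hN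
  have g3 : N3 ≤ N := (((le_max_right _ _).trans (le_max_right _ _)).trans (le_max_right _ _)).trans hN
  have hx := l9b_skX_pos g0
  have hx1 := l9b_skX_le_one g0
  obtain ⟨h1, hh1, HH⟩ := H1 N g1
  have hκ : 0 < skX N ^ (F.pS + 6) := Real.rpow_pos_of_pos hx _
  have hl2 : 0 < Real.log 2 := Real.log_pos one_lt_two
  set h0 : ℝ := min h1 (min (skX N ^ (F.pS + 6)) (Real.log 2 / 2)) with hh0
  have h0p : 0 < h0 := lt_min hh1 (lt_min hκ (by positivity))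
  have h0a : h0 ≤ h1 := min_le_left _ _
  have h0b : h0 ≤ skX N ^ (F.pS + 6) := (min_le_right _ _).trans (min_le_left _ _)
  have h0c : h0 ≤ Real.log 2 / 2 := (min_le_right _ _).trans (min_le_right _ _)
  filter_upwards [HH h0 h0p h0a, H3 N g3, H4 N g4] with Fs a a3 a4 m γ θ hy
  obtain ⟨-, -, hθ, hD, -⟩ := id hy
  obtain ⟨hAd, hdot⟩ := a3 m γ θ hy
  -- the signed step
  obtain ⟨hh, e1, e2⟩ : ∃ hh : ℝ, |hh| = h0 ∧ θ + hh ∈ Icc (0 : ℝ) (Real.log 2) := by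
    rcases le_total θ (Real.log 2 / 2) with h | h
    · exact ⟨h0, abs_of_pos h0p, by constructor <;> linarith [hθ.1]⟩
    · exact ⟨-h0, by rw [abs_neg, abs_of_pos h0p], by constructor <;> linarith [hθ.2]⟩
  have G := a (q * skX N ^ (1 + ε)) m γ θ hh hθ e2 e1 hD
  set Q := l9QS F 𝔹 (q * skX N ^ (1 + ε)) Fs m N γ θ with hQ
  have hlam : Q.lam = skX N ^ F.pS := rfl
  have hlp : 0 < Q.lam := by rw [hlam]; exact Real.rpow_pos_of_pos hx _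
  have hl1 : Q.lam ≤ 1 := by rw [hlam]; exact Real.rpow_le_one hx.le hx1 hp.le
  have hcm : Cl * Q.lam ≤ c0 := by
    have := (H2 N g2).trans (min_le_left _ _)
    rw [hlam]
    calc Cl * skX N ^ F.pS ≤ Cl * (c0 / Cl) := mul_le_mul_of_nonneg_left this hCl.le
      _ = c0 := by field_simp
  have hKl : Kb * Q.lam ≤ 1 := by
    have := (H2 N g2).trans (min_le_right _ _)
    rw [hlam]
    calc Kb * skX N ^ F.pS ≤ (Kb + 1) * (1 / (Kb + 1)) :=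
          mul_le_mul (by linarith) this (Real.rpow_pos_of_pos hx _).le (by linarith)
      _ = 1 := by field_simp
  have hU : skX N ≤ Q.U := l9es_x_le_U F hs hp.le 𝔹 _ Fs m g0 γ θ
  have hU1 : Q.U ≤ 1 := min_le_left _ _
  have hIn' : Q.E4In c0 Cn Kb Cs (Cl * Q.lam) (skX N ^ (F.pS + 6)) hh :=
    ⟨by intro h; rw [h, abs_zero] at e1; linarith, e1.le.trans h0b, hcm,
      by have : Q.p.a = 4 := rfl
         rw [this]; linarith, hlp, hl1, hx.trans_le hU, hU1, hKb, hKl, G.ch, G.rf, G.clk, G.e6, G.bb, G.mm, a4 m γ θ hy⟩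
  have hE := HP Q (Cl * Q.lam) _ hh rfl rfl le_rfl hIn' (l9es_kap_le F hs hp.le 𝔹 _ Fs m g0 γ θ)
  refine hE.mono (Q.isMs hAd) hlp.le (hx.trans_le hU).le ?_
  have i1 : (1 : ℝ) ≤ skX N ^ (-δ) := Real.one_le_rpow_of_pos_of_le_one_of_nonpos hx hx1 (by linarith)
  have i2 : (1 : ℝ) ≤ 1 + Q.I.dot Q.pf Q.t := by linarith
  calc C = C * 1 * 1 := by ring
    _ ≤ C * skX N ^ (-δ) * (1 + Q.I.dot Q.pf Q.t) :=
      mul_le_mul (mul_le_mul_of_nonneg_left i1 hC) i2 zero_le_one (by positivity)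

/-! ## 6. DEGENERATE SKELETONS -/

/-- a skeleton of volume `0` has weight `0` -/
theorem l9es_wt_zero {N n D c : ℕ} {ms : ℕ → ℝ} (hms : IsMs N ms) (hc : c ≤ N + 1) (hpos : 0 < trPm ms c) {sk : ℕ → ℕ → ℕ} {β ρ : ℕ → ℕ}
    (h : L9kBlk N n D c sk β ρ) (hV : l9rVol ms n c sk = 0) : l9aWt ms N 1 D (l9kG sk ρ) = 0 := by
  have := h.skw hms hc hpos
  rw [hV, mul_zero] at this
  exact abs_nonpos_iff.1 this

/-- the grouped coefficient of `wt * G`, ANY `G`, vanishes on a skeleton of volume `0` -/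
theorem l9es_deg_wt {N n D c : ℕ} {ms : ℕ → ℝ} (hms : IsMs N ms) (hc : c ≤ N + 1) (hpos : 0 < trPm ms c) {sk : ℕ → ℕ → ℕ} {β ρ : ℕ → ℕ}
    (h : L9kBlk N n D c sk β ρ) (hn : 1 ≤ n) (hD : 1 ≤ D) (G : (ℕ → ℕ → ℕ) → ℝ) (hV : l9rVol ms n c sk = 0) :
    l9rB (l9aTab N n) (fun τ => l9aWt ms N 1 n τ * G τ) n c sk = 0 := by
  classical
  have hloc : L9Loc n fun τ => G (l9aNm n τ) := by
    intro τ₁ τ₂ H
    have : l9aNm n τ₁ = l9aNm n τ₂ := by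
      funext y z
      unfold l9aNm
      split_ifs with hh
      · exact H y z hh.1 hh.2
      · rfl
    show G (l9aNm n τ₁) = G (l9aNm n τ₂)
    rw [this]
  have e : l9rB (l9aTab N n) (fun τ => l9aWt ms N 1 n τ * G τ) n c sk
      = l9rB (l9aTab N n) (fun τ => l9aWt ms N 1 n τ * G (l9aNm n τ)) n c sk := by
    unfold l9rB
    refine Finset.sum_congr rfl fun τ hτ => ?_
    show l9aWt ms N 1 n τ * G τ = l9aWt ms N 1 n τ * G (l9aNm n τ)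
    rw [(l9a_mem_tab.1 (Finset.mem_filter.1 hτ).1).2]
  have b := h.B_le hms hc hpos hn hD (fun τ => G (l9aNm n τ)) hloc
  rw [hV, mul_zero, zero_mul] at b
  rw [e]
  exact abs_nonpos_iff.1 b

/-- **DEGENERATE SKELETONS**: the grouped REAL coefficient vanishes on a skeleton of volume `0`      (no physics: cut factorisation + SKW) -/
theorem l9es_deg (Q : L9Q) (hms : IsMs Q.N Q.ms) {n D c : ℕ} {sk : JtTopo} {β ρ : ℕ → ℕ} (hb : L9kBlk Q.N (2 * n) D c sk β ρ) (hc : c ≤ Q.N + 1)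
    (hpos : 0 < trPm Q.ms c) (hn : 1 ≤ n) (hD : 1 ≤ D) (hsp : ∀ i, i < n → sk (2 * i) (2 * i + 1) < c) (R : Finset ℕ)
    (hV : l9rVol Q.ms (2 * n) c sk = 0) : l9rB (l9aTab Q.N (2 * n)) (Q.Ht n R) (2 * n) c sk = 0 := by
  classical
  have h1 : l9rB (l9aTab Q.N (2 * n)) (Q.H n R) (2 * n) c sk = 0 := by
    have := l9es_deg_wt hms hc hpos hb (by omega) hD
      (fun τ => ((2 : ℝ) ^ n * (n ! : ℝ))⁻¹ * (Q.X false).off 0 n τ * Q.co n R τ) hV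
    rw [← this]
    unfold l9rB
    refine Finset.sum_congr rfl fun τ _ => ?_
    unfold L9Q.H
    ring
  have hsplit : l9rB (l9aTab Q.N (2 * n)) (Q.Ht n R) (2 * n) c sk
      = l9rB (l9aTab Q.N (2 * n)) (Q.H n R) (2 * n) c sk
        + l9rB (l9aTab Q.N (2 * n)) (fun τ => if n = 2 ∧ R = {0, 1} then Q.Hq τ else 0) (2 * n) c sk := by
    unfold l9rB L9Q.Ht
    rw [Finset.sum_add_distrib]
  rw [hsplit, h1, zero_add]
  by_cases hq : n = 2 ∧ R = {0, 1}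
  · obtain ⟨rfl, -⟩ := id hq
    set Y' : JtCtx (SkCfg Q.I.m) :=
      { Q.X false with bC := fun v => l9O Q.u Q.e 2 (fun t' => (Q.I.X0 (Q.pf t')).bC v) Q.t } with hY'
    have e : ∀ τ, Q.Hq τ = l9lHq Q.ms Q.N Y' τ := by
      intro τ
      unfold L9Q.Hq l9lHq l9lAq
      split_ifs
      · rfl
      · rw [zero_mul]
    have hs := l9l_sum_Hq Q.ms hb hc hpos.ne' hsp Y'
    have e2 : (fun τ => if (2 = 2 ∧ R = {0, 1}) then Q.Hq τ else 0) = fun τ => l9lHq Q.ms Q.N Y' τ := by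
      funext τ
      rw [if_pos hq, e]
    rw [e2]
    unfold l9rB
    refine hs.trans ?_
    unfold l9lW
    rw [l9es_wt_zero hms hc hpos hb hV]
    simp
  · simp only [if_neg hq]
    unfold l9rB
    exact Finset.sum_const_zero

/-- **field `deg` of `L9uSup`, verbatim** -/
theorem l9es_deg_sup (Q : L9Q) (hms : IsMs Q.N Q.ms) {Cs : ℝ} (hCs : 1 < Cs) :
    ∀ (n c : ℕ) (sk : JtTopo) (R : Finset ℕ), 2 ≤ n → n ≤ 4 → c ≤ Q.N + 1 → 0 < Q.mc c → Q.Sep Cs n c sk → l9rVol Q.ms (2 * n) c sk = 0 →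
      l9rB (l9aTab Q.N (2 * n)) (Q.Ht n R) (2 * n) c sk = 0 := by
  intro n c sk R hn2 _ hc hpos hsep hV
  by_cases hsk : ∃ τ₀ ∈ l9aTab Q.N (2 * n), l9rTc (2 * n) c τ₀ = sk
  · obtain ⟨τ₀, hτ₀, rfl⟩ := hsk
    obtain ⟨D, β, ρ, hD1, -, hblk⟩ := l9k_blk_exists (l9a_mem_tab.mp hτ₀).1 hc (show 1 ≤ 2 * n by omega)
    have hsp := l9u_sep_hsp Q hms hCs hpos hc (fun i hi => hblk.le _ _ (by omega) (by omega) (by omega)) hsep
    exact l9es_deg Q hms hblk hc hpos (by omega) hD1 hsp R hV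
  · exact l9u_B_empty hsk

/-! ## 7. PRODUCERS: the chain, the clock at the nodes -/

/-- the chain does not move on the size segment -/
theorem l9es_ps (I : L9I) (F : LlFix) (N : ℕ) (γ : Fin (N + 1) → ℝ) (θ θ' : ℝ) : I.ps (l9PtS F N γ θ') = I.ps (l9PtS F N γ θ) := rfl

theorem l9es_P_m (I : L9I) (p : LlPt) : (I.P p).map LlInc.m = (I.ps p).map GhPos.u := l9d_stp_m _ _ _ _ _ _ _ _

/-- the masses do not move -/
theorem l9es_ms (I : L9I) (F : LlFix) (N : ℕ) (γ : Fin (N + 1) → ℝ) (θ θ' : ℝ) :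
    llMs (l9PtS F N γ θ').a (I.P (l9PtS F N γ θ')) = llMs (l9PtS F N γ θ).a (I.P (l9PtS F N γ θ)) := by
  funext j
  unfold llMs
  rw [l9es_P_m, l9es_P_m, l9es_ps I F N γ θ θ']
  rfl

/-- the number of stages does not move -/
theorem l9es_len (I : L9I) (F : LlFix) (N : ℕ) (γ : Fin (N + 1) → ℝ) (θ θ' : ℝ) :
    (I.P (l9PtS F N γ θ')).length = (I.P (l9PtS F N γ θ)).length := by
  rw [l9d_I_length, l9d_I_length, l9es_ps I F N γ θ θ']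

/-- **PRODUCER of `InCh`** -/
theorem l9es_ch (𝔹 : LlBase) (F : LlFix) (h3 : LlSec3 𝔹 F) (hp : F.pS ≤ 12) : L9esSb 𝔹 F fun _ Q hh => Q.InCh hh := by
  obtain ⟨N0, H⟩ := l9sz_adm 𝔹 F h3
  intro Kη _
  refine ⟨max N0 2, fun N hN => ⟨1, one_pos, fun h0 _ _ => Eventually.of_forall fun Fs s m γ θ hh hθ hθ' _ _ => ?_⟩⟩
  have g0 : N0 ≤ N := (le_max_left _ _).trans hN
  have g2 : 2 ≤ N := (le_max_right _ _).trans hN
  exact ⟨by show (0 : ℝ) < 4; norm_num, rfl, H _ (l9sz_PtS_ok F hp g2 γ hθ) g0 s Fs m, H _ (l9sz_PtS_ok F hp g2 γ hθ') g0 s Fs m⟩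

/-- **PRODUCER of `InClk`** (47: `l9ph_main`, third part) -/
theorem l9es_clk (𝔹 : LlBase) (F : LlFix) (hb : LlBaseProfile 𝔹 F.T) (hF : F.Ok) (hDP : LlDirProf 𝔹 F) (hp0 : 0 < F.pS) (hp : F.pS ≤ 12) (Cl : ℝ)
    (hCl : 0 < Cl) : L9esSb 𝔹 F fun _ Q hh => Q.InClk (Cl * Q.lam) hh := by
  obtain ⟨C, c0, _, hc0, _, H⟩ := l9ph_main 𝔹 F hb hF hDP
  obtain ⟨Cn, _, N0, H⟩ := H C le_rfl
  obtain ⟨N2, H2⟩ := l9es_small F.pS (c0 / Cl) hp0 (by positivity)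
  intro Kη _
  refine ⟨max N0 (max 2 N2), fun N hN => ⟨1, one_pos, fun h0 _ _ => ?_⟩⟩
  have g0 : N0 ≤ N := (le_max_left _ _).trans hN
  have g2 : 2 ≤ N := ((le_max_left _ _).trans (le_max_right _ _)).trans hN
  have g3 : N2 ≤ N := ((le_max_right _ _).trans (le_max_right _ _)).trans hN
  filter_upwards [H c0 hc0 le_rfl] with Fs a s m γ θ hh hθ hθ' _ _
  obtain ⟨-, -, a3⟩ := a s m
  have hcm : Cl * skX N ^ F.pS ≤ 2 * c0 := by
    calc Cl * skX N ^ F.pS ≤ Cl * (c0 / Cl) := mul_le_mul_of_nonneg_left (H2 N g3) hCl.le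
      _ = c0 := by field_simp
      _ ≤ 2 * c0 := by linarith
  constructor
  · intro u hu hm
    exact a3 _ (l9sz_PtS_ok F hp g2 γ hθ) g0 u hu (hm.trans hcm) u le_rfl
  · intro u hu hm
    have e := l9es_ms ⟨F, 𝔹, s, Fs, m⟩ F N γ θ (θ + hh)
    have el := l9es_len ⟨F, 𝔹, s, Fs, m⟩ F N γ θ (θ + hh)
    have := a3 _ (l9sz_PtS_ok F hp g2 γ hθ') g0 u (by rw [el]; exact hu) (by rw [e]; exact hm.trans hcm) u le_rfl
    rw [e] at this
    exact this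

/-! ## 8. EXIT OF THE SIZE HALF -/

/-- **EXIT** (glue, PROVED): the protocol (`LlExpOk`, base profile, P-list) + the chains + the five open supplies ⟹ the form consumed by `exit_l9_e4S` (`L09/BndExit.lean`).
OWNERS of the hypotheses:   `hPt` 276 (`L09/E4L.lean`; adapter 166 `L09/E4D.lean`, point 242 `l9u_point`) | `hRf` 288 / 209 | `hE6` 120 (`l9v_InE6`, `L09/GridE6S.lean`, PROVED) | `hBo` 98 (`L09/E4B.lean`) | `hM` 276 (`L09/E4M.lean`) from 263 (`L09/GridP.lean`) | `hDf` 65. -/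
theorem l9es_exit (𝔹 : LlBase) (F : LlFix) (hE : LlExpOk F.sS F.eta F.pS) (hb : LlBaseProfile 𝔹 F.T) (h3 : LlSec3 𝔹 F) (hAdm : L9cAdmS 𝔹 F)
    {c0 : ℝ} {Cn : ℕ → ℝ} {Kb Cs Cl : ℝ} (hc0 : 0 < c0) (hc1 : c0 ≤ 1) (hCl : 0 < Cl) (hKb : 0 ≤ Kb)
    (hPt : L9esPoint c0 Cn Kb Cs Cl) (hRf : L9esSb 𝔹 F fun κ Q hh => Q.InRef c0 Cn κ hh) (hE6 : L9esSb 𝔹 F fun κ Q hh => Q.InE6 κ hh)
    (hBo : L9esSb 𝔹 F fun _ Q hh => Q.InBo Kb (Cl * Q.lam) hh) (hM : L9esSo 𝔹 F fun κ Q hh => Q.InM Cs (Cl * Q.lam) κ hh)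
    (hDf : L9SbS 𝔹 F fun _ Q => Q.InDif) : L9cE4S 𝔹 F Cs Cl :=
  (l9es_shell 𝔹 F (by linarith [hE.s_lo]) hE.p_lo hc0 hc1 hCl hKb hPt
    (l9es_in (l9es_ch 𝔹 F h3 (by linarith [hE.p_hi])) hRf (l9es_clk 𝔹 F hb h3.ok h3.dirProf hE.p_lo (by linarith [hE.p_hi]) Cl hCl) hE6 hBo hM)
    hDf hAdm).e4

end Claimed.Agent.R286
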