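import Claimed.Agent.R286.L09.Mod2
import Claimed.Agent.R286.L09.ModSc
import Claimed.Agent.R286.Sc.Stab
import Claimed.Agent.R286.Sc.Par
import Claimed.Agent.R286.Sc.UpGen

/-!
# Row 286 (S0533), LL 09, CLOSENESS of two step models in EVERY `C^n`, constants free of the horizon      OWNER helper288   (0 sorry; parts A-G pure `Sc/`; then the EXIT `l9cl_close`)

The axioms of `L14Calc` force in model 2:  `‖∂_z^n (g₁(u) - g₁'(u)(σ ·))‖ ≤ δ C(n)` for EVERY `n`, `C` uniform.   Here: the pure `Sc/` theorems which give this.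
**EXIT** `l9cl_main` / `l9cl_main_U`:   `∃ C(a, n, A), ∀ F G π π' M t t'`:
  `‖V_{F,π}(t) - V_{G,π'}(t')‖_{C^n} ≤ C (‖F - G‖_{C^n} + ∫_0^T |α_π - α_π'| + |t - t'|)`      (`ScN n`; same for `U = V_z = scD 1`), `T = scLen π = scLen π'`, both profiles `ScAdm a`, `ScInc`.
* (TL) `l9cl_TL`: two terminal data: `scq_D_lip` + `scq_affine` (`Sc/Par.lean`);
* time `l9cl_time`: the PDE `sc_D_sub_eq_integral`;
* `l9cl_short`: ONE SHORT step, two masses: `≤ C₁ |m - m'| τ + C₂ τ²` (second order in time);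
* `l9cl_mass`:  ONE LONG step, two masses: `≤ C |m - m'| s`: hybrid argument over `N` short steps ((TL) once per term), `N → ∞`;
* (PL) `l9cl_PL_V`, `l9cl_PL`: two profiles: the induction of `scs_V_L1` (cut the longer first step) behind a prefix `ρ` made of pieces of `π'` ((TL) once per term).
* Part A (`l9i_interp`: `‖f^(k)‖² ≤ 4^{k²} ‖f‖ ‖f^(2k)‖`) is not used any more; kept as a tool.
-/

set_option autoImplicit false

namespace Claimed.Agent.R286

open MeasureTheory Set Filter Topology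

/-! ## A. log-convex sequences, interpolation of derivatives -/

theorem l9i_cancel {x y : ℝ} (hx : 0 ≤ x) (hy : 0 ≤ y) (h : x ^ 2 ≤ y * x) : x ≤ y := by
  rcases hx.eq_or_lt with h0 | h0
  · rw [← h0]; exact hy
  · have : x * x ≤ y * x := by nlinarith
    exact le_of_mul_le_mul_right this h0

/-- one step of majorisation for a log-convex sequence -/
theorem l9i_step {b : ℕ → ℝ} (hb : ∀ j, 0 ≤ b j) (h : ∀ j, b (j + 1) ^ 2 ≤ b j * b (j + 2)) :
    ∀ d p : ℕ, b (p + 1) * b (p + 1 + d) ≤ b p * b (p + 2 + d) := by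
  intro d
  induction d using Nat.strong_induction_on with
  | _ d ih =>
    intro p
    match d, ih with
    | 0, _ =>
      have := h p
      simpa [sq] using this
    | 1, _ =>
      have h1 := h p
      have h2 := h (p + 1)
      refine l9i_cancel (mul_nonneg (hb _) (hb _)) (mul_nonneg (hb _) (hb _)) ?_
      have e1 : p + 1 + 1 = p + 2 := by omega
      have e2 : p + 1 + 2 = p + 3 := by omega
      have e3 : p + 2 + 1 = p + 3 := by omega
      rw [e1, e2] at h2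
      rw [e1, e3]
      calc (b (p + 1) * b (p + 2)) ^ 2 = b (p + 1) ^ 2 * b (p + 2) ^ 2 := by ring
        _ ≤ (b p * b (p + 2)) * (b (p + 1) * b (p + 3)) :=
          mul_le_mul h1 h2 (sq_nonneg _) (mul_nonneg (hb _) (hb _))
        _ = b p * b (p + 3) * (b (p + 1) * b (p + 2)) := by ring
    | d + 2, ih =>
      have h1 := h p
      have h2 := h (p + 2 + d)
      have h3 := ih d (by omega) (p + 1)
      refine l9i_cancel (mul_nonneg (hb _) (hb _)) (mul_nonneg (hb _) (hb _)) ?_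
      have e1 : p + 1 + (d + 2) = p + 3 + d := by omega
      have e2 : p + 2 + (d + 2) = p + 4 + d := by omega
      have e3 : p + 2 + d + 1 = p + 3 + d := by omega
      have e4 : p + 2 + d + 2 = p + 4 + d := by omega
      have e5 : p + 1 + 1 = p + 2 := by omega
      have e6 : p + 1 + 1 + d = p + 2 + d := by omega
      have e7 : p + 1 + 2 + d = p + 3 + d := by omega
      rw [e3, e4] at h2
      rw [e5, e6, e7] at h3
      rw [e1, e2]
      calc (b (p + 1) * b (p + 3 + d)) ^ 2 = b (p + 1) ^ 2 * b (p + 3 + d) ^ 2 := by ring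
        _ ≤ (b p * b (p + 2)) * (b (p + 2 + d) * b (p + 4 + d)) :=
          mul_le_mul h1 h2 (sq_nonneg _) (mul_nonneg (hb _) (hb _))
        _ = b p * b (p + 4 + d) * (b (p + 2) * b (p + 2 + d)) := by ring
        _ ≤ b p * b (p + 4 + d) * (b (p + 1) * b (p + 3 + d)) :=
          mul_le_mul_of_nonneg_left h3 (mul_nonneg (hb _) (hb _))

/-- a log-convex sequence: `b_k² ≤ b_0 b_{2k}` -/
theorem l9i_logconvex {b : ℕ → ℝ} (hb : ∀ j, 0 ≤ b j) (h : ∀ j, b (j + 1) ^ 2 ≤ b j * b (j + 2)) (k : ℕ) :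
    b k ^ 2 ≤ b 0 * b (2 * k) := by
  have key : ∀ j, j ≤ k → b k ^ 2 ≤ b (k - j) * b (k + j) := by
    intro j
    induction j with
    | zero => intro _; simp [sq]
    | succ j ih =>
      intro hj
      refine (ih (by omega)).trans ?_
      have := l9i_step hb h (2 * j) (k - (j + 1))
      have e1 : k - (j + 1) + 1 = k - j := by omega
      have e2 : k - j + 2 * j = k + j := by omega
      have e3 : k - (j + 1) + 2 + 2 * j = k + (j + 1) := by omega
      rwa [e1, e2, e3] at this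
  have := key k le_rfl
  rwa [Nat.sub_self, ← two_mul] at this

/-- **interpolation**: a tower `f 0, f 1 = (f 0)', ..` of bounded functions: `|f k|² ≤ 4^{k²} sup |f 0| sup |f (2k)|` -/
theorem l9i_interp {f : ℕ → ℝ → ℝ} (hd : ∀ j x, HasDerivAt (f j) (f (j + 1) x) x) {B : ℕ → ℝ}
    (hB : ∀ j x, |f j x| ≤ B j) (k : ℕ) (x : ℝ) : f k x ^ 2 ≤ 4 ^ (k ^ 2) * (B 0 * B (2 * k)) := by
  -- the exact suprema
  set a : ℕ → ℝ := fun j => ⨆ x, |f j x| with ha
  have hbdd : ∀ j, BddAbove (range fun x => |f j x|) := fun j => ⟨B j, by rintro _ ⟨x, rfl⟩; exact hB j x⟩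
  have hle : ∀ j x, |f j x| ≤ a j := fun j x => le_ciSup (hbdd j) x
  have ha0 : ∀ j, 0 ≤ a j := fun j => (abs_nonneg _).trans (hle j 0)
  have haB : ∀ j, a j ≤ B j := fun j => ciSup_le (hB j)
  have hland : ∀ j, a (j + 1) ^ 2 ≤ 4 * (a j * a (j + 2)) := by
    intro j
    have h1 : a (j + 1) ≤ 2 * Real.sqrt (a j * a (j + 2)) :=
      ciSup_le fun x => sck_landau (hd j) (hd (j + 1)) (hle j) (hle (j + 2)) x
    have h2 : 0 ≤ a j * a (j + 2) := mul_nonneg (ha0 _) (ha0 _)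
    calc a (j + 1) ^ 2 ≤ (2 * Real.sqrt (a j * a (j + 2))) ^ 2 := pow_le_pow_left₀ (ha0 _) h1 2
      _ = 4 * (a j * a (j + 2)) := by rw [mul_pow, Real.sq_sqrt h2]; norm_num
  -- the normalised sequence is log-convex
  have hb0 : ∀ j, 0 ≤ 2 ^ (j ^ 2) * a j := fun j => mul_nonneg (by positivity) (ha0 j)
  have hlc : ∀ j, (2 ^ ((j + 1) ^ 2) * a (j + 1)) ^ 2 ≤ (2 ^ (j ^ 2) * a j) * (2 ^ ((j + 2) ^ 2) * a (j + 2)) := by
    intro j
    have e : (2 : ℝ) ^ (j ^ 2) * 2 ^ ((j + 2) ^ 2) = (2 ^ ((j + 1) ^ 2)) ^ 2 * 4 := by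
      rw [← pow_add, ← pow_mul, show (4 : ℝ) = 2 ^ 2 by norm_num, ← pow_add]
      congr 1
      ring
    calc (2 ^ ((j + 1) ^ 2) * a (j + 1)) ^ 2 = (2 ^ ((j + 1) ^ 2)) ^ 2 * a (j + 1) ^ 2 := by ring
      _ ≤ (2 ^ ((j + 1) ^ 2)) ^ 2 * (4 * (a j * a (j + 2))) := mul_le_mul_of_nonneg_left (hland j) (by positivity)
      _ = ((2 : ℝ) ^ (j ^ 2) * 2 ^ ((j + 2) ^ 2)) * (a j * a (j + 2)) := by rw [e]; ring
      _ = (2 ^ (j ^ 2) * a j) * (2 ^ ((j + 2) ^ 2) * a (j + 2)) := by ring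
  have hmain := l9i_logconvex (b := fun j => 2 ^ (j ^ 2) * a j) hb0 hlc k
  have e0 : (2 : ℝ) ^ (0 ^ 2) = 1 := by norm_num
  rw [e0, one_mul] at hmain
  have e1 : (2 : ℝ) ^ ((2 * k) ^ 2) = (2 ^ (k ^ 2)) ^ 2 * 4 ^ (k ^ 2) := by
    rw [show (4 : ℝ) = 2 ^ 2 by norm_num, ← pow_mul, ← pow_mul, ← pow_add]
    congr 1
    ring
  have hp : (0 : ℝ) < (2 ^ (k ^ 2)) ^ 2 := by positivity
  have h3 : a k ^ 2 ≤ 4 ^ (k ^ 2) * (a 0 * a (2 * k)) := by
    have : (2 ^ (k ^ 2)) ^ 2 * a k ^ 2 ≤ (2 ^ (k ^ 2)) ^ 2 * (4 ^ (k ^ 2) * (a 0 * a (2 * k))) := by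
      calc (2 ^ (k ^ 2)) ^ 2 * a k ^ 2 = (2 ^ (k ^ 2) * a k) ^ 2 := by ring
        _ ≤ a 0 * (2 ^ ((2 * k) ^ 2) * a (2 * k)) := hmain
        _ = (2 ^ (k ^ 2)) ^ 2 * (4 ^ (k ^ 2) * (a 0 * a (2 * k))) := by rw [e1]; ring
    exact le_of_mul_le_mul_left this hp
  calc f k x ^ 2 = |f k x| ^ 2 := (sq_abs _).symm
    _ ≤ a k ^ 2 := pow_le_pow_left₀ (abs_nonneg _) (hle k x) 2
    _ ≤ 4 ^ (k ^ 2) * (a 0 * a (2 * k)) := h3
    _ ≤ 4 ^ (k ^ 2) * (B 0 * B (2 * k)) :=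
      mul_le_mul_of_nonneg_left (mul_le_mul (haB 0) (haB _) (ha0 _) ((ha0 0).trans (haB 0))) (by positivity)

/-! ## B. the norm `ScN` of a difference -/

theorem l9cl_N_of_B {n : ℕ} {M : ℝ} {φ : ℝ → ℝ} (h : ScB n φ) (hb : ∀ k ≤ n, ∀ z, |deriv^[k] φ z| ≤ M) : ScN n M φ := by
  induction n generalizing φ with
  | zero => exact ⟨h, fun z => hb 0 le_rfl z⟩
  | succ n ih =>
    exact ⟨fun z => hb 0 (Nat.zero_le _) z, h.1, ih h.2.2 fun k hk z => by
      have := hb (k + 1) (by omega) z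
      rwa [Function.iterate_succ_apply] at this⟩

theorem l9cl_B_sub {n : ℕ} {f g : ℝ → ℝ} (hf : ScB n f) (hg : ScB n g) : ScB n (fun z => f z - g z) := by
  have := hf.add (hg.const_mul (-1))
  simpa [sub_eq_add_neg] using this

theorem l9cl_iter_sub {f g : ℝ → ℝ} (hf : ScBI f) (hg : ScBI g) (k : ℕ) :
    deriv^[k] (fun z => f z - g z) = fun z => deriv^[k] f z - deriv^[k] g z := by
  have h1 : ScE k f := (hf (k + 1)).scE.of_succ
  have h2 : ScE k (fun z => (-1 : ℝ) * g z) := ((hg (k + 1)).const_mul (-1)).scE.of_succ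
  have h3 := sc_iter_deriv_add h1 h2
  rw [sc_iter_deriv_const_mul] at h3
  have e : (fun z => f z - g z) = fun z => f z + (-1) * g z := by funext z; ring
  rw [e, h3]
  funext z
  ring

/-- the norm of a difference of two smooth functions from pointwise bounds -/
theorem l9cl_N_sub {f g : ℝ → ℝ} (hf : ScBI f) (hg : ScBI g) {n : ℕ} {M : ℝ}
    (hb : ∀ k ≤ n, ∀ z, |deriv^[k] f z - deriv^[k] g z| ≤ M) : ScN n M (fun z => f z - g z) :=
  l9cl_N_of_B (l9cl_B_sub (hf n) (hg n)) fun k hk z => by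
    rw [l9cl_iter_sub hf hg k]
    exact hb k hk z

theorem l9cl_N_sub_iter {f g : ℝ → ℝ} (hf : ScBI f) (hg : ScBI g) {n : ℕ} {M : ℝ}
    (h : ScN n M (fun z => f z - g z)) {k : ℕ} (hk : k ≤ n) (z : ℝ) : |deriv^[k] f z - deriv^[k] g z| ≤ M := by
  have := h.iter hk z
  rwa [l9cl_iter_sub hf hg k] at this

/-- `ScN n · φ` is closed -/
theorem l9cl_N_closed {n : ℕ} {M : ℝ} {φ : ℝ → ℝ} (h : ∀ ε > 0, ScN n (M + ε) φ) : ScN n M φ := by
  induction n generalizing φ with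
  | zero => exact ⟨(h 1 one_pos).1, fun z => le_of_forall_pos_le_add fun ε hε => (h ε hε).2 z⟩
  | succ n ih =>
    exact ⟨fun z => le_of_forall_pos_le_add fun ε hε => (h ε hε).1 z, (h 1 one_pos).2.1, ih fun ε hε => (h ε hε).2.2⟩

theorem l9cl_N_congr {n : ℕ} {M : ℝ} {φ ψ : ℝ → ℝ} (h : ScN n M φ) (e : ∀ z, ψ z = φ z) : ScN n M ψ := by
  have : ψ = φ := funext e
  rw [this]; exact h

/-- triangle inequality -/
theorem l9cl_N_tri {n : ℕ} {M M' : ℝ} {f g h : ℝ → ℝ} (h1 : ScN n M (fun z => f z - g z))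
    (h2 : ScN n M' (fun z => g z - h z)) : ScN n (M + M') (fun z => f z - h z) :=
  l9cl_N_congr (h1.add h2) fun z => by ring

theorem l9cl_N_symm {n : ℕ} {M : ℝ} {f g : ℝ → ℝ} (h1 : ScN n M (fun z => f z - g z)) : ScN n M (fun z => g z - f z) :=
  l9cl_N_congr h1.neg fun z => by ring

/-! ## C. (TL) two terminal data, one profile -/

theorem l9cl_TL {a : ℝ} (ha : 0 ≤ a) (n : ℕ) {A : ℝ} (hA : 0 ≤ A) : ∃ K : ℝ, 1 ≤ K ∧
    ∀ (F G : ℝ → ℝ) (π : List (ℝ × ℝ)) (M : ℝ), ScBI F → ScBI G → ScN n A (deriv F) → ScN n A (deriv G) →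
      ScN n M (fun z => F z - G z) → ScAdm a π → ScInc π →
      ∀ t, 0 ≤ t → ScN n (K * M) (fun z => scVt F π t z - scVt G π t z) := by
  obtain ⟨K, hK1, hK⟩ := scq_D_lip ha n hA
  refine ⟨K, hK1, fun F G π M hF hG hFA hGA hM hπ hi t ht => ?_⟩
  have hg : ∀ m, ScBd m (fun z => F z - G z) := fun m => ⟨⟨M, hM.bd⟩, l9cl_B_sub (hF m) (hG m)⟩
  have hfam := scq_affine hG hg 0 1
  have hd : ∀ θ : ℝ, deriv (fun z => G z + θ * (F z - G z)) = fun z => (1 - θ) * deriv G z + θ * deriv F z := by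
    intro θ
    funext z
    have h1 := ((hG 1).1 z).hasDerivAt
    have h2 := ((hF 1).1 z).hasDerivAt
    have h3 : HasDerivAt (fun z => G z + θ * (F z - G z)) (deriv G z + θ * (deriv F z - deriv G z)) z :=
      h1.add ((h2.sub h1).const_mul θ)
    rw [h3.deriv]
    ring
  have hA' : ∀ θ ∈ Icc (0:ℝ) 1, ScN n A (deriv ((fun θ z => G z + θ * (F z - G z)) θ)) := by
    intro θ hθ
    simp only [hd θ]
    refine ((hGA.const_mul (1 - θ)).add (hFA.const_mul θ)).weaken (le_of_eq ?_)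
    rw [abs_of_nonneg hθ.1, abs_of_nonneg (sub_nonneg.2 hθ.2)]
    ring
  have key := hK 0 1 _ _ π M zero_le_one hfam hA' (fun _ _ => hM) hπ hi
  have e1 : (fun z => G z + 1 * (F z - G z)) = F := by funext z; ring
  have e0 : (fun z => G z + 0 * (F z - G z)) = G := by funext z; ring
  simp only [e1, e0] at key
  refine l9cl_N_sub (sc_Vt_BI hF π t) (sc_Vt_BI hG π t) fun k hk z => ?_
  have := key k hk t ht z
  simpa [scD] using this

/-- the same for whole lists -/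
theorem l9cl_TL_V {a : ℝ} (ha : 0 ≤ a) (n : ℕ) {A : ℝ} (hA : 0 ≤ A) : ∃ K : ℝ, 1 ≤ K ∧
    ∀ (F G : ℝ → ℝ) (π : List (ℝ × ℝ)) (M : ℝ), ScBI F → ScBI G → ScN n A (deriv F) → ScN n A (deriv G) →
      ScN n M (fun z => F z - G z) → ScAdm a π → ScInc π → ScN n (K * M) (fun z => scV F π z - scV G π z) := by
  obtain ⟨K, hK1, hK⟩ := l9cl_TL ha n hA
  refine ⟨K, hK1, fun F G π M hF hG hFA hGA hM hπ hi => ?_⟩
  have := hK F G π M hF hG hFA hGA hM hπ hi 0 le_rfl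
  rwa [sc_Vt_zero F hπ.pos, sc_Vt_zero G hπ.pos] at this

/-! ## D. Lipschitz in time -/

/-- bounds of the tower `U = V_z` in the norm `ScN` -/
theorem l9cl_U_N {a : ℝ} (ha : 0 ≤ a) (n : ℕ) {A : ℝ} (hA : 0 ≤ A) : ∃ C : ℝ, 0 ≤ C ∧
    ∀ (F : ℝ → ℝ) (π : List (ℝ × ℝ)), ScBI F → ScN n A (deriv F) → ScAdm a π → ScInc π →
      ∀ t, ScN n C (scD 1 F π t) := by
  obtain ⟨C, hC, H⟩ := sc_tau_V ha n hA
  refine ⟨C, hC, fun F π hF hF' hπ hi t => ?_⟩
  have := H F (scAfter π t) hF hF' (sc_after_adm hπ t) (sc_after_inc hi t)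
  unfold scD
  rw [sc_Vt_after]
  exact this

theorem l9cl_time {a : ℝ} (ha : 0 ≤ a) (n : ℕ) {A : ℝ} (hA : 0 ≤ A) : ∃ C : ℝ, 0 ≤ C ∧
    ∀ (F : ℝ → ℝ) (π : List (ℝ × ℝ)), ScBI F → ScN (n + 1) A (deriv F) → ScAdm a π → ScInc π →
      ∀ t t', 0 ≤ t → t ≤ t' → t' ≤ scLen π → ScN n (C * (t' - t)) (fun z => scVt F π t' z - scVt F π t z) := by
  obtain ⟨C, hC, H⟩ := l9cl_U_N ha (n + 1) hA
  refine ⟨C / 2 + a * (2 ^ n * (C * C) / 2), by positivity, fun F π hF hF' hπ hi t t' h0 htt ht' => ?_⟩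
  refine l9cl_N_sub (sc_Vt_BI hF π t') (sc_Vt_BI hF π t) fun k hk z => ?_
  have h1 := sc_D_sub_eq_integral hF hπ.pos k h0 htt ht' z
  have h2 : ∀ r ∈ Set.uIoc t t', ‖-(scD (k + 2) F π r z) / 2 - scAl π r * deriv^[k] (fun y => scD 1 F π r y ^ 2 / 2) z‖
      ≤ C / 2 + a * (2 ^ n * (C * C) / 2) := by
    intro r _
    have hU := H F π hF hF' hπ hi r
    have b1 : |scD (k + 2) F π r z| ≤ C := by
      have := hU.iter (k := k + 1) (by omega) z
      rwa [show deriv^[k + 1] (scD 1 F π r) = scD (k + 2) F π r by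
        unfold scD; rw [← Function.iterate_add_apply]] at this
    have hsq : ScN n (2 ^ n * (C * C) / 2) (fun y => scD 1 F π r y ^ 2 / 2) := by
      refine l9cl_N_congr (((hU.of_succ.mul hU.of_succ).const_mul (1 / 2)).weaken (le_of_eq ?_)) fun y => ?_
      · rw [abs_of_nonneg (by norm_num : (0:ℝ) ≤ 1 / 2)]; ring
      · ring
    have b2 := hsq.iter hk z
    have b3 := sc_Al_mem ha hπ r
    rw [Real.norm_eq_abs]
    calc |-(scD (k + 2) F π r z) / 2 - scAl π r * deriv^[k] (fun y => scD 1 F π r y ^ 2 / 2) z|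
        ≤ |-(scD (k + 2) F π r z) / 2| + |scAl π r * deriv^[k] (fun y => scD 1 F π r y ^ 2 / 2) z| := abs_sub _ _
      _ ≤ C / 2 + a * (2 ^ n * (C * C) / 2) := by
          refine add_le_add ?_ ?_
          · rw [abs_div, abs_neg, abs_two]; linarith
          · rw [abs_mul, abs_of_nonneg b3.1]
            exact mul_le_mul b3.2 b2 (abs_nonneg _) ha
  have h3 := intervalIntegral.norm_integral_le_of_norm_le_const h2
  rw [← h1, Real.norm_eq_abs, abs_of_nonneg (sub_nonneg.2 htt)] at h3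
  exact h3

/-! ## E. one SHORT step, two masses -/

/-- the right side of the PDE is integrable in time -/
theorem l9cl_pde_ii {F : ℝ → ℝ} (hF : ScBI F) {π : List (ℝ × ℝ)} (h : ScPos π) (k : ℕ) {t t' : ℝ}
    (h0 : 0 ≤ t) (htt : t ≤ t') (ht' : t' ≤ scLen π) (z : ℝ) :
    IntervalIntegrable (fun r => -(scD (k + 2) F π r z) / 2 - scAl π r * deriv^[k] (fun y => scD 1 F π r y ^ 2 / 2) z)
      volume t t' := by
  have hsub : Icc t t' ⊆ Icc 0 (scLen π) := Icc_subset_Icc h0 ht'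
  have hcA : ContinuousOn (fun r => scD (k + 2) F π r z) (Icc t t') :=
    ((sc_D_T hF h (k + 2) 0).continuousOn_time z).mono hsub
  have hT1 : ScT (Icc 0 (scLen π)) (0 + k) (fun r y => scD 1 F π r y ^ 2 / 2) := by
    refine (((sc_D_T hF h 1 (0 + k)).pow 2).const_mul (1 / 2)).congr fun r _ y => ?_
    ring
  have hcB : ContinuousOn (fun r => deriv^[k] (fun y => scD 1 F π r y ^ 2 / 2) z) (Icc t t') :=
    ((hT1.iter_deriv k).continuousOn_time z).mono hsub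
  have hiA : IntervalIntegrable (fun r => -(scD (k + 2) F π r z) / 2) volume t t' := by
    refine ContinuousOn.intervalIntegrable ?_
    rw [uIcc_of_le htt]
    exact (hcA.neg).div_const 2
  have hiB : IntervalIntegrable (fun r => deriv^[k] (fun y => scD 1 F π r y ^ 2 / 2) z) volume t t' := by
    refine ContinuousOn.intervalIntegrable ?_
    rw [uIcc_of_le htt]
    exact hcB
  obtain ⟨C, hC⟩ := sc_Al_bdd π
  have hiAB : IntervalIntegrable (fun r => scAl π r * deriv^[k] (fun y => scD 1 F π r y ^ 2 / 2) z) volume t t' := by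
    rw [intervalIntegrable_iff] at hiB ⊢
    exact hiB.bdd_mul (c := C) (sc_Al_measurable π).aestronglyMeasurable (ae_of_all _ fun r => by
      rw [Real.norm_eq_abs]; exact hC r)
  exact hiA.sub hiAB

theorem l9cl_iter_lin {k : ℕ} {f g : ℝ → ℝ} (hf : ScE k f) (hg : ScE k g) (c c' : ℝ) (z : ℝ) :
    deriv^[k] (fun y => c * f y - c' * g y) z = c * deriv^[k] f z - c' * deriv^[k] g z := by
  have e : (fun y => c * f y - c' * g y) = fun y => c * f y + (-c') * g y := by funext y; ring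
  rw [e, sc_iter_deriv_add (hf.const_mul c) (hg.const_mul (-c')), sc_iter_deriv_const_mul, sc_iter_deriv_const_mul]
  ring

theorem l9cl_short {a : ℝ} (ha : 0 ≤ a) (n : ℕ) {A : ℝ} (hA : 0 ≤ A) : ∃ C₁ C₂ : ℝ, 0 ≤ C₁ ∧ 0 ≤ C₂ ∧
    ∀ (X : ℝ → ℝ) (m m' τ : ℝ), ScBI X → ScN (n + 3) A (deriv X) → 0 ≤ m → m ≤ a → 0 ≤ m' → m' ≤ a → 0 ≤ τ →
      ScN n (C₁ * |m - m'| * τ + C₂ * τ ^ 2) (fun z => scStep m τ X z - scStep m' τ X z) := by
  obtain ⟨CE, hCE, HE⟩ := l9cl_time ha (n + 2) hA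
  obtain ⟨C, hC, HU⟩ := l9cl_U_N ha n hA
  refine ⟨2 ^ n * (C * C) / 2, CE + a * (2 ^ n * ((2 * CE) * (2 * C)) / 2), by positivity, by positivity,
    fun X m m' τ hX hXA hm hma hm' hma' hτ => ?_⟩
  have adm : ∀ μ, 0 ≤ μ → μ ≤ a → ScAdm a [(μ, τ)] := fun μ h0 h1 p hp => by
    rw [List.mem_singleton] at hp; subst hp; exact ⟨h0, h1, hτ⟩
  have inc : ∀ μ : ℝ, ScInc [(μ, τ)] := fun μ => List.pairwise_singleton _ _
  have len : ∀ μ : ℝ, scLen [(μ, τ)] = τ := fun μ => by simp [scLen]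
  have hV0 : ∀ μ, 0 ≤ μ → μ ≤ a → scVt X [(μ, τ)] 0 = scStep μ τ X := fun μ h0 h1 => by
    rw [sc_Vt_zero X (adm μ h0 h1).pos]; rfl
  have hVτ : ∀ μ, 0 ≤ μ → μ ≤ a → scVt X [(μ, τ)] τ = X := fun μ h0 h1 =>
    sc_Vt_of_le X (adm μ h0 h1).pos (le_of_eq (len μ))
  have hW : ∀ μ, 0 ≤ μ → μ ≤ a → ∀ r, 0 ≤ r → r ≤ τ →
      ScN (n + 2) (CE * τ) (fun z => X z - scVt X [(μ, τ)] r z) := by
    intro μ h0 h1 r hr0 hr1
    have := HE X [(μ, τ)] hX hXA (adm μ h0 h1) (inc μ) r τ hr0 hr1 (le_of_eq (len μ).symm)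
    rw [hVτ μ h0 h1] at this
    exact this.weaken (mul_le_mul_of_nonneg_left (by linarith) hCE)
  have hΔ : ∀ r, 0 ≤ r → r ≤ τ →
      ScN (n + 2) (2 * CE * τ) (fun z => scVt X [(m, τ)] r z - scVt X [(m', τ)] r z) := fun r h0 h1 =>
    (l9cl_N_tri (l9cl_N_symm (hW m hm hma r h0 h1)) (hW m' hm' hma' r h0 h1)).weaken (le_of_eq (by ring))
  rw [← hV0 m hm hma, ← hV0 m' hm' hma']
  refine l9cl_N_sub (sc_Vt_BI hX _ 0) (sc_Vt_BI hX _ 0) fun k hk z => ?_
  have i1 := sc_D_sub_eq_integral hX (adm m hm hma).pos k le_rfl hτ (le_of_eq (len m).symm) z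
  have i2 := sc_D_sub_eq_integral hX (adm m' hm' hma').pos k le_rfl hτ (le_of_eq (len m').symm) z
  have ii1 := l9cl_pde_ii hX (adm m hm hma).pos k le_rfl hτ (le_of_eq (len m).symm) z
  have ii2 := l9cl_pde_ii hX (adm m' hm' hma').pos k le_rfl hτ (le_of_eq (len m').symm) z
  have e : deriv^[k] (scVt X [(m, τ)] 0) z - deriv^[k] (scVt X [(m', τ)] 0) z
      = ∫ r in (0:ℝ)..τ, ((-(scD (k + 2) X [(m', τ)] r z) / 2
            - scAl [(m', τ)] r * deriv^[k] (fun y => scD 1 X [(m', τ)] r y ^ 2 / 2) z)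
          - (-(scD (k + 2) X [(m, τ)] r z) / 2
            - scAl [(m, τ)] r * deriv^[k] (fun y => scD 1 X [(m, τ)] r y ^ 2 / 2) z)) := by
    rw [intervalIntegral.integral_sub ii2 ii1, ← i1, ← i2]
    unfold scD
    rw [hVτ m hm hma, hVτ m' hm' hma']
    ring
  rw [e]
  have hb : ∀ᵐ r : ℝ, r ∈ Set.uIoc 0 τ → ‖(-(scD (k + 2) X [(m', τ)] r z) / 2
            - scAl [(m', τ)] r * deriv^[k] (fun y => scD 1 X [(m', τ)] r y ^ 2 / 2) z)
          - (-(scD (k + 2) X [(m, τ)] r z) / 2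
            - scAl [(m, τ)] r * deriv^[k] (fun y => scD 1 X [(m, τ)] r y ^ 2 / 2) z)‖
      ≤ 2 ^ n * (C * C) / 2 * |m - m'| + (CE + a * (2 ^ n * ((2 * CE) * (2 * C)) / 2)) * τ := by
    have hne : ∀ᵐ r : ℝ, r ≠ τ := by
      have : ({τ}ᶜ : Set ℝ) ∈ ae (volume : Measure ℝ) := compl_mem_ae_iff.2 (measure_singleton τ)
      exact this
    filter_upwards [hne] with r hrne hr
    rw [Set.uIoc_of_le hτ] at hr
    have hr0 : 0 ≤ r := hr.1.le
    have hlt : r < τ := lt_of_le_of_ne hr.2 hrne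
    rw [scs_Al_cons_lt (p := (m', τ)) [] hlt, scs_Al_cons_lt (p := (m, τ)) [] hlt]
    have b1 : |scD (k + 2) X [(m, τ)] r z - scD (k + 2) X [(m', τ)] r z| ≤ 2 * CE * τ :=
      l9cl_N_sub_iter (sc_Vt_BI hX _ r) (sc_Vt_BI hX _ r) (hΔ r hr0 hr.2) (by omega) z
    have hU := HU X [(m, τ)] hX (hXA.mono (by omega)) (adm m hm hma) (inc m) r
    have hU' := HU X [(m', τ)] hX (hXA.mono (by omega)) (adm m' hm' hma') (inc m') r
    have hdU : ScN n (2 * CE * τ) (fun y => scD 1 X [(m, τ)] r y - scD 1 X [(m', τ)] r y) := by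
      have h1 := (hΔ r hr0 hr.2).der.of_succ
      have e1 : deriv (fun z => scVt X [(m, τ)] r z - scVt X [(m', τ)] r z)
          = fun y => scD 1 X [(m, τ)] r y - scD 1 X [(m', τ)] r y :=
        l9cl_iter_sub (sc_Vt_BI hX _ r) (sc_Vt_BI hX _ r) 1
      rwa [e1] at h1
    have hsq : ∀ {U : ℝ → ℝ}, ScN n C U → ScN n (2 ^ n * (C * C) / 2) (fun y => U y ^ 2 / 2) := by
      intro U hU
      refine l9cl_N_congr (((hU.mul hU).const_mul (1 / 2)).weaken (le_of_eq ?_)) fun y => ?_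
      · rw [abs_of_nonneg (by norm_num : (0:ℝ) ≤ 1 / 2)]; ring
      · ring
    have hQ : ScN n (|m - m'| * (2 ^ n * (C * C) / 2) + |m' / 2| * (2 ^ n * ((2 * CE * τ) * (C + C))))
        (fun y => m * (scD 1 X [(m, τ)] r y ^ 2 / 2) - m' * (scD 1 X [(m', τ)] r y ^ 2 / 2)) :=
      l9cl_N_congr (((hsq hU).const_mul (m - m')).add ((hdU.mul (hU.add hU')).const_mul (m' / 2))) fun y => by ring
    have b2 := hQ.iter hk z
    rw [l9cl_iter_lin ((hsq hU).scE.mono hk) ((hsq hU').scE.mono hk)] at b2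
    rw [Real.norm_eq_abs]
    have e2 : (-(scD (k + 2) X [(m', τ)] r z) / 2
            - (m', τ).1 * deriv^[k] (fun y => scD 1 X [(m', τ)] r y ^ 2 / 2) z)
          - (-(scD (k + 2) X [(m, τ)] r z) / 2
            - (m, τ).1 * deriv^[k] (fun y => scD 1 X [(m, τ)] r y ^ 2 / 2) z)
        = (scD (k + 2) X [(m, τ)] r z - scD (k + 2) X [(m', τ)] r z) / 2
          + (m * deriv^[k] (fun y => scD 1 X [(m, τ)] r y ^ 2 / 2) z
            - m' * deriv^[k] (fun y => scD 1 X [(m', τ)] r y ^ 2 / 2) z) := by ring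
    rw [e2]
    refine (abs_add_le _ _).trans ?_
    rw [abs_div, abs_two]
    have b3 : |m' / 2| * (2 ^ n * ((2 * CE * τ) * (C + C))) ≤ a * (2 ^ n * ((2 * CE) * (2 * C)) / 2) * τ := by
      rw [abs_of_nonneg (by positivity)]
      have : m' / 2 * (2 ^ n * ((2 * CE * τ) * (C + C))) = m' * ((2 ^ n * ((2 * CE) * (2 * C)) / 2) * τ) := by ring
      rw [this, mul_assoc a]
      exact mul_le_mul_of_nonneg_right hma' (by positivity)
    nlinarith [b1, b2, b3]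
  have h3 := intervalIntegral.norm_integral_le_of_norm_le_const_ae hb
  rw [Real.norm_eq_abs, sub_zero, abs_of_nonneg hτ] at h3
  refine h3.trans (le_of_eq ?_)
  ring

/-! ## F. one LONG step, two masses: `N` short steps, hybrid argument, `N → ∞` -/

theorem l9cl_adm1 {a m s : ℝ} (h0 : 0 ≤ m) (h1 : m ≤ a) (hs : 0 ≤ s) : ScAdm a [(m, s)] := fun p hp => by
  rw [List.mem_singleton] at hp; subst hp; exact ⟨h0, h1, hs⟩

theorem l9cl_inc1 (m s : ℝ) : ScInc [(m, s)] := List.pairwise_singleton _ _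

theorem l9cl_N_zero (n : ℕ) (f : ℝ → ℝ) : ScN n 0 (fun z => f z - f z) :=
  l9cl_N_congr ((ScN.const n 0).weaken (le_of_eq abs_zero)) fun _ => sub_self _

theorem l9cl_mass {a : ℝ} (ha : 0 ≤ a) (n : ℕ) {A : ℝ} (hA : 0 ≤ A) : ∃ C : ℝ, 0 ≤ C ∧
    ∀ (G : ℝ → ℝ) (m m' s : ℝ), ScBI G → ScN (n + 3) A (deriv G) → 0 ≤ m → m ≤ a → 0 ≤ m' → m' ≤ a → 0 ≤ s →
      ScN n (C * |m - m'| * s) (fun z => scStep m s G z - scStep m' s G z) := by
  obtain ⟨A1, hA1, HV1⟩ := sc_tau_V ha (n + 3) hA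
  obtain ⟨A2, hA2, HV2⟩ := sc_tau_V ha (n + 3) hA1
  obtain ⟨C₁, C₂, hC₁, hC₂, HS⟩ := l9cl_short ha n hA1
  obtain ⟨K, hK1, HK⟩ := l9cl_TL_V ha n (add_nonneg hA1 hA2)
  have hK0 : 0 ≤ K := zero_le_one.trans hK1
  refine ⟨K * C₁, mul_nonneg hK0 hC₁, fun G m m' s hG hGA hm hma hm' hma' hs => ?_⟩
  have hyb : ∀ τ : ℝ, 0 ≤ τ → ∀ (j : ℕ) (s₀ : ℝ), 0 ≤ s₀ →
      ScN n (j * (K * (C₁ * |m - m'| * τ + C₂ * τ ^ 2)))
        (fun z => scStep m (j * τ) (scStep m s₀ G) z - scStep m' (j * τ) (scStep m s₀ G) z) := by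
    intro τ hτ j
    induction j with
    | zero =>
      intro s₀ _
      simp only [Nat.cast_zero, zero_mul, sc_step_var_zero]
      exact l9cl_N_zero n _
    | succ j ih =>
      intro s₀ hs₀
      have hjτ : 0 ≤ (j : ℝ) * τ := by positivity
      have hY : ScBI (scStep m s₀ G) := sc_step_BI hG m s₀
      have hYA : ScN (n + 3) A1 (deriv (scStep m s₀ G)) := HV1 G [(m, s₀)] hG hGA (l9cl_adm1 hm hma hs₀) (l9cl_inc1 _ _)
      have e0 : ((j + 1 : ℕ) : ℝ) * τ = j * τ + τ := by push_cast; ring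
      have e1 : scStep m (j * τ + τ) (scStep m s₀ G) = scStep m (j * τ) (scStep m (τ + s₀) G) := by
        rw [← sc_step_step (hY 1) m hjτ hτ, sc_step_step (hG 1) m hτ hs₀]
      have e2 : scStep m' (j * τ + τ) (scStep m s₀ G) = scStep m' (j * τ) (scStep m' τ (scStep m s₀ G)) :=
        (sc_step_step (hY 1) m' hjτ hτ).symm
      have h1 := ih (τ + s₀) (add_nonneg hτ hs₀)
      have hY1A : ScN (n + 3) A1 (deriv (scStep m (τ + s₀) G)) :=
        HV1 G [(m, τ + s₀)] hG hGA (l9cl_adm1 hm hma (add_nonneg hτ hs₀)) (l9cl_inc1 _ _)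
      have hY2A : ScN (n + 3) A2 (deriv (scStep m' τ (scStep m s₀ G))) :=
        HV2 _ [(m', τ)] hY hYA (l9cl_adm1 hm' hma' hτ) (l9cl_inc1 _ _)
      have h3 := HS _ m m' τ hY hYA hm hma hm' hma' hτ
      rw [sc_step_step (hG 1) m hτ hs₀] at h3
      have h2 := HK _ _ [(m', j * τ)] _ (sc_step_BI hG m (τ + s₀)) (sc_step_BI hY m' τ)
        ((hY1A.mono (by omega)).weaken (by linarith)) ((hY2A.mono (by omega)).weaken (by linarith)) h3
        (l9cl_adm1 hm' hma' hjτ) (l9cl_inc1 _ _)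
      rw [e0, e1, e2]
      refine (l9cl_N_tri h1 h2).weaken (le_of_eq ?_)
      push_cast
      ring
  refine l9cl_N_closed fun ε hε => ?_
  obtain ⟨N, hN⟩ := exists_nat_gt (K * C₂ * s ^ 2 / ε)
  have hN0 : (0 : ℝ) < N := lt_of_le_of_lt (by positivity) hN
  have h := hyb (s / N) (by positivity) N 0 le_rfl
  rw [sc_step_var_zero, mul_div_cancel₀ _ hN0.ne'] at h
  refine h.weaken ?_
  have e : (N : ℝ) * (K * (C₁ * |m - m'| * (s / N) + C₂ * (s / N) ^ 2))
      = K * C₁ * |m - m'| * s + K * C₂ * s ^ 2 / N := by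
    field_simp
  rw [e]
  have : K * C₂ * s ^ 2 / N ≤ ε := by
    rw [div_le_iff₀ hN0]
    rw [div_lt_iff₀ hε] at hN
    linarith
  linarith

/-! ## G. (PL) two profiles, one terminal datum: `C^n`-Lipschitz in the `L¹` distance of the mass profiles, constants free of the horizon -/

theorem l9cl_int_move {a : ℝ} {p p' : ℝ × ℝ} {π π' : List (ℝ × ℝ)} (hA : ScAdm a (p :: π)) (hpp : p.2 ≤ p'.2) :
    ∫ t in (0:ℝ)..scLen (p :: π), |scAl (p :: π) t - scAl (p' :: π') t|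
      = |p.1 - p'.1| * p.2 + ∫ t in (0:ℝ)..scLen π, |scAl π t - scAl ((p'.1, p'.2 - p.2) :: π') t| := by
  have hp := hA p List.mem_cons_self
  have hl := sc_len_nonneg hA.of_cons.pos
  simp only [scLen]
  rw [scs_int_cons p π hp.2.2 hl (scs_Al_ii _ _ _)]
  congr 1
  · rw [intervalIntegral.integral_of_le hp.2.2, integral_Ioc_eq_integral_Ioo]
    have : ∫ t in Ioo 0 p.2, |p.1 - scAl (p' :: π') t| = ∫ _t in Ioo 0 p.2, |p.1 - p'.1| :=
      setIntegral_congr_fun measurableSet_Ioo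
        (fun t ht => by simp only [scs_Al_cons_lt π' (lt_of_lt_of_le ht.2 hpp)])
    rw [this, setIntegral_const]
    simp [hp.2.2, mul_comm]
  · refine intervalIntegral.integral_congr (fun r _ => ?_)
    rw [show p' = (p'.1, p'.2) from rfl, scs_Al_cut]

theorem l9cl_split_adm {a μ d s s' : ℝ} {ρ π : List (ℝ × ℝ)} (h : ScAdm a (ρ ++ (μ, d) :: π)) (hs : 0 ≤ s) (hs' : 0 ≤ s') :
    ScAdm a (ρ ++ (μ, s) :: (μ, s') :: π) := by
  have h0 := h (μ, d) (by simp)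
  intro q hq
  simp only [List.mem_append, List.mem_cons] at hq
  rcases hq with hq | rfl | rfl | hq
  · exact h q (by simp [hq])
  · exact ⟨h0.1, h0.2.1, hs⟩
  · exact ⟨h0.1, h0.2.1, hs'⟩
  · exact h q (by simp [hq])

theorem l9cl_split_inc {μ d s s' : ℝ} {ρ π : List (ℝ × ℝ)} (h : ScInc (ρ ++ (μ, d) :: π)) :
    ScInc (ρ ++ (μ, s) :: (μ, s') :: π) := by
  unfold ScInc at h ⊢
  rw [List.pairwise_append, List.pairwise_cons] at h
  rw [List.pairwise_append, List.pairwise_cons, List.pairwise_cons]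
  obtain ⟨h1, ⟨h2, h3⟩, h4⟩ := h
  refine ⟨h1, ⟨?_, h2, h3⟩, ?_⟩
  · intro q hq
    rcases List.mem_cons.1 hq with rfl | hq
    · exact le_rfl
    · exact h2 q hq
  · intro x hx q hq
    simp only [List.mem_cons] at hq
    rcases hq with rfl | rfl | hq
    · exact h4 x hx (μ, d) (by simp)
    · exact h4 x hx (μ, d) (by simp)
    · exact h4 x hx q (by simp [hq])

theorem l9cl_PL_V {a : ℝ} (ha : 0 ≤ a) (n : ℕ) {A : ℝ} (hA : 0 ≤ A) : ∃ C : ℝ, 0 ≤ C ∧
    ∀ (F : ℝ → ℝ) (π π' : List (ℝ × ℝ)), ScBI F → ScN (n + 3) A (deriv F) → ScAdm a π → ScInc π → ScAdm a π' →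
      ScInc π' → scLen π = scLen π' →
      ScN n (C * ∫ t in (0:ℝ)..scLen π, |scAl π t - scAl π' t|) (fun z => scV F π z - scV F π' z) := by
  obtain ⟨A1, hA1, HV1⟩ := sc_tau_V ha (n + 3) hA
  obtain ⟨A2, hA2, HV2⟩ := sc_tau_V ha (n + 3) hA1
  obtain ⟨CM, hCM, HM⟩ := l9cl_mass ha n hA1
  obtain ⟨K, hK1, HK⟩ := l9cl_TL_V ha n hA2
  have hK0 : 0 ≤ K := zero_le_one.trans hK1
  refine ⟨K * CM, mul_nonneg hK0 hCM, fun F π π' hF hFA hπ hi hπ' hi' hlen => ?_⟩
  -- one change of mass behind a prefix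
  have T1 : ∀ (ρ X : List (ℝ × ℝ)) (μ μ' d : ℝ), ScAdm a ρ → ScInc ρ → ScAdm a X → ScInc X → 0 ≤ μ → μ ≤ a → 0 ≤ μ' →
      μ' ≤ a → 0 ≤ d → ScN n (K * CM * (|μ - μ'| * d))
        (fun z => scV F (ρ ++ (μ, d) :: X) z - scV F (ρ ++ (μ', d) :: X) z) := by
    intro ρ X μ μ' d hρ hρi hX hXi h0 h1 h0' h1' hd
    have hY : ScBI (scV F X) := sc_V_BI hF X
    have hYA := HV1 F X hF hFA hX hXi
    have h2 := HM _ μ μ' d hY hYA h0 h1 h0' h1' hd
    have h3 := HK _ _ ρ _ (sc_step_BI hY μ d) (sc_step_BI hY μ' d)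
      ((HV2 _ [(μ, d)] hY hYA (l9cl_adm1 h0 h1 hd) (l9cl_inc1 _ _)).mono (by omega))
      ((HV2 _ [(μ', d)] hY hYA (l9cl_adm1 h0' h1' hd) (l9cl_inc1 _ _)).mono (by omega)) h2 hρ hρi
    rw [sc_V_append, sc_V_append]
    exact h3.weaken (le_of_eq (by ring))
  have key : ∀ (N : ℕ) (ρ π π' : List (ℝ × ℝ)), π.length + π'.length ≤ N → ScAdm a (ρ ++ π') → ScInc (ρ ++ π') →
      ScAdm a π → ScInc π → scLen π = scLen π' →
      ScN n (K * CM * ∫ t in (0:ℝ)..scLen π, |scAl π t - scAl π' t|)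
        (fun z => scV F (ρ ++ π) z - scV F (ρ ++ π') z) := by
    intro N
    induction N with
    | zero =>
      intro ρ π π' hN _ _ _ _ _
      have h1 : π = [] := List.length_eq_zero_iff.mp (by omega)
      have h2 : π' = [] := List.length_eq_zero_iff.mp (by omega)
      subst h1 h2
      simpa [scLen] using l9cl_N_zero n (scV F (ρ ++ []))
    | succ N ih =>
      intro ρ π π' hN hA' hI' hA hI hlen
      match π, π', hN, hA', hI', hA, hI, hlen with
      | [], π', _, hA', _, _, _, hlen =>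
        have hp' : ScAdm a π' := sc_tau_adm_sublist hA' (List.sublist_append_right ρ π')
        have : scV F π' = F := scs_V_len_zero F hp'.pos hlen.symm
        rw [sc_V_append F ρ π', this, sc_V_append]
        simpa [scLen, scV] using l9cl_N_zero n (scV F ρ)
      | p :: π, [], _, _, _, hA, _, hlen =>
        have : scV F (p :: π) = F := scs_V_len_zero F hA.pos hlen
        rw [sc_V_append F ρ (p :: π), this, sc_V_append, hlen]
        simpa [scLen, scV] using l9cl_N_zero n (scV F ρ)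
      | p :: π, p' :: π', hN, hA', hI', hA, hI, hlen =>
        have hp := hA p List.mem_cons_self
        have hp' := hA' p' (by simp)
        have hρ : ScAdm a ρ := sc_tau_adm_sublist hA' (List.sublist_append_left ρ _)
        have hρi : ScInc ρ := sc_tau_inc_sublist hI' (List.sublist_append_left ρ _)
        simp only [List.length_cons] at hN
        rcases le_total p.2 p'.2 with hpp | hpp
        · have t1 := T1 ρ π p.1 p'.1 p.2 hρ hρi hA.of_cons hI.of_cons hp.1 hp.2.1 hp'.1 hp'.2.1 hp.2.2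
          have hd : 0 ≤ p'.2 - p.2 := sub_nonneg.2 hpp
          have hA'' : ScAdm a ((ρ ++ [(p'.1, p.2)]) ++ (p'.1, p'.2 - p.2) :: π') := by
            rw [List.append_assoc]; exact l9cl_split_adm (d := p'.2) hA' hp.2.2 hd
          have hI'' : ScInc ((ρ ++ [(p'.1, p.2)]) ++ (p'.1, p'.2 - p.2) :: π') := by
            rw [List.append_assoc]; exact l9cl_split_inc (d := p'.2) hI'
          have t2 := ih (ρ ++ [(p'.1, p.2)]) π ((p'.1, p'.2 - p.2) :: π') (by simp only [List.length_cons]; omega)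
            hA'' hI'' hA.of_cons hI.of_cons (by simp only [scLen] at hlen ⊢; linarith)
          have e1 : scV F ((ρ ++ [(p'.1, p.2)]) ++ (p'.1, p'.2 - p.2) :: π') = scV F (ρ ++ p' :: π') := by
            rw [List.append_assoc, sc_V_append F ρ, sc_V_append F ρ]
            congr 1
            have := sc_V_split hF p'.1 hp.2.2 hd π'
            rw [add_sub_cancel] at this
            exact this.symm
          rw [e1, List.append_assoc] at t2
          rw [l9cl_int_move hA hpp]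
          exact (l9cl_N_tri t1 t2).weaken (le_of_eq (by ring))
        · have hd : 0 ≤ p.2 - p'.2 := sub_nonneg.2 hpp
          have hXA : ScAdm a ((p.1, p.2 - p'.2) :: π) := by
            intro q hq
            rcases List.mem_cons.mp hq with rfl | hq
            · exact ⟨hp.1, hp.2.1, hd⟩
            · exact hA.of_cons q hq
          have hXI : ScInc ((p.1, p.2 - p'.2) :: π) :=
            (l9cl_split_inc (ρ := []) (μ := p.1) (d := p.2) (s := p'.2) (s' := p.2 - p'.2) (π := π) hI).of_cons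
          have hlenX : scLen ((p.1, p.2 - p'.2) :: π) = scLen π' := by simp only [scLen] at hlen ⊢; linarith
          have t1 := T1 ρ ((p.1, p.2 - p'.2) :: π) p.1 p'.1 p'.2 hρ hρi hXA hXI hp.1 hp.2.1 hp'.1 hp'.2.1 hp'.2.2
          have t2 := ih (ρ ++ [p']) ((p.1, p.2 - p'.2) :: π) π' (by simp only [List.length_cons]; omega)
            (by rw [List.append_assoc]; exact hA') (by rw [List.append_assoc]; exact hI') hXA hXI hlenX
          have e1 : scV F (ρ ++ p :: π) = scV F (ρ ++ (p.1, p'.2) :: (p.1, p.2 - p'.2) :: π) := by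
            rw [sc_V_append F ρ, sc_V_append F ρ]
            congr 1
            have := sc_V_split hF p.1 hp'.2.2 hd π
            rw [add_sub_cancel] at this
            exact this
          have hA'c : ScAdm a (p' :: π') := sc_tau_adm_sublist hA' (List.sublist_append_right ρ _)
          have e2 := l9cl_int_move (π' := π) hA'c hpp
          have e3 : ∫ t in (0:ℝ)..scLen (p :: π), |scAl (p :: π) t - scAl (p' :: π') t|
              = |p.1 - p'.1| * p'.2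
                + ∫ t in (0:ℝ)..scLen ((p.1, p.2 - p'.2) :: π), |scAl ((p.1, p.2 - p'.2) :: π) t - scAl π' t| := by
            rw [hlen, hlenX]
            simpa only [abs_sub_comm] using e2
          rw [List.append_assoc, List.append_assoc] at t2
          rw [e3, e1]
          exact (l9cl_N_tri t1 t2).weaken (le_of_eq (by ring))
  have := key _ [] π π' le_rfl hπ' hi' hπ hi hlen
  simpa using this

theorem l9cl_dist_nonneg (π π' : List (ℝ × ℝ)) {T : ℝ} (hT : 0 ≤ T) : 0 ≤ ∫ r in (0:ℝ)..T, |scAl π r - scAl π' r| :=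
  intervalIntegral.integral_nonneg hT fun _ _ => abs_nonneg _

/-- (PL) at time `t` -/
theorem l9cl_PL {a : ℝ} (ha : 0 ≤ a) (n : ℕ) {A : ℝ} (hA : 0 ≤ A) : ∃ C : ℝ, 0 ≤ C ∧
    ∀ (F : ℝ → ℝ) (π π' : List (ℝ × ℝ)), ScBI F → ScN (n + 3) A (deriv F) → ScAdm a π → ScInc π → ScAdm a π' →
      ScInc π' → scLen π = scLen π' → ∀ t, 0 ≤ t → t ≤ scLen π →
      ScN n (C * ∫ r in (0:ℝ)..scLen π, |scAl π r - scAl π' r|) (fun z => scVt F π t z - scVt F π' t z) := by
  obtain ⟨C, hC, H⟩ := l9cl_PL_V ha n hA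
  refine ⟨C, hC, fun F π π' hF hFA hπ hi hπ' hi' hlen t h0 ht => ?_⟩
  have h1 := H F _ _ hF hFA (sc_after_adm hπ t) (sc_after_inc hi t) (sc_after_adm hπ' t) (sc_after_inc hi' t)
    (by rw [sc_len_after hπ.pos h0 ht, sc_len_after hπ'.pos h0 (hlen ▸ ht), hlen])
  rw [sc_Vt_after, sc_Vt_after]
  refine h1.weaken (mul_le_mul_of_nonneg_left ?_ hC)
  refine le_trans (le_of_eq ?_) (scs_dist_le π π' (scLen π) h0)
  rw [sc_len_after hπ.pos h0 ht]
  have h2 := intervalIntegral.integral_comp_add_left (a := 0) (b := scLen π - t)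
    (fun r => |scAl π r - scAl π' r|) t
  rw [add_zero, add_sub_cancel] at h2
  rw [← h2]
  refine intervalIntegral.integral_congr (fun r hr => ?_)
  rw [uIcc_of_le (by linarith)] at hr
  simp only [sc_Al_shift hπ.pos h0 hr.1, sc_Al_shift hπ'.pos h0 hr.1]

/-- **two step models**: terminal data, profiles and times -/
theorem l9cl_main {a : ℝ} (ha : 0 ≤ a) (n : ℕ) {A : ℝ} (hA : 0 ≤ A) : ∃ C : ℝ, 0 ≤ C ∧
    ∀ (F G : ℝ → ℝ) (π π' : List (ℝ × ℝ)) (M : ℝ), ScBI F → ScBI G → ScN (n + 3) A (deriv F) →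
      ScN (n + 3) A (deriv G) → ScN n M (fun z => F z - G z) → ScAdm a π → ScInc π → ScAdm a π' → ScInc π' →
      scLen π = scLen π' → ∀ t t', 0 ≤ t → t ≤ scLen π → 0 ≤ t' → t' ≤ scLen π →
      ScN n (C * (M + (∫ r in (0:ℝ)..scLen π, |scAl π r - scAl π' r|) + |t - t'|))
        (fun z => scVt F π t z - scVt G π' t' z) := by
  obtain ⟨K, hK1, HK⟩ := l9cl_TL ha n hA
  obtain ⟨CP, hCP, HP⟩ := l9cl_PL ha n hA
  obtain ⟨CE, hCE, HE⟩ := l9cl_time ha n hA
  have hK0 : 0 ≤ K := zero_le_one.trans hK1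
  refine ⟨K + CP + CE, by positivity, fun F G π π' M hF hG hFA hGA hM hπ hi hπ' hi' hlen t t' h0 ht h0' ht' => ?_⟩
  have h1 := HK F G π M hF hG (hFA.mono (by omega)) (hGA.mono (by omega)) hM hπ hi t h0
  have h2 := HP G π π' hG hGA hπ hi hπ' hi' hlen t h0 ht
  have h3 : ScN n (CE * |t - t'|) (fun z => scVt G π' t z - scVt G π' t' z) := by
    rcases le_total t t' with h | h
    · have := HE G π' hG (hGA.mono (by omega)) hπ' hi' t t' h0 h (hlen ▸ ht')
      rw [abs_sub_comm, abs_of_nonneg (sub_nonneg.2 h)]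
      exact l9cl_N_symm this
    · have := HE G π' hG (hGA.mono (by omega)) hπ' hi' t' t h0' h (hlen ▸ ht)
      rwa [abs_of_nonneg (sub_nonneg.2 h)]
  have hd := l9cl_dist_nonneg π π' (sc_len_nonneg hπ.pos)
  have hM0 := hM.nonneg
  refine (l9cl_N_tri (l9cl_N_tri h1 h2) h3).weaken ?_
  have := abs_nonneg (t - t')
  nlinarith [mul_nonneg hK0 hd, mul_nonneg hK0 this, mul_nonneg hCP hM0, mul_nonneg hCP this, mul_nonneg hCE hM0,
    mul_nonneg hCE hd]

/-- the same for `U = V_z` -/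
theorem l9cl_main_U {a : ℝ} (ha : 0 ≤ a) (n : ℕ) {A : ℝ} (hA : 0 ≤ A) : ∃ C : ℝ, 0 ≤ C ∧
    ∀ (F G : ℝ → ℝ) (π π' : List (ℝ × ℝ)) (M : ℝ), ScBI F → ScBI G → ScN (n + 4) A (deriv F) →
      ScN (n + 4) A (deriv G) → ScN (n + 1) M (fun z => F z - G z) → ScAdm a π → ScInc π → ScAdm a π' → ScInc π' →
      scLen π = scLen π' → ∀ t t', 0 ≤ t → t ≤ scLen π → 0 ≤ t' → t' ≤ scLen π →
      ScN n (C * (M + (∫ r in (0:ℝ)..scLen π, |scAl π r - scAl π' r|) + |t - t'|))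
        (fun z => scD 1 F π t z - scD 1 G π' t' z) := by
  obtain ⟨C, hC, H⟩ := l9cl_main ha (n + 1) hA
  refine ⟨C, hC, fun F G π π' M hF hG hFA hGA hM hπ hi hπ' hi' hlen t t' h0 ht h0' ht' => ?_⟩
  have h1 := (H F G π π' M hF hG hFA hGA hM hπ hi hπ' hi' hlen t t' h0 ht h0' ht').der
  have e1 : deriv (fun z => scVt F π t z - scVt G π' t' z) = fun y => scD 1 F π t y - scD 1 G π' t' y :=
    l9cl_iter_sub (sc_Vt_BI hF _ t) (sc_Vt_BI hG _ t') 1
  rwa [e1] at h1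

/-! # EXIT: two filled step models which are close form a PAIR (`L9mClose`, hence `L14Pair`)

`R = l9mSc F π K kap mu`, `R' = l9mSc F' π' K' kap' mu` (SAME label masses `mu`), twist `σ` (size path: `σ = ℓ / ℓ'`, `R` at `ℓ`, `R'` at `ℓ'`; direct path: `σ = 1`).
The twisted second model is again a step model (exact scaling `sk_sc_Vt`):   `g₁'(u)(σ z) = scD 1 F~ π~ (K' u / σ²) z`,   `F~ = σ⁻¹ F'(σ ·)`,   `π~ = skScL σ⁻¹ π'` (masses `σ m`, lengths `s / σ²`).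
`L9clClose` = the LIPSCHITZ closeness hypotheses at the scale `δ`;   `l9cl_close`: constants `Cn` which depend only on `a, A, C0`. -/

/-! ## 1. scaling of lists -/

theorem l9cl_scL_scL {σ : ℝ} (hσ : 0 < σ) (π : List (ℝ × ℝ)) : skScL σ (skScL σ⁻¹ π) = π := by
  unfold skScL
  rw [List.map_map]
  conv_rhs => rw [← List.map_id π]
  apply List.map_congr_left
  intro p _
  simp only [Function.comp, id]
  ext
  · simp only
    field_simp
  · simp only
    field_simp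

theorem l9cl_scL_adm {a l : ℝ} (hl : 0 < l) {π : List (ℝ × ℝ)} (h : ScAdm a π) : ScAdm (a / l) (skScL l π) := by
  intro q hq
  unfold skScL at hq
  obtain ⟨p, hp, rfl⟩ := List.mem_map.1 hq
  obtain ⟨h1, h2, h3⟩ := h p hp
  exact ⟨div_nonneg h1 hl.le, div_le_div_of_nonneg_right h2 hl.le, by positivity⟩

theorem l9cl_scL_inc {l : ℝ} (hl : 0 < l) {π : List (ℝ × ℝ)} (h : ScInc π) : ScInc (skScL l π) := by
  unfold ScInc skScL at *
  rw [List.pairwise_map]
  exact h.imp fun hpq => div_le_div_of_nonneg_right hpq hl.le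

theorem l9cl_scL_len (l : ℝ) (π : List (ℝ × ℝ)) : scLen (skScL l π) = l ^ 2 * scLen π := by
  induction π with
  | nil => simp [skScL, scLen]
  | cons p π ih =>
    have : skScL l (p :: π) = (p.1 / l, l ^ 2 * p.2) :: skScL l π := rfl
    rw [this]
    simp only [scLen, ih]
    ring

theorem l9cl_adm_mono {a b : ℝ} (hab : a ≤ b) {π : List (ℝ × ℝ)} (h : ScAdm a π) : ScAdm b π :=
  fun p hp => ⟨(h p hp).1, (h p hp).2.1.trans hab, (h p hp).2.2⟩

theorem l9cl_dil_deriv {F : ℝ → ℝ} (hF : ScBI F) {σ : ℝ} (hσ : σ ≠ 0) :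
    deriv (fun y => σ⁻¹ * F (σ * y)) = fun y => deriv F (σ * y) := by
  funext y
  have h1 : deriv (fun y => σ⁻¹ * F (σ * y)) y = σ⁻¹ * deriv (fun y => F (σ * y)) y := deriv_const_mul_field σ⁻¹
  rw [h1, l9m_deriv_dil (hF 1).1 σ]
  field_simp

theorem l9cl_dil_BI {F : ℝ → ℝ} (hF : ScBI F) {σ : ℝ} (hσ : σ ≠ 0) : ScBI (fun y => σ⁻¹ * F (σ * y)) := by
  have hd : Differentiable ℝ (fun y => σ⁻¹ * F (σ * y)) :=
    (((hF 1).1).comp (differentiable_id.const_mul σ)).const_mul σ⁻¹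
  intro n
  cases n with
  | zero => exact hd.continuous
  | succ n =>
    have h1 := l9m_Bd_dil (hF (n + 1)).deriv_bd σ
    refine ⟨hd, ?_, ?_⟩
    · rw [l9cl_dil_deriv hF hσ]; exact h1.1
    · rw [l9cl_dil_deriv hF hσ]; exact h1.2

/-- the twisted model is a step model -/
theorem l9cl_twist {F : ℝ → ℝ} (hF : ScBI F) {σ : ℝ} (hσ : 0 < σ) (π : List (ℝ × ℝ)) (t z : ℝ) :
    scD 1 (fun y => σ⁻¹ * F (σ * y)) (skScL σ⁻¹ π) t z = scD 1 F π (σ ^ 2 * t) (σ * z) := by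
  have e : scVt (fun y => σ⁻¹ * F (σ * y)) (skScL σ⁻¹ π) t = fun z => σ⁻¹ * scVt F π (σ ^ 2 * t) (σ * z) := by
    funext z
    rw [sk_sc_Vt hσ, l9cl_scL_scL hσ]
  show deriv (scVt (fun y => σ⁻¹ * F (σ * y)) (skScL σ⁻¹ π) t) z = deriv (scVt F π (σ ^ 2 * t)) (σ * z)
  rw [e, l9cl_dil_deriv (sc_Vt_BI hF π _) hσ.ne']

/-! ## 2. `l9m_sc_ok` with room in the constants -/

theorem l9cl_sc_ok {a : ℝ} (ha : 0 ≤ a) {A : ℕ → ℝ} (hA : ∀ n, 0 ≤ A n) {C0 : ℝ} (hC0 : 1 ≤ C0) {E : ℕ → ℝ}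
    (hE : ∀ n, 0 ≤ E n) :
    ∃ Cn : ℕ → ℝ, (∀ n, E n ≤ Cn n) ∧ (∀ n, C0 ≤ Cn n) ∧
      ∀ (F : ℝ → ℝ) (hF : ScBI F) (π : List (ℝ × ℝ)) (c0 eps : ℝ) (K kap mu : ℝ → ℝ),
        L9mScHyp a A C0 F π c0 eps K kap mu → (l9mSc F hF π K kap mu).Ok c0 eps Cn := by
  choose KT hKT HT using fun n => sc_tau_Pt ha n (hA n)
  choose CV hCV HV using fun n => sc_tau_V ha n (hA n)
  have hterm : ∀ k, 0 ≤ KT k + CV k + E k := fun k => add_nonneg (add_nonneg (zero_le_one.trans (hKT k)) (hCV k)) (hE k)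
  set Cn : ℕ → ℝ := fun n => C0 + ∑ k ∈ Finset.range (n + 1), (KT k + CV k + E k) with hCn
  have hle : ∀ {m n : ℕ}, m ≤ n → KT m + CV m + E m ≤ Cn n := by
    intro m n hmn
    have h1 : KT m + CV m + E m ≤ ∑ k ∈ Finset.range (n + 1), (KT k + CV k + E k) :=
      Finset.single_le_sum (f := fun k => KT k + CV k + E k) (fun k _ => hterm k) (Finset.mem_range.2 (by omega))
    simp only [hCn]
    linarith
  have hC0le : ∀ n, C0 ≤ Cn n := by
    intro n
    have : 0 ≤ ∑ k ∈ Finset.range (n + 1), (KT k + CV k + E k) := Finset.sum_nonneg fun k _ => hterm k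
    simp only [hCn]
    linarith
  have hmono : Monotone Cn := by
    intro m n hmn
    have : ∑ k ∈ Finset.range (m + 1), (KT k + CV k + E k) ≤ ∑ k ∈ Finset.range (n + 1), (KT k + CV k + E k) :=
      Finset.sum_le_sum_of_subset_of_nonneg (Finset.range_subset_range.2 (by omega)) fun k _ _ => hterm k
    simp only [hCn]
    linarith
  refine ⟨Cn, fun n => ?_, hC0le, fun F hF π c0 eps K kap mu H => ?_⟩
  · have := hle (m := n) (n := n) le_rfl
    linarith [zero_le_one.trans (hKT n), hCV n]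
  refine l9m_sc_ok_of hF H.even H.adm.pos H.clk H.c0_pos H.c0_le H.eps_nonneg H.eps_le
    (fun n => hC0.trans (hC0le n)) hmono H.mu_ge H.mu_le (fun u h0 h1 => (H.kap_bd u h0 h1).trans (hC0le 0))
    (fun u h0 h1 => (H.kap_lip u h0 h1).trans
      (mul_le_mul_of_nonneg_right (hC0le 0) (add_nonneg h0 H.eps_nonneg))) ?_ ?_ ?_
  · intro j n t hj
    obtain ⟨i, rfl⟩ : ∃ i, j = i + 1 := ⟨j - 1, by omega⟩
    have h1 := HV (i + n) F (scAfter π t) hF (H.FN (i + n)) (sc_after_adm H.adm t) (sc_after_inc H.inc t)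
    have h2 : ScN n (CV (i + n)) (scD (i + 1) F π t) := by
      unfold scD
      rw [sc_Vt_after, Function.iterate_succ_apply]
      exact l9m_N_iter h1
    refine h2.weaken ?_
    have := hle (m := i + n) (n := i + 1 + n) (by omega)
    linarith [zero_le_one.trans (hKT (i + n)), hE (i + n)]
  · exact H.chi.trans (mul_le_mul_of_nonneg_right (hC0le 0) (sq_nonneg _))
  · intro n M φ s t hφ
    refine (HT n F π φ M hF (H.FN n) H.adm H.inc hφ s t).weaken ?_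
    refine mul_le_mul_of_nonneg_right ?_ hφ.nonneg
    have := hle (m := n) (n := n) le_rfl
    linarith [hCV n, hE n]

/-! ## 3. THE EXIT -/

/-- Lipschitz closeness of two filled step models at the scale `δ`, twist `σ` -/
structure L9clClose (A : ℕ → ℝ) (C0 : ℝ) (F F' : ℝ → ℝ) (π π' : List (ℝ × ℝ)) (c0 eps δ σ : ℝ)
    (K kap K' kap' : ℝ → ℝ) : Prop where
  del_pos : 0 < δ
  sig_lo : 1 / 2 ≤ σ
  sig_hi : σ ≤ 2
  sig : |σ - 1| ≤ C0 * δ
  dkap : ∀ u, 0 ≤ u → u ≤ c0 → |kap u - kap' u| ≤ C0 * δ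
  dkap_lip : ∀ u, 0 ≤ u → u ≤ c0 → |(kap u - kap 0) - (kap' u - kap' 0)| ≤ δ * (C0 * (u + eps))
  /-- the terminal data -/
  term : ∀ n, ScN n (A n * δ) (fun z => F z - σ⁻¹ * F' (σ * z))
  /-- the horizons -/
  len : scLen π = scLen π' / σ ^ 2
  /-- the mass profiles, in `L¹` -/
  dist : ∫ r in (0:ℝ)..scLen π, |scAl π r - scAl (skScL σ⁻¹ π') r| ≤ C0 * δ
  /-- the clocks on the low labels -/
  clk : ∀ u, 0 ≤ u → u ≤ c0 → |K u - K' u / σ ^ 2| ≤ C0 * δ

theorem l9cl_close {a : ℝ} (ha : 0 ≤ a) {A : ℕ → ℝ} (hA : ∀ n, 0 ≤ A n) {C0 : ℝ} (hC0 : 1 ≤ C0) :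
    ∃ Cn : ℕ → ℝ, ∀ (F F' : ℝ → ℝ) (hF : ScBI F) (hF' : ScBI F') (π π' : List (ℝ × ℝ)) (c0 eps δ σ : ℝ)
      (K kap K' kap' mu : ℝ → ℝ), L9mScHyp a A C0 F π c0 eps K kap mu → L9mScHyp a A C0 F' π' c0 eps K' kap' mu →
      L9clClose A C0 F F' π π' c0 eps δ σ K kap K' kap' →
      (l9mSc F hF π K kap mu).Ok c0 eps Cn ∧ (l9mSc F' hF' π' K' kap' mu).Ok c0 eps Cn ∧
        L9mClose (l9mSc F hF π K kap mu) (l9mSc F' hF' π' K' kap' mu) c0 eps δ σ Cn := by
  have h2a : 0 ≤ 2 * a := by positivity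
  have hA' : ∀ n, 0 ≤ A (n + 4) * 2 ^ (n + 4) := fun n => mul_nonneg (hA _) (by positivity)
  choose CU hCU HU using fun n => l9cl_main_U h2a n (hA' n)
  set E : ℕ → ℝ := fun n => CU (n - 1) * (A n + C0 + C0) with hEdef
  have hE : ∀ n, 0 ≤ E n := fun n => mul_nonneg (hCU _) (by have := hA n; linarith)
  obtain ⟨Cn, hECn, hC0Cn, HOk⟩ := l9cl_sc_ok ha hA hC0 hE
  refine ⟨Cn, fun F F' hF hF' π π' c0 eps δ σ K kap K' kap' mu H H' X => ⟨HOk F hF π c0 eps K kap mu H,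
    HOk F' hF' π' c0 eps K' kap' mu H', ?_⟩⟩
  have hσ : 0 < σ := lt_of_lt_of_le (by norm_num) X.sig_lo
  have hδ := X.del_pos
  refine ⟨hδ, ?_, ?_, fun _ => rfl, ?_, ?_, ?_⟩
  · rw [abs_of_pos hσ]; exact X.sig_hi
  · exact X.sig.trans (mul_le_mul_of_nonneg_right (hC0Cn 0) hδ.le)
  · exact fun u h0 h1 => (X.dkap u h0 h1).trans (mul_le_mul_of_nonneg_right (hC0Cn 0) hδ.le)
  · intro u h0 h1
    refine (X.dkap_lip u h0 h1).trans (mul_le_mul_of_nonneg_left ?_ hδ.le)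
    exact mul_le_mul_of_nonneg_right (hC0Cn 0) (add_nonneg h0 H.eps_nonneg)
  · intro n u h0 h1
    have hσ2 : 0 < σ ^ 2 := by positivity
    have e : ((l9mSc F hF π K kap mu).g 1 u - l9mDil σ ((l9mSc F' hF' π' K' kap' mu).g 1 u)).1
        = fun z => scD 1 F π (K u) z - scD 1 (fun y => σ⁻¹ * F' (σ * y)) (skScL σ⁻¹ π') (K' u / σ ^ 2) z := by
      funext z
      rw [l9cl_twist hF' hσ, mul_div_cancel₀ _ hσ2.ne']
      rfl
    rw [e]
    have hσi : 0 < σ⁻¹ := inv_pos.2 hσ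
    have hadm : ScAdm (2 * a) (skScL σ⁻¹ π') := by
      refine l9cl_adm_mono ?_ (l9cl_scL_adm hσi H'.adm)
      rw [div_inv_eq_mul]
      nlinarith [X.sig_hi]
    have hlen : scLen π = scLen (skScL σ⁻¹ π') := by
      rw [l9cl_scL_len, X.len]
      field_simp
    have hFt : ScN (n + 4) (A (n + 4) * 2 ^ (n + 4)) (deriv (fun y => σ⁻¹ * F' (σ * y))) := by
      rw [l9cl_dil_deriv hF' hσ.ne']
      refine (l9m_N_dil (H'.FN (n + 4)) σ).weaken (mul_le_mul_of_nonneg_left ?_ (hA _))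
      exact pow_le_pow_left₀ (le_trans zero_le_one (le_max_left _ _))
        (max_le (by norm_num) (by rw [abs_of_pos hσ]; exact X.sig_hi)) _
    have hFN : ScN (n + 4) (A (n + 4) * 2 ^ (n + 4)) (deriv F) :=
      (H.FN (n + 4)).weaken (le_mul_of_one_le_right (hA _) (one_le_pow₀ (by norm_num)))
    have key := HU n F _ π (skScL σ⁻¹ π') (A (n + 1) * δ) hF (l9cl_dil_BI hF' hσ.ne') hFN hFt (X.term (n + 1))
      (l9cl_adm_mono (by linarith) H.adm) H.inc hadm (l9cl_scL_inc hσi H'.inc) hlen (K u) (K' u / σ ^ 2)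
      (H.clk.nonneg h0 h1) (H.clk.le_len h0 h1) (div_nonneg (H'.clk.nonneg h0 h1) hσ2.le)
      (by rw [X.len]; exact div_le_div_of_nonneg_right (H'.clk.le_len h0 h1) hσ2.le)
    refine key.weaken ?_
    have h3 := hECn (n + 1)
    calc CU n * (A (n + 1) * δ + (∫ r in (0:ℝ)..scLen π, |scAl π r - scAl (skScL σ⁻¹ π') r|) + |K u - K' u / σ ^ 2|)
        ≤ CU n * (A (n + 1) * δ + C0 * δ + C0 * δ) :=
          mul_le_mul_of_nonneg_left (add_le_add (add_le_add le_rfl X.dist) (X.clk u h0 h1)) (hCU n)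
      _ = δ * E (n + 1) := by simp only [hEdef, Nat.add_sub_cancel]; ring
      _ ≤ δ * Cn (n + 1) := mul_le_mul_of_nonneg_left h3 hδ.le

end Claimed.Agent.R286
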