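import Claimed.Agent.R286.L09.GridE6
import Claimed.Agent.R286.L09.ModCl
import Claimed.Agent.R286.L09.E4S
import Claimed.Agent.R286.LL04.AsmSw

/-!
# Row 286 (S0533), LL Sec. 9, node GRID, file E6S: THE SUPPLIES OF `L09/GridE6` IN THE END FORMS OF THE SIZE HALF OF (E4)      (owner helper120; head of the unit helper60; prefix `l9v`, `L9v`)

CONSUMERS: `L9clClose.dist` (288, `L09/ModCl`), `Q.InE6`, `Q.InB` (11, `L09/E4S`, shape `L9esSb`).
* §1  `l9v_al_pt`: at the times of the chain the step profile is `2 δ`-close to the physical mass profile `l9vA p F`;   `l9v_scL` (`skScL σ⁻¹ = l9vDil σ`);   `l9v_Asm_congr`: below `M` the smoothed profile does not see `ℓ`;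
      **`l9v_dist`**: two smoothed points `q.wTh θ`, `q.wTh θ'`, twist `σ = ℓ / ℓ'`: `∫_0^{len} |al - al~| ≤ 2 (1 + σ) δ M`;   **`l9v_dist_ev`**: at fixed `N`, eventually in `Fs`, `≤ e`.
* §2  `l9v_expM_small`: `C e^{-cM} ≤ x^K`;   `l9v_PtS_ok`;   **`l9v_InE6`**: `L9esSb llBase F fun κ Q hh => Q.InE6 κ hh`.
* §3  `l9v_bo`: `b∘` of the chain against `b_0` of the path.
TEX[LL:exp:prop-low-coefficients]
-/

set_option autoImplicit false

namespace Claimed.Agent.R286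

open MeasureTheory Filter Topology Set

/-! ## 1. the mass profiles of two smoothed points -/

/-- at the times of the chain the step profile is close to the physical mass profile -/
theorem l9v_al_pt {p : LlPt} {F : LlFix} {Ξ δ : ℝ} {ps : List GhPos} (hl : 0 < p.ell) (ha : 0 < p.a)
    (hA : LpqProf (p.Aprof F llBase) Ξ (p.a / p.ell)) (hδ : 0 < δ) (hnet : L9vNet p.a δ ps) {r : ℝ} (h0 : 0 ≤ r)
    (hr : r < scLen (l9vPi p F ps)) : |scAl (l9vPi p F ps) r - l9vA p F r| ≤ 2 * δ ∧ p.ell ^ 2 * r < Ξ := by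
  have hK := l9v_pt_clk (F := F) hl hA
  have hτ : 0 ≤ p.K F llBase p.a := hK.2.trans (hK.1 ⟨le_rfl, ha.le⟩ ⟨ha.le, le_rfl⟩ ha.le)
  have hch := hnet.ch ha.le hτ hK (τ := p.K F llBase p.a)
  unfold l9vPi l9vP at hr ⊢
  rw [l9v_pi_stp] at hr ⊢
  set π := slkPi (skCStp p.a (p.b F llBase) (p.K F llBase) 0 0 ps) with hπ
  have hpe : slcPi p.a (p.K F llBase p.a) (p.K F llBase) 0 ps = π ++ [(p.a, p.K F llBase p.a - 0 - scLen π)] :=
    slc_pi_eq p.a _ (p.b F llBase) (p.K F llBase) ps 0 0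
  have hle : scLen π ≤ p.K F llBase p.a - 0 := slc_stp_len_le ha.le hK le_rfl (p.b F llBase) ps 0 0 hch
  have hrτ : r < p.K F llBase p.a := by linarith
  have key := l9v_sup ha.le hτ hδ hK le_rfl hnet hrτ
  rw [hpe, sc_app_Al_left π _ h0 hr, ← l9v_pt_alK hl hA h0] at key
  refine ⟨key, ?_⟩
  have h1 : llInv (p.Aprof F llBase) (p.a / p.ell) ≤ Ξ := lpq_inv_le_tau hA _ le_rfl
  have h2 : p.ell ^ 2 * p.K F llBase p.a = llInv (p.Aprof F llBase) (p.a / p.ell) := by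
    show p.ell ^ 2 * ((p.ell ^ 2)⁻¹ * llInv (p.Aprof F llBase) (p.a / p.ell)) = _
    field_simp
  have h3 : p.ell ^ 2 * r < p.ell ^ 2 * p.K F llBase p.a := mul_lt_mul_of_pos_left hrτ (by positivity)
  linarith

theorem l9v_scL {σ : ℝ} (π : List (ℝ × ℝ)) : skScL σ⁻¹ π = l9vDil σ π := by
  unfold skScL l9vDil
  apply List.map_congr_left
  intro p _
  rw [div_inv_eq_mul, mul_comm, inv_pow, div_eq_inv_mul]

/-- below `M` the smoothed profile does not see the size -/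
theorem l9v_Asm_congr (q : LlPt) (F : LlFix) (𝔹 : LlBase) (hsm : q.sm = true) (θ θ' : ℝ) {ξ : ℝ} (hξ : ξ < q.M) :
    (q.wTh θ').Aprof F 𝔹 ξ = (q.wTh θ).Aprof F 𝔹 ξ := by
  have e1 : (q.wTh θ).sm = true := hsm
  have e2 : (q.wTh θ').sm = true := hsm
  have m1 : ¬ (q.wTh θ).M ≤ ξ := not_le.2 hξ
  have m2 : ¬ (q.wTh θ').M ≤ ξ := not_le.2 hξ
  unfold LlPt.Aprof
  rw [e1, e2]
  simp only [if_true]
  unfold LlPt.Asm
  rw [if_neg m1, if_neg m2]
  rfl

/-- **SIZE `dist`** (field of `L9clClose`, 288): the continuum profiles coincide below `M`, only the net errors are left -/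
theorem l9v_dist {q : LlPt} {F : LlFix} {θ θ' δ : ℝ} {ps ps' : List GhPos} (hsm : q.sm = true)
    (hA : LpqProf ((q.wTh θ).Aprof F llBase) q.M ((q.wTh θ).a / (q.wTh θ).ell))
    (hA' : LpqProf ((q.wTh θ').Aprof F llBase) q.M ((q.wTh θ').a / (q.wTh θ').ell)) (hθ : 0 ≤ θ) (hδ : 0 < δ)
    (hnet : L9vNet (q.wTh θ).a δ ps) (hnet' : L9vNet (q.wTh θ').a δ ps')
    (hlen : scLen (l9vPi (q.wTh θ) F ps) = scLen (l9vPi (q.wTh θ') F ps') / Real.exp ((θ - θ') / 6) ^ 2) :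
    ∫ r in (0 : ℝ)..scLen (l9vPi (q.wTh θ) F ps),
        |scAl (l9vPi (q.wTh θ) F ps) r - scAl (skScL (Real.exp ((θ - θ') / 6))⁻¹ (l9vPi (q.wTh θ') F ps')) r|
      ≤ 2 * (1 + Real.exp ((θ - θ') / 6)) * δ * q.M := by
  set p := q.wTh θ with hp
  set p' := q.wTh θ' with hp'
  set σ := Real.exp ((θ - θ') / 6) with hσd
  have hσ : 0 < σ := Real.exp_pos _
  have hl : p.ell = Real.exp (θ / 6) := rfl
  have hl' : p'.ell = Real.exp (θ' / 6) := rfl
  have hl0 : 0 < p.ell := by rw [hl]; exact Real.exp_pos _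
  have hl0' : 0 < p'.ell := by rw [hl']; exact Real.exp_pos _
  have hl1 : 1 ≤ p.ell := by rw [hl]; exact Real.one_le_exp (by positivity)
  have hσl : σ * p'.ell = p.ell := by
    rw [hσd, hl, hl', ← Real.exp_add]
    congr 1
    ring
  have ha : p.a = 4 := by simp [LlPt.a, hp, LlPt.wTh, hsm]
  have ha' : p'.a = 4 := by simp [LlPt.a, hp', LlPt.wTh, hsm]
  have ha0 : 0 < p.a := by rw [ha]; norm_num
  have ha0' : 0 < p'.a := by rw [ha']; norm_num
  set π := l9vPi p F ps with hπ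
  set π' := l9vPi p' F ps' with hπ'
  rw [l9v_scL]
  have hM : 0 ≤ q.M := hA.tau
  by_cases hlen0 : 0 ≤ scLen π
  swap
  · -- impossible, but harmless
    exfalso
    apply hlen0
    have hK := l9v_pt_clk (F := F) hl0 hA
    have hτ : 0 ≤ p.K F llBase p.a := hK.2.trans (hK.1 ⟨le_rfl, ha0.le⟩ ⟨ha0.le, le_rfl⟩ ha0.le)
    have hpos : ScPos π := by
      rw [hπ]
      unfold l9vPi l9vP
      rw [l9v_pi_stp]
      exact slk_pos (slc_dh_nonneg ha0.le hK le_rfl _ ps 0 0 (hnet.ch ha0.le hτ hK))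
    exact sc_len_nonneg hpos
  have hpt : ∀ r ∈ Ioo 0 (scLen π), |scAl π r - scAl (l9vDil σ π') r| ≤ 2 * (1 + σ) * δ := by
    intro r hr
    obtain ⟨a1, a2⟩ := l9v_al_pt hl0 ha0 hA hδ hnet hr.1.le hr.2
    have hr' : σ ^ 2 * r < scLen π' := by
      have := hr.2
      rw [hlen, lt_div_iff₀ (by positivity)] at this
      linarith
    obtain ⟨b1, -⟩ := l9v_al_pt hl0' ha0' hA' hδ hnet' (by have := hr.1; positivity : 0 ≤ σ ^ 2 * r) hr'
    have e1 : scAl (l9vDil σ π') r = σ * scAl π' (σ ^ 2 * r) := by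
      have := l9v_Al hσ π' (σ ^ 2 * r)
      rwa [mul_div_cancel_left₀ _ (by positivity : σ ^ 2 ≠ 0)] at this
    have e2 : σ * l9vA p' F (σ ^ 2 * r) = l9vA p F r := by
      unfold l9vA l9vPr
      have e3 : p'.ell ^ 2 * (σ ^ 2 * r) = p.ell ^ 2 * r := by rw [← hσl]; ring
      rw [e3, l9v_Asm_congr q F llBase hsm θ θ' a2, ← mul_assoc, hσl]
    rw [e1]
    rw [← e2] at a1
    have b2 : |σ * scAl π' (σ ^ 2 * r) - σ * l9vA p' F (σ ^ 2 * r)| ≤ σ * (2 * δ) := by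
      rw [← mul_sub, abs_mul, abs_of_pos hσ]
      exact mul_le_mul_of_nonneg_left b1 hσ.le
    calc |scAl π r - σ * scAl π' (σ ^ 2 * r)|
        ≤ |scAl π r - σ * l9vA p' F (σ ^ 2 * r)| + |σ * l9vA p' F (σ ^ 2 * r) - σ * scAl π' (σ ^ 2 * r)| := abs_sub_le _ _ _
      _ ≤ 2 * δ + σ * (2 * δ) := add_le_add a1 (by rw [abs_sub_comm]; exact b2)
      _ = 2 * (1 + σ) * δ := by ring
  have hlenM : scLen π ≤ q.M := by
    by_contra hcon
    have hlt : q.M < scLen π := not_le.1 hcon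
    obtain ⟨-, a2⟩ := l9v_al_pt hl0 ha0 hA hδ hnet hM hlt
    nlinarith [one_le_pow₀ hl1 (n := 2)]
  have hii : IntervalIntegrable (fun r => |scAl π r - scAl (l9vDil σ π') r|) volume 0 (scLen π) := scq_Al_ii _ _ _ _
  calc ∫ r in (0 : ℝ)..scLen π, |scAl π r - scAl (l9vDil σ π') r|
      ≤ ∫ _r in (0 : ℝ)..scLen π, 2 * (1 + σ) * δ :=
        intervalIntegral.integral_mono_on_of_le_Ioo hlen0 hii (by simp) hpt
    _ = scLen π * (2 * (1 + σ) * δ) := by rw [intervalIntegral.integral_const, sub_zero, smul_eq_mul]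
    _ ≤ q.M * (2 * (1 + σ) * δ) := mul_le_mul_of_nonneg_right hlenM (by positivity)
    _ = _ := by ring

/-- **SIZE `dist`, EVENTUAL FORM** at fixed `N`: signed step `hh`, twist `σ = e^{-hh/6}`; the horizons (`len`: 47) are a hypothesis -/
theorem l9v_dist_ev (F : LlFix) (N : ℕ) {e : ℝ} (he : 0 < e) : ∀ᶠ Fs : Finset GhPos in atTop, ∀ (s : ℝ) (m : ℕ) (q : LlPt) (θ hh : ℝ),
    q.N = N → q.sm = true → 0 ≤ θ → -1 ≤ hh →
    LpqProf ((q.wTh θ).Aprof F llBase) q.M ((q.wTh θ).a / (q.wTh θ).ell) →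
    LpqProf ((q.wTh (θ + hh)).Aprof F llBase) q.M ((q.wTh (θ + hh)).a / (q.wTh (θ + hh)).ell) →
    scLen ((⟨F, llBase, s, Fs, m⟩ : L9I).pi (q.wTh θ)) = scLen ((⟨F, llBase, s, Fs, m⟩ : L9I).pi (q.wTh (θ + hh))) / Real.exp (-hh / 6) ^ 2 →
    ∫ r in (0 : ℝ)..scLen ((⟨F, llBase, s, Fs, m⟩ : L9I).pi (q.wTh θ)),
        |scAl ((⟨F, llBase, s, Fs, m⟩ : L9I).pi (q.wTh θ)) r
          - scAl (skScL (Real.exp (-hh / 6))⁻¹ ((⟨F, llBase, s, Fs, m⟩ : L9I).pi (q.wTh (θ + hh)))) r| ≤ e := by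
  set p0 : LlPt := ⟨N, 1, 1, 0, fun _ => 0, 0, 0, false⟩ with hp0
  obtain ⟨k, hk⟩ := slc_pow_small (C := 24 * |p0.M|) he
  filter_upwards [eventually_ge_atTop (ghGrid 4 k)] with Fs hFs s m q θ hh hN hsm hθ hh1 hA hA' hlen
  have es : (θ - (θ + hh)) / 6 = -hh / 6 := by ring
  have ha : (q.wTh θ).a = 4 := by simp [LlPt.a, LlPt.wTh, hsm]
  have ha' : (q.wTh (θ + hh)).a = 4 := by simp [LlPt.a, LlPt.wTh, hsm]
  have key := l9v_dist (F := F) (θ := θ) (θ' := θ + hh) (δ := 4 / 2 ^ k) (ps := ghPs (q.wTh θ).a (l9Fl Fs)) (ps' := ghPs (q.wTh (θ + hh)).a (l9Fl Fs))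
    hsm hA hA' hθ (by positivity) (l9v_net_ps (by norm_num) k (l9_fl_grid hFs) ha.le) (l9v_net_ps (by norm_num) k (l9_fl_grid hFs) ha'.le)
    (by rw [es]; exact hlen)
  rw [es] at key
  refine key.trans ?_
  have hσ : Real.exp (-hh / 6) ≤ 2 := by
    have := l9v_exp_le_two (w := 1 / 6) (h := -hh) (by norm_num) (by norm_num) (by linarith)
    rwa [show (1 / 6 : ℝ) * -hh = -hh / 6 by ring] at this
  have hM : q.M = p0.M := l9v_M_congr hN
  have hM0 : 0 ≤ q.M := hA.tau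
  have h2 : (0 : ℝ) < 4 / 2 ^ k := by positivity
  calc 2 * (1 + Real.exp (-hh / 6)) * (4 / 2 ^ k) * q.M ≤ 2 * (1 + 2) * (4 / 2 ^ k) * q.M := by gcongr
    _ = 24 * |p0.M| / 2 ^ k := by rw [← hM, abs_of_nonneg hM0]; ring
    _ ≤ e := hk.le

/-! ## 2. (E6) in the shape of the size half -/

/-- `C e^{-cM} ≤ x^K` for large `N` -/
theorem l9v_expM_small {c : ℝ} (hc : 0 < c) (C K : ℝ) : ∃ N0 : ℕ, ∀ p : LlPt, N0 ≤ p.N → C * Real.exp (-c * p.M) ≤ p.x ^ K := by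
  have hlim : Tendsto (fun N : ℕ => 1 / 6 * Real.log (N : ℝ)) atTop atTop :=
    (Real.tendsto_log_atTop.comp tendsto_natCast_atTop_atTop).const_mul_atTop (by norm_num)
  obtain ⟨N0, hN0⟩ := eventually_atTop.1 (hlim.eventually_ge_atTop (max 1 ((|K| + |C|) / c)))
  refine ⟨max N0 1, fun p hN => ?_⟩
  have hN1 : 1 ≤ p.N := (le_max_right _ _).trans hN
  have hNpos : (0 : ℝ) < p.N := by exact_mod_cast hN1
  have hL := hN0 p.N ((le_max_left _ _).trans hN)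
  set L : ℝ := 1 / 6 * Real.log (p.N : ℝ) with hLd
  have hL1 : 1 ≤ L := (le_max_left _ _).trans hL
  have hL2 : |K| + |C| ≤ c * L := by
    have := (le_max_right _ _).trans hL
    rwa [div_le_iff₀ hc, mul_comm] at this
  have hx : p.x = Real.exp (-L) := by
    unfold LlPt.x
    rw [Real.rpow_def_of_pos hNpos]
    congr 1
    rw [hLd]
    ring
  have hM : p.M = L ^ 3 := by
    unfold LlPt.M
    rw [hx, one_div, ← Real.exp_neg, neg_neg, Real.log_exp]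
  have hxK : p.x ^ K = Real.exp (-L * K) := by
    rw [hx, ← Real.exp_mul]
  rw [hM, hxK]
  have hC : C ≤ Real.exp |C| := (le_abs_self C).trans ((by linarith : |C| ≤ |C| + 1).trans (Real.add_one_le_exp _))
  calc C * Real.exp (-c * L ^ 3) ≤ Real.exp |C| * Real.exp (-c * L ^ 3) := mul_le_mul_of_nonneg_right hC (Real.exp_pos _).le
    _ = Real.exp (|C| + -c * L ^ 3) := by rw [Real.exp_add]
    _ ≤ Real.exp (-L * K) := by
        apply Real.exp_le_exp.2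
        have h1 : (|K| + |C|) * L ≤ c * L * L ^ 2 := by
          have : (|K| + |C|) * L ≤ c * L * L := mul_le_mul_of_nonneg_right hL2 (by linarith)
          have h3 : c * L * L ≤ c * L * L ^ 2 := by
            apply mul_le_mul_of_nonneg_left _ (by positivity)
            nlinarith
          linarith
        have h2 : -L * K ≥ -(|K| * L) := by nlinarith [le_abs_self K, neg_abs_le K]
        have h3 : |C| ≤ |C| * L := le_mul_of_one_le_right (abs_nonneg _) hL1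
        nlinarith

theorem l9v_PtS_ok (F : LlFix) (hp : F.pS ≤ 12) {N : ℕ} (hN : 2 ≤ N) (γ : Fin (N + 1) → ℝ) {θ : ℝ} (hθ : θ ∈ Icc 0 (Real.log 2)) :
    (l9PtS F N γ θ).Ok F := by
  have h := ll04w_ok F hp hN (Θ := Real.log 2) ⟨Real.log_nonneg (by norm_num), le_rfl⟩ γ θ
  have e : ll04Siz F N (Real.log 2) γ θ = l9PtS F N γ θ := by
    unfold ll04Siz l9PtS
    rw [ll04w_U_of_mem hθ]
  rwa [e] at h

theorem l9v_log2_le_one : Real.log 2 ≤ 1 := by
  have := Real.log_two_lt_d9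
  linarith

/-- **PRODUCER of `Q.InE6`** (11, `L09/E4S`) -/
theorem l9v_InE6 {F : LlFix} {c C v0 ξ0 : ℝ} {R0 : ℕ} (hp12 : F.pS ≤ 12) (hc : 0 < c) (hR0 : 4 ≤ R0) (hreg : LlRegT llBase F c C v0 ξ0 R0)
    (hprof : LlUnif F fun p => LpqProf (p.Aprof F llBase) (if p.sm then p.M else llBase.xiS F.T) (p.a / p.ell)) :
    L9esSb llBase F fun κ Q hh => Q.InE6 κ hh := by
  intro Kη _
  obtain ⟨N1, hN1⟩ := hreg
  obtain ⟨N2, hN2⟩ := hprof
  obtain ⟨N3, hN3⟩ := l9v_expM_small hc (4 * C) Kη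
  refine ⟨max (max N1 N2) (max N3 2), fun N hN => ⟨1, one_pos, fun h0 hh0 hh1 => ?_⟩⟩
  have g1 : N1 ≤ N := ((le_max_left _ _).trans (le_max_left _ _)).trans hN
  have g2 : N2 ≤ N := ((le_max_right _ _).trans (le_max_left _ _)).trans hN
  have g3 : N3 ≤ N := ((le_max_left _ _).trans (le_max_right _ _)).trans hN
  have g4 : 2 ≤ N := ((le_max_right _ _).trans (le_max_right _ _)).trans hN
  have hx : 0 < skX N := Real.rpow_pos_of_pos (by exact_mod_cast (by omega : 0 < N)) _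
  have hκ : 0 < skX N ^ Kη := Real.rpow_pos_of_pos hx _
  filter_upwards [l9v_evF F N (η := h0 * skX N ^ Kη / 6) (by positivity)] with Fs hFs s m γ θ hh hθ hθ' hhe _
  have h00 : (0 : ℝ) ∈ Icc 0 (Real.log 2) := ⟨le_rfl, Real.log_nonneg (by norm_num)⟩
  set p0 := l9PtS F N γ 0 with hp0
  have ok0 := l9v_PtS_ok F hp12 g4 γ h00
  have ok1 := l9v_PtS_ok F hp12 g4 γ hθ
  have ok2 := l9v_PtS_ok F hp12 g4 γ hθ'
  have hV : L9vV (p0.wTh θ) F (ghPs (p0.wTh θ).a (l9Fl Fs)) (h0 * skX N ^ Kη / 6) := hFs (l9PtS F N γ θ) rfl ok1 (hN2 _ ok1 g2)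
  have hV' : L9vV (p0.wTh (θ + hh)) F (ghPs (p0.wTh (θ + hh)).a (l9Fl Fs)) (h0 * skX N ^ Kη / 6) :=
    hFs (l9PtS F N γ (θ + hh)) rfl ok2 (hN2 _ ok2 g2)
  have reg := hN1 p0 ok0 g1 rfl θ hθ (θ + hh) hθ'
  have hhp : 0 < |hh| := by rw [hhe]; exact hh0
  have hC : 0 ≤ C := by
    have h1 := (abs_nonneg _).trans (reg.jet 1 le_rfl (by omega))
    rw [add_sub_cancel_left] at h1
    by_contra hcon
    have : C * Real.exp (-c * p0.M) * |hh| < 0 :=
      mul_neg_of_neg_of_pos (mul_neg_of_neg_of_pos (not_le.1 hcon) (Real.exp_pos _)) hhp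
    linarith
  obtain ⟨e1, e2⟩ := l9v_e6_I (s := s) (m := m) hR0 hC reg hV hV' ((le_abs_self hh).trans (by rw [hhe]; exact hh1))
    (hθ'.2.trans l9v_log2_le_one)
  have hsm : 4 * C * Real.exp (-c * p0.M) ≤ skX N ^ Kη := hN3 p0 g3
  have hbd : 3 * (h0 * skX N ^ Kη / 6) + 2 * (C * Real.exp (-c * p0.M)) * |hh| ≤ |hh| * skX N ^ Kη := by
    rw [hhe]
    nlinarith
  refine ⟨?_, ?_, ?_⟩
  · show |(((⟨F, llBase, s, Fs, m⟩ : L9I).ref (l9PtS F N γ (θ + hh))).g 2 0).1 0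
      - Real.exp (1 / 6 * hh) * (((⟨F, llBase, s, Fs, m⟩ : L9I).ref (l9PtS F N γ θ)).g 2 0).1 0| ≤ _
    rw [l9v_ref_jet _ _ (by norm_num), l9v_ref_jet _ _ (by norm_num)]
    exact e1.trans hbd
  · show |(((⟨F, llBase, s, Fs, m⟩ : L9I).ref (l9PtS F N γ (θ + hh))).g 4 0).1 0
      - Real.exp (1 / 2 * hh) * (((⟨F, llBase, s, Fs, m⟩ : L9I).ref (l9PtS F N γ θ)).g 4 0).1 0| ≤ _
    rw [l9v_ref_jet _ _ (by norm_num), l9v_ref_jet _ _ (by norm_num)]
    exact e2.trans hbd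
  · show |((⟨F, llBase, s, Fs, m⟩ : L9I).ref (l9PtS F N γ (θ + hh))).kap 0
      - Real.exp (-(1 / 2) * hh) * ((⟨F, llBase, s, Fs, m⟩ : L9I).ref (l9PtS F N γ θ)).kap 0| ≤ _
    have e3 := l9ph_ref_kap0_scale (⟨F, llBase, s, Fs, m⟩ : L9I) (l9PtS F N γ θ) (l9PtS F N γ (θ + hh)) hh rfl (by
        show Real.exp ((θ + hh) / 6) = Real.exp (hh / 6) * Real.exp (θ / 6)
        rw [← Real.exp_add]
        congr 1
        ring)
    have e4 : -(1 / 2) * hh = -hh / 2 := by ring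
    rw [e3, e4, sub_self, abs_zero]
    positivity

/-! ## 3. `b∘` of the chain against `b_0` of the path -/

/-- `b∘ = χ⁻²` of the chain is close to `b_0 = 1 / Γ'(0)` of the path -/
theorem l9v_bo {p : LlPt} {F : LlFix} {c C v0 η : ℝ} {ps : List GhPos} (hc : 0 < c) (href : p.Ref F llBase c C v0)
    (hV : L9vV p F ps η) (hη : 4 * C * η ^ 2 ≤ 1) :
    |((scD 2 (scLC p.a) (l9vPi p F ps) 0 0) ^ 2)⁻¹ - p.b0 F llBase| ≤ 4 * C ^ 2 * (η * (1 + 1 / c + η)) := by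
  have hX := l9v_chi hc href hV hη
  have a1 := hV.jet 0 hV.zero_mem 2 (by norm_num) (by norm_num) 0
  have a2 := href.v2
  rw [iteratedDeriv_eq_iterate] at a2
  have hη0 := hV.eta_nonneg
  have hb0 : 0 < p.b0 F llBase := hc.trans_le href.b0_lo
  have hC : 0 < C := hb0.trans_le href.b0_hi
  have hG : p.Gam1 F llBase 0 * p.b0 F llBase = 1 := by
    have hne : p.Gam1 F llBase 0 ≠ 0 := by
      intro h0
      unfold LlPt.b0 at hb0
      rw [h0] at hb0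
      simp at hb0
    unfold LlPt.b0
    field_simp
  set X := scD 2 (scLC p.a) (l9vPi p F ps) 0 0
  set v := deriv^[2] (fun z => p.V F llBase 0 z) 0
  set b := p.b0 F llBase
  have a1' : |X - v| ≤ η := a1
  have hvb : v ^ 2 * b = 1 := by rw [a2]; exact hG
  have hX2 : 0 < X ^ 2 := by
    rcases (sq_nonneg X).lt_or_eq with h | h
    · exact h
    · rw [← h] at hX
      norm_num at hX
  have hinv : (X ^ 2)⁻¹ ≤ 4 * C := by
    rw [inv_le_iff_one_le_mul₀ hX2]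
    linarith
  -- `v² ≤ 1/c`
  have hv2 : v ^ 2 ≤ 1 / c := by
    rw [le_div_iff₀ hc]
    have : v ^ 2 * c ≤ v ^ 2 * b := mul_le_mul_of_nonneg_left href.b0_lo (sq_nonneg v)
    linarith
  have hv : 2 * |v| ≤ 1 + 1 / c := by nlinarith [sq_nonneg (|v| - 1), sq_abs v]
  have hXv : |X + v| ≤ 1 + 1 / c + η := by
    have : X + v = (X - v) + 2 * v := by ring
    rw [this]
    refine (abs_add_le _ _).trans ?_
    rw [abs_mul, abs_two]
    linarith
  have key : (X ^ 2)⁻¹ - b = (X ^ 2)⁻¹ * b * ((v - X) * (X + v)) := by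
    have e1 : (v - X) * (X + v) = v ^ 2 - X ^ 2 := by ring
    rw [e1, mul_sub]
    have e2 : (X ^ 2)⁻¹ * b * v ^ 2 = (X ^ 2)⁻¹ := by rw [mul_assoc, mul_comm b, hvb, mul_one]
    have e3 : (X ^ 2)⁻¹ * b * X ^ 2 = b := by
      rw [mul_comm ((X ^ 2)⁻¹) b, mul_assoc, inv_mul_cancel₀ hX2.ne', mul_one]
    rw [e2, e3]
  rw [key, abs_mul, abs_mul, abs_mul, abs_of_pos (inv_pos.2 hX2), abs_of_pos hb0, abs_sub_comm v X]
  calc (X ^ 2)⁻¹ * b * (|X - v| * |X + v|) ≤ 4 * C * C * (η * (1 + 1 / c + η)) := by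
        apply mul_le_mul (mul_le_mul hinv href.b0_hi hb0.le (by positivity))
          (mul_le_mul a1' hXv (abs_nonneg _) hη0) (by positivity) (by positivity)
    _ = _ := by ring

/-- **`b∘` against `b_0`, EVENTUAL FORM** at fixed `N` (`Q.boAt p = (((Q.I.ref p).g 2 0).1 0 ^ 2)⁻¹`) -/
theorem l9v_bo_ev (F : LlFix) (N : ℕ) {c C v0 e : ℝ} (hc : 0 < c) (he : 0 < e) : ∀ᶠ Fs : Finset GhPos in atTop,
    ∀ (s : ℝ) (m : ℕ) (p : LlPt), p.N = N → p.Ok F →
      LpqProf (p.Aprof F llBase) (if p.sm then p.M else llBase.xiS F.T) (p.a / p.ell) → p.Ref F llBase c C v0 →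
      |(((((⟨F, llBase, s, Fs, m⟩ : L9I).ref p).g 2 0).1 0) ^ 2)⁻¹ - p.b0 F llBase| ≤ e := by
  set D : ℝ := 4 * C ^ 2 * (2 + 1 / c) + 1 with hD
  have hD0 : 0 < D := by positivity
  set η : ℝ := min (min 1 (e / D)) (1 / (2 * (|C| + 1))) with hηd
  have hη : 0 < η := lt_min (lt_min one_pos (by positivity)) (by positivity)
  filter_upwards [l9v_evF F N hη] with Fs hFs s m p hN hp hA href
  rw [l9v_ref_jet _ _ (by norm_num)]
  have h1 : η ≤ 1 := (min_le_left _ _).trans (min_le_left _ _)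
  have h2 : η ≤ e / D := (min_le_left _ _).trans (min_le_right _ _)
  have h3 : η ≤ 1 / (2 * (|C| + 1)) := min_le_right _ _
  have hsq : 4 * C * η ^ 2 ≤ 1 := by
    have hC1 : C ≤ |C| := le_abs_self C
    have hC0 := abs_nonneg C
    have e1 : η ^ 2 ≤ (1 / (2 * (|C| + 1))) ^ 2 := pow_le_pow_left₀ hη.le h3 2
    have e2 : 4 * |C| * (1 / (2 * (|C| + 1))) ^ 2 = |C| / (|C| + 1) ^ 2 := by
      field_simp
      ring
    have e3 : |C| / (|C| + 1) ^ 2 ≤ 1 := by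
      rw [div_le_one (by positivity)]
      nlinarith
    calc 4 * C * η ^ 2 ≤ 4 * |C| * η ^ 2 := by gcongr
      _ ≤ 4 * |C| * (1 / (2 * (|C| + 1))) ^ 2 := by gcongr
      _ ≤ 1 := by rw [e2]; exact e3
  refine (l9v_bo hc href (hFs p hN hp hA) hsq).trans ?_
  have hc' : 0 < 1 / c := by positivity
  calc 4 * C ^ 2 * (η * (1 + 1 / c + η)) ≤ 4 * C ^ 2 * (η * (1 + 1 / c + 1)) := by gcongr
    _ = 4 * C ^ 2 * (2 + 1 / c) * η := by ring
    _ ≤ D * η := by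
        apply mul_le_mul_of_nonneg_right _ hη.le
        rw [hD]
        linarith
    _ ≤ D * (e / D) := by gcongr
    _ = e := by field_simp

end Claimed.Agent.R286
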