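import Claimed.Agent.R286.L09.PhysI
import Claimed.Agent.R286.L09.ModCl

/-!
# Row 286 (S0533), LL 09, PHYSICAL LAYER of INST[L14Calc], CLOCK PART, file 4: TWO PATH POINTS      (owner helper47; prefix `l9ph`, `L9ph`)

The clock debts of the closeness of two references (`L9mClose`, 288's `L09/ModCl.lean`, exit `ModClX`):
* §1 filled clocks: `l9ph_cellK`, `l9ph_fill_le` (`0 ≤ K_f(u) ≤ C u`), `l9ph_fill_pair` (`|K_f(u) - K_f'(u)| ≤ C δ u`);
* §2 lengths: `l9ph_pi_len`: the length of the profile of a chain is the clock at its last position;   `l9ph_I_len`: `scLen (I.pi p) = ℓ⁻² M` (smoothed), `ℓ⁻² ξ_*` (direct);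
* §3 the twist `σ = ℓ/ℓ'` (`l9ph_sig`);   `L9phCl` = the SEVEN fields of `L9clClose` (288) owed by the clock part (`sig_lo sig_hi sig dkap dkap_lip len clk`), `L9phCl.close` (+ `term`, `dist` ⟹ `L9clClose`);   `l9ph_pair_cl` at two path points;
* §5 the two families: `l9ph_ptS_pair` (size: `σ = e^{-(θ'-θ)/6}`, `δ = |θ'-θ|`), `l9ph_ptL_pair` (strength: `σ = 1`, `δ = |e^t - e^t'|`);
* §6 `l9ph_unif_prof`: `LpqProf` of the profile in use at every path point, from `LlDirProf` (P-list form of `lce_unif_prof`);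
* §4 EXIT `l9ph_main2`: `L9mScHyp` at every point (given `chi`) and `L9phCl` at every pair of points with the same `a, sm, N`, with ONE set of constants `A, C, c0, N0`.
TEX[LL:exp:prop-low-coefficients]
-/

set_option autoImplicit false

namespace Claimed.Agent.R286

open MeasureTheory Set Filter Topology

/-! ## 1. filled clocks -/

section fill

variable {K : ℝ → ℝ} {k0 c C v2 c0 eps : ℝ} {π : List (ℝ × ℝ)}

/-- the filled clock in the cell of a label `0 < u ≤ c0` -/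
theorem l9ph_cellK (hs : L9phSamp K v2 0 π) (hn : L9phNet (π.map Prod.fst) c0 eps) (hc : c0 + eps ≤ v2) (u : ℝ) (h0 : 0 < u)
    (hu : u ≤ c0) : ∃ lo hi : ℝ, lo = l9phLo (π.map Prod.fst) 0 u ∧ hi = l9phMu (π.map Prod.fst) u ∧ 0 ≤ lo ∧ lo < u ∧ u ≤ hi ∧
      hi ≤ u + eps ∧ hi ≤ v2 ∧ l9phK π 0 u = (K lo - K 0) + (K hi - K lo) / (hi - lo) * (u - lo) := by
  have h1 := l9ph_mu_le' hs hn u h0.le hu
  obtain ⟨m, hm, g1, -⟩ := hn u h0.le hu
  obtain ⟨q, hq, rfl⟩ := List.mem_map.1 hm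
  refine ⟨_, _, rfl, rfl, l9ph_lo_ge π 0 u (L9phSamp.fill hs), l9ph_lo_lt _ 0 u h0, l9ph_mu_ge' hn u h0.le hu, h1, by linarith, ?_⟩
  rw [l9ph_K_eq π 0 u hs ⟨q, hq, g1⟩ (by linarith), l9ph_kap_eq π 0 u hs ⟨q, hq, g1⟩ (by linarith)]

theorem l9ph_fill_le (hK : L9phK2 K k0 c C v2) (hc0 : 0 ≤ c) (hs : L9phSamp K v2 0 π) (hn : L9phNet (π.map Prod.fst) c0 eps)
    (hc : c0 + eps ≤ v2) (u : ℝ) (h0 : 0 ≤ u) (hu : u ≤ c0) : 0 ≤ l9phK π 0 u ∧ l9phK π 0 u ≤ C * u := by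
  refine ⟨l9ph_K_nonneg π 0 (L9phSamp.fill hs) u h0, ?_⟩
  rcases h0.eq_or_lt with rfl | h0
  · rw [l9ph_K_at_lo π 0 _ (L9phSamp.fill hs), mul_zero]
  obtain ⟨lo, hi, -, -, g0, g1, g2, g3, g4, e⟩ := l9ph_cellK hs hn hc u h0 hu
  have hd : 0 < hi - lo := by linarith
  have a1 := hK.hi 0 lo le_rfl g0 (by linarith)
  have a2 := hK.hi lo hi g0 (by linarith) g4
  have a3 : (K hi - K lo) / (hi - lo) ≤ C := by rw [div_le_iff₀ hd]; exact a2
  have a4 : (K hi - K lo) / (hi - lo) * (u - lo) ≤ C * (u - lo) := mul_le_mul_of_nonneg_right a3 (by linarith)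
  rw [e]
  linarith

end fill

/-- **two filled clocks on the same masses** -/
theorem l9ph_fill_pair {K K' : ℝ → ℝ} {k0 k0' C v2 c0 eps δ : ℝ} {π π' : List (ℝ × ℝ)} (hP : L9phK2P K K' k0 k0' C v2 δ)
    (hs : L9phSamp K v2 0 π) (hs' : L9phSamp K' v2 0 π') (hm : π'.map Prod.fst = π.map Prod.fst)
    (hn : L9phNet (π.map Prod.fst) c0 eps) (hc : c0 + eps ≤ v2) (u : ℝ) (h0 : 0 ≤ u) (hu : u ≤ c0) :
    |l9phK π 0 u - l9phK π' 0 u| ≤ C * δ * u := by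
  rcases h0.eq_or_lt with rfl | h0
  · rw [l9ph_K_at_lo π 0 _ (L9phSamp.fill hs), l9ph_K_at_lo π' 0 _ (L9phSamp.fill hs')]; simp
  obtain ⟨lo, hi, l1, l2, g0, g1, g2, g3, g4, e⟩ := l9ph_cellK hs hn hc u h0 hu
  obtain ⟨lo', hi', l1', l2', -, -, -, -, -, e'⟩ := l9ph_cellK hs' (hm ▸ hn) hc u h0 hu
  rw [hm] at l1' l2'
  obtain rfl : lo' = lo := l1'.trans l1.symm
  obtain rfl : hi' = hi := l2'.trans l2.symm
  have hd : 0 < hi' - lo' := by linarith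
  have a1 := hP.one 0 lo' le_rfl g0 (by linarith)
  have a2 := hP.one lo' hi' g0 (by linarith) g4
  have a3 : |(K hi' - K lo') / (hi' - lo') - (K' hi' - K' lo') / (hi' - lo')| ≤ C * δ := by
    rw [← sub_div, abs_div, abs_of_pos hd, div_le_iff₀ hd]; exact a2
  have e1 : (K lo' - K 0 + (K hi' - K lo') / (hi' - lo') * (u - lo')) - (K' lo' - K' 0 + (K' hi' - K' lo') / (hi' - lo') * (u - lo')) =
      ((K lo' - K 0) - (K' lo' - K' 0)) + ((K hi' - K lo') / (hi' - lo') - (K' hi' - K' lo') / (hi' - lo')) * (u - lo') := by ring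
  rw [e, e', e1]
  refine (abs_add_le _ _).trans ?_
  rw [abs_mul, abs_of_pos (by linarith : 0 < u - lo')]
  have a4 := mul_le_mul_of_nonneg_right a3 (by linarith : 0 ≤ u - lo')
  rw [sub_zero] at a1
  linarith

/-! ## 2. lengths -/

theorem l9ph_pi_len {a : ℝ} (ha : 0 ≤ a) {K : ℝ → ℝ} (hK : GhClk1 a K) :
    ∀ (ps : List GhPos) (c : ℝ), ps.Pairwise (· ≤ ·) → (∀ q ∈ ps, q.Ok a) → (∀ q ∈ ps, c ≤ ghAt a K q) → c ≤ K a →
      scLen (l9phPi a K c ps) ≤ K a - c ∧ 0 ≤ scLen (l9phPi a K c ps) ∧ ∀ q ∈ ps, ghAt a K q - c ≤ scLen (l9phPi a K c ps)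
  | [], c, _, _, _, hc => ⟨by simpa [l9phPi, scLen] using hc, by simp [l9phPi, scLen], fun q hq => absurd hq List.not_mem_nil⟩
  | p :: ps, c, h1, h2, h4, _ => by
      rw [List.pairwise_cons] at h1
      have hp := h2 p List.mem_cons_self
      have htop : ghAt a K p ≤ K a := by
        have := gh_os_at_le_top ha hK hp
        rwa [gh_os_at_top a K ha] at this
      obtain ⟨i1, i2, i3⟩ := l9ph_pi_len ha hK ps (ghAt a K p) h1.2 (fun q hq => h2 q (List.mem_cons_of_mem _ hq))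
        (fun q hq => gh_os_at_mono ha hK hp.2.2.2 (h2 q (List.mem_cons_of_mem _ hq)).2.2.1 (h1.1 q hq)) htop
      have hc := h4 p List.mem_cons_self
      simp only [l9phPi, scLen]
      refine ⟨by linarith, by linarith, fun q hq => ?_⟩
      rcases List.mem_cons.1 hq with rfl | hq
      · linarith
      · have := i3 q hq
        linarith

/-- the length of the profile of a chain which reaches the top of the clock -/
theorem l9ph_I_len_of (I : L9I) {p : LlPt} (hp : p.Ok I.F) (hclk : GhClk1 p.a (p.K I.F I.𝔹))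
    (hq : ∃ q ∈ I.ps p, p.K I.F I.𝔹 p.a ≤ ghAt p.a (p.K I.F I.𝔹) q) : scLen (I.pi p) = p.K I.F I.𝔹 p.a := by
  have ha := l9ph_a_mem hp
  have ha0 : 0 ≤ p.a := by linarith
  obtain ⟨i1, -, i3⟩ := l9ph_pi_len ha0 hclk (ghPs p.a (l9Fl I.Fs)) 0 (gh_os_ps_pairwise _ _) (fun q hq => (gh_os_ps_mem.1 hq).2)
    (fun q hq => gh_os_at_nonneg ha0 hclk (gh_os_ps_mem.1 hq).2.2.2.1)
    (hclk.2.trans (hclk.1 ⟨le_rfl, ha0⟩ ⟨ha0, le_rfl⟩ ha0))
  rw [← l9ph_I_pi] at i1 i3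
  obtain ⟨q, hq, hle⟩ := hq
  have := i3 q hq
  linarith

/-- a position above the flat top of the clock reads the top -/
theorem l9ph_at_top {a : ℝ} (ha : 0 ≤ a) {K : ℝ → ℝ} (hK : GhClk1 a K) {vt : ℝ} (h0 : 0 ≤ vt) (hva : vt ≤ a) (hflat : K vt = K a)
    {q : GhPos} (hq : q.Ok a) (hu : vt < q.u) : K a ≤ ghAt a K q := by
  have h1 : ghClamp a K vt = K a := by rw [slc_clamp_eq K h0 hva, hflat]
  rw [← h1]
  exact ((gh_os_clamp_mono ha hK).le_leftLim hu).trans (gh_os_at_ge_left ha hK hq.2.2.1)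

theorem l9ph_grid_top (k : ℕ) : ghPosA 4 ∈ ghGrid 4 k := by
  unfold ghGrid
  refine Finset.mem_image.2 ⟨2 ^ k, Finset.mem_range.2 (by omega), ?_⟩
  congr 1
  push_cast
  field_simp

/-- **the length of the scalar profile of the chain at a path point** -/
theorem l9ph_I_len (I : L9I) {p : LlPt} {eps : ℝ} {k : ℕ} (hp : p.Ok I.F) (hclk : GhClk1 p.a (p.K I.F I.𝔹))
    (hflat : ∀ v, (if p.sm then 4 ≤ v else p.ell * I.𝔹.pTop I.F.T < v) → v ≤ p.a →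
      p.K I.F I.𝔹 v = (p.ell ^ 2)⁻¹ * (if p.sm then p.M else I.𝔹.xiS I.F.T))
    (hpT : 0 ≤ I.𝔹.pTop I.F.T) (he : 0 < eps) (heps : eps < 1 - I.𝔹.pTop I.F.T) (hF : ghGrid 4 k ⊆ I.Fs) (hk : 4 / 2 ^ k ≤ eps) :
    scLen (I.pi p) = (p.ell ^ 2)⁻¹ * (if p.sm then p.M else I.𝔹.xiS I.F.T) := by
  have ha := l9ph_a_mem hp
  have ha0 : 0 ≤ p.a := by linarith
  cases hsm : p.sm with
  | true =>
    have ea : p.a = 4 := by unfold LlPt.a; rw [if_pos hsm]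
    have e1 := hflat p.a (by rw [if_pos hsm, ea]) le_rfl
    rw [hsm] at e1
    rw [← e1]
    refine l9ph_I_len_of I hp hclk ⟨ghPosA 4, gh_os_ps_mem.2 ⟨l9_fl_grid hF (l9ph_grid_top k), ?_⟩, ?_⟩
    · rw [ea]; exact gh_os_posA_ok (by norm_num) le_rfl
    · rw [← ea, gh_os_at_top _ _ ha0]
  | false =>
    have ea : p.a = p.ell := by unfold LlPt.a; rw [hsm]; simp
    have hl1 := hp.ell1
    have hvt : p.ell * I.𝔹.pTop I.F.T < p.a - eps := by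
      rw [ea]; nlinarith
    have e1 := hflat p.a (by rw [hsm]; simp only [Bool.false_eq_true, if_false]; linarith) le_rfl
    have e2 := hflat ((p.ell * I.𝔹.pTop I.F.T + (p.a - eps)) / 2)
      (by rw [hsm]; simp only [Bool.false_eq_true, if_false]; linarith) (by linarith)
    rw [hsm] at e1
    rw [← e1]
    have hn : L9phNet ((ghPs p.a (l9Fl I.Fs)).map GhPos.u) (p.a - eps) eps := l9ph_net (l9_fl_grid hF) hk (by linarith) ha.2
    have hae : 0 ≤ p.a - eps := by linarith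
    obtain ⟨m, hm, g1, -⟩ := hn (p.a - eps) hae le_rfl
    obtain ⟨q, hq, rfl⟩ := List.mem_map.1 hm
    have hp0 : 0 ≤ p.ell * I.𝔹.pTop I.F.T := mul_nonneg (by linarith) hpT
    refine l9ph_I_len_of I hp hclk ⟨q, hq, l9ph_at_top (vt := (p.ell * I.𝔹.pTop I.F.T + (p.a - eps)) / 2) ha0 hclk (by linarith)
      (by linarith) ?_ (gh_os_ps_mem.1 hq).2 (by linarith)⟩
    rw [e2, e1, hsm]

/-! ## 3. the twist; the fields of `L9clClose` owed by the clock part -/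

theorem l9ph_sig {l l' δ : ℝ} (h1 : 1 ≤ l) (h2 : l ≤ 2) (h1' : 1 ≤ l') (h2' : l' ≤ 2) (hd : |l - l'| ≤ δ) :
    1 / 2 ≤ l / l' ∧ l / l' ≤ 2 ∧ |l / l' - 1| ≤ δ ∧ |1 - 1 / (l / l') ^ 2| ≤ 4 * δ := by
  have hl : 0 < l := by linarith
  have hl' : 0 < l' := by linarith
  refine ⟨by rw [le_div_iff₀ hl']; linarith, by rw [div_le_iff₀ hl']; linarith, ?_, ?_⟩
  · have e : l / l' - 1 = (l - l') / l' := by field_simp
    rw [e, abs_div, abs_of_pos hl']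
    exact (div_le_self (abs_nonneg _) h1').trans hd
  · have e : 1 - 1 / (l / l') ^ 2 = (l - l') * ((l + l') / l ^ 2) := by field_simp; ring
    rw [e, abs_mul, abs_of_nonneg (by positivity : 0 ≤ (l + l') / l ^ 2)]
    have a1 : (l + l') / l ^ 2 ≤ 4 := by
      rw [div_le_iff₀ (by positivity)]; nlinarith
    calc |l - l'| * ((l + l') / l ^ 2) ≤ δ * 4 := mul_le_mul hd a1 (by positivity) ((abs_nonneg _).trans hd)
      _ = 4 * δ := by ring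

/-- the fields of `L9clClose` (288, `L09/ModCl.lean`) owed by the clock part of the physical layer -/
structure L9phCl (C0 : ℝ) (π π' : List (ℝ × ℝ)) (c0 eps δ σ : ℝ) (K kap K' kap' : ℝ → ℝ) : Prop where
  sig_lo : 1 / 2 ≤ σ
  sig_hi : σ ≤ 2
  sig : |σ - 1| ≤ C0 * δ
  dkap : ∀ u, 0 ≤ u → u ≤ c0 → |kap u - kap' u| ≤ C0 * δ
  dkap_lip : ∀ u, 0 ≤ u → u ≤ c0 → |(kap u - kap 0) - (kap' u - kap' 0)| ≤ δ * (C0 * (u + eps))
  len : scLen π = scLen π' / σ ^ 2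
  clk : ∀ u, 0 ≤ u → u ≤ c0 → |K u - K' u / σ ^ 2| ≤ C0 * δ

/-- with the terminal data and the `L¹` distance of the mass profiles: the hypothesis of `l9cl_close` -/
theorem L9phCl.close {A : ℕ → ℝ} {C0 : ℝ} {F F' : ℝ → ℝ} {π π' : List (ℝ × ℝ)} {c0 eps δ σ : ℝ} {K kap K' kap' : ℝ → ℝ}
    (h : L9phCl C0 π π' c0 eps δ σ K kap K' kap') (hδ : 0 < δ) (term : ∀ n, ScN n (A n * δ) (fun z => F z - σ⁻¹ * F' (σ * z)))
    (dist : ∫ r in (0:ℝ)..scLen π, |scAl π r - scAl (skScL σ⁻¹ π') r| ≤ C0 * δ) :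
    L9clClose A C0 F F' π π' c0 eps δ σ K kap K' kap' :=
  ⟨hδ, h.sig_lo, h.sig_hi, h.sig, h.dkap, h.dkap_lip, term, h.len, dist, h.clk⟩

theorem L9phCl.mono {C0 C1 : ℝ} {π π' : List (ℝ × ℝ)} {c0 eps δ σ : ℝ} {K kap K' kap' : ℝ → ℝ}
    (h : L9phCl C0 π π' c0 eps δ σ K kap K' kap') (hC : C0 ≤ C1) (hδ : 0 ≤ δ) (he : 0 ≤ eps) :
    L9phCl C1 π π' c0 eps δ σ K kap K' kap' :=
  ⟨h.sig_lo, h.sig_hi, h.sig.trans (mul_le_mul_of_nonneg_right hC hδ),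
    fun u h0 hu => (h.dkap u h0 hu).trans (mul_le_mul_of_nonneg_right hC hδ),
    fun u h0 hu => (h.dkap_lip u h0 hu).trans (mul_le_mul_of_nonneg_left (mul_le_mul_of_nonneg_right hC (by linarith)) hδ),
    h.len, fun u h0 hu => (h.clk u h0 hu).trans (mul_le_mul_of_nonneg_right hC hδ)⟩

/-- the drift mass depends on the terminal mass only -/
theorem l9ph_fMu_eq (I : L9I) {p p' : LlPt} (haa : p'.a = p.a) : I.fMu p' = I.fMu p := by
  unfold L9I.fMu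
  rw [l9ph_I_fst, l9ph_I_fst, haa]

/-- **the clock part of `L9clClose` at two path points with the same terminal mass**; `τ` = the common normalised horizon -/
theorem l9ph_pair_cl (I : L9I) {p p' : LlPt} {c C C0 v2 c0 eps δ τ : ℝ} {k : ℕ} (hp : p.Ok I.F) (hp' : p'.Ok I.F)
    (haa : p'.a = p.a)
    (hK : L9phK2 (p.K I.F I.𝔹) (p.k0 I.F I.𝔹) c C v2) (hK' : L9phK2 (p'.K I.F I.𝔹) (p'.k0 I.F I.𝔹) c C v2)
    (hP : L9phK2P (p.K I.F I.𝔹) (p'.K I.F I.𝔹) (p.k0 I.F I.𝔹) (p'.k0 I.F I.𝔹) C v2 δ) (hc : 0 ≤ c)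
    (hclk : GhClk1 p.a (p.K I.F I.𝔹)) (hclk' : GhClk1 p'.a (p'.K I.F I.𝔹)) (hv2 : v2 ≤ 1)
    (he : 0 ≤ eps) (hec : eps ≤ c0) (hcv : 2 * c0 < v2) (hF : ghGrid 4 k ⊆ I.Fs) (hk : 4 / 2 ^ k ≤ eps)
    (hlen : scLen (I.pi p) = (p.ell ^ 2)⁻¹ * τ) (hlen' : scLen (I.pi p') = (p'.ell ^ 2)⁻¹ * τ)
    (hd : |p.ell - p'.ell| ≤ δ) (hC1 : 1 ≤ C) (hC : 5 * C ≤ C0) :
    L9phCl C0 (I.pi p) (I.pi p') c0 eps δ (p.ell / p'.ell) (I.fK p) (I.fKap p) (I.fK p') (I.fKap p') := by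
  have ha := l9ph_a_mem hp
  have hs := l9ph_I_samp I hp hK hc hclk hv2 hcv
  have hs' := l9ph_I_samp I hp' hK' hc hclk' hv2 hcv
  have hP1 := hP.mono hcv.le
  have hce : c0 + eps ≤ 2 * c0 := by linarith
  have hm : (I.pi p').map Prod.fst = (I.pi p).map Prod.fst := by rw [l9ph_I_fst, l9ph_I_fst, haa]
  have hn : L9phNet ((I.pi p).map Prod.fst) c0 eps := by
    rw [l9ph_I_fst]
    exact l9ph_net (l9_fl_grid hF) hk (by linarith) ha.2
  have hδ : 0 ≤ δ := (abs_nonneg _).trans hd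
  have hCC : C ≤ C0 := by linarith
  have hl : 0 < p.ell := by linarith [hp.ell1]
  have hl' : 0 < p'.ell := by linarith [hp'.ell1]
  obtain ⟨s1, s2, s3, s4⟩ := l9ph_sig hp.ell1 (lkk_ell_le_two hp) hp'.ell1 (lkk_ell_le_two hp') hd
  refine ⟨s1, s2, s3.trans ?_, fun u h0 hu => ?_, fun u h0 hu => ?_, ?_, fun u h0 hu => ?_⟩
  · nlinarith
  · exact (l9ph_pair_kap hP1 hs hs' hm hn hce u h0 hu).trans (mul_le_mul_of_nonneg_right hCC hδ)
  · refine (l9ph_pair_kap_lip hP1 (mul_nonneg (by linarith) hδ) he hs hs' hm hn hce u h0 hu).trans ?_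
    have : C * δ * (u + eps) ≤ C0 * δ * (u + eps) :=
      mul_le_mul_of_nonneg_right (mul_le_mul_of_nonneg_right hCC hδ) (by linarith)
    linarith
  · rw [hlen, hlen']
    field_simp
  · have a1 := l9ph_fill_pair hP1 hs hs' hm hn hce u h0 hu
    have a2 : 0 ≤ I.fK p' u ∧ I.fK p' u ≤ C * u := l9ph_fill_le (hK'.mono hcv.le) hc hs' (hm ▸ hn) hce u h0 hu
    have hu1 : u ≤ 1 := by linarith
    have e : I.fK p u - I.fK p' u / (p.ell / p'.ell) ^ 2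
        = (I.fK p u - I.fK p' u) + I.fK p' u * (1 - 1 / (p.ell / p'.ell) ^ 2) := by ring
    rw [e]
    refine (abs_add_le _ _).trans ?_
    rw [abs_mul]
    have b1 : |I.fK p u - I.fK p' u| ≤ C * δ := a1.trans (mul_le_of_le_one_right (mul_nonneg (by linarith) hδ) hu1)
    have b2 : |I.fK p' u| ≤ C := by
      rw [abs_of_nonneg a2.1]; exact a2.2.trans (mul_le_of_le_one_right (by linarith) hu1)
    have b3 : |I.fK p' u| * |1 - 1 / (p.ell / p'.ell) ^ 2| ≤ C * (4 * δ) := mul_le_mul b2 s4 (abs_nonneg _) (by linarith)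
    nlinarith

/-! ## 4. the exit for `l9cl_close` -/

/-- **EXIT 2 of the clock part** (for the final assembly of 288, `l9cl_close`):   ONE set of constants `A, C, c0, N0` (they depend on `𝔹, F` only).
(1) GIVEN `chi` every path point satisfies `L9mScHyp`;   (2) two path points with the same `a`, `sm`, `N` have the same drift mass and satisfy the seven clock fields of `L9clClose`
at the twist `σ = ℓ/ℓ'`, distance `δ ≥ |ℓ - ℓ'| + |β - β'|`. -/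
theorem l9ph_main2 (𝔹 : LlBase) (F : LlFix) (hb : LlBaseProfile 𝔹 F.T) (hF : F.Ok) (hDP : LlDirProf 𝔹 F) :
    ∃ (A : ℕ → ℝ) (C c0 : ℝ), (∀ n, 0 ≤ A n) ∧ 1 ≤ C ∧ 0 < c0 ∧ c0 ≤ 1 ∧ ∃ N0 : ℕ, ∀ C0 : ℝ, C ≤ C0 → ∀ eps : ℝ, 0 < eps → eps ≤ c0 →
      ∀ᶠ Fs : Finset GhPos in atTop, ∀ (s : ℝ) (m : ℕ),
        (∀ p : LlPt, p.Ok F → N0 ≤ p.N → 1 ≤ C0 * (scD 2 (scLC p.a) ((⟨F, 𝔹, s, Fs, m⟩ : L9I).pi p) 0 0) ^ 2 →
          L9mScHyp 4 A C0 (scLC p.a) ((⟨F, 𝔹, s, Fs, m⟩ : L9I).pi p) c0 eps ((⟨F, 𝔹, s, Fs, m⟩ : L9I).fK p)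
            ((⟨F, 𝔹, s, Fs, m⟩ : L9I).fKap p) ((⟨F, 𝔹, s, Fs, m⟩ : L9I).fMu p)) ∧
        (∀ p : LlPt, p.Ok F → N0 ≤ p.N →
          scLen ((⟨F, 𝔹, s, Fs, m⟩ : L9I).pi p) = (p.ell ^ 2)⁻¹ * (if p.sm then p.M else 𝔹.xiS F.T)) ∧
        (∀ p p' : LlPt, p.Ok F → p'.Ok F → N0 ≤ p.N → p'.a = p.a → p'.sm = p.sm → p'.N = p.N → ∀ δ : ℝ,
          |p.ell - p'.ell| + |p.bet - p'.bet| ≤ δ →
          (⟨F, 𝔹, s, Fs, m⟩ : L9I).fMu p' = (⟨F, 𝔹, s, Fs, m⟩ : L9I).fMu p ∧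
          L9phCl C0 ((⟨F, 𝔹, s, Fs, m⟩ : L9I).pi p) ((⟨F, 𝔹, s, Fs, m⟩ : L9I).pi p') c0 eps δ (p.ell / p'.ell)
            ((⟨F, 𝔹, s, Fs, m⟩ : L9I).fK p) ((⟨F, 𝔹, s, Fs, m⟩ : L9I).fKap p) ((⟨F, 𝔹, s, Fs, m⟩ : L9I).fK p')
            ((⟨F, 𝔹, s, Fs, m⟩ : L9I).fKap p')) := by
  choose A hA0 hA using fun n => lsi_LC_N n 4
  obtain ⟨c, C, v2, hc, hC, hv2, N0, h4, h5⟩ := l9ph_K2_core 𝔹 F hb hF hDP
  have hpT := hDP.1
  set w := min (min v2 1) (1 - 𝔹.pTop F.T) with hw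
  have hw0 : 0 < w := lt_min (lt_min hv2 one_pos) (by linarith [hpT.2])
  have hw1 : w ≤ 1 := (min_le_left _ _).trans (min_le_right _ _)
  have hwv : w ≤ v2 := (min_le_left _ _).trans (min_le_left _ _)
  have hwT : w ≤ 1 - 𝔹.pTop F.T := min_le_right _ _
  refine ⟨A, 5 * C, w / 4, hA0, by linarith, by linarith, by linarith, N0, fun C0 hC0 eps he hec => ?_⟩
  obtain ⟨k, hk⟩ := slc_pow_small (C := 4) he
  filter_upwards [eventually_ge_atTop (ghGrid 4 k)] with Fs hFs s m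
  have hlen : ∀ p : LlPt, p.Ok F → N0 ≤ p.N →
      scLen ((⟨F, 𝔹, s, Fs, m⟩ : L9I).pi p) = (p.ell ^ 2)⁻¹ * (if p.sm then p.M else 𝔹.xiS F.T) := fun p hp hN =>
    l9ph_I_len ⟨F, 𝔹, s, Fs, m⟩ hp (h4 p hp hN).2.1 (h4 p hp hN).2.2 hpT.1.le he (by linarith) hFs hk.le
  refine ⟨fun p hp hN hchi => ?_, hlen, fun p p' hp hp' hN haa hsm hNN δ hd => ⟨l9ph_fMu_eq _ haa, ?_⟩⟩
  · exact l9ph_point ⟨F, 𝔹, s, Fs, m⟩ hp hA ((h4 p hp hN).1.mono hwv) hc.le (h4 p hp hN).2.1 hw1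
      (by linarith : 0 < w / 4) he.le hec (by linarith) hFs hk.le (by linarith) hchi
  · have hN' : N0 ≤ p'.N := by rw [hNN]; exact hN
    have hM : p'.M = p.M := by unfold LlPt.M LlPt.x; rw [hNN]
    have l' := hlen p' hp' hN'
    rw [hsm, hM] at l'
    exact l9ph_pair_cl ⟨F, 𝔹, s, Fs, m⟩ hp hp' haa ((h4 p hp hN).1.mono hwv) ((h4 p' hp' hN').1.mono hwv)
      ((h5 p p' hp hp' hN hN' δ hd).mono hwv) hc.le (h4 p hp hN).2.1 (h4 p' hp' hN').2.1 hw1 he.le hec (by linarith) hFs hk.le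
      (hlen p hp hN) l' ((le_add_of_nonneg_right (abs_nonneg _)).trans hd) hC hC0

/-! ## 5. the two families -/

theorem l9ph_exp_lip {x y B : ℝ} (hx : x ≤ B) (hy : y ≤ B) : |Real.exp x - Real.exp y| ≤ Real.exp B * |x - y| := by
  wlog h : x ≤ y generalizing x y
  · have := this hy hx (le_of_not_ge h)
    rwa [abs_sub_comm, abs_sub_comm y x] at this
  have h1 : Real.exp x ≤ Real.exp y := Real.exp_le_exp.2 h
  rw [abs_sub_comm, abs_of_nonneg (by linarith), abs_sub_comm, abs_of_nonneg (by linarith : 0 ≤ y - x)]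
  have h2 := Real.add_one_le_exp (x - y)
  have h3 : Real.exp x = Real.exp y * Real.exp (x - y) := by rw [← Real.exp_add]; congr 1; ring
  have h4 : Real.exp y - Real.exp x ≤ Real.exp y * (y - x) := by
    rw [h3]; nlinarith [Real.exp_pos y]
  exact h4.trans (mul_le_mul_of_nonneg_right (Real.exp_le_exp.2 hy) (by linarith))

/-- **two points of the size segment**: same `a = 4`, `sm`, `N`, `β`;   twist `σ = ℓ/ℓ' = e^{-(θ'-θ)/6}`;   distance `|θ' - θ|` -/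
theorem l9ph_ptS_pair (F : LlFix) (N : ℕ) (γ : Fin (N + 1) → ℝ) {θ θ' : ℝ} (hθ : θ ≤ Real.log 2) (hθ' : θ' ≤ Real.log 2) :
    (l9PtS F N γ θ').a = (l9PtS F N γ θ).a ∧ (l9PtS F N γ θ').sm = (l9PtS F N γ θ).sm ∧ (l9PtS F N γ θ').N = (l9PtS F N γ θ).N ∧
      (l9PtS F N γ θ).ell / (l9PtS F N γ θ').ell = Real.exp (-(θ' - θ) / 6) ∧
      |(l9PtS F N γ θ).ell - (l9PtS F N γ θ').ell| + |(l9PtS F N γ θ).bet - (l9PtS F N γ θ').bet| ≤ |θ' - θ| := by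
  refine ⟨rfl, rfl, rfl, ?_, ?_⟩
  · show Real.exp (θ / 6) / Real.exp (θ' / 6) = _
    rw [← Real.exp_sub]; congr 1; ring
  · have e : (l9PtS F N γ θ).bet - (l9PtS F N γ θ').bet = 0 := sub_self _
    rw [e, abs_zero, add_zero]
    show |Real.exp (θ / 6) - Real.exp (θ' / 6)| ≤ _
    have h2 : Real.exp (Real.log 2) = 2 := Real.exp_log (by norm_num)
    have hl : 0 ≤ Real.log 2 := Real.log_nonneg (by norm_num)
    have h1 := l9ph_exp_lip (x := θ / 6) (y := θ' / 6) (B := Real.log 2) (by linarith) (by linarith)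
    rw [h2] at h1
    have e2 : θ / 6 - θ' / 6 = -((θ' - θ) / 6) := by ring
    rw [e2, abs_neg, abs_div, abs_of_pos (by norm_num : (0 : ℝ) < 6)] at h1
    have := abs_nonneg (θ' - θ)
    linarith

/-- **two points of the strength sweep**: same `a = ℓ`, `sm`, `N`;   twist `σ = 1`;   distance `|e^t - e^t'|` -/
theorem l9ph_ptL_pair (N : ℕ) {ell : ℝ} (hl : ell ≠ 0) (γ : Fin (N + 1) → ℝ) (t t' : ℝ) :
    (l9PtL N ell γ t').a = (l9PtL N ell γ t).a ∧ (l9PtL N ell γ t').sm = (l9PtL N ell γ t).sm ∧ (l9PtL N ell γ t').N = (l9PtL N ell γ t).N ∧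
      (l9PtL N ell γ t).ell / (l9PtL N ell γ t').ell = 1 ∧
      |(l9PtL N ell γ t).ell - (l9PtL N ell γ t').ell| + |(l9PtL N ell γ t).bet - (l9PtL N ell γ t').bet| = |Real.exp t - Real.exp t'| := by
  refine ⟨rfl, rfl, rfl, div_self hl, ?_⟩
  have e1 : (l9PtL N ell γ t).ell - (l9PtL N ell γ t').ell = 0 := sub_self _
  have e2 : ∀ r, (l9PtL N ell γ r).bet = Real.exp r := fun r => by
    unfold LlPt.bet
    show Real.exp r + (if false = true then _ else 0) = _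
    simp
  rw [e1, abs_zero, zero_add, e2, e2]

/-! ## 6. the mass profile in use is admissible: P-list form of `lce_unif_prof` -/

/-- **the profile in use at every path point is a mass profile**, from the P-list only (`LlDirProf`): the hypothesis `hprof` of 120 (`l9v_InE6`, `l9v_chi_ev`, `l9v_dist_ev`, `l9v_bo_ev`) and of
288 (`l9pc_dist_pt`).   (`lce_unif_prof` of `LL/PathsClkE2.lean` needs `LkkBase` and `z_0 ≤ ξ_1`.) -/
theorem l9ph_unif_prof (𝔹 : LlBase) (F : LlFix) (hDP : LlDirProf 𝔹 F) :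
    LlUnif F fun p => LpqProf (p.Aprof F 𝔹) (if p.sm then p.M else 𝔹.xiS F.T) (p.a / p.ell) ∧ LpqProf (p.Adir F 𝔹) (𝔹.xiS F.T) 1 ∧
      ∀ ξ, 0 ≤ ξ → ξ < 𝔹.xiS F.T → p.Adir F 𝔹 ξ ≤ 𝔹.pTop F.T := by
  obtain ⟨hpT, N1, hN1⟩ := hDP
  obtain ⟨N2, hN2⟩ := lkk_M_large (𝔹.xiS F.T)
  refine ⟨max N1 N2, fun p hp hN => ?_⟩
  obtain ⟨hD, hT⟩ := hN1 p hp ((le_max_left _ _).trans hN)
  refine ⟨?_, hD, hT⟩
  have hM := hN2 p hp.N2 ((le_max_right _ _).trans hN)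
  have hell : 0 < p.ell := by linarith [hp.ell1]
  have ho := lkk_om_pos hp.N2
  have hJ : 1 + p.om * p.M ≤ 4 / p.ell := by
    rw [le_div_iff₀ hell]
    have h1 := lkk_omM hp.N2
    have h2 := lkk_ell_le_two hp
    have h3 : 0 ≤ p.om * p.M := mul_nonneg ho.le (lkk_M_nonneg hp.N2)
    nlinarith
  cases hsm : p.sm with
  | false =>
    have eA : p.Aprof F 𝔹 = p.Adir F 𝔹 := by unfold LlPt.Aprof; rw [hsm]; rfl
    have ea : p.a / p.ell = 1 := by unfold LlPt.a; rw [hsm]; simp [hell.ne']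
    rw [eA, ea]
    simpa using hD
  | true =>
    have eA : p.Aprof F 𝔹 = lkkSm (𝔹.A0 F.T) F.P p.lam (𝔹.xiS F.T) (𝔹.pTop F.T) p.om p.M (4 / p.ell) := by
      unfold LlPt.Aprof; rw [hsm]; rfl
    have ea : p.a / p.ell = 4 / p.ell := by unfold LlPt.a; rw [hsm]; simp
    rw [eA, ea]
    simpa using l9ph_sm_prof (A0 := 𝔹.A0 F.T) (P := F.P) (lam := p.lam) hD hT hpT.1.le hpT.2.le ho hM hJ

theorem l9ph_physP_eqns_cite : True := by
  have := @L9phCl.sig_lo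
  trivial

end Claimed.Agent.R286
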