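import Claimed.Agent.R286.L09.E4D
import Claimed.Agent.R286.L09.GridE6S
import Claimed.Agent.R286.L09.PhysP
import Claimed.Agent.R286.L09.Dots
import Claimed.Agent.R286.LL.PathsClkB

/-!
# Row 286 (S0533), unit L09, PRODUCER OF THE GROUP `InB` OF (E4): THE MATRIX CLOCK IN THE PAIR NORM      (owner helper98; record: helper11 `L09/E4S.lean`, helper166 `L09/E4D.lean`; prefix `l9eb`, `L9eb`)

TEX[LL:exp:prop-low-coefficients]      `b(v) - b∘ = O_*(λ max(v,U)²)` on the chain, at the two ends of one step of the finite difference route.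
* the cumulative value `bC (j+1)` is the clock at the position `ps[j]` (`l9eb_bC`);   a stage of POSITIVE mass `μ_(j+1) > 0` sits at a position of positive mass, or at `(0,1)` (`l9eb_pos`): there `ghAt a b pos = b(pos.u)` (`l9eb_at`);
* (P3): `b - b_0 = c_b λ (G - U² - c_1 γ_0 (G + U²) - c_1 Σ_u)`, size `≤ K λ max(v,U)²` (`l9eb_P3`, from `lcb_main`);
* `b∘ = χ⁻²` of the CHAIN against `b_0 = 1/Γ'(0)` of the continuum: as close as one likes, eventually in the chain (`l9v_bo_ev` of 120, `L09/GridE6S`);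
* SIZE: `b - b_0` does not depend on `θ`, so the pair difference only sees `b_0 - b∘` at the two ends, `≤ h0 λ U²` since `h0` is chosen before the chain.
* STRENGTH SWEEP (`λ = e^t`): `|Δ(b - b_0)| ≤ K λ |hh| max(v,U)²` (`l9eb_str`; `λ U_λ²`: `l9eb_lamU`).      EXITS: **`l9eb_S`** (`InBo`, shape `L9esSb`), **`l9eb_D`** (`InBD`, shape `L9edSb`, `δ = Kd λ |hh|`).
-/

set_option autoImplicit false

namespace Claimed.Agent.R286

open Filter Set Topology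

/-! ## 1. the value of a continuous clock at a position -/

theorem l9eb_at_cont {a : ℝ} {c : ℝ → ℝ} {p : GhPos} (h0 : 0 < p.u) (h1 : p.u < a) (hc : ContinuousAt c p.u) : ghAt a c p = c p.u := by
  have he : ghClamp a c =ᶠ[𝓝 p.u] c := by
    filter_upwards [Ioo_mem_nhds h0 h1] with y hy
    unfold ghClamp
    rw [if_neg (not_lt.2 hy.1.le), min_eq_left hy.2.le]
  have hcc : ContinuousAt (ghClamp a c) p.u := hc.congr he.symm
  have hv : ghClamp a c p.u = c p.u := he.eq_of_nhds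
  unfold ghAt
  rw [hcc.continuousWithinAt.leftLim_eq, hcc.continuousWithinAt.rightLim_eq, hv]
  ring

theorem l9eb_at_zero {a : ℝ} (ha : 0 < a) {c : ℝ → ℝ} (hc : ContinuousWithinAt c (Icc 0 a) 0) : ghAt a c (ghPosA 0) = c 0 := by
  rw [gh_os_at_posA]
  have hle : 𝓝[>] (0 : ℝ) ≤ 𝓝[Icc 0 a] 0 := nhdsWithin_le_of_mem (mem_of_superset (Ioo_mem_nhdsGT ha) Ioo_subset_Icc_self)
  refine rightLim_eq_of_tendsto ((hc.tendsto.mono_left hle).congr' ?_)
  filter_upwards [Ioo_mem_nhdsGT ha] with y hy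
  unfold ghClamp
  rw [if_neg (not_lt.2 hy.1.le), min_eq_left hy.2.le]

theorem l9eb_cont_of_lip {c : ℝ → ℝ} {s : Set ℝ} {L : ℝ} (h : ∀ v ∈ s, ∀ v' ∈ s, |c v - c v'| ≤ L * |v - v'|) : ContinuousOn c s := by
  have hL : LipschitzOnWith (Real.toNNReal L) c s := LipschitzOnWith.of_dist_le_mul fun x hx y hy => by
    rw [Real.dist_eq, Real.dist_eq]
    exact (h x hx y hy).trans (mul_le_mul_of_nonneg_right (Real.le_coe_toNNReal L) (abs_nonneg _))
  exact hL.continuousOn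

/-- a monotone clock with Lipschitz increments is continuous on `[0,a]` -/
theorem l9eb_cont {a L : ℝ} {c : ℝ → ℝ} (hm : MonotoneOn c (Icc 0 a))
    (hl : ∀ v ∈ Icc 0 a, ∀ v' ∈ Icc 0 a, v ≤ v' → c v' - c v ≤ L * (v' - v)) : ContinuousOn c (Icc 0 a) := by
  refine l9eb_cont_of_lip (L := L) fun v hv v' hv' => ?_
  rcases le_total v v' with h | h
  · rw [abs_sub_comm, abs_sub_comm v v', abs_of_nonneg (sub_nonneg.2 (hm hv hv' h)), abs_of_nonneg (sub_nonneg.2 h)]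
    exact hl v hv v' hv' h
  · rw [abs_of_nonneg (sub_nonneg.2 (hm hv' hv h)), abs_of_nonneg (sub_nonneg.2 h)]
    exact hl v' hv' v hv h

/-- the value at a position of positive mass below `a`, or at `(0,1)` -/
theorem l9eb_at {a : ℝ} {c : ℝ → ℝ} (hc : ContinuousOn c (Icc 0 a)) {p : GhPos} (h1 : p.u < a) (h0 : 0 < p.u ∨ p = ghPosA 0) :
    ghAt a c p = c p.u := by
  rcases h0 with h0 | rfl
  · exact l9eb_at_cont h0 h1 (hc.continuousAt (Icc_mem_nhds h0 h1))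
  · have ha : (0 : ℝ) < a := h1
    exact l9eb_at_zero ha (hc 0 ⟨le_rfl, ha.le⟩)

/-! ## 2. the chain -/

/-- the cumulative matrix clock at the depth `j + 1` is the clock at the position `ps[j]` -/
theorem l9eb_bC (I : L9I) (p : LlPt) (j : ℕ) (hj : j < (I.ps p).length) : (I.X0 p).bC (j + 1) = ghAt p.a (p.b I.F I.𝔹) (I.ps p)[j] := by
  rw [l9d_I_bC]
  unfold L9I.P
  rw [l9d_stp_mat, (l9d_chain_cum p.a (p.b I.F I.𝔹) (p.h I.F I.𝔹) (I.ps p) 0 0 j hj).1, sub_zero]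

/-- **a stage of positive mass**: depth `v ≤ N`, `μ_v > 0`, `(0,1)` in the chain: `v = j + 1`, the position `ps[j]` has the mass `m_v` (incoming), which is positive unless the position is `(0,1)` -/
theorem l9eb_pos (I : L9I) (p : LlPt) (ha : 0 ≤ p.a) (h01 : ghPosA 0 ∈ I.Fs) {v : ℕ} (hv : v ≤ (I.P p).length)
    (hmu : 0 < l9rMu (llMs p.a (I.P p)) v) :
    ∃ (j : ℕ) (hj : j < (I.ps p).length), v = j + 1 ∧ ((I.ps p)[j]).u = trPm (llMs p.a (I.P p)) v ∧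
      (0 < ((I.ps p)[j]).u ∨ (I.ps p)[j] = ghPosA 0) := by
  have hlen : (I.P p).length = (I.ps p).length := l9d_I_length I p
  have hA : ghPosA 0 ∈ I.ps p := by
    unfold L9I.ps
    exact gh_os_ps_mem.2 ⟨l9_fl_posA h01, gh_os_posA_ok le_rfl ha⟩
  obtain ⟨i, hi, hiA⟩ := List.getElem_of_mem hA
  have hsort : (I.ps p).Pairwise (· ≤ ·) := gh_os_ps_pairwise p.a (l9Fl I.Fs)
  have hsrt : ∀ a b (ha : a < (I.ps p).length) (hb : b < (I.ps p).length), a ≤ b → (I.ps p)[a] ≤ (I.ps p)[b] := by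
    intro a b ha hb hab
    rcases Nat.lt_or_ge a b with h | h
    · exact (List.pairwise_iff_getElem.1 hsort) a b ha hb h
    · have : a = b := le_antisymm hab h
      subst this
      exact le_rfl
  have hms : ∀ k (hk : k < (I.ps p).length), llMs p.a (I.P p) k = ((I.ps p)[k]).u := by
    intro k hk
    rcases l9t_ms I p k with ⟨_, h2⟩ | ⟨h1, _⟩
    · exact h2
    · exact absurd hk (not_lt.2 h1)
  have hu0 : (ghPosA 0 : GhPos).u = 0 := rfl
  have hl1 : (ghPosA 0 : GhPos).lam = 1 := rfl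
  rcases v with _ | j
  · -- the first stage has mass `0`
    exfalso
    have h0 : 0 < (I.ps p).length := by omega
    have e1 := hsrt 0 i h0 hi (Nat.zero_le _)
    rw [hiA, gh_os_pos_le_iff, hu0] at e1
    have e2 := (l9t_ps_ok I p (List.getElem_mem h0)).1
    have e3 : ((I.ps p)[0]).u = 0 := by
      rcases e1 with e | e
      · linarith
      · exact e.1
    unfold l9rMu trPm at hmu
    rw [if_pos rfl, hms 0 h0, e3] at hmu
    linarith
  · have hj : j < (I.ps p).length := by omega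
    refine ⟨j, hj, rfl, ?_, ?_⟩
    · unfold trPm
      rw [if_neg (by omega), Nat.add_sub_cancel, hms j hj]
    · have ok := l9t_ps_ok I p (List.getElem_mem hj)
      rcases ok.1.lt_or_eq with h | h
      · exact Or.inl h
      · right
        rcases Nat.lt_or_ge j i with hji | hji
        · exfalso
          have hj1 : j + 1 < (I.ps p).length := by omega
          have e1 := hsrt (j + 1) i hj1 hi hji
          rw [hiA, gh_os_pos_le_iff, hu0] at e1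
          have e2 := (l9t_ps_ok I p (List.getElem_mem hj1)).1
          have e3 : ((I.ps p)[j + 1]).u = 0 := by
            rcases e1 with e | e
            · linarith
            · exact e.1
          unfold l9rMu trPm at hmu
          rw [if_neg (by omega), Nat.add_sub_cancel, hms j hj, hms (j + 1) hj1, e3, ← h] at hmu
          linarith
        · have e1 := hsrt i j hi hj hji
          rw [hiA] at e1
          refine le_antisymm ?_ e1
          rw [gh_os_pos_le_iff, hu0, hl1]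
          exact Or.inr ⟨h.symm, ok.2.2.2⟩

theorem l9eb_bC' (I : L9I) (p : LlPt) {ps : List GhPos} (hps : I.ps p = ps) (j : ℕ) (hj : j < ps.length) :
    (I.X0 p).bC (j + 1) = ghAt p.a (p.b I.F I.𝔹) ps[j] := by
  subst hps
  exact l9eb_bC I p j hj

/-- the masses of the stages are at most `a` -/
theorem l9eb_ms_le (I : L9I) (p : LlPt) (k : ℕ) : llMs p.a (I.P p) k ≤ p.a := by
  rcases l9t_ms I p k with ⟨h1, h2⟩ | ⟨_, h2⟩
  · rw [h2]; exact (l9t_ps_ok I p (List.getElem_mem h1)).2.1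
  · exact h2.le

/-! ## 3. (P3) -/

/-- **(P3)**: `|b(v) - b_0| ≤ K λ max(v,U)²` at every mass -/
theorem l9eb_P3 (F : LlFix) (hF : F.Ok) : ∃ K : ℝ, 0 ≤ K ∧ ∀ (𝔹 : LlBase) (p : LlPt), 0 < p.x → 8 * p.x ≤ F.vb → (∀ h, p.gu h ∈ Icc (-4 : ℝ) 4) →
    p.gam0 ∈ Icc (-4 : ℝ) 4 → 0 ≤ p.lam → ∀ v, 0 ≤ v → |p.b F 𝔹 v - p.b0 F 𝔹| ≤ K * p.lam * max v (p.U F) ^ 2 := by
  obtain ⟨CG, CD, cG, h1, h2, -, H⟩ := lcb_main F hF
  have hc1 := hF.c10
  have hcb := hF.cb0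
  refine ⟨F.cb * ((1 + 4 * F.c1) * (CG + 1) + F.c1 * CD * CG), by positivity, fun 𝔹 p hx hxb hg hg0 hl v hv => ?_⟩
  obtain ⟨hmono, hz, -, hle, -, -, hdy, hdy0⟩ := H p hx hxb hg
  have hG0 : p.G F 0 = 0 := hz 0 hx.le
  have hG : 0 ≤ p.G F v := by rw [← hG0]; exact hmono hv
  have hD : |p.dySum F v| ≤ CD * p.G F v := by
    have := hdy 0 v le_rfl hv
    rwa [hdy0, hG0, sub_zero, sub_zero] at this
  set m := max v (p.U F) with hm
  have hU0 : 0 ≤ p.U F := le_min zero_le_one (mul_nonneg hx.le (Real.rpow_nonneg hl _))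
  have hm0 : 0 ≤ m := hv.trans (le_max_left _ _)
  have hv2 : v ^ 2 ≤ m ^ 2 := pow_le_pow_left₀ hv (le_max_left _ _) 2
  have hU2 : p.U F ^ 2 ≤ m ^ 2 := pow_le_pow_left₀ hU0 (le_max_right _ _) 2
  have hGm : p.G F v ≤ CG * m ^ 2 := (hle v hv).trans (mul_le_mul_of_nonneg_left hv2 (by linarith))
  have e : p.b F 𝔹 v - p.b0 F 𝔹
      = F.cb * p.lam * (p.G F v - p.U F ^ 2 - F.c1 * p.gam0 * (p.G F v + p.U F ^ 2) - F.c1 * p.dySum F v) := by
    unfold LlPt.b; ring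
  have hw : 0 ≤ F.c1 * (p.G F v + p.U F ^ 2) := mul_nonneg hc1.le (add_nonneg hG (sq_nonneg _))
  have b1 : |F.c1 * p.gam0 * (p.G F v + p.U F ^ 2)| ≤ 4 * (F.c1 * (p.G F v + p.U F ^ 2)) := by
    have : F.c1 * p.gam0 * (p.G F v + p.U F ^ 2) = p.gam0 * (F.c1 * (p.G F v + p.U F ^ 2)) := by ring
    rw [this, abs_mul, abs_of_nonneg hw]
    exact mul_le_mul_of_nonneg_right (abs_le.2 hg0) hw
  have b2 : |F.c1 * p.dySum F v| ≤ F.c1 * (CD * p.G F v) := by
    rw [abs_mul, abs_of_pos hc1]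
    exact mul_le_mul_of_nonneg_left hD hc1.le
  have b3 : |p.G F v - p.U F ^ 2 - F.c1 * p.gam0 * (p.G F v + p.U F ^ 2) - F.c1 * p.dySum F v|
      ≤ ((1 + 4 * F.c1) * (CG + 1) + F.c1 * CD * CG) * m ^ 2 := by
    have t1 := abs_le.1 b1
    have t2 := abs_le.1 b2
    have s1 : (1 + 4 * F.c1) * (p.G F v + p.U F ^ 2) ≤ (1 + 4 * F.c1) * ((CG + 1) * m ^ 2) :=
      mul_le_mul_of_nonneg_left (by linarith) (by linarith)
    have s2 : F.c1 * (CD * p.G F v) ≤ F.c1 * (CD * (CG * m ^ 2)) :=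
      mul_le_mul_of_nonneg_left (mul_le_mul_of_nonneg_left hGm h2) hc1.le
    have hUU := sq_nonneg (p.U F)
    rw [abs_le]
    constructor <;> nlinarith
  rw [e, abs_mul, abs_of_nonneg (mul_nonneg hcb.le hl)]
  calc F.cb * p.lam * _ ≤ F.cb * p.lam * (((1 + 4 * F.c1) * (CG + 1) + F.c1 * CD * CG) * m ^ 2) :=
        mul_le_mul_of_nonneg_left b3 (mul_nonneg hcb.le hl)
    _ = _ := by ring

/-! ## 4. one point, one step: the pair -/

/-- the norm of a pair `(β₀ - e₀, β₁ - e₁)` -/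
theorem l9eb_nrm {δ β0 β1 e0 e1 B D η : ℝ} (hδ : 0 < δ) (h0 : |β0| ≤ B) (h1 : |β1| ≤ B) (hd : |β0 - β1| ≤ δ * D) (he0 : |e0| ≤ η) (he1 : |e1| ≤ η) :
    l9mNrm2 δ (β0 - e0, β1 - e1) ≤ B + D + (η + 2 * η / δ) := by
  unfold l9mNrm2
  have a0 : |β0 - e0| ≤ B + η := (abs_sub _ _).trans (add_le_add h0 he0)
  have a1 : |β1 - e1| ≤ B + η := (abs_sub _ _).trans (add_le_add h1 he1)
  have a2 : |β0 - e0 - (β1 - e1)| ≤ δ * D + 2 * η := by
    have : β0 - e0 - (β1 - e1) = (β0 - β1) + (e1 - e0) := by ring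
    rw [this]
    have t1 := abs_add_le (β0 - β1) (e1 - e0)
    have t2 := abs_sub e1 e0
    linarith
  have a3 : |β0 - e0 - (β1 - e1)| / δ ≤ D + 2 * η / δ := by
    rw [div_le_iff₀ hδ]
    have : (D + 2 * η / δ) * δ = δ * D + 2 * η := by field_simp
    rw [this]
    exact a2
  have a4 : max |β0 - e0| |β1 - e1| ≤ B + η := max_le a0 a1
  show max |β0 - e0| |β1 - e1| + |β0 - e0 - (β1 - e1)| / δ ≤ _
  linarith

/-- **THE PAIR AT ONE DEPTH**, any family with a fixed terminal mass: continuity of the two clocks, `(0,1)` in the chain, stage of positive mass -/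
theorem l9eb_pair (Q : L9Q) (hh : ℝ) (ha : 0 ≤ Q.p.a) (ha1 : (Q.p1 hh).a = Q.p.a) (h01 : ghPosA 0 ∈ Q.I.Fs)
    (hc0 : ContinuousOn (Q.p.b Q.I.F Q.I.𝔹) (Icc 0 Q.p.a)) (hc1 : ContinuousOn ((Q.p1 hh).b Q.I.F Q.I.𝔹) (Icc 0 Q.p.a))
    {v : ℕ} (hv : v ≤ Q.N) (hmu : 0 < l9rMu Q.ms v) :
    0 ≤ trPm Q.ms v ∧ Q.bPair hh v = (Q.p.b Q.I.F Q.I.𝔹 (trPm Q.ms v) - Q.boAt Q.p, (Q.p1 hh).b Q.I.F Q.I.𝔹 (trPm Q.ms v) - Q.boAt (Q.p1 hh)) := by
  obtain ⟨j, hj, rfl, hu, hpos⟩ := l9eb_pos Q.I Q.p ha h01 hv hmu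
  have hlt : ((Q.I.ps Q.p)[j]).u < Q.p.a := by
    rw [hu]
    have h1 : l9rMu Q.ms (j + 1) = Q.ms (j + 1) - trPm Q.ms (j + 1) := rfl
    have h2 : Q.ms (j + 1) ≤ Q.p.a := l9eb_ms_le Q.I Q.p (j + 1)
    have h3 : trPm (llMs Q.p.a (Q.I.P Q.p)) (j + 1) = trPm Q.ms (j + 1) := rfl
    rw [h3]
    linarith
  have hps : Q.I.ps (Q.p1 hh) = Q.I.ps Q.p := l9t_ps_congr Q.I ha1
  have e0 := l9eb_bC Q.I Q.p j hj
  have e1 := l9eb_bC' Q.I (Q.p1 hh) hps j hj
  rw [l9eb_at hc0 hlt hpos] at e0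
  rw [ha1, l9eb_at hc1 hlt hpos] at e1
  have hu' : ((Q.I.ps Q.p)[j]).u = trPm Q.ms (j + 1) := hu
  refine ⟨by rw [← hu']; exact (l9t_ps_ok Q.I Q.p (List.getElem_mem hj)).1, ?_⟩
  unfold L9Q.bPair
  rw [e0, e1, hu']

/-! ## 5. THE SIZE SEGMENT -/

/-- the clock `b` is continuous on `[0,a]` (from `LlAdm`) -/
theorem l9eb_b_cont {𝔹 : LlBase} {F : LlFix} {p : LlPt} {L : ℝ} (hL : 0 ≤ L) (hm : MonotoneOn (p.b F 𝔹) (Icc 0 p.a))
    (hl : ∀ v ∈ Icc 0 p.a, ∀ v' ∈ Icc 0 p.a, v ≤ v' → p.b F 𝔹 v' - p.b F 𝔹 v ≤ L * v' * (v' - v)) : ContinuousOn (p.b F 𝔹) (Icc 0 p.a) := by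
  refine l9eb_cont (L := L * p.a) hm fun v hv v' hv' h => (hl v hv v' hv' h).trans ?_
  exact mul_le_mul_of_nonneg_right (mul_le_mul_of_nonneg_left hv'.2 hL) (sub_nonneg.2 h)

/-- on the size segment `b - b_0` does not depend on `θ` -/
theorem l9eb_siz (F : LlFix) (𝔹 : LlBase) (N : ℕ) (γ : Fin (N + 1) → ℝ) (θ θ' v : ℝ) :
    (l9PtS F N γ θ').b F 𝔹 v - (l9PtS F N γ θ').b0 F 𝔹 = (l9PtS F N γ θ).b F 𝔹 v - (l9PtS F N γ θ).b0 F 𝔹 := by
  have e1 : (l9PtS F N γ θ').G F v = (l9PtS F N γ θ).G F v := rfl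
  have e2 : (l9PtS F N γ θ').U F = (l9PtS F N γ θ).U F := rfl
  have e3 : (l9PtS F N γ θ').dySum F v = (l9PtS F N γ θ).dySum F v := rfl
  have e4 : (l9PtS F N γ θ').lam = (l9PtS F N γ θ).lam := rfl
  have e5 : (l9PtS F N γ θ').gam0 = (l9PtS F N γ θ).gam0 := rfl
  simp only [LlPt.b, e1, e2, e3, e4, e5]
  ring

/-- **PRODUCER OF `InBo`, SIZE SEGMENT** (no condition on the mass of the depth) -/
theorem l9eb_S (F : LlFix) (hE : LlExpOk F.sS F.eta F.pS) (h3 : LlSec3 llBase F) :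
    ∃ Kb : ℝ, 0 ≤ Kb ∧ ∀ cm : L9Q → ℝ, L9esSb llBase F fun _ Q hh => Q.InBo Kb (cm Q) hh := by
  have hF := h3.ok
  obtain ⟨K, hK0, hP3⟩ := l9eb_P3 F hF
  obtain ⟨c, C, v0, hc, -, N1, hRef⟩ := h3.ref
  obtain ⟨ca, Ca, -, N2, hAdm⟩ := h3.adm
  obtain ⟨N3, hPr⟩ := l9ph_unif_prof llBase F h3.dirProf
  obtain ⟨N4, hN4⟩ := l9es_small 1 (F.vb / 8) one_pos (by have := hF.vb0; positivity)
  have hp12 : F.pS ≤ 12 := by linarith [hE.p_hi]
  refine ⟨K + 1, by linarith, fun cm Kη _ => ⟨max (max N1 N2) (max (max N3 N4) 2), fun N hN => ⟨1, one_pos, fun h0 hh0 hh1 => ?_⟩⟩⟩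
  have hN1 : N1 ≤ N := ((le_max_left _ _).trans (le_max_left _ _)).trans hN
  have hN2 : N2 ≤ N := ((le_max_right _ _).trans (le_max_left _ _)).trans hN
  have hN3 : N3 ≤ N := (((le_max_left _ _).trans (le_max_left _ _)).trans (le_max_right _ _)).trans hN
  have hN4' : N4 ≤ N := (((le_max_right _ _).trans (le_max_left _ _)).trans (le_max_right _ _)).trans hN
  have hN5 : 2 ≤ N := ((le_max_right _ _).trans (le_max_right _ _)).trans hN
  have hx : 0 < skX N := l9b_skX_pos (by omega)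
  have hxb : 8 * skX N ≤ F.vb := by
    have := hN4 N hN4'
    rw [Real.rpow_one] at this
    linarith
  have hok : ∀ (γ : Fin (N + 1) → ℝ), ∀ θ ∈ Icc (0 : ℝ) (Real.log 2), (l9PtS F N γ θ).Ok F := fun γ θ hθ => ll04v_S_ok F hp12 hN5 γ hθ
  set lam0 : ℝ := skX N ^ F.pS * skX N ^ 2 with hlam0
  have hlam0p : 0 < lam0 := by positivity
  set η' : ℝ := lam0 * h0 / 3 with hη'
  have hη'p : 0 < η' := by positivity
  filter_upwards [l9v_bo_ev F N (C := C) (v0 := v0) hc hη'p, eventually_ge_atTop ({ghPosA 0} : Finset GhPos)] with Fs hV h01 s m γ θ hh hθ hθ' hhh _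
  refine ⟨fun v hv hmu _ => ?_⟩
  set Q := l9QS F llBase s Fs m N γ θ with hQ
  have hp : Q.p = l9PtS F N γ θ := rfl
  have hp1 : Q.p1 hh = l9PtS F N γ (θ + hh) := rfl
  have ha : Q.p.a = 4 := rfl
  have ha1 : (Q.p1 hh).a = Q.p.a := rfl
  have hcont : ∀ θ' ∈ Icc (0 : ℝ) (Real.log 2), ContinuousOn ((l9PtS F N γ θ').b F llBase) (Icc 0 4) := by
    intro θ' h'
    obtain ⟨m1, -, -, -, -, -, l1, -⟩ := hAdm _ (hok γ θ' h') hN2
    have hl0 : 0 ≤ (l9PtS F N γ θ').lam := (Real.rpow_pos_of_pos hx _).le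
    have := l9eb_b_cont (p := l9PtS F N γ θ') (L := |Ca| * F.cb * (l9PtS F N γ θ').lam)
      (mul_nonneg (mul_nonneg (abs_nonneg _) hF.cb0.le) hl0) m1 (fun v hv v' hv' h => (l1 v hv v' hv' h).trans (by
        have t1 : 0 ≤ v' := hv'.1
        have t2 : 0 ≤ v' - v := sub_nonneg.2 h
        refine mul_le_mul_of_nonneg_right (mul_le_mul_of_nonneg_right (mul_le_mul_of_nonneg_right
          (mul_le_mul_of_nonneg_right (le_abs_self _) hF.cb0.le) hl0) t1) t2))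
    rwa [l9t_S_a] at this
  obtain ⟨hu0, hpair⟩ := l9eb_pair Q hh (by rw [ha]; norm_num) ha1 (h01 (Finset.mem_singleton_self _)) (hcont θ hθ) (hcont _ hθ') hv hmu
  set u := trPm Q.ms v with hu
  have hδ : 0 < |hh| := by rw [hhh]; exact hh0
  -- the continuum part
  have okp := hok γ θ hθ
  have hβ : |(l9PtS F N γ θ).b F llBase u - (l9PtS F N γ θ).b0 F llBase| ≤ K * Q.lam * max u Q.U ^ 2 :=
    hP3 llBase (l9PtS F N γ θ) hx hxb okp.gu okp.g0 (Real.rpow_pos_of_pos hx _).le u hu0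
  -- `b∘` against `b_0`
  have hbo : ∀ θ' ∈ Icc (0 : ℝ) (Real.log 2), |Q.boAt (l9PtS F N γ θ') - (l9PtS F N γ θ').b0 F llBase| ≤ η' := by
    intro θ' h'
    exact hV s m _ rfl (hok γ θ' h') (hPr _ (hok γ θ' h') hN3).1 (hRef _ (hok γ θ' h') hN1)
  have key := l9eb_nrm (δ := |hh|) (β0 := (l9PtS F N γ θ).b F llBase u - (l9PtS F N γ θ).b0 F llBase)
    (β1 := (l9PtS F N γ (θ + hh)).b F llBase u - (l9PtS F N γ (θ + hh)).b0 F llBase)
    (e0 := Q.boAt (l9PtS F N γ θ) - (l9PtS F N γ θ).b0 F llBase)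
    (e1 := Q.boAt (l9PtS F N γ (θ + hh)) - (l9PtS F N γ (θ + hh)).b0 F llBase) (D := 0) hδ hβ
    (by rw [l9eb_siz F llBase N γ θ (θ + hh) u]; exact hβ) (by rw [l9eb_siz F llBase N γ θ (θ + hh) u, sub_self, abs_zero, mul_zero])
    (hbo θ hθ) (hbo _ hθ')
  have e : Q.bPair hh v = ((l9PtS F N γ θ).b F llBase u - (l9PtS F N γ θ).b0 F llBase - (Q.boAt (l9PtS F N γ θ) - (l9PtS F N γ θ).b0 F llBase),
      (l9PtS F N γ (θ + hh)).b F llBase u - (l9PtS F N γ (θ + hh)).b0 F llBase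
        - (Q.boAt (l9PtS F N γ (θ + hh)) - (l9PtS F N γ (θ + hh)).b0 F llBase)) := by
    rw [hpair, hp, hp1]
    refine Prod.ext ?_ ?_
    · show (l9PtS F N γ θ).b F llBase u - Q.boAt (l9PtS F N γ θ) = _
      ring
    · show (l9PtS F N γ (θ + hh)).b F llBase u - Q.boAt (l9PtS F N γ (θ + hh)) = _
      ring
  rw [e]
  refine key.trans ?_
  -- the numbers
  have hxU : skX N ≤ Q.U := l9es_x_le_U F (by linarith [hE.s_lo]) hE.p_lo.le llBase s Fs m (by omega) γ θ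
  have hl : Q.lam = skX N ^ F.pS := rfl
  have hm2 : skX N ^ 2 ≤ max u Q.U ^ 2 := pow_le_pow_left₀ hx.le (hxU.trans (le_max_right _ _)) 2
  have hsm : η' + 2 * η' / |hh| ≤ lam0 := by
    rw [hhh, hη']
    have : lam0 * h0 / 3 + 2 * (lam0 * h0 / 3) / h0 = lam0 * (h0 / 3 + 2 / 3) := by field_simp
    rw [this]
    nlinarith
  have hl0 : lam0 ≤ Q.lam * max u Q.U ^ 2 := by
    rw [hl]
    exact mul_le_mul_of_nonneg_left hm2 (Real.rpow_pos_of_pos hx _).le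
  have : (K + 1) * Q.lam * max u Q.U ^ 2 = K * Q.lam * max u Q.U ^ 2 + Q.lam * max u Q.U ^ 2 := by ring
  rw [this]
  linarith

/-! ## 6. THE STRENGTH SWEEP -/

/-- `min 1 (r a)` against `min 1 a` -/
theorem l9eb_min {a r : ℝ} (ha : 0 ≤ a) (hr : 0 ≤ r) : |min 1 (r * a) - min 1 a| ≤ |r - 1| * min 1 a := by
  have hm : 0 ≤ min 1 a := le_min zero_le_one ha
  rcases le_total 1 r with h | h
  · have h1 : min 1 a ≤ min 1 (r * a) := min_le_min le_rfl (by nlinarith)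
    have h2 : min 1 (r * a) ≤ r * min 1 a := by
      rw [mul_min_of_nonneg _ _ hr, mul_one]
      exact min_le_min h le_rfl
    rw [abs_of_nonneg (sub_nonneg.2 h1), abs_of_nonneg (sub_nonneg.2 h)]
    linarith
  · have h1 : min 1 (r * a) ≤ min 1 a := min_le_min le_rfl (by nlinarith)
    have h2 : r * min 1 a ≤ min 1 (r * a) := by
      rw [mul_min_of_nonneg _ _ hr, mul_one]
      exact min_le_min h le_rfl
    rw [abs_sub_comm, abs_sub_comm r 1, abs_of_nonneg (sub_nonneg.2 h1), abs_of_nonneg (sub_nonneg.2 h)]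
    linarith

/-- **`λ U_λ²` along the sweep**, `λ = e^t` -/
theorem l9eb_lamU {x t hh s : ℝ} (hx : 0 ≤ x) (hs0 : 0 ≤ s) (hs1 : s ≤ 1) (hh1 : |hh| ≤ 1) :
    |Real.exp (t + hh) * min 1 (x * Real.exp (t + hh) ^ (-(s / 2))) ^ 2 - Real.exp t * min 1 (x * Real.exp t ^ (-(s / 2))) ^ 2|
      ≤ 11 * Real.exp t * |hh| * min 1 (x * Real.exp t ^ (-(s / 2))) ^ 2 := by
  set a := x * Real.exp t ^ (-(s / 2)) with ha
  set r := Real.exp (-(s / 2) * hh) with hr
  have ha0 : 0 ≤ a := mul_nonneg hx (Real.rpow_nonneg (Real.exp_pos t).le _)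
  have e1 : x * Real.exp (t + hh) ^ (-(s / 2)) = r * a := by
    rw [ha, hr, ← Real.exp_mul, ← Real.exp_mul]
    have : (t + hh) * -(s / 2) = -(s / 2) * hh + t * -(s / 2) := by ring
    rw [this, Real.exp_add]
    ring
  rw [e1]
  set U := min 1 a with hU
  set U' := min 1 (r * a) with hU'
  have hU0 : 0 ≤ U := le_min zero_le_one ha0
  have hU'0 : 0 ≤ U' := le_min zero_le_one (mul_nonneg (Real.exp_pos _).le ha0)
  have hy : |-(s / 2) * hh| ≤ |hh| / 2 := by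
    rw [abs_mul, abs_neg, abs_of_nonneg (by linarith : 0 ≤ s / 2)]
    nlinarith [abs_nonneg hh]
  have hρ : |r - 1| ≤ |hh| := by
    have := Real.abs_exp_sub_one_le (x := -(s / 2) * hh) (by linarith)
    linarith
  have d1 : |U' - U| ≤ |hh| * U := (l9eb_min ha0 (Real.exp_pos _).le).trans (mul_le_mul_of_nonneg_right hρ hU0)
  have hab := abs_nonneg hh
  have d2 : U' ≤ 2 * U := by
    have := (abs_le.1 d1).2
    nlinarith
  have d3 : |U' ^ 2 - U ^ 2| ≤ 3 * |hh| * U ^ 2 := by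
    have : U' ^ 2 - U ^ 2 = (U' - U) * (U' + U) := by ring
    rw [this, abs_mul, abs_of_nonneg (add_nonneg hU'0 hU0)]
    calc |U' - U| * (U' + U) ≤ (|hh| * U) * (3 * U) := mul_le_mul d1 (by linarith) (add_nonneg hU'0 hU0) (mul_nonneg hab hU0)
      _ = _ := by ring
  have d4 : U' ^ 2 ≤ 4 * U ^ 2 := by
    calc U' ^ 2 ≤ (2 * U) ^ 2 := pow_le_pow_left₀ hU'0 d2 2
      _ = _ := by ring
  have d5 : |Real.exp (t + hh) - Real.exp t| ≤ 2 * Real.exp t * |hh| := by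
    rw [Real.exp_add]
    have : Real.exp t * Real.exp hh - Real.exp t = Real.exp t * (Real.exp hh - 1) := by ring
    rw [this, abs_mul, abs_of_pos (Real.exp_pos t)]
    have := Real.abs_exp_sub_one_le hh1
    nlinarith [Real.exp_pos t]
  have e2 : Real.exp (t + hh) * U' ^ 2 - Real.exp t * U ^ 2 = (Real.exp (t + hh) - Real.exp t) * U' ^ 2 + Real.exp t * (U' ^ 2 - U ^ 2) := by ring
  rw [e2]
  refine (abs_add_le _ _).trans ?_
  rw [abs_mul, abs_mul, abs_of_nonneg (sq_nonneg U'), abs_of_pos (Real.exp_pos t)]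
  have f1 : |Real.exp (t + hh) - Real.exp t| * U' ^ 2 ≤ (2 * Real.exp t * |hh|) * (4 * U ^ 2) :=
    mul_le_mul d5 d4 (sq_nonneg _) (by have := Real.exp_pos t; positivity)
  have f2 : Real.exp t * |U' ^ 2 - U ^ 2| ≤ Real.exp t * (3 * |hh| * U ^ 2) := mul_le_mul_of_nonneg_left d3 (Real.exp_pos t).le
  nlinarith

/-- **(P3) along the sweep**: `|Δ(b - b_0)| ≤ K λ |hh| max(v,U)²` -/
theorem l9eb_str (F : LlFix) (hF : F.Ok) (hs0 : 0 ≤ F.sS) (hs1 : F.sS ≤ 1) : ∃ K : ℝ, 0 ≤ K ∧ ∀ (𝔹 : LlBase) (N : ℕ) (ell : ℝ) (γ : Fin (N + 1) → ℝ) (t hh : ℝ),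
    0 < skX N → 8 * skX N ≤ F.vb → |hh| ≤ 1 → ∀ v, 0 ≤ v →
      |((l9PtL N ell γ t).b F 𝔹 v - (l9PtL N ell γ t).b0 F 𝔹) - ((l9PtL N ell γ (t + hh)).b F 𝔹 v - (l9PtL N ell γ (t + hh)).b0 F 𝔹)|
        ≤ K * Real.exp t * |hh| * max v ((l9PtL N ell γ t).U F) ^ 2 := by
  obtain ⟨CG, CD, cG, h1, h2, -, H⟩ := lcb_main F hF
  have hc1 := hF.c10
  have hcb := hF.cb0
  refine ⟨F.cb * (2 * ((1 + 4 * F.c1) * CG + F.c1 * CD * CG) + 11 * (1 + 4 * F.c1)), by positivity, fun 𝔹 N ell γ t hh hx hxb hh1 v hv => ?_⟩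
  set p := l9PtL N ell γ t with hp
  set p' := l9PtL N ell γ (t + hh) with hp'
  have hcl : ∀ y, ll04Cl y ∈ Icc (-4 : ℝ) 4 := fun y =>
    ⟨by linarith [(ll04w_cl_mem y).1], by linarith [(ll04w_cl_mem y).2]⟩
  have hg : ∀ h, p.gu h ∈ Icc (-4 : ℝ) 4 := by
    intro h
    show (if hh : h < N then ll04Cl (γ ⟨h + 1, Nat.succ_lt_succ hh⟩) else 1 / 2) ∈ Icc (-4 : ℝ) 4
    split_ifs
    · exact hcl _
    · constructor <;> norm_num
  have hg0 : p.gam0 ∈ Icc (-4 : ℝ) 4 := hcl _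
  obtain ⟨hmono, hz, -, hle, -, -, hdy, hdy0⟩ := H p hx hxb hg
  have hG0 : p.G F 0 = 0 := hz 0 hx.le
  have hG : 0 ≤ p.G F v := by rw [← hG0]; exact hmono hv
  have hD : |p.dySum F v| ≤ CD * p.G F v := by
    have := hdy 0 v le_rfl hv
    rwa [hdy0, hG0, sub_zero, sub_zero] at this
  have e1 : p'.G F v = p.G F v := rfl
  have e3 : p'.dySum F v = p.dySum F v := rfl
  have e5 : p'.gam0 = p.gam0 := rfl
  have el : p.lam = Real.exp t := rfl
  have el' : p'.lam = Real.exp (t + hh) := rfl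
  have eU : p.U F = min 1 (skX N * Real.exp t ^ (-(F.sS / 2))) := rfl
  have eU' : p'.U F = min 1 (skX N * Real.exp (t + hh) ^ (-(F.sS / 2))) := rfl
  have hLU := l9eb_lamU (x := skX N) (t := t) (hh := hh) (s := F.sS) hx.le hs0 hs1 hh1
  rw [← eU, ← eU'] at hLU
  set m := max v (p.U F) with hm
  have hU0 : 0 ≤ p.U F := by rw [eU]; exact le_min zero_le_one (mul_nonneg hx.le (Real.rpow_nonneg (Real.exp_pos t).le _))
  have hv2 : v ^ 2 ≤ m ^ 2 := pow_le_pow_left₀ hv (le_max_left _ _) 2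
  have hU2 : p.U F ^ 2 ≤ m ^ 2 := pow_le_pow_left₀ hU0 (le_max_right _ _) 2
  have hGm : p.G F v ≤ CG * m ^ 2 := (hle v hv).trans (mul_le_mul_of_nonneg_left hv2 (by linarith))
  set A := p.G F v - F.c1 * p.gam0 * p.G F v - F.c1 * p.dySum F v with hA
  have e : (p.b F 𝔹 v - p.b0 F 𝔹) - (p'.b F 𝔹 v - p'.b0 F 𝔹)
      = F.cb * ((Real.exp t - Real.exp (t + hh)) * A + (1 + F.c1 * p.gam0) * (Real.exp (t + hh) * p'.U F ^ 2 - Real.exp t * p.U F ^ 2)) := by
    simp only [LlPt.b, e1, e3, e5, el, el', hA]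
    ring
  have bA : |A| ≤ ((1 + 4 * F.c1) * CG + F.c1 * CD * CG) * m ^ 2 := by
    have hw : 0 ≤ F.c1 * p.G F v := mul_nonneg hc1.le hG
    have b1 : |F.c1 * p.gam0 * p.G F v| ≤ 4 * (F.c1 * p.G F v) := by
      have : F.c1 * p.gam0 * p.G F v = p.gam0 * (F.c1 * p.G F v) := by ring
      rw [this, abs_mul, abs_of_nonneg hw]
      exact mul_le_mul_of_nonneg_right (abs_le.2 hg0) hw
    have b2 : |F.c1 * p.dySum F v| ≤ F.c1 * (CD * p.G F v) := by
      rw [abs_mul, abs_of_pos hc1]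
      exact mul_le_mul_of_nonneg_left hD hc1.le
    have t1 := abs_le.1 b1
    have t2 := abs_le.1 b2
    have s1 : (1 + 4 * F.c1) * p.G F v ≤ (1 + 4 * F.c1) * (CG * m ^ 2) := mul_le_mul_of_nonneg_left hGm (by linarith)
    have s2 : F.c1 * (CD * p.G F v) ≤ F.c1 * (CD * (CG * m ^ 2)) :=
      mul_le_mul_of_nonneg_left (mul_le_mul_of_nonneg_left hGm h2) hc1.le
    rw [hA, abs_le]
    constructor <;> linarith
  have bg : |1 + F.c1 * p.gam0| ≤ 1 + 4 * F.c1 := by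
    have := abs_le.2 hg0
    have t := abs_add_le 1 (F.c1 * p.gam0)
    rw [abs_one, abs_mul, abs_of_pos hc1] at t
    nlinarith
  have d5 : |Real.exp t - Real.exp (t + hh)| ≤ 2 * Real.exp t * |hh| := by
    rw [abs_sub_comm, Real.exp_add]
    have : Real.exp t * Real.exp hh - Real.exp t = Real.exp t * (Real.exp hh - 1) := by ring
    rw [this, abs_mul, abs_of_pos (Real.exp_pos t)]
    have := Real.abs_exp_sub_one_le hh1
    nlinarith [Real.exp_pos t]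
  have hE := Real.exp_pos t
  have hab := abs_nonneg hh
  have hm2 := sq_nonneg m
  rw [e, abs_mul, abs_of_pos hcb]
  have f1 : |(Real.exp t - Real.exp (t + hh)) * A| ≤ (2 * Real.exp t * |hh|) * (((1 + 4 * F.c1) * CG + F.c1 * CD * CG) * m ^ 2) := by
    rw [abs_mul]
    exact mul_le_mul d5 bA (abs_nonneg _) (by positivity)
  have f2 : |(1 + F.c1 * p.gam0) * (Real.exp (t + hh) * p'.U F ^ 2 - Real.exp t * p.U F ^ 2)|
      ≤ (1 + 4 * F.c1) * (11 * Real.exp t * |hh| * m ^ 2) := by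
    rw [abs_mul]
    refine mul_le_mul bg (hLU.trans (mul_le_mul_of_nonneg_left hU2 (by positivity))) (abs_nonneg _) (by linarith)
  calc F.cb * _ ≤ F.cb * ((2 * Real.exp t * |hh|) * (((1 + 4 * F.c1) * CG + F.c1 * CD * CG) * m ^ 2)
          + (1 + 4 * F.c1) * (11 * Real.exp t * |hh| * m ^ 2)) :=
        mul_le_mul_of_nonneg_left ((abs_add_le _ _).trans (add_le_add f1 f2)) hcb.le
    _ = _ := by ring

/-- the points of the CLOSED strength sweep are admissible parameters -/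
theorem l9eb_L_ok (F : LlFix) {N : ℕ} (hN : 2 ≤ N) {ell : ℝ} (hl : ell ∈ Icc (1 : ℝ) ((2 : ℝ) ^ (1 / 6 : ℝ))) (γ : Fin (N + 1) → ℝ) {t : ℝ}
    (ht : t ∈ l9edRg F N) : (l9PtL N ell γ t).Ok F := by
  have hcl : ∀ y, ll04Cl y ∈ Icc (-4 : ℝ) 4 := fun y =>
    ⟨by linarith [(ll04w_cl_mem y).1], by linarith [(ll04w_cl_mem y).2]⟩
  have hr := l9ed_rg (F := F) (N := N) (by omega) ht
  refine ⟨hN, hl.1, hl.2, hr.1, hr.2, hcl _, fun h => ?_, ⟨le_rfl, zero_le_one⟩, ⟨zero_le_one, le_rfl⟩, fun h => absurd h (by simp [l9PtL, ll04Pt])⟩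
  show (if hh : h < N then ll04Cl (γ ⟨h + 1, Nat.succ_lt_succ hh⟩) else 1 / 2) ∈ Icc (-4 : ℝ) 4
  split_ifs
  · exact hcl _
  · constructor <;> norm_num

/-- **PRODUCER OF `InBD`, STRENGTH SWEEP**: distance `δ = Kd λ |hh|`, amplitude = a constant (no condition on the mass of the depth) -/
theorem l9eb_D (F : LlFix) (hE : LlExpOk F.sS F.eta F.pS) (h3 : LlSec3 llBase F) {Kd : ℝ} (hKd : 0 < Kd) :
    ∃ Eb : ℝ, 0 ≤ Eb ∧ ∀ cm : L9Q → ℝ, L9edSb llBase F fun _ Q hh => Q.InBD Eb (cm Q) (Kd * Q.lam * |hh|) hh := by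
  have hF := h3.ok
  obtain ⟨K, hK0, hP3⟩ := l9eb_P3 F hF
  obtain ⟨K', hK'0, hStr⟩ := l9eb_str F hF (by linarith [hE.s_lo]) (by linarith [hE.s_hi])
  obtain ⟨c, C, v0, hc, -, N1, hRef⟩ := h3.ref
  obtain ⟨ca, Ca, -, N2, hAdm⟩ := h3.adm
  obtain ⟨N3, hPr⟩ := l9ph_unif_prof llBase F h3.dirProf
  obtain ⟨N4, hN4⟩ := l9es_small 1 (F.vb / 8) one_pos (by have := hF.vb0; positivity)
  refine ⟨K + K' + K' / Kd + 1, by positivity, fun cm Kη _ => ⟨max (max N1 N2) (max (max N3 N4) 2), fun N hN => ⟨1, one_pos, fun h0 hh0 hh1 => ?_⟩⟩⟩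
  have hN1 : N1 ≤ N := ((le_max_left _ _).trans (le_max_left _ _)).trans hN
  have hN2 : N2 ≤ N := ((le_max_right _ _).trans (le_max_left _ _)).trans hN
  have hN3 : N3 ≤ N := (((le_max_left _ _).trans (le_max_left _ _)).trans (le_max_right _ _)).trans hN
  have hN4' : N4 ≤ N := (((le_max_right _ _).trans (le_max_left _ _)).trans (le_max_right _ _)).trans hN
  have hN5 : 2 ≤ N := ((le_max_right _ _).trans (le_max_right _ _)).trans hN
  have hx : 0 < skX N := l9b_skX_pos (by omega)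
  have hx1 : skX N ≤ 1 := l9b_skX_le_one (by omega)
  have hxb : 8 * skX N ≤ F.vb := by
    have := hN4 N hN4'
    rw [Real.rpow_one] at this
    linarith
  set d0 : ℝ := Kd * skX N ^ (12 : ℝ) * h0 with hd0
  have hd0p : 0 < d0 := by positivity
  set η' : ℝ := skX N ^ 2 * min 1 d0 / 3 with hη'
  have hη'p : 0 < η' := by have := lt_min one_pos hd0p; positivity
  filter_upwards [l9v_bo_ev F N (C := C) (v0 := v0) hc hη'p, eventually_ge_atTop ({ghPosA 0} : Finset GhPos)] with Fs hV h01 s m ell γ t hh hell ht ht' hhh _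
  refine ⟨fun _ v hv hmu _ => ?_⟩
  have hok : ∀ t' ∈ l9edRg F N, (l9PtL N ell γ t').Ok F := fun t' h' => l9eb_L_ok F hN5 hell γ h'
  set Q := l9QD F llBase s Fs m N ell γ t with hQ
  have hp : Q.p = l9PtL N ell γ t := rfl
  have hp1 : Q.p1 hh = l9PtL N ell γ (t + hh) := rfl
  have ha : Q.p.a = ell := rfl
  have ha1 : (Q.p1 hh).a = Q.p.a := rfl
  have hell0 : (0 : ℝ) ≤ ell := zero_le_one.trans hell.1
  have hcont : ∀ t' ∈ l9edRg F N, ContinuousOn ((l9PtL N ell γ t').b F llBase) (Icc 0 ell) := by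
    intro t' h'
    obtain ⟨m1, -, -, -, -, -, l1, -⟩ := hAdm _ (hok t' h') hN2
    have hl0 : 0 ≤ (l9PtL N ell γ t').lam := (Real.exp_pos t').le
    have := l9eb_b_cont (p := l9PtL N ell γ t') (L := |Ca| * F.cb * (l9PtL N ell γ t').lam)
      (mul_nonneg (mul_nonneg (abs_nonneg _) hF.cb0.le) hl0) m1 (fun v hv v' hv' h => (l1 v hv v' hv' h).trans (by
        have t1 : 0 ≤ v' := hv'.1
        have t2 : 0 ≤ v' - v := sub_nonneg.2 h
        refine mul_le_mul_of_nonneg_right (mul_le_mul_of_nonneg_right (mul_le_mul_of_nonneg_right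
          (mul_le_mul_of_nonneg_right (le_abs_self _) hF.cb0.le) hl0) t1) t2))
    rwa [l9t_L_a] at this
  obtain ⟨hu0, hpair⟩ := l9eb_pair Q hh (by rw [ha]; exact hell0) ha1 (h01 (Finset.mem_singleton_self _)) (hcont t ht) (hcont _ ht') hv hmu
  set u := trPm Q.ms v with hu
  have hl : Q.lam = Real.exp t := rfl
  have hlp : 0 < Q.lam := Real.exp_pos t
  have hr := l9ed_rg (F := F) (N := N) (by omega) ht
  have hl1 : Q.lam ≤ 1 := hr.2.trans (Real.rpow_le_one hx.le hx1 hE.p_lo.le)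
  have hδ : 0 < Kd * Q.lam * |hh| := by rw [hhh]; positivity
  have hh1' : |hh| ≤ 1 := by rw [hhh]; exact hh1
  set M2 := max u Q.U ^ 2 with hM2
  have hM20 : 0 ≤ M2 := sq_nonneg _
  have hUU : ∀ t', (l9PtL N ell γ t').U F = (l9QD F llBase s Fs m N ell γ t').U := fun _ => rfl
  -- the continuum part at the two ends
  have okp := hok t ht
  set β0 := (l9PtL N ell γ t).b F llBase u - (l9PtL N ell γ t).b0 F llBase with hβ0d
  set β1 := (l9PtL N ell γ (t + hh)).b F llBase u - (l9PtL N ell γ (t + hh)).b0 F llBase with hβ1d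
  have hβ0 : |β0| ≤ K * M2 := by
    refine (hP3 llBase (l9PtL N ell γ t) hx hxb okp.gu okp.g0 (Real.exp_pos t).le u hu0).trans ?_
    have : K * (l9PtL N ell γ t).lam * max u ((l9PtL N ell γ t).U F) ^ 2 = Q.lam * (K * M2) := by
      rw [hM2, hl]
      show K * Real.exp t * max u Q.U ^ 2 = _
      ring
    rw [this]
    exact mul_le_of_le_one_left (mul_nonneg hK0 hM20) hl1
  have hd : |β0 - β1| ≤ Kd * Q.lam * |hh| * (K' / Kd * M2) := by
    refine (hStr llBase N ell γ t hh hx hxb hh1' u hu0).trans (le_of_eq ?_)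
    rw [hM2, hl]
    show K' * Real.exp t * |hh| * max u Q.U ^ 2 = _
    field_simp
  have hK'M : 0 ≤ K' * M2 := mul_nonneg hK'0 hM20
  have hd' : |β0 - β1| ≤ K' * M2 := by
    refine hd.trans ?_
    have : Kd * Q.lam * |hh| * (K' / Kd * M2) = (Q.lam * |hh|) * (K' * M2) := by field_simp
    rw [this]
    exact mul_le_of_le_one_left hK'M (mul_le_one₀ hl1 (abs_nonneg _) hh1')
  -- `b∘` against `b_0`
  have hbo : ∀ t' ∈ l9edRg F N, |Q.boAt (l9PtL N ell γ t') - (l9PtL N ell γ t').b0 F llBase| ≤ η' := by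
    intro t' h'
    exact hV s m _ rfl (hok t' h') (hPr _ (hok t' h') hN3).1 (hRef _ (hok t' h') hN1)
  have hβ1 : |β1| ≤ K * M2 + K' * M2 := by
    have t1 := abs_sub_abs_le_abs_sub β1 β0
    rw [abs_sub_comm β1 β0] at t1
    linarith
  have key := l9eb_nrm (δ := Kd * Q.lam * |hh|) (β0 := β0) (β1 := β1)
    (e0 := Q.boAt (l9PtL N ell γ t) - (l9PtL N ell γ t).b0 F llBase)
    (e1 := Q.boAt (l9PtL N ell γ (t + hh)) - (l9PtL N ell γ (t + hh)).b0 F llBase) hδ (hβ0.trans (by linarith)) hβ1 hd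
    (hbo t ht) (hbo _ ht')
  have e : Q.bPair hh v = (β0 - (Q.boAt (l9PtL N ell γ t) - (l9PtL N ell γ t).b0 F llBase),
      β1 - (Q.boAt (l9PtL N ell γ (t + hh)) - (l9PtL N ell γ (t + hh)).b0 F llBase)) := by
    rw [hpair, hp, hp1]
    refine Prod.ext ?_ ?_
    · show (l9PtL N ell γ t).b F llBase u - Q.boAt (l9PtL N ell γ t) = _
      rw [hβ0d]
      ring
    · show (l9PtL N ell γ (t + hh)).b F llBase u - Q.boAt (l9PtL N ell γ (t + hh)) = _
      rw [hβ1d]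
      ring
  rw [e]
  refine key.trans ?_
  -- the numbers
  have hxU : skX N ≤ Q.U := l9ed_x_le_U F (by linarith [hE.s_lo]) hE.p_lo.le llBase s Fs m (by omega) ell γ ht
  have hm2 : skX N ^ 2 ≤ M2 := pow_le_pow_left₀ hx.le (hxU.trans (le_max_right _ _)) 2
  have hdδ : d0 ≤ Kd * Q.lam * |hh| := by
    rw [hd0, hhh, hl]
    exact mul_le_mul_of_nonneg_right (mul_le_mul_of_nonneg_left hr.1 hKd.le) hh0.le
  have hx2 : 0 < skX N ^ 2 := by positivity
  have hsm : η' + 2 * η' / (Kd * Q.lam * |hh|) ≤ skX N ^ 2 := by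
    have s1 : η' ≤ skX N ^ 2 / 3 := by
      rw [hη']
      have : skX N ^ 2 * min 1 d0 ≤ skX N ^ 2 * 1 := mul_le_mul_of_nonneg_left (min_le_left _ _) hx2.le
      linarith
    have s2 : 2 * η' / (Kd * Q.lam * |hh|) ≤ 2 * skX N ^ 2 / 3 := by
      rw [div_le_iff₀ hδ, hη']
      have a1 : skX N ^ 2 * min 1 d0 ≤ skX N ^ 2 * (Kd * Q.lam * |hh|) :=
        mul_le_mul_of_nonneg_left ((min_le_right _ _).trans hdδ) hx2.le
      linarith
    linarith
  have : (K + K' + K' / Kd + 1) * M2 = K * M2 + K' * M2 + K' / Kd * M2 + M2 := by ring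
  rw [this]
  linarith

end Claimed.Agent.R286
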