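import Claimed.Agent.R286.L09.GridKI
import Claimed.Agent.R286.L09.GridP
import Claimed.Agent.R286.L08.DdLink

/-!
# Row 286 (S0533), LL 09, PHYSICAL LAYER, file TD: K-TAYLOR ON THE DIRECT PATH, CHAIN FORM AND EXITS      (owner helper156; head of the unit helper60; prefix `l9t2_`, `l9t2Ext`; 0 sorry)

`K_t(v) = ℓ⁻² (A_0 + e^t P)⁻¹(v/ℓ)`, `t = log λ` (LL 03 l.113-117).   `L09/PhysT.lean` = second order expansion in `t` at every mass (`L9t2D`).   THIS FILE = what the consumers read.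
* §1 `l9t2_inv_cont`      the generalised inverse of a STRICTLY increasing mass profile is continuous on `[0, j]` (jumps of the profile = flat pieces of the inverse; no density bound is used);
* §2 `l9t2_at_cont`       a continuous clock with `c 0 = 0` has no jump: `ghAt a c p = c p.u`;   `l9t2_cum`: `llCumK (l9Stp a b h K 0 0 0 ps) j = K (l9kiM a ps (min j ps.length))`;
* §3 `l9t2_dir_strict`, `l9t2_clk_abs`, **`l9t2_clk_dir`**   the clock package of a direct point: `GhClk1`, `K 0 = 0`, continuity on `[0, ℓ]`, no jump (direct half of `L8ddSupC`);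
* §4 **`l9t2_in`**        `L9gIn a (fun θ => l9Stp a (b θ) (h θ) (K θ) 0 0 0 ps) t s δ ε c0` for a kink-free `C^{1,1}` family of clocks, ANY chain, any `δ ≥ C |s|`, `ε ≥ δ², (a + 1) C s²`;
* §5 **`l9t2_gkd`**, **`l9t2_KD`** = `L9gKD 𝔹 F v1` (263, GRID, K-part of the strength sweep): NO `Dif`, EVERY chain (not only the fine ones), every `c0`;
* §6 `l9t2_kp_dir`, **`l9t2_supKD`** : `L8ddSupKD F 𝔹 N0` (`L08/DdLink`, 226);   `l9t2_of_raw` : `L9t2S`, `L9t2D` from the raw field `LlSec3.prof`.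
* §7 `l9t2_VD`           (V) at time `0` on the chains in use (body of `L9gVD llBase F`, 263): `V_zz(0,0)²` of the chain `→ Γ'(0)` uniformly at fixed `N` (from `l9v_evF` of 120).
TEX[LL:paths:parameter-regularity] TEX[LL:exp:prop-low-coefficients]
-/

set_option autoImplicit false

namespace Claimed.Agent.R286

open MeasureTheory Set Filter Topology

/-! ## 1. continuity of the generalised inverse of a strictly increasing profile -/

/-- total monotone extension of the generalised inverse: the identity below `0`, slope `1` above the terminal mass -/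
noncomputable def l9t2Ext (A : ℝ → ℝ) (τ j w : ℝ) : ℝ := if w < 0 then w else if w ≤ j then llInv A w else τ + (w - j)

theorem l9t2_eqns_cite2 : True := by
  have := @l9t2Ext.eq_1
  trivial

section inv

variable {A : ℝ → ℝ} {τ j : ℝ} (hA : LpqProf A τ j)

include hA

theorem l9t2_ext_mono : Monotone (l9t2Ext A τ j) := by
  intro w w' hww
  unfold l9t2Ext
  by_cases h1 : w < 0
  · rw [if_pos h1]
    by_cases h2 : w' < 0
    · rw [if_pos h2]; exact hww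
    · rw [if_neg h2]
      by_cases h3 : w' ≤ j
      · rw [if_pos h3]; exact h1.le.trans (lpq_inv_nonneg _ _)
      · rw [if_neg h3]
        have := hA.tau
        have h3' := not_le.1 h3
        linarith
  · have h2 : ¬ w' < 0 := fun h => h1 (lt_of_le_of_lt hww h)
    rw [if_neg h1, if_neg h2]
    by_cases h3 : w' ≤ j
    · rw [if_pos h3, if_pos (hww.trans h3)]; exact lpq_inv_mono hA w w' hww h3
    · rw [if_neg h3]
      have h3' := not_le.1 h3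
      by_cases h4 : w ≤ j
      · rw [if_pos h4]
        have := lpq_inv_le_tau hA w h4
        linarith
      · rw [if_neg h4]; linarith

theorem l9t2_ext_surj (hs : ∀ ξ' ξ, 0 ≤ ξ' → ξ' < ξ → ξ ≤ τ → A ξ' < A ξ) : Function.Surjective (l9t2Ext A τ j) := by
  intro y
  rcases lt_or_ge y 0 with h | h
  · exact ⟨y, by unfold l9t2Ext; rw [if_pos h]⟩
  rcases le_or_gt y τ with h1 | h1
  · have hm := hA.mem_Icc y h
    refine ⟨A y, ?_⟩
    unfold l9t2Ext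
    rw [if_neg (not_lt.2 hm.1), if_pos hm.2]
    exact lpq_inv_at hA y h fun ξ' h0 hlt => hs ξ' y h0 hlt h1
  · refine ⟨j + (y - τ), ?_⟩
    have hj := hA.j_nonneg
    unfold l9t2Ext
    rw [if_neg (not_lt.2 (by linarith)), if_neg (not_le.2 (by linarith))]
    ring

/-- **the generalised inverse of a strictly increasing mass profile is continuous** (the profile may jump) -/
theorem l9t2_inv_cont (hs : ∀ ξ' ξ, 0 ≤ ξ' → ξ' < ξ → ξ ≤ τ → A ξ' < A ξ) : ContinuousOn (llInv A) (Icc 0 j) :=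
  ((l9t2_ext_mono hA).continuous_of_surjective (l9t2_ext_surj hA hs)).continuousOn.congr fun w hw => by
    unfold l9t2Ext; rw [if_neg (not_lt.2 hw.1), if_pos hw.2]

end inv

/-! ## 2. continuous clocks on a chain -/

theorem l9t2_clamp_cont {a : ℝ} (ha : 0 ≤ a) {c : ℝ → ℝ} (hc : ContinuousOn c (Icc 0 a)) (h0 : c 0 = 0) : Continuous (ghClamp a c) := by
  have e : ghClamp a c = fun u => c (max 0 (min u a)) := by
    funext u
    unfold ghClamp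
    by_cases hu : u < 0
    · rw [if_pos hu, max_eq_left ((min_le_left _ _).trans hu.le), h0]
    · rw [if_neg hu, max_eq_right (le_min (not_lt.1 hu) ha)]
  rw [e]
  exact hc.comp_continuous (by fun_prop) fun u => ⟨le_max_left _ _, max_le ha (min_le_right _ _)⟩

/-- a continuous clock which starts at `0` has no jump: its value at a position is its value at the mass -/
theorem l9t2_at_cont {a : ℝ} (ha : 0 ≤ a) {c : ℝ → ℝ} (hc : ContinuousOn c (Icc 0 a)) (h0 : c 0 = 0) {p : GhPos} (hp : p.Ok a) :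
    ghAt a c p = c p.u := by
  have hcont : ContinuousAt (ghClamp a c) p.u := (l9t2_clamp_cont ha hc h0).continuousAt
  have hl : Function.leftLim (ghClamp a c) p.u = ghClamp a c p.u := hcont.continuousWithinAt.leftLim_eq
  have hr : Function.rightLim (ghClamp a c) p.u = ghClamp a c p.u := hcont.continuousWithinAt.rightLim_eq
  unfold ghAt
  rw [hl, hr, sub_self, mul_zero, add_zero]
  unfold ghClamp
  rw [if_neg (not_lt.2 hp.1), min_eq_left hp.2.1]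

/-- the cumulative scalar clock of the chain = the clock at the LEFT mass of the cut      (`l9ki_cum` of 229 with "no jump on the chain" instead of a Lipschitz bound) -/
theorem l9t2_cum (a : ℝ) (b h : ℝ → ℝ) {K : ℝ → ℝ} (h0 : K 0 = 0) {ps : List GhPos} (hat : ∀ p ∈ ps, ghAt a K p = K p.u) (j : ℕ) :
    llCumK (l9Stp a b h K 0 0 0 ps) j = K (l9kiM a ps (min j ps.length)) := by
  have hlen := l9d_stp_length a b h K ps 0 0 0
  have hle : ∀ j, j ≤ ps.length → llCumK (l9Stp a b h K 0 0 0 ps) j = K (l9kiM a ps j) := by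
    intro j hj
    rcases j with _ | j
    · rw [l9ki_M_zero, h0]; simp [llCumK]
    · rw [(l8f_cum a b h K ps j hj).2.2, l9ki_M_lt a ps hj]
      exact hat _ (List.getElem_mem _)
  rcases le_total j ps.length with hj | hj
  · rw [min_eq_left hj]; exact hle j hj
  · rw [min_eq_right hj, ← hle _ le_rfl]
    unfold llCumK
    rw [List.take_of_length_le (by rw [hlen]; exact hj), List.take_of_length_le (by rw [hlen])]

/-! ## 3. the clock package of a direct point -/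

section dirC

variable {A0 P : ℝ → ℝ} {ξs pT ca Ca ξ1 z0 LP lam : ℝ}
  (hb : LkkBase A0 ξs pT ca Ca ξ1) (hP : LkkCut P z0 LP) (hz : z0 ≤ ξ1) (hl0 : 0 ≤ lam) (hl : lam * LP ≤ ca / 2)
  (hst : StrictMonoOn A0 (Icc 0 ξs))

include hb hP hz hl0 hl hst

/-- the direct profile is strictly increasing on `[0, ξ_*]` -/
theorem l9t2_dir_strict (ξ' ξ : ℝ) (h0 : 0 ≤ ξ') (h1 : ξ' < ξ) (h2 : ξ ≤ ξs) : lkkDir A0 P lam ξ' < lkkDir A0 P lam ξ := by
  have hca := hb.ca0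
  rcases le_or_gt ξ ξ1 with c | c
  · have := lkk_dir_lo hb hP hz hl0 hl ξ' ξ h0 h1.le c
    have : 0 < ca / 2 * (ξ - ξ') := mul_pos (by linarith) (by linarith)
    linarith
  rw [lkk_dir_far hb hP hz hl0 hl ξ (hz.trans c.le)]
  rcases le_or_gt z0 ξ' with d | d
  · rw [lkk_dir_far hb hP hz hl0 hl ξ' d]
    exact hst ⟨h0, h1.le.trans h2⟩ ⟨h0.trans h1.le, h2⟩ h1
  · have a1 := lkk_dir_lo hb hP hz hl0 hl ξ' ξ1 h0 (d.le.trans hz) le_rfl
    have a2 : 0 < ca / 2 * (ξ1 - ξ') := mul_pos (by linarith) (by linarith)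
    have a3 : lkkDir A0 P lam ξ1 = A0 ξ1 := lkk_dir_far hb hP hz hl0 hl ξ1 hz
    have a4 : A0 ξ1 ≤ A0 ξ := hb.mono c.le
    linarith

/-- the clock `ℓ⁻² (A_0 + λ P)⁻¹(v/ℓ)`: monotone, starts at `0`, continuous on `[0, ℓ]` -/
theorem l9t2_clk_abs {ell : ℝ} (hell : 1 ≤ ell) :
    GhClk1 ell (lkkK (lkkDir A0 P lam) ell) ∧ lkkK (lkkDir A0 P lam) ell 0 = 0 ∧ ContinuousOn (lkkK (lkkDir A0 P lam) ell) (Icc 0 ell) := by
  have hA := lkk_dir_prof hb hP hz hl0 hl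
  have hA0 := lkk_dir_zero hb hP hz hl0 hl
  have hl' : 0 < ell := by linarith
  have h0 : lkkK (lkkDir A0 P lam) ell 0 = 0 := lkk_K_zero hA hA0 hell
  refine ⟨⟨(lkk_K_mono hA hell).mono fun v hv => mem_Iic.2 (by rw [mul_one]; exact hv.2), h0.ge⟩, h0, ?_⟩
  have hc := l9t2_inv_cont hA (l9t2_dir_strict hb hP hz hl0 hl hst)
  unfold lkkK
  refine continuousOn_const.mul (hc.comp (continuous_id.div_const ell).continuousOn fun v hv => ?_)
  exact ⟨div_nonneg hv.1 hl'.le, (div_le_one hl').2 hv.2⟩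

end dirC

/-- **the clock package of the direct points**, uniformly: admissible clock, `K 0 = 0`, continuity, no jump      (direct half of `L8ddSupC`, `L08/DdLink`) -/
theorem l9t2_clk_dir {𝔹 : LlBase} {F : LlFix} {ca Ca ξ1 : ℝ} (hF : F.Ok)
    (hB : LkkBase (𝔹.A0 F.T) (𝔹.xiS F.T) (𝔹.pTop F.T) ca Ca ξ1) (hz : F.z0 ≤ ξ1) (hst : StrictMonoOn (𝔹.A0 F.T) (Icc 0 (𝔹.xiS F.T))) :
    LlUnif F fun p => p.sm = false → GhClk1 p.ell (p.K F 𝔹) ∧ p.K F 𝔹 0 = 0 ∧ ContinuousOn (p.K F 𝔹) (Icc 0 p.ell) ∧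
      ∀ pos : GhPos, pos.Ok p.ell → ghAt p.ell (p.K F 𝔹) pos = p.K F 𝔹 pos.u := by
  obtain ⟨LP, hP⟩ := lkk_cut F hF
  have hca := hB.ca0
  have hLP := hP.LP0
  obtain ⟨N1, hN1⟩ := lkk_lam_small hF (ε := ca / 2 / (LP + 1)) (by positivity)
  refine ⟨N1, fun p hp hN hsm => ?_⟩
  have hl0 := (lkk_lam_pos hp).le
  have hl : p.lam * LP ≤ ca / 2 := by
    have a1 := hN1 p hp hN
    have a2 : p.lam * (LP + 1) ≤ ca / 2 := by rwa [le_div_iff₀ (by linarith)] at a1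
    nlinarith
  have eK : p.K F 𝔹 = lkkK (lkkDir (𝔹.A0 F.T) F.P p.lam) p.ell := by
    funext v
    exact l9t2_K_dir p F 𝔹 hsm p.lam v
  obtain ⟨c1, c2, c3⟩ := l9t2_clk_abs hB hP hz hl0 hl hst hp.ell1
  rw [eK]
  exact ⟨c1, c2, c3, fun pos hpos => l9t2_at_cont (by linarith [hp.ell1]) c3 c2 hpos⟩

/-! ## 4. the input `L9gIn` of (M) for a kink-free `C^{1,1}` family of clocks -/

/-- **abstract form**: `K θ` = a family of clocks without jump on the chain `ps` near `t` and at `t + s`; second order expansion in `θ` at `t`, uniformly in the mass.   ANY chain; every level is "low". -/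
theorem l9t2_in {a : ℝ} {ps : List GhPos} (ha : 0 < a) (hs : ps.Pairwise (· ≤ ·)) (hok : ∀ p ∈ ps, p.Ok a)
    (b h K : ℝ → ℝ → ℝ) (Kd : ℝ → ℝ) {t s C δ ε : ℝ} (c0 : ℕ) (hs1 : |s| ≤ 1)
    (hnear : ∀ᶠ t' in 𝓝 t, GhClk1 a (K t') ∧ K t' 0 = 0 ∧ ∀ p ∈ ps, ghAt a (K t') p = K t' p.u)
    (hfar : GhClk1 a (K (t + s)) ∧ K (t + s) 0 = 0 ∧ ∀ p ∈ ps, ghAt a (K (t + s)) p = K (t + s) p.u)
    (hT : ∀ v ∈ Icc 0 a, ∀ r : ℝ, |r| ≤ 1 → |K (t + r) v - K t v - r * Kd v| ≤ C * r ^ 2 ∧ |K (t + r) v - K t v| ≤ C * |r|)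
    (hδ0 : 0 < δ) (hδ : C * |s| ≤ δ) (hsq : δ ^ 2 ≤ ε) (hε : (a + 1) * (C * s ^ 2) ≤ ε) :
    L9gIn a (fun θ => l9Stp a (b θ) (h θ) (K θ) 0 0 0 ps) t s δ ε c0 := by
  set m := l9kiM a ps with hm
  set n := ps.length with hn
  have hmm : Monotone m := l9ki_M_mono ha.le hs hok
  have hmem : ∀ j, m j ∈ Icc 0 a := l9ki_M_mem ha.le hok
  have hev : ∀ᶠ t' in 𝓝 t, ∀ j, llCumK (l9Stp a (b t') (h t') (K t') 0 0 0 ps) j = K t' (m (min j n)) := by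
    filter_upwards [hnear] with t' h1 j using l9t2_cum a (b t') (h t') h1.2.1 h1.2.2 j
  have hv0 := hev.self_of_nhds
  have hv1 : ∀ j, llCumK (l9Stp a (b (t + s)) (h (t + s)) (K (t + s)) 0 0 0 ps) j = K (t + s) (m (min j n)) :=
    fun j => l9t2_cum a _ _ hfar.2.1 hfar.2.2 j
  have hder : ∀ j, HasDerivAt (fun t' => llCumK (l9Stp a (b t') (h t') (K t') 0 0 0 ps) j) (Kd (m (min j n))) t := by
    intro j
    have h1 : HasDerivAt (fun t' => K t' (m (min j n))) (Kd (m (min j n))) t :=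
      l9t2_hasDeriv_of_sq (C := C) fun r hr => (hT _ (hmem _) r hr).1
    refine h1.congr_of_eventuallyEq ?_
    filter_upwards [hev] with t' h2 using h2 j
  have hDK : ∀ j, l9gDK (fun θ => l9Stp a (b θ) (h θ) (K θ) 0 0 0 ps) t s j ≤ C * s ^ 2 := by
    intro j
    unfold l9gDK
    rw [(hder j).deriv, hv1 j, hv0 j]
    exact (hT _ (hmem _) s hs1).1
  have hCs : 0 ≤ C * s ^ 2 := (abs_nonneg _).trans (hT 0 ⟨le_rfl, ha.le⟩ s hs1).1
  have hle1 : C * s ^ 2 ≤ ε := by nlinarith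
  refine ⟨ha, fun t' => ?_, ?_, ?_, fun j => (hder j).differentiableAt, hδ0, hsq, fun j => ?_, ?_, fun j _ => (hDK j).trans hle1⟩
  · show l9pM _ = l9pM _
    unfold l9pM
    rw [l9d_stp_m, l9d_stp_m]
  · filter_upwards [hnear] with t' h1 using l9ki_adm ha.le _ _ h1.1 hs hok
  · exact l9ki_adm ha.le _ _ hfar.1 hs hok
  · show |llCumK (l9Stp a (b (t + s)) (h (t + s)) (K (t + s)) 0 0 0 ps) j - llCumK (l9Stp a (b t) (h t) (K t) 0 0 0 ps) j| ≤ _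
    rw [hv1 j, hv0 j]
    exact (hT _ (hmem _) s hs1).2.trans hδ
  · show ∑ j ∈ Finset.range ((l9Stp a (b t) (h t) (K t) 0 0 0 ps).length + 1), _ ≤ _
    rw [l9d_stp_length]
    calc _ ≤ ∑ j ∈ Finset.range (n + 1), (m (j + 1) - m j) * (C * s ^ 2) := by
          refine Finset.sum_le_sum fun j _ => ?_
          rw [l9ki_ms, l9ki_pm]
          exact mul_le_mul_of_nonneg_left (hDK j) (sub_nonneg.2 (hmm (Nat.le_succ j)))
      _ = (m (n + 1) - m 0) * (C * s ^ 2) := by rw [← Finset.sum_mul, Finset.sum_range_sub]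
      _ = a * (C * s ^ 2) := by rw [hm, l9ki_M_ge a ps le_rfl, l9ki_M_zero, sub_zero]
      _ ≤ ε := by nlinarith

/-! ## 5. the strength sweep: the K-part of the physical layer of (M) -/

theorem l9t2_ptL_a (N : ℕ) (ell : ℝ) (γ : Fin (N + 1) → ℝ) (t : ℝ) : (l9PtL N ell γ t).a = ell := by
  simp [l9PtL, ll04Pt, LlPt.a]

/-- the points of the strength sweep are in the range (P1) -/
theorem l9t2_ptL_ok (F : LlFix) {N : ℕ} (hN : 2 ≤ N) {ell : ℝ} (hell : ell ∈ Icc (1 : ℝ) ((2 : ℝ) ^ (1 / 6 : ℝ))) (γ : Fin (N + 1) → ℝ) {t : ℝ}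
    (ht : t ∈ l9LamRg F N) : (l9PtL N ell γ t).Ok F := by
  have hx := ll04w_x_mem (N := N) (by omega)
  have hcl : ∀ y, ll04Cl y ∈ Icc (-4 : ℝ) 4 := fun y =>
    ⟨by linarith [(ll04w_cl_mem y).1], by linarith [(ll04w_cl_mem y).2]⟩
  refine ⟨hN, hell.1, hell.2, ?_, ?_, hcl _, fun h => ?_, ⟨le_rfl, zero_le_one⟩, ⟨zero_le_one, le_rfl⟩, fun h => absurd h (by simp [l9PtL, ll04Pt])⟩
  · show skX N ^ (12 : ℝ) ≤ Real.exp t
    rw [Real.rpow_def_of_pos hx.1]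
    exact Real.exp_le_exp.2 (by linarith [ht.1])
  · show Real.exp t ≤ skX N ^ F.pS
    rw [Real.rpow_def_of_pos hx.1]
    exact Real.exp_le_exp.2 (by linarith [ht.2])
  · show (if hh : h < N then ll04Cl (γ ⟨h + 1, Nat.succ_lt_succ hh⟩) else 1 / 2) ∈ Icc (-4 : ℝ) 4
    split_ifs
    · exact hcl _
    · constructor <;> norm_num

/-- the fine paths of the strength sweep: FIXED chain, the clocks move -/
theorem l9t2_QD_Pf (F : LlFix) (𝔹 : LlBase) (s : ℝ) (Fs : Finset GhPos) (m N : ℕ) (ell : ℝ) (γ : Fin (N + 1) → ℝ) (t : ℝ) :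
    (l9QD F 𝔹 s Fs m N ell γ t).Pf = fun θ => l9Stp ell ((l9PtL N ell γ θ).b F 𝔹) ((l9PtL N ell γ θ).h F 𝔹) ((l9PtL N ell γ θ).K F 𝔹) 0 0 0
      (ghPs ell (l9Fl Fs)) := by
  funext θ
  show (⟨F, 𝔹, s, Fs, m⟩ : L9I).P (l9PtL N ell γ θ) = _
  unfold L9I.P L9I.ps
  rw [l9t2_ptL_a]

/-- **K-PART OF THE STRENGTH SWEEP, sharp form**: `D` does not depend on `N`; EVERY chain, every `c0`, every `ε ≥ (D h)²`; no differentiability is assumed. -/
theorem l9t2_gkd_core {𝔹 : LlBase} {F : LlFix} {ca Ca ξ1 : ℝ} {a1 : ℝ → ℝ} (hF : F.Ok)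
    (hB : LkkBase (𝔹.A0 F.T) (𝔹.xiS F.T) (𝔹.pTop F.T) ca Ca ξ1) (hz : F.z0 ≤ ξ1) (hst : StrictMonoOn (𝔹.A0 F.T) (Icc 0 (𝔹.xiS F.T)))
    (hD : L9t2D 𝔹 F a1) :
    ∃ (N0 : ℕ) (D : ℝ), 1 ≤ D ∧ ∀ N : ℕ, N0 ≤ N → ∀ h ε : ℝ, h ≠ 0 → |h| ≤ 1 → (D * |h|) ^ 2 ≤ ε →
      ∀ (Fs : Finset GhPos) (s : ℝ) (m : ℕ) (ell : ℝ) (γ : Fin (N + 1) → ℝ) (t : ℝ), ell ∈ Icc (1 : ℝ) ((2 : ℝ) ^ (1 / 6 : ℝ)) →
        t ∈ l9LamRg F N → t + h ∈ l9LamRg F N → ∀ c0 : ℕ, L9gIn ell (l9QD F 𝔹 s Fs m N ell γ t).Pf t h (D * |h|) ε c0 := by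
  obtain ⟨C, hC, N1, H⟩ := hD
  obtain ⟨N2, Hc⟩ := l9t2_clk_dir hF hB hz hst
  refine ⟨max 2 (max N1 N2), 6 * C + 1, by linarith, ?_⟩
  intro N hN h ε hh0 hh1 hε Fs s m ell γ t hell ht hth c0
  have hN2 : 2 ≤ N := (le_max_left _ _).trans hN
  have hNa : N1 ≤ N := (le_max_left _ _).trans ((le_max_right _ _).trans hN)
  have hNb : N2 ≤ N := (le_max_right _ _).trans ((le_max_right _ _).trans hN)
  have hpk : ∀ t' ∈ l9LamRg F N, GhClk1 ell ((l9PtL N ell γ t').K F 𝔹) ∧ (l9PtL N ell γ t').K F 𝔹 0 = 0 ∧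
      ∀ p ∈ ghPs ell (l9Fl Fs), ghAt ell ((l9PtL N ell γ t').K F 𝔹) p = (l9PtL N ell γ t').K F 𝔹 p.u := by
    intro t' ht'
    obtain ⟨c1, c2, -, c4⟩ := Hc (l9PtL N ell γ t') (l9t2_ptL_ok F hN2 hell γ ht') hNb rfl
    exact ⟨c1, c2, fun p hp => c4 p (gh_os_ps_mem.1 hp).2⟩
  have hp := l9t2_ptL_ok F hN2 hell γ ht
  have hl0 := (lkk_lam_pos hp).le
  have hl1 : (l9PtL N ell γ t).lam ≤ 1 := hp.lam_hi.trans (Real.rpow_le_one (lkk_x_pos hp.N2).le (lkk_x_lt_one hp.N2).le hF.pS0.le)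
  have hell2 : ell ≤ 2 := lkk_ell_le_two hp
  have hap : 0 < |h| := abs_pos.2 hh0
  rw [l9t2_QD_Pf]
  refine l9t2_in (C := 2 * C) (by linarith [hell.1]) (gh_os_ps_pairwise _ _) (fun p hp => (gh_os_ps_mem.1 hp).2) _ _ _
    ((l9PtL N ell γ t).KdL F 𝔹 a1) c0 hh1 ?_ (hpk _ hth) ?_ (by positivity) ?_ hε ?_
  · filter_upwards [isOpen_Ioo.mem_nhds ht] with t' ht' using hpk t' ht'
  · intro v hv r hr
    obtain ⟨t1, t2⟩ := (H _ hp hNa rfl v hv).2 r hr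
    rw [l9t2_ptL_shift]
    have hv2 : v ≤ 2 := hv.2.trans hell2
    constructor
    · refine t1.trans ?_
      calc C * (l9PtL N ell γ t).lam * r ^ 2 * v ≤ C * 1 * r ^ 2 * 2 := by have := hv.1; gcongr
        _ = 2 * C * r ^ 2 := by ring
    · refine t2.trans ?_
      calc C * (l9PtL N ell γ t).lam * |r| * v ≤ C * 1 * |r| * 2 := by have := hv.1; gcongr
        _ = 2 * C * |r| := by ring
  · exact mul_le_mul_of_nonneg_right (by linarith) hap.le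
  · refine le_trans ?_ hε
    have e : (( 6 * C + 1) * |h|) ^ 2 = (6 * C + 1) ^ 2 * h ^ 2 := by rw [mul_pow, sq_abs]
    rw [e]
    have h2 : 0 ≤ h ^ 2 := sq_nonneg h
    have h3 : (ell + 1) * (2 * C) ≤ (6 * C + 1) ^ 2 := by nlinarith
    calc (ell + 1) * (2 * C * h ^ 2) = (ell + 1) * (2 * C) * h ^ 2 := by ring
      _ ≤ (6 * C + 1) ^ 2 * h ^ 2 := mul_le_mul_of_nonneg_right h3 h2

/-- **K-PART OF THE STRENGTH SWEEP** = VERBATIM the body of `L9gKD 𝔹 F v1` (263, GRID) -/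
theorem l9t2_gkd {𝔹 : LlBase} {F : LlFix} {ca Ca ξ1 : ℝ} {a1 : ℝ → ℝ} (hF : F.Ok)
    (hB : LkkBase (𝔹.A0 F.T) (𝔹.xiS F.T) (𝔹.pTop F.T) ca Ca ξ1) (hz : F.z0 ≤ ξ1) (hst : StrictMonoOn (𝔹.A0 F.T) (Icc 0 (𝔹.xiS F.T)))
    (hD : L9t2D 𝔹 F a1) (v1 : ℝ) :
    ∀ K0 : ℝ, ∃ N0 : ℕ, ∀ N : ℕ, N0 ≤ N → ∃ D h0 : ℝ, 0 < D ∧ 0 < h0 ∧ ∀ h : ℝ, h ≠ 0 → |h| ≤ h0 → ∀ᶠ Fs : Finset GhPos in atTop,
      ∀ (s : ℝ) (m : ℕ) (ell : ℝ) (γ : Fin (N + 1) → ℝ) (t : ℝ), ell ∈ Set.Icc (1 : ℝ) ((2 : ℝ) ^ (1 / 6 : ℝ)) → t ∈ l9LamRg F N → t + h ∈ l9LamRg F N →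
        ∀ c0 : ℕ, trPm (l9QD F 𝔹 s Fs m N ell γ t).ms c0 ≤ v1 → L9gIn ell (l9QD F 𝔹 s Fs m N ell γ t).Pf t h (D * |h|) (|h| * skX N ^ K0) c0 := by
  obtain ⟨N0, D, hD1, H⟩ := l9t2_gkd_core hF hB hz hst hD
  intro K0
  refine ⟨max 1 N0, fun N hN => ?_⟩
  have hx : 0 < skX N := (ll04w_x_mem (N := N) ((le_max_left _ _).trans hN)).1
  have hxK : 0 < skX N ^ K0 := Real.rpow_pos_of_pos hx _
  have hD0 : 0 < D := by linarith
  refine ⟨D, min 1 (skX N ^ K0 / D ^ 2), hD0, by positivity, fun h hh0 hh => Filter.Eventually.of_forall fun Fs s m ell γ t hell ht hth c0 _ => ?_⟩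
  refine H N ((le_max_right _ _).trans hN) h _ hh0 (hh.trans (min_le_left _ _)) ?_ Fs s m ell γ t hell ht hth c0
  have h1 : |h| * D ^ 2 ≤ skX N ^ K0 := by
    have := hh.trans (min_le_right _ _)
    rwa [le_div_iff₀ (by positivity)] at this
  calc (D * |h|) ^ 2 = |h| * (|h| * D ^ 2) := by ring
    _ ≤ |h| * skX N ^ K0 := mul_le_mul_of_nonneg_left h1 (abs_nonneg _)

/-! ## 6. exits for the DD-LINK (`L08/DdLink`, 226) and from the raw field `LlSec3.prof` -/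

/-- both halves of K-TAYLOR from the raw field `prof` of `LlSec3` (272) -/
theorem l9t2_of_raw {𝔹 : LlBase} {F : LlFix} (hb : LlBaseProfile 𝔹 F.T) (hF : F.Ok) (hr : LlProfRaw 𝔹 F) :
    ∃ a1 : ℝ → ℝ, L9t2S 𝔹 F a1 ∧ L9t2D 𝔹 F a1 := by
  obtain ⟨a0, a1, hdir⟩ := l9t2_dir 𝔹 F.T hb
  obtain ⟨ca, Ca, ξ1, hB, hz⟩ := hr
  obtain ⟨L, hL⟩ := hdir F hF rfl (hz.trans hB.x1s.le)
  exact ⟨a1, l9t2_S_core hF hB hz hL, l9t2_D_core hF hB hz hL⟩

/-- `L9gKD` (body) from the raw fields -/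
theorem l9t2_gkd_raw {𝔹 : LlBase} {F : LlFix} (hb : LlBaseProfile 𝔹 F.T) (hF : F.Ok) (hr : LlProfRaw 𝔹 F) (v1 : ℝ) :
    ∀ K0 : ℝ, ∃ N0 : ℕ, ∀ N : ℕ, N0 ≤ N → ∃ D h0 : ℝ, 0 < D ∧ 0 < h0 ∧ ∀ h : ℝ, h ≠ 0 → |h| ≤ h0 → ∀ᶠ Fs : Finset GhPos in atTop,
      ∀ (s : ℝ) (m : ℕ) (ell : ℝ) (γ : Fin (N + 1) → ℝ) (t : ℝ), ell ∈ Set.Icc (1 : ℝ) ((2 : ℝ) ^ (1 / 6 : ℝ)) → t ∈ l9LamRg F N → t + h ∈ l9LamRg F N →
        ∀ c0 : ℕ, trPm (l9QD F 𝔹 s Fs m N ell γ t).ms c0 ≤ v1 → L9gIn ell (l9QD F 𝔹 s Fs m N ell γ t).Pf t h (D * |h|) (|h| * skX N ^ K0) c0 := by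
  obtain ⟨a1, -, hD⟩ := l9t2_of_raw hb hF hr
  obtain ⟨ca, Ca, ξ1, hB, hz⟩ := hr
  exact l9t2_gkd hF hB hz hb.strict hD v1

/-- **`L9gKD`** (263, `L09/GridP` Sec. 6) -/
theorem l9t2_KD {𝔹 : LlBase} {F : LlFix} (hb : LlBaseProfile 𝔹 F.T) (hF : F.Ok) (hr : LlProfRaw 𝔹 F) (v1 : ℝ) : L9gKD 𝔹 F v1 :=
  l9t2_gkd_raw hb hF hr v1

/-- **the DIRECT half of (KP), path level** (the body is `L8ddKP` unfolded): no window, uniform constants -/
theorem l9t2_kp_dir {𝔹 : LlBase} {F : LlFix} {a1 : ℝ → ℝ} (hF : F.Ok) (hD : L9t2D 𝔹 F a1) :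
    ∃ (N0 : ℕ) (C : ℝ), 0 ≤ C ∧ ∀ p : LlPt, p.Ok F → N0 ≤ p.N → p.sm = false → ∀ σ : ℝ, |σ| = 1 → ∀ (vl vh : ℝ) (r : ℕ),
      L8ddKP p.a (fun t => (p.wLam t).K F 𝔹) (Real.log p.lam) σ (1 / 3) C C vl vh r := by
  obtain ⟨C, hC, N0, H⟩ := hD
  refine ⟨N0, 2 * C, by positivity, fun p hp hN hsm σ hσ vl vh r => ⟨p.KdL F 𝔹 a1, fun h hh hh1 => ?_⟩⟩
  have hlp := lkk_lam_pos hp
  have hl1 : p.lam ≤ 1 := hp.lam_hi.trans (Real.rpow_le_one (lkk_x_pos hp.N2).le (lkk_x_lt_one hp.N2).le hF.pS0.le)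
  have hell2 := lkk_ell_le_two hp
  have ha : p.a = p.ell := by unfold LlPt.a; rw [hsm]; simp
  have e1 : p.wLam (Real.log p.lam + σ * h) = p.wLm (p.lam * Real.exp (σ * h)) := by
    unfold LlPt.wLam LlPt.wLm
    rw [Real.exp_add, Real.exp_log hlp]
  have e0 : p.wLam (Real.log p.lam) = p := by
    unfold LlPt.wLam
    rw [Real.exp_log hlp]
  have hab : |σ * h| = h := by rw [abs_mul, hσ, one_mul, abs_of_pos hh]
  have hsq : (σ * h) ^ 2 = h ^ 2 := by rw [← sq_abs, hab]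
  simp only []
  rw [e1, e0, ha]
  have key : ∀ v ∈ Icc 0 p.ell, |(p.wLm (p.lam * Real.exp (σ * h))).K F 𝔹 v - p.K F 𝔹 v - σ * h * p.KdL F 𝔹 a1 v| ≤ 2 * C * h ^ 2 ∧
      |(p.wLm (p.lam * Real.exp (σ * h))).K F 𝔹 v - p.K F 𝔹 v| ≤ 2 * C * h := by
    intro v hv
    obtain ⟨t1, t2⟩ := (H p hp hN hsm v hv).2 (σ * h) (by rw [hab]; linarith)
    rw [hsq] at t1
    rw [hab] at t2
    have hv2 : v ≤ 2 := hv.2.trans hell2
    constructor
    · refine t1.trans ?_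
      calc C * p.lam * h ^ 2 * v ≤ C * 1 * h ^ 2 * 2 := by have := hv.1; gcongr
        _ = 2 * C * h ^ 2 := by ring
    · refine t2.trans ?_
      calc C * p.lam * h * v ≤ C * 1 * h * 2 := by have := hv.1; gcongr
        _ = 2 * C * h := by ring
  refine ⟨fun v hv => (key v hv).2, fun v hv => (key v hv).1.trans ?_, ∅, by simp, by simp, fun v hv _ => (key v hv).1⟩
  have : h ^ 2 ≤ h := by nlinarith
  exact mul_le_mul_of_nonneg_left this (by positivity)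

/-- **(KD)** of the DD-LINK -/
theorem l9t2_supKD {𝔹 : LlBase} {F : LlFix} {a1 : ℝ → ℝ} (hF : F.Ok) (hD : L9t2D 𝔹 F a1) : ∃ N0 : ℕ, L8ddSupKD F 𝔹 N0 := by
  obtain ⟨N0, C, hC, H⟩ := l9t2_kp_dir hF hD
  refine ⟨N0, fun N hN => ⟨C, C, hC, hC, fun I hIF hIB hIN hOk hsm σ hσ _ vl => ?_⟩⟩
  have h1 := H I.p hOk (by rw [hIN]; exact hN) hsm σ hσ vl 3 0
  have e1 : I.t0 = Real.log I.p.lam := by unfold L8In.t0; rw [hsm]; simp
  have e2 : (fun t => (I.pAt t).K F 𝔹) = fun t => (I.p.wLam t).K F 𝔹 := by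
    funext t
    unfold L8In.pAt
    rw [hsm]; simp
  rw [e1, e2]
  exact h1

/-- (KD) from the raw fields -/
theorem l9t2_supKD_raw {𝔹 : LlBase} {F : LlFix} (hb : LlBaseProfile 𝔹 F.T) (hF : F.Ok) (hr : LlProfRaw 𝔹 F) : ∃ N0 : ℕ, L8ddSupKD F 𝔹 N0 := by
  obtain ⟨a1, -, hD⟩ := l9t2_of_raw hb hF hr
  exact l9t2_supKD hF hD

/-! ## 7. (V) at time `0` on the strength sweep (for the jet of `b_∘`, 263) -/

/-- the second moment of `V_zz` at time `0` is the square of the number `V_zz(0,0)` -/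
theorem l9t2_M2_zero (G : ℝ → ℝ) (π : List (ℝ × ℝ)) : scM2 G π 0 = scD 2 G π 0 0 ^ 2 := by
  unfold scM2 scEx
  rw [sc_Pt_self]

/-- **(V) at time `0` on the chains in use, strength sweep** (= the body of `L9gVD llBase F` of 263): `V_zz(0,0)²` of the chain `→ Γ'(0)`, uniformly in the point at fixed `N` -/
theorem l9t2_VD {F : LlFix} (hF : F.Ok) (hr : LlProfRaw llBase F) :
    ∃ N0 : ℕ, ∀ N : ℕ, N0 ≤ N → ∀ η : ℝ, 0 < η → ∀ᶠ Fs : Finset GhPos in atTop, ∀ (ell : ℝ) (γ : Fin (N + 1) → ℝ) (t : ℝ),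
      ell ∈ Icc (1 : ℝ) ((2 : ℝ) ^ (1 / 6 : ℝ)) → t ∈ l9LamRg F N →
        |scD 2 (scLC ell) (slkPi (llSc ((⟨F, llBase, 0, Fs, 0⟩ : L9I).P (l9PtL N ell γ t)))) 0 0 ^ 2 - (l9PtL N ell γ t).Gam1 F llBase 0| ≤ η := by
  obtain ⟨ca, Ca, ξ1, hB, hz⟩ := hr
  obtain ⟨N1, H1⟩ := lce_unif_prof hF hB hz
  refine ⟨max 2 N1, fun N hN η hη => ?_⟩
  filter_upwards [l9v_evF F N hη] with Fs hFs ell γ t hell ht
  have hp := l9t2_ptL_ok F ((le_max_left _ _).trans hN) hell γ ht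
  have hV := hFs (l9PtL N ell γ t) rfl hp (H1 _ hp ((le_max_right _ _).trans hN)).1
  have h1 := hV.gam1 0 hV.zero_mem
  rw [l9t2_M2_zero] at h1
  have e : scD 2 (scLC (l9PtL N ell γ t).a) (l9vPi (l9PtL N ell γ t) F (ghPs (l9PtL N ell γ t).a (l9Fl Fs))) 0 0
      = scD 2 (scLC ell) (slkPi (llSc ((⟨F, llBase, 0, Fs, 0⟩ : L9I).P (l9PtL N ell γ t)))) 0 0 := by
    rw [l9t2_ptL_a]
    unfold l9vPi l9vP L9I.P L9I.ps
    rw [l9t2_ptL_a]
  rw [e] at h1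
  exact h1

end Claimed.Agent.R286
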