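import Claimed.Agent.R286.L09.GridBS
import Claimed.Agent.R286.L09.PhysI
import Claimed.Agent.R286.L09.PhysTD

/-!
# Row 286 (S0533), LL Sec. 9, node GRID, file BD: THE LETTERS `b` OF (M) ON THE STRENGTH SWEEP FROM THE JET OF `b_∘`      (owner helper209; head of the node helper263; head of the unit helper60; prefix `l9gb`)

TEX[LL:exp:prop-low-coefficients]      NO sorry.
(P3): `b_{t'}(v) = b_∘(t') + c_b λ' (G(v) - U'² - c_1 γ_0 (G(v) + U'²) - c_1 Σ_u γ_u u² φ(v/u))`, `λ' = e^{t'}`, `U' = x λ'^(-s/2)` as long as `U' < 1`.      So, with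
    `al(t') = b_∘(t') - c_b (1 + c_1 γ_0) x² e^{(1-s) t'}`      (`l9gbAl`),
`b_{t'} = (al(t') - e^{t'-t} al(t)) + e^{t'-t} b_t`   for `|t' - t| ≤ 1` if `U(t) ≤ 1/2`      (`l9gb_aff`).
An affine relation between two admissible clocks passes to the positions of a chain (`l9gb_at_aff`, from `ll04v_at_lin`): with `e = ghAt ell 1 pos ∈ [0,1]`
    `bC j (t') = e b_∘(t') - e A w e^{(1-s)(t'-t)} + (bC j (t) - e al(t)) e^{t'-t}`,      `A = c_b (1 + c_1 γ_0)`, `w = x² e^{(1-s) t} ≤ 1`.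
* `l9gb_smul_N`, `l9gb_lin3`   linear combinations of realised jets (no condition `δ² ≤ ε`);      `l9gb_congr`   realisation sees the germ at `t` and the value at `t + h` only;
* `l9gb_exp`                   the jet of `exp (c (s - t))`, `|c| ≤ 1`, has norm `≤ 6` as soon as `|h| ≤ 1`, `|h| ≤ δ`, `h² ≤ ε`;
* `l9gw_abel`, **`l9gw_sus`**   `l9gW a P = V_zz(0,0) = a - ∑_j μ_j q_j` on a fine path (from `l9w2_sus` of 263, `slk_llQs`, summation by parts): input of the jet of `b_∘` on the strength sweep;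
* **`l9gw_jet`**   `L9gIn a Pf t h δ ε c0 ⟹` the function `t' ↦ l9gW a (Pf t')` has a jet of norm `≤ K(A)` at the scales `(δ, ε)` (`l9g_qC` of 263 at every level, `∑ μ_j = a`, `K_sum`);
* **`l9gw_B0D`**   `L9gB0D llBase F` from `LlBaseProfile`, `LlSec3`;   **`l9gw_BD`** : `L9gBD llBase F`;   **`l9gw_PhD`** : `L9gPhD llBase F v1` (with `l9t2_KD` of 156);
* **`l9gb_BD`**                `L9gB0D 𝔹 F → L9gBD 𝔹 F` (`L09/GridP`, Sec. 6); `Dif` at `t` gives the differentiability of `b_∘` when `e ≠ 0`; when `e = 0` the number `b_∘` does not occur.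
-/

set_option autoImplicit false

namespace Claimed.Agent.R286

open Finset Filter

/-- the part of the matrix clock of the strength sweep which does not scale with `λ` -/
noncomputable def l9gbAl (F : LlFix) (𝔹 : LlBase) (N : ℕ) (ell : ℝ) (γ : Fin (N + 1) → ℝ) (t' : ℝ) : ℝ :=
  (l9PtL N ell γ t').b0 F 𝔹 - F.cb * (1 + F.c1 * ll04Cl (γ 0)) * (skX N ^ 2 * Real.exp ((1 - F.sS) * t'))

theorem l9gb_eqns_cite : True := by
  have := @l9gbAl.eq_1
  trivial

/-- below the kink `U = x λ^(-s/2)` -/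
theorem l9gb_U_eq (F : LlFix) (hs0 : 0 ≤ F.sS) (hs1 : F.sS ≤ 1) {N : ℕ} (hN : 1 ≤ N) (ell : ℝ) (γ : Fin (N + 1) → ℝ) {t t' : ℝ}
    (hU : (l9PtL N ell γ t).U F ≤ 1 / 2) (ht : |t' - t| ≤ 1) :
    (l9PtL N ell γ t').U F = skX N * Real.exp (-(F.sS / 2) * t') := by
  have hx : 0 < skX N := l9b_skX_pos hN
  have e : ∀ s : ℝ, (l9PtL N ell γ s).U F = min 1 (skX N * Real.exp (-(F.sS / 2) * s)) := by
    intro s
    show min 1 (skX N * (Real.exp s) ^ (-(F.sS / 2))) = _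
    rw [← Real.exp_mul]
    congr 2
    ring_nf
  rw [e] at hU ⊢
  have h1 : skX N * Real.exp (-(F.sS / 2) * t) ≤ 1 / 2 := by
    rcases le_total 1 (skX N * Real.exp (-(F.sS / 2) * t)) with h | h
    · rw [min_eq_left h] at hU; norm_num at hU
    · rwa [min_eq_right h] at hU
  refine min_eq_right ?_
  have h2 : Real.exp (-(F.sS / 2) * t') = Real.exp (-(F.sS / 2) * t) * Real.exp (-(F.sS / 2) * (t' - t)) := by
    rw [← Real.exp_add]; congr 1; ring
  have h3 : Real.exp (-(F.sS / 2) * (t' - t)) ≤ 2 := by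
    have : -(F.sS / 2) * (t' - t) ≤ 1 / 2 := by
      have := abs_le.1 ht
      nlinarith
    calc Real.exp (-(F.sS / 2) * (t' - t)) ≤ Real.exp (1 / 2) := Real.exp_le_exp.2 this
      _ ≤ 2 := by
        have := Real.exp_one_lt_d9
        have h4 : Real.exp (1 / 2) ^ 2 = Real.exp 1 := by rw [← Real.exp_nat_mul]; norm_num
        nlinarith [Real.exp_pos (1 / 2 : ℝ)]
  rw [h2, ← mul_assoc]
  calc skX N * Real.exp (-(F.sS / 2) * t) * Real.exp (-(F.sS / 2) * (t' - t)) ≤ 1 / 2 * 2 :=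
        mul_le_mul h1 h3 (Real.exp_pos _).le (by norm_num)
    _ = 1 := by norm_num

/-- **the matrix clock of the strength sweep is an affine function of the clock at the base parameter** -/
theorem l9gb_aff (F : LlFix) (𝔹 : LlBase) (hs0 : 0 ≤ F.sS) (hs1 : F.sS ≤ 1) {N : ℕ} (hN : 1 ≤ N) (ell : ℝ) (γ : Fin (N + 1) → ℝ) {t t' : ℝ}
    (hU : (l9PtL N ell γ t).U F ≤ 1 / 2) (ht : |t' - t| ≤ 1) (v : ℝ) :
    (l9PtL N ell γ t').b F 𝔹 v = (l9gbAl F 𝔹 N ell γ t' - Real.exp (t' - t) * l9gbAl F 𝔹 N ell γ t)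
      + Real.exp (t' - t) * (l9PtL N ell γ t).b F 𝔹 v := by
  have u1 := l9gb_U_eq F hs0 hs1 hN ell γ hU ht
  have u0 := l9gb_U_eq F hs0 hs1 hN ell γ hU (t' := t) (by simp)
  have hG : (l9PtL N ell γ t').G F v = (l9PtL N ell γ t).G F v := rfl
  have hD : (l9PtL N ell γ t').dySum F v = (l9PtL N ell γ t).dySum F v := rfl
  have hl : ∀ s, (l9PtL N ell γ s).lam = Real.exp s := fun _ => rfl
  have hg : ∀ s, (l9PtL N ell γ s).gam0 = ll04Cl (γ 0) := fun _ => rfl
  have hq : ∀ s : ℝ, Real.exp s * (skX N * Real.exp (-(F.sS / 2) * s)) ^ 2 = skX N ^ 2 * Real.exp ((1 - F.sS) * s) := by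
    intro s
    have : Real.exp ((1 - F.sS) * s) = Real.exp s * (Real.exp (-(F.sS / 2) * s)) ^ 2 := by
      rw [← Real.exp_nat_mul, ← Real.exp_add]; congr 1; push_cast; ring
    rw [this]; ring
  have he : Real.exp t' = Real.exp (t' - t) * Real.exp t := by rw [← Real.exp_add]; congr 1; ring
  unfold LlPt.b l9gbAl
  rw [hG, hD, hl, hl, hg, hg, u1, u0]
  have q1 := hq t'
  have q0 := hq t
  set G := (l9PtL N ell γ t).G F v
  set S := (l9PtL N ell γ t).dySum F v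
  set g := ll04Cl (γ 0)
  set W1 := (skX N * Real.exp (-(F.sS / 2) * t')) ^ 2
  set W0 := (skX N * Real.exp (-(F.sS / 2) * t)) ^ 2
  rw [← q1, ← q0, he]
  ring

/-! ### jets: linear combinations, exponentials, local congruence -/

/-- the jet of a constant -/
theorem l9gb_smul_N (h δ ε c : ℝ) (X : L9gJ) : l9gN h δ ε (l9gMk c 0 c * X) = |c| * l9gN h δ ε X := by
  unfold l9gN
  rw [l9gV0_mul, l9gV1_mul, l9gDv_mul, l9gV0_mk, l9gV1_mk, l9gDv_mk]
  have e1 : c * l9gV1 X - c * l9gV0 X = c * (l9gV1 X - l9gV0 X) := by ring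
  have e2 : c * l9gV1 X - c * l9gV0 X - h * (c * l9gDv X + 0 * l9gV0 X) = c * (l9gV1 X - l9gV0 X - h * l9gDv X) := by ring
  rw [e2, e1, abs_mul, abs_mul, abs_mul, abs_mul, ← mul_max_of_nonneg _ _ (abs_nonneg c)]
  ring

/-- a linear combination of three realised jets -/
theorem l9gb_lin3 {t h δ ε : ℝ} (hδ : 0 < δ) (hε : 0 < ε) {f1 f2 f3 : ℝ → ℝ} {X1 X2 X3 : L9gJ} (h1 : L9gR t h f1 X1) (h2 : L9gR t h f2 X2)
    (h3 : L9gR t h f3 X3) (c1 c2 c3 : ℝ) :
    ∃ X, L9gR t h (fun s => c1 * f1 s + c2 * f2 s + c3 * f3 s) X ∧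
      l9gN h δ ε X ≤ |c1| * l9gN h δ ε X1 + |c2| * l9gN h δ ε X2 + |c3| * l9gN h δ ε X3 := by
  refine ⟨l9gMk c1 0 c1 * X1 + l9gMk c2 0 c2 * X2 + l9gMk c3 0 c3 * X3,
    (((l9gR_const c1).mul h1).add ((l9gR_const c2).mul h2)).add ((l9gR_const c3).mul h3), ?_⟩
  refine (l9gN_add hδ hε _ _).trans ?_
  refine (add_le_add (l9gN_add hδ hε _ _) le_rfl).trans ?_
  rw [l9gb_smul_N, l9gb_smul_N, l9gb_smul_N]

/-- realisation only sees the germ at `t` and the value at `t + h` -/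
theorem l9gb_congr {t h : ℝ} {f g : ℝ → ℝ} {X : L9gJ} (hf : L9gR t h f X) (e : g =ᶠ[nhds t] f) (e1 : g (t + h) = f (t + h)) : L9gR t h g X :=
  ⟨by rw [e.self_of_nhds]; exact hf.1, by rw [e1]; exact hf.2.1, hf.2.2.congr_of_eventuallyEq e⟩

/-- the jet of `exp (c (s - t))`, `|c| ≤ 1` -/
theorem l9gb_exp {t h δ ε D c : ℝ} (hc : |c| ≤ 1) (hh1 : |h| ≤ 1) (hD : 1 ≤ D) (hδ : D * |h| ≤ δ) (hne : h ≠ 0) (hε : h ^ 2 ≤ ε) :
    ∃ X, L9gR t h (fun s => Real.exp (c * (s - t))) X ∧ l9gN h δ ε X ≤ 6 := by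
  have hh0 : 0 < |h| := abs_pos.2 hne
  have hδ0 : 0 < δ := lt_of_lt_of_le (by positivity) hδ
  have hε0 : 0 < ε := lt_of_lt_of_le (by positivity) hε
  have hd : HasDerivAt (fun s => Real.exp (c * (s - t))) c t := by
    have h1 : HasDerivAt (fun s : ℝ => c * (s - t)) c t := by
      simpa using ((hasDerivAt_id t).sub_const t).const_mul c
    have := h1.exp
    simpa using this
  refine ⟨_, L9gR.mk' (h := h) hd, ?_⟩
  have v0 : Real.exp (c * (t - t)) = 1 := by simp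
  have v1 : Real.exp (c * (t + h - t)) = Real.exp (c * h) := by congr 1; ring
  have hch : |c * h| ≤ 1 := by rw [abs_mul]; exact mul_le_one₀ hc (abs_nonneg _) hh1
  have hch' : |c * h| ≤ |h| := by rw [abs_mul]; exact mul_le_of_le_one_left (abs_nonneg _) hc
  have k2 := Real.abs_exp_sub_one_sub_id_le hch
  have k1 := Real.abs_exp_sub_one_le hch
  have k0 : Real.exp (c * h) ≤ 3 := by
    have := (abs_le.1 k1).2
    linarith [(abs_le.1 hch).2, abs_nonneg (c * h)]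
  have : (6 : ℝ) = 3 + 2 + 1 := by norm_num
  rw [this]
  refine l9gN_le hδ0 hε0 ?_ ?_ ?_ ?_
  · rw [l9gV0_mk, v0]; norm_num
  · rw [l9gV1_mk, v1, abs_of_pos (Real.exp_pos _)]; exact k0
  · rw [l9gV1_mk, l9gV0_mk, v0, v1]
    refine k1.trans ?_
    have : |h| ≤ δ := le_trans (le_mul_of_one_le_left hh0.le hD) hδ
    linarith
  · rw [l9gV1_mk, l9gV0_mk, l9gDv_mk, v0, v1, one_mul]
    have e : Real.exp (c * h) - 1 - h * c = Real.exp (c * h) - 1 - c * h := by ring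
    rw [e]
    refine k2.trans ?_
    calc (c * h) ^ 2 = |c * h| ^ 2 := (sq_abs _).symm
      _ ≤ |h| ^ 2 := pow_le_pow_left₀ (abs_nonneg _) hch' 2
      _ = h ^ 2 := sq_abs h
      _ ≤ ε := hε

/-! ### positions -/

/-- an affine relation between two admissible clocks passes to the positions -/
theorem l9gb_at_aff {a : ℝ} (ha : 0 < a) {c c' : ℝ → ℝ} (hc : GhClk1 a c) (hc' : GhClk1 a c') {κ ρ : ℝ}
    (h : ∀ v ∈ Set.Ioc 0 a, c' v = κ + ρ * c v) {p : GhPos} (hp : p.Ok a) :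
    ghAt a c' p = κ * ghAt a (fun _ => 1) p + ρ * ghAt a c p := by
  have h1 : GhClk1 a (fun _ => (1 : ℝ)) := ⟨fun _ _ _ _ _ => le_rfl, zero_le_one⟩
  have hcl : ∀ i ∈ (Finset.univ : Finset (Fin 3)), GhClk1 a ((![c', fun _ => 1, c] : Fin 3 → ℝ → ℝ) i) := by
    intro i _
    fin_cases i
    · exact hc'
    · exact h1
    · exact hc
  have k1 := ll04v_at_lin ha (Finset.univ : Finset (Fin 3)) ![1, -κ, -ρ] ![c', fun _ => 1, c] hcl le_rfl
    (fun v hv => by
      simp only [Fin.sum_univ_three]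
      show 1 * c' v + -κ * 1 + -ρ * c v ≤ 0
      rw [h v hv]; linarith) hp
  have k2 := ll04v_at_lin ha (Finset.univ : Finset (Fin 3)) ![-1, κ, ρ] ![c', fun _ => 1, c] hcl le_rfl
    (fun v hv => by
      simp only [Fin.sum_univ_three]
      show -1 * c' v + κ * 1 + ρ * c v ≤ 0
      rw [h v hv]; linarith) hp
  simp only [Fin.sum_univ_three] at k1 k2
  have k1' : 1 * ghAt a c' p + -κ * ghAt a (fun _ => 1) p + -ρ * ghAt a c p ≤ 0 := k1
  have k2' : -1 * ghAt a c' p + κ * ghAt a (fun _ => 1) p + ρ * ghAt a c p ≤ 0 := k2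
  linarith

theorem l9gb_at_one {a : ℝ} (ha : 0 < a) {p : GhPos} (hp : p.Ok a) : 0 ≤ ghAt a (fun _ => 1) p ∧ ghAt a (fun _ => 1) p ≤ 1 :=
  ll04v_at_rg ha ⟨fun _ _ _ _ _ => le_rfl, zero_le_one⟩ (fun _ _ => le_rfl) hp

/-! ### the strength sweep -/

/-- **the letters `b` of the strength sweep from the jet of `b_∘`** -/
theorem l9gb_BD (𝔹 : LlBase) (F : LlFix) (hE : LlExpOk F.sS F.eta F.pS) (hP : LlBaseProfile 𝔹 F.T) (h3 : LlSec3 𝔹 F) (hB0 : L9gB0D 𝔹 F) :
    L9gBD 𝔹 F := by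
  intro K0
  obtain ⟨Kb0, N1, hKb0, H0⟩ := hB0 K0
  obtain ⟨C, N2, hC, hN2, Hpos⟩ := l9dd_pos F 𝔹 hE hP h3
  have hF := h3.ok
  have hs0 : 0 ≤ F.sS := by linarith [hE.s_lo]
  have hs1 : F.sS ≤ 1 := by linarith [hE.s_hi]
  set A1 : ℝ := F.cb * (1 + F.c1) with hA1
  have hA10 : 0 ≤ A1 := by have := hF.cb0; have := hF.c10; positivity
  refine ⟨Kb0 + 6 * A1 + 6 * (C + Kb0 + A1), max N1 N2, by nlinarith, fun N hN => ?_⟩
  have hN1 : N1 ≤ N := (le_max_left _ _).trans hN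
  have hN2' : N2 ≤ N := (le_max_right _ _).trans hN
  have h2N : 2 ≤ N := hN2.trans hN2'
  have h1N : 1 ≤ N := by omega
  have hx := l9b_skX_pos h1N
  have hx1 := l9b_skX_le_one h1N
  obtain ⟨D0, h0, hD0, hh0, H0⟩ := H0 N hN1
  have hxK : 0 < skX N ^ K0 := Real.rpow_pos_of_pos hx _
  refine ⟨max 1 D0, min (min h0 1) (skX N ^ K0), by positivity, by positivity, ?_⟩
  intro h hne hh Fs s m ell γ t hell ht hth hU hD δ hδ hsq j
  have hha : |h| ≤ h0 := hh.trans ((min_le_left _ _).trans (min_le_left _ _))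
  have hh1 : |h| ≤ 1 := hh.trans ((min_le_left _ _).trans (min_le_right _ _))
  have hhx : |h| ≤ skX N ^ K0 := hh.trans (min_le_right _ _)
  have hh0' : 0 < |h| := abs_pos.2 hne
  have hδ1 : max 1 D0 * |h| ≤ δ := hδ
  have hδD : D0 * |h| ≤ δ := (mul_le_mul_of_nonneg_right (le_max_right _ _) hh0'.le).trans hδ
  have hδ0 : 0 < δ := lt_of_lt_of_le (by positivity) hδ
  have hε0 : 0 < |h| * skX N ^ K0 := by positivity
  have hεh : h ^ 2 ≤ |h| * skX N ^ K0 := by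
    calc h ^ 2 = |h| * |h| := by rw [← sq_abs]; ring
      _ ≤ |h| * skX N ^ K0 := mul_le_mul_of_nonneg_left hhx hh0'.le
  have hl0 : 0 < ell := by linarith [hell.1]
  have HH := Hpos N hN2' ell hell γ
  set I : L9I := ⟨F, 𝔹, s, Fs, m⟩ with hI
  rcases l9t_chain I (l9PtL N ell γ) (a0 := ell) (l9t_L_a N ell γ) t j with ⟨-, hz⟩ | ⟨pos, hpos, -, -, hv⟩
  · exact ⟨0, l9gR_zero.congr fun s => (hz s).1, by rw [l9gN_zero]; nlinarith⟩
  set f : ℝ → ℝ := fun t' => (I.X0 (l9PtL N ell γ t')).bC j with hf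
  have hfv : ∀ t', f t' = ghAt ell ((l9PtL N ell γ t').b F 𝔹) pos := fun t' => (hv t').1
  set e : ℝ := ghAt ell (fun _ => 1) pos with he
  obtain ⟨he0, he1⟩ := l9gb_at_one hl0 hpos
  set A : ℝ := F.cb * (1 + F.c1 * ll04Cl (γ 0)) with hA
  have hAb : |A| ≤ A1 := by
    have hg := ll04w_cl_mem (γ 0)
    have h1 := hF.cb0
    have h2 := hF.c10
    have : 0 ≤ A := by rw [hA]; have := hg.1; positivity
    rw [abs_of_nonneg this, hA, hA1]
    refine mul_le_mul_of_nonneg_left ?_ h1.le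
    nlinarith [hg.2]
  set b0 : ℝ → ℝ := fun t' => (l9PtL N ell γ t').b0 F 𝔹 with hb0
  set w : ℝ := skX N ^ 2 * Real.exp ((1 - F.sS) * t) with hw
  have ht0 : t ≤ 0 := by
    have := ht.2.le
    have h5 : F.pS * Real.log (skX N) ≤ 0 := mul_nonpos_of_nonneg_of_nonpos hE.p_lo.le (Real.log_nonpos hx.le hx1)
    linarith
  have hw0 : 0 ≤ w := by positivity
  have hw1 : w ≤ 1 := by
    have h5 : Real.exp ((1 - F.sS) * t) ≤ 1 :=
      Real.exp_le_one_iff.2 (mul_nonpos_of_nonneg_of_nonpos (by linarith) ht0)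
    have h6 : skX N ^ 2 ≤ 1 := pow_le_one₀ hx.le hx1
    exact mul_le_one₀ h6 (Real.exp_pos _).le h5
  -- the affine relation at the position
  have key : ∀ t' ∈ l9ddRg F N, |t' - t| ≤ 1 →
      f t' = e * b0 t' + -(e * A * w) * Real.exp ((1 - F.sS) * (t' - t)) + (f t - e * (b0 t - A * w)) * Real.exp (1 * (t' - t)) := by
    intro t' ht' hd
    have k := l9gb_at_aff hl0 (HH.clk t (l9dd_rg_sub F N ht)).1.1 (HH.clk t' ht').1.1
      (fun v _ => l9gb_aff F 𝔹 hs0 hs1 h1N ell γ hU hd v) hpos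
    rw [hfv t', hfv t, k]
    have e1 : Real.exp ((1 - F.sS) * t') = Real.exp ((1 - F.sS) * t) * Real.exp ((1 - F.sS) * (t' - t)) := by
      rw [← Real.exp_add]; congr 1; ring
    unfold l9gbAl
    rw [e1, one_mul]
    simp only [hb0, hw, hA, he]
    ring
  have hnear : ∀ᶠ t' in nhds t, t' ∈ l9ddRg F N ∧ |t' - t| ≤ 1 := by
    have h1 : ∀ᶠ t' in nhds t, t' ∈ l9LamRg F N := isOpen_Ioo.mem_nhds ht
    have h2 : ∀ᶠ t' in nhds t, t' ∈ Set.Ioo (t - 1) (t + 1) := Ioo_mem_nhds (by linarith) (by linarith)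
    filter_upwards [h1, h2] with t' a1 a2
    exact ⟨l9dd_rg_sub F N a1, abs_le.2 ⟨by linarith [a2.1], by linarith [a2.2]⟩⟩
  have hkey1 := key (t + h) (l9dd_rg_sub F N hth) (by simpa using hh1)
  -- a jet for `e * b0`
  obtain ⟨g1, X1, hg1, hX1, hge⟩ : ∃ (g1 : ℝ → ℝ) (X1 : L9gJ), L9gR t h g1 X1 ∧ l9gN h δ (|h| * skX N ^ K0) X1 ≤ Kb0 ∧ ∀ s, e * b0 s = e * g1 s := by
    by_cases hez : e = 0
    · exact ⟨fun _ => 0, 0, l9gR_zero, by rw [l9gN_zero]; linarith, fun s => by rw [hez]; ring⟩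
    · have hdf : DifferentiableAt ℝ b0 t := by
        have d1 : DifferentiableAt ℝ f t := (hD j).1
        have d2 : DifferentiableAt ℝ (fun t' => e⁻¹ * (f t' - -(e * A * w) * Real.exp ((1 - F.sS) * (t' - t))
            - (f t - e * (b0 t - A * w)) * Real.exp (1 * (t' - t)))) t := by
          refine DifferentiableAt.const_mul ((d1.sub ?_).sub ?_) _
          · fun_prop
          · fun_prop
        refine d2.congr_of_eventuallyEq ?_
        filter_upwards [hnear] with t' a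
        rw [key t' a.1 a.2]
        field_simp
        ring
      obtain ⟨X, hX, hXn⟩ := H0 h hne hha ell γ t hell ht hth hdf δ hδD hsq
      exact ⟨b0, X, hX, hXn, fun _ => rfl⟩
  obtain ⟨X2, hX2, hX2n⟩ := l9gb_exp (t := t) (h := h) (δ := δ) (ε := |h| * skX N ^ K0) (D := max 1 D0) (c := 1 - F.sS)
    (by rw [abs_le]; constructor <;> linarith) hh1 (le_max_left _ _) hδ1 hne hεh
  obtain ⟨X3, hX3, hX3n⟩ := l9gb_exp (t := t) (h := h) (δ := δ) (ε := |h| * skX N ^ K0) (D := max 1 D0) (c := 1)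
    (by simp) hh1 (le_max_left _ _) hδ1 hne hεh
  obtain ⟨X, hX, hXn⟩ := l9gb_lin3 hδ0 hε0 hg1 hX2 hX3 e (-(e * A * w)) (f t - e * (b0 t - A * w))
  refine ⟨X, l9gb_congr hX ?_ ?_, hXn.trans ?_⟩
  · filter_upwards [hnear] with t' a
    show f t' = _
    rw [key t' a.1 a.2, hge t']
  · show f (t + h) = _
    rw [hkey1, hge (t + h)]
  · have n1 := l9gN_nonneg (h := h) hδ0 hε0 X1
    have n2 := l9gN_nonneg (h := h) hδ0 hε0 X2
    have n3 := l9gN_nonneg (h := h) hδ0 hε0 X3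
    have c1 : |e| ≤ 1 := by rw [abs_of_nonneg he0]; exact he1
    have c2 : |-(e * A * w)| ≤ A1 := by
      rw [abs_neg, abs_mul, abs_mul, abs_of_nonneg hw0]
      calc |e| * |A| * w ≤ 1 * A1 * 1 := mul_le_mul (mul_le_mul c1 hAb (abs_nonneg _) zero_le_one) hw1 hw0 (by linarith)
        _ = A1 := by ring
    have hft : |f t| ≤ C := by
      rw [hfv t, abs_of_nonneg (gh_os_at_nonneg hl0.le (HH.clk t (l9dd_rg_sub F N ht)).1.1 hpos.2.2.1)]
      exact HH.vb t (l9dd_rg_sub F N ht) pos hpos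
    have hg1t : |e * b0 t| ≤ Kb0 := by
      rw [hge t, abs_mul]
      have : |g1 t| ≤ Kb0 := by rw [hg1.1]; exact (l9gN_v0 hδ0 hε0 X1).trans hX1
      calc |e| * |g1 t| ≤ 1 * Kb0 := mul_le_mul c1 this (abs_nonneg _) zero_le_one
        _ = Kb0 := one_mul _
    have c3 : |f t - e * (b0 t - A * w)| ≤ C + Kb0 + A1 := by
      have e3 : f t - e * (b0 t - A * w) = f t - e * b0 t - -(e * A * w) := by ring
      rw [e3]
      refine (abs_sub _ _).trans (add_le_add ((abs_sub _ _).trans (add_le_add hft hg1t)) c2)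
    have hC3 : 0 ≤ C + Kb0 + A1 := by linarith
    calc |e| * l9gN h δ (|h| * skX N ^ K0) X1 + |-(e * A * w)| * l9gN h δ (|h| * skX N ^ K0) X2
          + |f t - e * (b0 t - A * w)| * l9gN h δ (|h| * skX N ^ K0) X3
        ≤ 1 * Kb0 + A1 * 6 + (C + Kb0 + A1) * 6 :=
          add_le_add (add_le_add (mul_le_mul c1 hX1 n1 zero_le_one) (mul_le_mul c2 hX2n n2 hA10)) (mul_le_mul c3 hX3n n3 hC3)
      _ = Kb0 + 6 * A1 + 6 * (C + Kb0 + A1) := by ring

/-! ### the susceptibility of the scalar reference of a fine path -/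

/-- summation by parts against the increments `m_j - m_{j-1}` (`m_{-1} = 0`) -/
theorem l9gw_abel (m q : ℕ → ℝ) (n : ℕ) :
    ∑ j ∈ range (n + 1), (m j - trPm m j) * q j = m n * q n - ∑ j ∈ range n, m j * (q (j + 1) - q j) := by
  induction n with
  | zero => simp [trPm]
  | succ n ih =>
    rw [Finset.sum_range_succ, ih, Finset.sum_range_succ]
    have : trPm m (n + 1) = m n := by simp [trPm]
    rw [this]
    ring

/-- **the susceptibility on a fine path**: `V_zz(0,0) = a - ∑_j μ_j q_j` -/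
theorem l9gw_sus {a : ℝ} (ha : a ≠ 0) {P : LlStp} (hK : ∀ e ∈ P, 0 ≤ e.dK) :
    l9gW a P = a - ∑ j ∈ range (P.length + 1), (llMs a P j - trPm (llMs a P) j) * llQs a P j := by
  have hpos : ScPos (slkPi (llSc P)) := by
    intro p hp
    simp only [slkPi, llSc, List.map_map, List.mem_map] at hp
    obtain ⟨e, he, rfl⟩ := hp
    exact hK e he
  have hlen : (slkPi (llSc P)).length = P.length := by simp [slkPi, llSc]
  have hq : ∀ j, j ≤ P.length → llQs a P j = scGam (scLC a) (slkPi (llSc P)) (scLen ((slkPi (llSc P)).take j)) := by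
    intro j hj
    rw [slk_llQs ha hK hj, l9ph_len_take]
  have hm : ∀ j, j < P.length → ((slkPi (llSc P)).getD j (0, 0)).1 = llMs a P j := by
    intro j hj
    have h1 : j < (slkPi (llSc P)).length := by rw [hlen]; exact hj
    have h2 : j < (P.map LlInc.m).length := by simpa using hj
    rw [List.getD_eq_getElem _ _ h1]
    unfold llMs
    rw [List.getElem?_eq_getElem h2]
    simp [slkPi, llSc]
  have hn : llMs a P P.length = a := by
    unfold llMs
    rw [List.getElem?_eq_none (by simp)]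
    rfl
  rw [l9gw_abel, hn]
  unfold l9gW
  rw [l9w2_sus ha hpos, hlen, hq P.length le_rfl]
  have e1 : (slkPi (llSc P)).take P.length = slkPi (llSc P) := by rw [← hlen, List.take_length]
  rw [e1]
  have e2 : ∑ j ∈ range P.length, ((slkPi (llSc P)).getD j (0, 0)).1 *
        (scGam (scLC a) (slkPi (llSc P)) (scLen ((slkPi (llSc P)).take (j + 1))) - scGam (scLC a) (slkPi (llSc P)) (scLen ((slkPi (llSc P)).take j)))
      = ∑ j ∈ range P.length, llMs a P j * (llQs a P (j + 1) - llQs a P j) := by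
    refine Finset.sum_congr rfl fun j hj => ?_
    have hj' := Finset.mem_range.1 hj
    rw [hm j hj', hq (j + 1) hj', hq j hj'.le]
  rw [e2]
  ring

/-- **the jet of `V_zz(0,0)` of the scalar reference along a family of fine paths**: norm `≤ K(A)` at the scales `(δ, ε)` of the input of (M) -/
theorem l9gw_jet (A : ℝ) : ∃ K : ℝ, 1 ≤ K ∧ ∀ (a : ℝ) (Pf : ℝ → LlStp) (t h δ ε : ℝ) (c0 : ℕ), a ≤ A → L9gIn a Pf t h δ ε c0 →
    ∃ X, L9gR t h (fun t' => l9gW a (Pf t')) X ∧ l9gN h δ ε X ≤ K := by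
  obtain ⟨K, hK1, hq⟩ := l9g_qC A
  refine ⟨(|A| + |A| * K) + |A| * K + 4 * K * (|A| + 1), by have := abs_nonneg A; nlinarith, ?_⟩
  intro a Pf t h δ ε c0 ha H
  have hδ := H.δ_pos
  have hε := H.ε_pos
  have ha0 := H.a_pos
  have haA : a ≤ |A| := ha.trans (le_abs_self A)
  set N := (Pf t).length with hN
  have hadm0 : SkAdm a (llSc (Pf t)) := H.adm.self_of_nhds
  obtain ⟨hMa, -⟩ := l9p_adm ha0 hadm0
  obtain ⟨hms, hmsN⟩ := l9p_isMs hMa
  rw [l9p_M_len, l9p_ms_eq] at hms hmsN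
  set μ : ℕ → ℝ := fun k => llMs a (Pf t) k - trPm (llMs a (Pf t)) k with hμ
  have hμ0 : ∀ k ∈ range (N + 1), 0 ≤ μ k := fun k hk => sub_nonneg.2 (tra2_pm_le hms (by have := Finset.mem_range.1 hk; omega))
  have hμs : ∑ k ∈ range (N + 1), μ k = a := by
    have := l9gw_abel (llMs a (Pf t)) (fun _ => 1) N
    simp only [mul_one, sub_self, mul_zero, Finset.sum_const_zero, sub_zero] at this
    rw [← hmsN]; exact this
  have hX : ∀ k ∈ range (N + 1), ∃ X, L9gR t h (fun t' => llQs a (Pf t') k) X ∧ l9gN h δ (4 * (ε + l9gDK Pf t h k)) X ≤ K := fun k hk =>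
    hq 0 none a Pf t h δ ε c0 ha H k (by have := Finset.mem_range.1 hk; omega)
  choose! X hXR hXN using hX
  -- the formula
  have hW : ∀ t', SkAdm a (llSc (Pf t')) → l9gW a (Pf t') = a - ∑ k ∈ range (N + 1), μ k * llQs a (Pf t') k := by
    intro t' hadm
    have hK : ∀ e ∈ Pf t', 0 ≤ e.dK := by
      intro e he
      have := (hadm.2 ⟨e.m, 0, e.dK⟩ (by unfold llSc; exact List.mem_map.2 ⟨e, he, rfl⟩)).2.2.2
      exact this
    have hmm : llMs a (Pf t') = llMs a (Pf t) := by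
      rw [← l9p_ms_eq, ← l9p_ms_eq, H.ms t']
    rw [l9gw_sus ha0.ne' hK, H.len t', hmm]
  set f : ℝ → ℝ := fun t' => a - ∑ k ∈ range (N + 1), μ k * llQs a (Pf t') k with hf
  set f' : ℝ := -∑ k ∈ range (N + 1), μ k * l9gDv (X k) with hf'
  have hd : HasDerivAt f f' t := by
    have h1 : HasDerivAt (fun t' => ∑ k ∈ range (N + 1), μ k * llQs a (Pf t') k) (∑ k ∈ range (N + 1), μ k * l9gDv (X k)) t :=
      HasDerivAt.fun_sum fun k hk => (hXR k hk).2.2.const_mul (μ k)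
    exact h1.const_sub a
  refine ⟨l9gMk (f t) f' (f (t + h)), (L9gR.mk' (h := h) hd).congr_ev ?_ (hW _ H.adm1), ?_⟩
  · filter_upwards [H.adm] with t' ht' using hW t' ht'
  have b0 : ∀ k ∈ range (N + 1), |llQs a (Pf t) k| ≤ K := fun k hk => by
    have e0 : llQs a (Pf t) k = l9gV0 (X k) := (hXR k hk).1
    rw [e0]
    exact (l9gN_v0 hδ (by have := l9gDK_nonneg Pf t h k; positivity) (X k)).trans (hXN k hk)
  have b1 : ∀ k ∈ range (N + 1), |llQs a (Pf (t + h)) k| ≤ K := fun k hk => by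
    have e1 : llQs a (Pf (t + h)) k = l9gV1 (X k) := (hXR k hk).2.1
    rw [e1]
    exact (l9gN_v1 hδ (by have := l9gDK_nonneg Pf t h k; positivity) (X k)).trans (hXN k hk)
  have b2 : ∀ k ∈ range (N + 1), |llQs a (Pf (t + h)) k - llQs a (Pf t) k| ≤ δ * K := fun k hk => by
    have e0 : llQs a (Pf t) k = l9gV0 (X k) := (hXR k hk).1
    have e1 : llQs a (Pf (t + h)) k = l9gV1 (X k) := (hXR k hk).2.1
    rw [e1, e0]
    exact (l9gN_inc hδ (by have := l9gDK_nonneg Pf t h k; positivity) (X k)).trans (mul_le_mul_of_nonneg_left (hXN k hk) hδ.le)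
  have b3 : ∀ k ∈ range (N + 1), |llQs a (Pf (t + h)) k - llQs a (Pf t) k - h * l9gDv (X k)| ≤ 4 * (ε + l9gDK Pf t h k) * K := fun k hk => by
    have e0 : llQs a (Pf t) k = l9gV0 (X k) := (hXR k hk).1
    have e1 : llQs a (Pf (t + h)) k = l9gV1 (X k) := (hXR k hk).2.1
    rw [e1, e0]
    have hp : 0 < 4 * (ε + l9gDK Pf t h k) := by have := l9gDK_nonneg Pf t h k; positivity
    exact (l9gN_def hδ hp (X k)).trans (mul_le_mul_of_nonneg_left (hXN k hk) hp.le)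
  have hsum : ∀ (g : ℕ → ℝ) (B : ℕ → ℝ), (∀ k ∈ range (N + 1), |g k| ≤ B k) →
      |∑ k ∈ range (N + 1), μ k * g k| ≤ ∑ k ∈ range (N + 1), μ k * B k := by
    intro g B hg
    refine (Finset.abs_sum_le_sum_abs _ _).trans (Finset.sum_le_sum fun k hk => ?_)
    rw [abs_mul, abs_of_nonneg (hμ0 k hk)]
    exact mul_le_mul_of_nonneg_left (hg k hk) (hμ0 k hk)
  have hval : ∀ t', (∀ k ∈ range (N + 1), |llQs a (Pf t') k| ≤ K) → |f t'| ≤ |A| + |A| * K := by
    intro t' hb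
    have h1 := hsum (fun k => llQs a (Pf t') k) (fun _ => K) hb
    rw [← Finset.sum_mul, hμs] at h1
    have h2 : |f t'| ≤ |a| + |∑ k ∈ range (N + 1), μ k * llQs a (Pf t') k| := abs_sub _ _
    rw [abs_of_pos ha0] at h2
    have : a * K ≤ |A| * K := mul_le_mul_of_nonneg_right haA (by linarith)
    linarith
  refine l9gN_le hδ hε ?_ ?_ ?_ ?_
  · rw [l9gV0_mk]; exact hval t b0
  · rw [l9gV1_mk]; exact hval (t + h) b1
  · rw [l9gV1_mk, l9gV0_mk]
    have e : f (t + h) - f t = -∑ k ∈ range (N + 1), μ k * (llQs a (Pf (t + h)) k - llQs a (Pf t) k) := by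
      simp only [hf, mul_sub, Finset.sum_sub_distrib]; ring
    rw [e, abs_neg]
    have h1 := hsum (fun k => llQs a (Pf (t + h)) k - llQs a (Pf t) k) (fun _ => δ * K) b2
    rw [← Finset.sum_mul, hμs] at h1
    refine h1.trans ?_
    have : a * (δ * K) ≤ |A| * (δ * K) := mul_le_mul_of_nonneg_right haA (by positivity)
    linarith
  · rw [l9gV1_mk, l9gV0_mk, l9gDv_mk]
    have e : f (t + h) - f t - h * f' = -∑ k ∈ range (N + 1), μ k * (llQs a (Pf (t + h)) k - llQs a (Pf t) k - h * l9gDv (X k)) := by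
      have e5 : ∑ k ∈ range (N + 1), μ k * (h * l9gDv (X k)) = h * ∑ k ∈ range (N + 1), μ k * l9gDv (X k) := by
        rw [Finset.mul_sum]
        exact Finset.sum_congr rfl fun k _ => by ring
      simp only [hf, hf', mul_sub, Finset.sum_sub_distrib]
      rw [e5]
      ring
    rw [e, abs_neg]
    have h1 := hsum (fun k => llQs a (Pf (t + h)) k - llQs a (Pf t) k - h * l9gDv (X k)) (fun k => 4 * (ε + l9gDK Pf t h k) * K) b3
    refine h1.trans ?_
    have e2 : ∑ k ∈ range (N + 1), μ k * (4 * (ε + l9gDK Pf t h k) * K)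
        = 4 * K * ((∑ k ∈ range (N + 1), μ k) * ε + ∑ k ∈ range (N + 1), μ k * l9gDK Pf t h k) := by
      rw [Finset.sum_mul, ← Finset.sum_add_distrib, Finset.mul_sum]
      refine Finset.sum_congr rfl fun k _ => ?_
      ring
    rw [e2, hμs]
    have h3 : ∑ k ∈ range (N + 1), μ k * l9gDK Pf t h k ≤ ε := H.K_sum
    have h4 : a * ε ≤ |A| * ε := mul_le_mul_of_nonneg_right haA hε.le
    have : 4 * K * (a * ε + ∑ k ∈ range (N + 1), μ k * l9gDK Pf t h k) ≤ 4 * K * (|A| * ε + ε) :=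
      mul_le_mul_of_nonneg_left (by linarith) (by linarith)
    linarith

/-- **THE JET OF `b_∘` ON THE STRENGTH SWEEP**: `Γ'(0) = lim V_zz(0,0)²` along finer and finer chains (`l9t2_VD`, 156), the grid numbers have Taylor defects `≤ K² D² h²` on EVERY chain
(`l9gw_jet` + `l9t2_gkd_core` of 156), closure under uniform limits (`l9g_closure`, 263), inverse. -/
theorem l9gw_B0D {F : LlFix} (hb : LlBaseProfile llBase F.T) (h3 : LlSec3 llBase F) : L9gB0D llBase F := by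
  have hF := h3.ok
  have hr := h3.prof
  obtain ⟨a1, -, hD⟩ := l9t2_of_raw hb hF hr
  obtain ⟨ca, Ca, ξ1, hB, hz⟩ := id hr
  obtain ⟨N1, D, hD1, Hk⟩ := l9t2_gkd_core hF hB hz hb.strict hD
  obtain ⟨N2, Hv⟩ := l9t2_VD hF hr
  obtain ⟨K, hK1, Hj⟩ := l9gw_jet 2
  obtain ⟨c, C, v0, hc, -, N3, hRef⟩ := h3.ref
  intro K0
  set n0 : ℝ := 1 / c + 1 + 1 with hn0
  have hn00 : 0 ≤ n0 := by positivity
  set Kb : ℝ := |C| + n0 * |C| ^ 2 + (n0 * |C| ^ 2 + n0 ^ 2 * |C| ^ 3) with hKb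
  refine ⟨max 1 Kb, max 2 (max N1 (max N2 N3)), le_max_left _ _, fun N hN => ?_⟩
  have h2N : 2 ≤ N := (le_max_left _ _).trans hN
  have hN1 : N1 ≤ N := ((le_max_left _ _).trans (le_max_right _ _)).trans hN
  have hN2 : N2 ≤ N := (((le_max_left _ _).trans (le_max_right _ _)).trans (le_max_right _ _)).trans hN
  have hN3 : N3 ≤ N := (((le_max_right _ _).trans (le_max_right _ _)).trans (le_max_right _ _)).trans hN
  have hx : 0 < skX N := l9b_skX_pos (by omega)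
  have hxK : 0 < skX N ^ K0 := Real.rpow_pos_of_pos hx _
  have hD0 : 0 < D := by linarith
  have hK0 : 0 < K := by linarith
  refine ⟨D * K ^ 2, min 1 (skX N ^ K0 / (2 * D ^ 2 * K ^ 2)), by positivity, by positivity, ?_⟩
  intro h hne hh ell γ t hell ht hth hdif δ hδ hsq
  have hh1 : |h| ≤ 1 := hh.trans (min_le_left _ _)
  have hhx : 2 * D ^ 2 * K ^ 2 * |h| ≤ skX N ^ K0 := by
    have := hh.trans (min_le_right _ _)
    rw [le_div_iff₀ (by positivity)] at this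
    linarith
  have hh0 : 0 < |h| := abs_pos.2 hne
  have hδ0 : 0 < δ := lt_of_lt_of_le (by positivity) hδ
  have hε0 : 0 < |h| * skX N ^ K0 := by positivity
  have hell2 : ell ≤ 2 := by
    refine hell.2.trans ?_
    calc (2 : ℝ) ^ (1 / 6 : ℝ) ≤ (2 : ℝ) ^ (1 : ℝ) := Real.rpow_le_rpow_of_exponent_le (by norm_num) (by norm_num)
      _ = 2 := Real.rpow_one 2
  set g : ℝ → ℝ := fun t' => (l9PtL N ell γ t').Gam1 F llBase 0 with hg
  set b0 : ℝ → ℝ := fun t' => (l9PtL N ell γ t').b0 F llBase with hb0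
  have hbg : ∀ t', b0 t' = (g t')⁻¹ := fun t' => by
    show 1 / (l9PtL N ell γ t').Gam1 F llBase 0 = _
    rw [one_div]
  have hgb : ∀ t', g t' = (b0 t')⁻¹ := fun t' => by rw [hbg, inv_inv]
  have hrg : ∀ t' ∈ l9LamRg F N, c ≤ b0 t' ∧ b0 t' ≤ C := fun t' ht' => by
    have ref := hRef _ (l9t_L_ok F h2N hell γ ht') hN3
    exact ⟨ref.b0_lo, ref.b0_hi⟩
  have hC0 : 0 < C := hc.trans_le ((hrg t ht).1.trans (hrg t ht).2)
  have hgr : ∀ t' ∈ l9LamRg F N, C⁻¹ ≤ g t' ∧ g t' ≤ 1 / c := fun t' ht' => by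
    obtain ⟨h1, h2⟩ := hrg t' ht'
    rw [hgb t']
    exact ⟨inv_anti₀ (hc.trans_le h1) h2, by rw [one_div]; exact inv_anti₀ hc h1⟩
  have hgd : HasDerivAt g (deriv g t) t := by
    have : DifferentiableAt ℝ g t := by
      have h1 : DifferentiableAt ℝ (fun t' => (b0 t')⁻¹) t := hdif.inv (hc.trans_le (hrg t ht).1).ne'
      exact h1.congr_of_eventuallyEq (Eventually.of_forall hgb)
    exact this.hasDerivAt
  -- one chain, one step
  have step : ∀ (Fs : Finset GhPos) (s : ℝ), s ≠ 0 → |s| ≤ 1 → t + s ∈ l9LamRg F N →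
      ∃ G' : ℝ, HasDerivAt (fun t' => l9gW ell ((⟨F, llBase, 0, Fs, 0⟩ : L9I).P (l9PtL N ell γ t')) ^ 2) G' t ∧
        |l9gW ell ((⟨F, llBase, 0, Fs, 0⟩ : L9I).P (l9PtL N ell γ (t + s))) ^ 2 - l9gW ell ((⟨F, llBase, 0, Fs, 0⟩ : L9I).P (l9PtL N ell γ t)) ^ 2 - s * G'|
          ≤ (D * |s|) ^ 2 * K ^ 2 ∧
        |l9gW ell ((⟨F, llBase, 0, Fs, 0⟩ : L9I).P (l9PtL N ell γ (t + s))) ^ 2 - l9gW ell ((⟨F, llBase, 0, Fs, 0⟩ : L9I).P (l9PtL N ell γ t)) ^ 2|
          ≤ D * |s| * K ^ 2 := by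
    intro Fs s hs hs1 hts
    have hs0 : 0 < |s| := abs_pos.2 hs
    have HIn := Hk N hN1 s ((D * |s|) ^ 2) hs hs1 le_rfl Fs 0 0 ell γ t hell ht hts 0
    obtain ⟨X, hX, hXn⟩ := Hj ell _ t s (D * |s|) ((D * |s|) ^ 2) 0 hell2 HIn
    have hd0 : 0 < D * |s| := by positivity
    have he0 : 0 < (D * |s|) ^ 2 := by positivity
    have hXX := hX.mul hX
    have hn : l9gN s (D * |s|) ((D * |s|) ^ 2) (X * X) ≤ K ^ 2 := by
      refine (l9gN_mul hd0 he0 le_rfl X X).trans ?_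
      have := l9gN_nonneg (h := s) hd0 he0 X
      nlinarith
    have e : ∀ t', l9gW ell ((⟨F, llBase, 0, Fs, 0⟩ : L9I).P (l9PtL N ell γ t')) ^ 2
        = l9gW ell ((l9QD F llBase 0 Fs 0 N ell γ t).Pf t') * l9gW ell ((l9QD F llBase 0 Fs 0 N ell γ t).Pf t') := fun t' => by
      rw [sq]; rfl
    refine ⟨l9gDv (X * X), ?_, ?_, ?_⟩
    · exact hXX.2.2.congr_of_eventuallyEq (Eventually.of_forall e)
    · rw [e, e]
      have v0 := hXX.1
      have v1 := hXX.2.1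
      simp only at v0 v1
      rw [v0, v1]
      exact (l9gN_def hd0 he0 (X * X)).trans (mul_le_mul_of_nonneg_left hn he0.le)
    · rw [e, e]
      have v0 := hXX.1
      have v1 := hXX.2.1
      simp only at v0 v1
      rw [v0, v1]
      exact (l9gN_inc hd0 he0 (X * X)).trans (mul_le_mul_of_nonneg_left hn hd0.le)
  -- the Taylor defect of `g`
  have hdef : |g (t + h) - g t - h * deriv g t| ≤ 2 * (D ^ 2 * K ^ 2 * |h|) * |h| := by
    refine l9g_closure hgd hne fun u hu0 hu1 η hη => ?_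
    obtain ⟨Fs, hFs⟩ := (Hv N hN2 η hη).exists
    have htu : t + u * h ∈ l9LamRg F N := by
      have hcv : Convex ℝ (l9LamRg F N) := convex_Ioo _ _
      have := hcv ht hth (by linarith : 0 ≤ 1 - u) hu0.le (by ring)
      have e : (1 - u) • t + u • (t + h) = t + u * h := by simp only [smul_eq_mul]; ring
      rwa [e] at this
    have hus : |u * h| = u * |h| := by rw [abs_mul, abs_of_pos hu0]
    obtain ⟨G1, d1, a1, -⟩ := step Fs h hne hh1 hth
    obtain ⟨G2, d2, a2, -⟩ := step Fs (u * h) (mul_ne_zero hu0.ne' hne) (by rw [hus]; exact mul_le_one₀ hu1 (abs_nonneg _) hh1) htu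
    have hG : G2 = G1 := d2.unique d1
    rw [hG, hus] at a2
    refine ⟨fun t' => l9gW ell ((⟨F, llBase, 0, Fs, 0⟩ : L9I).P (l9PtL N ell γ t')) ^ 2, G1, hFs ell γ t hell ht, hFs ell γ _ hell hth,
      hFs ell γ _ hell htu, a1.trans (le_of_eq (by ring)), a2.trans ?_⟩
    have : (D * (u * |h|)) ^ 2 * K ^ 2 = u * (D ^ 2 * K ^ 2 * |h| * (u * |h|)) := by ring
    rw [this]
    exact mul_le_of_le_one_left (by positivity) hu1
  have hinc : |g (t + h) - g t| ≤ D * |h| * K ^ 2 := by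
    refine l9g_closure_inc fun η hη => ?_
    obtain ⟨Fs, hFs⟩ := (Hv N hN2 η hη).exists
    obtain ⟨G1, -, -, a3⟩ := step Fs h hne hh1 hth
    exact ⟨fun t' => l9gW ell ((⟨F, llBase, 0, Fs, 0⟩ : L9I).P (l9PtL N ell γ t')) ^ 2, hFs ell γ t hell ht, hFs ell γ _ hell hth, a3⟩
  -- the jet of `g`
  have hXg : L9gR t h g (l9gMk (g t) (deriv g t) (g (t + h))) := L9gR.mk' hgd
  have hCi : 0 < C⁻¹ := inv_pos.2 hC0
  have hg0 : 0 < g t := hCi.trans_le (hgr t ht).1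
  have hg1 : 0 < g (t + h) := hCi.trans_le (hgr _ hth).1
  have hNg : l9gN h δ (|h| * skX N ^ K0) (l9gMk (g t) (deriv g t) (g (t + h))) ≤ n0 := by
    refine l9gN_le hδ0 hε0 ?_ ?_ ?_ ?_
    · rw [l9gV0_mk, abs_of_pos hg0]; exact (hgr t ht).2
    · rw [l9gV1_mk, abs_of_pos hg1]; exact (hgr _ hth).2
    · rw [l9gV1_mk, l9gV0_mk, one_mul]
      refine hinc.trans (le_trans (le_of_eq (by ring)) hδ)
    · rw [l9gV1_mk, l9gV0_mk, l9gDv_mk, one_mul]
      refine hdef.trans ?_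
      calc 2 * (D ^ 2 * K ^ 2 * |h|) * |h| = |h| * (2 * D ^ 2 * K ^ 2 * |h|) := by ring
        _ ≤ |h| * skX N ^ K0 := mul_le_mul_of_nonneg_left hhx hh0.le
  refine ⟨l9gInv (l9gMk (g t) (deriv g t) (g (t + h))), (hXg.inv (by rw [l9gV0_mk]; exact hg0.ne')).congr hbg, ?_⟩
  refine (l9gN_inv hδ0 hε0 hsq hCi (by rw [l9gV0_mk, abs_of_pos hg0]; exact (hgr t ht).1)
    (by rw [l9gV1_mk, abs_of_pos hg1]; exact (hgr _ hth).1)).trans (le_trans ?_ (le_max_right _ _))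
  set n := l9gN h δ (|h| * skX N ^ K0) (l9gMk (g t) (deriv g t) (g (t + h))) with hn
  have hnn : 0 ≤ n := l9gN_nonneg hδ0 hε0 _
  have eC : |C| = C := abs_of_pos hC0
  rw [hKb, eC, inv_inv]
  have e2 : ∀ y : ℝ, y / C⁻¹ ^ 2 = y * C ^ 2 := fun y => by field_simp
  have e3 : ∀ y : ℝ, y / C⁻¹ ^ 3 = y * C ^ 3 := fun y => by field_simp
  rw [e2, e3]
  have m1 : n * C ^ 2 ≤ n0 * C ^ 2 := mul_le_mul_of_nonneg_right hNg (by positivity)
  have m2 : n ^ 2 * C ^ 3 ≤ n0 ^ 2 * C ^ 3 := mul_le_mul_of_nonneg_right (pow_le_pow_left₀ hnn hNg 2) (by positivity)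
  linarith

/-- **the letters `b` of (M) on the strength sweep** -/
theorem l9gw_BD {F : LlFix} (hE : LlExpOk F.sS F.eta F.pS) (hb : LlBaseProfile llBase F.T) (h3 : LlSec3 llBase F) : L9gBD llBase F :=
  l9gb_BD llBase F hE hb h3 (l9gw_B0D hb h3)

/-- **the physical layer of (M) on the strength sweep** -/
theorem l9gw_PhD {F : LlFix} (hE : LlExpOk F.sS F.eta F.pS) (hb : LlBaseProfile llBase F.T) (h3 : LlSec3 llBase F) (v1 : ℝ) : L9gPhD llBase F v1 :=
  l9g_phD_of (l9t2_KD hb h3.ok h3.prof v1) (l9gw_BD hE hb h3)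

end Claimed.Agent.R286
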