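import Claimed.Agent.R286.L09.E4
import Claimed.Agent.R286.L09.E4S
import Claimed.Agent.R286.L09.GridM
import Claimed.Agent.R286.L09.DotsD

/-!
# Row 286 (S0533), LL Sec. 9, PRODUCER OF (E4), STRENGTH SWEEP (`L9cE4D` of `L09/RedC`)      (owner helper166; head of the producer helper242 (`L09/E4.lean`); size half helper11 (`L09/E4S.lean`); prefix `l9ed`, `L9ed`)

TEX[LL:exp:prop-low-coefficients] 09-expansion.tex l.410-492 (statement), l.493-888 (proof), DIRECT PATH: `O = ∂_{log λ}`, `(u, e) = (0, 0)`.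

THIS FILE = THE BRIDGE  **record at one point and one step  ⟹  `L9uSup` of 242**  (written for a GENERAL distance `δ`, twist `σ`, amplitude `Eb` of `b - b∘`: the size half can reuse §2-§5 with `δ = |hh|`, `σ = e^(-hh/6)`, `Eb = Kb λ`)
+ the shape, the record and the shell of the strength sweep.
* §1 the chain does not move (`l9ed_mass`), marginals (`l9ed_lK`), KEY at the two ends (`l9ed_key`).
* §2 `L9edRec Q c0 Cn Cs cmax κ δ σ Eb hh` = THE RECORD (groups `InCh`, `InClk`, `InM`, `InDif` of 11 verbatim; references `Q.InRD` at `(δ, σ)`; `Q.InBD`: `b - b∘ = O_*(Eb max(v,U)²)` at the distance `δ`).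
* §3 degenerate skeletons under separation: `Vol = 0 ⟹ B_c(sk) = 0` (`L9edRec.deg`; KEY + (M°) only; fallback for `l9es_deg` of 11).
* §4 the point of the package L14 (`L9edRec.pt`) and THE LINK at a skeleton of positive volume (`L9edRec.link`), `L9edRec.sup` (record ⟹ `L9uSup`).
* §5 strength sweep: shape `L9edSb`, groups, `l9ed_shell` (groups ⟹ `L9uE4D`).
-/

set_option autoImplicit false

namespace Claimed.Agent.R286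

open scoped BigOperators Nat
open Filter Set

/-! ## 1. the chain, the marginals, KEY -/

theorem l9ed_X0 (I : L9I) (p : LlPt) : I.X0 p = llJs I.m p.a (I.P p) none := rfl

/-- the masses of the chain depend on the terminal mass only -/
theorem l9ed_mass (I : L9I) {p p' : LlPt} (h : p'.a = p.a) : (I.P p').map LlInc.m = (I.P p).map LlInc.m := by
  rw [← l9ph_pi_fst', ← l9ph_pi_fst']
  have h1 := l9ph_I_fst I p
  have h2 := l9ph_I_fst I p'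
  unfold L9I.pi at h1 h2
  rw [h1, h2, h]

theorem l9ed_len (I : L9I) {p p' : LlPt} (h : p'.a = p.a) : (I.P p').length = (I.P p).length := by
  have := congrArg List.length (l9ed_mass I h)
  simpa using this

theorem l9ed_ms (I : L9I) {p p' : LlPt} (h : p'.a = p.a) : llMs p'.a (I.P p') = llMs p.a (I.P p) := by
  funext j
  unfold llMs
  rw [l9ed_mass I h, h]

/-- marginals of the scalar reference laws -/
theorem l9ed_lK {m : ℕ} {a : ℝ} {P : LlStp} {tl : Option ℕ} (ha : 0 < a) (hP : LlStpAdm a P) : L9lK P.length (llJs m a P tl) :=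
  ⟨(ll2_nuS_law ha hP).comap⟩

/-- KEY + DICTIONARY of 219, masses and length transported -/
theorem l9ed_key {S : Type} {a : ℝ} (ha : 0 < a) {P : LlStp} (hP : LlStpAdm a P) {K kap mu : ℝ → ℝ} {c0 eps : ℝ} {Cn : ℕ → ℝ}
    (hR : (l9mSc (scLC a) (slk_LC_BI a) (slkPi (llSc P)) K kap mu).Ok c0 eps Cn) {ms : ℕ → ℝ} {N : ℕ} (hms : llMs a P = ms)
    (hN : P.length = N) {n c D : ℕ} (hc1 : 1 ≤ c) (hc : c ≤ N) (hK : ∀ u, u ≤ c → K (trPm ms u) = llCumK P u) {hD : 0 < D}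
    {sk : ℕ → ℕ → ℕ} {β ρ : ℕ → ℕ} (h : L9kBlk N n D c sk β ρ) {b : L9Bt} (d : L9kyDic ms n D c sk β ρ hD b) (Y : JtCtx S)
    (hY : Y.nuK = llNuS a P) :
    L9lKey ms N c D (l9kG sk ρ) Y (l9mMod1 hR) (trPm ms c) (l9kySk ms hD b) := by
  subst hms
  subst hN
  exact L9kyDic.key ha hP hR hc1 hc hK h d Y hY

/-! ## 2. the record -/

namespace L9Q

variable (Q : L9Q)

/-- **REFERENCES at a general distance `δ` and twist `σ`** (`InRef` of 11 = `InRD c0 Cn κ |hh| (e^(-hh/6)) hh`) -/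
structure InRD (c0 : ℝ) (Cn : ℕ → ℝ) (κ δ σ hh : ℝ) : Prop where
  ok0 : (Q.I.ref Q.p).Ok c0 κ Cn
  ok1 : (Q.I.ref (Q.p1 hh)).Ok c0 κ Cn
  close : L9mClose (Q.I.ref Q.p) (Q.I.ref (Q.p1 hh)) c0 κ δ σ Cn

/-- **THE MATRIX CLOCK at a general distance `δ`, amplitude `Eb`** (`InBo Kb cmax hh` of 11 gives `InBD (Kb λ) cmax |hh| hh`).      Only when the window of cuts `[U, cmax]` is not empty. -/
structure InBD (Eb cmax δ hh : ℝ) : Prop where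
  b_bd : Q.U ≤ cmax → ∀ v, v ≤ Q.N → 0 < l9rMu Q.ms v → trPm Q.ms v ≤ cmax → l9mNrm2 δ (Q.bPair hh v) ≤ Eb * max (trPm Q.ms v) Q.U ^ 2

end L9Q

/-- **THE RECORD OF ONE POINT AND ONE STEP**, general distance `δ`, twist `σ`, amplitude `Eb`.      `κ` = bound of all the errors which are not relative (drift mesh, Taylor defects). -/
structure L9edRec (Q : L9Q) (c0 : ℝ) (Cn : ℕ → ℝ) (Cs cmax κ δ σ Eb hh : ℝ) : Prop where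
  h_ne : hh ≠ 0
  h_le : |hh| ≤ 1
  c_le : cmax ≤ c0
  c_a : cmax < Q.p.a
  e_nn : 0 ≤ Eb
  e_le : Eb * cmax ^ 2 ≤ 1
  k_le : κ ≤ Q.U ^ 4
  ch : Q.InCh hh
  rf : Q.InRD c0 Cn κ δ σ hh
  clk : Q.InClk cmax hh
  bb : Q.InBD Eb cmax δ hh
  mm : Q.InM Cs cmax κ hh
  dif : Q.InDif

namespace L9edRec

variable {Q : L9Q} {c0 : ℝ} {Cn : ℕ → ℝ} {Cs cmax κ δ σ Eb hh : ℝ} (H : L9edRec Q c0 Cn Cs cmax κ δ σ Eb hh)
include H

theorem isMs : IsMs Q.N Q.ms := ll2_isMs H.ch.a_pos H.ch.adm0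

theorem len1 : (Q.I.P (Q.p1 hh)).length = Q.N := l9ed_len Q.I H.ch.a_eq

theorem ms1 : llMs (Q.p1 hh).a (Q.I.P (Q.p1 hh)) = Q.ms := l9ed_ms Q.I H.ch.a_eq

theorem lK0 : L9lK Q.N (l9uYf Q Q.t) := l9ed_lK H.ch.a_pos H.ch.adm0

theorem lK1 : L9lK Q.N (l9uYf Q (Q.t + hh)) := by
  have h1 : L9lK (Q.I.P (Q.p1 hh)).length (llJs Q.I.m (Q.p1 hh).a (Q.I.P (Q.p1 hh)) none) :=
    l9ed_lK (by rw [H.ch.a_eq]; exact H.ch.a_pos) H.ch.adm1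
  rw [H.len1] at h1
  exact h1

omit H in
/-- the top mass is the terminal mass -/
theorem ms_top : Q.ms Q.N = Q.p.a := by
  unfold L9Q.ms L9Q.N llMs
  rw [List.getElem?_eq_none (by simp)]
  rfl

/-- a cut of mass in `[U, cmax]`, `U > 0`, has depth in `[1, N]` -/
theorem cut_rg (hU : 0 < Q.U) {c : ℕ} (hc : c ≤ Q.N + 1) (h1 : Q.U ≤ Q.mc c) (h2 : Q.mc c ≤ cmax) : 1 ≤ c ∧ c ≤ Q.N := by
  constructor
  · by_contra h0
    have : c = 0 := by omega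
    subst this
    have : Q.mc 0 = 0 := by unfold L9Q.mc trPm; rw [if_pos rfl]
    linarith
  · by_contra h0
    have : c = Q.N + 1 := by omega
    subst this
    have e : Q.mc (Q.N + 1) = Q.ms Q.N := by unfold L9Q.mc trPm; rw [if_neg (by omega)]; rfl
    have := H.c_a
    rw [e, ms_top] at h2
    linarith

theorem key0 {n c D : ℕ} (hc1 : 1 ≤ c) (hc : c ≤ Q.N) (hcm : Q.mc c ≤ cmax) {hD : 0 < D} {sk : ℕ → ℕ → ℕ} {β ρ : ℕ → ℕ}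
    (h : L9kBlk Q.N n D c sk β ρ) {b : L9Bt} (d : L9kyDic Q.ms n D c sk β ρ hD b) :
    L9lKey Q.ms Q.N c D (l9kG sk ρ) (l9uYf Q Q.t) (l9mMod1 H.rf.ok0) (trPm Q.ms c) (l9kySk Q.ms hD b) :=
  l9ed_key H.ch.a_pos H.ch.adm0 H.rf.ok0 rfl rfl hc1 hc
    (fun u hu => H.clk.clk0 u (hu.trans hc) ((l9ky_pm_mono H.isMs hu (by omega)).trans hcm)) h d _ rfl

theorem key1 {n c D : ℕ} (hc1 : 1 ≤ c) (hc : c ≤ Q.N) (hcm : Q.mc c ≤ cmax) {hD : 0 < D} {sk : ℕ → ℕ → ℕ} {β ρ : ℕ → ℕ}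
    (h : L9kBlk Q.N n D c sk β ρ) {b : L9Bt} (d : L9kyDic Q.ms n D c sk β ρ hD b) :
    L9lKey Q.ms Q.N c D (l9kG sk ρ) (l9uYf Q (Q.t + hh)) (l9mMod1 H.rf.ok1) (trPm Q.ms c) (l9kySk Q.ms hD b) :=
  l9ed_key (by rw [H.ch.a_eq]; exact H.ch.a_pos) H.ch.adm1 H.rf.ok1 H.ms1 H.len1 hc1 hc
    (fun u hu => H.clk.clk1 u (hu.trans hc) ((l9ky_pm_mono H.isMs hu (by omega)).trans hcm)) h d _ rfl

theorem cmax_le_one : cmax ≤ 1 := H.c_le.trans H.rf.ok0.c0_le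

/-! ## 3. degenerate skeletons (under separation) -/

open Classical in
/-- **a separated skeleton of volume `0` has no grouped coefficient** (KEY + (M°) only) -/
theorem deg (hUp : 0 < Q.U) (hCs : 1 < Cs) {n : ℕ} (hn2 : 2 ≤ n) (hn4 : n ≤ 4) {R : Finset ℕ} (hR : R ⊆ Finset.range n) (hRn : R.Nonempty)
    {c : ℕ} (hc : c ≤ Q.N + 1) (h1 : Q.U ≤ Q.mc c) (h2 : Q.mc c ≤ cmax) {sk : JtTopo} (hS : Q.Sep Cs n c sk)
    (hV : l9rVol Q.ms (2 * n) c sk = 0) : l9rB (l9aTab Q.N (2 * n)) (Q.Ht n R) (2 * n) c sk = 0 := by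
  have hms := H.isMs
  have hpos : 0 < Q.mc c := lt_of_lt_of_le hUp h1
  by_cases hne : ((l9aTab Q.N (2 * n)).filter (fun τ => l9rTc (2 * n) c τ = sk)).Nonempty
  swap
  · unfold l9rB
    rw [Finset.not_nonempty_iff_eq_empty.1 hne, Finset.sum_empty]
  obtain ⟨τ₀, hτ₀⟩ := hne
  rw [Finset.mem_filter] at hτ₀
  obtain ⟨D, β, ρ, hD, -, hb⟩ := l9k_blk_exists (l9a_mem_tab.1 hτ₀.1).1 hc (by omega : 1 ≤ 2 * n)
  rw [hτ₀.2] at hb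
  have hsp : ∀ i, i < n → sk (2 * i) (2 * i + 1) < c :=
    l9u_sep_hsp Q hms hCs hpos hc (fun i hi => hb.le _ _ (by omega) (by omega) (by omega)) hS
  obtain ⟨hc1, hcN⟩ := H.cut_rg hUp hc h1 h2
  obtain ⟨b, d⟩ := l9ky_blk hms hb hc hD
  have hM := H.mm.m n hn2 hn4 R hR hRn c hc h1 h2 sk hS
  obtain ⟨f1, f0⟩ := l9u_fd hms hb hc hpos (by omega) hD hsp hR (l9uYf Q) Q.t (r := Q.u - Q.e * R.card) H.h_ne H.lK0 H.lK1
    (H.key0 hc1 hcN h2 hb d) (H.key1 hc1 hcN h2 hb d) hM le_rfl le_rfl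
  rw [hV, mul_zero] at f1 f0
  rw [l9u_B_eq Q hsp R (fun τ hτ => H.dif.dy n R τ hτ) H.dif.dd, abs_nonpos_iff.1 f1, abs_nonpos_iff.1 f0, mul_zero, mul_zero, add_zero]

/-! ## 4. the point of the package L14, the link, the supplies -/

/-- the amplitude of `b - b∘` at the depths below a cut -/
theorem b_le {c v : ℕ} (hcN : c ≤ Q.N) (h1 : Q.U ≤ Q.mc c) (h2 : Q.mc c ≤ cmax) (hv1 : 0 < l9rMu Q.ms v) (hv : v < c) :
    l9mNrm2 δ (Q.bPair hh v) ≤ Eb * trPm Q.ms c ^ 2 := by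
  have hm : trPm Q.ms v ≤ trPm Q.ms c := l9ky_pm_mono H.isMs hv.le (by omega)
  refine (H.bb.b_bd (h1.trans h2) v (by omega) hv1 (hm.trans h2)).trans (mul_le_mul_of_nonneg_left ?_ H.e_nn)
  have h0 : 0 ≤ max (trPm Q.ms v) Q.U := le_max_of_le_left (l9ky_pm_nonneg H.isMs v)
  exact pow_le_pow_left₀ h0 (max_le hm h1) 2

/-- **the point of the package L14** at one skeleton: pair model of 288 over the references of 47, block graph of 276, skeleton of 219 -/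
noncomputable def pt {R₀ : L9mRef} {eps₀ : ℝ} (h₀ : R₀.Ok c0 eps₀ Cn) {n D c : ℕ} {sk : JtTopo} {β ρ : ℕ → ℕ} (hb : L9kBlk Q.N (2 * n) D c sk β ρ)
    (hsp : ∀ i, i < n → sk (2 * i) (2 * i + 1) < c) (R : Finset ℕ) {hD : 0 < D} {b : L9Bt} (d : L9kyDic Q.ms (2 * n) D c sk β ρ hD b) (ηE : ℝ)
    (hn : 1 ≤ n) (hUp : 0 < Q.U) (hcN : c ≤ Q.N) (h1 : Q.U ≤ Q.mc c) (h2 : Q.mc c ≤ cmax)
    (hlev : ∀ i, i < n → 0 < l9rMu Q.ms (sk (2 * i) (2 * i + 1))) :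
    L9uPt (l9mBd2 h₀) (l9mBd1 h₀) (l9mBd1 h₀) (ℝ × ℝ) (L9mF × L9mF) L9mF L9mF n D where
  L2 := l9mMod2 H.rf.ok0 H.rf.ok1 H.rf.close
  La := l9mMod1 H.rf.ok0
  Lb := l9mMod1 H.rf.ok1
  del := δ
  P := l9mPair H.rf.ok0 H.rf.ok1 H.rf.close
  Γ := l9lGr hb hsp
  c := trPm Q.ms c
  ε := Eb * trPm Q.ms c ^ 2
  s := l9kySk Q.ms hD b
  b := fun e => ((l9uYf Q Q.t).bC (sk (2 * e) (2 * e + 1)), (l9uYf Q (Q.t + hh)).bC (sk (2 * e) (2 * e + 1)))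
  bc := ((l9uYf Q Q.t).bC (sk 0 1), (l9uYf Q (Q.t + hh)).bC (sk 0 1))
  R := R
  h := hh
  η := ηE
  c_pos := lt_of_lt_of_le hUp h1
  c_le := h2.trans H.c_le
  mesh := H.k_le.trans (pow_le_pow_left₀ hUp.le h1 4)
  ok := d.ok
  full := d.full
  e_le := (mul_le_mul_of_nonneg_left (pow_le_pow_left₀ (lt_of_lt_of_le hUp h1).le h2 2) H.e_nn).trans H.e_le
  b_bd := fun e => H.b_le hcN h1 h2 (hlev e e.2) (hsp e e.2)
  bc_bd := H.b_le hcN h1 h2 (hlev 0 hn) (hsp 0 hn)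
  h_ne := H.h_ne
  h_le := H.h_le

/-- the designated splits of a skeleton of positive volume sit at stages of positive mass -/
theorem lev {n D c : ℕ} {sk : JtTopo} {β ρ : ℕ → ℕ} (hb : L9kBlk Q.N (2 * n) D c sk β ρ) (hsp : ∀ i, i < n → sk (2 * i) (2 * i + 1) < c)
    (hc : c ≤ Q.N + 1) (hV : l9rVol Q.ms (2 * n) c sk ≠ 0) : ∀ i, i < n → 0 < l9rMu Q.ms (sk (2 * i) (2 * i + 1)) := fun i hi =>
  lt_of_le_of_ne (l9r_mu_nonneg H.isMs (by have := hsp i hi; omega))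
    (l9u_mu_pos hb.tr hc hV (by omega) (by omega) (hsp i hi)).symm

/-- **THE LINK** at a skeleton of positive volume; the mode `md` is kept as a hypothesis on the numbers of the point -/
theorem link {R₀ : L9mRef} {eps₀ : ℝ} (h₀ : R₀.Ok c0 eps₀ Cn) {A : ℝ} {n D c : ℕ} {sk : JtTopo} {β ρ : ℕ → ℕ} (hb : L9kBlk Q.N (2 * n) D c sk β ρ)
    (hsp : ∀ i, i < n → sk (2 * i) (2 * i + 1) < c) {R : Finset ℕ} {hD : 0 < D} {b : L9Bt} (d : L9kyDic Q.ms (2 * n) D c sk β ρ hD b) (ηE : ℝ)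
    (hn2 : 2 ≤ n) (hn4 : n ≤ 4) (hR : R ⊆ Finset.range n) (hRn : R.Nonempty) (hUp : 0 < Q.U) (hc : c ≤ Q.N + 1) (h1 : Q.U ≤ Q.mc c)
    (h2 : Q.mc c ≤ cmax) (hS : Q.Sep Cs n c sk) (hlev : ∀ i, i < n → 0 < l9rMu Q.ms (sk (2 * i) (2 * i + 1)))
    (hκ : κ ≤ A * (Q.lam * Q.U ^ 3))
    (md : (Q.u = 1 ∧ Q.e = 1 / 6 ∧ (H.pt h₀ hb hsp R d ηE (by omega) hUp (H.cut_rg hUp hc h1 h2).2 h1 h2 hlev).NumS Q.lam A) ∨
      (Q.u = 0 ∧ Q.e = 0 ∧ (H.pt h₀ hb hsp R d ηE (by omega) hUp (H.cut_rg hUp hc h1 h2).2 h1 h2 hlev).NumD Q.lam A)) :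
    L9uLk Q A hb hsp R (H.pt h₀ hb hsp R d ηE (by omega) hUp (H.cut_rg hUp hc h1 h2).2 h1 h2 hlev) where
  R_eq := rfl
  c_eq := rfl
  gr := rfl
  sp := d.split
  Ka := H.lK0
  Kb := H.lK1
  keya := H.key0 (H.cut_rg hUp hc h1 h2).1 (H.cut_rg hUp hc h1 h2).2 h2 hb d
  keyb := H.key1 (H.cut_rg hUp hc h1 h2).1 (H.cut_rg hUp hc h1 h2).2 h2 hb d
  ba := fun _ => rfl
  bb := fun _ => rfl
  bca := rfl
  bcb := rfl
  m := ⟨κ, H.rf.ok0.eps_nonneg, hκ, H.mm.m n hn2 hn4 R hR hRn c hc h1 h2 sk hS⟩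
  md := md

/-- **record ⟹ supplies of 242, DIRECT mode**: `δ ≤ A λ |hh|`, `Eb ≤ A`, `κ ≤ A λ U³` -/
theorem supD {R₀ : L9mRef} {eps₀ : ℝ} (h₀ : R₀.Ok c0 eps₀ Cn) {A : ℝ} (hA : 1 ≤ A) (hCs : 1 < Cs) (hl : 0 < Q.lam) (hl1 : Q.lam ≤ 1) (hUp : 0 < Q.U)
    (hu : Q.u = 0) (he : Q.e = 0) (hκ : κ ≤ A * (Q.lam * Q.U ^ 3)) (hδ : δ ≤ A * Q.lam * |hh|) (hE : Eb ≤ A) :
    L9uSup (l9mBd2 h₀) (l9mBd1 h₀) (l9mBd1 h₀) (ℝ × ℝ) (L9mF × L9mF) L9mF L9mF Q A Cs cmax where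
  A1 := hA
  Cs1 := hCs
  lam_pos := hl
  lam_le := hl1
  U_pos := hUp
  cmax_le := H.cmax_le_one
  ms := H.isMs
  dd := H.dif.dd
  dy := H.dif.dy
  pt := by
    intro n D c sk β ρ R hb hsp hn2 hn4 hD hR hRn hc h1 h2 hS hV
    obtain ⟨b, d⟩ := l9ky_blk H.isMs hb hc hD
    exact ⟨_, H.link h₀ hb hsp d 0 hn2 hn4 hR hRn hUp hc h1 h2 hS (H.lev hb hsp hc hV) hκ
      (Or.inr ⟨hu, he, hδ, mul_le_mul_of_nonneg_right hE (sq_nonneg _)⟩)⟩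
  deg := l9es_deg_sup Q H.isMs hCs

end L9edRec

/-! ## 5. the strength sweep: shape, groups, shell -/

/-- the closed range of `t = log λ` -/
def l9edRg (F : LlFix) (N : ℕ) : Set ℝ := Icc (12 * Real.log (skX N)) (F.pS * Real.log (skX N))

/-- **shape of the supplies of the finite difference route, STRENGTH SWEEP**: `Φ κ Q hh`, `κ = x^Kη` (twin of `L9esSb` of 11).
ORDER OF THE CHOICES: constants | smallness exponent `Kη` | `N0` | `N` | `h1(N)` | `h0 ≤ h1` | eventually `Fs` | `s, m, ℓ, γ, t, hh` (`t, t + hh ∈ [12 log x, p_* log x]`, `|hh| = h0`, `Dif` at `t`) -/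
def L9edSb (𝔹 : LlBase) (F : LlFix) (Φ : ℝ → L9Q → ℝ → Prop) : Prop :=
  ∀ Kη : ℝ, 1 ≤ Kη → ∃ N0 : ℕ, ∀ N : ℕ, N0 ≤ N → ∃ h1 : ℝ, 0 < h1 ∧ ∀ h0 : ℝ, 0 < h0 → h0 ≤ h1 → ∀ᶠ Fs : Finset GhPos in atTop,
    ∀ (s : ℝ) (m : ℕ) (ell : ℝ) (γ : Fin (N + 1) → ℝ) (t hh : ℝ), ell ∈ Icc (1 : ℝ) ((2 : ℝ) ^ (1 / 6 : ℝ)) → t ∈ l9edRg F N → t + hh ∈ l9edRg F N →
      |hh| = h0 → (⟨F, 𝔹, s, Fs, m⟩ : L9I).Dif (l9PtL N ell γ) t → Φ (skX N ^ Kη) (l9QD F 𝔹 s Fs m N ell γ t) hh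

/-- the same shape on the OPEN range `l9LamRg` of `t` AND of `t + hh` (this is what the shell consumes: `L9HyD` has `t ∈ l9LamRg`; the signed step is chosen strictly inside);   for the supplies which need a
two-sided neighbourhood of the parameter inside the sweep (`L9gIn.adm`; shapes `L9gKD`, `L9gPhD` of 263)      (242, twin of `L9esSo` of 11) -/
def L9edSo (𝔹 : LlBase) (F : LlFix) (Φ : ℝ → L9Q → ℝ → Prop) : Prop :=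
  ∀ Kη : ℝ, 1 ≤ Kη → ∃ N0 : ℕ, ∀ N : ℕ, N0 ≤ N → ∃ h1 : ℝ, 0 < h1 ∧ ∀ h0 : ℝ, 0 < h0 → h0 ≤ h1 → ∀ᶠ Fs : Finset GhPos in atTop,
    ∀ (s : ℝ) (m : ℕ) (ell : ℝ) (γ : Fin (N + 1) → ℝ) (t hh : ℝ), ell ∈ Icc (1 : ℝ) ((2 : ℝ) ^ (1 / 6 : ℝ)) → t ∈ l9LamRg F N → t + hh ∈ l9LamRg F N →
      |hh| = h0 → (⟨F, 𝔹, s, Fs, m⟩ : L9I).Dif (l9PtL N ell γ) t → Φ (skX N ^ Kη) (l9QD F 𝔹 s Fs m N ell γ t) hh

theorem l9ed_eqns_cite : True := by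
  have := @l9edRg.eq_1; have := @L9edSb.eq_1; have := @L9edSo.eq_1
  trivial

theorem L9edSb.op {𝔹 : LlBase} {F : LlFix} {Φ : ℝ → L9Q → ℝ → Prop} (h : L9edSb 𝔹 F Φ) : L9edSo 𝔹 F Φ := by
  intro Kη hK
  obtain ⟨N0, H⟩ := h Kη hK
  refine ⟨N0, fun N hN => ?_⟩
  obtain ⟨h1, hp, H1⟩ := H N hN
  refine ⟨h1, hp, fun h0 hh0 hh1 => ?_⟩
  filter_upwards [H1 h0 hh0 hh1] with Fs a s m ell γ t hh e0 e1 e2 e3 e4
  exact a s m ell γ t hh e0 (Ioo_subset_Icc_self e1) (Ioo_subset_Icc_self e2) e3 e4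

theorem L9edSo.mono {𝔹 : LlBase} {F : LlFix} {Φ Ψ : ℝ → L9Q → ℝ → Prop} (h : L9edSo 𝔹 F Φ) (hi : ∀ κ Q hh, Φ κ Q hh → Ψ κ Q hh) :
    L9edSo 𝔹 F Ψ := by
  intro Kη hK
  obtain ⟨N0, H⟩ := h Kη hK
  refine ⟨N0, fun N hN => ?_⟩
  obtain ⟨h1, hp, H1⟩ := H N hN
  refine ⟨h1, hp, fun h0 hh0 hh1 => ?_⟩
  filter_upwards [H1 h0 hh0 hh1] with Fs a s m ell γ t hh e0 e1 e2 e3 e4
  exact hi _ _ _ (a s m ell γ t hh e0 e1 e2 e3 e4)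

theorem L9edSo.and {𝔹 : LlBase} {F : LlFix} {Φ Ψ : ℝ → L9Q → ℝ → Prop} (h : L9edSo 𝔹 F Φ) (h' : L9edSo 𝔹 F Ψ) :
    L9edSo 𝔹 F fun κ Q hh => Φ κ Q hh ∧ Ψ κ Q hh := by
  intro Kη hK
  obtain ⟨N0, H⟩ := h Kη hK
  obtain ⟨N0', H'⟩ := h' Kη hK
  refine ⟨max N0 N0', fun N hN => ?_⟩
  obtain ⟨h1, hp, H1⟩ := H N ((le_max_left _ _).trans hN)
  obtain ⟨h1', hp', H1'⟩ := H' N ((le_max_right _ _).trans hN)
  refine ⟨min h1 h1', lt_min hp hp', fun h0 hh0 hh1 => ?_⟩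
  filter_upwards [H1 h0 hh0 (hh1.trans (min_le_left _ _)), H1' h0 hh0 (hh1.trans (min_le_right _ _))] with Fs a a' s m ell γ t hh e0 e1 e2 e3 e4
  exact ⟨a s m ell γ t hh e0 e1 e2 e3 e4, a' s m ell γ t hh e0 e1 e2 e3 e4⟩

theorem L9edSb.mono {𝔹 : LlBase} {F : LlFix} {Φ Ψ : ℝ → L9Q → ℝ → Prop} (h : L9edSb 𝔹 F Φ) (hi : ∀ κ Q hh, Φ κ Q hh → Ψ κ Q hh) :
    L9edSb 𝔹 F Ψ := by
  intro Kη hK
  obtain ⟨N0, H⟩ := h Kη hK
  refine ⟨N0, fun N hN => ?_⟩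
  obtain ⟨h1, hp, H1⟩ := H N hN
  refine ⟨h1, hp, fun h0 hh0 hh1 => ?_⟩
  filter_upwards [H1 h0 hh0 hh1] with Fs a s m ell γ t hh e0 e1 e2 e3 e4
  exact hi _ _ _ (a s m ell γ t hh e0 e1 e2 e3 e4)

theorem L9edSb.and {𝔹 : LlBase} {F : LlFix} {Φ Ψ : ℝ → L9Q → ℝ → Prop} (h : L9edSb 𝔹 F Φ) (h' : L9edSb 𝔹 F Ψ) :
    L9edSb 𝔹 F fun κ Q hh => Φ κ Q hh ∧ Ψ κ Q hh := by
  intro Kη hK
  obtain ⟨N0, H⟩ := h Kη hK
  obtain ⟨N0', H'⟩ := h' Kη hK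
  refine ⟨max N0 N0', fun N hN => ?_⟩
  obtain ⟨h1, hp, H1⟩ := H N ((le_max_left _ _).trans hN)
  obtain ⟨h1', hp', H1'⟩ := H' N ((le_max_right _ _).trans hN)
  refine ⟨min h1 h1', lt_min hp hp', fun h0 hh0 hh1 => ?_⟩
  filter_upwards [H1 h0 hh0 (hh1.trans (min_le_left _ _)), H1' h0 hh0 (hh1.trans (min_le_right _ _))] with Fs a a' s m ell γ t hh e0 e1 e2 e3 e4
  exact ⟨a s m ell γ t hh e0 e1 e2 e3 e4, a' s m ell γ t hh e0 e1 e2 e3 e4⟩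

/-- **the five groups of the strength sweep which see the step** (`InDif` comes in the shape `L9SbD`, remark of 65): distance `δ = Kd λ |hh|` (`|λ' - λ| ≤ 2 λ |hh|`), no twist (`ℓ` is fixed), amplitude `Eb` = a constant -/
structure L9Q.E4GD (Q : L9Q) (c0 : ℝ) (Cn : ℕ → ℝ) (Kd Eb Cs cmax κ hh : ℝ) : Prop where
  ch : Q.InCh hh
  rf : Q.InRD c0 Cn κ (Kd * Q.lam * |hh|) 1 hh
  clk : Q.InClk cmax hh
  bb : Q.InBD Eb cmax (Kd * Q.lam * |hh|) hh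
  mm : Q.InM Cs cmax κ hh

/-- **the groups give the record** -/
theorem l9ed_in {𝔹 : LlBase} {F : LlFix} {c0 : ℝ} {Cn : ℕ → ℝ} {Kd Eb Cs cmax : ℝ}
    (hCh : L9edSb 𝔹 F fun _ Q hh => Q.InCh hh) (hRf : L9edSb 𝔹 F fun κ Q hh => Q.InRD c0 Cn κ (Kd * Q.lam * |hh|) 1 hh)
    (hClk : L9edSb 𝔹 F fun _ Q hh => Q.InClk cmax hh) (hB : L9edSb 𝔹 F fun _ Q hh => Q.InBD Eb cmax (Kd * Q.lam * |hh|) hh)
    (hM : L9edSo 𝔹 F fun κ Q hh => Q.InM Cs cmax κ hh) :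
    L9edSo 𝔹 F fun κ Q hh => Q.E4GD c0 Cn Kd Eb Cs cmax κ hh :=
  ((((hCh.and hRf).and hClk).and hB).op.and hM).mono fun _ _ _ ⟨⟨⟨⟨a, b⟩, c⟩, d⟩, e⟩ => ⟨a, b, c, d, e⟩

/-! ### numbers of the strength sweep -/

theorem l9ed_lam (F : LlFix) (𝔹 : LlBase) (s : ℝ) (Fs : Finset GhPos) (m N : ℕ) (ell : ℝ) (γ : Fin (N + 1) → ℝ) (t : ℝ) :
    (l9QD F 𝔹 s Fs m N ell γ t).lam = Real.exp t := rfl

theorem l9ed_a (F : LlFix) (𝔹 : LlBase) (s : ℝ) (Fs : Finset GhPos) (m N : ℕ) (ell : ℝ) (γ : Fin (N + 1) → ℝ) (t : ℝ) :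
    (l9QD F 𝔹 s Fs m N ell γ t).p.a = ell := rfl

theorem l9ed_rg {F : LlFix} {N : ℕ} (hN : 0 < N) {t : ℝ} (ht : t ∈ l9edRg F N) : skX N ^ (12 : ℝ) ≤ Real.exp t ∧ Real.exp t ≤ skX N ^ F.pS := by
  have hx := l9c_X_pos hN
  rw [Real.rpow_def_of_pos hx, Real.rpow_def_of_pos hx]
  exact ⟨Real.exp_le_exp.2 (by rw [mul_comm]; exact ht.1), Real.exp_le_exp.2 (by rw [mul_comm]; exact ht.2)⟩

/-- `x ≤ U` on the strength sweep -/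
theorem l9ed_x_le_U (F : LlFix) (hs : 0 ≤ F.sS) (hp : 0 ≤ F.pS) (𝔹 : LlBase) (s : ℝ) (Fs : Finset GhPos) (m : ℕ) {N : ℕ} (hN : 0 < N) (ell : ℝ)
    (γ : Fin (N + 1) → ℝ) {t : ℝ} (ht : t ∈ l9edRg F N) : skX N ≤ (l9QD F 𝔹 s Fs m N ell γ t).U := by
  have hx := l9c_X_pos hN
  have hx1 := l9c_X_le hN
  show skX N ≤ min 1 (skX N * (Real.exp t) ^ (-(F.sS / 2)))
  refine le_min hx1 ?_
  have h1 : (1 : ℝ) ≤ (Real.exp t) ^ (-(F.sS / 2)) :=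
    Real.one_le_rpow_of_pos_of_le_one_of_nonpos (Real.exp_pos t) ((l9ed_rg hN ht).2.trans (Real.rpow_le_one hx.le hx1 hp)) (by linarith)
  nlinarith

/-! ### the shell -/

theorem l9ed_SbD_mono {𝔹 : LlBase} {Mj : L9Mj} {κ : ℝ} {F : LlFix} {Φ Ψ : ℝ → L9Q → Prop} (h : L9SbD 𝔹 Mj κ F Φ) (hΦ : ∀ A Q, Φ A Q → Ψ A Q) :
    L9SbD 𝔹 Mj κ F Ψ := by
  intro δ hδ ε hε q hq
  obtain ⟨C, N0, H⟩ := h δ hδ ε hε q hq
  refine ⟨C, N0, fun N hN => ?_⟩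
  filter_upwards [H N hN] with Fs a m ell γ t hy
  exact hΦ _ _ (a m ell γ t hy)

/-- **every point of the strength sweep carries the record at a signed step** (`κ = x^16 ≤ min (λ U³) U⁴`) -/
theorem l9ed_pts (𝔹 : LlBase) (Mj : L9Mj) (κ0 : ℝ) (F : LlFix) (hF : L9cExp F) {c0 : ℝ} {Cn : ℕ → ℝ} {Kd Eb Cs cmax : ℝ} (hc0 : cmax ≤ c0)
    (hc1 : cmax < 1) (hEb : 0 ≤ Eb) (hEc : Eb * cmax ^ 2 ≤ 1) (hIn : L9edSo 𝔹 F fun κ Q hh => Q.E4GD c0 Cn Kd Eb Cs cmax κ hh)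
    (hDf : L9SbD 𝔹 Mj κ0 F fun _ Q => Q.InDif) :
    L9SbD 𝔹 Mj κ0 F fun A Q => 1 ≤ A ∧ Kd ≤ A ∧ Eb ≤ A ∧ 0 < Q.lam ∧ Q.lam ≤ 1 ∧ 0 < Q.U ∧ Q.u = 0 ∧ Q.e = 0 ∧
      ∃ κ hh, κ ≤ Q.lam * Q.U ^ 3 ∧ L9edRec Q c0 Cn Cs cmax κ (Kd * Q.lam * |hh|) 1 Eb hh := by
  have hp := hF.p_pos
  have hp12 := hF.p_le
  have hs : 0 ≤ F.sS := by have := hF.e_s; have := hF.e_pos; linarith
  intro δ hδ ε hε q hq
  obtain ⟨N1, H1⟩ := hIn 16 (by norm_num)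
  obtain ⟨_, N4, H4⟩ := hDf δ hδ ε hε q hq
  refine ⟨max 1 (max Kd Eb), max (max 2 N1) N4, fun N hN' => ?_⟩
  have hN : max 2 N1 ≤ N := (le_max_left _ _).trans hN'
  have g4 : N4 ≤ N := (le_max_right _ _).trans hN'
  have g0 : 2 ≤ N := (le_max_left _ _).trans hN
  have g1 : N1 ≤ N := (le_max_right _ _).trans hN
  have hx := l9c_X_pos (show 0 < N by omega)
  have hx1 := l9c_X_le (show 0 < N by omega)
  have hlog : Real.log (skX N) < 0 := Real.log_neg hx (l9c_X_lt g0)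
  obtain ⟨h1, hh1, HH⟩ := H1 N g1
  have hL : 0 < (F.pS - 12) * Real.log (skX N) := mul_pos_of_neg_of_neg (by linarith) hlog
  set h0 : ℝ := min h1 (min 1 ((F.pS - 12) * Real.log (skX N) / 4)) with hh0
  have h0p : 0 < h0 := lt_min hh1 (lt_min one_pos (by positivity))
  have h0a : h0 ≤ h1 := min_le_left _ _
  have h0b : h0 ≤ 1 := (min_le_right _ _).trans (min_le_left _ _)
  have h0c : h0 ≤ (F.pS - 12) * Real.log (skX N) / 4 := (min_le_right _ _).trans (min_le_right _ _)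
  filter_upwards [HH h0 h0p h0a, H4 N g4] with Fs a a4 m ell γ t hy
  obtain ⟨-, -, hell, ht, hD, -, -⟩ := id hy
  have ht' : t ∈ l9edRg F N := Ioo_subset_Icc_self ht
  -- the signed step, strictly inside the sweep
  obtain ⟨hh, e1, e2⟩ : ∃ hh : ℝ, |hh| = h0 ∧ t + hh ∈ l9LamRg F N := by
    rcases le_total t ((F.pS + 12) / 2 * Real.log (skX N)) with h | h
    · exact ⟨h0, abs_of_pos h0p, by constructor <;> nlinarith [ht.1, ht.2]⟩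
    · exact ⟨-h0, by rw [abs_neg, abs_of_pos h0p], by constructor <;> nlinarith [ht.1, ht.2]⟩
  have G := a (q * skX N ^ (1 + ε)) m ell γ t hh hell ht e2 e1 hD
  set Q := l9QD F 𝔹 (q * skX N ^ (1 + ε)) Fs m N ell γ t with hQ
  have hlam : Q.lam = Real.exp t := rfl
  have hlp : 0 < Q.lam := by rw [hlam]; exact Real.exp_pos t
  have hl12 : skX N ^ (12 : ℝ) ≤ Q.lam := (l9ed_rg (by omega) ht').1
  have hl1 : Q.lam ≤ 1 := (l9ed_rg (by omega) ht').2.trans (Real.rpow_le_one hx.le hx1 hp.le)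
  have hU : skX N ≤ Q.U := l9ed_x_le_U F hs hp.le 𝔹 _ Fs m (by omega) ell γ ht'
  have hUp : 0 < Q.U := hx.trans_le hU
  have i1 : (1 : ℝ) ≤ skX N ^ (-δ) := Real.one_le_rpow_of_pos_of_le_one_of_nonpos hx hx1 (by linarith)
  have hC1 : (1 : ℝ) ≤ max 1 (max Kd Eb) := le_max_left _ _
  have hCA : max 1 (max Kd Eb) ≤ max 1 (max Kd Eb) * skX N ^ (-δ) := le_mul_of_one_le_right (by linarith) i1
  have e16 : skX N ^ (16 : ℝ) = skX N ^ (12 : ℝ) * skX N ^ 4 := by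
    rw [show (16 : ℝ) = 12 + ((4 : ℕ) : ℝ) by norm_num, Real.rpow_add hx, Real.rpow_natCast]
  have h12 : 0 < skX N ^ (12 : ℝ) := Real.rpow_pos_of_pos hx _
  have h12' : skX N ^ (12 : ℝ) ≤ 1 := Real.rpow_le_one hx.le hx1 (by norm_num)
  have hx4 : skX N ^ 4 ≤ Q.U ^ 4 := pow_le_pow_left₀ hx.le hU 4
  have hx3 : skX N ^ 3 ≤ Q.U ^ 3 := pow_le_pow_left₀ hx.le hU 3
  have hx43 : skX N ^ 4 ≤ skX N ^ 3 := pow_le_pow_of_le_one hx.le hx1 (by norm_num)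
  refine ⟨hC1.trans hCA, ((le_max_left _ _).trans (le_max_right _ _)).trans hCA, ((le_max_right _ _).trans (le_max_right _ _)).trans hCA,
    hlp, hl1, hUp, rfl, rfl, skX N ^ (16 : ℝ), hh, ?_, ?_⟩
  · rw [e16]
    exact mul_le_mul hl12 (hx43.trans hx3) (by positivity) hlp.le
  · refine ⟨by intro h; rw [h, abs_zero] at e1; linarith, e1.le.trans h0b, hc0, ?_, hEb, hEc, ?_, G.ch, G.rf, G.clk, G.bb, G.mm, a4 m ell γ t hy⟩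
    · have : Q.p.a = ell := rfl
      rw [this]
      linarith [hell.1]
    · rw [e16]
      calc skX N ^ (12 : ℝ) * skX N ^ 4 ≤ 1 * Q.U ^ 4 := mul_le_mul h12' hx4 (by positivity) zero_le_one
        _ = Q.U ^ 4 := one_mul _

/-- **SHELL of the strength sweep**: the six groups in the shape `L9edSb` ⟹ `L9uE4D`   (degenerate skeletons: `l9es_deg_sup` of 11) -/
theorem l9ed_shell (𝔹 : LlBase) (Mj : L9Mj) (κ0 : ℝ) (F : LlFix) (hF : L9cExp F) {c0 : ℝ} {Cn : ℕ → ℝ} {Kd Eb Cs cmax : ℝ} (hCs : 1 < Cs)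
    (hc0 : cmax ≤ c0) (hc1 : cmax < 1) (hEb : 0 ≤ Eb) (hEc : Eb * cmax ^ 2 ≤ 1)
    (hIn : L9edSo 𝔹 F fun κ Q hh => Q.E4GD c0 Cn Kd Eb Cs cmax κ hh) (hDf : L9SbD 𝔹 Mj κ0 F fun _ Q => Q.InDif) :
    L9uE4D 𝔹 Mj κ0 F Cs cmax := by
  have hP := l9ed_pts 𝔹 Mj κ0 F hF hc0 hc1 hEb hEc hIn hDf
  by_cases hex : ∃ (R₀ : L9mRef) (eps₀ : ℝ), R₀.Ok c0 eps₀ Cn
  · obtain ⟨R₀, eps₀, h₀⟩ := hex
    refine l9u_E4D 𝔹 Mj κ0 F Cs cmax (l9mBd2 h₀) (l9mBd1 h₀) (l9mBd1 h₀) (ℝ × ℝ) (L9mF × L9mF) L9mF L9mF (l9ed_SbD_mono hP ?_)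
    rintro A Q ⟨hA, hKd, hE, hl, hl1, hU, hu, he, κ, hh, hκ, H⟩
    have h3 : 0 ≤ Q.lam * Q.U ^ 3 := by positivity
    exact H.supD h₀ hA hCs hl hl1 hU hu he (hκ.trans (le_mul_of_one_le_left h3 hA))
      (mul_le_mul_of_nonneg_right (mul_le_mul_of_nonneg_right hKd hl.le) (abs_nonneg _)) hE
  · refine l9ed_SbD_mono hP ?_
    rintro A Q ⟨-, -, -, -, -, -, -, -, κ, hh, -, H⟩
    exact absurd ⟨_, _, H.rf.ok0⟩ hex

/-! ## 7. producers of the groups `ch`, `clk` of the strength sweep      (helper159; from `l9dd_pos` of `L09/DotsD.lean`, `l9ph_K2_core`, `l9ph_hK` of 47) -/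

/-- **group CHAIN, strength sweep** -/
theorem l9ed_ch (F : LlFix) (𝔹 : LlBase) (hE : LlExpOk F.sS F.eta F.pS) (hP : LlBaseProfile 𝔹 F.T) (h3 : LlSec3 𝔹 F) :
    L9edSb 𝔹 F fun _ Q hh => Q.InCh hh := by
  obtain ⟨C, N0, -, -, H⟩ := l9dd_pos F 𝔹 hE hP h3
  intro Kη _
  refine ⟨N0, fun N hN => ⟨1, one_pos, fun h0 _ _ => Eventually.of_forall fun Fs s m ell γ t hh hell ht ht' _ _ => ?_⟩⟩
  have hl0 : 0 < ell := by linarith [hell.1]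
  have HH := H N hN ell hell γ
  have hpa : ∀ t', (l9PtL N ell γ t').a = ell := l9dd_ptL_a N ell γ
  have hadm : ∀ t' ∈ l9ddRg F N, LlStpAdm (l9PtL N ell γ t').a ((⟨F, 𝔹, s, Fs, m⟩ : L9I).P (l9PtL N ell γ t')) := fun t' h =>
    l9q_I_adm ⟨F, 𝔹, s, Fs, m⟩ (l9PtL N ell γ t') (by rw [hpa]; exact hl0.le) (by rw [hpa]; exact (HH.clk t' h).1.1)
      (by rw [hpa]; exact (HH.clk t' h).2.1.1) (by rw [hpa]; exact (HH.clk t' h).2.2.1)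
  exact ⟨by show 0 < (l9PtL N ell γ t).a; rw [hpa]; exact hl0, (hpa _).trans (hpa _).symm, hadm t ht, hadm (t + hh) ht'⟩

/-- **group CLOCK AT THE NODES, strength sweep**: below a fixed mass `v1` -/
theorem l9ed_clk (F : LlFix) (𝔹 : LlBase) (hP : LlBaseProfile 𝔹 F.T) (h3 : LlSec3 𝔹 F) :
    ∃ v1 : ℝ, 0 < v1 ∧ ∀ cmax : ℝ, cmax ≤ v1 → L9edSb 𝔹 F fun _ Q hh => Q.InClk cmax hh := by
  obtain ⟨c, C, v2, hc, -, hv2, N0, h4, -⟩ := l9ph_K2_core 𝔹 F hP h3.ok h3.dirProf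
  have hw0 : 0 < min v2 1 := lt_min hv2 one_pos
  refine ⟨min v2 1 / 2, by linarith, fun cmax hcm Kη _ => ⟨max N0 2, fun N hN => ⟨1, one_pos, fun h0 _ _ =>
    Eventually.of_forall fun Fs s m ell γ t hh hell ht ht' _ _ => ?_⟩⟩⟩
  have hN0 : N0 ≤ N := (le_max_left _ _).trans hN
  have h2N : 2 ≤ N := (le_max_right _ _).trans hN
  have hpa : ∀ t', (l9PtL N ell γ t').a = ell := l9dd_ptL_a N ell γ
  have key : ∀ t' ∈ l9ddRg F N, ∀ u, u ≤ ((⟨F, 𝔹, s, Fs, m⟩ : L9I).P (l9PtL N ell γ t')).length →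
      trPm (llMs (l9PtL N ell γ t').a ((⟨F, 𝔹, s, Fs, m⟩ : L9I).P (l9PtL N ell γ t'))) u ≤ cmax →
      (⟨F, 𝔹, s, Fs, m⟩ : L9I).fK (l9PtL N ell γ t') (trPm (llMs (l9PtL N ell γ t').a ((⟨F, 𝔹, s, Fs, m⟩ : L9I).P (l9PtL N ell γ t'))) u)
        = llCumK ((⟨F, 𝔹, s, Fs, m⟩ : L9I).P (l9PtL N ell γ t')) u := by
    intro t' h u hu hm
    have hok := l9dd_ptL_ok F h2N hell γ h
    obtain ⟨k1, k2, -⟩ := h4 _ hok hN0
    exact l9ph_hK ⟨F, 𝔹, s, Fs, m⟩ hok (k1.mono (min_le_left _ _)) hc.le k2 (min_le_right _ _) (by linarith : min v2 1 / 2 < min v2 1) hu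
      (hm.trans hcm) u le_rfl
  have haa : (l9PtL N ell γ (t + hh)).a = (l9PtL N ell γ t).a := (hpa _).trans (hpa _).symm
  refine ⟨fun u hu hm => key t ht u hu hm, fun u hu hm => ?_⟩
  have e1 := l9ed_ms ⟨F, 𝔹, s, Fs, m⟩ haa
  have e2 := l9ed_len ⟨F, 𝔹, s, Fs, m⟩ haa
  have := key (t + hh) ht' u (by rw [e2]; exact hu) (by rw [e1]; exact hm)
  rw [e1] at this
  exact this

end Claimed.Agent.R286
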