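import Claimed.Agent.R286.L09.ModCl
import Claimed.Agent.R286.L09.PhysI
import Claimed.Agent.R286.L09.GridE6S
import Claimed.Agent.R286.L09.PhysP
import Claimed.Agent.R286.L09.E4D

/-!
# Row 286 (S0533), LL 09, PHYSICAL LAYER of INST[L14Pair]: `L9clClose` AT TWO PATH POINTS      (owner helper288; prefix `l9pc`, `L9pc`)

`p` (size `ℓ`), `p'` (size `ℓ'`), same terminal mass `a`, same chain;   twist `σ = ℓ / ℓ'`.
* §1 terminal data: `‖scLC j - scLC j'‖_{C^n} ≤ A_n |j - j'|` (`scq_LC`);   `σ⁻¹ scLC a (σ ·) = scLC (σ a)`.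
* §2 the field `dist`: the mass profile of a chain is `2 δ`-close to the mass profile `scAlK a K` of its clock (120: `l9v_sup`), which is the dilated profile `ℓ A(ℓ² ·)` (120: `l9v_alK`);
     the twisted second profile is `ℓ A'(ℓ² ·)`:   SIZE pair: `A = A'` below `M`;   DIRECT pair: `|A - A'| ≤ |λ - λ'| z0`.
* §3 `L9clClose` at two points;   §4 the references of the two points form a pair (`Ok`, `Ok`, `L9mClose`).
* §5 `l9pc_main`: THE EVENTUAL PAIR THEOREM (`L9pcMain F c0 Cn`) from the P-list (`LlBaseProfile`, `LlDirProf`, `LlRef`): all the inputs are produced (47 `l9ph_main2`, `l9ph_unif_prof`; 120 `l9v_chi_ev`, `l9v_net_ps`).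
* §6 EXITS: `l9pc_size` (`L9esSb llBase F fun κ Q hh => Q.InRef c0 Cn κ hh`, 11), `l9pc_direct` (`L9edSb llBase F fun κ Q hh => Q.InRD c0 Cn κ (Kd λ |hh|) 1 hh`, `Kd ≥ 2`, 166), `l9pc_exit` (ONE `c0, Cn` for both).
-/

set_option autoImplicit false

namespace Claimed.Agent.R286

open MeasureTheory Set Filter Topology

/-! ## 1. terminal data -/

theorem l9pc_LC {j₀ j₁ : ℝ} (h0 : 0 < j₀) (n : ℕ) : ∃ A : ℝ, 0 ≤ A ∧ ∀ j j' : ℝ, j₀ ≤ j → j ≤ j₁ → j₀ ≤ j' → j' ≤ j₁ →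
    ScN n (A * |j - j'|) (fun z => scLC j z - scLC j' z) := by
  have fam := scq_LC (j₁ := j₁) h0
  choose C hC using fam.dbdd
  have hA : ∀ k ≤ n, C k ≤ ∑ k ∈ Finset.range (n + 1), |C k| := fun k hk =>
    (le_abs_self _).trans (Finset.single_le_sum (f := fun k => |C k|) (fun _ _ => abs_nonneg _)
      (Finset.mem_range.2 (by omega)))
  have key : ∀ j j' : ℝ, j₀ ≤ j' → j' ≤ j → j ≤ j₁ →
      ScN n ((∑ k ∈ Finset.range (n + 1), |C k|) * (j - j')) (fun z => scLC j z - scLC j' z) := by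
    intro j j' h1 h2 h3
    refine l9cl_N_sub (fam.bi j ⟨h1.trans h2, h3⟩) (fam.bi j' ⟨h1, h2.trans h3⟩) fun k hk z => ?_
    have := ((fam.obs.dz_iter k).sub_interval h1 h3).abs_sub_le h2 (C := C k) (z := z)
      (fun θ hθ => hC k θ ⟨h1.trans hθ.1, hθ.2.trans h3⟩ z)
    exact this.trans (mul_le_mul_of_nonneg_right (hA k hk) (sub_nonneg.2 h2))
  refine ⟨∑ k ∈ Finset.range (n + 1), |C k|, Finset.sum_nonneg fun _ _ => abs_nonneg _, fun j j' h1 h2 h3 h4 => ?_⟩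
  rcases le_total j' j with h | h
  · rw [abs_of_nonneg (sub_nonneg.2 h)]
    exact key j j' h3 h h2
  · rw [abs_sub_comm, abs_of_nonneg (sub_nonneg.2 h)]
    exact l9cl_N_symm (key j' j h1 h h4)

theorem l9pc_LC_dil (σ a z : ℝ) : σ⁻¹ * scLC a (σ * z) = scLC (σ * a) z := by
  rw [l9v_LC]
  rfl

/-- the field `term` for `F = F' = scLC a`, `1 ≤ a ≤ 4` -/
theorem l9pc_term (n : ℕ) : ∃ A : ℝ, 0 ≤ A ∧ ∀ a σ : ℝ, 1 ≤ a → a ≤ 4 → 1 / 2 ≤ σ → σ ≤ 2 →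
    ScN n (A * |σ - 1|) (fun z => scLC a z - σ⁻¹ * scLC a (σ * z)) := by
  obtain ⟨A, hA, H⟩ := l9pc_LC (j₀ := 1 / 2) (j₁ := 8) (by norm_num) n
  refine ⟨A * 4, by positivity, fun a σ h1 h4 hs1 hs2 => ?_⟩
  simp only [l9pc_LC_dil]
  refine (H a (σ * a) (by linarith) (by linarith) (by nlinarith) (by nlinarith)).weaken ?_
  have e : a - σ * a = -((σ - 1) * a) := by ring
  rw [e, abs_neg, abs_mul, abs_of_nonneg (by linarith : (0:ℝ) ≤ a)]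
  have := abs_nonneg (σ - 1)
  nlinarith [mul_nonneg hA this]

/-! ## 2. the field `dist` -/

theorem l9pc_scL_dil {σ : ℝ} (π : List (ℝ × ℝ)) : skScL σ⁻¹ π = l9vDil σ π := by
  unfold skScL l9vDil
  apply List.map_congr_left
  intro p _
  ext
  · simp only [div_inv_eq_mul]; ring
  · simp only [inv_pow]; ring

theorem l9pc_al_dil {σ : ℝ} (hσ : 0 < σ) (π : List (ℝ × ℝ)) (r : ℝ) : scAl (skScL σ⁻¹ π) r = σ * scAl π (σ ^ 2 * r) := by
  rw [l9pc_scL_dil, ← l9v_Al hσ, mul_div_cancel_left₀ _ (by positivity)]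

/-- the mass profile of a chain against the mass profile of its clock -/
theorem l9pc_al_sup {a δ : ℝ} (ha : 0 ≤ a) (hδ : 0 < δ) {K : ℝ → ℝ} (hK : GhClk1 a K) {ps : List GhPos} (h : L9vNet a δ ps)
    {r : ℝ} (h0 : 0 ≤ r) (hr : r < scLen (l9phPi a K 0 ps)) : |scAl (l9phPi a K 0 ps) r - scAlK a K r| ≤ 2 * δ := by
  have hτ : 0 ≤ K a := hK.2.trans (hK.1 ⟨le_rfl, ha⟩ ⟨ha, le_rfl⟩ ha)
  have e1 : l9phPi a K 0 ps = slkPi (skCStp a K K 0 0 ps) := by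
    rw [← l9ph_pi_eq a K K K ps 0 0 0, l9v_pi_stp]
  have hch := h.ch ha hτ hK (τ := K a)
  have hle := slc_stp_len_le ha hK le_rfl K ps 0 0 hch
  have hpe := slc_pi_eq a (K a) K K ps 0 0
  rw [e1] at hr ⊢
  have h1 := l9v_sup ha hτ hδ hK le_rfl h (r := r) (by linarith)
  rwa [hpe, sc_app_Al_left _ _ h0 hr] at h1

/-- **the field `dist`, one chain, two clocks**: `η` = distance of the mass profile of the first clock to the twisted mass profile of the second one -/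
theorem l9pc_dist {a δ σ η : ℝ} (ha : 0 ≤ a) (hδ : 0 < δ) (hσ : 0 < σ) {K K' : ℝ → ℝ} (hK : GhClk1 a K) (hK' : GhClk1 a K')
    {ps : List GhPos} (h : L9vNet a δ ps) (hlen : scLen (l9phPi a K 0 ps) = scLen (l9phPi a K' 0 ps) / σ ^ 2)
    (hη : ∀ r, 0 ≤ r → r < scLen (l9phPi a K 0 ps) → |scAlK a K r - σ * scAlK a K' (σ ^ 2 * r)| ≤ η)
    (hT : 0 ≤ scLen (l9phPi a K 0 ps)) :
    ∫ r in (0:ℝ)..scLen (l9phPi a K 0 ps), |scAl (l9phPi a K 0 ps) r - scAl (skScL σ⁻¹ (l9phPi a K' 0 ps)) r|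
      ≤ (2 * δ + η + σ * (2 * δ)) * scLen (l9phPi a K 0 ps) := by
  have hσ2 : 0 < σ ^ 2 := by positivity
  have hb : ∀ᵐ r : ℝ, r ∈ Set.uIoc 0 (scLen (l9phPi a K 0 ps)) →
      ‖|scAl (l9phPi a K 0 ps) r - scAl (skScL σ⁻¹ (l9phPi a K' 0 ps)) r|‖ ≤ 2 * δ + η + σ * (2 * δ) := by
    have hne : ∀ᵐ r : ℝ, r ≠ scLen (l9phPi a K 0 ps) := by
      have : ({scLen (l9phPi a K 0 ps)}ᶜ : Set ℝ) ∈ ae (volume : Measure ℝ) := compl_mem_ae_iff.2 (measure_singleton _)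
      exact this
    filter_upwards [hne] with r hrne hr
    rw [Set.uIoc_of_le hT] at hr
    have hr0 : 0 ≤ r := hr.1.le
    have hlt : r < scLen (l9phPi a K 0 ps) := lt_of_le_of_ne hr.2 hrne
    have h1 := l9pc_al_sup ha hδ hK h hr0 hlt
    have h2 := l9pc_al_sup ha hδ hK' h (r := σ ^ 2 * r) (by positivity) (by
      rw [hlen, lt_div_iff₀ hσ2] at hlt
      linarith)
    have h3 := hη r hr0 hlt
    rw [Real.norm_eq_abs, abs_abs, l9pc_al_dil hσ]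
    have e : scAl (l9phPi a K 0 ps) r - σ * scAl (l9phPi a K' 0 ps) (σ ^ 2 * r)
        = (scAl (l9phPi a K 0 ps) r - scAlK a K r) + (scAlK a K r - σ * scAlK a K' (σ ^ 2 * r))
          + σ * -(scAl (l9phPi a K' 0 ps) (σ ^ 2 * r) - scAlK a K' (σ ^ 2 * r)) := by ring
    rw [e]
    refine (abs_add_le _ _).trans (add_le_add ((abs_add_le _ _).trans (add_le_add h1 h3)) ?_)
    rw [abs_mul, abs_neg, abs_of_pos hσ]
    exact mul_le_mul_of_nonneg_left h2 hσ.le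
  have h3 := intervalIntegral.norm_integral_le_of_norm_le_const_ae hb
  rw [sub_zero, abs_of_nonneg hT] at h3
  exact (le_abs_self _).trans h3

/-! ### the mass profiles of the clocks of two path points -/

section pt

variable {p p' : LlPt} {F : LlFix} {𝔹 : LlBase}

theorem l9pc_alK (hl : 0 < p.ell) {Ξ : ℝ} (hA : LpqProf (p.Aprof F 𝔹) Ξ (p.a / p.ell)) {r : ℝ} (hr : 0 ≤ r) :
    scAlK p.a (p.K F 𝔹) r = p.ell * p.Aprof F 𝔹 (p.ell ^ 2 * r) := by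
  have e := l9v_alK hA hl hr
  rw [l9v_a_eq hl] at e
  exact e

/-- the twist `σ = ℓ / ℓ'` brings the second profile to the scale of the first one -/
theorem l9pc_eta (hl : 0 < p.ell) (hl' : 0 < p'.ell) (haa : p'.a = p.a) {Ξ Ξ' : ℝ} (hA : LpqProf (p.Aprof F 𝔹) Ξ (p.a / p.ell))
    (hA' : LpqProf (p'.Aprof F 𝔹) Ξ' (p'.a / p'.ell)) {r : ℝ} (hr : 0 ≤ r) :
    scAlK p.a (p.K F 𝔹) r - p.ell / p'.ell * scAlK p.a (p'.K F 𝔹) ((p.ell / p'.ell) ^ 2 * r)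
      = p.ell * (p.Aprof F 𝔹 (p.ell ^ 2 * r) - p'.Aprof F 𝔹 (p.ell ^ 2 * r)) := by
  rw [l9pc_alK hl hA hr, ← haa, l9pc_alK hl' hA' (by positivity)]
  have e : p'.ell ^ 2 * ((p.ell / p'.ell) ^ 2 * r) = p.ell ^ 2 * r := by field_simp
  rw [e]
  field_simp

/-- SIZE pair: the smoothed profiles coincide below `M` -/
theorem l9pc_Asm_eq (hN : p'.N = p.N) (hlam : p'.lam = p.lam) (hsm : p.sm = true) (hsm' : p'.sm = true) {ξ : ℝ} (hξ : ξ < p.M) :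
    p'.Aprof F 𝔹 ξ = p.Aprof F 𝔹 ξ := by
  have hM : p'.M = p.M := l9v_M_congr hN
  have hom : p'.om = p.om := by unfold LlPt.om LlPt.x; rw [hN]
  unfold LlPt.Aprof
  rw [hsm, hsm']
  simp only [if_true]
  unfold LlPt.Asm LlPt.Adir
  rw [hM, hom, hlam, if_neg (not_le.2 hξ), if_neg (not_le.2 hξ)]

/-- DIRECT pair -/
theorem l9pc_Adir_sub (hsm : p.sm = false) (hsm' : p'.sm = false) (ξ : ℝ) :
    p.Aprof F 𝔹 ξ - p'.Aprof F 𝔹 ξ = (p.lam - p'.lam) * F.P ξ := by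
  unfold LlPt.Aprof
  rw [hsm, hsm']
  simp only [Bool.false_eq_true, if_false]
  unfold LlPt.Adir
  ring

theorem l9pc_P_le {LP : ℝ} (hP : LkkCut F.P F.z0 LP) {ξ : ℝ} (hξ : 0 ≤ ξ) : |F.P ξ| ≤ F.z0 := by
  rw [abs_of_nonneg (hP.nn ξ hξ)]
  rcases le_total F.z0 ξ with h | h
  · rw [hP.zero ξ h]; exact hP.z00.le
  · exact (hP.le ξ hξ).trans h

/-- the horizon of the chain -/
theorem l9pc_len_le (hl : 0 < p.ell) (ha : 0 ≤ p.a) {Ξ : ℝ} (hA : LpqProf (p.Aprof F 𝔹) Ξ (p.a / p.ell)) (hK : GhClk1 p.a (p.K F 𝔹))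
    {δ : ℝ} {ps : List GhPos} (h : L9vNet p.a δ ps) : p.ell ^ 2 * scLen (l9phPi p.a (p.K F 𝔹) 0 ps) ≤ Ξ := by
  have hτ : 0 ≤ p.K F 𝔹 p.a := hK.2.trans (hK.1 ⟨le_rfl, ha⟩ ⟨ha, le_rfl⟩ ha)
  have e1 : l9phPi p.a (p.K F 𝔹) 0 ps = slkPi (skCStp p.a (p.K F 𝔹) (p.K F 𝔹) 0 0 ps) := by
    rw [← l9ph_pi_eq p.a (p.K F 𝔹) (p.K F 𝔹) (p.K F 𝔹) ps 0 0 0, l9v_pi_stp]
  have hle := slc_stp_len_le ha hK le_rfl (p.K F 𝔹) ps 0 0 (h.ch ha hτ hK (τ := p.K F 𝔹 p.a))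
  rw [← e1, sub_zero] at hle
  have h1 : llInv (p.Aprof F 𝔹) (p.a / p.ell) ≤ Ξ := lpq_inv_le_tau hA _ le_rfl
  have h2 : p.ell ^ 2 * p.K F 𝔹 p.a = llInv (p.Aprof F 𝔹) (p.a / p.ell) := by
    show p.ell ^ 2 * ((p.ell ^ 2)⁻¹ * llInv (p.Aprof F 𝔹) (p.a / p.ell)) = _
    field_simp
  have h3 : p.ell ^ 2 * scLen (l9phPi p.a (p.K F 𝔹) 0 ps) ≤ p.ell ^ 2 * p.K F 𝔹 p.a :=
    mul_le_mul_of_nonneg_left hle (by positivity)
  linarith

end pt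

/-- **the field `dist` at two path points**, `e` = distance of the two normalised profiles below the horizon `Ξ` of the first one -/
theorem l9pc_dist_pt (I : L9I) {p p' : LlPt} {Ξ Ξ' δ e : ℝ} (hl : 1 ≤ p.ell) (hl2 : p.ell ≤ 2) (hl' : 1 ≤ p'.ell) (ha : 0 ≤ p.a)
    (haa : p'.a = p.a) (hA : LpqProf (p.Aprof I.F I.𝔹) Ξ (p.a / p.ell)) (hA' : LpqProf (p'.Aprof I.F I.𝔹) Ξ' (p'.a / p'.ell))
    (hK : GhClk1 p.a (p.K I.F I.𝔹)) (hK' : GhClk1 p'.a (p'.K I.F I.𝔹)) (hδ : 0 < δ) (hnet : L9vNet p.a δ (ghPs p.a (l9Fl I.Fs)))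
    (hlen : scLen (I.pi p) = scLen (I.pi p') / (p.ell / p'.ell) ^ 2) (he0 : 0 ≤ e)
    (he : ∀ ξ, 0 ≤ ξ → ξ < Ξ → |p.Aprof I.F I.𝔹 ξ - p'.Aprof I.F I.𝔹 ξ| ≤ e) :
    ∫ r in (0:ℝ)..scLen (I.pi p), |scAl (I.pi p) r - scAl (skScL (p.ell / p'.ell)⁻¹ (I.pi p')) r| ≤ (6 * δ + 2 * e) * Ξ := by
  have hl0 : 0 < p.ell := by linarith
  have hl0' : 0 < p'.ell := by linarith
  have hσ : 0 < p.ell / p'.ell := by positivity
  have hσ2 : p.ell / p'.ell ≤ 2 := by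
    rw [div_le_iff₀ hl0']; nlinarith
  rw [l9ph_I_pi, l9ph_I_pi, haa] at hlen ⊢
  rw [haa] at hK'
  have hpos : ScPos (l9phPi p.a (p.K I.F I.𝔹) 0 (ghPs p.a (l9Fl I.Fs))) :=
    (l9ph_pi_adm ha hK (ghPs p.a (l9Fl I.Fs)) 0 (gh_os_ps_pairwise _ _) (fun q hq => (gh_os_ps_mem.1 hq).2)
      (fun q hq => gh_os_at_nonneg ha hK (gh_os_ps_mem.1 hq).2.2.2.1)).pos
  have hT := sc_len_nonneg hpos
  have hTΞ := l9pc_len_le hl0 ha hA hK hnet
  have h1 := l9pc_dist ha hδ hσ hK hK' hnet hlen (η := 2 * e) (fun r hr0 hr => by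
    rw [l9pc_eta hl0 hl0' haa hA hA' hr0, abs_mul, abs_of_pos hl0]
    have hξ : p.ell ^ 2 * r < Ξ := lt_of_lt_of_le (mul_lt_mul_of_pos_left hr (by positivity)) hTΞ
    have := he _ (by positivity) hξ
    nlinarith) hT
  refine h1.trans ?_
  have hTle : scLen (l9phPi p.a (p.K I.F I.𝔹) 0 (ghPs p.a (l9Fl I.Fs))) ≤ Ξ := by
    have h2 : (1:ℝ) ≤ p.ell ^ 2 := one_le_pow₀ hl
    nlinarith
  have hc : 2 * δ + 2 * e + p.ell / p'.ell * (2 * δ) ≤ 6 * δ + 2 * e := by nlinarith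
  exact mul_le_mul hc hTle hT (by positivity)

/-! ## 3. `L9clClose` at two path points -/

theorem l9pc_fMu (I : L9I) {p p' : LlPt} (haa : p'.a = p.a) : I.fMu p' = I.fMu p := by
  unfold L9I.fMu
  rw [l9ph_I_fst, l9ph_I_fst, haa]

/-- the twist -/
theorem l9pc_sigma {ℓ ℓ' δ : ℝ} (h1 : 1 ≤ ℓ) (h2 : ℓ ≤ 2) (h1' : 1 ≤ ℓ') (h2' : ℓ' ≤ 2) (hd : |ℓ - ℓ'| ≤ δ) :
    1 / 2 ≤ ℓ / ℓ' ∧ ℓ / ℓ' ≤ 2 ∧ |ℓ / ℓ' - 1| ≤ δ := by
  have h0 : 0 < ℓ' := by linarith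
  refine ⟨by rw [le_div_iff₀ h0]; linarith, by rw [div_le_iff₀ h0]; linarith, ?_⟩
  have e : ℓ / ℓ' - 1 = (ℓ - ℓ') / ℓ' := by field_simp
  rw [e, abs_div, abs_of_pos h0, div_le_iff₀ h0]
  have := abs_nonneg (ℓ - ℓ')
  nlinarith

/-- **`L9clClose` at two path points with the same terminal mass**.   `hlen`, `hfK`: 47 (`L09/PhysP`);   `δn` = net of the chain, `e` = distance of the normalised profiles -/
theorem l9pc_point2 (I : L9I) {p p' : LlPt} {A : ℕ → ℝ} {c C C0 v2 c0 eps δ δn e Ξ Ξ' : ℝ} {k : ℕ} (hp : p.Ok I.F) (hp' : p'.Ok I.F)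
    (haa : p'.a = p.a)
    (hK : L9phK2 (p.K I.F I.𝔹) (p.k0 I.F I.𝔹) c C v2) (hK' : L9phK2 (p'.K I.F I.𝔹) (p'.k0 I.F I.𝔹) c C v2)
    (hP : L9phK2P (p.K I.F I.𝔹) (p'.K I.F I.𝔹) (p.k0 I.F I.𝔹) (p'.k0 I.F I.𝔹) C v2 δ) (hc : 0 ≤ c)
    (hclk : GhClk1 p.a (p.K I.F I.𝔹)) (hclk' : GhClk1 p'.a (p'.K I.F I.𝔹)) (hv2 : v2 ≤ 1)
    (he : 0 ≤ eps) (hec : eps ≤ c0) (hcv : 2 * c0 < v2) (hF : ghGrid 4 k ⊆ I.Fs) (hk : 4 / 2 ^ k ≤ eps)
    (hC : C ≤ C0) (hC1 : 1 ≤ C0) (hδ : 0 < δ) (hd : |p.ell - p'.ell| ≤ δ)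
    (hAt : ∀ n (a σ : ℝ), 1 ≤ a → a ≤ 4 → 1 / 2 ≤ σ → σ ≤ 2 → ScN n (A n * |σ - 1|) (fun z => scLC a z - σ⁻¹ * scLC a (σ * z)))
    (hA : LpqProf (p.Aprof I.F I.𝔹) Ξ (p.a / p.ell)) (hA' : LpqProf (p'.Aprof I.F I.𝔹) Ξ' (p'.a / p'.ell))
    (hδn : 0 < δn) (hnet : L9vNet p.a δn (ghPs p.a (l9Fl I.Fs))) (he0 : 0 ≤ e)
    (hAA : ∀ ξ, 0 ≤ ξ → ξ < Ξ → |p.Aprof I.F I.𝔹 ξ - p'.Aprof I.F I.𝔹 ξ| ≤ e) (hsm : (6 * δn + 2 * e) * Ξ ≤ C0 * δ)
    (hlen : scLen (I.pi p) = scLen (I.pi p') / (p.ell / p'.ell) ^ 2)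
    (hfK : ∀ u, 0 ≤ u → u ≤ c0 → |I.fK p u - I.fK p' u / (p.ell / p'.ell) ^ 2| ≤ C0 * δ) :
    L9clClose A C0 (scLC p.a) (scLC p'.a) (I.pi p) (I.pi p') c0 eps δ (p.ell / p'.ell) (I.fK p) (I.fKap p) (I.fK p')
      (I.fKap p') := by
  have ha := l9ph_a_mem hp
  have hs := l9ph_I_samp I hp hK hc hclk hv2 hcv
  have hs' := l9ph_I_samp I hp' hK' hc hclk' hv2 hcv
  have hP1 := hP.mono hcv.le
  have hce : c0 + eps ≤ 2 * c0 := by linarith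
  have hm : (I.pi p').map Prod.fst = (I.pi p).map Prod.fst := by rw [l9ph_I_fst, l9ph_I_fst, haa]
  have hn : L9phNet ((I.pi p).map Prod.fst) c0 eps := by
    rw [l9ph_I_fst]
    exact l9ph_net (l9_fl_grid hF) hk (by linarith) ha.2
  have hC' : 0 ≤ C := hK.k0_nn.trans hK.k0_le
  obtain ⟨s1, s2, s3⟩ := l9pc_sigma hp.ell1 (lkk_ell_le_two hp) hp'.ell1 (lkk_ell_le_two hp') hd
  refine ⟨hδ, s1, s2, s3.trans (le_mul_of_one_le_left hδ.le hC1), fun u h0 hu => ?_, fun u h0 hu => ?_, fun n => ?_, hlen, ?_, hfK⟩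
  · exact (l9ph_pair_kap hP1 hs hs' hm hn hce u h0 hu).trans (mul_le_mul_of_nonneg_right hC hδ.le)
  · refine (l9ph_pair_kap_lip hP1 (mul_nonneg hC' hδ.le) he hs hs' hm hn hce u h0 hu).trans ?_
    have : C * δ * (u + eps) ≤ C0 * δ * (u + eps) :=
      mul_le_mul_of_nonneg_right (mul_le_mul_of_nonneg_right hC hδ.le) (by linarith)
    linarith
  · rw [haa]
    have h1 := hAt n p.a _ ha.1 ha.2 s1 s2
    have hAn : 0 ≤ A n := by
      by_contra hneg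
      push Not at hneg
      have h2 := (hAt n 1 2 le_rfl (by norm_num) (by norm_num) le_rfl).nonneg
      norm_num at h2
      linarith
    exact h1.weaken (mul_le_mul_of_nonneg_left s3 hAn)
  · exact (l9pc_dist_pt I hp.ell1 (lkk_ell_le_two hp) hp'.ell1 (by linarith) haa hA hA' hclk hclk' hδn hnet hlen he0 hAA).trans hsm

/-! ## 4. the references of two path points form a pair -/

/-- **EXIT (pointwise)**: constants `Cn` which depend only on `A, C0` -/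
theorem l9pc_pair {A : ℕ → ℝ} (hA : ∀ n, 0 ≤ A n) {C0 : ℝ} (hC0 : 1 ≤ C0) :
    ∃ Cn : ℕ → ℝ, ∀ (I : L9I) (p p' : LlPt) (c0 eps δ : ℝ), p'.a = p.a →
      L9mScHyp 4 A C0 (scLC p.a) (I.pi p) c0 eps (I.fK p) (I.fKap p) (I.fMu p) →
      L9mScHyp 4 A C0 (scLC p'.a) (I.pi p') c0 eps (I.fK p') (I.fKap p') (I.fMu p') →
      L9clClose A C0 (scLC p.a) (scLC p'.a) (I.pi p) (I.pi p') c0 eps δ (p.ell / p'.ell) (I.fK p) (I.fKap p) (I.fK p')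
        (I.fKap p') →
      (I.ref p).Ok c0 eps Cn ∧ (I.ref p').Ok c0 eps Cn ∧ L9mClose (I.ref p) (I.ref p') c0 eps δ (p.ell / p'.ell) Cn := by
  obtain ⟨Cn, H⟩ := l9cl_close (a := 4) (by norm_num) hA hC0
  refine ⟨Cn, fun I p p' c0 eps δ haa h1 h2 h3 => ?_⟩
  rw [l9pc_fMu I haa] at h2
  have := H _ _ (slk_LC_BI p.a) (slk_LC_BI p'.a) _ _ c0 eps δ _ _ _ _ _ _ h1 h2 h3
  unfold L9I.ref
  rw [l9pc_fMu I haa]
  exact this


/-! ## 5. THE EVENTUAL PAIR THEOREM: every input is produced      (47 `l9ph_main2`, `l9ph_unif_prof`;   120 `l9v_chi_ev`, `l9v_net_ps`;   §1-§4) -/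

theorem L9mScHyp.l9pc_mono {a : ℝ} {A A' : ℕ → ℝ} {C0 : ℝ} {F : ℝ → ℝ} {π : List (ℝ × ℝ)} {c0 eps : ℝ} {K kap mu : ℝ → ℝ}
    (h : L9mScHyp a A C0 F π c0 eps K kap mu) (hA : ∀ n, A n ≤ A' n) : L9mScHyp a A' C0 F π c0 eps K kap mu :=
  { h with FN := fun n => (h.FN n).weaken (hA n) }

/-- two admissible points with the same `N`, `sm`: the strengths differ by `β - β'`; two smoothed points have the same strength -/
theorem l9pc_lam_sub {p p' : LlPt} (hN : p'.N = p.N) (hsm : p'.sm = p.sm) : p.lam - p'.lam = p.bet - p'.bet := by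
  have hom : p'.om = p.om := by unfold LlPt.om LlPt.x; rw [hN]
  unfold LlPt.bet
  rw [hsm, hom]
  ring

theorem l9pc_lam_eq {p p' : LlPt} {F : LlFix} (hp : p.Ok F) (hp' : p'.Ok F) (hN : p'.N = p.N) (hsm : p.sm = true) (hsm' : p'.sm = true) :
    p'.lam = p.lam := by
  rw [(hp.sm_fin hsm).1, (hp'.sm_fin hsm').1]
  unfold LlPt.x
  rw [hN]

/-- **the statement of the eventual pair theorem**, constants `c0, Cn`:   ORDER: `N0 | N | drift mesh eps ≤ c0 | least distance δ0 | eventually Fs | s, m, two points (same a, sm, N), distance δ ≥ max δ0 (|ℓ-ℓ'| + |β-β'|)` -/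
def L9pcMain (F : LlFix) (c0 : ℝ) (Cn : ℕ → ℝ) : Prop :=
  ∃ N0 : ℕ, ∀ N : ℕ, N0 ≤ N → ∀ eps : ℝ, 0 < eps → eps ≤ c0 → ∀ δ0 : ℝ, 0 < δ0 → ∀ᶠ Fs : Finset GhPos in atTop,
    ∀ (s : ℝ) (m : ℕ) (p p' : LlPt) (δ : ℝ), p.Ok F → p'.Ok F → p.N = N → p'.N = p.N → p'.a = p.a → p'.sm = p.sm → δ0 ≤ δ →
      |p.ell - p'.ell| + |p.bet - p'.bet| ≤ δ →
      ((⟨F, llBase, s, Fs, m⟩ : L9I).ref p).Ok c0 eps Cn ∧ ((⟨F, llBase, s, Fs, m⟩ : L9I).ref p').Ok c0 eps Cn ∧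
        L9mClose ((⟨F, llBase, s, Fs, m⟩ : L9I).ref p) ((⟨F, llBase, s, Fs, m⟩ : L9I).ref p') c0 eps δ (p.ell / p'.ell) Cn

theorem l9pc_main_eqns_cite : True := by
  have := @L9pcMain.eq_1
  trivial

/-- **THE EVENTUAL PAIR THEOREM** from the P-list (`LlBaseProfile`, `LlDirProf`, `LlRef`) -/
theorem l9pc_main (F : LlFix) (hb : LlBaseProfile llBase F.T) (hF : F.Ok) (hDP : LlDirProf llBase F) {c C v0 : ℝ} (hc : 0 < c)
    (hRef : LlRef llBase F c C v0) : ∃ (c0 : ℝ) (Cn : ℕ → ℝ), 0 < c0 ∧ c0 ≤ 1 ∧ L9pcMain F c0 Cn := by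
  obtain ⟨A1, C1, c0, hA1, hC1, hc0, hc01, N1, H⟩ := l9ph_main2 llBase F hb hF hDP
  choose A2 hA2 HA2 using l9pc_term
  obtain ⟨LP, hP⟩ := lkk_cut F hF
  obtain ⟨N2, hprof⟩ := l9ph_unif_prof llBase F hDP
  obtain ⟨N3, href⟩ := hRef
  set xs := llBase.xiS F.T with hxs
  set C0 : ℝ := max C1 (max (4 * C) (1 + 2 * F.z0 * |xs|)) with hC0d
  have hC0a : C1 ≤ C0 := le_max_left _ _
  have hC0b : 4 * C ≤ C0 := (le_max_left _ _).trans (le_max_right _ _)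
  have hC0c : 1 + 2 * F.z0 * |xs| ≤ C0 := (le_max_right _ _).trans (le_max_right _ _)
  have hC0 : 1 ≤ C0 := hC1.trans hC0a
  have hA : ∀ n, 0 ≤ A1 n + A2 n := fun n => add_nonneg (hA1 n) (hA2 n)
  obtain ⟨Cn, HP⟩ := l9pc_pair (A := fun n => A1 n + A2 n) hA hC0
  refine ⟨c0, Cn, hc0, hc01, max N1 (max N2 N3), fun N hN eps he hec δ0 hδ0 => ?_⟩
  have g1 : N1 ≤ N := (le_max_left _ _).trans hN
  have g2 : N2 ≤ N := ((le_max_left _ _).trans (le_max_right _ _)).trans hN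
  have g3 : N3 ≤ N := ((le_max_right _ _).trans (le_max_right _ _)).trans hN
  -- the horizon at the dyad `N`
  set MN : ℝ := (l9PtL N 1 (fun _ => 0) 0).M with hMN
  obtain ⟨k, hk⟩ := slc_pow_small (C := 4) (ε := δ0 / (6 * (|MN| + |xs| + 1))) (by positivity)
  filter_upwards [H C0 hC0a eps he hec, l9v_chi_ev F N (C := C) (v0 := v0) hc, eventually_ge_atTop (ghGrid 4 k)] with Fs a1 a2 hFs
    s m p p' δ hp hp' hpN hNN haa hsm hδ0δ hd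
  obtain ⟨b1, -, b3⟩ := a1 s m
  set I : L9I := ⟨F, llBase, s, Fs, m⟩ with hI
  have hpN' : p'.N = N := hNN.trans hpN
  have hδ : 0 < δ := hδ0.trans_le hδ0δ
  have pr := (hprof p hp (by rw [hpN]; exact g2)).1
  have pr' := (hprof p' hp' (by rw [hpN']; exact g2)).1
  have hl0 : 0 < p.ell := by linarith [hp.ell1]
  have hl0' : 0 < p'.ell := by linarith [hp'.ell1]
  have ha := l9ph_a_mem hp
  -- chi
  have chi : ∀ q : LlPt, q.Ok F → q.N = N → 1 ≤ C0 * (scD 2 (scLC q.a) (I.pi q) 0 0) ^ 2 := fun q hq hqN =>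
    (a2 s m q hqN hq (hprof q hq (by rw [hqN]; exact g2)).1 (href q hq (by rw [hqN]; exact g3))).trans
      (mul_le_mul_of_nonneg_right hC0b (sq_nonneg _))
  have h1 := (b1 p hp (by rw [hpN]; exact g1) (chi p hp hpN)).l9pc_mono (A' := fun n => A1 n + A2 n) fun n => by linarith [hA2 n]
  have h2 := (b1 p' hp' (by rw [hpN']; exact g1) (chi p' hp' hpN')).l9pc_mono (A' := fun n => A1 n + A2 n) fun n => by linarith [hA2 n]
  obtain ⟨-, cl⟩ := b3 p p' hp hp' (by rw [hpN]; exact g1) haa hsm hNN δ hd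
  have hdl : |p.ell - p'.ell| ≤ δ := (le_add_of_nonneg_right (abs_nonneg _)).trans hd
  have hdb : |p.lam - p'.lam| ≤ δ := by
    rw [l9pc_lam_sub hNN hsm]; exact (le_add_of_nonneg_left (abs_nonneg _)).trans hd
  obtain ⟨s1, s2, s3⟩ := l9pc_sigma hp.ell1 (lkk_ell_le_two hp) hp'.ell1 (lkk_ell_le_two hp') hdl
  -- the net
  have hnet : L9vNet p.a (4 / 2 ^ k) (ghPs p.a (l9Fl Fs)) := l9v_net_ps (by norm_num) k (l9_fl_grid hFs) ha.2
  have hδn : (0 : ℝ) < 4 / 2 ^ k := by positivity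
  have hD : (0 : ℝ) < 6 * (|MN| + |xs| + 1) := by positivity
  have hk' : 6 * (4 / 2 ^ k) * (|MN| + |xs| + 1) ≤ δ0 := by
    have := (lt_div_iff₀ hD).1 hk
    linarith
  have hM : p.M = MN := l9v_M_congr hpN
  have hclk := l9v_pt_clk hl0 pr
  have hclk' := l9v_pt_clk hl0' pr'
  refine HP I p p' c0 eps δ haa h1 h2 (cl.close hδ (fun n => ?_) ?_)
  · rw [haa]
    refine (HA2 n p.a _ ha.1 ha.2 s1 s2).weaken ?_
    have := mul_le_mul_of_nonneg_left s3 (hA2 n)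
    nlinarith [hA1 n]
  · cases hs : p.sm with
    | true =>
      have hs' : p'.sm = true := hsm.trans hs
      rw [hs] at pr
      simp only [if_true] at pr
      refine (l9pc_dist_pt I hp.ell1 (lkk_ell_le_two hp) hp'.ell1 (by linarith) haa pr pr' hclk hclk' hδn hnet cl.len le_rfl
        fun ξ _ hξ => ?_).trans ?_
      · rw [l9pc_Asm_eq hNN (l9pc_lam_eq hp hp' hNN hs hs') hs hs' hξ, sub_self, abs_zero]
      · rw [hM]
        have e1 : (6 * (4 / 2 ^ k) + 2 * 0) * MN ≤ 6 * (4 / 2 ^ k) * (|MN| + |xs| + 1) := by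
          rw [mul_zero, add_zero]
          refine mul_le_mul_of_nonneg_left ?_ (by positivity)
          linarith [le_abs_self MN, abs_nonneg xs]
        nlinarith
    | false =>
      have hs' : p'.sm = false := hsm.trans hs
      rw [hs] at pr
      simp only [Bool.false_eq_true, if_false] at pr
      refine (l9pc_dist_pt I hp.ell1 (lkk_ell_le_two hp) hp'.ell1 (by linarith) haa pr pr' hclk hclk' hδn hnet cl.len
        (e := δ * F.z0) (mul_nonneg hδ.le hP.z00.le) fun ξ hξ0 _ => ?_).trans ?_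
      · rw [l9pc_Adir_sub hs hs', abs_mul]
        exact mul_le_mul hdb (l9pc_P_le hP hξ0) (abs_nonneg _) hδ.le
      · have e1 : 6 * (4 / 2 ^ k) * xs ≤ 6 * (4 / 2 ^ k) * (|MN| + |xs| + 1) := by
          refine mul_le_mul_of_nonneg_left ?_ (by positivity)
          linarith [le_abs_self xs, abs_nonneg MN]
        have e2 : 2 * (δ * F.z0) * xs ≤ 2 * F.z0 * |xs| * δ := by
          have : δ * F.z0 * xs ≤ δ * F.z0 * |xs| := mul_le_mul_of_nonneg_left (le_abs_self xs) (mul_nonneg hδ.le hP.z00.le)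
          linarith
        have e3 : (1 + 2 * F.z0 * |xs|) * δ ≤ C0 * δ := mul_le_mul_of_nonneg_right hC0c hδ.le
        show (6 * (4 / 2 ^ k) + 2 * (δ * F.z0)) * xs ≤ C0 * δ
        nlinarith

/-! ## 6. EXITS: the group `InRef` of the size half (11, `L09/E4S`), the group `InRD` of the strength sweep (166, `L09/E4D`) -/

/-- **SIZE**: `Q.InRef c0 Cn κ hh` in the shape `L9esSb` -/
theorem l9pc_size {F : LlFix} {c0 : ℝ} {Cn : ℕ → ℝ} (hc0 : 0 < c0) (hp12 : F.pS ≤ 12) (H : L9pcMain F c0 Cn) :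
    L9esSb llBase F fun κ Q hh => Q.InRef c0 Cn κ hh := by
  intro Kη hK
  obtain ⟨N1, H1⟩ := H
  obtain ⟨N2, H2⟩ := l9es_small Kη c0 (by linarith) hc0
  refine ⟨max N1 (max N2 2), fun N hN => ⟨1, one_pos, fun h0 hh0 _ => ?_⟩⟩
  have g1 : N1 ≤ N := (le_max_left _ _).trans hN
  have g2 : N2 ≤ N := ((le_max_left _ _).trans (le_max_right _ _)).trans hN
  have g3 : 2 ≤ N := ((le_max_right _ _).trans (le_max_right _ _)).trans hN
  have hx : 0 < skX N := l9b_skX_pos (by omega)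
  filter_upwards [H1 N g1 (skX N ^ Kη) (Real.rpow_pos_of_pos hx _) (H2 N g2) h0 hh0] with Fs a s m γ θ hh hθ hθ' hhe _
  obtain ⟨e1, e2, e3, e4, e5⟩ := l9ph_ptS_pair F N γ hθ.2 hθ'.2
  rw [add_sub_cancel_left] at e4 e5
  obtain ⟨r1, r2, r3⟩ := a s m (l9PtS F N γ θ) (l9PtS F N γ (θ + hh)) |hh| (l9v_PtS_ok F hp12 g3 γ hθ) (l9v_PtS_ok F hp12 g3 γ hθ') rfl e3
    e1 e2 hhe.ge e5
  rw [e4] at r3
  exact ⟨r1, r2, r3⟩

theorem l9pc_ptL_ok (F : LlFix) {N : ℕ} (hN : 2 ≤ N) {ell : ℝ} (hell : ell ∈ Icc (1 : ℝ) ((2 : ℝ) ^ (1 / 6 : ℝ))) (γ : Fin (N + 1) → ℝ) {t : ℝ}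
    (ht : t ∈ l9edRg F N) : (l9PtL N ell γ t).Ok F := by
  have hcl : ∀ y, ll04Cl y ∈ Icc (-4 : ℝ) 4 := fun y =>
    ⟨by linarith [(ll04w_cl_mem y).1], by linarith [(ll04w_cl_mem y).2]⟩
  obtain ⟨r1, r2⟩ := l9ed_rg (show 0 < N by omega) ht
  refine ⟨hN, hell.1, hell.2, r1, r2, hcl _, fun h => ?_, ⟨le_rfl, zero_le_one⟩, ⟨zero_le_one, le_rfl⟩, fun h => absurd h (by simp [l9PtL, ll04Pt])⟩
  show (if hh : h < N then ll04Cl (γ ⟨h + 1, Nat.succ_lt_succ hh⟩) else 1 / 2) ∈ Icc (-4 : ℝ) 4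
  split_ifs
  · exact hcl _
  · constructor <;> norm_num

/-- **STRENGTH SWEEP**: `Q.InRD c0 Cn κ (Kd λ |hh|) 1 hh` in the shape `L9edSb`, every `Kd ≥ 2` -/
theorem l9pc_direct {F : LlFix} {c0 : ℝ} {Cn : ℕ → ℝ} (hc0 : 0 < c0) (H : L9pcMain F c0 Cn) {Kd : ℝ} (hKd : 2 ≤ Kd) :
    L9edSb llBase F fun κ Q hh => Q.InRD c0 Cn κ (Kd * Q.lam * |hh|) 1 hh := by
  intro Kη hK
  obtain ⟨N1, H1⟩ := H
  obtain ⟨N2, H2⟩ := l9es_small Kη c0 (by linarith) hc0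
  refine ⟨max N1 (max N2 2), fun N hN => ⟨1, one_pos, fun h0 hh0 hh1 => ?_⟩⟩
  have g1 : N1 ≤ N := (le_max_left _ _).trans hN
  have g2 : N2 ≤ N := ((le_max_left _ _).trans (le_max_right _ _)).trans hN
  have g3 : 2 ≤ N := ((le_max_right _ _).trans (le_max_right _ _)).trans hN
  have hx : 0 < skX N := l9b_skX_pos (by omega)
  have hx12 : 0 < skX N ^ (12 : ℝ) := Real.rpow_pos_of_pos hx _
  filter_upwards [H1 N g1 (skX N ^ Kη) (Real.rpow_pos_of_pos hx _) (H2 N g2) (Kd * skX N ^ (12 : ℝ) * h0) (by positivity)] with Fs a s m ell γ t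
    hh hell ht ht' hhe _
  have hl : ell ≠ 0 := by linarith [hell.1]
  obtain ⟨e1, e2, e3, e4, e5⟩ := l9ph_ptL_pair N hl γ t (t + hh)
  have hlam : (l9QD F llBase s Fs m N ell γ t).lam = Real.exp t := rfl
  have hd : |Real.exp t - Real.exp (t + hh)| ≤ Kd * Real.exp t * |hh| := by
    have e : Real.exp t - Real.exp (t + hh) = -(Real.exp t * (Real.exp hh - 1)) := by rw [Real.exp_add]; ring
    rw [e, abs_neg, abs_mul, abs_of_pos (Real.exp_pos t)]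
    have h2 := Real.abs_exp_sub_one_le (x := hh) (by rw [hhe]; exact hh1)
    have h3 : Real.exp t * |Real.exp hh - 1| ≤ Real.exp t * (2 * |hh|) := mul_le_mul_of_nonneg_left h2 (Real.exp_pos t).le
    have h4 : 2 * (Real.exp t * |hh|) ≤ Kd * (Real.exp t * |hh|) :=
      mul_le_mul_of_nonneg_right hKd (mul_nonneg (Real.exp_pos t).le (abs_nonneg _))
    linarith
  obtain ⟨r1, r2, r3⟩ := a s m (l9PtL N ell γ t) (l9PtL N ell γ (t + hh)) (Kd * Real.exp t * |hh|) (l9pc_ptL_ok F g3 hell γ ht)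
    (l9pc_ptL_ok F g3 hell γ ht') rfl e3 e1 e2 (by
      rw [hhe]
      exact mul_le_mul_of_nonneg_right (mul_le_mul_of_nonneg_left (l9ed_rg (by omega) ht).1 (by linarith)) hh0.le) (by rw [e5]; exact hd)
  rw [e4] at r3
  exact ⟨r1, r2, r3⟩

/-- **EXIT of INST[L14Pair] + INST[L14Calc]**: ONE pair of constants `c0, Cn` for the two halves of the producer of (E4), from the P-list -/
theorem l9pc_exit (F : LlFix) (hb : LlBaseProfile llBase F.T) (hF : F.Ok) (hp12 : F.pS ≤ 12) (hDP : LlDirProf llBase F) {c C v0 : ℝ} (hc : 0 < c)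
    (hRef : LlRef llBase F c C v0) : ∃ (c0 : ℝ) (Cn : ℕ → ℝ), 0 < c0 ∧ c0 ≤ 1 ∧ (L9esSb llBase F fun κ Q hh => Q.InRef c0 Cn κ hh) ∧
      ∀ Kd : ℝ, 2 ≤ Kd → L9edSb llBase F fun κ Q hh => Q.InRD c0 Cn κ (Kd * Q.lam * |hh|) 1 hh := by
  obtain ⟨c0, Cn, h0, h1, H⟩ := l9pc_main F hb hF hDP hc hRef
  exact ⟨c0, Cn, h0, h1, l9pc_size h0 hp12 H, fun Kd hKd => l9pc_direct h0 H hKd⟩

end Claimed.Agent.R286
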