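import Claimed.Agent.R286.L09.RedDefs

/-!
# Row 286 (S0533), LL Sec. 9, node RED: TABLE LEMMAS      (owner helper282; prefix `l9r`)

Combinatorics of the cuts (`l9rCut`, `l9rTc`, `l9rBig`, `l9rT4`, `l9rT2`): they are trees, cuts compose, restrictions of the doubled table.
TEX[LL:exp:prop-low-coefficients] l.459-468 ("Conditional on the positive-law prefixes at that cut, a cross-block pair has exactly its projected conditional mean"):
in table form = `l9r_big_one`: the doubled table restricted to (ONE original pair + the copies of the other slots) IS the cut table.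
-/

set_option autoImplicit false

namespace Claimed.Agent.R286

/-- a cut of a tree is a tree -/
theorem l9r_cut_isTr {N n : ℕ} {τ : ℕ → ℕ → ℕ} (hτ : IsTr N n τ) (κ : ℕ → ℕ) : IsTr N n (l9rCut n κ τ) := by
  refine ⟨?_, ?_, ?_, ?_⟩
  · intro x y hx hy
    have := hτ.le x y hx hy
    simp only [l9rCut, hx, hy, and_self, if_true]
    split_ifs <;> omega
  · intro x hx
    simp [l9rCut, hx, hτ.diag x hx]
  · intro x y hx hy
    have := hτ.symm x y hx hy
    simp only [l9rCut, hx, hy, and_self, if_true]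
    by_cases h : x = y
    · subst h; rfl
    · have h' : ¬ y = x := fun e => h e.symm
      simp only [h, h', if_false]
      omega
  · intro x y z hx hy hz
    have h1 := hτ.ultra x y z hx hy hz
    have h2 := hτ.le x y hx hy
    have h3 := hτ.le y z hy hz
    have h4 := hτ.diag x hx
    simp only [l9rCut, hx, hy, hz, and_self, if_true]
    by_cases hxy : x = y
    · subst hxy
      simp only [if_true]
      exact min_le_right _ _
    · by_cases hyz : y = z
      · subst hyz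
        simp only [if_true]
        exact min_le_left _ _
      · by_cases hxz : x = z
        · subst hxz
          simp only [hxy, hyz, if_false, if_true]
          omega
        · simp only [hxy, hyz, hxz, if_false]
          omega

theorem l9r_cut_nm (n : ℕ) (κ : ℕ → ℕ) (τ : ℕ → ℕ → ℕ) : l9aNm n (l9rCut n κ τ) = l9rCut n κ τ := by
  funext x y
  by_cases h : x < n ∧ y < n <;> simp [l9aNm, l9rCut, h]

theorem l9r_cut_mem_tab {N n : ℕ} {τ : ℕ → ℕ → ℕ} (hτ : IsTr N n τ) (κ : ℕ → ℕ) : l9rCut n κ τ ∈ l9aTab N n :=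
  l9a_mem_tab.2 ⟨l9r_cut_isTr hτ κ, l9r_cut_nm n κ τ⟩

theorem l9r_tc_isTr {N n : ℕ} {τ : ℕ → ℕ → ℕ} (hτ : IsTr N n τ) (c : ℕ) : IsTr N n (l9rTc n c τ) := l9r_cut_isTr hτ _

theorem l9r_tc_mem_tab {N n : ℕ} {τ : ℕ → ℕ → ℕ} (hτ : IsTr N n τ) (c : ℕ) : l9rTc n c τ ∈ l9aTab N n := l9r_cut_mem_tab hτ _

/-- value of the cut at two different labels -/
theorem l9r_tc_apply {n c : ℕ} (τ : ℕ → ℕ → ℕ) {x y : ℕ} (hx : x < n) (hy : y < n) (hxy : x ≠ y) :
    l9rTc n c τ x y = min (τ x y) c := by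
  simp [l9rTc, l9rCut, hx, hy, hxy]

/-- a designated split below the cut is not changed -/
theorem l9r_tc_pair {n c : ℕ} (τ : ℕ → ℕ → ℕ) {i : ℕ} (hi : 2 * i + 1 < n) (hv : τ (2 * i) (2 * i + 1) ≤ c) :
    l9rTc n c τ (2 * i) (2 * i + 1) = τ (2 * i) (2 * i + 1) := by
  rw [l9r_tc_apply τ (by omega) hi (by omega), min_eq_left hv]

/-- cuts compose -/
theorem l9r_tc_tc (n : ℕ) {c c' : ℕ} (h : c' ≤ c) (τ : ℕ → ℕ → ℕ) : l9rTc n c' (l9rTc n c τ) = l9rTc n c' τ := by
  funext x y
  by_cases hxy : x < n ∧ y < n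
  · by_cases e : x = y
    · simp [l9rTc, l9rCut, hxy, e]
    · simp only [l9rTc, l9rCut, hxy, e, and_self, if_true, if_false]
      omega
  · simp [l9rTc, l9rCut, hxy]

/-- the cut at the top depth does nothing on the labels -/
theorem l9r_tc_top {N n : ℕ} {τ : ℕ → ℕ → ℕ} (hτ : IsTr N n τ) : L9aAg n (l9rTc n (N + 1) τ) τ := by
  intro x y hx hy
  have := hτ.le x y hx hy
  by_cases e : x = y
  · simp [l9rTc, l9rCut, hy, e]
  · simp only [l9rTc, l9rCut, hx, hy, e, and_self, if_true, if_false]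
    omega

/-- the cut depends on the labels only -/
theorem l9r_tc_congr {n : ℕ} {τ τ' : ℕ → ℕ → ℕ} (h : L9aAg n τ τ') (c : ℕ) : l9rTc n c τ = l9rTc n c τ' := by
  funext x y
  by_cases hxy : x < n ∧ y < n
  · simp [l9rTc, l9rCut, hxy, h x y hxy.1 hxy.2]
  · simp [l9rTc, l9rCut, hxy]

/-- the doubled table is a tree -/
theorem l9r_big_isTr {N n : ℕ} {τ : ℕ → ℕ → ℕ} (hτ : IsTr N n τ) (c : ℕ) : IsTr N (2 * n) (l9rBig N n c τ) := by
  rcases Nat.eq_zero_or_pos n with rfl | hn
  · exact ⟨fun x y hx => by omega, fun x hx => by omega, fun x y hx => by omega, fun x y z hx => by omega⟩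
  · exact l9r_cut_isTr (tr_comap_isTr hτ (fun x => x % n) fun x _ => Nat.mod_lt x hn) _

/-- the originals carry `τ` -/
theorem l9r_big_orig {N n : ℕ} {τ : ℕ → ℕ → ℕ} (hτ : IsTr N n τ) (c : ℕ) :
    L9aAg n (fun x y => l9rBig N n c τ x y) τ := by
  intro x y hx hy
  have := hτ.le x y hx hy
  have hx2 : x < 2 * n := by omega
  have hy2 : y < 2 * n := by omega
  by_cases e : x = y
  · subst e
    simp [l9rBig, l9rCut, hx2, Nat.mod_eq_of_lt hx]
  · simp only [l9rBig, l9rCut, hx2, hy2, hx, hy, e, and_self, if_true, if_false, Nat.mod_eq_of_lt hx, Nat.mod_eq_of_lt hy]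
    omega

/-- **one change**: (the slots in `A` original, the others resampled) carry the cut table, as soon as no two different slots of `A` share more than `c` stages -/
theorem l9r_big_mixed {N n : ℕ} {τ : ℕ → ℕ → ℕ} (hτ : IsTr N n τ) {c : ℕ} (hc : c ≤ N + 1) (A : ℕ → Prop) [DecidablePred A]
    (hA : ∀ x y, x < n → y < n → A x → A y → x ≠ y → τ x y ≤ c) :
    L9aAg n (fun x y => l9rBig N n c τ (if A x then x else n + x) (if A y then y else n + y)) (l9rTc n c τ) := by
  intro x y hx hy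
  have hle := hτ.le x y hx hy
  have m1 : (n + x) % n = x := by rw [Nat.add_mod_left, Nat.mod_eq_of_lt hx]
  have m2 : (n + y) % n = y := by rw [Nat.add_mod_left, Nat.mod_eq_of_lt hy]
  have hx2 : x < 2 * n := by omega
  have hy2 : y < 2 * n := by omega
  have hx3 : n + x < 2 * n := by omega
  have hy3 : n + y < 2 * n := by omega
  have nx : ¬ n + x < n := by omega
  have ny : ¬ n + y < n := by omega
  by_cases e : x = y
  · subst e
    by_cases a : A x
    · simp [l9rBig, l9rTc, l9rCut, a, hx, hx2, Nat.mod_eq_of_lt hx]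
    · simp [l9rBig, l9rTc, l9rCut, a, hx, hx3, m1]
  · have e1 : ¬ n + x = n + y := by omega
    have e2 : ¬ x = n + y := by omega
    have e3 : ¬ n + x = y := by omega
    by_cases a : A x <;> by_cases b : A y
    · have := hA x y hx hy a b e
      simp only [l9rBig, l9rTc, l9rCut, a, b, hx, hy, hx2, hy2, e, and_self, if_true, if_false, Nat.mod_eq_of_lt hx, Nat.mod_eq_of_lt hy]
      omega
    · simp only [l9rBig, l9rTc, l9rCut, a, b, hx, hy, hx2, hy3, ny, e, e2, and_self, if_true, if_false, Nat.mod_eq_of_lt hx, m2]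
      omega
    · simp only [l9rBig, l9rTc, l9rCut, a, b, hx, hy, hx3, hy2, nx, e, e3, and_self, if_true, if_false, Nat.mod_eq_of_lt hy, m1]
      omega
    · simp only [l9rBig, l9rTc, l9rCut, a, b, hx, hy, hx3, hy3, nx, ny, e, e1, and_self, if_true, if_false, m1, m2]

/-! ### evaluation of the doubled table -/

theorem l9r_big_oo {N n : ℕ} {τ : ℕ → ℕ → ℕ} (hτ : IsTr N n τ) (c : ℕ) {x y : ℕ} (hx : x < n) (hy : y < n) :
    l9rBig N n c τ x y = τ x y := l9r_big_orig hτ c x y hx hy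

theorem l9r_big_oc {N n : ℕ} {τ : ℕ → ℕ → ℕ} (hτ : IsTr N n τ) (c : ℕ) {x y : ℕ} (hx : x < n) (hy : y < n) :
    l9rBig N n c τ x (n + y) = min (τ x y) c := by
  have hle := hτ.le x y hx hy
  have m2 : (n + y) % n = y := by rw [Nat.add_mod_left, Nat.mod_eq_of_lt hy]
  have hx2 : x < 2 * n := by omega
  have hy3 : n + y < 2 * n := by omega
  have ny : ¬ n + y < n := by omega
  have e2 : ¬ x = n + y := by omega
  simp only [l9rBig, l9rCut, hx, hx2, hy3, ny, e2, and_self, if_true, if_false, Nat.mod_eq_of_lt hx, m2]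
  omega

theorem l9r_big_co {N n : ℕ} {τ : ℕ → ℕ → ℕ} (hτ : IsTr N n τ) (c : ℕ) {x y : ℕ} (hx : x < n) (hy : y < n) :
    l9rBig N n c τ (n + x) y = min (τ x y) c := by
  have hle := hτ.le x y hx hy
  have m1 : (n + x) % n = x := by rw [Nat.add_mod_left, Nat.mod_eq_of_lt hx]
  have hy2 : y < 2 * n := by omega
  have hx3 : n + x < 2 * n := by omega
  have nx : ¬ n + x < n := by omega
  have e3 : ¬ n + x = y := by omega
  simp only [l9rBig, l9rCut, hy, hy2, hx3, nx, e3, and_self, if_true, if_false, Nat.mod_eq_of_lt hy, m1]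
  omega

theorem l9r_big_cc {N n : ℕ} {τ : ℕ → ℕ → ℕ} (_hτ : IsTr N n τ) (c : ℕ) {x y : ℕ} (hx : x < n) (hy : y < n) (hxy : x ≠ y) :
    l9rBig N n c τ (n + x) (n + y) = min (τ x y) c := by
  have m1 : (n + x) % n = x := by rw [Nat.add_mod_left, Nat.mod_eq_of_lt hx]
  have m2 : (n + y) % n = y := by rw [Nat.add_mod_left, Nat.mod_eq_of_lt hy]
  have hx3 : n + x < 2 * n := by omega
  have hy3 : n + y < 2 * n := by omega
  have nx : ¬ n + x < n := by omega
  have ny : ¬ n + y < n := by omega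
  have e1 : ¬ n + x = n + y := by omega
  simp only [l9rBig, l9rCut, hx3, hy3, nx, ny, e1, and_self, if_true, if_false, m1, m2, min_self]

theorem l9r_big_diag {N n : ℕ} {τ : ℕ → ℕ → ℕ} (hτ : IsTr N n τ) (c : ℕ) {x : ℕ} (hx : x < 2 * n) :
    l9rBig N n c τ x x = N + 1 := (l9r_big_isTr hτ c).diag x hx

/-- the four labels (pair `i`, its copy) of the doubled table -/
def l9rF4 (n i : ℕ) : ℕ → ℕ := fun x => if x < 2 then 2 * i + x else n + (2 * i + (x - 2))

theorem l9r_f4_lt {n i : ℕ} (hi : 2 * i + 1 < n) (x : ℕ) (hx : x < 4) : l9rF4 n i x < 2 * n := by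
  unfold l9rF4
  split_ifs <;> omega

theorem l9r_big_four {N n : ℕ} {τ : ℕ → ℕ → ℕ} (hτ : IsTr N n τ) {c : ℕ} (hc : c ≤ N + 1) {i : ℕ} (hi : 2 * i + 1 < n)
    (hv : τ (2 * i) (2 * i + 1) ≤ c) :
    L9aAg 4 (fun x y => l9rBig N n c τ (l9rF4 n i x) (l9rF4 n i y)) (l9rT4 N (τ (2 * i) (2 * i + 1)) c) := by
  have h0 : 2 * i < n := by omega
  have a0 : l9rF4 n i 0 = 2 * i := by simp [l9rF4]
  have a1 : l9rF4 n i 1 = 2 * i + 1 := by simp [l9rF4]
  have a2 : l9rF4 n i 2 = n + 2 * i := by simp [l9rF4]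
  have a3 : l9rF4 n i 3 = n + (2 * i + 1) := by simp [l9rF4]
  have d0 := hτ.diag _ h0
  have d1 := hτ.diag _ hi
  have hs := hτ.symm _ _ hi h0
  have ne : 2 * i ≠ 2 * i + 1 := by omega
  have m1 : min (τ (2 * i) (2 * i + 1)) c = τ (2 * i) (2 * i + 1) := min_eq_left hv
  have m2 : min (N + 1) c = c := min_eq_right hc
  intro x y hx hy
  interval_cases x <;> interval_cases y <;>
    simp only [a0, a1, a2, a3, l9r_big_oo hτ c h0 h0, l9r_big_oo hτ c h0 hi, l9r_big_oo hτ c hi h0, l9r_big_oo hτ c hi hi,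
      l9r_big_oc hτ c h0 h0, l9r_big_oc hτ c h0 hi, l9r_big_oc hτ c hi h0, l9r_big_oc hτ c hi hi,
      l9r_big_co hτ c h0 h0, l9r_big_co hτ c h0 hi, l9r_big_co hτ c hi h0, l9r_big_co hτ c hi hi,
      l9r_big_cc hτ c h0 hi ne, l9r_big_cc hτ c hi h0 ne.symm,
      l9r_big_diag hτ c (x := n + 2 * i) (by omega), l9r_big_diag hτ c (x := n + (2 * i + 1)) (by omega),
      d0, d1, hs, m1, m2] <;> simp [l9rT4]

/-- the copy of the pair `i` in the doubled table -/
theorem l9r_big_two {N n : ℕ} {τ : ℕ → ℕ → ℕ} (hτ : IsTr N n τ) {c : ℕ} {i : ℕ} (hi : 2 * i + 1 < n)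
    (hv : τ (2 * i) (2 * i + 1) ≤ c) :
    L9aAg 2 (fun x y => l9rBig N n c τ (n + (2 * i + x)) (n + (2 * i + y))) (l9rT2 N (τ (2 * i) (2 * i + 1))) := by
  have h0 : 2 * i < n := by omega
  have hs := hτ.symm _ _ hi h0
  have ne : 2 * i ≠ 2 * i + 1 := by omega
  have m1 : min (τ (2 * i) (2 * i + 1)) c = τ (2 * i) (2 * i + 1) := min_eq_left hv
  intro x y hx hy
  interval_cases x <;> interval_cases y <;>
    simp only [add_zero, l9r_big_cc hτ c h0 hi ne, l9r_big_cc hτ c hi h0 ne.symm,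
      l9r_big_diag hτ c (x := n + 2 * i) (by omega), l9r_big_diag hτ c (x := n + (2 * i + 1)) (by omega), hs, m1] <;> simp [l9rT2]

theorem l9r_t4_isTr {N v c : ℕ} (hv : v ≤ c) (hc : c ≤ N + 1) : IsTr N 4 (l9rT4 N v c) := by
  refine ⟨?_, ?_, ?_, ?_⟩
  · intro x y _ _
    unfold l9rT4
    split_ifs <;> omega
  · intro x _
    simp [l9rT4]
  · intro x y _ _
    unfold l9rT4
    by_cases e : x = y
    · subst e; rfl
    · have e' : ¬ y = x := fun h => e h.symm
      by_cases p : x % 2 = y % 2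
      · have p' : y % 2 = x % 2 := p.symm
        rw [if_neg e, if_neg e', if_pos p, if_pos p']
      · have p' : ¬ y % 2 = x % 2 := fun h => p h.symm
        rw [if_neg e, if_neg e', if_neg p, if_neg p']
  · intro x y z _ _ _
    unfold l9rT4
    split_ifs <;> omega

theorem l9r_t2_isTr {N v : ℕ} (hv : v ≤ N + 1) : IsTr N 2 (l9rT2 N v) := by
  refine ⟨?_, ?_, ?_, ?_⟩
  · intro x y _ _
    unfold l9rT2
    split_ifs <;> omega
  · intro x _
    simp [l9rT2]
  · intro x y _ _
    unfold l9rT2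
    by_cases e : x = y
    · subst e; rfl
    · have e' : ¬ y = x := fun h => e h.symm
      simp [e, e']
  · intro x y z _ _ _
    unfold l9rT2
    split_ifs <;> omega

/-- the pair `i` of a tree -/
theorem l9r_pair_two {N n : ℕ} {τ : ℕ → ℕ → ℕ} (hτ : IsTr N n τ) {i : ℕ} (hi : 2 * i + 1 < n) :
    L9aAg 2 (fun x y => τ (2 * i + x) (2 * i + y)) (l9rT2 N (τ (2 * i) (2 * i + 1))) := by
  have h0 : 2 * i < n := by omega
  have d0 := hτ.diag _ h0
  have d1 := hτ.diag _ hi
  have hs := hτ.symm _ _ hi h0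
  intro x y hx hy
  interval_cases x <;> interval_cases y <;> simp [l9rT2, d0, d1, hs]

end Claimed.Agent.R286
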