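-- OWNER helper101 (HEAD of node TRD; section head helper60).      Source: LL 09-expansion.tex l.252-330.
import Claimed.Agent.R286.L02.RowD
import Claimed.Agent.R286.L02.Ref
import Claimed.Agent.R286.L09.TrAbs

/-!
# Row 286 (S0533), LL Sec. 9, node TRD (direct strength sweep, T3-T6), file L09/TrdAbs : THE ABSTRACT LAYER      (owner helper101; prefix `l9x_`, `L9x`)      TEX[LL:exp:prop-low-coefficients]

ONE instance, TWO ensembles `en : Bool` (`false` untilted, `true` tilted), TWO scalar references: `X en` at the reference `K` of the path, `X' en` at the monotone reference `K_S = h + b S`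
(`S` = the UNTILTED mean, the same deterministic centring in both ensembles).      `δ = Q^* - S`,  `φ = K_S - K = b (S - q) + d`,  `J = b δ + φ`,  `J' = b δ`.

ROUTE (09 l.252-330, re-derived; no Taylor expansion of the scalar coefficients, no binomial count):
 1. `l9x_id9`   (A9) as an IDENTITY (from the leaves of 239, `L02/RowD`):  `D1 - D2 - detR = dDef X X - dTop X`,
                `dDef X Y = ½ (∑_{pair 0} ν[P Q^*] - (N/Ψ)_{Y, < k}[P])_#`  (`P` = test of the pressure gradient, degree `≤ 1`, weight = dotted clocks),  `dTop` = the top coefficient derivative (`k + 1` pairs).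
 2. `dDef X X = dDef X X' + dRec`,  `dRec = ½ (∑_{pair 0} (N/Ψ)_{K_S, <k}[P] - (N/Ψ)_{K, <k}[P])_#`.
 3. `l9x_def_le` (T3 + T4, first half): `|dDef X X'| ≤ ½ C_A (errW + errW0 / m)` AT THE REFERENCE `K_S` ((A7) with the insertions `b δ`);   `l9x_t34`: bound of `errW` by (D2), (D8) (`l9t_direct` of 65).
 4. `l9x_rec_le` (T5 + T6): the DIFFERENCE OF THE TWO ENSEMBLES of `dRec` is `Ψ(1) - Ψ(0)`, `Ψ(t)` = the same number at the reference `K + t φ`;   by `l2rc_Phi_deriv` (138) `Ψ'(t)` is ONE signed sum of `k + 1` pairs with a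
    coefficient COMMON to the two ensembles;   mean value inequality + `l9x_affine`.
 5. `l9x_affine`: a signed sum with a bounded common coefficient of `ν^s[∏ (u_i + v_i δ_i)] - ν^0[∏ (u_i + v_i δ_i)]` is a sum of `2^n` terms `l9xT`, each bounded by the contract `L9xBD` (= Lemma 9.1 + the weight check `j + l ≥ 5`).
 6. `l9x_main`: the sum.
-/

set_option autoImplicit false

namespace Claimed.Agent.R286

open scoped BigOperators Nat
open Finset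

/-! ### 0. linearity of the signed sums -/

theorem l9x_sumK_add (ms : ℕ → ℝ) (N k : ℕ) : ∀ (q : ℕ) (τ : JtTopo) (Φ Ψ : JtTopo → ℝ),
    trSumK ms N k q τ (fun τ' => Φ τ' + Ψ τ') = trSumK ms N k q τ Φ + trSumK ms N k q τ Ψ := by
  induction k with
  | zero => intro q τ Φ Ψ; rfl
  | succ k ih =>
    intro q τ Φ Ψ
    simp only [trSumK, trSum, ih, mul_add, Finset.sum_add_distrib]

theorem l9x_sumK_sub (ms : ℕ → ℝ) (N k q : ℕ) (τ : JtTopo) (Φ Ψ : JtTopo → ℝ) :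
    trSumK ms N k q τ (fun τ' => Φ τ' - Ψ τ') = trSumK ms N k q τ Φ - trSumK ms N k q τ Ψ := by
  have h := l9x_sumK_add ms N k q τ Φ fun τ' => (-1) * Ψ τ'
  rw [← tcb_sumK_mul_left] at h
  have e : (fun τ' => Φ τ' - Ψ τ') = fun τ' => Φ τ' + (-1) * Ψ τ' := by funext τ'; ring
  rw [e, h]; ring

theorem l9x_sumK_fsum (ms : ℕ → ℝ) (N k q : ℕ) (τ : JtTopo) {ι : Type} (s : Finset ι) (Φ : ι → JtTopo → ℝ) :
    trSumK ms N k q τ (fun τ' => ∑ i ∈ s, Φ i τ') = ∑ i ∈ s, trSumK ms N k q τ (Φ i) := by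
  classical
  induction s using Finset.induction_on with
  | empty =>
    simp only [Finset.sum_empty]
    have := tcb_sumK_mul_left ms N k q τ 0 fun _ => 0
    simpa using this.symm
  | insert a s ha ih => simp only [Finset.sum_insert ha]; rw [l9x_sumK_add, ih]

theorem l9x_absK_add (ms : ℕ → ℝ) (N k : ℕ) : ∀ (q : ℕ) (τ : JtTopo) (Φ Ψ : JtTopo → ℝ),
    trAbsK ms N k q τ (fun τ' => Φ τ' + Ψ τ') = trAbsK ms N k q τ Φ + trAbsK ms N k q τ Ψ := by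
  induction k with
  | zero => intro q τ Φ Ψ; rfl
  | succ k ih =>
    intro q τ Φ Ψ
    simp only [trAbsK, trAbs, ih, mul_add, Finset.sum_add_distrib]

theorem l9x_tau1_isTr (N : ℕ) : IsTr N 1 fun _ _ => N + 1 :=
  ⟨fun _ _ _ _ => le_rfl, fun _ _ => rfl, fun _ _ _ _ => rfl, fun _ _ _ _ _ _ => by simp⟩

/-- TOWER: the pair `0` first, then `l` further labels -/
theorem l9x_tower {N : ℕ} {ms : ℕ → ℝ} (l : ℕ) (c : JtTopo → ℝ) (Φ : JtTopo → JtTopo → ℝ)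
    (hc : ∀ τ0 τ : JtTopo, (∀ y z, y < 2 → z < 2 → τ y z = τ0 y z) → c τ = c τ0)
    (hΦ : ∀ τ0 τ : JtTopo, (∀ y z, y < 2 → z < 2 → τ y z = τ0 y z) → Φ τ0 τ = Φ τ τ) :
    trSumK ms N 1 1 (fun _ _ => N + 1) (fun τ0 => c τ0 * trSumK ms N l 2 τ0 (Φ τ0))
      = trSumK ms N (l + 1) 1 (fun _ _ => N + 1) fun τ => c τ * Φ τ τ := by
  rw [Nat.add_comm l 1, tr_sumK_add]
  refine tr_sumK_congr (l9x_tau1_isTr N) 1 _ _ fun τ0 hτ0 _ => ?_
  rw [tcb_sumK_mul_left]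
  refine tr_sumK_congr hτ0 l _ _ fun τ _ hext => ?_
  rw [hc τ0 τ hext, hΦ τ0 τ hext]

/-- the same for the absolute sums -/
theorem l9x_tower_abs {N : ℕ} {ms : ℕ → ℝ} (l : ℕ) (c : JtTopo → ℝ) (Φ : JtTopo → JtTopo → ℝ)
    (hc : ∀ τ0 τ : JtTopo, (∀ y z, y < 2 → z < 2 → τ y z = τ0 y z) → c τ = c τ0)
    (hΦ : ∀ τ0 τ : JtTopo, (∀ y z, y < 2 → z < 2 → τ y z = τ0 y z) → Φ τ0 τ = Φ τ τ) :
    trAbsK ms N 1 1 (fun _ _ => N + 1) (fun τ0 => c τ0 * trAbsK ms N l 2 τ0 (Φ τ0))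
      = trAbsK ms N (l + 1) 1 (fun _ _ => N + 1) fun τ => c τ * Φ τ τ := by
  rw [Nat.add_comm l 1, tr_absK_add]
  refine tr_absK_congr (l9x_tau1_isTr N) 1 _ _ fun τ0 hτ0 _ => ?_
  rw [← tra2_absK_const_mul]
  refine tr_absK_congr hτ0 l _ _ fun τ _ hext => ?_
  rw [hc τ0 τ hext, hΦ τ0 τ hext]

/-! ### 1. definitions -/

namespace JtCtx
variable {S : Type} (X : JtCtx S)

/-- the test of the pressure gradient of (A9) on a direct path (`e = 0`): `ḣ + ḃ Q^* + b q̇` at the pair `0 1` -/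
def dTw (hd bd qd : ℕ → ℝ) (τ0 : JtTopo) (σ : ℕ → S) : ℝ :=
  hd (τ0 0 1) + bd (τ0 0 1) * X.Qs τ0 σ 0 1 + X.bC (τ0 0 1) * qd (τ0 0 1)

/-- defect of (A7) for the pressure gradient, per root: law, sums and test of `X`, cavity quotient at the reference of `Y` -/
noncomputable def dDef (Y : JtCtx S) (hd bd qd : ℕ → ℝ) (k : ℕ) : ℝ :=
  2⁻¹ * X.sumK 1 1 X.tau1 fun τ0 => X.off 0 1 τ0 *
    (X.nu 2 τ0 (fun σ => X.dTw hd bd qd τ0 σ * X.Qs τ0 σ 0 1)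
      - Y.evLt 2 τ0 (fun r τ => Y.Quo r 2 0 1 τ) (X.dTw hd bd qd τ0) k)

/-- the top coefficient derivative of (A9): `k + 1` pairs, the pair `0` carries `K̇`, the others carry `J` -/
noncomputable def dTop (Kd : ℕ → ℝ) (k : ℕ) : ℝ :=
  ((2 : ℝ) ^ (k + 1) * (k ! : ℝ))⁻¹ * X.sumK (2 * (k + 1) - 1) 1 X.tau1 fun τ =>
    X.off 0 (k + 1) τ * X.Kap (2 * (k + 1)) 0 τ (range (k + 1)) * X.nu (2 * (k + 1)) τ fun σ =>
      Kd (τ (jtC 0 0) (jtD 0 0)) * ∏ l ∈ (range (k + 1)).erase 0, X.J τ σ (jtC 0 l) (jtD 0 l)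

/-- the centred overlap `δ = Q^* - S` of the pair `i` (over `0` old labels) -/
def dDe (Sm : ℕ → ℝ) (τ : JtTopo) (σ : ℕ → S) (i : ℕ) : ℝ :=
  X.Qs τ σ (jtC 0 i) (jtD 0 i) - Sm (τ (jtC 0 i) (jtD 0 i))

/-- two contexts which differ only by the positive law and by the mask (the two ensembles) -/
structure SameDet (Y : JtCtx S) : Prop where
  N : Y.N = X.N
  sumK : Y.sumK = X.sumK
  absK : Y.absK = X.absK
  nuK : Y.nuK = X.nuK
  ov : Y.ov = X.ov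
  bC : Y.bC = X.bC
  hC : Y.hC = X.hC
  KC : Y.KC = X.KC
  qC : Y.qC = X.qC

end JtCtx

/-- split stage of the pair `i` -/
def l9xSp (τ : JtTopo) (i : ℕ) : ℕ := τ (jtC 0 i) (jtD 0 i)

/-- `d[G; ∏_{i ∈ A} δ_i]` on `n` pairs, per root: common deterministic weight `G`, tilted minus untilted -/
noncomputable def l9xT {S : Type} (X0 Xs : JtCtx S) (Sm : ℕ → ℝ) (n : ℕ) (G : JtTopo → ℝ) (A : Finset ℕ) : ℝ :=
  X0.sumK (2 * n - 1) 1 X0.tau1 fun τ => X0.off 0 n τ * G τ *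
    (Xs.nu (2 * n) τ (fun σ => ∏ i ∈ A, Xs.dDe Sm τ σ i) - X0.nu (2 * n) τ fun σ => ∏ i ∈ A, X0.dDe Sm τ σ i)

/-- **CONTRACT BD5** = LL Lemma 9.1 (centred allocation estimate) + the weight check of 09 l.296-306 (`j + l ≥ 5`, masses `≤ a ≤ 4`), at ONE instance.      TEX[LL:exp:lem-centered-count]
`n` pairs per root;  `A` = the stochastic designated factors `δ`,  `B` = the deterministic designated factors (bounded by the envelope `env` at their split),  `|A| + |B| ≥ 5`;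
the other pairs carry no factor (their weights are in `Λ`).      The weight `G` is common to the two ensembles.      `Bd = O_⋄(Y^5 (x / Y + g_B)) + O(x^K)`  (the prefactor `λ` of (E2) is in `Λ`). -/
def L9xBD {S : Type} (X0 Xs : JtCtx S) (Sm env : ℕ → ℝ) (n : ℕ) (Bd : ℝ) : Prop :=
  ∀ (A B : Finset ℕ) (G : JtTopo → ℝ) (Λ : ℝ), A ⊆ range n → B ⊆ range n → Disjoint A B → 5 ≤ A.card + B.card → 0 ≤ Λ →
    (∀ τ, IsTr X0.N (2 * n) τ → (∀ i < n, l9xSp τ i ≤ X0.N) → |G τ| ≤ Λ * ∏ i ∈ B, env (l9xSp τ i)) →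
    |l9xT X0 Xs Sm n G A| ≤ Λ * Bd

theorem l9x_abs_eqns_cite : True := by
  have := @JtCtx.dTw.eq_1
  have := @JtCtx.dDef.eq_1
  have := @JtCtx.dTop.eq_1
  have := @JtCtx.dDe.eq_1
  have := @l9xSp.eq_1
  have := @l9xT.eq_1
  have := @L9xBD.eq_1
  trivial

/-! ### 2. affine factors -/

/-- the signed sum of the difference of the two ensembles of a product of AFFINE functions of the centred overlaps -/
noncomputable def l9xAf {S : Type} (X0 Xs : JtCtx S) (Sm : ℕ → ℝ) (n : ℕ) (G : JtTopo → ℝ) (u v : ℕ → ℕ → ℝ) : ℝ :=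
  X0.sumK (2 * n - 1) 1 X0.tau1 fun τ => X0.off 0 n τ * G τ *
    (Xs.nu (2 * n) τ (fun σ => ∏ i ∈ range n, (u i (l9xSp τ i) + v i (l9xSp τ i) * Xs.dDe Sm τ σ i))
      - X0.nu (2 * n) τ fun σ => ∏ i ∈ range n, (u i (l9xSp τ i) + v i (l9xSp τ i) * X0.dDe Sm τ σ i))

/-- coefficient of `∏_{i ∈ A} δ_i` -/
def l9xCo (n : ℕ) (u v : ℕ → ℕ → ℝ) (A : Finset ℕ) (τ : JtTopo) : ℝ :=
  (∏ i ∈ A, v i (l9xSp τ i)) * ∏ i ∈ range n \ A, u i (l9xSp τ i)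

theorem l9x_nu_affine {S : Type} [Fintype S] [Inhabited S] {N : ℕ} {nu : ℕ → JtTopo → ((ℕ → S) → ℝ) → ℝ} (h : JtNuLaw N nu)
    (r n : ℕ) (τ : JtTopo) (u v : ℕ → ℕ → ℝ) (de : (ℕ → S) → ℕ → ℝ) :
    nu r τ (fun σ => ∏ i ∈ range n, (u i (l9xSp τ i) + v i (l9xSp τ i) * de σ i))
      = ∑ A ∈ (range n).powerset, l9xCo n u v A τ * nu r τ fun σ => ∏ i ∈ A, de σ i := by
  have e : (fun σ => ∏ i ∈ range n, (u i (l9xSp τ i) + v i (l9xSp τ i) * de σ i))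
      = fun σ => ∑ A ∈ (range n).powerset, l9xCo n u v A τ * ∏ i ∈ A, de σ i := by
    funext σ
    simp only [add_comm (u _ _)]
    rw [Finset.prod_add]
    refine Finset.sum_congr rfl fun A _ => ?_
    unfold l9xCo
    rw [Finset.prod_mul_distrib]
    ring
  rw [e, h.sum]
  exact Finset.sum_congr rfl fun A _ => h.const_mul _ _ _ _

theorem l9x_af_eq {S : Type} [Fintype S] [Inhabited S] {X0 Xs : JtCtx S} {ms : ℕ → ℝ} (h0 : X0.Law ms) (hs : Xs.Law ms)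
    (Sm : ℕ → ℝ) (n : ℕ) (G : JtTopo → ℝ) (u v : ℕ → ℕ → ℝ) :
    l9xAf X0 Xs Sm n G u v = ∑ A ∈ (range n).powerset, l9xT X0 Xs Sm n (fun τ => G τ * l9xCo n u v A τ) A := by
  unfold l9xAf l9xT
  simp only [h0.sumK]
  rw [← l9x_sumK_fsum]
  congr 1
  funext τ
  rw [l9x_nu_affine hs.nu, l9x_nu_affine h0.nu, ← Finset.sum_sub_distrib, Finset.mul_sum]
  exact Finset.sum_congr rfl fun A _ => by ring

/-- bound of the coefficient of `∏_{i ∈ A} δ_i`: the pair `0` carries the weight `w`, the other pairs are designated -/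
theorem l9x_co_le {N n : ℕ} {u v : ℕ → ℕ → ℝ} {env : ℕ → ℝ} {w M : ℝ} (hn : 1 ≤ n) (hw : 0 ≤ w)
    (hu0 : ∀ t ≤ N, |u 0 t| ≤ w) (hv0 : ∀ t ≤ N, |v 0 t| ≤ w)
    (hu : ∀ i, 1 ≤ i → i < n → ∀ t ≤ N, |u i t| ≤ M * env t) (hv : ∀ i, 1 ≤ i → i < n → ∀ t ≤ N, |v i t| ≤ M)
    {A : Finset ℕ} (hA : A ⊆ range n) {τ : JtTopo} (hτ : ∀ i < n, l9xSp τ i ≤ N) :
    |l9xCo n u v A τ| ≤ w * M ^ (n - 1) * ∏ i ∈ ((range n).erase 0).filter (fun i => i ∉ A), env (l9xSp τ i) := by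
  classical
  set c : ℕ → ℝ := fun i => if i ∈ A then |v i (l9xSp τ i)| else |u i (l9xSp τ i)| with hc
  set d : ℕ → ℝ := fun i => M * (if i ∉ A then env (l9xSp τ i) else 1) with hd
  have h0 : (0 : ℕ) ∈ range n := Finset.mem_range.2 (by omega)
  have e1 : |l9xCo n u v A τ| = ∏ i ∈ range n, c i := by
    unfold l9xCo
    rw [abs_mul, Finset.abs_prod, Finset.abs_prod, ← Finset.prod_sdiff hA, mul_comm]
    congr 1
    · refine Finset.prod_congr rfl fun i hi => ?_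
      rw [hc]; simp only [if_neg (Finset.mem_sdiff.1 hi).2]
    · refine Finset.prod_congr rfl fun i hi => ?_
      rw [hc]; simp only [if_pos hi]
  have hc0 : ∀ i, 0 ≤ c i := fun i => by rw [hc]; dsimp only; split_ifs <;> exact abs_nonneg _
  rw [e1, ← Finset.mul_prod_erase _ _ h0]
  have h1 : c 0 ≤ w := by
    rw [hc]; dsimp only
    split_ifs
    · exact hv0 _ (hτ 0 (by omega))
    · exact hu0 _ (hτ 0 (by omega))
  have h2 : ∏ i ∈ (range n).erase 0, c i ≤ ∏ i ∈ (range n).erase 0, d i := by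
    refine Finset.prod_le_prod (fun i _ => hc0 i) fun i hi => ?_
    have hi1 : 1 ≤ i := Nat.one_le_iff_ne_zero.2 (Finset.ne_of_mem_erase hi)
    have hin : i < n := Finset.mem_range.1 (Finset.mem_of_mem_erase hi)
    rw [hc, hd]; dsimp only
    by_cases hiA : i ∈ A
    · rw [if_pos hiA, if_neg (not_not.2 hiA), mul_one]
      exact hv i hi1 hin _ (hτ i hin)
    · rw [if_neg hiA, if_pos hiA]
      exact hu i hi1 hin _ (hτ i hin)
  have e2 : ∏ i ∈ (range n).erase 0, d i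
      = M ^ (n - 1) * ∏ i ∈ ((range n).erase 0).filter (fun i => i ∉ A), env (l9xSp τ i) := by
    rw [hd, Finset.prod_mul_distrib, Finset.prod_const, Finset.card_erase_of_mem h0, Finset.card_range, Finset.prod_filter]
  calc c 0 * ∏ i ∈ (range n).erase 0, c i ≤ w * ∏ i ∈ (range n).erase 0, d i :=
        mul_le_mul h1 h2 (Finset.prod_nonneg fun i _ => hc0 i) hw
    _ = _ := by rw [e2, mul_assoc]

/-- **T5, the expansion**: bounded common coefficient, the pair `0` carries an affine factor of weight `w` (dotted clocks), the pairs `1..n-1` carry affine factors `u + v δ`, `|u| ≤ M env`, `|v| ≤ M` -/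
theorem l9x_affine {S : Type} [Fintype S] [Inhabited S] {X0 Xs : JtCtx S} {ms : ℕ → ℝ} (h0 : X0.Law ms) (hs : Xs.Law ms)
    {Sm env : ℕ → ℝ} {n : ℕ} {Bd : ℝ} (hBD : L9xBD X0 Xs Sm env n Bd) (hn : 6 ≤ n)
    (G : JtTopo → ℝ) (u v : ℕ → ℕ → ℝ) {g0 w M : ℝ} (hg0 : 0 ≤ g0) (hw : 0 ≤ w) (hM : 0 ≤ M)
    (hG : ∀ τ, IsTr X0.N (2 * n) τ → |G τ| ≤ g0)
    (hu0 : ∀ t ≤ X0.N, |u 0 t| ≤ w) (hv0 : ∀ t ≤ X0.N, |v 0 t| ≤ w)
    (hu : ∀ i, 1 ≤ i → i < n → ∀ t ≤ X0.N, |u i t| ≤ M * env t) (hv : ∀ i, 1 ≤ i → i < n → ∀ t ≤ X0.N, |v i t| ≤ M) :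
    |l9xAf X0 Xs Sm n G u v| ≤ 2 ^ n * ((g0 * (w * M ^ (n - 1))) * Bd) := by
  classical
  rw [l9x_af_eq h0 hs]
  refine (Finset.abs_sum_le_sum_abs _ _).trans ?_
  have hcard : ((range n).powerset.card : ℝ) = 2 ^ n := by rw [Finset.card_powerset, Finset.card_range]; norm_num
  rw [← hcard, ← nsmul_eq_mul, ← Finset.sum_const]
  refine Finset.sum_le_sum fun A hA => ?_
  have hA' : A ⊆ range n := Finset.mem_powerset.1 hA
  refine hBD A (((range n).erase 0).filter fun i => i ∉ A) _ _ hA'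
    ((Finset.filter_subset _ _).trans (Finset.erase_subset _ _)) ?_ ?_ (by positivity) fun τ hτ hsp => ?_
  · rw [Finset.disjoint_left]
    intro i hi hi'
    exact (Finset.mem_filter.1 hi').2 hi
  · have hsub : (range n).erase 0 ⊆ A ∪ ((range n).erase 0).filter fun i => i ∉ A := by
      intro i hi
      by_cases hiA : i ∈ A
      · exact Finset.mem_union_left _ hiA
      · exact Finset.mem_union_right _ (Finset.mem_filter.2 ⟨hi, hiA⟩)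
    have h1 := (Finset.card_le_card hsub).trans (Finset.card_union_le _ _)
    rw [Finset.card_erase_of_mem (Finset.mem_range.2 (by omega)), Finset.card_range] at h1
    omega
  · rw [abs_mul, mul_assoc]
    exact mul_le_mul (hG τ hτ) (l9x_co_le (by omega) hw hu0 hv0 hu hv hA' hsp) (abs_nonneg _) hg0

/-! ### 3. (A9) as an identity -/

/-- **(A9), EXACT** (`e = 0`), from the leaves of `L02/RowD.lean` (239): pressure derivative minus `(ν[𝒟 I])_#` minus the deterministic term = defect of (A7) for the pressure gradient minus the top coefficient derivative.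
TEX[LL:found:row-derivative] -/
theorem l9x_id9 {S : Type} [Fintype S] [Inhabited S] {D : RdData S} (h : D.Ok) (he : D.e = 0) (k : ℕ) :
    D.D1 - D.D2 k - D.X.detR D.Kd = D.X.dDef D.X D.hd D.bd D.qd k - D.X.dTop D.Kd k := by
  have hsum : ∑ n ∈ Icc 1 k, ((2 : ℝ) ^ n * (n ! : ℝ))⁻¹ * (D.Kp n + ∑ i ∈ range n, D.G D.wD n i)
      = ∑ n ∈ Icc 1 k, ((2 : ℝ) ^ n * (n ! : ℝ))⁻¹ * (2⁻¹ * D.G D.wK (n + 1) 0 + (n : ℝ) * (D.G D.wP n 0 - D.G D.wK n 0)) := by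
    refine Finset.sum_congr rfl fun n hn => ?_
    have hn1 : 1 ≤ n := (Finset.mem_Icc.1 hn).1
    rw [RdData.rd_Kp h hn1, RdData.rd_sym h D.wK (Nat.lt_succ_self n),
      Finset.sum_congr rfl fun i hi => RdData.rd_sym h D.wD (Finset.mem_range.1 hi), Finset.sum_const, Finset.card_range,
      nsmul_eq_mul, RdData.rd_G_sub h]
  have htop : D.X.dTop D.Kd k = ((2 : ℝ) ^ (k + 1) * (k ! : ℝ))⁻¹ * D.G D.wK (k + 1) 0 := rfl
  have htw : ∀ τ0 : JtTopo, (fun σ => D.wP (τ0 0 1) (σ 0) (σ 1)) = D.X.dTw D.hd D.bd D.qd τ0 := by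
    intro τ0
    funext σ
    unfold RdData.wP JtCtx.dTw JtCtx.Qs
    rw [he]; ring
  have hD1 : D.D1 + 4⁻¹ * D.Qd = 2⁻¹ * D.X.sumK 1 1 D.X.tau1 fun τ0 => D.X.off 0 1 τ0 *
      D.X.nu 2 τ0 fun σ => D.X.dTw D.hd D.bd D.qd τ0 σ * D.X.Qs τ0 σ 0 1 := by
    unfold RdData.D1 RdData.Qd
    simp only [h.law.sumK]
    rw [tcb_sumK_mul_left, tcb_sumK_mul_left, ← l9x_sumK_add]
    congr 1
    funext τ0
    have := RdData.rd_alg h τ0
    rw [show (fun σ => D.wP (τ0 0 1) (σ 0) (σ 1) * D.X.Qs τ0 σ 0 1)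
      = fun σ => D.X.dTw D.hd D.bd D.qd τ0 σ * D.X.Qs τ0 σ 0 1 from by
        funext σ; rw [← htw τ0]] at this
    linear_combination (-(D.X.off 0 1 τ0)) * this
  have hdef : D.X.dDef D.X D.hd D.bd D.qd k = (D.D1 + 4⁻¹ * D.Qd)
      - ∑ n ∈ Icc 1 k, ((2 : ℝ) ^ n * (n ! : ℝ))⁻¹ * (n : ℝ) * D.G D.wP n 0 := by
    rw [hD1, RdData.rd_A_ev h k]
    unfold JtCtx.dDef
    simp only [h.law.sumK, htw]
    rw [← mul_sub, ← l9x_sumK_sub]
    congr 2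
    funext τ0
    ring
  unfold RdData.D2
  rw [hsum, rd_tele (fun n => D.G D.wP n 0) (fun n => D.G D.wK n 0) k, hdef, htop, ← RdData.rd_det h]
  ring

/-! ### 4. the defect of (A7) at the reference `K_S` (T3 + T4, first half) -/

theorem l9x_jtC (i : ℕ) : jtC 2 i = jtC 0 (i + 1) := by unfold jtC; ring

theorem l9x_jtD (i : ℕ) : jtD 2 i = jtD 0 (i + 1) := by unfold jtD; ring

theorem l9x_prod_Icc (f : ℕ → ℝ) (k : ℕ) : ∏ i ∈ Icc 1 k, f i = ∏ i ∈ range k, f (i + 1) := by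
  induction k with
  | zero => simp
  | succ k ih => rw [Finset.prod_Icc_succ_top (by omega), ih, Finset.prod_range_succ]

theorem l9x_off_succ {S : Type} (X : JtCtx S) (k : ℕ) (τ : JtTopo) : X.off 0 (k + 1) τ = X.off 0 1 τ * X.off 2 k τ := by
  unfold JtCtx.off
  rw [Finset.prod_range_succ', Finset.prod_range_one, mul_comm]
  simp only [l9x_jtC, l9x_jtD]

theorem l9x_off01 {S : Type} (X : JtCtx S) (τ : JtTopo) : X.off 0 1 τ = if τ 0 1 ≤ X.N then 1 else 0 := by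
  unfold JtCtx.off
  rw [Finset.prod_range_one]
  rfl

/-- the majorant of the remainders of (A7), summed over the pair `0`, is `errW`      (= leaf RD11 of `L02/RowD`, for any context with the laws) -/
theorem l9x_err_rem {S : Type} [Fintype S] [Inhabited S] {X : JtCtx S} {ms : ℕ → ℝ} (h : X.Law ms) (w : ℕ → ℝ) (k : ℕ) :
    (X.absK 1 1 X.tau1 fun τ0 => X.off 0 1 τ0 * (w (τ0 0 1) *
        X.absK (2 * k) 2 τ0 fun τ => X.off 2 k τ * X.nu (2 + 2 * k) τ fun σ => |X.Jprod 2 k τ σ|))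
      = X.errW w k := by
  unfold JtCtx.errW
  simp only [h.absK]
  have := l9x_tower_abs (N := X.N) (ms := ms) (2 * k) (fun τ0 => X.off 0 1 τ0 * w (τ0 0 1))
    (fun _ τ => X.off 2 k τ * X.nu (2 + 2 * k) τ fun σ => |X.Jprod 2 k τ σ|)
    (fun τ0 τ hh => by rw [l9x_off01, l9x_off01, hh 0 1 (by norm_num) (by norm_num)]) (fun _ _ _ => rfl)
  simp only [mul_assoc] at this ⊢
  rw [show X.tau1 = fun _ _ => X.N + 1 from rfl, this]
  congr 1
  funext τ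
  rw [l9x_off_succ X k τ, show 2 + 2 * k = 2 * k + 2 from by ring]
  have e : (fun σ => |X.Jprod 2 k τ σ|) = fun σ => ∏ i ∈ Icc 1 k, |X.J τ σ (jtC 0 i) (jtD 0 i)| := by
    funext σ
    unfold JtCtx.Jprod
    rw [Finset.abs_prod, l9x_prod_Icc]
    simp only [l9x_jtC, l9x_jtD]
  rw [e]
  ring

namespace JtCtx
variable {S : Type}

/-- two contexts which differ only by the scalar reference -/
structure SameMat (X Y : JtCtx S) : Prop where
  N : Y.N = X.N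
  nu : Y.nu = X.nu
  ov : Y.ov = X.ov
  bC : Y.bC = X.bC
  hC : Y.hC = X.hC
  msk : Y.msk = X.msk

theorem SameMat.Qs {X Y : JtCtx S} (h : X.SameMat Y) : Y.Qs = X.Qs := by
  funext τ σ c d
  unfold JtCtx.Qs
  rw [h.msk, h.ov]

theorem SameMat.off {X Y : JtCtx S} (h : X.SameMat Y) : Y.off = X.off := by
  funext q n τ
  unfold JtCtx.off
  rw [h.N]

theorem Law.Qs_abs [Fintype S] [Inhabited S] {X : JtCtx S} {ms : ℕ → ℝ} (h : X.Law ms) (τ : JtTopo) (σ : ℕ → S) (c d : ℕ) :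
    |X.Qs τ σ c d| ≤ 1 := by
  unfold JtCtx.Qs
  rw [abs_mul]
  have h1 := h.ov_abs (σ c) (σ d)
  rcases h.msk (τ c d) with h0 | h0 <;> rw [h0] <;> simp [h1]

end JtCtx

theorem L2rcPair.sameMat {S : Type} [Fintype S] [Inhabited S] {X X' : JtCtx S} {ms : ℕ → ℝ} {κ : ℝ → L2rcLaw Bool} (h : L2rcPair X X' ms κ) : X.SameMat X' :=
  ⟨h.hN, h.hnu, h.hov, h.hb, h.hh, h.hmsk⟩

/-- the weight of the pressure gradient at a pair which shares `t` stages -/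
def l9xW {S : Type} (X : JtCtx S) (hd bd qd : ℕ → ℝ) (t : ℕ) : ℝ := |hd t + X.bC t * qd t| + |bd t|

/-- **T3 + T4, first half**: (A7) at the reference `K_S`, summed over the pair `0` -/
theorem l9x_def_le {S : Type} [Fintype S] [Inhabited S] {X X' : JtCtx S} {ms : ℕ → ℝ} (hX : X.Law ms) (hX' : X'.Law ms)
    (hm : X.SameMat X') (hd bd qd : ℕ → ℝ) (k : ℕ) {CA nn : ℝ} (hCA : 0 ≤ CA)
    (a7 : ∀ τ0 : JtTopo, IsTr X.N 2 τ0 → τ0 0 1 ≤ X.N → ∀ α β : ℝ,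
      X'.A7 2 τ0 (fun σ => α + β * X'.Qs τ0 σ 0 1) 0 1 k CA (CA * (|α| + |β|) / nn)) :
    |X.dDef X' hd bd qd k| ≤ 2⁻¹ * (CA * (X'.errW (l9xW X hd bd qd) k + X'.errW0 (l9xW X hd bd qd) / nn)) := by
  set W := l9xW X hd bd qd with hW
  have hW0 : ∀ t, 0 ≤ W t := fun t => by rw [hW]; unfold l9xW; positivity
  unfold JtCtx.dDef
  rw [abs_mul, abs_of_nonneg (by norm_num : (0 : ℝ) ≤ 2⁻¹)]
  refine mul_le_mul_of_nonneg_left ?_ (by norm_num)
  rw [hX.sumK]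
  refine (tr_sumK_le 1 _).trans ?_
  have hτ1 : IsTr X.N 1 X.tau1 := l9x_tau1_isTr X.N
  -- pointwise bound
  have hpt : ∀ τ0, IsTr X.N (1 + 1) τ0 →
      |X.off 0 1 τ0 * (X.nu 2 τ0 (fun σ => X.dTw hd bd qd τ0 σ * X.Qs τ0 σ 0 1)
        - X'.evLt 2 τ0 (fun r τ => X'.Quo r 2 0 1 τ) (X.dTw hd bd qd τ0) k)|
      ≤ CA * (X'.off 0 1 τ0 * (W (τ0 0 1) * X'.absK (2 * k) 2 τ0 fun τ => X'.off 2 k τ * X'.nu (2 + 2 * k) τ fun σ => |X'.Jprod 2 k τ σ|))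
        + CA / nn * (X'.off 0 1 τ0 * W (τ0 0 1)) := by
    intro τ0 hτ0
    rw [hm.off, l9x_off01]
    split_ifs with hoff
    · have h7 := a7 τ0 hτ0 hoff (hd (τ0 0 1) + X.bC (τ0 0 1) * qd (τ0 0 1)) (bd (τ0 0 1))
      unfold JtCtx.A7 at h7
      have eP : (fun σ => hd (τ0 0 1) + X.bC (τ0 0 1) * qd (τ0 0 1) + bd (τ0 0 1) * X'.Qs τ0 σ 0 1) = X.dTw hd bd qd τ0 := by
        funext σ
        unfold JtCtx.dTw
        rw [hm.Qs]; ring
      rw [eP, hm.nu, hm.Qs] at h7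
      rw [one_mul, one_mul, one_mul]
      refine h7.trans ?_
      have hrem : X'.rem 2 τ0 (X.dTw hd bd qd τ0) k
          ≤ W (τ0 0 1) * X'.absK (2 * k) 2 τ0 fun τ => X.off 2 k τ * X'.nu (2 + 2 * k) τ fun σ => |X'.Jprod 2 k τ σ| := by
        unfold JtCtx.rem
        rw [hX'.absK, hX'.absK, ← tra2_absK_const_mul, hm.off]
        refine tr_absK_mono (by rw [hm.N]; exact hτ0) _ _ _ fun τ _ => ?_
        rw [mul_left_comm]
        refine mul_le_mul_of_nonneg_left ?_ (l9t_off_nonneg X 2 k τ)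
        rw [← hX'.nu.const_mul]
        refine hX'.nu.mono _ _ fun σ => mul_le_mul_of_nonneg_right ?_ (abs_nonneg _)
        rw [← eP, hW]
        unfold l9xW
        refine (abs_add_le _ _).trans (add_le_add le_rfl ?_)
        rw [abs_mul]
        exact mul_le_of_le_one_right (abs_nonneg _) (hX'.Qs_abs _ _ _ _)
      have h1 := mul_le_mul_of_nonneg_left hrem hCA
      have e2 : CA * (|hd (τ0 0 1) + X.bC (τ0 0 1) * qd (τ0 0 1)| + |bd (τ0 0 1)|) / nn = CA / nn * W (τ0 0 1) := by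
        rw [hW]; unfold l9xW; ring
      rw [e2]
      linarith
    · simp
  refine (tr_absK_mono hτ1 1 _ _ hpt).trans (le_of_eq ?_)
  rw [l9x_absK_add, tra2_absK_const_mul, tra2_absK_const_mul, ← l9x_err_rem hX' W k]
  unfold JtCtx.errW0
  rw [hX'.absK 1 1, hX'.absK 1 1, hm.N, show X'.tau1 = X.tau1 from by unfold JtCtx.tau1; rw [hm.N]]
  ring

/-! ### 5. the change of reference `K_S → K` (T5 + T6) -/

section rec
variable {S : Type}

/-- deterministic parts of the affine factors of `Ψ'(t)`: the pair `0` = test of the pressure gradient, the pairs `1..m` = `J_t = b δ + (1 - t) ph`, the pair `m + 1` = `ph` -/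
def l9xU (X : JtCtx S) (Sm ph hd bd qd : ℕ → ℝ) (m : ℕ) (t : ℝ) (i s : ℕ) : ℝ :=
  if i = 0 then hd s + X.bC s * qd s + bd s * Sm s else if i ≤ m then (1 - t) * ph s else ph s

/-- slopes of the affine factors of `Ψ'(t)` -/
def l9xV (X : JtCtx S) (bd : ℕ → ℝ) (m : ℕ) (i s : ℕ) : ℝ := if i = 0 then bd s else if i ≤ m then X.bC s else 0

/-- `Φ(t)`: the pressure gradient through the order `k - 1` at the reference `K + t (K' - K)`, per root -/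
noncomputable def l9xPhi (X X' : JtCtx S) (ms : ℕ → ℝ) (κ : ℝ → L2rcLaw Bool) (hd bd qd : ℕ → ℝ) (k : ℕ) (t : ℝ) : ℝ :=
  2⁻¹ * trSumK ms X.N 1 1 X.tau1 fun τ0 => X.off 0 1 τ0 *
    ∑ n ∈ range k, l2rcE ms X.N X.nu κ (l2rcG X) (fun u => X'.KC u - X.KC u) 2 τ0 0 1 (X.dTw hd bd qd τ0) n t

/-- `Φ'(t)` in the merged affine form -/
noncomputable def l9xPhiD (X : JtCtx S) (ms : ℕ → ℝ) (κ : ℝ → L2rcLaw Bool) (Sm ph hd bd qd : ℕ → ℝ) (m : ℕ) (t : ℝ) : ℝ :=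
  trSumK ms X.N (2 * (m + 2) - 1) 1 X.tau1 fun τ => X.off 0 (m + 2) τ * l2rcQ (κ t) (2 + 2 * (m + 1)) 2 0 1 τ (range (m + 1)) *
    X.nu (2 * (m + 2)) τ fun σ => ∏ i ∈ range (m + 2),
      (l9xU X Sm ph hd bd qd m t i (l9xSp τ i) + l9xV X bd m i (l9xSp τ i) * X.dDe Sm τ σ i)

theorem l9x_rec_eqns_cite : True := by
  have := @l9xAf.eq_1
  have := @l9xCo.eq_1
  have := @l9xW.eq_1
  have := @l9xU.eq_1
  have := @l9xV.eq_1
  have := @l9xPhi.eq_1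
  have := @l9xPhiD.eq_1
  trivial

theorem l9x_dTw_uses (X : JtCtx S) (hd bd qd : ℕ → ℝ) (τ0 : JtTopo) : TrUses 2 (X.dTw hd bd qd τ0) := by
  intro σ σ' h
  unfold JtCtx.dTw JtCtx.Qs
  rw [h 0 (by norm_num), h 1 (by norm_num)]

theorem l9x_dTw_congr (X : JtCtx S) (hd bd qd : ℕ → ℝ) {τ0 τ : JtTopo} (h : τ 0 1 = τ0 0 1) :
    X.dTw hd bd qd τ0 = X.dTw hd bd qd τ := by
  funext σ
  unfold JtCtx.dTw JtCtx.Qs
  rw [h]

/-- the integrand of `T_{m+1,m}(t)` is a product of affine functions of the centred overlaps -/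
theorem l9x_fac (X : JtCtx S) {Sm ph : ℕ → ℝ} (hph : ∀ s, ph s = X.hC s + X.bC s * Sm s - X.KC s) (hd bd qd : ℕ → ℝ) (m : ℕ) (t : ℝ)
    (τ : JtTopo) (σ : ℕ → S) :
    X.dTw hd bd qd τ σ * l2rcPr 2 (m + 1) (fun l' => if l' = m then l2rcDl ph else l2rcJt (l2rcG X) ph t) τ σ
      = ∏ i ∈ range (m + 2), (l9xU X Sm ph hd bd qd m t i (l9xSp τ i) + l9xV X bd m i (l9xSp τ i) * X.dDe Sm τ σ i) := by
  unfold l2rcPr
  rw [Finset.prod_range_succ, Finset.prod_range_succ', Finset.prod_range_succ]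
  have e0 : l9xU X Sm ph hd bd qd m t 0 (l9xSp τ 0) + l9xV X bd m 0 (l9xSp τ 0) * X.dDe Sm τ σ 0 = X.dTw hd bd qd τ σ := by
    unfold l9xU l9xV JtCtx.dDe JtCtx.dTw l9xSp
    simp only [if_true]
    show _ = hd (τ 0 1) + bd (τ 0 1) * X.Qs τ σ 0 1 + X.bC (τ 0 1) * qd (τ 0 1)
    have c0 : jtC 0 0 = 0 := rfl
    have d0 : jtD 0 0 = 1 := rfl
    rw [c0, d0]; ring
  have e1 : l9xU X Sm ph hd bd qd m t (m + 1) (l9xSp τ (m + 1)) + l9xV X bd m (m + 1) (l9xSp τ (m + 1)) * X.dDe Sm τ σ (m + 1)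
      = (if m = m then l2rcDl ph else l2rcJt (l2rcG X) ph t) (τ (jtC 2 m) (jtD 2 m)) (σ (jtC 2 m)) (σ (jtD 2 m)) := by
    rw [if_pos rfl]
    unfold l9xU l9xV l2rcDl l9xSp
    rw [if_neg (by omega), if_neg (by omega), if_neg (by omega), if_neg (by omega), l9x_jtC, l9x_jtD]
    ring
  have e2 : ∀ i ∈ range m, l9xU X Sm ph hd bd qd m t (i + 1) (l9xSp τ (i + 1)) + l9xV X bd m (i + 1) (l9xSp τ (i + 1)) * X.dDe Sm τ σ (i + 1)
      = (if i = m then l2rcDl ph else l2rcJt (l2rcG X) ph t) (τ (jtC 2 i) (jtD 2 i)) (σ (jtC 2 i)) (σ (jtD 2 i)) := by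
    intro i hi
    have him : i + 1 ≤ m := Finset.mem_range.1 hi
    rw [if_neg (by omega)]
    unfold l9xU l9xV l2rcJt l2rcG l9xSp JtCtx.dDe JtCtx.Qs
    rw [if_neg (by omega), if_pos him, if_neg (by omega), if_pos him, l9x_jtC, l9x_jtD, hph]
    ring
  rw [e0, e1, Finset.prod_congr rfl e2]
  ring

variable [Fintype S] [Inhabited S]

/-- merging of the pair `0` with the pairs of `T_{m+1,m}(t)` -/
theorem l9x_T_merge {X : JtCtx S} {ms : ℕ → ℝ} (hX : X.Law ms) (κ : ℝ → L2rcLaw Bool) {Sm ph : ℕ → ℝ}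
    (hph : ∀ s, ph s = X.hC s + X.bC s * Sm s - X.KC s) (hd bd qd : ℕ → ℝ) (m : ℕ) (t : ℝ) :
    trSumK ms X.N 1 1 X.tau1 (fun τ0 => X.off 0 1 τ0 * l2rcT ms X.N X.nu κ (l2rcG X) ph 2 τ0 0 1 (X.dTw hd bd qd τ0) (m + 1) m t)
      = l9xPhiD X ms κ Sm ph hd bd qd m t := by
  unfold l2rcT l2rcXi l9xPhiD
  have := l9x_tower (N := X.N) (ms := ms) (2 * (m + 1)) (fun τ0 => X.off 0 1 τ0)
    (fun τ0 τ => l2rcSm X.N X.nu 2 0 1 (X.dTw hd bd qd τ0) (κ t) (m + 1)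
      (fun l' => if l' = m then l2rcDl ph else l2rcJt (l2rcG X) ph t) τ)
    (fun τ0 τ hh => by rw [l9x_off01, l9x_off01, hh 0 1 (by norm_num) (by norm_num)])
    (fun τ0 τ hh => by rw [l9x_dTw_congr X hd bd qd (hh 0 1 (by norm_num) (by norm_num))])
  rw [show X.tau1 = fun _ _ => X.N + 1 from rfl, this, show 2 * (m + 2) - 1 = 2 * (m + 1) + 1 from by omega]
  congr 1
  funext τ
  unfold l2rcSm
  rw [l9x_off_succ X (m + 1) τ, show 2 + 2 * (m + 1) = 2 * (m + 2) from by ring]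
  simp only [l9x_fac X hph]
  rw [show l2Off X.N 2 (m + 1) τ = X.off 2 (m + 1) τ from rfl]
  ring

/-- `Φ' = ½ (2^{m+1} m!)⁻¹ ×` the merged affine sum      (`l2rc_Phi_deriv` of 138 under the sum over the pair `0`) -/
theorem l9x_phi_deriv {X X' : JtCtx S} {ms : ℕ → ℝ} {κ : ℝ → L2rcLaw Bool} (hX : X.Law ms) (hp : L2rcPair X X' ms κ) {Sm : ℕ → ℝ}
    (hph : ∀ s, X'.KC s = X.hC s + X.bC s * Sm s) (hd bd qd : ℕ → ℝ) (m : ℕ) {t : ℝ} (ht : t ∈ Set.Icc (0 : ℝ) 1) :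
    HasDerivWithinAt (l9xPhi X X' ms κ hd bd qd (m + 1))
      (2⁻¹ * (((2 : ℝ) ^ (m + 1) * (m ! : ℝ))⁻¹ * l9xPhiD X ms κ Sm (fun u => X'.KC u - X.KC u) hd bd qd m t)) (Set.Icc 0 1) t := by
  rw [← l9x_T_merge hX κ (fun s => by rw [hph]) hd bd qd m t, tcb_sumK_mul_left]
  unfold l9xPhi
  refine HasDerivWithinAt.const_mul _ (tcb_sumK_hasDeriv 1 (l9x_tau1_isTr X.N) _ _ fun τ0 hτ0 => ?_)
  have h := l2rc_Phi_deriv (g := l2rcG X) (R := X.dTw hd bd qd τ0) hp.law.nu hp.sc hτ0 (i := 0) (j := 1) (by norm_num) (by norm_num)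
    (l9x_dTw_uses X hd bd qd τ0) m ht
  refine (h.const_mul (X.off 0 1 τ0)).congr_deriv ?_
  ring

/-- `dDef X X - dDef X X' = Φ(1) - Φ(0)` -/
theorem l9x_rec_eq {X X' : JtCtx S} {ms : ℕ → ℝ} {κ : ℝ → L2rcLaw Bool} (hX : X.Law ms) (hp : L2rcPair X X' ms κ)
    (hd bd qd : ℕ → ℝ) (k : ℕ) :
    X.dDef X hd bd qd k - X.dDef X' hd bd qd k = l9xPhi X X' ms κ hd bd qd k 1 - l9xPhi X X' ms κ hd bd qd k 0 := by
  unfold JtCtx.dDef l9xPhi JtCtx.evLt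
  simp only [hX.sumK, l2rc_ev0 hp, l2rc_ev1 hp]
  rw [← mul_sub, ← mul_sub, ← l9x_sumK_sub, ← l9x_sumK_sub]
  congr 2
  funext τ0
  ring

omit [Fintype S] [Inhabited S] in
theorem JtCtx.SameDet.off {X Y : JtCtx S} (h : X.SameDet Y) : Y.off = X.off := by
  funext q n τ
  unfold JtCtx.off
  rw [h.N]

omit [Fintype S] [Inhabited S] in
theorem JtCtx.SameDet.tau1 {X Y : JtCtx S} (h : X.SameDet Y) : Y.tau1 = X.tau1 := by
  unfold JtCtx.tau1
  rw [h.N]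

omit [Fintype S] [Inhabited S] in
theorem JtCtx.SameDet.Kap {X Y : JtCtx S} (h : X.SameDet Y) : Y.Kap = X.Kap := by
  funext r q τ
  unfold JtCtx.Kap JtCtx.Psi JtCtx.scM
  rw [h.nuK]

omit [Fintype S] [Inhabited S] in
theorem JtCtx.SameDet.detR {X Y : JtCtx S} (h : X.SameDet Y) (Kd : ℕ → ℝ) : Y.detR Kd = X.detR Kd := by
  unfold JtCtx.detR
  rw [h.sumK, h.tau1, h.off, h.qC]

/-- tilted minus untilted `Φ'(t)` is an affine sum with a common coefficient -/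
theorem l9x_phiD_sub {X0 Xs : JtCtx S} {ms : ℕ → ℝ} (h0 : X0.Law ms) (hdet : X0.SameDet Xs) (κ : ℝ → L2rcLaw Bool)
    (Sm ph hd bd qd : ℕ → ℝ) (m : ℕ) (t : ℝ) :
    l9xPhiD Xs ms κ Sm ph hd bd qd m t - l9xPhiD X0 ms κ Sm ph hd bd qd m t
      = l9xAf X0 Xs Sm (m + 2) (fun τ => l2rcQ (κ t) (2 + 2 * (m + 1)) 2 0 1 τ (range (m + 1)))
          (l9xU X0 Sm ph hd bd qd m t) (l9xV X0 bd m) := by
  unfold l9xPhiD l9xAf
  rw [hdet.N, hdet.tau1, hdet.off, h0.sumK, ← l9x_sumK_sub]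
  congr 1
  funext τ
  have eU : l9xU Xs Sm ph hd bd qd m t = l9xU X0 Sm ph hd bd qd m t := by
    funext i s; unfold l9xU; rw [hdet.bC]
  have eV : l9xV Xs bd m = l9xV X0 bd m := by
    funext i s; unfold l9xV; rw [hdet.bC]
  rw [eU, eV]
  ring

/-- **T5 + T6**: the change of reference `K_S → K` in the pressure gradient, tilted minus untilted.      `k = m + 1 ≥ 5` = the Taylor degree;   `CQ` = bound of the quotient coefficients (`l2rc_Q_bd`);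
`w` = bound of the dotted clocks, `M` = bound of `b` and of `|K_S - K| / env`. -/
theorem l9x_rec_le {X0 Xs X0' Xs' : JtCtx S} {ms : ℕ → ℝ} {κ : ℝ → L2rcLaw Bool} (h0 : X0.Law ms) (hs : Xs.Law ms)
    (p0 : L2rcPair X0 X0' ms κ) (ps : L2rcPair Xs Xs' ms κ) (hdet : X0.SameDet Xs) (hK' : Xs'.KC = X0'.KC) {Sm env : ℕ → ℝ}
    (hph : ∀ s, X0'.KC s = X0.hC s + X0.bC s * Sm s) (hd bd qd : ℕ → ℝ) {m : ℕ} (hm : 4 ≤ m) {Bd : ℝ}
    (hBD : L9xBD X0 Xs Sm env (m + 2) Bd) {CQ w M : ℝ} (hCQ : 0 ≤ CQ) (hw : 0 ≤ w) (hM : 0 ≤ M)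
    (hQ : ∀ t ∈ Set.Icc (0 : ℝ) 1, ∀ τ : JtTopo, |l2rcQ (κ t) (2 + 2 * (m + 1)) 2 0 1 τ (range (m + 1))| ≤ CQ)
    (hw0 : ∀ s ≤ X0.N, |hd s + X0.bC s * qd s + bd s * Sm s| ≤ w) (hw1 : ∀ s ≤ X0.N, |bd s| ≤ w)
    (hphi : ∀ s ≤ X0.N, |X0'.KC s - X0.KC s| ≤ M * env s) (hb : ∀ s ≤ X0.N, |X0.bC s| ≤ M) :
    |(Xs.dDef Xs hd bd qd (m + 1) - Xs.dDef Xs' hd bd qd (m + 1)) - (X0.dDef X0 hd bd qd (m + 1) - X0.dDef X0' hd bd qd (m + 1))|
      ≤ 2⁻¹ * (((2 : ℝ) ^ (m + 1) * (m ! : ℝ))⁻¹ * (2 ^ (m + 2) * ((CQ * (w * M ^ (m + 1))) * Bd))) := by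
  rw [l9x_rec_eq hs ps, l9x_rec_eq h0 p0]
  set ph : ℕ → ℝ := fun u => X0'.KC u - X0.KC u with hphd
  have ephs : (fun u => Xs'.KC u - Xs.KC u) = ph := by rw [hK', hdet.KC]
  have hphs : ∀ s, Xs'.KC s = Xs.hC s + Xs.bC s * Sm s := fun s => by rw [hK', hdet.hC, hdet.bC, hph]
  have hder : ∀ t ∈ Set.Icc (0 : ℝ) 1, HasDerivWithinAt
      (fun t => l9xPhi Xs Xs' ms κ hd bd qd (m + 1) t - l9xPhi X0 X0' ms κ hd bd qd (m + 1) t)
      (2⁻¹ * (((2 : ℝ) ^ (m + 1) * (m ! : ℝ))⁻¹ * l9xAf X0 Xs Sm (m + 2) (fun τ => l2rcQ (κ t) (2 + 2 * (m + 1)) 2 0 1 τ (range (m + 1)))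
          (l9xU X0 Sm ph hd bd qd m t) (l9xV X0 bd m))) (Set.Icc 0 1) t := by
    intro t ht
    have h1 := l9x_phi_deriv hs ps hphs hd bd qd m ht
    have h2 := l9x_phi_deriv h0 p0 hph hd bd qd m ht
    rw [ephs] at h1
    refine (h1.sub h2).congr_deriv ?_
    rw [← l9x_phiD_sub h0 hdet]
    ring
  have hbd : ∀ t ∈ Set.Icc (0 : ℝ) 1,
      ‖2⁻¹ * (((2 : ℝ) ^ (m + 1) * (m ! : ℝ))⁻¹ * l9xAf X0 Xs Sm (m + 2) (fun τ => l2rcQ (κ t) (2 + 2 * (m + 1)) 2 0 1 τ (range (m + 1)))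
          (l9xU X0 Sm ph hd bd qd m t) (l9xV X0 bd m))‖
        ≤ 2⁻¹ * (((2 : ℝ) ^ (m + 1) * (m ! : ℝ))⁻¹ * (2 ^ (m + 2) * ((CQ * (w * M ^ (m + 1))) * Bd))) := by
    intro t ht
    have ha := l9x_affine h0 hs hBD (by omega) (fun τ => l2rcQ (κ t) (2 + 2 * (m + 1)) 2 0 1 τ (range (m + 1)))
      (l9xU X0 Sm ph hd bd qd m t) (l9xV X0 bd m) hCQ hw hM (fun τ _ => hQ t ht τ)
      (fun s hs' => by unfold l9xU; rw [if_pos rfl]; exact hw0 s hs')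
      (fun s hs' => by unfold l9xV; rw [if_pos rfl]; exact hw1 s hs')
      (fun i hi _ s hs' => by
        unfold l9xU
        rw [if_neg (by omega)]
        have h1 := hphi s hs'
        split_ifs
        · rw [abs_mul]
          have h2 : |1 - t| ≤ 1 := by rw [abs_le]; constructor <;> linarith [ht.1, ht.2]
          calc |1 - t| * |ph s| ≤ 1 * |ph s| := mul_le_mul_of_nonneg_right h2 (abs_nonneg _)
            _ ≤ M * env s := by rw [one_mul]; exact h1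
        · exact h1)
      (fun i hi _ s hs' => by
        unfold l9xV
        rw [if_neg (by omega)]
        split_ifs
        · exact hb s hs'
        · simpa using hM)
    rw [show m + 2 - 1 = m + 1 from by omega] at ha
    rw [Real.norm_eq_abs, abs_mul, abs_mul, abs_of_nonneg (by norm_num : (0 : ℝ) ≤ 2⁻¹),
      abs_of_nonneg (by positivity : (0 : ℝ) ≤ ((2 : ℝ) ^ (m + 1) * (m ! : ℝ))⁻¹)]
    exact mul_le_mul_of_nonneg_left (mul_le_mul_of_nonneg_left ha (by positivity)) (by norm_num)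
  have h := Convex.norm_image_sub_le_of_norm_hasDerivWithin_le hder hbd (convex_Icc 0 1)
    (Set.left_mem_Icc.2 zero_le_one) (Set.right_mem_Icc.2 zero_le_one)
  rw [Real.norm_eq_abs] at h
  simp only [sub_zero, norm_one, mul_one] at h
  refine le_trans (le_of_eq ?_) h
  congr 1
  ring

/-- the cumulants are bounded by a constant which depends on the degree only -/
theorem l9x_kap_bd (n : ℕ) : ∃ C : ℝ, 0 ≤ C ∧ ∀ {S : Type} [Fintype S] [Inhabited S] (X : JtCtx S) (ms : ℕ → ℝ), X.Law ms →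
    ∀ (r q : ℕ) (τ : JtTopo) (A : Finset ℕ), A.card ≤ n → |X.Kap r q τ A| ≤ C := by
  obtain ⟨C, hC⟩ := jt_bounds n
  refine ⟨|C|, abs_nonneg _, fun X ms hX r q τ A hA => ?_⟩
  refine ((hC (X.Psi r q τ) A (fun B => ?_) hA).2).trans (le_abs_self _)
  unfold JtCtx.Psi JtCtx.scM
  refine hX.nuK.abs_le_const r τ fun t => ?_
  rw [Finset.prod_empty, one_mul, Finset.abs_prod]
  refine Finset.prod_le_one (fun _ _ => abs_nonneg _) fun i _ => ?_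
  have hsp : ∀ b : Bool, |jtSp b| = 1 := fun b => by unfold jtSp; cases b <;> simp
  rw [abs_mul, hsp, hsp, one_mul]

/-- **the top coefficient derivative**, tilted minus untilted -/
theorem l9x_top_le {X0 Xs : JtCtx S} {ms : ℕ → ℝ} (h0 : X0.Law ms) (hs : Xs.Law ms) (hdet : X0.SameDet Xs) {Sm env : ℕ → ℝ}
    (Kd : ℕ → ℝ) {k : ℕ} (hk : 5 ≤ k) {Bd : ℝ} (hBD : L9xBD X0 Xs Sm env (k + 1) Bd) {CK w M : ℝ} (hCK : 0 ≤ CK) (hw : 0 ≤ w) (hM : 0 ≤ M)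
    (hKap : ∀ τ : JtTopo, |X0.Kap (2 * (k + 1)) 0 τ (range (k + 1))| ≤ CK) (hKd : ∀ s ≤ X0.N, |Kd s| ≤ w)
    (hphi : ∀ s ≤ X0.N, |X0.hC s + X0.bC s * Sm s - X0.KC s| ≤ M * env s) (hb : ∀ s ≤ X0.N, |X0.bC s| ≤ M) :
    |Xs.dTop Kd k - X0.dTop Kd k| ≤ ((2 : ℝ) ^ (k + 1) * (k ! : ℝ))⁻¹ * (2 ^ (k + 1) * ((CK * (w * M ^ k)) * Bd)) := by
  set u : ℕ → ℕ → ℝ := fun i s => if i = 0 then Kd s else X0.hC s + X0.bC s * Sm s - X0.KC s with hu
  set v : ℕ → ℕ → ℝ := fun i s => if i = 0 then 0 else X0.bC s with hv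
  have hfac : ∀ (X : JtCtx S), X0.SameDet X → ∀ (τ : JtTopo) (σ : ℕ → S),
      Kd (τ (jtC 0 0) (jtD 0 0)) * ∏ l ∈ (range (k + 1)).erase 0, X.J τ σ (jtC 0 l) (jtD 0 l)
        = ∏ i ∈ range (k + 1), (u i (l9xSp τ i) + v i (l9xSp τ i) * X.dDe Sm τ σ i) := by
    intro X hX τ σ
    rw [← Finset.mul_prod_erase (range (k + 1)) _ (Finset.mem_range.2 (Nat.succ_pos k))]
    congr 1
    · rw [hu, hv]; simp [l9xSp]
    · refine Finset.prod_congr rfl fun l hl => ?_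
      have hl0 : l ≠ 0 := Finset.ne_of_mem_erase hl
      rw [hu, hv]
      simp only [if_neg hl0]
      unfold JtCtx.J JtCtx.dDe l9xSp
      rw [hX.hC, hX.bC, hX.KC]
      ring
  have e : Xs.dTop Kd k - X0.dTop Kd k = ((2 : ℝ) ^ (k + 1) * (k ! : ℝ))⁻¹ *
      l9xAf X0 Xs Sm (k + 1) (fun τ => X0.Kap (2 * (k + 1)) 0 τ (range (k + 1))) u v := by
    unfold JtCtx.dTop l9xAf
    rw [hdet.sumK, hdet.tau1, hdet.off, hdet.Kap, ← mul_sub]
    simp only [h0.sumK]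
    rw [← l9x_sumK_sub]
    congr 2
    funext τ
    simp only [hfac Xs hdet, hfac X0 ⟨rfl, rfl, rfl, rfl, rfl, rfl, rfl, rfl, rfl⟩]
    ring
  rw [e, abs_mul, abs_of_nonneg (by positivity : (0 : ℝ) ≤ ((2 : ℝ) ^ (k + 1) * (k ! : ℝ))⁻¹)]
  refine mul_le_mul_of_nonneg_left ?_ (by positivity)
  have ha := l9x_affine h0 hs hBD (by omega) (fun τ => X0.Kap (2 * (k + 1)) 0 τ (range (k + 1))) u v hCK hw hM
    (fun τ _ => hKap τ)
    (fun s hs' => by rw [hu]; simp only [if_true]; exact hKd s hs')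
    (fun s _ => by rw [hv]; simpa using hw)
    (fun i hi _ s hs' => by rw [hu]; simp only [if_neg (show i ≠ 0 by omega)]; exact hphi s hs')
    (fun i hi _ s hs' => by rw [hv]; simp only [if_neg (show i ≠ 0 by omega)]; exact hb s hs')
  rwa [show k + 1 - 1 = k from by omega] at ha

/-- **NODE TRD, ABSTRACT FORM** (09 l.252-330).   `D1`, `D2` = pressure derivative and `(ν[𝒟 I])_#` in the two ensembles;  `id0`, `ids` = (A9) exact (`l9x_id9`);  `a70`, `a7s` = (A7) at the reference `K_S`. -/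
theorem l9x_main {X0 Xs X0' Xs' : JtCtx S} {ms : ℕ → ℝ} {κ : ℝ → L2rcLaw Bool} (h0 : X0.Law ms) (hs : Xs.Law ms)
    (h0' : X0'.Law ms) (hs' : Xs'.Law ms)
    (p0 : L2rcPair X0 X0' ms κ) (ps : L2rcPair Xs Xs' ms κ) (hdet : X0.SameDet Xs) (hK' : Xs'.KC = X0'.KC) {Sm env : ℕ → ℝ}
    (hph : ∀ s, X0'.KC s = X0.hC s + X0.bC s * Sm s) (hd bd Kd qd : ℕ → ℝ) {m : ℕ} (hm : 4 ≤ m) {Bd : ℝ}
    (hBD : L9xBD X0 Xs Sm env (m + 2) Bd) {CA nn CQ CK w M : ℝ} (hCA : 0 ≤ CA) (hCQ : 0 ≤ CQ) (hCK : 0 ≤ CK) (hw : 0 ≤ w) (hM : 0 ≤ M)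
    (a70 : ∀ τ0 : JtTopo, IsTr X0.N 2 τ0 → τ0 0 1 ≤ X0.N → ∀ α β : ℝ,
      X0'.A7 2 τ0 (fun σ => α + β * X0'.Qs τ0 σ 0 1) 0 1 (m + 1) CA (CA * (|α| + |β|) / nn))
    (a7s : ∀ τ0 : JtTopo, IsTr X0.N 2 τ0 → τ0 0 1 ≤ X0.N → ∀ α β : ℝ,
      Xs'.A7 2 τ0 (fun σ => α + β * Xs'.Qs τ0 σ 0 1) 0 1 (m + 1) CA (CA * (|α| + |β|) / nn))
    (hQ : ∀ t ∈ Set.Icc (0 : ℝ) 1, ∀ τ : JtTopo, |l2rcQ (κ t) (2 + 2 * (m + 1)) 2 0 1 τ (range (m + 1))| ≤ CQ)
    (hKap : ∀ τ : JtTopo, |X0.Kap (2 * (m + 2)) 0 τ (range (m + 2))| ≤ CK)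
    (hw0 : ∀ s ≤ X0.N, |hd s + X0.bC s * qd s + bd s * Sm s| ≤ w) (hw1 : ∀ s ≤ X0.N, |bd s| ≤ w) (hKd : ∀ s ≤ X0.N, |Kd s| ≤ w)
    (hphi : ∀ s ≤ X0.N, |X0'.KC s - X0.KC s| ≤ M * env s) (hb : ∀ s ≤ X0.N, |X0.bC s| ≤ M)
    {D10 D20 D1s D2s : ℝ}
    (id0 : D10 - D20 - X0.detR Kd = X0.dDef X0 hd bd qd (m + 1) - X0.dTop Kd (m + 1))
    (ids : D1s - D2s - Xs.detR Kd = Xs.dDef Xs hd bd qd (m + 1) - Xs.dTop Kd (m + 1)) :
    |(D1s - D10) - (D2s - D20)|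
      ≤ 2⁻¹ * (CA * (Xs'.errW (l9xW X0 hd bd qd) (m + 1) + Xs'.errW0 (l9xW X0 hd bd qd) / nn))
        + 2⁻¹ * (CA * (X0'.errW (l9xW X0 hd bd qd) (m + 1) + X0'.errW0 (l9xW X0 hd bd qd) / nn))
        + 2⁻¹ * (((2 : ℝ) ^ (m + 1) * (m ! : ℝ))⁻¹ * (2 ^ (m + 2) * ((CQ * (w * M ^ (m + 1))) * Bd)))
        + ((2 : ℝ) ^ (m + 2) * ((m + 1)! : ℝ))⁻¹ * (2 ^ (m + 2) * ((CK * (w * M ^ (m + 1))) * Bd)) := by
  have hWs : l9xW Xs hd bd qd = l9xW X0 hd bd qd := by funext t; unfold l9xW; rw [hdet.bC]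
  have b1 := l9x_def_le hs hs' ps.sameMat hd bd qd (m + 1) hCA (nn := nn) (by rw [hdet.N]; exact a7s)
  have b2 := l9x_def_le h0 h0' p0.sameMat hd bd qd (m + 1) hCA (nn := nn) a70
  have b3 := l9x_rec_le h0 hs p0 ps hdet hK' hph hd bd qd hm hBD hCQ hw hM hQ hw0 hw1 hphi hb
  have b4 := l9x_top_le h0 hs hdet (Sm := Sm) Kd (k := m + 1) (by omega) hBD hCK hw hM hKap hKd
    (fun s hs' => by have := hphi s hs'; rwa [hph] at this) hb
  rw [hWs] at b1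
  rw [hdet.detR] at ids
  have e : (D1s - D10) - (D2s - D20)
      = Xs.dDef Xs' hd bd qd (m + 1) - X0.dDef X0' hd bd qd (m + 1)
        + ((Xs.dDef Xs hd bd qd (m + 1) - Xs.dDef Xs' hd bd qd (m + 1)) - (X0.dDef X0 hd bd qd (m + 1) - X0.dDef X0' hd bd qd (m + 1)))
        - (Xs.dTop Kd (m + 1) - X0.dTop Kd (m + 1)) := by
    linear_combination ids - id0
  rw [e]
  have t1 := abs_sub (Xs.dDef Xs' hd bd qd (m + 1) - X0.dDef X0' hd bd qd (m + 1)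
        + ((Xs.dDef Xs hd bd qd (m + 1) - Xs.dDef Xs' hd bd qd (m + 1)) - (X0.dDef X0 hd bd qd (m + 1) - X0.dDef X0' hd bd qd (m + 1))))
        (Xs.dTop Kd (m + 1) - X0.dTop Kd (m + 1))
  have t2 := abs_add_le (Xs.dDef Xs' hd bd qd (m + 1) - X0.dDef X0' hd bd qd (m + 1))
        ((Xs.dDef Xs hd bd qd (m + 1) - Xs.dDef Xs' hd bd qd (m + 1)) - (X0.dDef X0 hd bd qd (m + 1) - X0.dDef X0' hd bd qd (m + 1)))
  have t3 := abs_sub (Xs.dDef Xs' hd bd qd (m + 1)) (X0.dDef X0' hd bd qd (m + 1))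
  linarith

end rec

end Claimed.Agent.R286
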