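-- OWNER helper101 (HEAD of node TRD; section head helper60).      Source: LL 09-expansion.tex l.252-330.
import Claimed.Agent.R286.L09.TrdAbs
import Claimed.Agent.R286.L09.Trs
import Claimed.Agent.R286.L02.RowI
import Claimed.Agent.R286.Exit.LL02A7

/-!
# Row 286 (S0533), LL Sec. 9, node TRD, file L09/TrdCore : TRD ON A FAMILY OF FINE PATHS (LEVEL OF LL 02)      (owner helper101; prefix `l9x_`, `L9x`)      sec. 1-5: 0 sorry (sec. 5 `l9y_t34`: proved by helper29)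

 1. `l9xRef P Kc` = the fine path `P` with the scalar reference replaced (same stages, masses, matrix and field increments);   `l9x_ref_mat`, `l9x_ref_cumK`, `l9x_ref_adm`.
 2. constants of LL 02 which depend on the degree only: `l9x_a7_aff` ((A7) at `q = 2` for affine tests), `l9x_qd_le` (`|q̇| ≤ 192 sup |K̇|`).
 3. `l9xKS P Sm = h + b S`, `l9xPS P Sm` = the fine path at the monotone reference `K_S`;   `L9xCen P Sm` (`0 ≤ S ≤ 1`, nondecreasing);   admissibility, `LlBd`, tilt.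
 4. **`l9x_core`**: `l9x_main` (`L09/TrdAbs`) at the contexts `llJs`, from `ll2_ri_ok`, `ll2_ri_press` (73), `rd_frz_deriv` (239), `l2ri_pair`, `l2rc_Q_bd` (138), `exit_a7_masked`.
    IMPORTS LEFT (hypotheses): `LlFam` on a neighbourhood, `LlBd`, `LlTiltOk`, `L9xCen`, `L9xBD` (W5, 299), sup bounds of the dotted clocks, `|K_S - K| ≤ M env`.      OUTPUT: the two `errW` at `K_S` (bounded by `l9y_t34`, `L09/TrdT34`).
-/

set_option autoImplicit false

namespace Claimed.Agent.R286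

open scoped BigOperators Nat
open Finset

/-! ### 1. change of the scalar reference on a fine path -/

/-- the fine path `P` with the scalar reference replaced by the clock with the cumulative values `Kc` -/
def l9xRef (P : LlStp) (Kc : ℕ → ℝ) : LlStp := P.mapIdx fun l e => ⟨e.m, e.db, e.dh, Kc (l + 1) - Kc l⟩

theorem l9x_ref_len (P : LlStp) (Kc : ℕ → ℝ) : (l9xRef P Kc).length = P.length := by simp [l9xRef]

theorem l9x_ref_mat (P : LlStp) (Kc : ℕ → ℝ) : LlSameMat P (l9xRef P Kc) := by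
  unfold LlSameMat llMat l9xRef
  apply List.ext_getElem
  · simp
  · intro i h1 h2
    simp

theorem l9x_cumK_succ (P : LlStp) (j : ℕ) : llCumK P (j + 1) = llCumK P j + (P[j]?.map LlInc.dK).getD 0 := by
  unfold llCumK
  rw [List.take_add_one, List.map_append, List.sum_append]
  cases h : P[j]? <;> simp

theorem l9x_ref_cumK (P : LlStp) (Kc : ℕ → ℝ) (j : ℕ) : llCumK (l9xRef P Kc) j = Kc (min j P.length) - Kc 0 := by
  induction j with
  | zero => simp [llCumK]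
  | succ j ih =>
    rw [l9x_cumK_succ, ih]
    by_cases h : j < P.length
    · rw [min_eq_left h.le, min_eq_left (Nat.succ_le_of_lt h)]
      have : (l9xRef P Kc)[j]? = some ⟨P[j].m, P[j].db, P[j].dh, Kc (j + 1) - Kc j⟩ := by
        simp [l9xRef, h]
      rw [this]
      simp
    · have h' : P.length ≤ j := not_lt.1 h
      rw [min_eq_right h', min_eq_right (h'.trans (Nat.le_succ j))]
      have : (l9xRef P Kc)[j]? = none := by
        simp [l9xRef, h']
      rw [this]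
      simp

theorem l9x_ref_adm {a : ℝ} {P : LlStp} (hP : LlStpAdm a P) {Kc : ℕ → ℝ} (hK : ∀ l < P.length, Kc l ≤ Kc (l + 1)) :
    LlStpAdm a (l9xRef P Kc) := by
  refine ⟨by rw [← l9x_ref_mat P Kc]; exact hP.1, ?_⟩
  have h2 := hP.2
  unfold SkAdm at h2 ⊢
  constructor
  · have e : ((llSc (l9xRef P Kc)).map SkInc.m) = (llSc P).map SkInc.m := by
      unfold llSc l9xRef
      apply List.ext_getElem
      · simp
      · intro i h1 h2
        simp
    have h3 : ((llSc P).map SkInc.m).Pairwise (· ≤ ·) := List.pairwise_map.2 h2.1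
    rw [← e] at h3
    exact List.pairwise_map.1 h3
  · intro e he
    obtain ⟨i, hi, rfl⟩ := List.getElem_of_mem he
    have hi' : i < P.length := by simpa [llSc, l9xRef] using hi
    have hm := h2.2 ((llSc P)[i]'(by simpa [llSc] using hi')) (List.getElem_mem _)
    simp only [llSc, l9xRef, List.getElem_map, List.getElem_mapIdx] at hm ⊢
    exact ⟨hm.1, hm.2.1, le_rfl, by have := hK i hi'; linarith⟩

/-! ### 2. constants of LL 02 -/

/-- (A7) at `q = 2` for the affine tests of the overlap of the pair `0 1`;   the constant depends on `k`, `M0` only -/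
theorem l9x_a7_aff (k : ℕ) (hk : 0 < k) (M0 : ℝ) : ∃ CA : ℝ, 0 ≤ CA ∧ ∀ (n : ℕ) (a : ℝ) (P : LlStp) (tl : Option ℕ), 0 < n → 0 < a → a ≤ 4 →
    LlStpAdm a P → LlTiltOk P tl → LlBd M0 P → ∀ τ0 : JtTopo, IsTr P.length 2 τ0 → ∀ α β : ℝ,
      (llJs n a P tl).A7 2 τ0 (fun σ => α + β * (llJs n a P tl).Qs τ0 σ 0 1) 0 1 k CA (CA * (|α| + |β|) / n) := by
  obtain ⟨C7, hC7⟩ := exit_a7_masked 2 k M0
  refine ⟨2 * |C7|, by positivity, fun n a P tl hn ha ha4 hP htl hBd τ0 hτ0 α β => ?_⟩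
  have hnR : (0 : ℝ) < n := Nat.cast_pos.2 hn
  have hOv : LlOvBd 2 (fun A : ℕ → ℕ → ℝ => α + β * A 0 1) (|α| + |β|) |β| := by
    refine ⟨fun A A' h => by rw [h 0 1 (by norm_num) (by norm_num)], fun A hA => ?_, fun A A' δ _ _ hδ => ?_⟩
    · refine (abs_add_le _ _).trans (add_le_add le_rfl ?_)
      rw [abs_mul]
      exact mul_le_of_le_one_right (abs_nonneg _) (hA 0 1)
    · have e1 : α + β * A 0 1 - (α + β * A' 0 1) = β * (A 0 1 - A' 0 1) := by ring
      rw [e1, abs_mul]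
      exact mul_le_mul_of_nonneg_left (hδ 0 1) (abs_nonneg _)
  have h7 := hC7 n a P tl τ0 (fun A => α + β * A 0 1) (|α| + |β|) |β| 0 1 hn ha ha4 hP htl hBd hτ0 hOv
    (by norm_num) (by norm_num) (by norm_num) hk
  unfold JtCtx.A7 at h7 ⊢
  refine h7.trans ?_
  have hrem : 0 ≤ (llJs n a P tl).rem 2 τ0 (fun σ => α + β * (llJs n a P tl).Qs τ0 σ 0 1) k := by
    unfold JtCtx.rem
    refine trw_absK_nonneg _ _ _ _ _ fun τ' => mul_nonneg (l9t_off_nonneg _ _ _ _) ?_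
    exact (ll2_law_js n ha hP tl).nu.nonneg _ _ fun σ => mul_nonneg (abs_nonneg _) (abs_nonneg _)
  have hc : C7 ≤ |C7| := le_abs_self _
  have hc0 : 0 ≤ |C7| := abs_nonneg _
  have hα : 0 ≤ |α| := abs_nonneg _
  have hβ : 0 ≤ |β| := abs_nonneg _
  refine add_le_add ?_ ?_
  · exact mul_le_mul_of_nonneg_right (by linarith) hrem
  · refine div_le_div_of_nonneg_right ?_ hnR.le
    nlinarith [mul_nonneg hc0 hα, mul_nonneg hc0 hβ, mul_le_mul_of_nonneg_right hc (add_nonneg (add_nonneg hα hβ) hβ)]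

/-- the dotted reference overlap is bounded by the dotted reference clock -/
theorem l9x_qd_le {a : ℝ} (ha : 0 < a) (ha4 : a ≤ 4) {P : LlStp} (hP : LlStpAdm a P) (Pd : LlStp) {w : ℝ}
    (hw : ∀ s ≤ P.length, |llCumK Pd s| ≤ w) (t : ℕ) : |ll2Qd a P Pd t| ≤ 192 * w := by
  have hw0 : 0 ≤ w := (abs_nonneg _).trans (hw 0 (Nat.zero_le _))
  have hτ := ll2_ri_pair_isTr P.length (min t (P.length + 1)) (min_le_right _ _)
  have hms := ll2_law_isMs ha.le hP
  have hS := ll2_law_nuS ha hP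
  unfold ll2Qd ll2DK
  rw [abs_mul, abs_of_nonneg (by norm_num : (0 : ℝ) ≤ 2⁻¹)]
  have h1 := tr_absK_le hτ hms 2 (fun τ' => (if τ' 2 (2 + 1) ≤ P.length then (1 : ℝ) else 0) * llCumK Pd (τ' 2 (2 + 1)) *
      llNuS a P (2 + 2) τ' fun t => jtSp (t 0) * jtSp (t 1) * (jtSp (t 2) * jtSp (t (2 + 1)))) w (fun τ' _ => by
    have hsp : ∀ b : Bool, |jtSp b| = 1 := fun b => by unfold jtSp; cases b <;> simp
    have h2 : |llNuS a P (2 + 2) τ' fun t => jtSp (t 0) * jtSp (t 1) * (jtSp (t 2) * jtSp (t (2 + 1)))| ≤ 1 :=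
      hS.abs_le_const _ _ fun t => by simp [abs_mul, hsp]
    rw [abs_mul, abs_mul]
    split_ifs with hc
    · rw [abs_one, one_mul]
      calc |llCumK Pd (τ' 2 (2 + 1))| * _ ≤ w * 1 := mul_le_mul (hw _ hc) h2 (abs_nonneg _) hw0
        _ = w := mul_one _
    · simp [hw0])
  have h3 := (tr_sumK_le (N := P.length) (q := 2) (τ := trPair P.length (min t (P.length + 1))) (ms := llMs a P) 2 _).trans h1
  have hN : llMs a P P.length = a := by simp [llMs]
  rw [hN] at h3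
  have h4 : (2 * a) ^ 2 * (∏ i ∈ Finset.range 2, (((2 : ℕ) : ℝ) + i)) * w ≤ 384 * w := by
    have : (2 * a) ^ 2 ≤ 64 := by nlinarith
    have e : (∏ i ∈ Finset.range 2, (((2 : ℕ) : ℝ) + i)) = 6 := by simp [Finset.prod_range_succ]; norm_num
    rw [e]
    nlinarith
  linarith [h3.trans h4]

/-! ### 3. the monotone reference `K_S = h + b S` -/

/-- cumulative values of the monotone reference `K_S = h + b S` on the stages of `P` -/
def l9xKS (P : LlStp) (Sm : ℕ → ℝ) (s : ℕ) : ℝ := skCumH (llMat P) s + skCumB (llMat P) s * Sm s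

/-- the fine path at the reference `K_S` -/
def l9xPS (P : LlStp) (Sm : ℕ → ℝ) : LlStp := l9xRef P (l9xKS P Sm)

/-- hypotheses on the centring `S` (the untilted mean overlap at a pair which shares `s` stages) -/
structure L9xCen (P : LlStp) (Sm : ℕ → ℝ) : Prop where
  nn : ∀ s, 0 ≤ Sm s
  le : ∀ s, Sm s ≤ 1
  mono : ∀ s, Sm s ≤ Sm (s + 1)
  top : ∀ s, P.length ≤ s → Sm s = Sm P.length

theorem l9x_cum_top (Q : SkStp) {s : ℕ} (hs : Q.length ≤ s) : skCumB Q s = skCumB Q Q.length ∧ skCumH Q s = skCumH Q Q.length := by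
  unfold skCumB skCumH
  rw [List.take_of_length_le hs, List.take_of_length_le le_rfl]
  exact ⟨rfl, rfl⟩

theorem l9x_ps_KC {P : LlStp} {Sm : ℕ → ℝ} (h : L9xCen P Sm) (s : ℕ) : llCumK (l9xPS P Sm) s = l9xKS P Sm s := by
  unfold l9xPS
  rw [l9x_ref_cumK]
  have h0 : l9xKS P Sm 0 = 0 := by simp [l9xKS, skCumB, skCumH]
  rw [h0, sub_zero]
  rcases le_total s P.length with hs | hs
  · rw [min_eq_left hs]
  · rw [min_eq_right hs]
    have hl : (llMat P).length = P.length := by simp [llMat]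
    have := l9x_cum_top (llMat P) (s := s) (by rw [hl]; exact hs)
    unfold l9xKS
    rw [this.1, this.2, hl, h.top s hs]

theorem l9x_ps_adm {a : ℝ} {P : LlStp} (hP : LlStpAdm a P) {Sm : ℕ → ℝ} (h : L9xCen P Sm) : LlStpAdm a (l9xPS P Sm) := by
  refine l9x_ref_adm hP fun l hl => ?_
  unfold l9xKS
  have hl' : l < (llMat P).length := by simpa [llMat] using hl
  have hm := hP.1.2 ((llMat P)[l]) (List.getElem_mem hl')
  have e1 := ll2_sk_cumB_succ (llMat P) l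
  have e2 := ll2_sk_cumH_succ (llMat P) l
  rw [List.getElem?_eq_getElem hl'] at e1 e2
  simp only [Option.map_some, Option.getD_some] at e1 e2
  have hb := ll2_law_cumB_nonneg hP.1 l
  have h1 := h.mono l
  have h2 := h.nn (l + 1)
  rw [e1, e2]
  nlinarith [hm.2.2.1, hm.2.2.2, mul_nonneg hb (sub_nonneg.2 h1), mul_nonneg hm.2.2.1 h2]

theorem l9x_ps_bd {a M0 : ℝ} {P : LlStp} (hP : LlStpAdm a P) (hBd : LlBd M0 P) {Sm : ℕ → ℝ} (h : L9xCen P Sm) : LlBd M0 (l9xPS P Sm) := by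
  intro t
  have e : llMat (l9xPS P Sm) = llMat P := (l9x_ref_mat P _).symm
  rw [e, l9x_ps_KC h]
  refine ⟨(hBd t).1, ?_⟩
  unfold l9xKS
  have hb := ll2_law_cumB_nonneg hP.1 t
  have e2 : skCumH (llMat P) t - (skCumH (llMat P) t + skCumB (llMat P) t * Sm t) = -(skCumB (llMat P) t * Sm t) := by ring
  rw [e2, abs_neg, abs_of_nonneg (mul_nonneg hb (h.nn t))]
  calc skCumB (llMat P) t * Sm t ≤ skCumB (llMat P) t * 1 := mul_le_mul_of_nonneg_left (h.le t) hb
    _ ≤ M0 := by rw [mul_one]; exact (hBd t).1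

theorem l9x_ps_tilt {P : LlStp} (Sm : ℕ → ℝ) {tl : Option ℕ} (h : LlTiltOk P tl) : LlTiltOk (l9xPS P Sm) tl := by
  cases tl with
  | none => trivial
  | some js =>
    have e : llMat (l9xPS P Sm) = llMat P := (l9x_ref_mat P _).symm
    exact ⟨by unfold l9xPS; rw [l9x_ref_len]; exact h.1, by rw [e]; exact h.2⟩

theorem l9x_core_eqns_cite : True := by
  have := @l9xRef.eq_1
  have := @l9xKS.eq_1
  have := @l9xPS.eq_1
  trivial

/-! ### 4. TRD on a family of fine paths -/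

/-- the frozen form of `𝒟`(A6) in the ensemble `tl`, direct path (`e = 0`) -/
noncomputable def l9xOF (n : ℕ) (a : ℝ) (P : ℝ → LlStp) (k : ℕ) (tl : Option ℕ) (θ : ℝ) : ℝ :=
  deriv (fun t' => (llJs n a (P θ) tl).frz (llJs n a (P t') tl) (Real.exp (-0 * (t' - θ))) k) θ

theorem l9x_bd_nonneg {S : Type} {X0 Xs : JtCtx S} {Sm env : ℕ → ℝ} {n : ℕ} {Bd : ℝ} (hn : 5 ≤ n) (h : L9xBD X0 Xs Sm env n Bd) : 0 ≤ Bd := by
  have := h (range 5) ∅ (fun _ => 0) 1 (Finset.range_subset_range.2 hn) (Finset.empty_subset _) (Finset.disjoint_empty_right _) (by simp)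
    zero_le_one (fun τ _ _ => by simp)
  rw [one_mul] at this
  exact (abs_nonneg _).trans this

theorem l9x_core_arith {CA C0 cw c3 c4 Es E0 Fs F0 wn T : ℝ} (hCA : 0 ≤ CA) (hC0 : 0 ≤ C0) (hcw : 0 ≤ cw) (hc3 : 0 ≤ c3) (hc4 : 0 ≤ c4)
    (hEs : 0 ≤ Es) (hE0 : 0 ≤ E0) (hwn : 0 ≤ wn) (hT : 0 ≤ T) (d1 : Fs ≤ C0 * (4 * cw) * wn) (d2 : F0 ≤ C0 * (4 * cw) * wn) :
    2⁻¹ * (CA * (Es + Fs)) + 2⁻¹ * (CA * (E0 + F0)) + c3 * T + c4 * T
      ≤ (cw + CA + CA * C0 * (4 * cw) + c3 + c4) * (Es + E0 + wn + T) := by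
  have a1 := mul_le_mul_of_nonneg_left d1 hCA
  have a2 := mul_le_mul_of_nonneg_left d2 hCA
  have hA : 0 ≤ CA * C0 * (4 * cw) := by positivity
  have b1 : 0 ≤ (cw + CA * C0 * (4 * cw) + c3 + c4) * (Es + E0) := by positivity
  have b2 : 0 ≤ (cw + CA + c3 + c4) * wn := by positivity
  have b3 : 0 ≤ (cw + CA + CA * C0 * (4 * cw)) * T := by positivity
  have b4 : 0 ≤ CA * (Es + E0) := by positivity
  nlinarith

/-- **TRD on a family of fine paths** (09 l.252-330): `∂ψ` is the frozen form of `𝒟`(A6) up to the true Taylor remainders at the reference `K_S` (T3, T4), the contact errors, and the centred allocation estimate (T5, T6).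
`m + 1` = the direct Taylor degree. -/
theorem l9x_core (m : ℕ) (hm : 4 ≤ m) (M0 : ℝ) (hM0 : 0 ≤ M0) : ∃ C : ℝ, 0 ≤ C ∧
    ∀ (n : ℕ) (a : ℝ) (U : Set ℝ) (θ : ℝ) (P : ℝ → LlStp) (Pd : LlStp) (js : ℕ) (Sm env : ℕ → ℝ) (Bd w M : ℝ),
      1 ≤ n → 1 ≤ a → a ≤ 4 → U ∈ nhds θ → LlFam a U θ P Pd → LlBd M0 (P θ) → (∀ ϑ ∈ U, LlTiltOk (P ϑ) (some js)) → L9xCen (P θ) Sm →
      L9xBD (llJs n a (P θ) none) (llJs n a (P θ) (some js)) Sm env (m + 2) Bd → M0 ≤ M →
      (∀ s ≤ (P θ).length, |skCumH (llMat Pd) s| ≤ w ∧ |skCumB (llMat Pd) s| ≤ w ∧ |llCumK Pd s| ≤ w) →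
      (∀ s ≤ (P θ).length, |l9xKS (P θ) Sm s - llCumK (P θ) s| ≤ M * env s) →
      ∃ W : ℕ → ℝ, (∀ j, 0 ≤ W j) ∧ (∀ j ≤ (P θ).length, W j ≤ C * w) ∧
        |deriv (fun t => llPsi llMv n a js (P t)) θ - (l9xOF n a P (m + 1) (some js) θ - l9xOF n a P (m + 1) none θ)|
          ≤ C * ((llJs n a (l9xPS (P θ) Sm) (some js)).errW W (m + 1) + (llJs n a (l9xPS (P θ) Sm) none).errW W (m + 1)
              + w / n + w * M ^ (m + 1) * Bd) := by
  obtain ⟨CA, hCA0, hCA⟩ := l9x_a7_aff (m + 1) (Nat.succ_pos m) M0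
  obtain ⟨CQ, hCQ0, hCQ⟩ := l2rc_Q_bd (m + 1)
  obtain ⟨CK, hCK0, hCK⟩ := l9x_kap_bd (m + 2)
  obtain ⟨C0, hC00, hC0⟩ := l9s_errW0_le 4
  set cw : ℝ := 2 + 192 * M0 with hcw
  have hcw0 : 0 ≤ cw := by positivity
  set c3 : ℝ := 2⁻¹ * (((2 : ℝ) ^ (m + 1) * (m ! : ℝ))⁻¹ * (2 ^ (m + 2) * (CQ * cw))) with hc3
  set c4 : ℝ := ((2 : ℝ) ^ (m + 2) * ((m + 1)! : ℝ))⁻¹ * (2 ^ (m + 2) * (CK * cw)) with hc4
  have hc30 : 0 ≤ c3 := by positivity
  have hc40 : 0 ≤ c4 := by positivity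
  refine ⟨cw + CA + CA * C0 * (4 * cw) + c3 + c4, by positivity, ?_⟩
  intro n a U θ P Pd js Sm env Bd w M hn ha1 ha4 hU hF hBd htl hCen hBD hM hdot hphi
  have ha : 0 < a := by linarith
  have hn0 : 0 < n := hn
  have hnR : (0 : ℝ) < n := Nat.cast_pos.2 hn0
  have hadm := hF.adm θ hF.mem
  have hadm' := l9x_ps_adm hadm hCen
  have hPP : LlSameMat (P θ) (l9xPS (P θ) Sm) := l9x_ref_mat _ _
  have hw0 : 0 ≤ w := (abs_nonneg _).trans (hdot 0 (Nat.zero_le _)).1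
  have hM00 : 0 ≤ M := hM0.trans hM
  have hBd0 : 0 ≤ Bd := l9x_bd_nonneg (by omega) hBD
  set X0 := llJs n a (P θ) none with hX0
  set Xs := llJs n a (P θ) (some js) with hXs
  set X0' := llJs n a (l9xPS (P θ) Sm) none with hX0'
  set Xs' := llJs n a (l9xPS (P θ) Sm) (some js) with hXs'
  set hd : ℕ → ℝ := fun t => skCumH (llMat Pd) t with hhd
  set bd : ℕ → ℝ := fun t => skCumB (llMat Pd) t with hbd
  set Kd : ℕ → ℝ := fun t => llCumK Pd t with hKd
  set qd : ℕ → ℝ := ll2Qd a (P θ) Pd with hqd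
  have p0 : L2rcPair X0 X0' (llMs a (P θ)) (l2riKap a (P θ) (l9xPS (P θ) Sm)) := l2ri_pair n ha hadm hadm' hPP none
  have ps : L2rcPair Xs Xs' (llMs a (P θ)) (l2riKap a (P θ) (l9xPS (P θ) Sm)) := l2ri_pair n ha hadm hadm' hPP (some js)
  have hdet : X0.SameDet Xs := ⟨rfl, rfl, rfl, rfl, rfl, rfl, rfl, rfl, rfl⟩
  have hq : ∀ t, |qd t| ≤ 192 * w := l9x_qd_le ha ha4 hadm Pd fun s hs => (hdot s hs).2.2
  have hb : ∀ s, |X0.bC s| ≤ M0 := fun s => by
    show |skCumB (llMat (P θ)) s| ≤ M0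
    rw [abs_of_nonneg (ll2_law_cumB_nonneg hadm.1 s)]
    exact (hBd s).1
  have hbq : ∀ s, |X0.bC s * qd s| ≤ 192 * M0 * w := fun s => by
    rw [abs_mul]
    calc |X0.bC s| * |qd s| ≤ M0 * (192 * w) := mul_le_mul (hb s) (hq s) (abs_nonneg _) hM0
      _ = _ := by ring
  have hSm : ∀ s, |Sm s| ≤ 1 := fun s => by rw [abs_of_nonneg (hCen.nn s)]; exact hCen.le s
  have hOk0 : (ll2Rd n a 0 U θ P Pd none).Ok := ll2_ri_ok n ha 0 hF none
  have hOks : (ll2Rd n a 0 U θ P Pd (some js)).Ok := ll2_ri_ok n ha 0 hF (some js)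
  have id0 := l9x_id9 hOk0 rfl (m + 1)
  have ids := l9x_id9 hOks rfl (m + 1)
  have key := l9x_main (X0 := X0) (Xs := Xs) (X0' := X0') (Xs' := Xs') p0.law ps.law p0.law' ps.law' p0 ps hdet rfl (Sm := Sm) (env := env)
    (fun s => l9x_ps_KC hCen s) hd bd Kd qd hm hBD (CA := CA) (nn := n) (CQ := CQ) (CK := CK) (w := cw * w) (M := M) hCA0 hCQ0 hCK0
    (by positivity) hM00
    (fun τ0 hτ0 _ α β => hCA n a _ none hn0 ha ha4 hadm' trivial (l9x_ps_bd hadm hBd hCen) τ0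
      (by unfold l9xPS; rw [l9x_ref_len]; exact hτ0) α β)
    (fun τ0 hτ0 _ α β => hCA n a _ (some js) hn0 ha ha4 hadm' (l9x_ps_tilt Sm (htl θ hF.mem)) (l9x_ps_bd hadm hBd hCen) τ0
      (by unfold l9xPS; rw [l9x_ref_len]; exact hτ0) α β)
    (fun t ht τ => hCQ _ _ (p0.sc.law t ht) _ _ _ _ τ _ (by simp))
    (fun τ => hCK X0 _ p0.law _ _ τ _ (by simp))
    (fun s hs => by
      have h1 := (hdot s hs).1
      have h2 := (hdot s hs).2.1
      have h3 : |bd s * Sm s| ≤ w := by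
        rw [abs_mul]
        calc |bd s| * |Sm s| ≤ w * 1 := mul_le_mul h2 (hSm s) (abs_nonneg _) hw0
          _ = w := mul_one _
      calc |hd s + X0.bC s * qd s + bd s * Sm s| ≤ |hd s| + |X0.bC s * qd s| + |bd s * Sm s| := abs_add_three _ _ _
        _ ≤ w + 192 * M0 * w + w := add_le_add (add_le_add h1 (hbq s)) h3
        _ = cw * w := by rw [hcw]; ring)
    (fun s hs => by
      refine (hdot s hs).2.1.trans ?_
      rw [hcw]; nlinarith [mul_nonneg hM0 hw0])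
    (fun s hs => by
      refine (hdot s hs).2.2.trans ?_
      rw [hcw]; nlinarith [mul_nonneg hM0 hw0])
    (fun s hs => by
      have := hphi s hs
      rwa [← l9x_ps_KC hCen s] at this)
    (fun s _ => (hb s).trans hM) id0 ids
  set W := l9xW X0 hd bd qd with hW
  have hW0 : ∀ j, 0 ≤ W j := fun j => by rw [hW]; unfold l9xW; positivity
  have hWle : ∀ j ≤ (P θ).length, W j ≤ cw * w := fun j hj => by
    rw [hW]; unfold l9xW
    calc |hd j + X0.bC j * qd j| + |bd j| ≤ (|hd j| + |X0.bC j * qd j|) + |bd j| := add_le_add (abs_add_le _ _) le_rfl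
      _ ≤ (w + 192 * M0 * w) + w := add_le_add (add_le_add (hdot j hj).1 (hbq j)) (hdot j hj).2.1
      _ = cw * w := by rw [hcw]; ring
  refine ⟨W, hW0, fun j hj => (hWle j hj).trans (mul_le_mul_of_nonneg_right (by nlinarith [mul_nonneg (mul_nonneg hCA0 hC00) hcw0]) hw0), ?_⟩
  have hlen' : (l9xPS (P θ) Sm).length = (P θ).length := by unfold l9xPS; rw [l9x_ref_len]
  have hmsN : llMs a (P θ) (P θ).length = a := by simp [llMs]
  have hint : l9sInt (llMs a (P θ)) (P θ).length W ≤ 4 * cw * w := by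
    have h1 : l9sInt (llMs a (P θ)) (P θ).length W ≤ l9sInt (llMs a (P θ)) (P θ).length fun _ => cw * w := by
      unfold l9sInt
      refine Finset.sum_le_sum fun j hj => ?_
      have hj' : j ≤ (P θ).length := by have := Finset.mem_range.1 hj; omega
      exact mul_le_mul_of_nonneg_left (hWle j hj') (l9s_gap_nonneg p0.law.isMs hj')
    have h2 : l9sInt (llMs a (P θ)) (P θ).length (fun _ => cw * w) = a * (cw * w) := by
      have := l9s_int_one (llMs a (P θ)) (P θ).length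
      unfold l9sInt at this ⊢
      simp only [mul_one] at this
      rw [← Finset.sum_mul, this, hmsN]
    rw [h2] at h1
    nlinarith [mul_nonneg hcw0 hw0]
  have hE0 : X0'.errW0 W ≤ C0 * (4 * cw * w) := by
    have := hC0 _ X0' _ p0.law' (by show llMs a (P θ) (l9xPS (P θ) Sm).length ≤ 4; rw [hlen', hmsN]; exact ha4) W hW0
    refine this.trans (mul_le_mul_of_nonneg_left ?_ hC00)
    show l9sInt (llMs a (P θ)) (l9xPS (P θ) Sm).length W ≤ _
    rw [hlen']; exact hint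
  have hEs : Xs'.errW0 W ≤ C0 * (4 * cw * w) := by
    have := hC0 _ Xs' _ ps.law' (by show llMs a (P θ) (l9xPS (P θ) Sm).length ≤ 4; rw [hlen', hmsN]; exact ha4) W hW0
    refine this.trans (mul_le_mul_of_nonneg_left ?_ hC00)
    show l9sInt (llMs a (P θ)) (l9xPS (P θ) Sm).length W ≤ _
    rw [hlen']; exact hint
  have hW1 := l9s_errW_nonneg p0.law' hW0 (m + 1)
  have hW2 := l9s_errW_nonneg ps.law' hW0 (m + 1)
  have hpsi : deriv (fun t => llPsi llMv n a js (P t)) θ = (ll2Rd n a 0 U θ P Pd (some js)).D1 - (ll2Rd n a 0 U θ P Pd none).D1 := by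
    unfold llPsi
    exact (((ll2_ri_press hn0 ha 0 hF htl).hasDerivAt hU).sub
      ((ll2_ri_press hn0 ha 0 hF (tl := none) (fun _ _ => trivial)).hasDerivAt hU)).deriv
  have hOFs : l9xOF n a P (m + 1) (some js) θ = (ll2Rd n a 0 U θ P Pd (some js)).D2 (m + 1) :=
    ((RdData.rd_frz_deriv hOks (m + 1)).hasDerivAt hU).deriv
  have hOF0 : l9xOF n a P (m + 1) none θ = (ll2Rd n a 0 U θ P Pd none).D2 (m + 1) :=
    ((RdData.rd_frz_deriv hOk0 (m + 1)).hasDerivAt hU).deriv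
  rw [hpsi, hOFs, hOF0]
  refine key.trans ?_
  have hT : 0 ≤ w * M ^ (m + 1) * Bd := by positivity
  have e3 : 2⁻¹ * (((2 : ℝ) ^ (m + 1) * (m ! : ℝ))⁻¹ * (2 ^ (m + 2) * ((CQ * (cw * w * M ^ (m + 1))) * Bd))) = c3 * (w * M ^ (m + 1) * Bd) := by
    rw [hc3]; ring
  have e4 : ((2 : ℝ) ^ (m + 2) * ((m + 1)! : ℝ))⁻¹ * (2 ^ (m + 2) * ((CK * (cw * w * M ^ (m + 1))) * Bd)) = c4 * (w * M ^ (m + 1) * Bd) := by
    rw [hc4]; ring
  rw [e3, e4]
  have hwn : 0 ≤ w / n := by positivity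
  have d1 : Xs'.errW0 W / n ≤ C0 * (4 * cw) * (w / n) := by
    rw [div_le_iff₀ hnR]
    calc Xs'.errW0 W ≤ C0 * (4 * cw * w) := hEs
      _ = C0 * (4 * cw) * (w / n) * n := by field_simp
  have d2 : X0'.errW0 W / n ≤ C0 * (4 * cw) * (w / n) := by
    rw [div_le_iff₀ hnR]
    calc X0'.errW0 W ≤ C0 * (4 * cw * w) := hE0
      _ = C0 * (4 * cw) * (w / n) * n := by field_simp
  exact l9x_core_arith hCA0 hC00 hcw0 hc30 hc40 hW2 hW1 hwn hT d1 d2

/-! ### 5. the true Taylor remainder at the reference `K_S` (T3 + T4)      OWNER of the proof: helper138 (prefix `l9y_`)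

`X` = a context with laws (in the application: the context at the monotone reference `K_S = h + b S`, so `X.J = b δ`).      `errW W k` = the majorant of (A7) summed over the pair `0` (weight `W` = dotted clocks, `≤ w`).
Two cases (09 l.259-285): at most one insertion with envelope `sig ≥ thr` (Hoelder, moments of order `k`) / two of them (Cauchy-Schwarz, second moments `Dsq`, ONE-pair marginal of the absolute allocation measure).
ROUTE: `l9t_direct` (65, `L09/TrAbs`) with `A = X.absK (2 k + 1) 1 X.tau1`, `E τ = X.nu (2 k + 2) τ`, `s = Icc 1 k`, `X τ i σ = X.J τ σ (jtC 0 i) (jtD 0 i)`, `lv τ i = τ (jtC 0 i) (jtD 0 i)`, `om τ = X.off 0 (k + 1) τ * W (τ 0 1)`,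
`K = range (X.N + 1)`, `mw t = ms t - trPm ms t`;   PRUNE to the pair: `l9s_mom_pair` (65, `L09/Trs`; `X.J = b Dl + d`: `l9s_J_eq`);   total mass: `l9s_total`;
ONE-pair marginal of the pair `i ≥ 1`: copy of `l9s_marg` with `tr_split_density 1 (2 k + 1) a` at the labels `x = jtC 0 i`, `y = jtD 0 i`. -/

/-- the insertion `J` at a pair of a tree is the insertion at the two-leaf tree, pointwise -/
theorem l9y_J_pair {S : Type} (X : JtCtx S) (τ : JtTopo) (σ : ℕ → S) (c d : ℕ) :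
    X.J τ σ c d = X.J (trPair X.N (τ c d)) (fun x => if x = 0 then σ c else σ d) 0 1 := by
  simp [JtCtx.J, JtCtx.Qs, trPair]

/-- PRUNE to the pair, for a function of `J` -/
theorem l9y_J_mom {S : Type} [Fintype S] [Inhabited S] {X : JtCtx S} {ms : ℕ → ℝ} (hX : X.Law ms) {r : ℕ} {τ : JtTopo}
    (hτ : IsTr X.N r τ) {c d : ℕ} (hc : c < r) (hd : d < r) (g : ℝ → ℝ) :
    X.nu r τ (fun σ => g (X.J τ σ c d)) = X.nu 2 (trPair X.N (τ c d)) fun σ => g (X.J (trPair X.N (τ c d)) σ 0 1) := by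
  have h := l9s_mom_pair hX hτ hc hd (fun y => g (X.bC (τ c d) * y + X.dC (τ c d)))
  have e1 : (fun σ : ℕ → S => g (X.J τ σ c d)) = fun σ => g (X.bC (τ c d) * X.Dl τ σ c d + X.dC (τ c d)) := by
    funext σ
    rw [l9s_J_eq]
  have e2 : (fun σ : ℕ → S => g (X.J (trPair X.N (τ c d)) σ 0 1))
      = fun σ => g (X.bC (τ c d) * X.Dl (trPair X.N (τ c d)) σ 0 1 + X.dC (τ c d)) := by
    funext σ
    rw [l9s_J_eq]
    simp [trPair]
  rw [e1, e2]
  exact h

/-- ONE-pair marginal of the pair `i` (PE Lemma 2.8) under the absolute allocation measure of `n` labels over the root -/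
theorem l9y_marg (n : ℕ) (a : ℝ) : ∃ C : ℝ, 0 ≤ C ∧ ∀ (S : Type) [Fintype S] [Inhabited S] (X : JtCtx S) (ms : ℕ → ℝ),
    X.Law ms → ms X.N ≤ a → ∀ x y : ℕ, x < 1 + n → 1 ≤ y → y < 1 + n → x ≠ y → ∀ g : ℕ → ℝ, (∀ j, 0 ≤ g j) → ∀ om : JtTopo → ℝ,
      (∀ τ, IsTr X.N (1 + n) τ → 0 ≤ om τ ∧ om τ ≤ 1 ∧ (om τ ≠ 0 → τ x y ≤ X.N)) →
      X.absK n 1 X.tau1 (fun τ => om τ * g (τ x y)) ≤ C * l9sInt ms X.N g := by
  obtain ⟨C, hC⟩ := tr_split_density 1 n a
  refine ⟨max C 0, le_max_right _ _, fun S _ _ X ms hX ha x y hx hy1 hy hxy w hw om hom => ?_⟩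
  have hA := (l9s_ok hX).abs_pos n 1 X.tau1 (l9e_isTr_one X.N)
  calc X.absK n 1 X.tau1 (fun τ => om τ * w (τ x y))
      ≤ X.absK n 1 X.tau1 (fun τ => ∑ j ∈ Finset.range (X.N + 1), w j * (if τ x y = j then 1 else 0)) := by
        refine hA.mono _ _ fun τ hτ => ?_
        obtain ⟨h0, h1, h2⟩ := hom τ hτ
        simp only [mul_ite, mul_one, mul_zero, Finset.sum_ite_eq, Finset.mem_range]
        by_cases hz : om τ = 0
        · rw [hz, zero_mul]
          split_ifs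
          · exact hw _
          · exact le_rfl
        · rw [if_pos (by have := h2 hz; omega)]
          have := mul_le_mul_of_nonneg_right h1 (hw (τ x y))
          linarith
    _ = ∑ j ∈ Finset.range (X.N + 1), w j * X.absK n 1 X.tau1 (fun τ => if τ x y = j then 1 else 0) := by
        rw [hA.sum]
        exact Finset.sum_congr rfl fun j _ => hA.smul _ _
    _ ≤ ∑ j ∈ Finset.range (X.N + 1), w j * (max C 0 * (ms j - trPm ms j)) := by
        refine Finset.sum_le_sum fun j hj => mul_le_mul_of_nonneg_left ?_ (hw j)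
        have hj' : j ≤ X.N := by have := Finset.mem_range.mp hj; omega
        rw [hX.absK]
        refine (hC X.N X.tau1 ms (l9e_isTr_one X.N) hX.isMs ha x y j hx hy1 hy hxy hj'
          (fun u v _ _ => by unfold JtCtx.tau1; omega)).trans ?_
        exact mul_le_mul_of_nonneg_right (le_max_left _ _) (l9s_gap_nonneg hX.isMs hj')
    _ = max C 0 * l9sInt ms X.N w := by
        unfold l9sInt
        rw [Finset.mul_sum]
        exact Finset.sum_congr rfl fun j _ => by ring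

/-- **T3 + T4** on a context with laws -/
theorem l9y_t34 (k : ℕ) (hk : 2 ≤ k) (a : ℝ) : ∃ C : ℝ, 0 ≤ C ∧ ∀ (S : Type) [Fintype S] [Inhabited S] (X : JtCtx S) (ms : ℕ → ℝ),
    X.Law ms → ms X.N ≤ a → ∀ (W sig Dsq : ℕ → ℝ) (w thr Bd E8 : ℝ), (∀ j, 0 ≤ W j) → (∀ j ≤ X.N, W j ≤ w) → 0 < thr → 0 < Bd →
      (∀ t, 0 < sig t) → (∀ t, 0 ≤ Dsq t) →
      (∀ t ≤ X.N, ∀ σ, |X.J (trPair X.N t) σ 0 1| ≤ Bd) →
      (∀ t ≤ X.N, sig t < thr → X.nu 2 (trPair X.N t) (fun σ => |X.J (trPair X.N t) σ 0 1| ^ k) ≤ sig t ^ k) →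
      (∀ t ≤ X.N, thr ≤ sig t → X.nu 2 (trPair X.N t) (fun σ => X.J (trPair X.N t) σ 0 1 ^ 2) ≤ Dsq t) →
      (∑ t ∈ (Finset.range (X.N + 1)).filter (fun t => thr ≤ sig t), (ms t - trPm ms t) * Dsq t ≤ E8) →
      X.errW W k ≤ C * w * (Bd * thr ^ (k - 1) + Bd ^ (k - 2) * E8) := by
  obtain ⟨C1, hC10, hC1⟩ := l9s_total (2 * k + 1) a
  obtain ⟨C2, hC20, hC2⟩ := l9y_marg (2 * k + 1) a
  refine ⟨C1 + k * C2, by positivity, fun S _ _ X ms hX ha W sig Dsq w thr Bd E8 hW0 hWw hthr hBd hsig hDsq hbd hmom hD hE8 => ?_⟩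
  have hw0 : 0 ≤ w := (hW0 0).trans (hWw 0 (Nat.zero_le _))
  have hA := (l9s_ok hX).abs_pos (2 * k + 1) 1 X.tau1 (l9e_isTr_one X.N)
  have hM : L9tMaj (fun τ => IsTr X.N (1 + (2 * k + 1)) τ) (X.absK (2 * k + 1) 1 X.tau1) (fun τ => X.nu (2 * k + 2) τ)
      (fun τ => X.off 0 (k + 1) τ * W (τ 0 1)) :=
    ⟨hA, fun τ _ => l9s_nu_pos hX _ τ, fun τ _ => mul_nonneg (l9t_off_nonneg X 0 (k + 1) τ) (hW0 _)⟩
  have hcard : (Finset.Icc 1 k).card = k := by rw [Nat.card_Icc]; omega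
  have hE80 : 0 ≤ E8 := le_trans (Finset.sum_nonneg fun t ht => mul_nonneg
    (l9s_gap_nonneg hX.isMs (by have := Finset.mem_range.mp (Finset.mem_filter.mp ht).1; omega)) (hDsq t)) hE8
  -- the weight is `≤ w off`
  have hom : ∀ τ, X.off 0 (k + 1) τ * W (τ 0 1) ≤ w * X.off 0 (k + 1) τ := by
    intro τ
    by_cases hz : X.off 0 (k + 1) τ = 0
    · rw [hz, zero_mul, mul_zero]
    · have h01 : τ 0 1 ≤ X.N := l9t_off_ne_zero (i := 0) hz (by omega)
      rw [mul_comm]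
      exact mul_le_mul_of_nonneg_right (hWw _ h01) (l9t_off_nonneg X 0 (k + 1) τ)
  have hlab : ∀ i ∈ Finset.Icc 1 k, jtC 0 i < 2 * k + 2 ∧ jtD 0 i < 2 * k + 2 := fun i hi => by
    have := Finset.mem_Icc.mp hi
    unfold jtC jtD
    omega
  have hoff : ∀ τ, X.off 0 (k + 1) τ * W (τ 0 1) ≠ 0 → ∀ i ∈ Finset.Icc 1 k, τ (jtC 0 i) (jtD 0 i) ≤ X.N := fun τ h0 i hi =>
    l9t_off_ne_zero (left_ne_zero_of_mul h0) (by have := Finset.mem_Icc.mp hi; omega)
  have hTr : ∀ τ, IsTr X.N (1 + (2 * k + 1)) τ → IsTr X.N (2 * k + 2) τ := fun τ hτ => by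
    rwa [show 1 + (2 * k + 1) = 2 * k + 2 by omega] at hτ
  have h := l9t_direct hM (Finset.Icc 1 k) (by rw [hcard]; exact hk)
    (fun τ i σ => X.J τ σ (jtC 0 i) (jtD 0 i)) (fun τ i => τ (jtC 0 i) (jtD 0 i))
    (thr := thr) (Bd := Bd) (W := C1 * w) (CS := C2 * w) (E8 := E8) (sig := sig) (Dsq := Dsq)
    (mw := fun t => ms t - trPm ms t) (K := Finset.range (X.N + 1))
    hthr hBd (by positivity) hsig hDsq (fun τ _ => (hX.nu.const _ τ 1).le)
    (fun τ _ h0 i hi σ => by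
      show |X.J τ σ (jtC 0 i) (jtD 0 i)| ≤ Bd
      rw [l9y_J_pair]
      exact hbd _ (hoff τ h0 i hi) _)
    (fun τ hτ h0 i hi hs => by
      rw [hcard]
      have := l9y_J_mom hX (hTr τ hτ) (hlab i hi).1 (hlab i hi).2 (fun y => |y| ^ k)
      exact (le_of_eq this).trans (hmom _ (hoff τ h0 i hi) hs))
    (fun τ hτ h0 i hi hs => by
      have := l9y_J_mom hX (hTr τ hτ) (hlab i hi).1 (hlab i hi).2 (fun y => y ^ 2)
      exact (le_of_eq this).trans (hD _ (hoff τ h0 i hi) hs))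
    (by
      calc X.absK (2 * k + 1) 1 X.tau1 (fun τ => X.off 0 (k + 1) τ * W (τ 0 1))
          ≤ X.absK (2 * k + 1) 1 X.tau1 (fun _ => w * 1) := hA.mono _ _ fun τ _ =>
            (hom τ).trans (mul_le_mul_of_nonneg_left (l9t_off_le_one X 0 (k + 1) τ) hw0)
        _ = w * X.absK (2 * k + 1) 1 X.tau1 (fun _ => 1) := hA.smul _ _
        _ ≤ w * C1 := mul_le_mul_of_nonneg_left (hC1 S X ms hX ha) hw0
        _ = C1 * w := mul_comm _ _)
    (fun i hi g hg => by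
      have hi' := Finset.mem_Icc.mp hi
      have h2 := hC2 S X ms hX ha (jtC 0 i) (jtD 0 i) (by unfold jtC; omega) (by unfold jtD; omega) (by unfold jtD; omega)
        (by unfold jtC jtD; omega) g hg (fun τ => X.off 0 (k + 1) τ) fun τ _ =>
        ⟨l9t_off_nonneg X 0 (k + 1) τ, l9t_off_le_one X 0 (k + 1) τ, fun h0 => l9t_off_ne_zero h0 (by omega)⟩
      calc X.absK (2 * k + 1) 1 X.tau1 (fun τ => X.off 0 (k + 1) τ * W (τ 0 1) * g (τ (jtC 0 i) (jtD 0 i)))
          ≤ X.absK (2 * k + 1) 1 X.tau1 (fun τ => w * (X.off 0 (k + 1) τ * g (τ (jtC 0 i) (jtD 0 i)))) :=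
            hA.mono _ _ fun τ _ => by
              have := mul_le_mul_of_nonneg_right (hom τ) (hg (τ (jtC 0 i) (jtD 0 i)))
              linarith
        _ = w * X.absK (2 * k + 1) 1 X.tau1 (fun τ => X.off 0 (k + 1) τ * g (τ (jtC 0 i) (jtD 0 i))) := hA.smul _ _
        _ ≤ w * (C2 * l9sInt ms X.N g) := mul_le_mul_of_nonneg_left h2 hw0
        _ = C2 * w * ∑ t ∈ Finset.range (X.N + 1), (ms t - trPm ms t) * g t := by unfold l9sInt; ring)
    hE8
  rw [hcard] at h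
  have e : X.errW W k = l9tM (X.absK (2 * k + 1) 1 X.tau1) (fun τ => X.nu (2 * k + 2) τ) (Finset.Icc 1 k)
      (fun τ i σ => X.J τ σ (jtC 0 i) (jtD 0 i)) (fun τ => X.off 0 (k + 1) τ * W (τ 0 1)) := rfl
  rw [e]
  refine h.trans ?_
  have p1 : 0 ≤ w * (Bd * thr ^ (k - 1)) := by positivity
  have p2 : 0 ≤ w * (Bd ^ (k - 2) * E8) := by positivity
  have hkC : 0 ≤ (k : ℝ) * C2 := by positivity
  nlinarith [mul_nonneg hkC p1, mul_nonneg hC10 p2]

end Claimed.Agent.R286
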