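import Claimed.Agent.R286.L09.TrsFin
import Claimed.Agent.R286.L08.DList
import Claimed.Agent.R286.Fd.Contract
import Claimed.Agent.R286.L08.FineA
import Claimed.Agent.R286.L08.DSup
import Claimed.Agent.R286.Defs.L9Pre
import Claimed.Agent.R286.L08.Caller
import Claimed.Agent.R286.L09.E4S

/-!
# Row 286 (S0533), unit L09 (LL Sec. 9), file TRSQ: THE IMPORTS OF THE NODE TRS FROM THE EXITS      (owner helper65; prefix `l9s_`)      0 sorry

* 16: `l9s_bq2` : `b q²` is nondecreasing in the stage on EVERY admissible fine path (the hypothesis of `L02SizeIncr`): `l9s_q_obS` (the reference overlap of the chain = the statistic `S` of the one-site scalar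
  model: `l8d_tr_T2` of 220, `ob_S_two`), `fd_S_mono`, `fd_S_range`, `l9s_q_top` (`q = 1` beyond the terminal draw).
* 17: `l9s_d_path` : on a smoothed size path `|d(v)| ≤ C x` uniformly in `v ∈ [0, a]`  ((P4) below the mask, the explicit `H_lo`, `H_lin` above; 03 l.480-490).
* 19: `l9s_dif_all` (one point), `l9s_dif_S`, `l9s_dif_D`, **`l9s_indif_S`, `l9s_indif_D`** = the supply `Q.InDif` of the producer of (E4) in the shapes `L9SbS`, `L9SbD` (open ranges).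
* 18: `l9s_sizok_inst` (one fine instance), **`l9s_sizok` : `L8gFine` + `L8Fix` ⟹ `L9SizOk 𝔹 δ F`** (`δ ≤ 1`), `l9s_trs_of_d11` (the node TRS from the exits + `L9D11`).
-/

set_option autoImplicit false

namespace Claimed.Agent.R286

open MeasureTheory Set Filter

/-! ### 16. `b q²` is nondecreasing in the stage -/

theorem l9s_cumB_mono {a : ℝ} {Q : SkStp} (h : SkAdm a Q) (t : ℕ) : skCumB Q t ≤ skCumB Q (t + 1) := by
  unfold skCumB
  rw [List.take_add_one, List.map_append, List.sum_append]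
  have : 0 ≤ ((Q[t]?.toList).map SkInc.db).sum := by
    refine List.sum_nonneg fun x hx => ?_
    obtain ⟨e, he, rfl⟩ := List.mem_map.1 hx
    have he' : e ∈ Q := by
      rw [Option.mem_toList] at he
      exact List.mem_of_getElem? he
    exact (h.2 e he').2.2.1
  linarith

/-- the reference overlap of the chain is the statistic `S` of the one-site scalar model -/
theorem l9s_q_obS {a : ℝ} (ha : 0 < a) {P : LlStp} (hP : LlStpAdm a P) {t : ℕ} (ht : t ≤ P.length) :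
    llQs a P t = obS 1 a (llSc P) 0 t := by
  have hl : (llSc P).length = P.length := by simp [llSc]
  have h1 := l8d_tr_T2 1 a (llSc P) (t := t) (by rw [hl]; exact ht) fun σ σ' => skOv σ σ'
  rw [hl, ob_S_two one_pos ha _ hP.2 0 t (by rw [hl]; exact ht)] at h1
  rw [← h1]
  unfold llQs llNuS
  congr 1
  funext σ
  simp [skOv, skSp, jtSp, Claims.C0461.pmSpin]

/-- labels which share all the stages and the terminal draw coincide -/
theorem l9s_q_top {a : ℝ} (ha : 0 < a) {P : LlStp} (hP : LlStpAdm a P) {t : ℕ} (ht : P.length + 1 ≤ t) : llQs a P t = 1 := by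
  have hL := (ll2_law_js 1 ha hP none).nuK
  have e1 : llQs a P t = llNuS a P 2 (fun _ _ => P.length + 1) fun s => jtSp (s 0) * jtSp (s 1) := by
    unfold llQs llNuS trNu
    refine tr_b1_rep_congr_nu _ _ _ _ (fun j hj => ?_) _ _
    have hl : (skLvs 1 (llSc P)).length = P.length := by simp [skLvs, llSc]
    rw [hl] at hj
    refine tr_e_rep_congr fun x y => ?_
    unfold trPair
    split_ifs <;> constructor <;> intro <;> omega
  have e2 := hL.comap 1 2 (fun _ _ => P.length + 1) (l9e_isTr_one P.length) (fun _ => 0) (fun _ _ => by norm_num)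
    (fun s => jtSp (s 0) * jtSp (s 1)) (fun σ σ' h => by
      show jtSp (σ 0) * jtSp (σ 1) = jtSp (σ' 0) * jtSp (σ' 1)
      rw [h 0 (by norm_num), h 1 (by norm_num)])
  have e3 : (fun σ : ℕ → Bool => (fun s : ℕ → Bool => jtSp (s 0) * jtSp (s 1)) fun _ => σ 0) = fun _ => (1 : ℝ) := by
    funext σ
    show jtSp (σ 0) * jtSp (σ 0) = 1
    unfold jtSp
    split_ifs <;> norm_num
  rw [e1]
  refine (e2.symm.trans ?_)
  rw [e3]
  exact hL.const 1 _ 1

/-- **`b q²` is nondecreasing in the stage** (hypothesis of `L02SizeIncr`), on every admissible fine path -/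
theorem l9s_bq2 {a : ℝ} (ha : 0 < a) {P : LlStp} (hP : LlStpAdm a P) (t : ℕ) :
    skCumB (llMat P) t * llQs a P t ^ 2 ≤ skCumB (llMat P) (t + 1) * llQs a P (t + 1) ^ 2 := by
  have hb0 := l9s_cumB_nonneg hP.1 t
  have hb1 := l9s_cumB_mono hP.1 t
  have hq : llQs a P t ^ 2 ≤ llQs a P (t + 1) ^ 2 := by
    rcases Nat.lt_or_ge t P.length with h | h
    · rw [l9s_q_obS ha hP h.le, l9s_q_obS ha hP h]
      exact pow_le_pow_left₀ (fd_S_range one_pos ha _ hP.2 0 t).1 (fd_S_mono one_pos ha _ hP.2 0 (Nat.le_succ t)) 2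
    · rw [l9s_q_top ha hP (t := t + 1) (by omega)]
      rcases Nat.eq_or_lt_of_le h with h' | h'
      · rw [l9s_q_obS ha hP (by omega)]
        have h2 := fd_S_range one_pos ha _ hP.2 0 t
        nlinarith [h2.1, h2.2]
      · rw [l9s_q_top ha hP (by omega)]
  exact mul_le_mul hb1 hq (sq_nonneg _) (hb0.trans hb1)

/-! ### 17. the field defect of a smoothed size path is `O(x)` -/

theorem l9s_U_le {p : LlPt} {F : LlFix} (hE : LlExpOk F.sS F.eta F.pS) (hp : p.Ok F) (hsm : p.sm = true) :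
    0 ≤ p.U F ∧ p.U F ≤ 1 ∧ p.U F ^ 3 ≤ p.x ^ 2 := by
  have hx := llc_x_pos hp
  have hx1 := llc_x_le_one hp
  have hl : p.lam = p.x ^ F.pS := (hp.sm_fin hsm).1
  have hU0 : 0 ≤ p.U F := by
    unfold LlPt.U
    refine le_min zero_le_one (mul_nonneg hx.le (Real.rpow_nonneg ?_ _))
    rw [hl]
    exact Real.rpow_nonneg hx.le _
  have hU1 : p.U F ≤ 1 := min_le_left _ _
  have hU2 : p.U F ≤ p.x ^ (3 / 4 : ℝ) := by
    refine (min_le_right _ _).trans ?_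
    rw [hl, ← Real.rpow_mul hx.le]
    have e : p.x * p.x ^ (F.pS * -(F.sS / 2)) = p.x ^ (1 + F.pS * -(F.sS / 2)) := by
      rw [Real.rpow_add hx, Real.rpow_one]
    rw [e]
    refine Real.rpow_le_rpow_of_exponent_ge hx hx1 ?_
    have h1 := hE.p_lo
    have h2 := hE.p_hi
    have h3 := hE.s_hi
    have h4 := hE.s_lo
    nlinarith
  refine ⟨hU0, hU1, ?_⟩
  calc p.U F ^ 3 ≤ (p.x ^ (3 / 4 : ℝ)) ^ 3 := pow_le_pow_left₀ hU0 hU2 3
    _ = p.x ^ (9 / 4 : ℝ) := by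
        rw [← Real.rpow_natCast, ← Real.rpow_mul hx.le]
        norm_num
    _ ≤ p.x ^ (2 : ℝ) := Real.rpow_le_rpow_of_exponent_ge hx hx1 (by norm_num)
    _ = p.x ^ 2 := by rw [show (2 : ℝ) = ((2 : ℕ) : ℝ) by norm_num, Real.rpow_natCast]

theorem l9s_d_path {𝔹 : LlBase} {F : LlFix} (hE : LlExpOk F.sS F.eta F.pS) (hFok : F.Ok) (hAdm : LlAdm 𝔹 F) (hP4 : LlP4 𝔹 F) :
    ∃ (C : ℝ) (N0 : ℕ), 0 ≤ C ∧ ∀ p : LlPt, p.Ok F → N0 ≤ p.N → p.sm = true → ∀ v ∈ Icc 0 p.a, |p.d F 𝔹 v| ≤ C * p.x := by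
  obtain ⟨c, C, -, N1, hA⟩ := hAdm
  obtain ⟨c', C', v0, -, hv0, N2, hP⟩ := hP4
  obtain ⟨N3, hN3⟩ := l9s_small 1 (1 / v0) one_pos (by positivity)
  refine ⟨2 * |C'| + 4, N1 + N2 + N3, by positivity, fun p hp hN hsm v hv => ?_⟩
  have hx := llc_x_pos hp
  have hx1 := llc_x_le_one hp
  obtain ⟨hU0, hU1, hU3⟩ := l9s_U_le hE hp hsm
  have hl : p.lam = p.x ^ F.pS := (hp.sm_fin hsm).1
  have hl0 : 0 < p.lam := by rw [hl]; exact Real.rpow_pos_of_pos hx _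
  have hl1 : p.lam ≤ 1 := by rw [hl]; exact Real.rpow_le_one hx.le hx1 hE.p_lo.le
  have ha : p.a = 4 := by unfold LlPt.a; rw [if_pos hsm]
  have hxv0 : p.x ≤ v0 := by
    have h := hN3 p.N (by omega)
    rw [Real.rpow_one] at h
    have h' : (1 / v0) * p.x < 1 := h
    rw [div_mul_eq_mul_div, one_mul, div_lt_one hv0] at h'
    exact h'.le
  obtain ⟨-, -, hmS, -, -, hbd, -, -⟩ := hA p hp (by omega)
  unfold LlPt.d LlPt.h
  split_ifs with hvx
  · have hxI : p.x ∈ Icc 0 p.a := ⟨hx.le, by rw [ha]; linarith⟩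
    have h1 : p.hS F 𝔹 v ≤ p.hS F 𝔹 p.x := hmS hv hxI hvx.le
    have h2 := (hP p hp (by omega)).2 p.x ⟨hx, hxv0⟩
    have h3 : 0 ≤ p.hS F 𝔹 v := (hbd v hv).2.2.2.1
    have h4 : C' * p.lam * (p.x ^ 3 + p.x * p.U F ^ 2) ≤ |C'| * (2 * p.x) := by
      have e1 : p.x ^ 3 ≤ p.x := by nlinarith [mul_nonneg hx.le hx.le, mul_nonneg hx.le (sub_nonneg.2 hx1)]
      have e2 : p.x * p.U F ^ 2 ≤ p.x := by nlinarith [mul_nonneg hU0 hU0, mul_nonneg hU0 (sub_nonneg.2 hU1)]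
      have e3 : 0 ≤ p.x ^ 3 + p.x * p.U F ^ 2 := by positivity
      calc C' * p.lam * (p.x ^ 3 + p.x * p.U F ^ 2) ≤ |C'| * 1 * (p.x ^ 3 + p.x * p.U F ^ 2) := by
            refine mul_le_mul_of_nonneg_right ?_ e3
            calc C' * p.lam ≤ |C'| * p.lam := mul_le_mul_of_nonneg_right (le_abs_self _) hl0.le
              _ ≤ |C'| * 1 := mul_le_mul_of_nonneg_left hl1 (abs_nonneg _)
        _ ≤ |C'| * (2 * p.x) := by
            rw [mul_one]
            exact mul_le_mul_of_nonneg_left (by linarith) (abs_nonneg _)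
    rw [zero_sub, abs_neg, abs_of_nonneg h3]
    nlinarith
  · have hvx := not_lt.mp hvx
    have hce : p.chiE = 0 := (hp.sm_fin hsm).2
    have hell1 := hp.ell1
    have hell2 : p.ell ≤ 2 := hp.ell2.trans (by
      calc (2 : ℝ) ^ (1 / 6 : ℝ) ≤ (2 : ℝ) ^ (1 : ℝ) := Real.rpow_le_rpow_of_exponent_le (by norm_num) (by norm_num)
        _ = 2 := Real.rpow_one 2)
    have hmin : p.x ≤ min v p.ell := le_min hvx (hx1.trans hell1)
    have hmin2 : min v p.ell ≤ 2 := (min_le_right _ _).trans hell2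
    have hlo0 : 0 ≤ Real.log (min v p.ell / p.x) := Real.log_nonneg (by rw [le_div_iff₀ hx]; linarith)
    have hlo1 : Real.log (min v p.ell / p.x) ≤ 2 / p.x := by
      have hpos : 0 < min v p.ell / p.x := div_pos (lt_of_lt_of_le hx hmin) hx
      have := Real.log_le_sub_one_of_pos hpos
      have h2 : min v p.ell / p.x ≤ 2 / p.x := div_le_div_of_nonneg_right hmin2 hx.le
      linarith
    have hl1' : 0 ≤ p.lam1 F ∧ p.lam1 F ≤ 1 := by
      unfold LlPt.lam1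
      exact ⟨Real.rpow_nonneg hl0.le _, Real.rpow_le_one hl0.le hl1 (by have := hE.e_lo; linarith)⟩
    have hHlo : 0 ≤ p.Hlo F v ∧ p.Hlo F v ≤ 2 * p.x := by
      unfold LlPt.Hlo
      refine ⟨by have := hl1'.1; positivity, ?_⟩
      have hU3' : 0 ≤ p.U F ^ 3 := by positivity
      calc p.lam1 F * p.U F ^ 3 * Real.log (min v p.ell / p.x) ≤ 1 * p.x ^ 2 * (2 / p.x) :=
            mul_le_mul (mul_le_mul hl1'.2 hU3 hU3' zero_le_one) hlo1 hlo0 (by positivity)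
        _ = 2 * p.x := by field_simp
    have hHlin : 0 ≤ p.Hlin F v ∧ p.Hlin F v ≤ 2 * p.x := by
      unfold LlPt.Hlin
      refine ⟨by positivity, ?_⟩
      have h1 : max 0 (min v p.ell - 4 * F.vb) ≤ 2 := max_le (by norm_num) (by have := hFok.vb0; linarith)
      have e1 : p.x ^ 3 ≤ p.x := by nlinarith [mul_nonneg hx.le hx.le, mul_nonneg hx.le (sub_nonneg.2 hx1)]
      calc p.x ^ 3 * max 0 (min v p.ell - 4 * F.vb) ≤ p.x * 2 := mul_le_mul e1 h1 (le_max_left _ _) hx.le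
        _ = 2 * p.x := by ring
    have hcl := hp.chiL
    have e : p.hS F 𝔹 v + p.Hlo F v + p.chiL * p.Hlin F v + p.chiE * p.He F 𝔹 v - p.hS F 𝔹 v = p.Hlo F v + p.chiL * p.Hlin F v := by
      rw [hce]; ring
    rw [e]
    have h5 : 0 ≤ p.chiL * p.Hlin F v := mul_nonneg hcl.1 hHlin.1
    have h6 : p.chiL * p.Hlin F v ≤ 2 * p.x := by nlinarith [hcl.2, hHlin.1, hHlin.2]
    rw [abs_of_nonneg (by linarith [hHlo.1])]
    have := abs_nonneg C'
    nlinarith [hHlo.2]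

/-! ### 18. `L9SizOk` -/

/-- the structural facts at ONE fine instance on the smoothed size path -/
theorem l9s_sizok_inst {I : L8In} {C Cd η δ : ℝ} (hOk : I.Ok) (hη : η ≤ I.x) (hF : I.Fine η)
    (hmb : MonotoneOn (I.p.b I.F I.𝔹) (Icc 0 I.p.a)) (hmh : MonotoneOn (I.p.h I.F I.𝔹) (Icc 0 I.p.a))
    (hbd : ∀ v ∈ Icc 0 I.p.a, 0 ≤ I.p.b I.F I.𝔹 v ∧ I.p.b I.F I.𝔹 v ≤ C ∧ 0 ≤ I.p.h I.F I.𝔹 v)
    (hd : ∀ v ∈ Icc 0 I.p.a, |I.p.d I.F I.𝔹 v| ≤ Cd * I.x) (hCd : 0 ≤ Cd) (hδ : δ ≤ 1) :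
    LlStpAdm I.a I.LP ∧ LlTiltOk I.LP (some I.js) ∧ LlBd (C + Cd + 1) I.LP ∧
      (∀ t, I.bC t * I.q t ^ 2 ≤ I.bC (t + 1) * I.q (t + 1) ^ 2) ∧ ∀ t ≤ I.n, |I.d t| ≤ (C + Cd + 1) * I.x ^ δ := by
  have hstd := l8d_std hOk hF
  have ha : 0 < I.p.a := hstd.a_pos
  have hx : 0 < I.x := llc_x_pos hOk.pt
  have hx1 : I.x ≤ 1 := llc_x_le_one hOk.pt
  have h0I : (0 : ℝ) ∈ Icc 0 I.p.a := ⟨le_rfl, ha.le⟩
  have haI : I.p.a ∈ Icc 0 I.p.a := ⟨ha.le, le_rfl⟩
  have hC : 0 ≤ C := (hbd 0 h0I).1.trans (hbd 0 h0I).2.1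
  have hcb : GhClk1 I.p.a (I.p.b I.F I.𝔹) := ⟨hmb, (hbd 0 h0I).1⟩
  have hch : GhClk1 I.p.a (I.p.h I.F I.𝔹) := ⟨hmh, (hbd 0 h0I).2.2⟩
  have hlen : I.n = (I.i9.ps I.p).length := l9s_stp_length _ _ _ _ _ _ _ _
  have hpsOk : ∀ k (hk : k < (I.i9.ps I.p).length), ((I.i9.ps I.p)[k]).Ok I.p.a := fun k hk => by
    have hm : (I.i9.ps I.p)[k] ∈ I.i9.ps I.p := List.getElem_mem hk
    unfold L9I.ps at hm
    exact (gh_os_ps_mem.1 hm).2
  have hms := (l8d_law hstd false).isMs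
  -- masses
  have hv : ∀ t ≤ I.n, I.v t ∈ Icc 0 I.p.a := fun t ht => by
    have e : I.v t = llMs I.a I.LP t := l9s_ms_eq _ _ _
    rw [e]
    refine ⟨hms.nonneg t, ?_⟩
    have := hms.mono t I.n ht le_rfl
    have e2 : llMs I.a I.LP I.n = I.a := l9s_ms_top _ _
    rw [e2] at this
    exact this
  -- the defect
  have hdx : ∀ t ≤ I.n, |I.d t| ≤ (Cd + 1) * I.x := fun t ht => by
    obtain ⟨v', hv', h1⟩ := hF.d_bd t ht
    have h2 := hd _ hv'
    linarith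
  -- the matrix clock
  have hb : ∀ t ≤ I.n, I.bC t ≤ C := fun t ht => by
    rcases Nat.eq_zero_or_pos t with rfl | h0
    · simpa [L8In.bC, skCumB] using hC
    · obtain ⟨k, rfl⟩ : ∃ k, t = k + 1 := ⟨t - 1, by omega⟩
      have hk : k < (I.i9.ps I.p).length := by omega
      have e := (l8f_cum I.p.a (I.p.b I.F I.𝔹) (I.p.h I.F I.𝔹) (I.p.K I.F I.𝔹) (I.i9.ps I.p) k hk).1
      have e' : I.bC (k + 1) = ghAt I.p.a (I.p.b I.F I.𝔹) (I.i9.ps I.p)[k] := e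
      rw [e']
      refine (gh_os_at_le_top ha.le hcb (hpsOk k hk)).trans ?_
      rw [gh_os_at_top _ _ ha.le]
      exact (hbd _ haI).2.1
  have hb0 : ∀ t, 0 ≤ I.bC t := fun t => l9s_cumB_nonneg hF.adm.1 t
  have hq : ∀ t ≤ I.n, |I.q t| ≤ 1 := fun t ht => by
    have e : I.q t = obS 1 I.a (llSc I.LP) 0 t := l9s_q_obS hstd.a_pos hF.adm ht
    have h2 := fd_S_range one_pos hstd.a_pos _ hF.adm.2 0 t
    rw [e, abs_of_nonneg h2.1]
    exact h2.2
  refine ⟨hF.adm, ⟨hF.js_lt, ?_⟩, fun t => ?_, fun t => l9s_bq2 hstd.a_pos hF.adm t, fun t ht => ?_⟩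
  · -- no field is revealed up to the tilt stage
    have hk : I.js < (I.i9.ps I.p).length := by have := hF.js_lt; omega
    have e := (l8f_cum I.p.a (I.p.b I.F I.𝔹) (I.p.h I.F I.𝔹) (I.p.K I.F I.𝔹) (I.i9.ps I.p) I.js hk).2.1
    have eu : ((I.i9.ps I.p)[I.js]).u = I.s := by
      rw [← l8f_ms_lt I.p.a (I.p.b I.F I.𝔹) (I.p.h I.F I.𝔹) (I.p.K I.F I.𝔹) (I.i9.ps I.p) I.js hk]
      exact hF.js_m
    refine Eq.trans e (le_antisymm ?_ (gh_os_at_nonneg ha.le hch (hpsOk _ hk).2.2.1))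
    refine (gh_os_at_le_right ha.le hch (hpsOk _ hk).2.2.2).trans ?_
    rw [eu]
    have hy1 : I.s < (I.s + I.x) / 2 := by have := hOk.s_lt; linarith
    have hy2 : (I.s + I.x) / 2 < I.x := by have := hOk.s_lt; linarith
    refine ((gh_os_clamp_mono ha.le hch).rightLim_le hy1).trans (le_of_eq ?_)
    have hy0 : ¬ (I.s + I.x) / 2 < 0 := by have := hOk.s_pos; have := hx; linarith
    unfold ghClamp
    rw [if_neg hy0]
    unfold LlPt.h
    exact if_pos (lt_of_le_of_lt (min_le_left _ _) hy2)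
  · -- `b ≤ M0`, `|h - K| ≤ M0`
    have hl : (llMat I.LP).length = I.n := by simp [llMat, L8In.n]
    have hmin : min t I.n ≤ I.n := min_le_right _ _
    have e1 : skCumB (llMat I.LP) t = I.bC (min t I.n) := by rw [l9s_cumB_min, hl]; rfl
    have e2 : skCumH (llMat I.LP) t = I.hC (min t I.n) := by rw [l9s_cumH_min, hl]; rfl
    have e3 : llCumK I.LP t = I.KC (min t I.n) := by rw [l9s_cumK_min]; rfl
    rw [e1, e2, e3]
    have hb1 := hb _ hmin
    refine ⟨by linarith, ?_⟩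
    have e4 : I.hC (min t I.n) - I.KC (min t I.n) = I.d (min t I.n) - I.bC (min t I.n) * I.q (min t I.n) := by
      unfold L8In.d
      ring
    rw [e4]
    refine (abs_sub _ _).trans ?_
    rw [abs_mul, abs_of_nonneg (hb0 _)]
    have h1 := hdx _ hmin
    have h2 : I.bC (min t I.n) * |I.q (min t I.n)| ≤ C * 1 := mul_le_mul hb1 (hq _ hmin) (abs_nonneg _) hC
    have h3 : (Cd + 1) * I.x ≤ (Cd + 1) * 1 := mul_le_mul_of_nonneg_left hx1 (by linarith)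
    linarith
  · have h1 : I.x ≤ I.x ^ δ := by
      have := Real.rpow_le_rpow_of_exponent_ge hx hx1 hδ
      rwa [Real.rpow_one] at this
    calc |I.d t| ≤ (Cd + 1) * I.x := hdx t ht
      _ ≤ (C + Cd + 1) * I.x := mul_le_mul_of_nonneg_right (by linarith) hx.le
      _ ≤ (C + Cd + 1) * I.x ^ δ := mul_le_mul_of_nonneg_left h1 (by linarith)

/-- **`L9SizOk` from the exits**: fine chains (`l8g_fine`) + LL Sec. 3 -/
theorem l9s_sizok {𝔹 : LlBase} {T : ℝ} (hf : L8gFine 𝔹 T) {F0 : LlFix} (hF : L8Fix 𝔹 T F0) (pB : LLParB) {pS : ℝ} (h0 : 0 < pS)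
    (h1 : pS ≤ 1) {δ : ℝ} (hδ : δ ≤ 1) : L9SizOk 𝔹 δ (F0.wExp pB.sStar pB.eta pS) := by
  have hE := llc_expOk pB h0 h1
  have h3 := (hF.2.2 pB.sStar pB.eta pS hE).sec3
  obtain ⟨Cd, N1, hCd, hd⟩ := l9s_d_path (F := F0.wExp pB.sStar pB.eta pS) hE h3.ok h3.adm h3.p4
  obtain ⟨c, C, hc, N2, hA⟩ := h3.adm
  obtain ⟨N0, hev⟩ := L8Ev.of_fine hf hF pB h0 h1 1 (N1 + N2) (R := l8Siz)
    (Φ := fun I => LlStpAdm I.a I.LP ∧ LlTiltOk I.LP (some I.js) ∧ LlBd (C + Cd + 1) I.LP ∧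
      (∀ t, I.bC t * I.q t ^ 2 ≤ I.bC (t + 1) * I.q (t + 1) ^ 2) ∧ ∀ t ≤ I.n, |I.d t| ≤ (C + Cd + 1) * I.x ^ δ)
    (fun I hIF hIB hN hR hOk hFine => by
      obtain ⟨F', 𝔹', p, m, s, Fs⟩ := I
      simp only at hIF hIB hN hR
      subst hIF hIB
      obtain ⟨hmb, hmh, -, -, -, hbd, -, -⟩ := hA p hOk.pt (by omega)
      refine l9s_sizok_inst hOk (le_of_eq (Real.rpow_one _)) hFine hmb hmh
        (fun v hv => ⟨hc.le.trans (hbd v hv).1, (hbd v hv).2.1, (hbd v hv).2.2.1⟩)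
        (fun v hv => hd p hOk.pt (by omega) hR.1 v hv) hCd hδ)
  exact ⟨C + Cd + 1, N0, hev⟩

/-- **NODE TRS from the exits**, (D11) in the vocabulary of the trees still as a hypothesis (220: `L08/DSup.lean`) -/
theorem l9s_trs_of_d11 {𝔹 : LlBase} {T : ℝ} (hA9 : L02RowDeriv llJs llMv) (hSz : L02SizeIncr llJs llMv) (hSc : L02ScDiff)
    (hf : L8gFine 𝔹 T) {F0 : LlFix} (hF : L8Fix 𝔹 T F0) (pB : LLParB) {pS : ℝ} (h0 : 0 < pS) (h1 : pS ≤ 1) {δ : ℝ} (hδ0 : 0 < δ)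
    (hδ : δ ≤ 1) (J0 : ℕ) (hJ : 6 ≤ (J0 : ℝ) * δ) (hD : L9D11 𝔹 δ (F0.wExp pB.sStar pB.eta pS)) :
    L9TRSo 𝔹 J0 (F0.wExp pB.sStar pB.eta pS) :=
  l9s_trs 𝔹 _ (by show pS ≤ 12; linarith) J0 δ hδ0 hJ hA9 hSz hSc (l9s_sizok hf hF pB h0 h1 hδ) hD

/-- **NODE TRS FROM THE EXITS ALONE**: (A9) `exit_a9`, size increments `exit_size` (LL02), (D11) `exit_d11`, fine chains `l8g_fine` (LL08), the P-list (`L8Fix`), a legal stage B.
`δ_* = llDStar = 1/10000`: every size Taylor degree `J0 ≥ 60000` works, for all `p_* ≤ p0`. -/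
theorem l9s_trs_top {𝔹 : LlBase} {T : ℝ} (hA9 : L02RowDeriv llJs llMv) (hSz : L02SizeIncr llJs llMv) (hD : L8xD11 𝔹 T) (hf : L8gFine 𝔹 T)
    {F0 : LlFix} (hF : L8Fix 𝔹 T F0) (pB : LLParB) (hSt : LlcStB 𝔹 F0 pB) :
    ∃ p0 : ℝ, 0 < p0 ∧ ∀ pS, 0 < pS → pS ≤ p0 → ∀ J0 : ℕ, 60000 ≤ J0 → L9TRSo 𝔹 J0 (F0.wExp pB.sStar pB.eta pS) := by
  obtain ⟨p0, hp0, h⟩ := l8q_d11 hD hf hF pB hSt
  refine ⟨min p0 1, lt_min hp0 one_pos, fun pS h0 h1 J0 hJ => ?_⟩
  refine l9s_trs_of_d11 hA9 hSz l9s_scdiff hf hF pB h0 (h1.trans (min_le_right _ _)) (δ := llDStar) (by unfold llDStar; norm_num)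
    (by unfold llDStar; norm_num) J0 ?_ (h pS h0 (h1.trans (min_le_left _ _)))
  have hJ' : (60000 : ℝ) ≤ J0 := by exact_mod_cast hJ
  unfold llDStar
  linarith

/-- **NODE TRS IN THE FORM `LLGood`** (the form read by `L09/Nodes.lean`): the size Taylor degree `par.kPr ≥ 70000` (field `kPr_ge`), `p_*` small after a legal stage B. -/
theorem l9s_trs_good {𝔹 : LlBase} {T : ℝ} (hA9 : L02RowDeriv llJs llMv) (hSz : L02SizeIncr llJs llMv) (hG : LlcG1Exit 𝔹 T) (hD : L8xD11 𝔹 T)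
    (hf : L8gFine 𝔹 T) {F0 : LlFix} (h0 : L8Fix 𝔹 T F0) : LLGood fun par => L9TRSo 𝔹 par.kPr (l9qF F0 par) := by
  refine l9q_of_stB hG h0 fun pB hSt => ?_
  obtain ⟨p0, hp0, H⟩ := l9s_trs_top hA9 hSz hD hf h0 pB hSt
  refine l9q_FilB_intro fun pC e => ?_
  filter_upwards [l9q_FilC_to pC, l9q_FilC_of (l9q_FD_pStar pC hp0)] with par e1 hp
  have hk : 60000 ≤ par.kPr := by
    have h1 := par.kPr_ge
    unfold llDStar at h1
    have h2 : (60000 : ℝ) ≤ (par.kPr : ℝ) := by linarith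
    exact_mod_cast h2
  have h := H par.pStar par.pStar_pos hp par.kPr hk
  subst e
  subst e1
  exact h

/-! ### 19. differentiability of the coefficients of (E1) in the path parameter      (supply `Q.InDif` of the producer of (E4): `L09/E4S.lean`, `L09/E4D.lean`) -/

/-- all the scalar coefficients of the chain are differentiable at a point of differentiability of the clock values which has an admissible neighbourhood -/
theorem l9s_dif_all (I : L9I) (pf : ℝ → LlPt) (t : ℝ) (ha : ∀ t', (pf t').a = (pf t).a) (ha1 : 1 ≤ (pf t).a) (ha4 : (pf t).a ≤ 4)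
    (hadm : ∀ᶠ t' in nhds t, LlStpAdm (pf t').a (I.P (pf t'))) (hDif : I.Dif pf t) :
    (∀ v, DifferentiableAt ℝ (fun t' => (I.X0 (pf t')).qC v) t) ∧ (∀ v, DifferentiableAt ℝ (fun t' => (I.X0 (pf t')).dC v) t) ∧
    ∀ (n : ℕ) (R : Finset ℕ) (τ : JtTopo), IsTr (I.P (pf t)).length (2 * n) τ →
      DifferentiableAt ℝ (fun t' => (I.X0 (pf t')).Kap (2 * n) 0 τ (Finset.range n)
        * ∏ i ∈ R, (I.X0 (pf t')).bC (τ (2 * i) (2 * i + 1))) t := by
  have ha0 : 0 < (pf t).a := by linarith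
  set U : Set ℝ := {t' | LlStpAdm (pf t').a (I.P (pf t'))} with hUd
  have hU : U ∈ nhds t := hadm
  have htU : t ∈ U := mem_of_mem_nhds hU
  have hadm' : ∀ ϑ ∈ U, LlStpAdm (pf t).a (I.P (pf ϑ)) := fun ϑ h => by
    have h' : LlStpAdm (pf ϑ).a (I.P (pf ϑ)) := h
    rwa [ha ϑ] at h'
  have hFam := l9s_fam (P := fun t => I.P (pf t)) htU hadm' (l9s_mass I pf t ha) (fun j => (hDif j).1) (fun j => (hDif j).2.1)
    (fun j => (hDif j).2.2)
  have hK := l9s_difK l9s_scdiff I pf t ha ha1 ha4 hU hFam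
  have hlen := l9s_len I pf t ha
  have hq : ∀ j, DifferentiableAt ℝ (fun t' => (I.X0 (pf t')).qC j) t := by
    intro j
    rcases Nat.lt_or_ge j ((I.P (pf t)).length + 1) with hj | hj
    · have e1 : (fun t' => (I.X0 (pf t')).qC j)
          = fun t' => (I.X0 (pf t')).nuK 2 (trPair (I.P (pf t)).length j) fun s => jtSp (s 0) * jtSp (s 1) := by
        funext t'
        have e2 : (I.X0 (pf t')).qC j = llQs (pf t').a (I.P (pf t')) j := rfl
        have e3 : (I.X0 (pf t')).nuK 2 (trPair (I.P (pf t)).length j) (fun s => jtSp (s 0) * jtSp (s 1))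
            = llNuS (pf t').a (I.P (pf t')) 2 (trPair (I.P (pf t)).length j) (fun s => jtSp (s 0) * jtSp (s 1)) := rfl
        rw [e2, e3]
        unfold llQs
        rw [hlen t']
      rw [e1]
      exact hK 2 _ _ (l9s_isTr_pair _ j hj.le)
    · have e : (fun t' => (I.X0 (pf t')).qC j) =ᶠ[nhds t] fun _ => (1 : ℝ) := by
        filter_upwards [hadm] with t' h
        show llQs (pf t').a (I.P (pf t')) j = 1
        exact l9s_q_top (by rw [ha t']; exact ha0) h (by rw [hlen t']; exact hj)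
      exact (differentiableAt_const (1 : ℝ)).congr_of_eventuallyEq e
  refine ⟨hq, fun v => ?_, fun n R τ hτ => ?_⟩
  · unfold JtCtx.dC
    exact (((hDif v).2.1).sub (hDif v).2.2).add ((hDif v).1.mul (hq v))
  · refine DifferentiableAt.mul ?_ (DifferentiableAt.fun_finsetProd fun i _ => (hDif _).1)
    have hK' : ∀ Q, DifferentiableAt ℝ (fun t' => (I.X0 (pf t')).nuK (2 * n) τ Q) t := fun Q => hK _ τ Q hτ
    unfold JtCtx.Kap
    exact l9e_log_diff (fun t' => (I.X0 (pf t')).Psi (2 * n) 0 τ) t (fun B => hK' _) _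

/-- the coefficients of (E1) at the point `Q` are differentiable in the path parameter      (`Q.InDif` of `L09/E4S.lean` = this on the tables `l9aTab Q.N (2 n)`) -/
def L9Q.DifAll (Q : L9Q) : Prop :=
  (∀ v, DifferentiableAt ℝ (fun t' => (Q.I.X0 (Q.pf t')).dC v) Q.t) ∧
    ∀ (n : ℕ) (R : Finset ℕ) (τ : JtTopo), IsTr Q.N (2 * n) τ →
      DifferentiableAt ℝ (fun t' => (Q.I.X0 (Q.pf t')).Kap (2 * n) 0 τ (Finset.range n)
        * ∏ i ∈ R, (Q.I.X0 (Q.pf t')).bC (τ (2 * i) (2 * i + 1))) Q.t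

theorem l9s_difall_eqns_cite : True := by
  have := @L9Q.DifAll.eq_1
  trivial

/-- **SUPPLY DIF, size segment** (every chain; the OPEN range of Contract v5 gives the admissible neighbourhood) -/
theorem l9s_dif_S (𝔹 : LlBase) (F : LlFix) (hp : F.pS ≤ 12) (hB : LlBaseProfile 𝔹 F.T) (h3 : LlSec3 𝔹 F) :
    L9SbS 𝔹 F fun _ Q => Q.DifAll := by
  obtain ⟨M0, N1, -, hc⟩ := l8cl_caller F 𝔹 hB h3
  intro δ _ ε hε q hq
  obtain ⟨N4, hN4⟩ := l9s_small ε q hε hq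
  refine ⟨0, N1 + N4 + 2, fun N hN => Filter.Eventually.of_forall fun Fs m γ θ hy => ?_⟩
  obtain ⟨hm1, hm2, hθ, hD, -⟩ := hy
  have hx := l9t_skX_pos (N := N) (by omega)
  have hs0 : 0 < q * skX N ^ (1 + ε) := by positivity
  have hs1 : q * skX N ^ (1 + ε) < skX N := by
    rw [Real.rpow_add hx, Real.rpow_one]
    have := hN4 N (by omega)
    nlinarith
  refine (l9s_dif_all _ (l9PtS F N γ) θ (fun _ => rfl) ?_ ?_ ?_ hD).2
  · show (1 : ℝ) ≤ 4
    norm_num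
  · show (4 : ℝ) ≤ 4
    exact le_rfl
  · filter_upwards [isOpen_Ioo.mem_nhds hθ] with t' ht'
    have hOk := l9s_in_ok 𝔹 F hp (N := N) (by omega) hm1 hm2 hs0 hs1 Fs γ (Ioo_subset_Icc_self ht')
    exact (hc _ rfl rfl hOk (show N1 ≤ N by omega)).2.2.2.1

/-- **SUPPLY DIF, strength sweep** -/
theorem l9s_dif_D (𝔹 : LlBase) (Mj : L9Mj) (κ : ℝ) (F : LlFix) (hB : LlBaseProfile 𝔹 F.T) (h3 : LlSec3 𝔹 F) :
    L9SbD 𝔹 Mj κ F fun _ Q => Q.DifAll := by
  obtain ⟨M0, N1, -, hc⟩ := l8cl_caller F 𝔹 hB h3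
  intro δ _ ε hε q hq
  obtain ⟨N4, hN4⟩ := l9s_small ε q hε hq
  refine ⟨0, N1 + N4 + 2, fun N hN => Filter.Eventually.of_forall fun Fs m ell γ t hy => ?_⟩
  obtain ⟨hm1, hm2, hell, ht, hD, -, -⟩ := hy
  have hx := l9t_skX_pos (N := N) (by omega)
  have hs0 : 0 < q * skX N ^ (1 + ε) := by positivity
  have hs1 : q * skX N ^ (1 + ε) < skX N := by
    rw [Real.rpow_add hx, Real.rpow_one]
    have := hN4 N (by omega)
    nlinarith
  have hOk : ∀ t' ∈ l9LamRg F N, (L8In.mk F 𝔹 (l9PtL N ell γ t') m (q * skX N ^ (1 + ε)) Fs).Ok := fun t' ht' =>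
    ⟨l8q_ptL_ok F (by omega) hell γ ht', hm1, hm2, hs0, hs1⟩
  have h0 := hc _ rfl rfl (hOk t ht) (show N1 ≤ N by omega)
  refine (l9s_dif_all _ (l9PtL N ell γ) t (fun _ => rfl) h0.1 h0.2.1 ?_ hD).2
  filter_upwards [isOpen_Ioo.mem_nhds (show t ∈ Ioo _ _ from ht)] with t' ht'
  exact (hc _ rfl rfl (hOk t' ht') (show N1 ≤ N by omega)).2.2.2.1

/-- `Q.InDif` (record of 11, `L09/E4S.lean`) -/
theorem L9Q.DifAll.inDif {Q : L9Q} (h : Q.DifAll) : Q.InDif :=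
  ⟨h.1, fun n R τ hτ => h.2 n R τ (l9a_mem_tab.1 hτ).1⟩

/-- **`hDf` of `l9es_shell` / `l9es_exit`** (11) -/
theorem l9s_indif_S (𝔹 : LlBase) (F : LlFix) (hp : F.pS ≤ 12) (hB : LlBaseProfile 𝔹 F.T) (h3 : LlSec3 𝔹 F) :
    L9SbS 𝔹 F fun _ Q => Q.InDif := by
  intro δ hδ ε hε q hq
  obtain ⟨C, N0, H⟩ := l9s_dif_S 𝔹 F hp hB h3 δ hδ ε hε q hq
  exact ⟨C, N0, fun N hN => (H N hN).mono fun _ a m γ θ hy => (a m γ θ hy).inDif⟩

/-- **`hDf` of `l9ed_pts` / `l9ed_shell`** (166, 242) -/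
theorem l9s_indif_D (𝔹 : LlBase) (Mj : L9Mj) (κ : ℝ) (F : LlFix) (hB : LlBaseProfile 𝔹 F.T) (h3 : LlSec3 𝔹 F) :
    L9SbD 𝔹 Mj κ F fun _ Q => Q.InDif := by
  intro δ hδ ε hε q hq
  obtain ⟨C, N0, H⟩ := l9s_dif_D 𝔹 Mj κ F hB h3 δ hδ ε hε q hq
  exact ⟨C, N0, fun N hN => (H N hN).mono fun _ a m ell γ t hy => (a m ell γ t hy).inDif⟩

end Claimed.Agent.R286
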