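import Claimed.Agent.R286.L09.E4D
import Claimed.Agent.R286.L09.GridP
import Claimed.Agent.R286.L09.GridKI
import Claimed.Agent.R286.L09.GridBD
import Claimed.Agent.R286.L09.PhysTD
import Claimed.Agent.R286.L09.TrsQ
import Claimed.Agent.R286.L09.PhysCl
import Claimed.Agent.R286.L09.GridE6S
import Claimed.Agent.R286.L09.E4B
import Claimed.Agent.R286.L09.PhysP

/-!
# Row 286 (S0533), unit L09, PRODUCER OF (E4): (M°) FROM THE PHYSICAL LAYER OF (M)      (owner helper276; prefix `l9em`)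

ADAPTERS from the EXIT SHAPES of helper263 (`L9gPhS`, `L9gPhD`, `L09/GridP`: `Q.MIn h (|h| x^K0) Kb c0` at every depth `c0` of incoming mass `≤ v1`) to the group `Q.InM` of helper11 (`L09/E4S`) = field `m` of `L9uLk` (helper242).      0 sorry.
* §1 `l9em_qs_top`      the reference overlap `llQs a P k` does not see the levels `k > N + 1`.
* §2 `l9em_dif`         pointwise `Q.MIn .. → Q.I.Dif Q.pf Q.t → Q.InDif` (ALL levels `v`, all tables; the shape producer of `InDif` is helper65).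
* §3 `l9em_m`           (M°) at one point: `|∑_{τ ↦ sk} (Ht°_{t+h} - Ht°_t - h Hd°)| ≤ C Kb⁴ ε / m_c Vol`  (`l9g_M_y` + `l9g_M_sq` of 263, square term included);      `l9em_InM`: `Q.InM Cs cmax κ hh` if `C Kb⁴ ε ≤ |hh| κ U`.
* §4 **`l9em_MS`**      `L9gPhS 𝔹 F v1 ⟹ L9esSo 𝔹 F fun κ Q hh => Q.InM Cs (Cl λ) κ hh`   (`K0 := Kη + 2`; the loss `C Kb⁴ / m_c ≤ C Kb⁴ / x` is absorbed by `N0`).
-/

set_option autoImplicit false

namespace Claimed.Agent.R286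

open scoped BigOperators Nat
open Filter Set

/-! ## 1. levels above the top -/

/-- the reference overlap does not see the levels above the coincidence level -/
theorem l9em_qs_top (a : ℝ) (P : LlStp) {k : ℕ} (hk : P.length + 1 ≤ k) : llQs a P k = llQs a P (P.length + 1) := by
  unfold llQs llNuS trNu
  refine tr_b1_rep_congr_nu _ _ _ _ (fun t ht => ?_) _ _
  have hlen : (skLvs 1 (llSc P)).length = P.length := by simp [skLvs, llSc]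
  rw [hlen] at ht
  refine tr_e_rep_congr fun x y => ?_
  unfold trPair
  split_ifs
  · exact Iff.rfl
  · constructor <;> intro _ <;> omega

/-! ## 2. DIF -/

section pt

variable {Q : L9Q} {h ε Kb : ℝ} {c0 : ℕ}

theorem l9em_Yf (H : Q.MIn h ε Kb c0) (t' : ℝ) : l9uYf Q t' = llJs Q.I.m Q.p.a (Q.Pf t') none := by
  show llJs Q.I.m (Q.pf t').a (Q.I.P (Q.pf t')) none = _
  rw [H.a_eq t']
  rfl

/-- the reference overlaps are differentiable, all levels -/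
theorem l9em_dif_q (H : Q.MIn h ε Kb c0) (v : ℕ) : DifferentiableAt ℝ (fun t' => (l9uYf Q t').qC v) Q.t := by
  obtain ⟨δ, hIn, -⟩ := H.ex
  obtain ⟨K, -, hq⟩ := l9g_qC Q.p.a
  have key : ∀ k, k ≤ (Q.Pf Q.t).length + 1 → DifferentiableAt ℝ (fun t' => (l9uYf Q t').qC k) Q.t := by
    intro k hk
    obtain ⟨X, hX, -⟩ := hq Q.I.m none Q.p.a Q.Pf Q.t h δ ε c0 le_rfl hIn k hk
    have e : (fun t' => (l9uYf Q t').qC k) = fun t' => (llJs Q.I.m Q.p.a (Q.Pf t') none).qC k := by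
      funext t'
      rw [l9em_Yf H]
    rw [e]
    exact hX.2.2.differentiableAt
  rcases Nat.lt_or_ge v ((Q.Pf Q.t).length + 1) with hv | hv
  · exact key v hv.le
  · have e : (fun t' => (l9uYf Q t').qC v) = fun t' => (l9uYf Q t').qC ((Q.Pf Q.t).length + 1) := by
      funext t'
      rw [l9em_Yf H]
      show llQs Q.p.a (Q.Pf t') v = llQs Q.p.a (Q.Pf t') ((Q.Pf Q.t).length + 1)
      rw [← hIn.len t']
      exact l9em_qs_top _ _ (by rw [hIn.len t']; exact hv)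
    rw [e]
    exact key _ le_rfl

/-- **DIF** -/
theorem l9em_dif (H : Q.MIn h ε Kb c0) (hD : Q.I.Dif Q.pf Q.t) : Q.InDif := by
  obtain ⟨δ, hIn, -⟩ := H.ex
  refine ⟨fun v => ?_, fun n R τ hτ => ?_⟩
  · have e : (fun t' => (l9uYf Q t').dC v) = fun t' => (l9uYf Q t').hC v - (l9uYf Q t').KC v + (l9uYf Q t').bC v * (l9uYf Q t').qC v := rfl
    rw [e]
    exact ((hD v).2.1.sub (hD v).2.2).add ((hD v).1.mul (l9em_dif_q H v))
  · have hK : DifferentiableAt ℝ (fun t' => (l9uYf Q t').Kap (2 * n) 0 τ (Finset.range n)) Q.t := by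
      rcases Nat.eq_zero_or_pos n with rfl | hn
      · have e : (fun t' => (l9uYf Q t').Kap (2 * 0) 0 τ (Finset.range 0)) = fun _ => 0 := by
          funext t'
          simp [JtCtx.Kap, jtLog]
        rw [e]
        exact differentiableAt_const _
      · have h1 := l9gY_differentiableAt hIn Q.I.m none (gl := fun _ _ _ => (1 : ℝ)) (fun _ _ _ => differentiableAt_const _)
          (Finset.empty_subset (Finset.range n)) hn (l9a_mem_tab.1 hτ).1 (fun i hi => absurd hi (Finset.notMem_empty i))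
        have e : (fun t' => (l9uYf Q t').Kap (2 * n) 0 τ (Finset.range n)) = l9gY Q.I.m none Q.p.a Q.Pf (fun _ _ _ => (1 : ℝ)) n ∅ τ := by
          funext t'
          unfold l9gY
          rw [l9em_Yf H, Finset.prod_empty, mul_one]
        rw [e]
        exact h1
    unfold l9uy
    refine hK.mul ?_
    exact (l9u_prod_deriv R (fun i t' => (l9uYf Q t').bC (τ (2 * i) (2 * i + 1))) Q.t (fun i _ => (hD _).1)).1

end pt

/-! ## 3. (M°) at one point -/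

theorem l9em_y_eq (Q : L9Q) (n : ℕ) (R : Finset ℕ) (τ : JtTopo) : (fun t' => l9uy (l9uYf Q t') n R τ) = Q.yR n R τ := by
  funext t'
  unfold l9uy L9Q.yR l9uYf
  simp only [jtC, jtD, zero_add]

theorem L9Q.MIn.isMs {Q : L9Q} {h ε Kb : ℝ} {c0 : ℕ} (H : Q.MIn h ε Kb c0) : IsMs Q.N Q.ms := by
  obtain ⟨δ, hI, -⟩ := H.ex
  have hadm0 := hI.adm.self_of_nhds
  obtain ⟨hMa, -⟩ := l9p_adm hI.a_pos hadm0
  obtain ⟨hms, -⟩ := l9p_isMs hMa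
  rw [l9p_M_len, l9p_ms_eq] at hms
  exact hms

open Classical in
/-- **(M°) at one point**: the field `m` of `L9uLk` with `η = C Kb⁴ ε / (|h| m_c)` -/
theorem l9em_m : ∃ C : ℝ, 0 ≤ C ∧ ∀ (Q : L9Q) (h ε Kb : ℝ) (c0 : ℕ), 1 ≤ Q.p.a → Q.p.a ≤ 4 → 1 ≤ Kb → Q.MIn h ε Kb c0 →
    ∀ n, 1 ≤ n → n ≤ 4 → ∀ R : Finset ℕ, R ⊆ Finset.range n → ∀ c : ℕ, c ≤ c0 → c ≤ Q.N + 1 → 0 < trPm Q.ms c →
    ∀ sk : JtTopo, (∀ i, i < n → sk (2 * i) (2 * i + 1) < c) →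
      |∑ τ ∈ (l9aTab Q.N (2 * n)).filter (fun τ => l9rTc (2 * n) c τ = sk),
          (l9uHt Q.ms Q.N (l9uYf Q (Q.t + h)) n R τ - l9uHt Q.ms Q.N (l9uYf Q Q.t) n R τ - h * l9uHd Q.ms Q.N (l9uYf Q) Q.t n R τ)|
        ≤ C * Kb ^ 4 * ε / trPm Q.ms c * l9rVol Q.ms (2 * n) c sk := by
  have hy := fun n => l9g_M_y n 4
  choose Cy hCy hMy using hy
  obtain ⟨Cq, hCq, hMq⟩ := l9g_M_sq 4
  refine ⟨Cy 1 + Cy 2 + Cy 3 + Cy 4 + Cq, by linarith [hCy 1, hCy 2, hCy 3, hCy 4], ?_⟩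
  intro Q h ε Kb c0 ha1 ha4 hKb H n hn1 hn4 R hR c hc0 hcN hpos sk hsp
  obtain ⟨δ, hI, -⟩ := H.ex
  have hε := hI.ε_pos
  have hvol : 0 ≤ l9rVol Q.ms (2 * n) c sk := l9r_vol_nonneg H.isMs (2 * n) hcN sk
  have hcard : R.card ≤ 4 := (Finset.card_le_card hR).trans (by rw [Finset.card_range]; exact hn4)
  have hK4 : Kb ^ R.card ≤ Kb ^ 4 := pow_le_pow_right₀ hKb hcard
  have hK1 : Kb ≤ Kb ^ 4 := by
    calc Kb = Kb ^ 1 := (pow_one Kb).symm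
      _ ≤ Kb ^ 4 := pow_le_pow_right₀ hKb (by norm_num)
  have hK0 : 0 ≤ Kb ^ 4 := by positivity
  have hCn : Cy n ≤ Cy 1 + Cy 2 + Cy 3 + Cy 4 := by
    have := hCy 1; have := hCy 2; have := hCy 3; have := hCy 4
    interval_cases n <;> linarith
  have k1 := hMy n Q h ε Kb c0 ha4 hKb H R hR hn1 c hc0 hcN hpos sk hsp
  have b1 : Cy n * Kb ^ R.card * ε / trPm Q.ms c * l9rVol Q.ms (2 * n) c sk
      ≤ (Cy 1 + Cy 2 + Cy 3 + Cy 4) * Kb ^ 4 * ε / trPm Q.ms c * l9rVol Q.ms (2 * n) c sk := by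
    refine mul_le_mul_of_nonneg_right (div_le_div_of_nonneg_right (mul_le_mul_of_nonneg_right ?_ hε.le) hpos.le) hvol
    exact mul_le_mul hCn hK4 (by positivity) (by linarith [hCy 1, hCy 2, hCy 3, hCy 4])
  have hq0 : 0 ≤ Cq * Kb ^ 4 * ε / trPm Q.ms c * l9rVol Q.ms (2 * n) c sk := by positivity
  by_cases hc : n = 2 ∧ R = {0, 1}
  · obtain ⟨rfl, hR2⟩ := hc
    have k2 := hMq Q h ε Kb c0 ha1 ha4 hKb H c hc0 hcN hpos sk (hsp 0 (by norm_num))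
    have b2 : Cq * Kb * ε / trPm Q.ms c * l9rVol Q.ms 4 c sk ≤ Cq * Kb ^ 4 * ε / trPm Q.ms c * l9rVol Q.ms (2 * 2) c sk := by
      refine mul_le_mul_of_nonneg_right (div_le_div_of_nonneg_right (mul_le_mul_of_nonneg_right ?_ hε.le) hpos.le) hvol
      exact mul_le_mul_of_nonneg_left hK1 hCq
    have e : ∑ τ ∈ (l9aTab Q.N (2 * 2)).filter (fun τ => l9rTc (2 * 2) c τ = sk),
          (l9uHt Q.ms Q.N (l9uYf Q (Q.t + h)) 2 R τ - l9uHt Q.ms Q.N (l9uYf Q Q.t) 2 R τ - h * l9uHd Q.ms Q.N (l9uYf Q) Q.t 2 R τ)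
        = ∑ τ ∈ (l9aTab Q.N (2 * 2)).filter (fun τ => l9rTc (2 * 2) c τ = sk),
            l9lA Q.ms Q.N 2 τ * (Q.yR 2 R τ (Q.t + h) - Q.yR 2 R τ Q.t - h * deriv (Q.yR 2 R τ) Q.t)
          + ∑ τ ∈ (l9aTab Q.N 4).filter (fun τ => l9rTc 4 c τ = sk),
            l9lAq Q.ms Q.N τ * ((Q.I.X0 (Q.pf (Q.t + h))).bC (τ 0 1) - (Q.I.X0 (Q.pf Q.t)).bC (τ 0 1)
              - h * deriv (fun t' => (Q.I.X0 (Q.pf t')).bC (τ 0 1)) Q.t) := by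
      show _ = _ + ∑ τ ∈ (l9aTab Q.N (2 * 2)).filter (fun τ => l9rTc (2 * 2) c τ = sk), _
      rw [← Finset.sum_add_distrib]
      refine Finset.sum_congr rfl fun τ _ => ?_
      rw [← l9em_y_eq Q 2 R τ]
      unfold l9uHt l9uHd l9lHq
      rw [if_pos ⟨rfl, hR2⟩, if_pos ⟨rfl, hR2⟩, if_pos ⟨rfl, hR2⟩]
      show _ = _ + l9lAq Q.ms Q.N τ * ((l9uYf Q (Q.t + h)).bC (τ 0 1) - (l9uYf Q Q.t).bC (τ 0 1)
              - h * deriv (fun t' => (l9uYf Q t').bC (τ 0 1)) Q.t)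
      ring
    rw [e]
    refine (abs_add_le _ _).trans ((add_le_add (k1.trans b1) (k2.trans b2)).trans (le_of_eq ?_))
    ring
  · have e : ∑ τ ∈ (l9aTab Q.N (2 * n)).filter (fun τ => l9rTc (2 * n) c τ = sk),
          (l9uHt Q.ms Q.N (l9uYf Q (Q.t + h)) n R τ - l9uHt Q.ms Q.N (l9uYf Q Q.t) n R τ - h * l9uHd Q.ms Q.N (l9uYf Q) Q.t n R τ)
        = ∑ τ ∈ (l9aTab Q.N (2 * n)).filter (fun τ => l9rTc (2 * n) c τ = sk),
            l9lA Q.ms Q.N n τ * (Q.yR n R τ (Q.t + h) - Q.yR n R τ Q.t - h * deriv (Q.yR n R τ) Q.t) := by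
      refine Finset.sum_congr rfl fun τ _ => ?_
      rw [← l9em_y_eq Q n R τ]
      unfold l9uHt l9uHd
      rw [if_neg hc, if_neg hc, if_neg hc]
      ring
    rw [e]
    refine (k1.trans b1).trans ?_
    have : (Cy 1 + Cy 2 + Cy 3 + Cy 4 + Cq) * Kb ^ 4 * ε / trPm Q.ms c * l9rVol Q.ms (2 * n) c sk
        = (Cy 1 + Cy 2 + Cy 3 + Cy 4) * Kb ^ 4 * ε / trPm Q.ms c * l9rVol Q.ms (2 * n) c sk
          + Cq * Kb ^ 4 * ε / trPm Q.ms c * l9rVol Q.ms (2 * n) c sk := by ring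
    rw [this]
    linarith

open Classical in
/-- **`InM` at one point**: `MIn` at every depth of incoming mass `≤ cmax`, `C Kb⁴ ε ≤ |hh| κ U` (`C` = the constant of `l9em_m`) -/
theorem l9em_InM {C : ℝ} (hC : ∀ (Q : L9Q) (h ε Kb : ℝ) (c0 : ℕ), 1 ≤ Q.p.a → Q.p.a ≤ 4 → 1 ≤ Kb → Q.MIn h ε Kb c0 →
      ∀ n, 1 ≤ n → n ≤ 4 → ∀ R : Finset ℕ, R ⊆ Finset.range n → ∀ c : ℕ, c ≤ c0 → c ≤ Q.N + 1 → 0 < trPm Q.ms c →
      ∀ sk : JtTopo, (∀ i, i < n → sk (2 * i) (2 * i + 1) < c) →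
        |∑ τ ∈ (l9aTab Q.N (2 * n)).filter (fun τ => l9rTc (2 * n) c τ = sk),
            (l9uHt Q.ms Q.N (l9uYf Q (Q.t + h)) n R τ - l9uHt Q.ms Q.N (l9uYf Q Q.t) n R τ - h * l9uHd Q.ms Q.N (l9uYf Q) Q.t n R τ)|
          ≤ C * Kb ^ 4 * ε / trPm Q.ms c * l9rVol Q.ms (2 * n) c sk)
    {Q : L9Q} {hh ε Kb Cs cmax κ : ℝ} (ha1 : 1 ≤ Q.p.a) (ha4 : Q.p.a ≤ 4) (hKb : 1 ≤ Kb) (hCs : 1 < Cs) (hU : 0 < Q.U) (hκ : 0 ≤ κ)
    (hIn : ∀ c0 : ℕ, trPm Q.ms c0 ≤ cmax → Q.MIn hh ε Kb c0) (hnum : C * Kb ^ 4 * ε ≤ |hh| * κ * Q.U) : Q.InM Cs cmax κ hh := by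
  refine ⟨fun n hn2 hn4 R hR _ c hc h1 h2 sk hS => ?_⟩
  have H := hIn c h2
  have hms := H.isMs
  have hpos : 0 < Q.mc c := lt_of_lt_of_le hU h1
  have hvol : 0 ≤ l9rVol Q.ms (2 * n) c sk := l9r_vol_nonneg hms (2 * n) hc sk
  by_cases hne : ((l9aTab Q.N (2 * n)).filter (fun τ => l9rTc (2 * n) c τ = sk)).Nonempty
  swap
  · rw [Finset.not_nonempty_iff_eq_empty.1 hne, Finset.sum_empty, abs_zero]
    positivity
  obtain ⟨τ₀, hτ₀⟩ := hne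
  rw [Finset.mem_filter] at hτ₀
  obtain ⟨D, β, ρ, -, -, hb⟩ := l9k_blk_exists (l9a_mem_tab.1 hτ₀.1).1 hc (by omega : 1 ≤ 2 * n)
  rw [hτ₀.2] at hb
  have hsp : ∀ i, i < n → sk (2 * i) (2 * i + 1) < c :=
    l9u_sep_hsp Q hms hCs hpos hc (fun i hi => hb.le _ _ (by omega) (by omega) (by omega)) hS
  refine (hC Q hh ε Kb c ha1 ha4 hKb H n (by omega) hn4 R hR c le_rfl hc hpos sk hsp).trans ?_
  rw [← mul_assoc]
  refine mul_le_mul_of_nonneg_right ?_ hvol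
  have hpos' : 0 < trPm Q.ms c := hpos
  rw [div_le_iff₀ hpos']
  exact hnum.trans (mul_le_mul_of_nonneg_left h1 (by positivity))

/-! ## 4. the size segment -/

/-- **(M°) on the size segment** from the physical layer of 263 -/
theorem l9em_MS {𝔹 : LlBase} {F : LlFix} {v1 : ℝ} (hP : L9gPhS 𝔹 F v1) (hv1 : 0 < v1) (hs : 0 ≤ F.sS) (hp : 0 < F.pS) {Cs Cl : ℝ} (hCs : 1 < Cs)
    (hCl : 0 < Cl) : L9esSo 𝔹 F fun κ Q hh => Q.InM Cs (Cl * Q.lam) κ hh := by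
  obtain ⟨C, hC0, hC⟩ := l9em_m
  intro Kη _
  obtain ⟨Kb, N0, hKb, hP⟩ := hP (Kη + 2)
  obtain ⟨N1, H1⟩ := l9es_small 1 (1 / (C * Kb ^ 4 + 1)) one_pos (by positivity)
  obtain ⟨N2, H2⟩ := l9es_small F.pS (v1 / Cl) hp (by positivity)
  refine ⟨max 1 (max N0 (max N1 N2)), fun N hN => ?_⟩
  have g0 : 1 ≤ N := (le_max_left _ _).trans hN
  have g1 : N0 ≤ N := ((le_max_left _ _).trans (le_max_right _ _)).trans hN
  have g2 : N1 ≤ N := (((le_max_left _ _).trans (le_max_right _ _)).trans (le_max_right _ _)).trans hN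
  have g3 : N2 ≤ N := (((le_max_right _ _).trans (le_max_right _ _)).trans (le_max_right _ _)).trans hN
  have hx := l9b_skX_pos g0
  obtain ⟨h1, hh1, HP⟩ := hP N g1
  refine ⟨h1, hh1, fun h0 hh0 hh0' => ?_⟩
  filter_upwards [HP h0 hh0.ne' (by rw [abs_of_pos hh0]; exact hh0'), HP (-h0) (neg_ne_zero.2 hh0.ne') (by rw [abs_neg, abs_of_pos hh0]; exact hh0')]
    with Fs a1 a2 s m γ θ hh hθ hθh habs hD
  set Q := l9QS F 𝔹 s Fs m N γ θ with hQ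
  have hMI : ∀ c0 : ℕ, trPm Q.ms c0 ≤ v1 → Q.MIn hh (|hh| * skX N ^ (Kη + 2)) Kb c0 := by
    rcases eq_or_eq_neg_of_abs_eq habs with e | e
    · rw [e] at hθh ⊢
      exact a1 s m γ θ (Ioo_subset_Icc_self hθ) hθh hD
    · rw [e] at hθh ⊢
      exact a2 s m γ θ (Ioo_subset_Icc_self hθ) hθh hD
  have hlam : Q.lam = skX N ^ F.pS := rfl
  have hcm : Cl * Q.lam ≤ v1 := by
    rw [hlam]
    calc Cl * skX N ^ F.pS ≤ Cl * (v1 / Cl) := mul_le_mul_of_nonneg_left (H2 N g3) hCl.le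
      _ = v1 := by field_simp
  have hU : skX N ≤ Q.U := l9es_x_le_U F hs hp.le 𝔹 s Fs m g0 γ θ
  have hκ : 0 < skX N ^ Kη := Real.rpow_pos_of_pos hx _
  have ha : Q.p.a = 4 := rfl
  refine l9em_InM hC (by rw [ha]; norm_num) (by rw [ha]) hKb hCs (hx.trans_le hU) hκ.le (fun c0 hc0 => hMI c0 (hc0.trans hcm)) ?_
  have hx1 : (C * Kb ^ 4 + 1) * skX N ≤ 1 := by
    have := H1 N g2
    rw [Real.rpow_one] at this
    calc (C * Kb ^ 4 + 1) * skX N ≤ (C * Kb ^ 4 + 1) * (1 / (C * Kb ^ 4 + 1)) := mul_le_mul_of_nonneg_left this (by positivity)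
      _ = 1 := by field_simp
  have hCK : 0 ≤ C * Kb ^ 4 := by positivity
  have e2 : skX N ^ (Kη + 2) = skX N ^ Kη * (skX N * skX N) := by
    rw [Real.rpow_add hx, show (2 : ℝ) = ((2 : ℕ) : ℝ) by norm_num, Real.rpow_natCast, sq]
  rw [e2]
  have h3 : C * Kb ^ 4 * skX N ≤ 1 := by nlinarith
  have h4 : C * Kb ^ 4 * skX N * skX N ≤ 1 * Q.U := mul_le_mul h3 hU hx.le zero_le_one
  calc C * Kb ^ 4 * (|hh| * (skX N ^ Kη * (skX N * skX N))) = |hh| * skX N ^ Kη * (C * Kb ^ 4 * skX N * skX N) := by ring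
    _ ≤ |hh| * skX N ^ Kη * (1 * Q.U) := mul_le_mul_of_nonneg_left h4 (by positivity)
    _ = |hh| * skX N ^ Kη * Q.U := by ring

/-! ## 5. the strength sweep -/

/-- **(M°) on the strength sweep** from the physical layer of 263:   above the kink (`U > 1/2 ≥ cmax`) the group is VACUOUS (`U ≤ m_c ≤ cmax`) -/
theorem l9em_MD {𝔹 : LlBase} {F : LlFix} {v1 : ℝ} (hP : L9gPhD 𝔹 F v1) (hs : 0 ≤ F.sS) (hp : 0 ≤ F.pS) {Cs cmax : ℝ} (hCs : 1 < Cs)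
    (hc1 : cmax ≤ v1) (hc2 : cmax ≤ 1 / 2) : L9edSo 𝔹 F fun κ Q hh => Q.InM Cs cmax κ hh := by
  obtain ⟨C, hC0, hC⟩ := l9em_m
  intro Kη _
  obtain ⟨Kb, N0, hKb, hP⟩ := hP (Kη + 2)
  obtain ⟨N1, H1⟩ := l9es_small 1 (1 / (C * Kb ^ 4 + 1)) one_pos (by positivity)
  refine ⟨max 1 (max N0 N1), fun N hN => ?_⟩
  have g0 : 1 ≤ N := (le_max_left _ _).trans hN
  have g1 : N0 ≤ N := ((le_max_left _ _).trans (le_max_right _ _)).trans hN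
  have g2 : N1 ≤ N := ((le_max_right _ _).trans (le_max_right _ _)).trans hN
  have hx := l9b_skX_pos g0
  obtain ⟨h1, hh1, HP⟩ := hP N g1
  refine ⟨h1, hh1, fun h0 hh0 hh0' => ?_⟩
  filter_upwards [HP h0 hh0.ne' (by rw [abs_of_pos hh0]; exact hh0'), HP (-h0) (neg_ne_zero.2 hh0.ne') (by rw [abs_neg, abs_of_pos hh0]; exact hh0')]
    with Fs a1 a2 s m ell γ t hh hell ht hth habs hD
  set Q := l9QD F 𝔹 s Fs m N ell γ t with hQ
  by_cases hU2 : Q.U ≤ 1 / 2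
  swap
  · refine ⟨fun n _ _ R _ _ c _ h1 h2 sk _ => ?_⟩
    exact absurd ((h1.trans h2).trans hc2) hU2
  have hMI : ∀ c0 : ℕ, trPm Q.ms c0 ≤ v1 → Q.MIn hh (|hh| * skX N ^ (Kη + 2)) Kb c0 := by
    rcases eq_or_eq_neg_of_abs_eq habs with e | e
    · rw [e] at hth ⊢
      exact a1 s m ell γ t hell ht hth hU2 hD
    · rw [e] at hth ⊢
      exact a2 s m ell γ t hell ht hth hU2 hD
  have hU : skX N ≤ Q.U := l9ed_x_le_U F hs hp 𝔹 s Fs m g0 ell γ (Ioo_subset_Icc_self ht)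
  have hκ : 0 < skX N ^ Kη := Real.rpow_pos_of_pos hx _
  have ha : Q.p.a = ell := rfl
  have h24 : (2 : ℝ) ^ (1 / 6 : ℝ) ≤ 4 := by
    calc (2 : ℝ) ^ (1 / 6 : ℝ) ≤ (2 : ℝ) ^ (1 : ℝ) := Real.rpow_le_rpow_of_exponent_le (by norm_num) (by norm_num)
      _ ≤ 4 := by norm_num
  refine l9em_InM hC (by rw [ha]; exact hell.1) (by rw [ha]; exact hell.2.trans h24) hKb hCs (hx.trans_le hU) hκ.le
    (fun c0 hc0 => hMI c0 (hc0.trans hc1)) ?_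
  have hx1 : (C * Kb ^ 4 + 1) * skX N ≤ 1 := by
    have := H1 N g2
    rw [Real.rpow_one] at this
    calc (C * Kb ^ 4 + 1) * skX N ≤ (C * Kb ^ 4 + 1) * (1 / (C * Kb ^ 4 + 1)) := mul_le_mul_of_nonneg_left this (by positivity)
      _ = 1 := by field_simp
  have hCK : 0 ≤ C * Kb ^ 4 := by positivity
  have e2 : skX N ^ (Kη + 2) = skX N ^ Kη * (skX N * skX N) := by
    rw [Real.rpow_add hx, show (2 : ℝ) = ((2 : ℕ) : ℝ) by norm_num, Real.rpow_natCast, sq]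
  rw [e2]
  have h3 : C * Kb ^ 4 * skX N ≤ 1 := by nlinarith
  have h4 : C * Kb ^ 4 * skX N * skX N ≤ 1 * Q.U := mul_le_mul h3 hU hx.le zero_le_one
  calc C * Kb ^ 4 * (|hh| * (skX N ^ Kη * (skX N * skX N))) = |hh| * skX N ^ Kη * (C * Kb ^ 4 * skX N * skX N) := by ring
    _ ≤ |hh| * skX N ^ Kη * (1 * Q.U) := mul_le_mul_of_nonneg_left h4 (by positivity)
    _ = |hh| * skX N ^ Kη * Q.U := by ring

/-- the existential form asked by 242 (`l9ex_mD`) -/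
theorem l9em_MD' {𝔹 : LlBase} {F : LlFix} {v1 : ℝ} (hP : L9gPhD 𝔹 F v1) (hv1 : 0 < v1) (hs : 0 ≤ F.sS) (hp : 0 ≤ F.pS) {Cs : ℝ} (hCs : 1 < Cs) :
    ∃ c1 : ℝ, 0 < c1 ∧ c1 ≤ 1 / 2 ∧ c1 ≤ v1 ∧ ∀ cmax : ℝ, cmax ≤ c1 → L9edSo 𝔹 F fun κ Q hh => Q.InM Cs cmax κ hh :=
  ⟨min v1 (1 / 2), lt_min hv1 (by norm_num), min_le_right _ _, min_le_left _ _,
    fun _ h => l9em_MD hP hs hp hCs (h.trans (min_le_left _ _)) (h.trans (min_le_right _ _))⟩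

/-! ## 6. the producers in the protocol form (for `E4X` of 242) -/

/-- **`hM`, size segment: NO open input** (`l9ki_PhS` of 229 = `l9ki_KS` + `l9g_BS` of 263) -/
theorem l9em_mS {𝔹 : LlBase} {F : LlFix} (hb : LlBaseProfile 𝔹 F.T) (hE : LlExpOk F.sS F.eta F.pS) (hTop : LlcTop3 𝔹 F) {Cs Cl : ℝ} (hCs : 1 < Cs)
    (hCl : 0 < Cl) : L9esSo 𝔹 F fun κ Q hh => Q.InM Cs (Cl * Q.lam) κ hh :=
  l9em_MS (l9ki_PhS hb hE hTop) hb.pTop_mem.1 (by linarith [hE.s_lo]) hE.p_lo hCs hCl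

/-- the same with `Cl = 1` written `Q.lam` -/
theorem l9em_mS1 {𝔹 : LlBase} {F : LlFix} (hb : LlBaseProfile 𝔹 F.T) (hE : LlExpOk F.sS F.eta F.pS) (hTop : LlcTop3 𝔹 F) {Cs : ℝ} (hCs : 1 < Cs) :
    L9esSo 𝔹 F fun κ Q hh => Q.InM Cs Q.lam κ hh :=
  (l9em_mS hb hE hTop hCs one_pos).mono fun κ Q hh h => by rwa [one_mul] at h

/-- **`hM`, strength sweep: the ONLY open input is the jet of `b_∘`** (`L9gB0D`: 263, 209, 226);   `L9gKD` = `l9t2_KD` (156), `L9gBD` = `l9gb_BD` (209).   EVERY `cmax ≤ 1/2` -/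
theorem l9em_mD {𝔹 : LlBase} {F : LlFix} (hb : LlBaseProfile 𝔹 F.T) (hE : LlExpOk F.sS F.eta F.pS) (h3 : LlSec3 𝔹 F) (hB0 : L9gB0D 𝔹 F) {Cs cmax : ℝ}
    (hCs : 1 < Cs) (hc : cmax ≤ 1 / 2) : L9edSo 𝔹 F fun κ Q hh => Q.InM Cs cmax κ hh :=
  l9em_MD (l9g_phD_of (l9t2_KD hb h3.ok h3.prof (1 / 2)) (l9gb_BD 𝔹 F hE hb h3 hB0)) (by linarith [hE.s_lo]) hE.p_lo.le hCs hc hc

/-! ## 7. SIZE INSTANCE: THE POINT THEOREM `L9esPoint`      (helper276; prefix `l9el`; was sec.6 of `L09/E4D.lean`, lost there in an overwrite at 07:05Z)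
`Q.E4In` (record of 11, `L09/E4S`)  ⟹  `L9edRec` at `δ = |hh|`, `σ = e^(-hh/6)`, `Eb = Kb λ`  ⟹  `NumS` (from `InE6`)  ⟹  `L9uSup` (242)  ⟹  `l9u_point`  ⟹  `L9esPoint`;   field `deg` = `l9es_deg_sup` (11). -/

section rec

variable {Q : L9Q} {c0 : ℝ} {Cn : ℕ → ℝ} {Kb Cs cmax κ hh : ℝ}

/-- `κ ≤ λ U^6 ≤ U^k`, `k ≤ 6` -/
theorem l9el_kap (H : Q.E4In c0 Cn Kb Cs cmax κ hh) (hκ : κ ≤ Q.lam * Q.U ^ 6) {k : ℕ} (hk : k ≤ 6) : κ ≤ Q.lam * Q.U ^ k ∧ κ ≤ Q.U ^ k := by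
  have h1 : Q.U ^ 6 ≤ Q.U ^ k := pow_le_pow_of_le_one H.U_pos.le H.U_le hk
  have h2 : 0 ≤ Q.U ^ k := pow_nonneg H.U_pos.le k
  have h3 : Q.lam * Q.U ^ 6 ≤ Q.lam * Q.U ^ k := mul_le_mul_of_nonneg_left h1 H.lam_pos.le
  have h4 : Q.lam * Q.U ^ k ≤ 1 * Q.U ^ k := mul_le_mul_of_nonneg_right H.lam_le h2
  exact ⟨hκ.trans h3, by linarith⟩

/-- **the record of 11 is a record of 166** (the window of cuts is not empty) -/
theorem l9el_rec (H : Q.E4In c0 Cn Kb Cs cmax κ hh) (hκ : κ ≤ Q.lam * Q.U ^ 6) (hw : Q.U ≤ cmax) :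
    L9edRec Q c0 Cn Cs cmax κ |hh| (Real.exp (-hh / 6)) (Kb * Q.lam) hh where
  h_ne := H.h_ne
  h_le := by
    have := (l9el_kap H hκ (k := 0) (by norm_num)).2
    rw [pow_zero] at this
    exact H.h_le.trans this
  c_le := H.c_le
  c_a := H.c_a
  e_nn := mul_nonneg H.Kb_nn H.lam_pos.le
  e_le := by
    have h0 : 0 ≤ cmax := H.U_pos.le.trans hw
    have h1 : cmax ≤ 1 := H.c_le.trans H.rf.ok0.c0_le
    have h2 : cmax ^ 2 ≤ 1 := pow_le_one₀ h0 h1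
    calc Kb * Q.lam * cmax ^ 2 ≤ 1 * 1 := mul_le_mul H.Kb_lam h2 (sq_nonneg _) zero_le_one
      _ = 1 := one_mul 1
  k_le := (l9el_kap H hκ (by norm_num)).2
  ch := H.ch
  rf := ⟨H.rf.ok0, H.rf.ok1, H.rf.close⟩
  clk := H.clk
  bb := ⟨fun _ v h1 h2 h3 => H.bb.b_bd v h1 h2 h3⟩
  mm := H.mm
  dif := H.dif

/-- **the supplies of 242 at one point of the size segment** -/
theorem l9el_sup {R₀ : L9mRef} {eps₀ : ℝ} (h₀ : R₀.Ok c0 eps₀ Cn) {Cl : ℝ} (hu : Q.u = 1) (he : Q.e = 1 / 6) (hCs : 1 < Cs)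
    (hcl : cmax ≤ Cl * Q.lam) (H : Q.E4In c0 Cn Kb Cs cmax κ hh) (hκ : κ ≤ Q.lam * Q.U ^ 6) (hw : Q.U ≤ cmax) :
    L9uSup (l9mBd2 h₀) (l9mBd1 h₀) (l9mBd1 h₀) (ℝ × ℝ) (L9mF × L9mF) L9mF L9mF Q (2 + |Cl| + Kb) Cs cmax := by
  have G := l9el_rec H hκ hw
  have hA2 : 2 ≤ 2 + |Cl| + Kb := by linarith [abs_nonneg Cl, H.Kb_nn]
  have hκ0 : 0 ≤ κ := H.rf.ok0.eps_nonneg
  have hh0 : 0 < |hh| := abs_pos.2 H.h_ne
  refine ⟨by linarith, hCs, H.lam_pos, H.lam_le, H.U_pos, G.cmax_le_one, G.isMs, H.dif.dd, H.dif.dy, ?_, l9es_deg_sup Q G.isMs hCs⟩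
  intro n D c sk β ρ R hb hsp hn2 hn4 hD hR hRn hc h1 h2 hS hV
  obtain ⟨b, d⟩ := l9ky_blk G.isMs hb hc hD
  have hlev := G.lev hb hsp hc hV
  have hmc : 0 < trPm Q.ms c := lt_of_lt_of_le H.U_pos h1
  refine ⟨_, G.link h₀ hb hsp d (|hh| * κ) hn2 hn4 hR hRn H.U_pos hc h1 h2 hS hlev ?_ (Or.inl ⟨hu, he, ?_⟩)⟩
  · have h3 := (l9el_kap H hκ (k := 3) (by norm_num)).1
    have h4 : 0 ≤ Q.lam * Q.U ^ 3 := mul_nonneg H.lam_pos.le (pow_nonneg H.U_pos.le 3)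
    nlinarith
  · refine ⟨⟨le_rfl, mul_nonneg hh0.le hκ0, H.e6.chi, H.e6.gg, H.e6.k0⟩, ?_, ?_, ?_⟩
    · show trPm Q.ms c ≤ (2 + |Cl| + Kb) * Q.lam
      have h3 : Cl * Q.lam ≤ (2 + |Cl| + Kb) * Q.lam :=
        mul_le_mul_of_nonneg_right (by linarith [le_abs_self Cl, H.Kb_nn]) H.lam_pos.le
      exact (h2.trans hcl).trans h3
    · show Kb * Q.lam * trPm Q.ms c ^ 2 ≤ (2 + |Cl| + Kb) * Q.lam * trPm Q.ms c ^ 2
      exact mul_le_mul_of_nonneg_right (mul_le_mul_of_nonneg_right (by linarith [abs_nonneg Cl]) H.lam_pos.le) (sq_nonneg _)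
    · show |hh| + |hh| * κ / |hh| ≤ (2 + |Cl| + Kb) * Q.lam
      rw [mul_div_cancel_left₀ _ hh0.ne']
      have h3 := (l9el_kap H hκ (k := 0) (by norm_num)).1
      rw [pow_zero, mul_one] at h3
      have h4 : 2 * Q.lam ≤ (2 + |Cl| + Kb) * Q.lam := mul_le_mul_of_nonneg_right hA2 H.lam_pos.le
      linarith [H.h_le]

end rec

/-- **THE POINT THEOREM of the size half** -/
theorem l9el_point (c0 : ℝ) (Cn : ℕ → ℝ) (Kb Cl : ℝ) {Cs : ℝ} (hCs : 1 < Cs) : L9esPoint c0 Cn Kb Cs Cl := by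
  by_cases hex : ∃ (R₀ : L9mRef) (eps₀ : ℝ), R₀.Ok c0 eps₀ Cn
  · obtain ⟨R₀, eps₀, h₀⟩ := hex
    obtain ⟨C, hC, hpt⟩ := l9u_point (l9mBd2 h₀) (l9mBd1 h₀) (l9mBd1 h₀) (ℝ × ℝ) (L9mF × L9mF) L9mF L9mF
    refine ⟨C * (2 + |Cl| + Kb) ^ 2, mul_nonneg hC (sq_nonneg _), fun Q cmax κ hh hu he hcl H hκ => ?_⟩
    by_cases hw : Q.U ≤ cmax
    · exact hpt Q _ Cs cmax (l9el_sup h₀ hu he hCs hcl H hκ hw)
    · exact ⟨fun n _ _ R _ _ c _ h1 h2 => absurd (h1.trans h2) hw, fun R _ _ c _ h1 h2 => absurd (h1.trans h2) hw⟩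
  · exact ⟨0, le_rfl, fun Q cmax κ hh _ _ _ H _ => absurd ⟨_, _, H.rf.ok0⟩ hex⟩

/-! ## 8. (E4) at one choice of the fixed data (all the producers cited) -/

/-- **(E4), size segment, at one choice of the fixed data: NO open input** -/
theorem l9em_e4S (F : LlFix) (hE : LlExpOk F.sS F.eta F.pS) (hb : LlBaseProfile llBase F.T) (hTop : LlcTop3 llBase F) (hAdm : L9cAdmS llBase F) :
    ∃ Cs Cl : ℝ, 16 ≤ Cs ∧ 0 < Cl ∧ L9cE4S llBase F Cs Cl := by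
  have h3 := hTop.sec3
  have hp12 : F.pS ≤ 12 := by linarith [hE.p_hi]
  obtain ⟨c, C, v0, hc, hv0, hRef⟩ := h3.ref
  obtain ⟨c0, Cn, hc0, hc1, hRf, -⟩ := l9pc_exit F hb h3.ok hp12 h3.dirProf hc hRef
  obtain ⟨Kb, hKb, hBo⟩ := l9eb_S F hE h3
  obtain ⟨v0', ξ0, -, -, hreg⟩ := h3.regT
  obtain ⟨c', C', hc', hreg⟩ := hreg 4
  obtain ⟨Np, hprof⟩ := l9ph_unif_prof llBase F h3.dirProf
  exact ⟨16, 1, le_rfl, one_pos, l9es_exit llBase F hE hb h3 hAdm hc0 hc1 one_pos hKb (l9el_point c0 Cn Kb 1 (by norm_num)) hRf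
    (l9v_InE6 hp12 hc' le_rfl hreg ⟨Np, fun p hp hN => (hprof p hp hN).1⟩) (hBo _) (l9em_mS hb hE hTop (by norm_num) one_pos)
    (l9s_indif_S llBase F hp12 hb h3)⟩

/-- **(E4), strength sweep, at one choice of the fixed data: the ONLY open input is `L9gB0D`** -/
theorem l9em_e4D (F : LlFix) (Mj : L9Mj) (κ0 : ℝ) (hE : LlExpOk F.sS F.eta F.pS) (hb : LlBaseProfile llBase F.T) (h3 : LlSec3 llBase F) (hF : L9cExp F)
    (hB0 : L9gB0D llBase F) : ∃ Cs cmax : ℝ, 16 ≤ Cs ∧ 0 < cmax ∧ L9cE4D llBase Mj κ0 F Cs cmax := by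
  have hp12 : F.pS ≤ 12 := by linarith [hE.p_hi]
  obtain ⟨c, C, v0, hc, hv0, hRef⟩ := h3.ref
  obtain ⟨c0, Cn, hc0, hc1, -, hRD⟩ := l9pc_exit F hb h3.ok hp12 h3.dirProf hc hRef
  obtain ⟨Eb, hEb, hBD⟩ := l9eb_D F hE h3 (Kd := 2) (by norm_num)
  obtain ⟨v1, hv1, hClk⟩ := l9ed_clk F llBase hb h3
  set cm : ℝ := min (min c0 v1) (min (1 / 2) (1 / (Eb + 1))) with hcm
  have k0 : 0 < cm := lt_min (lt_min hc0 hv1) (lt_min (by norm_num) (by positivity))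
  have k1 : cm ≤ c0 := (min_le_left _ _).trans (min_le_left _ _)
  have k2 : cm ≤ v1 := (min_le_left _ _).trans (min_le_right _ _)
  have k3 : cm ≤ 1 / 2 := (min_le_right _ _).trans (min_le_left _ _)
  have k4 : cm ≤ 1 / (Eb + 1) := (min_le_right _ _).trans (min_le_right _ _)
  have k5 : Eb * cm ^ 2 ≤ 1 := by
    have h1 : cm ^ 2 ≤ 1 / (Eb + 1) := by
      calc cm ^ 2 = cm * cm := sq cm
        _ ≤ 1 * (1 / (Eb + 1)) := mul_le_mul (by linarith) k4 k0.le zero_le_one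
        _ = 1 / (Eb + 1) := one_mul _
    calc Eb * cm ^ 2 ≤ Eb * (1 / (Eb + 1)) := mul_le_mul_of_nonneg_left h1 hEb
      _ ≤ 1 := by rw [mul_one_div, div_le_one (by positivity)]; linarith
  exact ⟨16, cm, le_rfl, k0, (l9ed_shell llBase Mj κ0 F hF (by norm_num) k1 (by linarith) hEb k5
    (l9ed_in (l9ed_ch F llBase hE hb h3) (hRD 2 le_rfl) (hClk cm k2) (hBD _) (l9em_mD hb hE h3 hB0 (by norm_num) k3))
    (l9s_indif_D llBase Mj κ0 F hb h3)).e4⟩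

end Claimed.Agent.R286
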