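import Claimed.Agent.R286.L09.E4D
import Claimed.Agent.R286.L09.E4B
import Claimed.Agent.R286.L09.E4M
import Claimed.Agent.R286.L09.PhysCl
import Claimed.Agent.R286.L09.TrsQ
import Claimed.Agent.R286.Defs.L9Pre

/-!
# Row 286 (S0533), LL Sec. 9, (E4) ON THE STRENGTH SWEEP: THE EXIT `exit_l9_e4D` (`L09/BndExit.lean`) AND ITS SIX PRODUCERS      (owner helper166; wiring helper98; prefix `l9edx`; 0 sorry)

`l9edx_exit` = `exit_l9_e4D` VERBATIM.      THE GLUE IS PROVED:
    l9edx_exit  <=  l9ed_shell (`L09/E4D`, PROVED)  <=  l9u_E4D, l9u_point (242, `L09/E4`, PROVED)  +  l9es_deg_sup (11, PROVED)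
                    +  the SIX GROUPS below, each ONE theorem in the shape `L9edSb` (choices: `Kη | N0 | N | h1(N) | h0 ≤ h1 | ∀ᶠ Fs | s m ℓ γ t hh`, `κ = x^Kη`).
THE DEBTS OF (E4), DIRECT HALF, WERE EXACTLY (ALL CLOSED, see Sec. 2):
| theorem      | group                                              | content                                                                                                  | owner / tools |
| `l9edx_ch`   | `Q.InCh hh`                                        | terminal mass `ℓ` fixed (rfl), fine paths admissible at `t`, `t + hh`                                     | twin of `l9es_ch` (11); `l8g_fine`, `l9rs_adm` (153) |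
| `l9edx_rf`   | `Q.InRD c0 Cn κ (Kd λ |hh|) 1 hh`                  | `Ok c0 κ Cn` at the two ends, `L9mClose` at the distance `Kd λ |hh| ≥ |λ' - λ|`, no twist                  | 288 / 285: `l9pc_pair`, `l9pc_dist_pt`, `l9pc_Adir_sub`; 47: `l9ph_main2`, `l9ph_ptL_pair`; 120: `l9v_chi_ev` |
| `l9edx_clk`  | `Q.InClk c1 hh`                                    | the filled clock interpolates `llCumK` at the nodes of incoming mass `≤ c1`                                | twin of `l9es_clk` (11); 47 `l9ph_fK_node` |
| `l9edx_b`    | `Q.InBD Eb c2 (Kd λ |hh|) hh`                      | `b(v) - b∘ = O_*(max(v,U)²)` in the pair norm at the distance `Kd λ |hh|`, when `U ≤ c2`                    | 98 (`L09/E4B.lean`); 120 `l9v_bo_ev` |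
| `l9edx_m`    | `Q.InM 16 c3 κ hh`                                 | (M°): second order Taylor defect of the grouped coefficient `≤ |hh| κ Vol`                                 | 263 (`L09/GridM`, `GridP`, `GridB`) |
| `l9edx_dif`  | `Q.InDif`                                          | differentiability in `t` of `d(v)` and of the products `y` on the tables                                   | 263 / 65 |
An owner proves his producer in his own file (imports `L09/E4D`, `Defs/L9Pre`), then this file imports it and the body becomes the citation.      A producer may be proved for all `par` (`LLGood.of_forall`).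
-/

set_option autoImplicit false

namespace Claimed.Agent.R286

open Filter Set

/-! ## 1. the groups are monotone in the window of cuts -/

theorem L9Q.InClk.anti {Q : L9Q} {cmax cmax' hh : ℝ} (h : Q.InClk cmax hh) (hc : cmax' ≤ cmax) : Q.InClk cmax' hh :=
  ⟨fun u hu hm => h.clk0 u hu (hm.trans hc), fun u hu hm => h.clk1 u hu (hm.trans hc)⟩

theorem L9Q.InBD.anti {Q : L9Q} {Eb cmax cmax' δ hh : ℝ} (h : Q.InBD Eb cmax δ hh) (hc : cmax' ≤ cmax) : Q.InBD Eb cmax' δ hh :=
  ⟨fun hU v hv hmu hm => h.b_bd (hU.trans hc) v hv hmu (hm.trans hc)⟩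

theorem L9Q.InM.anti {Q : L9Q} {Cs cmax cmax' κ hh : ℝ} (h : Q.InM Cs cmax κ hh) (hc : cmax' ≤ cmax) : Q.InM Cs cmax' κ hh :=
  ⟨fun n hn2 hn4 R hR hRn c hcN h1 h2 sk hS => h.m n hn2 hn4 R hR hRn c hcN h1 (h2.trans hc) sk hS⟩

/-- the produced form is the contract of 282 (the fields agree since the retyping of `L9Q.E4.ref`) -/
theorem l9edx_bridge {𝔹 : LlBase} {Mj : L9Mj} {κ : ℝ} {F : LlFix} {Cs cmax : ℝ} (h : L9uE4D 𝔹 Mj κ F Cs cmax) : L9cE4D 𝔹 Mj κ F Cs cmax :=
  l9ed_SbD_mono h fun _ _ hE => ⟨hE.main, hE.ref⟩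

/-- the exponents of `par` (copy of `l9x_exp` of 282, which lives downstream in `L09/BndExit.lean`) -/
theorem l9edx_exp (F0 : LlFix) (par : LLPar) : L9cExp (l9qF F0 par) := by
  have ht := par.tau_pos
  have ht1 := par.tau_le
  have he := par.eta_pos
  have he1 := par.eta_le
  have hp := par.pStar_pos
  have hp1 : par.pStar < par.a2 := by
    have h1 := par.pStar_le_a2
    have h2 := par.CL_ge
    nlinarith
  have ha : par.a2 < llDStar / 3 := by
    have h1 := par.a2_le
    have h2 := par.a1_le
    have h3 := par.bH_le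
    have h4 := par.a0_le_dStar
    have h5 := par.CH_ge
    have h6 := par.a2_pos
    have h7 := par.a1_pos
    have h8 := par.a0_pos
    have e1 : 100 * par.a2 ≤ par.a1 := by nlinarith
    have e2 : 100 * par.a1 ≤ par.bH := by nlinarith
    have hd : (0 : ℝ) < llDStar := by unfold llDStar; norm_num
    linarith
  have hd : llDStar = 1 / 10000 := rfl
  have hs : (l9qF F0 par).sS = 1 / 2 - par.tau := rfl
  have hη : (l9qF F0 par).eta = par.eta := rfl
  have hpS : (l9qF F0 par).pS = par.pStar := rfl
  constructor <;> simp only [hs, hη, hpS] <;> linarith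

/-! ## 2. the exit for every `F` with the P-list      (helper98, 07:55Z: repair after the patch of `L09/E4D` sec. 5 (242: `hM : L9edSo`, `hDf : L9SbD`) + WIRING of the six producers, all PROVED on main)

| group  | producer                                                    |
| `ch`   | `l9ed_ch` (159, `L09/E4D`)                                   |
| `rf`   | `l9pc_exit` (288, `L09/PhysCl`), `Kd = 2`                     |
| `clk`  | `l9ed_clk` (159, `L09/E4D`)                                  |
| `bb`   | `l9eb_D` (98, `L09/E4B`)                                     |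
| `mm`   | `l9em_mD` (276, `L09/E4M`) + `l9gw_B0D` (209, `L09/GridBD`)   |
| `dif`  | `l9s_indif_D` (65, `L09/TrsQ`)                               | -/

/-- **(E4), direct, every `F` with the P-list** -/
theorem l9edx_F (F : LlFix) (hE : LlExpOk F.sS F.eta F.pS) (hb : LlBaseProfile llBase F.T) (h3 : LlSec3 llBase F) (hF : L9cExp F) (Mj : L9Mj) (κ0 : ℝ) :
    ∃ Cs cmax : ℝ, 16 ≤ Cs ∧ 0 < cmax ∧ L9cE4D llBase Mj κ0 F Cs cmax := by
  obtain ⟨c, C, v0, hc, -, hRef⟩ := h3.ref
  obtain ⟨c0, Cn, hc0, -, -, hRf⟩ := l9pc_exit F hb h3.ok (by linarith [hE.p_hi]) h3.dirProf hc hRef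
  obtain ⟨c1, hc1, hClk⟩ := l9ed_clk F llBase hb h3
  obtain ⟨Eb, hEb, hB⟩ := l9eb_D F hE h3 (Kd := 2) (by norm_num)
  set cmax : ℝ := min (min c0 c1) (min (1 / 2) (1 / (Eb + 1))) with hcm
  have k0 : cmax ≤ c0 := (min_le_left _ _).trans (min_le_left _ _)
  have k1 : cmax ≤ c1 := (min_le_left _ _).trans (min_le_right _ _)
  have k4 : cmax ≤ 1 / 2 := (min_le_right _ _).trans (min_le_left _ _)
  have k5 : cmax ≤ 1 / (Eb + 1) := (min_le_right _ _).trans (min_le_right _ _)
  have hpos : 0 < cmax := lt_min (lt_min hc0 hc1) (lt_min (by norm_num) (by positivity))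
  have hEc : Eb * cmax ^ 2 ≤ 1 := by
    have a1 : (Eb + 1) * cmax ≤ 1 := by
      calc (Eb + 1) * cmax ≤ (Eb + 1) * (1 / (Eb + 1)) := mul_le_mul_of_nonneg_left k5 (by linarith)
        _ = 1 := by field_simp
    nlinarith
  refine ⟨16, cmax, le_rfl, hpos, l9edx_bridge ?_⟩
  exact l9ed_shell llBase Mj κ0 F hF (by norm_num) k0 (by linarith) hEb hEc
    (l9ed_in (l9ed_ch F llBase hE hb h3) (hRf 2 le_rfl) (hClk cmax k1) (hB fun _ => cmax)
      (l9em_mD hb hE h3 (l9gw_B0D hb h3) (by norm_num) k4))
    (l9s_indif_D llBase Mj κ0 F hb h3)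

/-! ## 3. the exit -/

/-- **(E4), direct** = `exit_l9_e4D` of `L09/BndExit.lean`, verbatim -/
theorem l9edx_exit (T : ℝ) (F0 : LlFix) (h0 : L8Fix llBase T F0) :
    LLGood fun par => ∃ Cs cmax : ℝ, 16 ≤ Cs ∧ 0 < cmax ∧ L9cE4D llBase (l9qMj par) par.kappa (l9qF F0 par) Cs cmax :=
  .of_forall fun par => l9edx_F (l9qF F0 par) (l9q_expOk par) (by show LlBaseProfile llBase F0.T; rw [h0.1]; exact h0.2.1)
    (h0.2.2 _ _ _ (l9q_expOk par)).sec3 (l9edx_exp F0 par) (l9qMj par) par.kappa

end Claimed.Agent.R286
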