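-- OWNER helper71 (unit INSTANCES AT llJs, head helper93: T3);   consumers: helper101 (node TRD), helper65 (node TRS)
import Claimed.Agent.R286.L09.TrsFin
import Claimed.Agent.R286.L02.RowI
import Claimed.Agent.R286.L09.TrdCore

/-!
# Row 286 (S0533), LL Sec. 9, file L09/Fam : `LlFam` AND `RdData` AT THE CHAINS OF A FAMILY OF PATH POINTS      (owner helper71; prefix `l9u_`, defs `L9I.Pd`, `L9I.tl`, `L9I.Rd`)

INSTANCE of the hypotheses of (A9) (`exit_a9`, `L02/RowD` of 239, `L02/RowI` of 73) at `I : L9I` (`L09/Contract`, 216), along ANY family of path points `pf : ℝ → LlPt` with constant terminal mass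
(`l9PtS`: `a = 4`, `l9PtL`: `a = ℓ`; `l9u_ptS_a`, `l9u_ptL_a`).      Built on the tools of 65 (`L09/TrsFin`: `l9sPd`, `l9s_fam`, `l9s_difK`, `l9s_js`, `l9s_mass`); nothing of them is re-proved.      0 sorry.

* `I.Pd pf t : LlStp`   THE DOTTED FINE PATH (`= l9sPd ..` with the expression of `l9s_fam`, `l9s_dot_eq`: these two apply by `rfl`);
* `l9u_Pd_cumB/H/K`     EQUALITIES, all `j`: `skCumB (llMat (I.Pd pf t)) j = deriv (fun t' => (I.X0 (pf t')).bC j) t`, the same for `hC`, `KC` (no differentiability needed);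
* `l9u_fam`             `LlFam (pf t).a U t (fun t' => I.P (pf t')) (I.Pd pf t)` for every `U ∋ t` of admissible parameters;      `l9u_fam_ev` : the form "eventually admissible + tilt" ⟹ `∃ U ∈ 𝓝 t`, with the CONSTANT tilt stage;
* `l9u_difK`            `I.DifK pf t` (import of `l9e_e1x`), no hypothesis left;
* `I.tl en p`, `l9u_X`, `l9u_psi`, `l9u_psi_on`   the ensembles and `ψ` in the vocabulary of LL02, with the constant tilt stage;
* `I.Rd pf e U t en : RdData (SkCfg I.m)`   the data of (A9), `l9u_rd_ok : .Ok`, fields `X, Y, ms, e, bd, hd, Kd` identified, `l9u_rd_qd` : `qd j` is THE derivative of the reference overlap of the chain;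
* `l9u_OF`              `I.OF pf u e k en t = u (ν[I])_# + D2`;      `l9u_OF_frz` : the `deriv` form with the constant tilt (= `l9xOF` of 101 at `u = e = 0`, `l9sOF` of 65 at `u = 1`);
* `l9u_psi_hasDeriv`, `l9u_psi_deriv`   the speed of `ψ_n(s)` is `D1^s - D1^0`;
* `l9u_bridge`          **`ψ̇ + u Δ(ν[I])_# - O(E1) = ΔD1 - ΔD2`** : the left sides of the nodes TRS, TRD of `L09/Contract` in terms of the abstract (A9);
* `l9u_a9`              (A9) at the chain, difference of the two ensembles (`detR` cancels): `|ψ̇ - (I.DOF pf 0 e k t)| ≤ C ×` the four majorants;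
* `l9u_trd_inst`        **TRD at one instance** = `l9x_core` (101, `L09/TrdCore`) + E1X (65) at `I`: `|ψ̇ - I.DOE1 pf 0 0 (m+1) t| ≤ C (errW + errW + w/m + w M^(m+1) Bd)`, `C = C(m, M0)`.
-/

set_option autoImplicit false

namespace Claimed.Agent.R286

open scoped BigOperators Nat Topology

/-! ### 1. the dotted path of a family of path points on one chain -/

/-- **the dotted fine path** at the parameter `t`: its cumulated clocks are the derivatives of the clock values of the chain -/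
noncomputable def L9I.Pd (I : L9I) (pf : ℝ → LlPt) (t : ℝ) : LlStp :=
  l9sPd (I.P (pf t)).length (fun j => deriv (fun ϑ => skCumB (llMat (I.P (pf ϑ))) j) t)
    (fun j => deriv (fun ϑ => skCumH (llMat (I.P (pf ϑ))) j) t) (fun j => deriv (fun ϑ => llCumK (I.P (pf ϑ)) j) t)

theorem l9u_Pd_len (I : L9I) (pf : ℝ → LlPt) (t : ℝ) : (I.Pd pf t).length = (I.P (pf t)).length := by simp [L9I.Pd, l9sPd]

theorem l9u_bC (I : L9I) (p : LlPt) (en : Bool) (j : ℕ) : (I.X en p).bC j = skCumB (llMat (I.P p)) j := rfl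
theorem l9u_hC (I : L9I) (p : LlPt) (en : Bool) (j : ℕ) : (I.X en p).hC j = skCumH (llMat (I.P p)) j := rfl
theorem l9u_KC (I : L9I) (p : LlPt) (en : Bool) (j : ℕ) : (I.X en p).KC j = llCumK (I.P p) j := rfl
theorem l9u_qC (I : L9I) (p : LlPt) (en : Bool) (j : ℕ) : (I.X en p).qC j = llQs p.a (I.P p) j := rfl
theorem l9u_N (I : L9I) (p : LlPt) (en : Bool) : (I.X en p).N = (I.P p).length := rfl

theorem l9u_mat_len (P : LlStp) : (llMat P).length = P.length := by simp [llMat]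

theorem l9u_Pd_cumB (I : L9I) (pf : ℝ → LlPt) (t : ℝ) (ha : ∀ t', (pf t').a = (pf t).a) (j : ℕ) :
    skCumB (llMat (I.Pd pf t)) j = deriv (fun t' => (I.X0 (pf t')).bC j) t := by
  unfold L9I.Pd
  rw [l9s_pd_B]
  have e0 : (fun ϑ => skCumB (llMat (I.P (pf ϑ))) 0) = fun _ => 0 := by funext t'; simp [skCumB]
  have e1 : (fun t' => (I.X0 (pf t')).bC j) = fun ϑ => skCumB (llMat (I.P (pf ϑ))) (min j (I.P (pf t)).length) := by
    funext t'
    show skCumB (llMat (I.P (pf t'))) j = _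
    rw [l9s_cumB_min, l9u_mat_len, l9s_len I pf t ha t']
  rw [e0, e1]
  simp

theorem l9u_Pd_cumH (I : L9I) (pf : ℝ → LlPt) (t : ℝ) (ha : ∀ t', (pf t').a = (pf t).a) (j : ℕ) :
    skCumH (llMat (I.Pd pf t)) j = deriv (fun t' => (I.X0 (pf t')).hC j) t := by
  unfold L9I.Pd
  rw [l9s_pd_H]
  have e0 : (fun ϑ => skCumH (llMat (I.P (pf ϑ))) 0) = fun _ => 0 := by funext t'; simp [skCumH]
  have e1 : (fun t' => (I.X0 (pf t')).hC j) = fun ϑ => skCumH (llMat (I.P (pf ϑ))) (min j (I.P (pf t)).length) := by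
    funext t'
    show skCumH (llMat (I.P (pf t'))) j = _
    rw [l9s_cumH_min, l9u_mat_len, l9s_len I pf t ha t']
  rw [e0, e1]
  simp

theorem l9u_Pd_cumK (I : L9I) (pf : ℝ → LlPt) (t : ℝ) (ha : ∀ t', (pf t').a = (pf t).a) (j : ℕ) :
    llCumK (I.Pd pf t) j = deriv (fun t' => (I.X0 (pf t')).KC j) t := by
  unfold L9I.Pd
  rw [l9s_pd_K]
  have e0 : (fun ϑ => llCumK (I.P (pf ϑ)) 0) = fun _ => 0 := by funext t'; simp [llCumK]
  have e1 : (fun t' => (I.X0 (pf t')).KC j) = fun ϑ => llCumK (I.P (pf ϑ)) (min j (I.P (pf t)).length) := by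
    funext t'
    show llCumK (I.P (pf t')) j = _
    rw [l9s_cumK_min, l9s_len I pf t ha t']
  rw [e0, e1]
  simp

/-- **`LlFam` AT THE CHAIN**: terminal mass constant along the family, admissible fine paths on `U`, clock values differentiable at `t` -/
theorem l9u_fam (I : L9I) (pf : ℝ → LlPt) (t : ℝ) {U : Set ℝ} (ht : t ∈ U) (ha : ∀ t', (pf t').a = (pf t).a)
    (hadm : ∀ t' ∈ U, LlStpAdm (pf t').a (I.P (pf t'))) (hD : I.Dif pf t) :
    LlFam (pf t).a U t (fun t' => I.P (pf t')) (I.Pd pf t) :=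
  l9s_fam ht (fun t' h => by have := hadm t' h; rwa [ha t'] at this) (l9s_mass I pf t ha)
    (fun j => (hD j).1) (fun j => (hD j).2.1) (fun j => (hD j).2.2)

/-- the form "eventually": a neighbourhood of admissible parameters, with the CONSTANT tilt stage `I.js (pf t)` -/
theorem l9u_fam_ev (I : L9I) (pf : ℝ → LlPt) (t : ℝ) (ha : ∀ t', (pf t').a = (pf t).a)
    (hev : ∀ᶠ t' in 𝓝 t, LlStpAdm (pf t').a (I.P (pf t')) ∧ LlTiltOk (I.P (pf t')) (some (I.js (pf t')))) (hD : I.Dif pf t) :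
    ∃ U ∈ 𝓝 t, LlFam (pf t).a U t (fun t' => I.P (pf t')) (I.Pd pf t) ∧ (∀ t' ∈ U, LlStpAdm (pf t').a (I.P (pf t'))) ∧
      (∀ t' ∈ U, LlTiltOk (I.P (pf t')) (some (I.js (pf t')))) ∧ ∀ t' ∈ U, LlTiltOk (I.P (pf t')) (some (I.js (pf t))) := by
  refine ⟨{t' | LlStpAdm (pf t').a (I.P (pf t')) ∧ LlTiltOk (I.P (pf t')) (some (I.js (pf t')))}, hev,
    l9u_fam I pf t (mem_of_mem_nhds hev) ha (fun t' h => h.1) hD, fun t' h => h.1, fun t' h => h.2, fun t' h => ?_⟩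
  have := h.2
  rwa [l9s_js I pf t ha t'] at this

/-- **`I.DifK`** (import of `l9e_e1x`) from the differentiability of the clock values -/
theorem l9u_difK (I : L9I) (pf : ℝ → LlPt) (t : ℝ) (ha : ∀ t', (pf t').a = (pf t).a) (ha1 : 1 ≤ (pf t).a) (ha4 : (pf t).a ≤ 4)
    (hadm : ∀ᶠ t' in 𝓝 t, LlStpAdm (pf t').a (I.P (pf t'))) (hD : I.Dif pf t) : I.DifK pf t :=
  l9s_difK l9s_scdiff I pf t ha ha1 ha4 hadm (l9u_fam I pf t (U := {t' | LlStpAdm (pf t').a (I.P (pf t'))}) (mem_of_mem_nhds hadm) ha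
    (fun _ h => h) hD)

/-- the two families of `L09/Contract` have a constant terminal mass -/
theorem l9u_ptS_a (F : LlFix) (N : ℕ) (γ : Fin (N + 1) → ℝ) (θ : ℝ) : (l9PtS F N γ θ).a = 4 := by
  simp [l9PtS, ll04Pt, LlPt.a]

theorem l9u_ptL_a (N : ℕ) (ell : ℝ) (γ : Fin (N + 1) → ℝ) (t : ℝ) : (l9PtL N ell γ t).a = ell := by
  simp [l9PtL, ll04Pt, LlPt.a]

/-! ### 2. ensembles and `ψ` with the constant tilt stage -/

/-- the tilt of the ensemble `en` at the point `p` -/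
noncomputable def L9I.tl (I : L9I) (en : Bool) (p : LlPt) : Option ℕ := if en then some (I.js p) else none

theorem l9u_X (I : L9I) (en : Bool) (p : LlPt) : I.X en p = llJs I.m p.a (I.P p) (I.tl en p) := rfl

theorem l9u_psi (I : L9I) (p : LlPt) (n : ℕ) : I.psi p n = llPsi llMv n p.a (I.js p) (I.P p) := rfl

theorem l9u_tl (I : L9I) (pf : ℝ → LlPt) (t : ℝ) (ha : ∀ t', (pf t').a = (pf t).a) (en : Bool) (t' : ℝ) :
    I.tl en (pf t') = I.tl en (pf t) := by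
  unfold L9I.tl
  rw [l9s_js I pf t ha t']

/-- `ψ` along the family, terminal mass and tilt stage frozen at `t` -/
theorem l9u_psi_on (I : L9I) (pf : ℝ → LlPt) (t : ℝ) (ha : ∀ t', (pf t').a = (pf t).a) (n : ℕ) :
    (fun t' => I.psi (pf t') n) = fun t' => llPsi llMv n (pf t).a (I.js (pf t)) (I.P (pf t')) := by
  funext t'
  rw [l9u_psi, ha t', l9s_js I pf t ha t']

/-- the contexts along the family, terminal mass and tilt stage frozen at `t` -/
theorem l9u_X_on (I : L9I) (pf : ℝ → LlPt) (t : ℝ) (ha : ∀ t', (pf t').a = (pf t).a) (en : Bool) :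
    (fun t' => I.X en (pf t')) = fun t' => llJs I.m (pf t).a (I.P (pf t')) (I.tl en (pf t)) := by
  funext t'
  rw [l9u_X, ha t', l9u_tl I pf t ha en t']

/-- the `deriv` form of `I.OF` with the frozen tilt (`u = 1`: `l9sOF` of 65; `u = e = 0`: `l9xOF` of 101) -/
theorem l9u_OF_frz (I : L9I) (pf : ℝ → LlPt) (u e : ℝ) (k : ℕ) (t : ℝ) (ha : ∀ t', (pf t').a = (pf t).a) (en : Bool) :
    I.OF pf u e k en t = u * (llJs I.m (pf t).a (I.P (pf t)) (I.tl en (pf t))).presR k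
      + deriv (fun t' => (llJs I.m (pf t).a (I.P (pf t)) (I.tl en (pf t))).frz (llJs I.m (pf t).a (I.P (pf t')) (I.tl en (pf t)))
          (Real.exp (-e * (t' - t))) k) t := by
  unfold L9I.OF
  have h := l9u_X_on I pf t ha en
  have h' : ∀ t', I.X en (pf t') = llJs I.m (pf t).a (I.P (pf t')) (I.tl en (pf t)) := fun t' => congrFun h t'
  simp only [h']

/-! ### 3. the data of (A9) at the chain -/

/-- **the data of (A9)** (`RdData` of 239, instance `ll2Rd` of 73) of the ensemble `en` along the family `pf`, at the parameter `t`, on the set `U` -/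
noncomputable def L9I.Rd (I : L9I) (pf : ℝ → LlPt) (e : ℝ) (U : Set ℝ) (t : ℝ) (en : Bool) : RdData (SkCfg I.m) :=
  ll2Rd I.m (pf t).a e U t (fun t' => I.P (pf t')) (I.Pd pf t) (I.tl en (pf t))

theorem l9u_rd_ok (I : L9I) (pf : ℝ → LlPt) (e : ℝ) (t : ℝ) {U : Set ℝ} (ht : t ∈ U) (ha : ∀ t', (pf t').a = (pf t).a)
    (ha0 : 0 < (pf t).a) (hadm : ∀ t' ∈ U, LlStpAdm (pf t').a (I.P (pf t'))) (hD : I.Dif pf t) (en : Bool) :
    (I.Rd pf e U t en).Ok :=
  ll2_ri_ok I.m ha0 e (l9u_fam I pf t ht ha hadm hD) _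

theorem l9u_rd_X (I : L9I) (pf : ℝ → LlPt) (e : ℝ) (U : Set ℝ) (t : ℝ) (en : Bool) : (I.Rd pf e U t en).X = I.X en (pf t) := rfl

theorem l9u_rd_Y (I : L9I) (pf : ℝ → LlPt) (e : ℝ) (U : Set ℝ) (t : ℝ) (ha : ∀ t', (pf t').a = (pf t).a) (en : Bool) :
    (I.Rd pf e U t en).Y = fun t' => I.X en (pf t') := (l9u_X_on I pf t ha en).symm

theorem l9u_rd_ms (I : L9I) (pf : ℝ → LlPt) (e : ℝ) (U : Set ℝ) (t : ℝ) (en : Bool) :
    (I.Rd pf e U t en).ms = llMs (pf t).a (I.P (pf t)) := rfl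

theorem l9u_rd_e (I : L9I) (pf : ℝ → LlPt) (e : ℝ) (U : Set ℝ) (t : ℝ) (en : Bool) : (I.Rd pf e U t en).e = e := rfl

theorem l9u_rd_bd (I : L9I) (pf : ℝ → LlPt) (e : ℝ) (U : Set ℝ) (t : ℝ) (ha : ∀ t', (pf t').a = (pf t).a) (en : Bool) (j : ℕ) :
    (I.Rd pf e U t en).bd j = deriv (fun t' => (I.X0 (pf t')).bC j) t := l9u_Pd_cumB I pf t ha j

theorem l9u_rd_hd (I : L9I) (pf : ℝ → LlPt) (e : ℝ) (U : Set ℝ) (t : ℝ) (ha : ∀ t', (pf t').a = (pf t).a) (en : Bool) (j : ℕ) :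
    (I.Rd pf e U t en).hd j = deriv (fun t' => (I.X0 (pf t')).hC j) t := l9u_Pd_cumH I pf t ha j

theorem l9u_rd_Kd (I : L9I) (pf : ℝ → LlPt) (e : ℝ) (U : Set ℝ) (t : ℝ) (ha : ∀ t', (pf t').a = (pf t).a) (en : Bool) (j : ℕ) :
    (I.Rd pf e U t en).Kd j = deriv (fun t' => (I.X0 (pf t')).KC j) t := l9u_Pd_cumK I pf t ha j

/-- the reference overlap of the chain is differentiable; its derivative is the field `qd` of the data (the same in the two ensembles) -/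
theorem l9u_rd_qd (I : L9I) (pf : ℝ → LlPt) (e : ℝ) (t : ℝ) {U : Set ℝ} (hU : U ∈ 𝓝 t) (ha : ∀ t', (pf t').a = (pf t).a)
    (ha0 : 0 < (pf t).a) (hadm : ∀ t' ∈ U, LlStpAdm (pf t').a (I.P (pf t'))) (hD : I.Dif pf t) (en : Bool) (j : ℕ) :
    HasDerivAt (fun t' => (I.X0 (pf t')).qC j) ((I.Rd pf e U t en).qd j) t := by
  have h := (ll2_ri_dq ha0 (l9u_fam I pf t (mem_of_mem_nhds hU) ha hadm hD) j).hasDerivAt hU
  have e0 : (fun t' => (I.X0 (pf t')).qC j) = fun t' => llQs (pf t).a (I.P (pf t')) j := by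
    funext t'
    show llQs (pf t').a (I.P (pf t')) j = _
    rw [ha t']
  rw [e0]
  exact h

/-- the frozen form `I.OF` of 73 / 216 is `u (ν[I])_# + D2` -/
theorem l9u_OF (I : L9I) (pf : ℝ → LlPt) (u e : ℝ) (k : ℕ) (t : ℝ) {U : Set ℝ} (hU : U ∈ 𝓝 t) (ha : ∀ t', (pf t').a = (pf t).a)
    (ha0 : 0 < (pf t).a) (hadm : ∀ t' ∈ U, LlStpAdm (pf t').a (I.P (pf t'))) (hD : I.Dif pf t) (en : Bool) :
    I.OF pf u e k en t = u * (I.X en (pf t)).presR k + (I.Rd pf e U t en).D2 k := by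
  have h := (RdData.rd_frz_deriv (l9u_rd_ok I pf e t (mem_of_mem_nhds hU) ha ha0 hadm hD en) k).hasDerivAt hU
  rw [l9u_rd_Y I pf e U t ha en] at h
  unfold L9I.OF
  congr 1
  exact h.deriv

/-- **the speed of `ψ_n(s)`** along the family (any site count `n`) -/
theorem l9u_psi_hasDeriv (I : L9I) (pf : ℝ → LlPt) (e : ℝ) (t : ℝ) {U : Set ℝ} (hU : U ∈ 𝓝 t) (ha : ∀ t', (pf t').a = (pf t).a)
    (ha0 : 0 < (pf t).a) (hadm : ∀ t' ∈ U, LlStpAdm (pf t').a (I.P (pf t'))) (hD : I.Dif pf t)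
    (htl : ∀ t' ∈ U, LlTiltOk (I.P (pf t')) (some (I.js (pf t')))) {n : ℕ} (hn : 0 < n) :
    HasDerivAt (fun t' => I.psi (pf t') n)
      ((ll2Rd n (pf t).a e U t (fun t' => I.P (pf t')) (I.Pd pf t) (some (I.js (pf t)))).D1
        - (ll2Rd n (pf t).a e U t (fun t' => I.P (pf t')) (I.Pd pf t) none).D1) t := by
  have hF := l9u_fam I pf t (mem_of_mem_nhds hU) ha hadm hD
  have h1 := (ll2_ri_press hn ha0 e hF (tl := some (I.js (pf t)))
    (fun t' h => by have := htl t' h; rwa [l9s_js I pf t ha t'] at this)).hasDerivAt hU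
  have h0 := (ll2_ri_press hn ha0 e hF (tl := none) (fun _ _ => trivial)).hasDerivAt hU
  rw [l9u_psi_on I pf t ha n]
  exact h1.sub h0

theorem l9u_psi_deriv (I : L9I) (pf : ℝ → LlPt) (e : ℝ) (t : ℝ) {U : Set ℝ} (hU : U ∈ 𝓝 t) (ha : ∀ t', (pf t').a = (pf t).a)
    (ha0 : 0 < (pf t).a) (hadm : ∀ t' ∈ U, LlStpAdm (pf t').a (I.P (pf t'))) (hD : I.Dif pf t)
    (htl : ∀ t' ∈ U, LlTiltOk (I.P (pf t')) (some (I.js (pf t')))) (hm : 0 < I.m) :
    deriv (fun t' => I.psi (pf t') I.m) t = (I.Rd pf e U t true).D1 - (I.Rd pf e U t false).D1 :=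
  (l9u_psi_hasDeriv I pf e t hU ha ha0 hadm hD htl hm).deriv

/-- **BRIDGE** between the nodes TRS / TRD of `L09/Contract` and the abstract (A9):  `ψ̇ + u Δ(ν[I])_# - O(E1) = ΔD1 - ΔD2` -/
theorem l9u_bridge (I : L9I) (pf : ℝ → LlPt) (u e : ℝ) {k : ℕ} (hk : 1 ≤ k) (t : ℝ) {U : Set ℝ} (hU : U ∈ 𝓝 t)
    (ha : ∀ t', (pf t').a = (pf t).a) (ha1 : 1 ≤ (pf t).a) (ha4 : (pf t).a ≤ 4)
    (hadm : ∀ t' ∈ U, LlStpAdm (pf t').a (I.P (pf t'))) (hD : I.Dif pf t)
    (htl : ∀ t' ∈ U, LlTiltOk (I.P (pf t')) (some (I.js (pf t')))) (hm : 0 < I.m) :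
    deriv (fun t' => I.psi (pf t') I.m) t + u * ((I.X true (pf t)).presR k - (I.X false (pf t)).presR k) - I.DOE1 pf u e k t
      = ((I.Rd pf e U t true).D1 - (I.Rd pf e U t false).D1) - ((I.Rd pf e U t true).D2 k - (I.Rd pf e U t false).D2 k) := by
  have ha0 : 0 < (pf t).a := by linarith
  have hadm' : ∀ᶠ t' in 𝓝 t, LlStpAdm (pf t').a (I.P (pf t')) := Filter.mem_of_superset hU hadm
  rw [← l9e_e1x I pf u e hk t ha ha0 hadm' hD (l9u_difK I pf t ha ha1 ha4 hadm' hD), l9u_psi_deriv I pf e t hU ha ha0 hadm hD htl hm]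
  unfold L9I.DOF
  rw [l9u_OF I pf u e k t hU ha ha0 hadm hD true, l9u_OF I pf u e k t hU ha ha0 hadm hD false]
  ring

/-! ### 4. (A9) at the chain -/

/-- the weight of (A9) at the chain: `|e| + |ḣ| + |ḃ| + |K̇| + |q̇|` at a pair which shares `j` stages -/
noncomputable def L9I.Wt (I : L9I) (pf : ℝ → LlPt) (e t : ℝ) : ℕ → ℝ :=
  llW e (I.Pd pf t) fun j => deriv (fun t' => (I.X0 (pf t')).qC j) t

theorem l9u_Wt (I : L9I) (pf : ℝ → LlPt) (e t : ℝ) (ha : ∀ t', (pf t').a = (pf t).a) (j : ℕ) :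
    I.Wt pf e t j = |e| + |deriv (fun t' => (I.X0 (pf t')).hC j) t| + |deriv (fun t' => (I.X0 (pf t')).bC j) t|
      + |deriv (fun t' => (I.X0 (pf t')).KC j) t| + |deriv (fun t' => (I.X0 (pf t')).qC j) t| := by
  unfold L9I.Wt llW
  rw [l9u_Pd_cumB I pf t ha, l9u_Pd_cumH I pf t ha, l9u_Pd_cumK I pf t ha]

/-- **(A9) AT THE CHAIN**, tilted minus untilted (the deterministic term cancels): the speed of `ψ` is `𝒟`(E1) (`u = 0`, formal rule `𝒟Δ = - e Δ`) up to the four majorants of LL02 -/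
theorem l9u_a9 (k : ℕ) (M0 : ℝ) : ∃ C : ℝ, ∀ (I : L9I) (pf : ℝ → LlPt) (e t : ℝ) (U : Set ℝ), 1 ≤ k → 1 ≤ I.m → U ∈ 𝓝 t →
    (∀ t', (pf t').a = (pf t).a) → 1 ≤ (pf t).a → (pf t).a ≤ 4 → (∀ t' ∈ U, LlStpAdm (pf t').a (I.P (pf t'))) → I.Dif pf t →
    (∀ t' ∈ U, LlTiltOk (I.P (pf t')) (some (I.js (pf t')))) → LlBd M0 (I.P (pf t)) →
    |deriv (fun t' => I.psi (pf t') I.m) t - I.DOE1 pf 0 e k t|
      ≤ C * ((I.X true (pf t)).errW (I.Wt pf e t) k + (I.X true (pf t)).errW0 (I.Wt pf e t) / I.m)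
        + C * ((I.X false (pf t)).errW (I.Wt pf e t) k + (I.X false (pf t)).errW0 (I.Wt pf e t) / I.m) := by
  obtain ⟨C, hC⟩ := exit_a9 k M0
  refine ⟨C, fun I pf e t U hk hm hU ha ha1 ha4 hadm hD htl hBd => ?_⟩
  have ha0 : 0 < (pf t).a := by linarith
  have hF := l9u_fam I pf t (mem_of_mem_nhds hU) ha hadm hD
  have htl' : ∀ en : Bool, ∀ t' ∈ U, LlTiltOk (I.P (pf t')) (I.tl en (pf t)) := by
    intro en t' h
    cases en
    · trivial
    · have := htl t' h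
      rwa [l9s_js I pf t ha t'] at this
  have key : ∀ en : Bool, |(I.Rd pf e U t en).D1 - (I.Rd pf e U t en).D2 k - (I.X en (pf t)).detR (fun j => llCumK (I.Pd pf t) j)|
      ≤ C * ((I.X en (pf t)).errW (I.Wt pf e t) k + (I.X en (pf t)).errW0 (I.Wt pf e t) / I.m) := by
    intro en
    obtain ⟨D1, D2, qd, hq, h1, h2, hE⟩ := hC I.m (pf t).a e U t (fun t' => I.P (pf t')) (I.Pd pf t) (I.tl en (pf t)) hk hm ha1 ha4 hF hBd
      (htl' en)
    have e1 : D1 = (I.Rd pf e U t en).D1 := (h1.hasDerivAt hU).unique ((ll2_ri_press hm ha0 e hF (htl' en)).hasDerivAt hU)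
    have e2 : D2 = (I.Rd pf e U t en).D2 k :=
      (h2.hasDerivAt hU).unique ((RdData.rd_frz_deriv (l9u_rd_ok I pf e t (mem_of_mem_nhds hU) ha ha0 hadm hD en) k).hasDerivAt hU)
    have e3 : qd = fun j => deriv (fun t' => (I.X0 (pf t')).qC j) t := by
      funext j
      exact ((hq j).hasDerivAt hU).unique ((l9u_rd_qd I pf e t hU ha ha0 hadm hD en j).differentiableAt.hasDerivAt.congr_of_eventuallyEq
        (Filter.Eventually.of_forall fun t' => by
          show llQs (pf t).a (I.P (pf t')) j = llQs (pf t').a (I.P (pf t')) j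
          rw [ha t']))
    rw [e1, e2, e3] at hE
    exact hE
  have hb := l9u_bridge I pf 0 e hk t hU ha ha1 ha4 hadm hD htl hm
  rw [zero_mul, add_zero] at hb
  have hdet : (I.X true (pf t)).detR (fun j => llCumK (I.Pd pf t) j) = (I.X false (pf t)).detR (fun j => llCumK (I.Pd pf t) j) := rfl
  have e4 : deriv (fun t' => I.psi (pf t') I.m) t - I.DOE1 pf 0 e k t
      = ((I.Rd pf e U t true).D1 - (I.Rd pf e U t true).D2 k - (I.X true (pf t)).detR (fun j => llCumK (I.Pd pf t) j))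
        - ((I.Rd pf e U t false).D1 - (I.Rd pf e U t false).D2 k - (I.X false (pf t)).detR (fun j => llCumK (I.Pd pf t) j)) := by
    rw [hb, hdet]
    ring
  rw [e4]
  exact (abs_sub _ _).trans (add_le_add (key true) (key false))

/-! ### 5. TRD at one instance -/

/-- **TRD AT ONE INSTANCE** `I : L9I` (= `l9x_core` of 101 + E1X of 65 at the chain): `C` depends on `m`, `M0` only -/
theorem l9u_trd_inst (m : ℕ) (hm : 4 ≤ m) (M0 : ℝ) (hM0 : 0 ≤ M0) : ∃ C : ℝ, 0 ≤ C ∧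
    ∀ (I : L9I) (pf : ℝ → LlPt) (t : ℝ) (Sm env : ℕ → ℝ) (Bd w M : ℝ),
      1 ≤ I.m → (∀ t', (pf t').a = (pf t).a) → 1 ≤ (pf t).a → (pf t).a ≤ 4 →
      (∀ᶠ t' in 𝓝 t, LlStpAdm (pf t').a (I.P (pf t')) ∧ LlTiltOk (I.P (pf t')) (some (I.js (pf t')))) → I.Dif pf t →
      LlBd M0 (I.P (pf t)) → L9xCen (I.P (pf t)) Sm →
      L9xBD (I.X false (pf t)) (I.X true (pf t)) Sm env (m + 2) Bd → M0 ≤ M →
      (∀ s ≤ (I.P (pf t)).length, |deriv (fun t' => (I.X0 (pf t')).hC s) t| ≤ w ∧ |deriv (fun t' => (I.X0 (pf t')).bC s) t| ≤ w ∧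
        |deriv (fun t' => (I.X0 (pf t')).KC s) t| ≤ w) →
      (∀ s ≤ (I.P (pf t)).length, |l9xKS (I.P (pf t)) Sm s - (I.X0 (pf t)).KC s| ≤ M * env s) →
      ∃ W : ℕ → ℝ, (∀ j, 0 ≤ W j) ∧ (∀ j ≤ (I.P (pf t)).length, W j ≤ C * w) ∧
        |deriv (fun t' => I.psi (pf t') I.m) t - I.DOE1 pf 0 0 (m + 1) t|
          ≤ C * ((llJs I.m (pf t).a (l9xPS (I.P (pf t)) Sm) (some (I.js (pf t)))).errW W (m + 1)
              + (llJs I.m (pf t).a (l9xPS (I.P (pf t)) Sm) none).errW W (m + 1) + w / I.m + w * M ^ (m + 1) * Bd) := by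
  obtain ⟨C, hC0, hC⟩ := l9x_core m hm M0 hM0
  refine ⟨C, hC0, fun I pf t Sm env Bd w M hm1 ha ha1 ha4 hev hD hBd hCen hBD hM hdot hphi => ?_⟩
  obtain ⟨U, hU, hF, hadm, _, htl⟩ := l9u_fam_ev I pf t ha hev hD
  have ha0 : 0 < (pf t).a := by linarith
  obtain ⟨W, hW0, hW1, hW⟩ := hC I.m (pf t).a U t (fun t' => I.P (pf t')) (I.Pd pf t) (I.js (pf t)) Sm env Bd w M hm1 ha1 ha4 hU hF hBd htl
    hCen hBD hM (fun s hs => by
      rw [l9u_Pd_cumB I pf t ha, l9u_Pd_cumH I pf t ha, l9u_Pd_cumK I pf t ha]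
      exact hdot s hs) hphi
  refine ⟨W, hW0, hW1, ?_⟩
  have hadm' : ∀ᶠ t' in 𝓝 t, LlStpAdm (pf t').a (I.P (pf t')) := Filter.mem_of_superset hU hadm
  have e1 : I.DOE1 pf 0 0 (m + 1) t
      = l9xOF I.m (pf t).a (fun t' => I.P (pf t')) (m + 1) (some (I.js (pf t))) t - l9xOF I.m (pf t).a (fun t' => I.P (pf t')) (m + 1) none t := by
    rw [← l9e_e1x I pf 0 0 (Nat.succ_pos m) t ha ha0 hadm' hD (l9u_difK I pf t ha ha1 ha4 hadm' hD)]
    unfold L9I.DOF
    rw [l9u_OF_frz I pf 0 0 (m + 1) t ha true, l9u_OF_frz I pf 0 0 (m + 1) t ha false, zero_mul, zero_mul, zero_add, zero_add]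
    rfl
  rw [e1, l9u_psi_on I pf t ha I.m]
  exact hW

theorem l9u_eqns_cite : True := by
  have := @L9I.Pd.eq_1
  have := @L9I.tl.eq_1
  have := @L9I.Rd.eq_1
  have := @L9I.Wt.eq_1
  trivial

end Claimed.Agent.R286
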