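import Claimed.Agent.R286.L09.HiTop
import Claimed.Agent.R286.L09.Fam
import Claimed.Agent.R286.L09.Dots

/-!
# Row 286 (S0533), LL Sec. 9, node HI, file L09/HiCo : THE SCALAR COEFFICIENTS AT ONE POINT      (owner helper113; head of the node helper235; prefix `l9hc`, `L9Q.HiClk`, `L9Q.hiG*`)

TEX[LL:exp:high-table] 09-expansion.tex l.340-358: "The scalar coefficients are bounded, including `ḃ = O(1)`.   Differentiating `K` may add one scalar pair with weight `|K̇|`.   At high mass this weight is integrable separately. ..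
At a low mass `v`, the inverse estimates give `|K̇(v)| = O(v)`.";   "A sole low factor at `v` has the additional scalar coefficient `O(v)` .. An added dotted scalar pair preserves the parity argument if it splits later than `v`;
if it splits earlier or at `v`, its own weight is `O(v)`."

PRODUCERS of three supplies of `l9hi_point` (235, `L09/HiInst.lean`) at ONE point `Q : L9Q`:
* `Q.HiClk A V1 T`   WHAT IS USED OF THE CLOCKS (supplier: 69, `L09/Dots.lean`): `|b| ≤ A`;   below `V_1`: `K ≤ A v`, `|K̇| ≤ A v`, `|ḃ| ≤ A`;   `∑ μ (|K̇| + |ḃ|) ≤ T` (`T = I.dot`).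
* `Q.hiGK A V1`, `Q.hiGb`   the multipliers: `gK l = A` below `V_1`, `|K̇_l|` above;   `gb l = |ḃ_l|`;   both `0` at the coincidence level.
* **`L9Q.HiClk.mul`**   : `Q.HiMul V1 gK gb (A (a + 1) + T)`.
* **`L9Q.HiClk.coA`**   : `Q.HiCoA V1 V2 J0 (l9hcCG a A u e J0) gK gb`   (majorant + PAR of `G0`, `G1`, coefficient of the square counterterm);   tools: `l9p_kap_abs`, `l9p_kap_par` (235), `l9ht_kd_abs`, `l9ht_kd_par`, `l9ht_G0_le` (`L09/HiTab.lean`).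
* **`l9hc_coS`** : `L9hiCoS`, **`l9hc_difS`** : `L9hiDifS`   THE TWO CONTRACTS OF `l9hi_bndS` (`L09/HiTop.lean`) on the size segment, from DOTS (69, `l9t_dotS`, `l9t_admEv_S`) [+ `L9cAdmS`].
* **`l9hc_dif`**        : `Q.HiDif` from `I.Dif` + admissibility near the parameter + constant terminal mass   (`rd_kap_deriv` of 239 at the instance `I.Rd` of 71, `l9u_rd_qd`).
-/

set_option autoImplicit false

namespace Claimed.Agent.R286

open scoped BigOperators Nat Topology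
open Filter

noncomputable section

namespace L9Q

variable (Q : L9Q)

/-- what node HI uses of the clocks at one point -/
structure HiClk (A V1 T : ℝ) : Prop where
  A1 : 1 ≤ A
  V1_le : V1 ≤ 1
  b_abs : ∀ v, v ≤ Q.N → |Q.bV v| ≤ A
  K_low : ∀ v, v ≤ Q.N → Q.ms v < V1 → (Q.X false).KC v ≤ A * Q.ms v
  KD_low : ∀ v, v ≤ Q.N → Q.ms v < V1 → |Q.KD v| ≤ A * Q.ms v
  bD_low : ∀ v, v ≤ Q.N → Q.ms v < V1 → |Q.bD v| ≤ A
  int : ∑ j ∈ Finset.range (Q.N + 1), l9aMu Q.ms j * (|Q.KD j| + |Q.bD j|) ≤ T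

/-- the multiplier of an added dotted scalar pair -/
def hiGK (A V1 : ℝ) (l : ℕ) : ℝ := if l ≤ Q.N then (if Q.ms l < V1 then A else |Q.KD l|) else 0

/-- the multiplier of a dotted coefficient `ḃ` -/
def hiGb (l : ℕ) : ℝ := if l ≤ Q.N then |Q.bD l| else 0

end L9Q

/-- bound (crude and PAR) of the cumulant of `n` pairs -/
def l9hcCk (a A : ℝ) (n : ℕ) : ℝ := l9CumC (Finset.range n) * (1 + l9pC a (2 * n) * A)

/-- the constant of the scalar coefficients of the degrees `≤ J0` -/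
def l9hcCG (a A u e : ℝ) (J0 : ℕ) : ℝ := A ^ J0 * ((|u| + |e| * J0 + 2) * (1 + ∑ n ∈ Finset.range (J0 + 2), l9hcCk a A n))

end

theorem l9hc_eqns_cite : True := by
  have := @L9Q.hiGK.eq_1
  have := @L9Q.hiGb.eq_1
  have := @l9hcCk.eq_1
  have := @l9hcCG.eq_1
  trivial

theorem l9hc_cumC_nonneg (s : Finset ℕ) : 0 ≤ l9CumC s := by
  unfold l9CumC l9PS
  exact Finset.sum_nonneg fun _ _ => Nat.cast_nonneg _

theorem l9hc_Ck_nonneg (a : ℝ) {A : ℝ} (hA : 0 ≤ A) (n : ℕ) : 0 ≤ l9hcCk a A n := by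
  have := l9hc_cumC_nonneg (Finset.range n)
  have := l9p_C_nonneg a (2 * n)
  unfold l9hcCk
  positivity

theorem l9hc_Ck_ge (a : ℝ) {A : ℝ} (hA : 0 ≤ A) (n : ℕ) : l9CumC (Finset.range n) ≤ l9hcCk a A n := by
  have h1 := l9hc_cumC_nonneg (Finset.range n)
  have h2 := l9p_C_nonneg a (2 * n)
  unfold l9hcCk
  nlinarith [mul_nonneg h1 (mul_nonneg h2 hA)]

theorem l9hc_Ck_le_sum (a : ℝ) {A : ℝ} (hA : 0 ≤ A) {n J0 : ℕ} (hn : n ≤ J0 + 1) :
    l9hcCk a A n ≤ ∑ n ∈ Finset.range (J0 + 2), l9hcCk a A n :=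
  Finset.single_le_sum (f := fun n => l9hcCk a A n) (fun n _ => l9hc_Ck_nonneg a hA n) (Finset.mem_range.2 (by omega))

namespace L9Q

variable {Q : L9Q} {A V1 T : ℝ}

theorem hiGK_nonneg (h : Q.HiClk A V1 T) (l : ℕ) : 0 ≤ Q.hiGK A V1 l := by
  unfold hiGK
  split_ifs
  · linarith [h.A1]
  · exact abs_nonneg _
  · exact le_rfl

theorem hiGb_nonneg (Q : L9Q) (l : ℕ) : 0 ≤ Q.hiGb l := by
  unfold hiGb
  split_ifs
  · exact abs_nonneg _
  · exact le_rfl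

theorem HiClk.T_nonneg {δm : ℝ} (h : Q.HiClk A V1 T) (hAdm : Q.Adm δm) : 0 ≤ T :=
  le_trans (Finset.sum_nonneg fun j hj => mul_nonneg (l9a_mu_nonneg (Q.isMs hAdm) (by rw [Finset.mem_range] at hj; omega))
    (add_nonneg (abs_nonneg _) (abs_nonneg _))) h.int

/-- the weight of the added pair is majorised by `gK` -/
theorem HiClk.wK_le (h : Q.HiClk A V1 T) (l : ℕ) : |Q.wK l| ≤ Q.hiGK A V1 l := by
  unfold wK hiGK
  by_cases hl : l ≤ Q.N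
  · rw [if_pos hl, if_pos hl, one_mul]
    split_ifs with hlo
    · have h1 := h.KD_low l hl hlo
      have h2 : A * Q.ms l ≤ A * 1 := mul_le_mul_of_nonneg_left (hlo.le.trans h.V1_le) (by linarith [h.A1])
      linarith
    · exact le_rfl
  · rw [if_neg hl, if_neg hl, zero_mul, abs_zero]

/-- an added pair which splits earlier than (or at) a low level `k`: its own weight is `O(v)` -/
theorem HiClk.wK_low {δm : ℝ} (h : Q.HiClk A V1 T) (hAdm : Q.Adm δm) {k : ℕ} (hk : k ≤ Q.N) (hlo : Q.ms k < V1) {l : ℕ} (hl : l ≤ k) :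
    |Q.wK l| ≤ Q.ms k * Q.hiGK A V1 l := by
  have hm : Q.ms l ≤ Q.ms k := (Q.isMs hAdm).mono l k hl hk
  have hlN : l ≤ Q.N := hl.trans hk
  unfold wK hiGK
  rw [if_pos hlN, if_pos hlN, one_mul, if_pos (hm.trans_lt hlo)]
  have h1 := h.KD_low l hlN (hm.trans_lt hlo)
  have h2 : A * Q.ms l ≤ A * Q.ms k := mul_le_mul_of_nonneg_left hm (by linarith [h.A1])
  linarith

/-- **the multipliers**: bounded below `V_1`, integrable -/
theorem HiClk.mul {δm : ℝ} (h : Q.HiClk A V1 T) (hAdm : Q.Adm δm) : Q.HiMul V1 (Q.hiGK A V1) Q.hiGb (A * (Q.p.a + 1) + T) := by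
  have hA0 : 0 ≤ A := by linarith [h.A1]
  have hT := h.T_nonneg hAdm
  have ha := hAdm.a_pos
  have hms := Q.isMs hAdm
  have hG : A ≤ A * (Q.p.a + 1) + T := by nlinarith
  have hmu : ∀ j ∈ Finset.range (Q.N + 1), 0 ≤ l9aMu Q.ms j := fun j hj => l9a_mu_nonneg hms (by rw [Finset.mem_range] at hj; omega)
  refine ⟨hiGK_nonneg h, Q.hiGb_nonneg, fun k hk => ?_, fun k hk => ?_, ?_, ?_⟩
  · unfold hiGK
    split_ifs
    · exact hG
    · linarith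
  · unfold hiGb
    split_ifs with hkN
    · exact (h.bD_low k hkN hk).trans hG
    · linarith
  · unfold l9htNm
    rw [l9a_mw_sum]
    have e0 : Q.hiGK A V1 (Q.N + 1) = 0 := by unfold hiGK; rw [if_neg (by omega)]
    rw [e0, add_zero]
    have h1 : ∑ k ∈ Finset.range (Q.N + 1), l9aMu Q.ms k * Q.hiGK A V1 k
        ≤ ∑ k ∈ Finset.range (Q.N + 1), (A * l9aMu Q.ms k + l9aMu Q.ms k * (|Q.KD k| + |Q.bD k|)) := by
      refine Finset.sum_le_sum fun k hk => ?_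
      have hm := hmu k hk
      have hkN : k ≤ Q.N := by rw [Finset.mem_range] at hk; omega
      have hg : Q.hiGK A V1 k ≤ A + (|Q.KD k| + |Q.bD k|) := by
        unfold hiGK
        rw [if_pos hkN]
        split_ifs
        · linarith [abs_nonneg (Q.KD k), abs_nonneg (Q.bD k)]
        · linarith [abs_nonneg (Q.bD k)]
      calc l9aMu Q.ms k * Q.hiGK A V1 k ≤ l9aMu Q.ms k * (A + (|Q.KD k| + |Q.bD k|)) := mul_le_mul_of_nonneg_left hg hm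
        _ = _ := by ring
    rw [Finset.sum_add_distrib, ← Finset.mul_sum, l9a_mu_sum, Q.ms_top le_rfl] at h1
    have := h.int
    nlinarith
  · unfold l9htNm
    rw [l9a_mw_sum]
    have e0 : Q.hiGb (Q.N + 1) = 0 := by unfold hiGb; rw [if_neg (by omega)]
    rw [e0, add_zero]
    have h1 : ∑ k ∈ Finset.range (Q.N + 1), l9aMu Q.ms k * Q.hiGb k
        ≤ ∑ k ∈ Finset.range (Q.N + 1), l9aMu Q.ms k * (|Q.KD k| + |Q.bD k|) := by
      refine Finset.sum_le_sum fun k hk => mul_le_mul_of_nonneg_left ?_ (hmu k hk)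
      have hkN : k ≤ Q.N := by rw [Finset.mem_range] at hk; omega
      unfold hiGb
      rw [if_pos hkN]
      linarith [abs_nonneg (Q.KD k)]
    have := h.int
    nlinarith

/-! ### the cumulants -/

theorem kap_abs {δm : ℝ} (hAdm : Q.Adm δm) (n : ℕ) (τ : JtTopo) : |Q.kap n τ| ≤ l9CumC (Finset.range n) :=
  l9p_kap_abs hAdm.a_pos hAdm.adm.2 Q.I.m _ (2 * n) 0 (Finset.range n) τ

/-- **PAR** for the cumulant: the pair `s` splits at a low level, all the other pairs split later -/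
theorem HiClk.kap_par {δm : ℝ} (h : Q.HiClk A V1 T) (hAdm : Q.Adm δm) {n : ℕ} {τ : JtTopo} (hτ : IsTr Q.N (2 * n) τ) {s : ℕ} (hs : s < n)
    (hk : τ (2 * s) (2 * s + 1) ≤ Q.N) (hlo : Q.ms (τ (2 * s) (2 * s + 1)) < V1)
    (hoth : ∀ i, i < n → i ≠ s → τ (2 * s) (2 * s + 1) < τ (2 * i) (2 * i + 1)) :
    |Q.kap n τ| ≤ Q.ms (τ (2 * s) (2 * s + 1)) * l9hcCk Q.p.a A n := by
  have h1 := l9p_kap_par hAdm.a_pos hAdm.adm.2 Q.I.m (if false = true then some (Q.I.js Q.p) else none) (r := 2 * n) (q := 0)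
    (A := Finset.range n) (τ := τ) hτ (fun i hi => by rw [Finset.mem_range] at hi; unfold jtD; omega) (s := s) (Finset.mem_range.2 hs)
    (by rw [l9c_jt_pair τ s]; exact hk) (fun i hi hne => by rw [l9c_jt_pair τ s, l9c_jt_pair τ i]; exact hoth i (Finset.mem_range.1 hi) hne)
  rw [l9c_jt_pair τ s] at h1
  have h2 : llCumK (Q.I.P Q.p) (τ (2 * s) (2 * s + 1)) ≤ A * Q.ms (τ (2 * s) (2 * s + 1)) := h.K_low _ hk hlo
  have c1 := l9hc_cumC_nonneg (Finset.range n)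
  have c2 := l9p_C_nonneg Q.p.a (2 * n)
  have hm := (Q.isMs hAdm).nonneg (τ (2 * s) (2 * s + 1))
  have h3 : |Q.kap n τ| ≤ l9CumC (Finset.range n) * (l9pC Q.p.a (2 * n) * llCumK (Q.I.P Q.p) (τ (2 * s) (2 * s + 1))) := h1
  refine h3.trans ?_
  calc l9CumC (Finset.range n) * (l9pC Q.p.a (2 * n) * llCumK (Q.I.P Q.p) (τ (2 * s) (2 * s + 1)))
      ≤ l9CumC (Finset.range n) * (l9pC Q.p.a (2 * n) * (A * Q.ms (τ (2 * s) (2 * s + 1)))) := by gcongr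
    _ = Q.ms (τ (2 * s) (2 * s + 1)) * (l9CumC (Finset.range n) * (l9pC Q.p.a (2 * n) * A)) := by ring
    _ ≤ Q.ms (τ (2 * s) (2 * s + 1)) * l9hcCk Q.p.a A n := by
        refine mul_le_mul_of_nonneg_left ?_ hm
        unfold l9hcCk
        nlinarith

/-- a sole low base pair splits before all the others -/
theorem sole_low {δm : ℝ} (hAdm : Q.Adm δm) {n : ℕ} {τ : JtTopo} {i : ℕ} (hk : τ (2 * i) (2 * i + 1) ≤ Q.N)
    (hlo : Q.ms (τ (2 * i) (2 * i + 1)) < V1) (hoth : ∀ i', i' < n → i' ≠ i → V1 ≤ Q.ms (τ (2 * i') (2 * i' + 1))) :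
    ∀ i', i' < n → i' ≠ i → τ (2 * i) (2 * i + 1) < τ (2 * i') (2 * i' + 1) := by
  intro i' hi' hne
  by_contra hc
  have := (Q.isMs hAdm).mono _ _ (not_lt.1 hc) hk
  linarith [hoth i' hi' hne]

/-- the dotted cumulant, crude bound -/
theorem HiClk.kapD_abs {δm : ℝ} (h : Q.HiClk A V1 T) (hAdm : Q.Adm δm) {n : ℕ} {τ : JtTopo} (hτ : IsTr Q.N (2 * n) τ) :
    |Q.kapD n τ| ≤ l9hcCk Q.p.a A (n + 1) * trAbsK Q.ms Q.N 2 (2 * n) τ (fun τ' => Q.hiGK A V1 (τ' (2 * n) (2 * n + 1))) :=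
  l9ht_kd_abs hτ Q.wK (Q.hiGK A V1) (Q.kap (n + 1)) h.wK_le
    fun τ' _ => (kap_abs hAdm (n + 1) τ').trans (l9hc_Ck_ge Q.p.a (by linarith [h.A1]) (n + 1))

/-- **PAR** for the dotted cumulant -/
theorem HiClk.kapD_par {δm : ℝ} (h : Q.HiClk A V1 T) (hAdm : Q.Adm δm) {n : ℕ} {τ : JtTopo} (hτ : IsTr Q.N (2 * n) τ) {s : ℕ} (hs : s < n)
    (hk : τ (2 * s) (2 * s + 1) ≤ Q.N) (hlo : Q.ms (τ (2 * s) (2 * s + 1)) < V1)
    (hoth : ∀ i, i < n → i ≠ s → τ (2 * s) (2 * s + 1) < τ (2 * i) (2 * i + 1)) :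
    |Q.kapD n τ| ≤ Q.ms (τ (2 * s) (2 * s + 1)) *
      (l9hcCk Q.p.a A (n + 1) * trAbsK Q.ms Q.N 2 (2 * n) τ (fun τ' => Q.hiGK A V1 (τ' (2 * n) (2 * n + 1)))) := by
  refine l9ht_kd_par hτ Q.wK (Q.hiGK A V1) (Q.kap (n + 1)) (τ (2 * s) (2 * s + 1)) ((Q.isMs hAdm).nonneg _) h.wK_le
    (fun l hl => h.wK_low hAdm hk hlo hl)
    (fun τ' _ => (kap_abs hAdm (n + 1) τ').trans (l9hc_Ck_ge Q.p.a (by linarith [h.A1]) (n + 1))) ?_
  intro τ' hτ' hag hlt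
  have e : τ' (2 * s) (2 * s + 1) = τ (2 * s) (2 * s + 1) := hag _ _ (by omega) (by omega)
  have := h.kap_par hAdm (n := n + 1) (τ := τ') (by rw [show 2 * (n + 1) = 2 * n + 2 by ring]; exact hτ') (s := s) (by omega)
    (by rw [e]; exact hk) (by rw [e]; exact hlo) (fun i hi hne => by
      rw [e]
      rcases Nat.lt_succ_iff_lt_or_eq.1 hi with hi' | rfl
      · rw [hag _ _ (by omega) (by omega)]; exact hoth i hi' hne
      · exact hlt)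
  rwa [e] at this

/-! ### the coefficients `G0`, `G1` -/

theorem l9hc_CG_ge {a u e : ℝ} (hA : 1 ≤ A) {n J0 : ℕ} (hnJ : n ≤ J0) {c0 : ℝ} (hc0 : |c0| ≤ |u| + |e| * J0) :
    A ^ n * (|c0| * l9hcCk a A n + l9hcCk a A (n + 1) + l9hcCk a A n) ≤ l9hcCG a A u e J0 := by
  have hA0 : 0 ≤ A := by linarith
  have k1 := l9hc_Ck_nonneg a hA0 n
  have k2 := l9hc_Ck_nonneg a hA0 (n + 1)
  have s1 := l9hc_Ck_le_sum a hA0 (n := n) (J0 := J0) (by omega)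
  have s2 := l9hc_Ck_le_sum a hA0 (n := n + 1) (J0 := J0) (by omega)
  set Sg := ∑ n ∈ Finset.range (J0 + 2), l9hcCk a A n with hSg
  have hS0 : 0 ≤ Sg := k1.trans s1
  have hc : 0 ≤ |c0| := abs_nonneg _
  have hp : A ^ n ≤ A ^ J0 := pow_le_pow_right₀ hA hnJ
  have h1 : |c0| * l9hcCk a A n + l9hcCk a A (n + 1) + l9hcCk a A n ≤ (|u| + |e| * J0 + 2) * (1 + Sg) := by
    have t1 : |c0| * l9hcCk a A n ≤ (|u| + |e| * J0) * Sg := mul_le_mul hc0 s1 k1 (hc.trans hc0)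
    have t2 : 0 ≤ |u| + |e| * J0 := hc.trans hc0
    nlinarith
  unfold l9hcCG
  exact mul_le_mul hp h1 (by positivity) (by positivity)

/-- `G0` with the gain `m` (`m = 1`: majorant, `m = ms k`: PAR) -/
theorem HiClk.G0_le (h : Q.HiClk A V1 T) {V2 : ℝ} {n J0 : ℕ} (hnJ : n ≤ J0) {R : Finset ℕ} (hR : R ⊆ Finset.range n) {τ : JtTopo}
    (hτ : τ ∈ Q.HiTb V2 n) {m : ℝ} (hm : 0 ≤ m) (hκ : |Q.kap n τ| ≤ m * l9hcCk Q.p.a A n)
    (hκd : |Q.kapD n τ| ≤ m * (l9hcCk Q.p.a A (n + 1) * trAbsK Q.ms Q.N 2 (2 * n) τ (fun τ' => Q.hiGK A V1 (τ' (2 * n) (2 * n + 1))))) :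
    |Q.G0 n R τ| ≤ m * (l9hcCG Q.p.a A Q.u Q.e J0 * l9htMl Q.ms Q.N n (Q.hiGK A V1) Q.hiGb τ) := by
  have hA0 : 0 ≤ A := by linarith [h.A1]
  have hlv := (Q.hiTb_mem.1 hτ).2.2
  have hAK : 0 ≤ trAbsK Q.ms Q.N 2 (2 * n) τ (fun τ' => Q.hiGK A V1 (τ' (2 * n) (2 * n + 1))) :=
    tra2_absK_nonneg 2 _ fun τ' => hiGK_nonneg h _
  have h1 := l9ht_G0_le (n := n) hR (m := m) (B := A) (Cκ := l9hcCk Q.p.a A n) (Cd := l9hcCk Q.p.a A (n + 1))
    (c0 := Q.u - Q.e * R.card) (κ := Q.kap n τ) (κd := Q.kapD n τ) (b := fun i => Q.bV (l9Lv τ i)) (bd := fun i => Q.bD (l9Lv τ i))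
    (gb := fun i => Q.hiGb (l9Lv τ i)) hm h.A1 (l9hc_Ck_nonneg _ hA0 _) (l9hc_Ck_nonneg _ hA0 _) hAK hκ hκd
    (fun i hi => h.b_abs _ (hlv i (Finset.mem_range.1 (hR hi))))
    (fun i hi => by
      show |Q.bD (l9Lv τ i)| ≤ Q.hiGb (l9Lv τ i)
      unfold hiGb
      rw [if_pos (hlv i (Finset.mem_range.1 (hR hi)))])
    (fun i => Q.hiGb_nonneg _)
  have hc0 : |Q.u - Q.e * R.card| ≤ |Q.u| + |Q.e| * J0 := by
    have hcard : (R.card : ℝ) ≤ J0 := by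
      have : R.card ≤ n := by simpa using Finset.card_le_card hR
      exact_mod_cast this.trans hnJ
    calc |Q.u - Q.e * R.card| ≤ |Q.u| + |Q.e * R.card| := abs_sub _ _
      _ = |Q.u| + |Q.e| * R.card := by rw [abs_mul, Nat.abs_cast]
      _ ≤ _ := by gcongr
  have hMl : 0 ≤ l9htMl Q.ms Q.N n (Q.hiGK A V1) Q.hiGb τ := l9ht_ml_nonneg _ _ _ (hiGK_nonneg h) Q.hiGb_nonneg τ
  refine h1.trans (mul_le_mul_of_nonneg_left ?_ hm)
  exact mul_le_mul_of_nonneg_right (l9hc_CG_ge h.A1 hnJ hc0) hMl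

/-- `G1` is a special case of the form of `G0` -/
theorem HiClk.G1_le (h : Q.HiClk A V1 T) {V2 : ℝ} {n J0 : ℕ} (hnJ : n ≤ J0) {R : Finset ℕ} (hR : R ⊆ Finset.range n) {τ : JtTopo}
    (hτ : τ ∈ Q.HiTb V2 n) {m : ℝ} (hm : 0 ≤ m) (hκ : |Q.kap n τ| ≤ m * l9hcCk Q.p.a A n) :
    |Q.G1 n R τ| ≤ m * (l9hcCG Q.p.a A Q.u Q.e J0 * l9htMl Q.ms Q.N n (Q.hiGK A V1) Q.hiGb τ) := by
  have hA0 : 0 ≤ A := by linarith [h.A1]
  have hlv := (Q.hiTb_mem.1 hτ).2.2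
  have hAK : 0 ≤ trAbsK Q.ms Q.N 2 (2 * n) τ (fun τ' => Q.hiGK A V1 (τ' (2 * n) (2 * n + 1))) :=
    tra2_absK_nonneg 2 _ fun τ' => hiGK_nonneg h _
  have hb0 : 0 ≤ ∑ i ∈ Finset.range n, Q.hiGb (τ (2 * i) (2 * i + 1)) := Finset.sum_nonneg fun i _ => Q.hiGb_nonneg _
  have hMl : 1 ≤ l9htMl Q.ms Q.N n (Q.hiGK A V1) Q.hiGb τ := by
    unfold l9htMl
    linarith
  have hp : |∏ i ∈ R, Q.bV (l9Lv τ i)| ≤ A ^ n := by
    rw [Finset.abs_prod]
    calc ∏ i ∈ R, |Q.bV (l9Lv τ i)| ≤ ∏ _i ∈ R, A :=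
          Finset.prod_le_prod (fun i _ => abs_nonneg _) fun i hi => h.b_abs _ (hlv i (Finset.mem_range.1 (hR hi)))
      _ = A ^ R.card := by simp
      _ ≤ A ^ n := pow_le_pow_right₀ h.A1 (by simpa using Finset.card_le_card hR)
  have k1 := l9hc_Ck_nonneg Q.p.a hA0 n
  have k2 := l9hc_Ck_nonneg Q.p.a hA0 (n + 1)
  have hCG := l9hc_CG_ge (a := Q.p.a) (u := Q.u) (e := Q.e) h.A1 hnJ (c0 := 0) (by rw [abs_zero]; positivity)
  rw [abs_zero, zero_mul, zero_add] at hCG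
  have hAn : 0 ≤ A ^ n := pow_nonneg hA0 n
  have hCG' : l9hcCk Q.p.a A n * A ^ n ≤ l9hcCG Q.p.a A Q.u Q.e J0 := by nlinarith [mul_nonneg hAn k2]
  have hCG0 : 0 ≤ l9hcCG Q.p.a A Q.u Q.e J0 := (mul_nonneg k1 hAn).trans hCG'
  unfold G1
  rw [abs_mul]
  calc |Q.kap n τ| * |∏ i ∈ R, Q.bV (l9Lv τ i)| ≤ (m * l9hcCk Q.p.a A n) * A ^ n :=
        mul_le_mul hκ hp (abs_nonneg _) (mul_nonneg hm k1)
    _ = m * (l9hcCk Q.p.a A n * A ^ n) := by ring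
    _ ≤ m * (l9hcCG Q.p.a A Q.u Q.e J0 * 1) := by rw [mul_one]; exact mul_le_mul_of_nonneg_left hCG' hm
    _ ≤ _ := mul_le_mul_of_nonneg_left (mul_le_mul_of_nonneg_left hMl hCG0) hm

/-- `G1` has no multiplier (consumer: the crude bound `l9hi_T_crude` of the excess of `ḋ`) -/
theorem HiClk.G1_c {δm : ℝ} (h : Q.HiClk A V1 T) (hAdm : Q.Adm δm) {V2 : ℝ} {n J0 : ℕ} (hnJ : n ≤ J0) {R : Finset ℕ} (hR : R ⊆ Finset.range n) {τ : JtTopo}
    (hτ : τ ∈ Q.HiTb V2 n) : |Q.G1 n R τ| ≤ l9hcCG Q.p.a A Q.u Q.e J0 := by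
  have hA0 : 0 ≤ A := by linarith [h.A1]
  have hlv := (Q.hiTb_mem.1 hτ).2.2
  have hκ : |Q.kap n τ| ≤ l9hcCk Q.p.a A n := (kap_abs hAdm n τ).trans (l9hc_Ck_ge Q.p.a hA0 n)
  have hp : |∏ i ∈ R, Q.bV (l9Lv τ i)| ≤ A ^ n := by
    rw [Finset.abs_prod]
    calc ∏ i ∈ R, |Q.bV (l9Lv τ i)| ≤ ∏ _i ∈ R, A :=
          Finset.prod_le_prod (fun i _ => abs_nonneg _) fun i hi => h.b_abs _ (hlv i (Finset.mem_range.1 (hR hi)))
      _ = A ^ R.card := by simp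
      _ ≤ A ^ n := pow_le_pow_right₀ h.A1 (by simpa using Finset.card_le_card hR)
  have k1 := l9hc_Ck_nonneg Q.p.a hA0 n
  have k2 := l9hc_Ck_nonneg Q.p.a hA0 (n + 1)
  have hCG := l9hc_CG_ge (a := Q.p.a) (u := Q.u) (e := Q.e) h.A1 hnJ (c0 := 0) (by rw [abs_zero]; positivity)
  rw [abs_zero, zero_mul, zero_add] at hCG
  have hAn : 0 ≤ A ^ n := pow_nonneg hA0 n
  have hCG' : l9hcCk Q.p.a A n * A ^ n ≤ l9hcCG Q.p.a A Q.u Q.e J0 := by nlinarith [mul_nonneg hAn k2]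
  unfold G1
  rw [abs_mul]
  exact (mul_le_mul hκ hp (abs_nonneg _) k1).trans hCG'

/-- **all the scalar coefficients of the degrees `≤ J0`** -/
theorem HiClk.coA {δm : ℝ} (h : Q.HiClk A V1 T) (hAdm : Q.Adm δm) (V2 : ℝ) {J0 : ℕ} (hJ : 2 ≤ J0) :
    Q.HiCoA V1 V2 J0 (l9hcCG Q.p.a A Q.u Q.e J0) (Q.hiGK A V1) Q.hiGb := by
  have hA0 : 0 ≤ A := by linarith [h.A1]
  have hk1 : ∀ n τ, |Q.kap n τ| ≤ 1 * l9hcCk Q.p.a A n := fun n τ => by
    rw [one_mul]; exact (kap_abs hAdm n τ).trans (l9hc_Ck_ge Q.p.a hA0 n)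
  have hT : ∀ {n : ℕ} {τ : JtTopo}, τ ∈ Q.HiTb V2 n → IsTr Q.N (2 * n) τ := fun hτ => (l9a_mem_tab.mp (Q.hiTb_mem.1 hτ).1).1
  refine ⟨fun n _ hnJ R hR => ⟨fun τ hτ => ?_, fun τ hτ i hi hlo hoth => ?_⟩, fun n _ hnJ R hR => ⟨fun τ hτ => ?_, fun τ hτ i hi hlo hoth => ?_⟩,
    fun v hv => ?_, fun n _ hnJ R hR τ hτ => h.G1_c hAdm hnJ hR hτ⟩
  · have := h.G0_le hnJ hR hτ zero_le_one (hk1 n τ) (by rw [one_mul]; exact h.kapD_abs hAdm (hT hτ))
    rwa [one_mul] at this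
  · have hk := (Q.hiTb_mem.1 hτ).2.2 i hi
    have hs := sole_low hAdm hk hlo hoth
    exact h.G0_le hnJ hR hτ ((Q.isMs hAdm).nonneg _) (h.kap_par hAdm (hT hτ) hi hk hlo hs) (h.kapD_par hAdm (hT hτ) hi hk hlo hs)
  · have := h.G1_le hnJ hR hτ zero_le_one (hk1 n τ)
    rwa [one_mul] at this
  · have hk := (Q.hiTb_mem.1 hτ).2.2 i hi
    have hs := sole_low hAdm hk hlo hoth
    exact h.G1_le hnJ hR hτ ((Q.isMs hAdm).nonneg _) (h.kap_par hAdm (hT hτ) hi hk hlo hs)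
  · have hg : Q.hiGb v = |Q.bD v| := by unfold hiGb; rw [if_pos hv]
    rw [hg]
    have hS0 : 0 ≤ ∑ n ∈ Finset.range (J0 + 2), l9hcCk Q.p.a A n := Finset.sum_nonneg fun n _ => l9hc_Ck_nonneg _ hA0 n
    have hAJ : A ≤ A ^ J0 := by
      calc A = A ^ 1 := (pow_one A).symm
        _ ≤ A ^ J0 := pow_le_pow_right₀ h.A1 (by omega)
    have hJ2 : (2 : ℝ) ≤ J0 := by exact_mod_cast hJ
    have hu := abs_nonneg Q.u
    have he := abs_nonneg Q.e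
    have hC1 : (|Q.u| + |Q.e| * 2) * A ≤ l9hcCG Q.p.a A Q.u Q.e J0 := by
      unfold l9hcCG
      have t1 : |Q.u| + |Q.e| * 2 ≤ (|Q.u| + |Q.e| * J0 + 2) * (1 + ∑ n ∈ Finset.range (J0 + 2), l9hcCk Q.p.a A n) := by
        have : |Q.e| * 2 ≤ |Q.e| * J0 := mul_le_mul_of_nonneg_left hJ2 he
        nlinarith [mul_nonneg (by positivity : 0 ≤ |Q.u| + |Q.e| * J0 + 2) hS0]
      calc (|Q.u| + |Q.e| * 2) * A = A * (|Q.u| + |Q.e| * 2) := mul_comm _ _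
        _ ≤ _ := mul_le_mul hAJ t1 (by positivity) (by positivity)
    have hC2 : 1 ≤ l9hcCG Q.p.a A Q.u Q.e J0 := by
      unfold l9hcCG
      have t1 : (1 : ℝ) ≤ (|Q.u| + |Q.e| * J0 + 2) * (1 + ∑ n ∈ Finset.range (J0 + 2), l9hcCk Q.p.a A n) := by
        nlinarith [mul_nonneg (by positivity : 0 ≤ |Q.u| + |Q.e| * J0 + 2) hS0, mul_nonneg he (by positivity : (0 : ℝ) ≤ J0)]
      have t2 : (1 : ℝ) ≤ A ^ J0 := one_le_pow₀ h.A1
      nlinarith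
    have hb := h.b_abs v hv
    calc |(Q.u - Q.e * 2) * Q.bV v + Q.bD v| ≤ |(Q.u - Q.e * 2) * Q.bV v| + |Q.bD v| := abs_add_le _ _
      _ ≤ (|Q.u| + |Q.e| * 2) * A + |Q.bD v| := by
          rw [abs_mul]
          have : |Q.u - Q.e * 2| ≤ |Q.u| + |Q.e| * 2 := by
            calc |Q.u - Q.e * 2| ≤ |Q.u| + |Q.e * 2| := abs_sub _ _
              _ = _ := by rw [abs_mul]; norm_num
          have := mul_le_mul this hb (abs_nonneg _) (by positivity)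
          linarith
      _ ≤ l9hcCG Q.p.a A Q.u Q.e J0 * (1 + |Q.bD v|) := by nlinarith [abs_nonneg (Q.bD v)]

end L9Q

/-! ### differentiability of the coefficients -/

/-- **`Q.HiDif`**: constant terminal mass, admissible fine paths near the parameter, clock values differentiable at the parameter -/
theorem l9hc_dif (Q : L9Q) (ha : ∀ t', (Q.pf t').a = (Q.pf Q.t).a) (ha0 : 0 < (Q.pf Q.t).a)
    (hadm : ∀ᶠ t' in 𝓝 Q.t, LlStpAdm (Q.pf t').a (Q.I.P (Q.pf t'))) (hD : Q.I.Dif Q.pf Q.t) : Q.HiDif := by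
  set U : Set ℝ := {t' | LlStpAdm (Q.pf t').a (Q.I.P (Q.pf t'))} with hU
  have hUn : U ∈ 𝓝 Q.t := hadm
  have hUa : ∀ t' ∈ U, LlStpAdm (Q.pf t').a (Q.I.P (Q.pf t')) := fun _ h => h
  have hOk := l9u_rd_ok Q.I Q.pf Q.e Q.t (mem_of_mem_nhds hUn) ha ha0 hUa hD false
  refine ⟨fun v => (hD v).1, fun v => ?_, fun n hn τ hτ => ?_⟩
  · have hq := (l9u_rd_qd Q.I Q.pf Q.e Q.t hUn ha ha0 hUa hD false v).differentiableAt
    exact (((hD v).2.1).sub (hD v).2.2).add ((hD v).1.mul hq)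
  · have h1 := (RdData.rd_kap_deriv hOk hn (τ := τ) hτ).hasDerivAt hUn
    have eY : (fun ϑ => ((Q.I.Rd Q.pf Q.e U Q.t false).Y ϑ).Kap (2 * n) 0 τ (Finset.range n))
        = fun t' => (Q.I.X0 (Q.pf t')).Kap (2 * n) 0 τ (Finset.range n) := by
      rw [l9u_rd_Y Q.I Q.pf Q.e U Q.t ha false]
      rfl
    rw [eY] at h1
    have eK : Q.kapD n τ = (Q.I.Rd Q.pf Q.e U Q.t false).kapD n τ := by
      unfold L9Q.kapD RdData.kapD
      congr 1
      show trSumK Q.ms Q.N 2 (2 * n) τ _ = trSumK Q.ms Q.N 2 (2 * n) τ _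
      congr 1
      funext τ'
      have e1 : jtC 0 n = 2 * n := by unfold jtC; omega
      have e2 : jtD 0 n = 2 * n + 1 := by unfold jtD; omega
      rw [e1, e2, l9u_rd_Kd Q.I Q.pf Q.e U Q.t ha false]
      rfl
    rw [eK]
    exact h1

/-! ### the size segment: the contracts `L9hiCoS`, `L9hiDifS` of `L09/HiTop.lean` from DOTS (69, `L09/Dots.lean`) -/

noncomputable section

/-- the constant of `l9hcCG` after the powers of the loss are taken out -/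
def l9hcK0 (a u e : ℝ) (J : ℕ) : ℝ := (|u| + |e| * J + 2) * (1 + ∑ n ∈ Finset.range (J + 2), l9CumC (Finset.range n) * (1 + l9pC a (2 * n)))

end

theorem l9hc_K0_eqns_cite : True := by
  have := @l9hcK0.eq_1
  trivial

theorem l9hc_K0_nonneg (a u e : ℝ) (J : ℕ) : 0 ≤ l9hcK0 a u e J := by
  have h : 0 ≤ ∑ n ∈ Finset.range (J + 2), l9CumC (Finset.range n) * (1 + l9pC a (2 * n)) :=
    Finset.sum_nonneg fun n _ => mul_nonneg (l9hc_cumC_nonneg _) (by have := l9p_C_nonneg a (2 * n); linarith)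
  unfold l9hcK0
  positivity

theorem l9hc_CG_le (a u e : ℝ) {A : ℝ} (hA : 1 ≤ A) (J : ℕ) : l9hcCG a A u e J ≤ l9hcK0 a u e J * A ^ (J + 1) := by
  have hA0 : 0 ≤ A := by linarith
  have h1 : ∀ n ∈ Finset.range (J + 2), l9hcCk a A n ≤ (l9CumC (Finset.range n) * (1 + l9pC a (2 * n))) * A := fun n _ => by
    have c1 := l9hc_cumC_nonneg (Finset.range n)
    have c2 := l9p_C_nonneg a (2 * n)
    unfold l9hcCk
    rw [mul_assoc]
    refine mul_le_mul_of_nonneg_left ?_ c1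
    nlinarith
  have h2 : 1 + ∑ n ∈ Finset.range (J + 2), l9hcCk a A n ≤ (1 + ∑ n ∈ Finset.range (J + 2), l9CumC (Finset.range n) * (1 + l9pC a (2 * n))) * A := by
    rw [add_mul, Finset.sum_mul, one_mul]
    exact add_le_add hA (Finset.sum_le_sum h1)
  have h3 : 0 ≤ |u| + |e| * J + 2 := by positivity
  unfold l9hcCG l9hcK0
  calc A ^ J * ((|u| + |e| * J + 2) * (1 + ∑ n ∈ Finset.range (J + 2), l9hcCk a A n))
      ≤ A ^ J * ((|u| + |e| * J + 2) * ((1 + ∑ n ∈ Finset.range (J + 2), l9CumC (Finset.range n) * (1 + l9pC a (2 * n))) * A)) :=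
        mul_le_mul_of_nonneg_left (mul_le_mul_of_nonneg_left h2 h3) (pow_nonneg hA0 J)
    _ = _ := by ring

/-- DOTS gives what node HI uses of the clocks -/
theorem L9Q.Dots.hiClk {Q : L9Q} {A vK V1 : ℝ} (h : Q.Dots A 1 vK) (hV1 : V1 ≤ 1) (hVK : V1 ≤ vK) :
    Q.HiClk (A + 1) V1 (Q.dt + A * Q.p.a) := by
  have hA := h.A_nn
  have hmc : ∀ v, Q.mc v ≤ Q.ms v := fun v => by
    have := h.mu_nn v
    unfold l9rMu at this
    unfold L9Q.mc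
    linarith
  have hms : ∀ v, 0 ≤ Q.ms v := fun v => (h.m_nn v).trans (hmc v)
  refine ⟨by linarith, hV1, fun v _ => ?_, fun v _ hlo => ?_, fun v _ hlo => ?_, fun v _ _ => ?_, ?_⟩
  · unfold L9Q.bV
    rw [abs_of_nonneg (h.b_nn v)]
    linarith [h.b_le v]
  · have h1 := h.K_lw v ((hmc v).trans (hlo.le.trans hVK))
    nlinarith [hmc v, hms v, mul_le_mul_of_nonneg_left (hmc v) hA]
  · have h1 := h.Kd v ((hmc v).trans (hlo.le.trans hVK))
    rw [mul_one] at h1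
    nlinarith [hmc v, hms v, mul_le_mul_of_nonneg_left (hmc v) hA]
  · have h1 := h.bd v
    linarith
  · have e : ∑ j ∈ Finset.range (Q.N + 1), l9aMu Q.ms j * (|Q.KD j| + |Q.bD j|)
        = Q.iK + ∑ j ∈ Finset.range (Q.N + 1), l9rMu Q.ms j * |Q.bD j| := by
      unfold L9Q.iK
      rw [← Finset.sum_add_distrib]
      refine Finset.sum_congr rfl fun j _ => ?_
      rw [show l9aMu Q.ms j = l9rMu Q.ms j from rfl]
      ring
    have h2 : ∑ j ∈ Finset.range (Q.N + 1), l9rMu Q.ms j * |Q.bD j| ≤ ∑ j ∈ Finset.range (Q.N + 1), l9rMu Q.ms j * A :=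
      Finset.sum_le_sum fun j _ => mul_le_mul_of_nonneg_left (by have := h.bd j; linarith) (h.mu_nn j)
    rw [← Finset.sum_mul, h.mu_sum] at h2
    rw [e]
    have := h.iK_le
    unfold L9Q.dt
    linarith

theorem L9Q.HiCoA.mono_J {Q : L9Q} {V1 V2 CG : ℝ} {gK gb : ℕ → ℝ} {J0 J : ℕ} (h : Q.HiCoA V1 V2 J CG gK gb) (hJ : J0 ≤ J) : Q.HiCoA V1 V2 J0 CG gK gb :=
  ⟨fun n h2 hn => h.g0 n h2 (hn.trans hJ), fun n h2 hn => h.g1 n h2 (hn.trans hJ), h.sq, fun n h2 hn => h.g1c n h2 (hn.trans hJ)⟩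

/-- **the scalar coefficients at one point, from DOTS** -/
theorem L9Q.Dots.hiCoB {Q : L9Q} {A vK δm a1 : ℝ} (h : Q.Dots A 1 vK) (hAdm : Q.Adm δm) (J0 : ℕ) (a2 : ℝ) (hV1 : Q.x ^ a1 ≤ 1) (hVK : Q.x ^ a1 ≤ vK)
    (ha : Q.p.a ≤ 4) : Q.HiCoB J0 a1 a2 ((l9hcK0 Q.p.a Q.u Q.e (max J0 2) + 9) * (A + 1) ^ (max J0 2 + 1)) := by
  have hc := h.hiClk hV1 hVK
  have hA := h.A_nn
  have hd : 0 ≤ Q.dt := h.iK_nn.trans h.iK_le
  have hK0 := l9hc_K0_nonneg Q.p.a Q.u Q.e (max J0 2)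
  have hP : A + 1 ≤ (A + 1) ^ (max J0 2 + 1) := by
    calc A + 1 = (A + 1) ^ 1 := (pow_one _).symm
      _ ≤ _ := pow_le_pow_right₀ hc.A1 (by omega)
  have hM := hc.mul hAdm
  refine ⟨Q.hiGK (A + 1) (Q.x ^ a1), Q.hiGb, hM.mono ?_, ((hc.coA hAdm (Q.x ^ a2) (le_max_right J0 2)).mono_J (le_max_left J0 2)).mono hAdm hM ?_⟩
  · have h1 : (A + 1) * (Q.p.a + 1) + (Q.dt + A * Q.p.a) ≤ 9 * (A + 1) * (1 + Q.dt) := by
      have := hAdm.a_pos
      nlinarith [mul_nonneg hA hd, mul_le_mul_of_nonneg_left ha hA]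
    have h2 : 9 * (A + 1) * (1 + Q.dt) ≤ (l9hcK0 Q.p.a Q.u Q.e (max J0 2) + 9) * (A + 1) ^ (max J0 2 + 1) * (1 + Q.dt) := by
      refine mul_le_mul_of_nonneg_right ?_ (by linarith)
      exact mul_le_mul (by linarith) hP (by linarith) (by linarith)
    exact h1.trans h2
  · refine (l9hc_CG_le Q.p.a Q.u Q.e hc.A1 (max J0 2)).trans ?_
    exact mul_le_mul_of_nonneg_right (by linarith) (by positivity)

/-- **`L9hiCoS`** (contract of `l9hi_bndS`) -/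
theorem l9hc_coS (𝔹 : LlBase) (F : LlFix) (hE : LlExpOk F.sS F.eta F.pS) (h3 : LlSec3 𝔹 F) (hAdm : L9cAdmS 𝔹 F) (J0 : ℕ) {a1 : ℝ} (ha1 : 0 < a1) (a2 : ℝ) :
    L9hiCoS 𝔹 F J0 a1 a2 := by
  obtain ⟨vK, hvK, hD⟩ := l9t_dotS 𝔹 F hE h3
  intro δ hδ ε hε q hq
  set J : ℕ := max J0 2 with hJ
  have hJ0 : (0 : ℝ) < (J : ℝ) + 1 := by positivity
  obtain ⟨C1, N1, H1⟩ := hD (δ / (J + 1)) (div_pos hδ hJ0) ε hε q hq
  obtain ⟨C2, N2, H2⟩ := hAdm 1 δ hδ ε hε q hq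
  obtain ⟨N3, H3⟩ := l9c_X_small 1 ha1 (lt_min hvK one_pos)
  refine ⟨(l9hcK0 4 1 (1 / 6) J + 9) * (|C1| + 1) ^ (J + 1), max (max N1 N2) (max N3 1), fun N hN => ?_⟩
  have n1 : N1 ≤ N := ((le_max_left _ _).trans (le_max_left _ _)).trans hN
  have n2 : N2 ≤ N := ((le_max_right _ _).trans (le_max_left _ _)).trans hN
  have n3 : N3 ≤ N := ((le_max_left _ _).trans (le_max_right _ _)).trans hN
  have n4 : 1 ≤ N := ((le_max_right _ _).trans (le_max_right _ _)).trans hN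
  have hx : 0 < skX N := l9b_skX_pos n4
  have hx1 : skX N ≤ 1 := l9b_skX_le_one n4
  have hV := H3 N n3
  rw [one_mul] at hV
  filter_upwards [H1 N n1, H2 N n2] with Fs k1 k2
  intro m γ θ hy
  set Q : L9Q := l9QS F 𝔹 (q * skX N ^ (1 + ε)) Fs m N γ θ with hQ
  have ha4 : Q.p.a = 4 := l9t_S_a F N γ θ
  have hd := (k1 m γ θ hy).1
  have hA4 := (k2 m γ θ hy).1
  have hB := hd.hiCoB hA4 J0 a2 (hV.trans (min_le_right _ _)) (hV.trans (min_le_left _ _)) ha4.le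
  have hdt : 0 ≤ Q.dt := hd.iK_nn.trans hd.iK_le
  refine hB.mono hA4 ?_ hdt
  rw [ha4, show Q.u = 1 from rfl, show Q.e = 1 / 6 from rfl, mul_assoc]
  refine mul_le_mul_of_nonneg_left ?_ (by have := l9hc_K0_nonneg 4 1 (1 / 6) J; linarith)
  have hxd : 1 ≤ skX N ^ (-(δ / (J + 1))) := Real.one_le_rpow_of_pos_of_le_one_of_nonpos hx hx1 (by have := div_pos hδ hJ0; linarith)
  have e1 : (skX N ^ (-(δ / (J + 1)))) ^ (J + 1) = skX N ^ (-δ) := by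
    rw [← Real.rpow_natCast, ← Real.rpow_mul hx.le]
    congr 1
    push_cast
    field_simp
  have h4 : C1 * skX N ^ (-(δ / (J + 1))) + 1 ≤ (|C1| + 1) * skX N ^ (-(δ / (J + 1))) := by
    nlinarith [le_abs_self C1, abs_nonneg C1]
  calc (C1 * skX N ^ (-(δ / (J + 1))) + 1) ^ (J + 1) ≤ ((|C1| + 1) * skX N ^ (-(δ / (J + 1)))) ^ (J + 1) :=
        pow_le_pow_left₀ (by have := hd.A_nn; linarith) h4 _
    _ = (|C1| + 1) ^ (J + 1) * skX N ^ (-δ) := by rw [mul_pow, e1]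

/-- **`L9hiDifS`** (contract of `l9hi_bndS`) -/
theorem l9hc_difS (𝔹 : LlBase) (F : LlFix) (hE : LlExpOk F.sS F.eta F.pS) (h3 : LlSec3 𝔹 F) : L9hiDifS 𝔹 F := by
  obtain ⟨N0, H⟩ := l9t_admEv_S 𝔹 F hE h3
  intro δ _ ε _ q _
  refine ⟨0, N0, fun N hN => Eventually.of_forall fun Fs m γ θ hy => ?_⟩
  refine l9hc_dif _ (fun t' => ?_) ?_ (H N hN _ Fs m γ θ hy.2.2.1) hy.2.2.2.1
  · exact (l9t_S_a F N γ t').trans (l9t_S_a F N γ θ).symm
  · rw [show ((l9QS F 𝔹 (q * skX N ^ (1 + ε)) Fs m N γ θ).pf (l9QS F 𝔹 (q * skX N ^ (1 + ε)) Fs m N γ θ).t).a = 4 from l9t_S_a F N γ θ]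
    norm_num

end Claimed.Agent.R286
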