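import Claimed.Agent.R286.L09.HiInst
import Claimed.Agent.R286.L08.LsLk2
import Claimed.Agent.R286.L08.HiKit
import Claimed.Agent.R286.L08.HiTop
import Claimed.Agent.R286.L09.RedSup
import Claimed.Agent.R286.Exit.D16b

/-!
# Row 286 (S0533), LL Sec. 9, node HI, file HiLS : BRIDGE  `L8_LS2` (LL 08, (D16), second conclusion, interface form)  ⟹  `L9hiLS` ((D16) ON TABLES, the import of node HI)      (owner helper225; prefix `l9hj`, `L9hj`)

TEX[LL:lem:statistics-low-sources] 08 l.1345-1383 + TEX[LL:exp:high-table] 09 l.349 ("a base pair at a high mass is retained").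
`L8_LS2 X Xt ti eb vv k n Lam` : the labels `0, 1` are a pair which shares `t0 ≥ ti` stages, `k` more labels are allocated over it (absolute measure), arbitrary label maps `c, d` of the low pairs.
`L9hiLS X N ms Sf sig V1 n r B`  : per root, all the tables on `r` labels, base pairs `(2 i, 2 i + 1)`, ONE multiplier `g (τ cs ds)` which is only integrable at the high levels.

* sec. 1  PERMUTATION INVARIANCE of the weight `l9aWt ms N 1 r` of a table, the root label included (`l9hj_wt_perm`, from `tr_x_root_perm0` tested on indicators), hence of the absolute allocation measure (`l9hj_sum_perm`);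
* sec. 2  the first two labels: `∑_τ |wt τ| F τ = ∑_j |w_j| trAbsK k 2 (jtTab2 N j) F` (`l9hj_pair`);
* sec. 3  CORE (`l9hj_core`): ANY pair `(a, b)` of labels is retained, multiplier `γ (τ a b)`: bound `(∑_{j ≤ N} μ_j γ_j) Lam`;
* sec. 4  **`l9hj_ls`**: split of the multiplier: `τ cs ds` low or coincident: `g ≤ G`, the high base pair `i0 ∉ Lo` is retained;   `τ cs ds` high: the pair `(cs, ds)` is retained, `∑ μ g ≤ G`;
* sec. 5  at a point `Q : L9Q` : **`l9hj_point`**;   `l9hj_thr_exists`;   **`l9hj_both`** = `exit_d16b_num` + `exit_d16b_env` (71, 280) + `l9hj_point`: `I.All e ..` on the stop at `I = Q.i8` ⟹ `Q.HiLS (x^a1) sig J0 (20 K C x^(3 - ε - κ p_*) Zc²)` for every `0 ≤ sig ≤ A' e` below `x^a1`.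
-/

set_option autoImplicit false

namespace Claimed.Agent.R286

open scoped BigOperators
open Finset

/-! ## 1. permutation invariance of the absolute allocation measure -/

/-- the table relabelled by `e`, normalised -/
def l9hjRe (r : ℕ) (e : Equiv.Perm ℕ) (τ : ℕ → ℕ → ℕ) : ℕ → ℕ → ℕ := l9aNm r fun y z => τ (e y) (e z)

theorem l9hj_re_apply {r : ℕ} (e : Equiv.Perm ℕ) (τ : ℕ → ℕ → ℕ) {y z : ℕ} (hy : y < r) (hz : z < r) :
    l9hjRe r e τ y z = τ (e y) (e z) := by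
  unfold l9hjRe l9aNm
  rw [if_pos ⟨hy, hz⟩]

theorem l9hj_re_mem {N r : ℕ} {e : Equiv.Perm ℕ} (he : ∀ y, r ≤ y → e y = y) {τ : ℕ → ℕ → ℕ} (hτ : IsTr N r τ) :
    l9hjRe r e τ ∈ l9aTab N r :=
  l9a_nm_mem_tab (tr_comap_isTr hτ e fun _ hx => tr5_perm_lt e he hx)

theorem l9hj_re_congr {r : ℕ} {e : Equiv.Perm ℕ} (he : ∀ y, r ≤ y → e y = y) {τ τ' : ℕ → ℕ → ℕ} (h : L9aAg r τ τ') :
    l9hjRe r e τ = l9hjRe r e τ' :=
  l9a_nm_eq fun _ _ hy hz => h _ _ (tr5_perm_lt e he hy) (tr5_perm_lt e he hz)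

theorem l9hj_re_re {N r : ℕ} {e : Equiv.Perm ℕ} (he : ∀ y, r ≤ y → e y = y) {τ : ℕ → ℕ → ℕ} (hτ : τ ∈ l9aTab N r) :
    l9hjRe r e.symm (l9hjRe r e τ) = τ := by
  have he' := tr5_perm_symm e he
  have h1 : l9hjRe r e.symm (l9hjRe r e τ) = l9aNm r τ :=
    l9a_nm_eq fun y z hy hz => by
      rw [l9hj_re_apply e τ (tr5_perm_lt e.symm he' hy) (tr5_perm_lt e.symm he' hz)]
      simp
  exact h1.trans (l9a_mem_tab.mp hτ).2

/-- two normalised tables which agree on the labels are equal -/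
theorem l9hj_tab_ext {N r : ℕ} {τ τ' : ℕ → ℕ → ℕ} (hτ : τ ∈ l9aTab N r) (hτ' : τ' ∈ l9aTab N r) (h : L9aAg r τ τ') : τ = τ' := by
  rw [← (l9a_mem_tab.mp hτ).2, ← (l9a_mem_tab.mp hτ').2]
  exact l9a_nm_eq h

/-- **the weight of a table is invariant under ALL the permutations of the labels** (the root label included) -/
theorem l9hj_wt_perm {N r : ℕ} (hr : 1 ≤ r) (ms : ℕ → ℝ) (e : Equiv.Perm ℕ) (he : ∀ y, r ≤ y → e y = y) {τ₀ : ℕ → ℕ → ℕ}
    (h₀ : τ₀ ∈ l9aTab N r) : l9aWt ms N 1 r (l9hjRe r e τ₀) = l9aWt ms N 1 r τ₀ := by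
  classical
  obtain ⟨k, rfl⟩ : ∃ k, r = 1 + k := ⟨r - 1, by omega⟩
  have he' := tr5_perm_symm e he
  set Φ : (ℕ → ℕ → ℕ) → ℝ := fun τ => if L9aAg (1 + k) τ τ₀ then 1 else 0 with hΦ
  have hloc : ∀ τ₁ τ₂, L9aAg (1 + k) τ₁ τ₂ → Φ τ₁ = Φ τ₂ := by
    intro τ₁ τ₂ h
    have : L9aAg (1 + k) τ₁ τ₀ ↔ L9aAg (1 + k) τ₂ τ₀ := ⟨fun h1 => h.symm.trans h1, fun h1 => h.trans h1⟩
    simp only [hΦ, this]
  have hloc' : ∀ τ₁ τ₂, L9aAg (1 + k) τ₁ τ₂ → (fun τ' : ℕ → ℕ → ℕ => Φ fun y z => τ' (e.symm y) (e.symm z)) τ₁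
      = (fun τ' : ℕ → ℕ → ℕ => Φ fun y z => τ' (e.symm y) (e.symm z)) τ₂ := by
    intro τ₁ τ₂ h
    exact hloc _ _ fun y z hy hz => h _ _ (tr5_perm_lt e.symm he' hy) (tr5_perm_lt e.symm he' hz)
  have h1 := tr_x_root_perm0 (ms := ms) (l9k_root_isTr N) k Φ
    (fun τ₁ τ₂ h => hloc τ₁ τ₂ fun y z hy hz => h y z (by omega) (by omega)) e.symm (fun y hy => he' y (by omega))
  rw [l9a_flat k (l9k_root_isTr N) Φ hloc, l9a_flat k (l9k_root_isTr N) _ hloc'] at h1
  have hR := l9hj_re_mem he (l9a_mem_tab.mp h₀).1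
  have s1 : ∑ τ' ∈ l9aTab N (1 + k), l9aWt ms N 1 (1 + k) τ' * Φ τ' = l9aWt ms N 1 (1 + k) τ₀ := by
    rw [Finset.sum_eq_single τ₀]
    · rw [show Φ τ₀ = 1 from if_pos (l9a_ag_refl _ _), mul_one]
    · intro τ hτ hne
      have : ¬ L9aAg (1 + k) τ τ₀ := fun hag => hne (l9hj_tab_ext hτ h₀ hag)
      simp only [hΦ, if_neg this, mul_zero]
    · intro h; exact absurd h₀ h
  have s2 : ∑ τ' ∈ l9aTab N (1 + k), l9aWt ms N 1 (1 + k) τ' * (Φ fun y z => τ' (e.symm y) (e.symm z))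
      = l9aWt ms N 1 (1 + k) (l9hjRe (1 + k) e τ₀) := by
    rw [Finset.sum_eq_single (l9hjRe (1 + k) e τ₀)]
    · have e2 : Φ (fun y z => l9hjRe (1 + k) e τ₀ (e.symm y) (e.symm z)) = 1 := by
        refine if_pos fun y z hy hz => ?_
        show l9hjRe (1 + k) e τ₀ (e.symm y) (e.symm z) = τ₀ y z
        rw [l9hj_re_apply e τ₀ (tr5_perm_lt e.symm he' hy) (tr5_perm_lt e.symm he' hz)]
        simp
      rw [e2, mul_one]
    · intro τ hτ hne
      have : ¬ L9aAg (1 + k) (fun y z => τ (e.symm y) (e.symm z)) τ₀ := by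
        intro hag
        apply hne
        refine l9hj_tab_ext hτ hR fun y z hy hz => ?_
        rw [l9hj_re_apply e τ₀ hy hz, ← hag _ _ (tr5_perm_lt e he hy) (tr5_perm_lt e he hz)]
        simp
      simp only [hΦ, if_neg this, mul_zero]
    · intro h; exact absurd hR h
  rw [s1, s2] at h1
  exact h1

/-- **the absolute allocation measure per root is invariant under the permutations of the labels** -/
theorem l9hj_sum_perm {N r : ℕ} (hr : 1 ≤ r) (ms : ℕ → ℝ) (e : Equiv.Perm ℕ) (he : ∀ y, r ≤ y → e y = y) (F : (ℕ → ℕ → ℕ) → ℝ) :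
    ∑ τ ∈ l9aTab N r, |l9aWt ms N 1 r τ| * F τ = ∑ τ ∈ l9aTab N r, |l9aWt ms N 1 r τ| * F (l9hjRe r e τ) := by
  have he' := tr5_perm_symm e he
  refine (Finset.sum_nbij' (l9hjRe r e) (l9hjRe r e.symm) ?_ ?_ ?_ ?_ ?_).symm
  · exact fun τ hτ => l9hj_re_mem he (l9a_mem_tab.mp hτ).1
  · exact fun τ hτ => l9hj_re_mem he' (l9a_mem_tab.mp hτ).1
  · exact fun τ hτ => l9hj_re_re he hτ
  · intro τ hτ
    have := l9hj_re_re he' hτ
    rwa [Equiv.symm_symm] at this
  · intro τ hτ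
    rw [l9hj_wt_perm hr ms e he hτ]

/-- a permutation of the labels `< r` which sends `0, 1` to a given pair -/
theorem l9hj_perm_exists {r a b : ℕ} (ha : a < r) (hb : b < r) (hab : a ≠ b) :
    ∃ e : Equiv.Perm ℕ, (∀ y, r ≤ y → e y = y) ∧ e 0 = a ∧ e 1 = b := by
  have hb' : Equiv.swap 0 a b < r ∧ Equiv.swap 0 a b ≠ 0 := by
    rw [Equiv.swap_apply_def]
    split_ifs with h1 h2
    · exact ⟨ha, by omega⟩
    · exact absurd h2.symm hab
    · exact ⟨hb, h1⟩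
  refine ⟨(Equiv.swap 1 (Equiv.swap 0 a b)).trans (Equiv.swap 0 a), fun y hy => ?_, ?_, ?_⟩
  · have h1 : Equiv.swap 1 (Equiv.swap 0 a b) y = y := Equiv.swap_apply_of_ne_of_ne (by omega) (by have := hb'.1; omega)
    rw [Equiv.trans_apply, h1]
    exact Equiv.swap_apply_of_ne_of_ne (by omega) (by omega)
  · rw [Equiv.trans_apply, Equiv.swap_apply_of_ne_of_ne (by omega) hb'.2.symm, Equiv.swap_apply_left]
  · rw [Equiv.trans_apply, Equiv.swap_apply_left, Equiv.swap_apply_self]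

/-! ## 2. the first two labels -/

/-- weights of the attachments of a second label to the root label -/
theorem l9hj_wt1 (ms : ℕ → ℝ) (N j : ℕ) (hj : j ≤ N + 1) :
    trWt ms N 1 (fun _ _ => N + 1) 0 j = if j = N + 1 then ms N else trPm ms j - ms j := by
  unfold trWt
  have h1 : trIsMin (fun _ _ => N + 1) j 0 := fun y hy => absurd hy (Nat.not_lt_zero _)
  rw [if_pos h1]
  have h2 : trDeg 1 (fun _ _ => N + 1) j 0 = 1 := by
    unfold trDeg
    have : (Finset.range 1).filter (fun y => j ≤ N + 1 ∧ trIsMin (fun _ _ => N + 1) (j + 1) y) = {0} := by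
      ext y
      simp only [Finset.mem_filter, Finset.mem_range, Finset.mem_singleton, Nat.lt_one_iff]
      constructor
      · exact fun h => h.1
      · rintro rfl
        exact ⟨rfl, hj, fun y hy => absurd hy (Nat.not_lt_zero _)⟩
    rw [this]; rfl
  rw [h2]; simp

/-- the total variation sums depend on the old tree only through its values on the labels -/
theorem l9hj_absK_tree {N q : ℕ} {τ τ' : ℕ → ℕ → ℕ} {ms : ℕ → ℝ} (h : L9aAg q τ τ') (k : ℕ)
    (Φ : (ℕ → ℕ → ℕ) → ℝ) (hΦ : ∀ τ₁ τ₂, L9aAg (q + k) τ₁ τ₂ → Φ τ₁ = Φ τ₂) : trAbsK ms N k q τ Φ = trAbsK ms N k q τ' Φ := by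
  induction k generalizing q τ τ' with
  | zero => exact hΦ τ τ' h
  | succ k ih =>
    rw [trAbsK, trAbsK]
    unfold trAbs
    refine Finset.sum_congr rfl fun x hx => Finset.sum_congr rfl fun j hj => ?_
    have hx' := Finset.mem_range.mp hx
    rw [tr_wt_congr h x j hx']
    congr 1
    refine ih ?_ ?_
    · intro y z hy hz
      unfold trAtt
      split_ifs with h1 h2 h2
      · rfl
      · rw [h x z hx' (by omega)]
      · rw [h y x (by omega) hx']
      · exact h y z (by omega) (by omega)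
    · intro τ₁ τ₂ H
      exact hΦ τ₁ τ₂ (by rwa [show q + (k + 1) = q + 1 + k by omega])

/-- the weight of the level `j` of the pair `(0, 1)` -/
def l9hjW (ms : ℕ → ℝ) (N j : ℕ) : ℝ := if j = N + 1 then ms N else l9aMu ms j

/-- **the first two labels, then `k` others** -/
theorem l9hj_pair {N k : ℕ} {ms : ℕ → ℝ} (hms : IsMs N ms) (F : (ℕ → ℕ → ℕ) → ℝ) (hF : ∀ τ₁ τ₂, L9aAg (2 + k) τ₁ τ₂ → F τ₁ = F τ₂) :
    ∑ τ ∈ l9aTab N (2 + k), |l9aWt ms N 1 (2 + k) τ| * F τ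
      = ∑ j ∈ range (N + 2), l9hjW ms N j * trAbsK ms N k 2 (jtTab2 N j) F := by
  have h := l9a_flat_abs (ms := ms) (k + 1) (l9k_root_isTr N) F (by rwa [show 1 + (k + 1) = 2 + k by omega])
  rw [show 1 + (k + 1) = 2 + k by omega] at h
  rw [← h]
  show trAbs ms N 1 (fun _ _ => N + 1) (fun τ' => trAbsK ms N k (1 + 1) τ' F) = _
  unfold trAbs
  rw [Finset.sum_range_one]
  refine Finset.sum_congr rfl fun j hj => ?_
  have hj' : j ≤ N + 1 := by have := Finset.mem_range.mp hj; omega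
  rw [l9hj_wt1 ms N j hj']
  congr 1
  · unfold l9hjW
    split_ifs with h1
    · exact abs_of_nonneg (hms.nonneg N)
    · have := l9a_mu_nonneg hms (show j ≤ N by omega)
      unfold l9aMu at this ⊢
      rw [abs_of_nonpos (by linarith)]
      ring
  · refine l9hj_absK_tree (fun y z hy hz => ?_) k F hF
    unfold trAtt jtTab2
    interval_cases y <;> interval_cases z <;> simp [hj']

/-! ## 3. the core: any pair of labels is retained -/

section core
variable {S : Type} [Fintype S] [Inhabited S]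

/-- tilted minus untilted at a table on `r` labels -/
noncomputable def l9hjD (X : Bool → JtCtx S) (r : ℕ) (A : Finset ℕ) (τ : JtTopo) : ℝ :=
  ((X true).nu r τ fun σ => ∏ i ∈ A, l9htDl X (X false).Sf true (l9Lv τ i) (σ (2 * i)) (σ (2 * i + 1)))
    - (X false).nu r τ fun σ => ∏ i ∈ A, l9htDl X (X false).Sf false (l9Lv τ i) (σ (2 * i)) (σ (2 * i + 1))

/-- relabelling under a positive law -/
theorem l9hj_nu_re {X : Bool → JtCtx S} {ms : ℕ → ℝ} (hL : ∀ e, (X e).Law ms) {N : ℕ} (hN : ∀ e, (X e).N = N) {r n : ℕ} (h2n : 2 * n ≤ r)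
    {A : Finset ℕ} (hA : A ⊆ range n) (f : Equiv.Perm ℕ) (hf : ∀ y, r ≤ y → f y = y) (Sf : ℕ → ℝ) (en : Bool) {τ : JtTopo}
    (hτ : IsTr N r τ) :
    ((X en).nu r (l9hjRe r f τ) fun σ => ∏ i ∈ A, l9htDl X Sf en (l9Lv (l9hjRe r f τ) i) (σ (2 * i)) (σ (2 * i + 1)))
      = (X en).nu r τ fun σ => ∏ i ∈ A, l9htDl X Sf en (τ (f (2 * i)) (f (2 * i + 1))) (σ (f (2 * i))) (σ (f (2 * i + 1))) := by
  have hlt : ∀ i ∈ A, 2 * i < r ∧ 2 * i + 1 < r := fun i hi => by have := Finset.mem_range.1 (hA hi); omega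
  have e1 : (fun σ : ℕ → S => ∏ i ∈ A, l9htDl X Sf en (l9Lv (l9hjRe r f τ) i) (σ (2 * i)) (σ (2 * i + 1)))
      = fun σ => ∏ i ∈ A, l9htDl X Sf en (τ (f (2 * i)) (f (2 * i + 1))) (σ (2 * i)) (σ (2 * i + 1)) := by
    funext σ
    refine Finset.prod_congr rfl fun i hi => ?_
    unfold l9Lv
    rw [l9hj_re_apply f τ (hlt i hi).1 (hlt i hi).2]
  rw [e1, (hL en).nu.congr r (l9hjRe r f τ) (fun y z => τ (f y) (f z)) (l9a_nm_ag r _)]
  have hU : TrUses r fun σ : ℕ → S => ∏ i ∈ A, l9htDl X Sf en (τ (f (2 * i)) (f (2 * i + 1))) (σ (2 * i)) (σ (2 * i + 1)) := by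
    intro σ σ' h
    refine Finset.prod_congr rfl fun i hi => ?_
    rw [h _ (hlt i hi).1, h _ (hlt i hi).2]
  exact ((hL en).nu.comap r r τ (by rw [hN en]; exact hτ) f (fun x hx => tr5_perm_lt f hf hx) _ hU).symm

theorem l9hj_absK_zero (ms : ℕ → ℝ) (N k q : ℕ) (τ : ℕ → ℕ → ℕ) : trAbsK ms N k q τ (fun _ => 0) = 0 := by
  have := tra2_absK_const_mul (ms := ms) (N := N) (q := q) (τ := τ) k 0 fun _ => 0
  simpa using this

/-- **CORE**: the pair `(a, b)` is retained (levels in `[ti, N]` on the support), multiplier `γ (τ a b)` -/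
theorem l9hj_core {X : Bool → JtCtx S} {ms eb vv : ℕ → ℝ} {N ti n k : ℕ} {Lam : ℝ} (hL : ∀ e, (X e).Law ms) (hN : ∀ e, (X e).N = N)
    (hmsk : ∀ l, l < ti → (X false).msk l = 1) (heb : ∀ l, 0 ≤ eb l) (hvv : ∀ l, 0 ≤ vv l) (hLam : 0 ≤ Lam)
    (H : L8_LS2 (X false) (X true) ti eb vv k n Lam) (h2n : 2 * n ≤ 2 + k)
    {A Lo : Finset ℕ} (hAne : A.Nonempty) (hALo : A ⊆ Lo) (hLo : Lo ⊆ range n)
    {a b : ℕ} (ha : a < 2 + k) (hb : b < 2 + k) (hab : a ≠ b) {γ : ℕ → ℝ} (hγ : ∀ j, 0 ≤ γ j) (w : JtTopo → ℝ)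
    (hsupp : ∀ τ ∈ l9aTab N (2 + k), w τ ≠ 0 → ti ≤ τ a b ∧ τ a b ≤ N ∧ ∀ i ∈ Lo, l9Lv τ i < ti)
    (hmaj : ∀ τ ∈ l9aTab N (2 + k), |w τ| ≤ γ (τ a b) * ((∏ i ∈ Lo \ A, eb (l9Lv τ i)) * if Lo.card = 1 then ∏ i ∈ A, vv (l9Lv τ i) else 1)) :
    |∑ τ ∈ l9aTab N (2 + k), |l9aWt ms N 1 (2 + k) τ| * w τ * l9hjD X (2 + k) A τ| ≤ (∑ j ∈ range (N + 1), l9aMu ms j * γ j) * Lam := by
  classical
  obtain ⟨e, he, e0, e1⟩ := l9hj_perm_exists ha hb hab
  obtain ⟨f, hf⟩ : ∃ f : Equiv.Perm ℕ, f = e.symm := ⟨_, rfl⟩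
  have hfix : ∀ y, 2 + k ≤ y → f y = y := hf ▸ tr5_perm_symm e he
  have hflt : ∀ y, y < 2 + k → f y < 2 + k := fun y hy => tr5_perm_lt f hfix hy
  have fa : f a = 0 := by rw [hf, ← e0]; simp
  have fb : f b = 1 := by rw [hf, ← e1]; simp
  have hms : IsMs N ms := hN false ▸ (hL false).isMs
  have hA : A ⊆ range n := hALo.trans hLo
  have hlt : ∀ i ∈ Lo, 2 * i < 2 + k ∧ 2 * i + 1 < 2 + k := fun i hi => by have := Finset.mem_range.1 (hLo hi); omega
  have hlv : ∀ τ, ∀ i ∈ Lo, l9Lv (l9hjRe (2 + k) f τ) i = τ (f (2 * i)) (f (2 * i + 1)) := fun τ i hi => by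
    unfold l9Lv
    rw [l9hj_re_apply f τ (hlt i hi).1 (hlt i hi).2]
  have hab' : ∀ τ, l9hjRe (2 + k) f τ a b = τ 0 1 := fun τ => by rw [l9hj_re_apply f τ ha hb, fa, fb]
  -- the summand
  obtain ⟨F, hF⟩ : ∃ F : JtTopo → ℝ, F = fun τ => w (l9hjRe (2 + k) f τ) * l9hjD X (2 + k) A (l9hjRe (2 + k) f τ) := ⟨_, rfl⟩
  have hFloc : ∀ τ₁ τ₂, L9aAg (2 + k) τ₁ τ₂ → F τ₁ = F τ₂ := fun τ₁ τ₂ h => by simp only [hF, l9hj_re_congr hfix h]
  have hS : ∑ τ ∈ l9aTab N (2 + k), |l9aWt ms N 1 (2 + k) τ| * w τ * l9hjD X (2 + k) A τ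
      = ∑ j ∈ range (N + 2), l9hjW ms N j * trAbsK ms N k 2 (jtTab2 N j) F := by
    rw [← l9hj_pair hms F hFloc, hF, ← l9hj_sum_perm (by omega) ms f hfix (fun τ => w τ * l9hjD X (2 + k) A τ)]
    exact Finset.sum_congr rfl fun τ _ => by ring
  rw [hS]
  -- one level
  have hone : ∀ j ∈ range (N + 2), |l9hjW ms N j * trAbsK ms N k 2 (jtTab2 N j) F| ≤ (if j ≤ N then l9aMu ms j * γ j else 0) * Lam := by
    intro j hj
    have hj' : j ≤ N + 1 := by have := Finset.mem_range.mp hj; omega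
    have hT2 := l8hk_tab2_isTr N j hj'
    have hR0 : 0 ≤ (if j ≤ N then l9aMu ms j * γ j else 0) * Lam := by
      refine mul_nonneg ?_ hLam
      split_ifs with h
      · exact mul_nonneg (l9a_mu_nonneg hms h) (hγ j)
      · exact le_rfl
    by_cases hjr : ti ≤ j ∧ j ≤ N
    · obtain ⟨h1, h2⟩ := hjr
      obtain ⟨w2, hw2⟩ : ∃ w2 : JtTopo → ℝ, w2 = fun τ => if IsTr N (2 + k) τ ∧ τ 0 1 = j then w (l9hjRe (2 + k) f τ) / γ j else 0 := ⟨_, rfl⟩
      have hU : A ∪ Lo \ A = Lo := Finset.union_sdiff_of_subset hALo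
      have hscale : ∀ τ, IsTr N (2 + k) τ → τ 0 1 = j → w (l9hjRe (2 + k) f τ) = γ j * w2 τ := by
        intro τ hτ h01
        rw [hw2]
        simp only [if_pos (And.intro hτ h01)]
        rcases eq_or_lt_of_le (hγ j) with h0 | h0
        · have := hmaj _ (l9hj_re_mem hfix hτ)
          rw [hab', h01, ← h0, zero_mul] at this
          rw [abs_nonpos_iff.1 this, ← h0]
          simp
        · field_simp
      have key := H j h1 (by rw [hN false]; exact h2) A (Lo \ A) (fun s => f (2 * s)) (fun s => f (2 * s + 1)) w2 hAne Finset.disjoint_sdiff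
        (by rw [hU]; exact hLo)
        (by
          rw [hU]
          intro s hs
          exact ⟨hflt _ (hlt s hs).1, hflt _ (hlt s hs).2, fun h => by have := f.injective h; omega⟩)
        (by
          intro τ τ' hag
          have hag' : L9aAg (2 + k) τ τ' := fun y z hy hz => (hag y z hy hz).symm
          have i1 : IsTr N (2 + k) τ ↔ IsTr N (2 + k) τ' := ⟨fun h => hag'.isTr h, fun h => hag'.symm.isTr h⟩
          rw [hw2]
          simp only [i1, hag' 0 1 (by omega) (by omega), l9hj_re_congr hfix hag'])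
        (by
          rw [hU]
          intro τ hne s hs
          rw [hw2] at hne
          by_cases hc : IsTr N (2 + k) τ ∧ τ 0 1 = j
          · simp only [if_pos hc] at hne
            have hne' : w (l9hjRe (2 + k) f τ) ≠ 0 := fun h0 => hne (by rw [h0, zero_div])
            have := (hsupp _ (l9hj_re_mem hfix hc.1) hne').2.2 s hs
            rwa [hlv τ s hs] at this
          · simp only [if_neg hc] at hne
            exact absurd rfl hne)
        (by
          rw [hU]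
          intro τ
          have hR : 0 ≤ (∏ s ∈ Lo \ A, eb (τ (f (2 * s)) (f (2 * s + 1)))) * if Lo.card = 1 then ∏ s ∈ A, vv (τ (f (2 * s)) (f (2 * s + 1))) else 1 := by
            refine mul_nonneg (Finset.prod_nonneg fun s _ => heb _) ?_
            split_ifs
            · exact Finset.prod_nonneg fun s _ => hvv _
            · exact zero_le_one
          rw [hw2]
          by_cases hc : IsTr N (2 + k) τ ∧ τ 0 1 = j
          · simp only [if_pos hc]
            have h3 := hmaj _ (l9hj_re_mem hfix hc.1)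
            rw [hab', hc.2, Finset.prod_congr rfl (fun i hi => by rw [hlv τ i (Finset.sdiff_subset hi)]),
              Finset.prod_congr (s₁ := A) rfl (fun i hi => by rw [hlv τ i (hALo hi)])] at h3
            rcases eq_or_lt_of_le (hγ j) with h0 | h0
            · rw [← h0, div_zero, abs_zero]; exact hR
            · rw [abs_div, abs_of_pos h0, div_le_iff₀ h0]
              linarith
          · simp only [if_neg hc, abs_zero]; exact hR)
      rw [(hL false).absK, hN false] at key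
      have hcg : trAbsK ms N k 2 (jtTab2 N j) F = γ j * trAbsK ms N k 2 (jtTab2 N j) fun τ => w2 τ *
          ((X true).nu (2 + k) τ (fun σ => ∏ s ∈ A, ((X true).Qs τ σ (f (2 * s)) (f (2 * s + 1)) - (X false).Sf (τ (f (2 * s)) (f (2 * s + 1)))))
            - (X false).nu (2 + k) τ fun σ => ∏ s ∈ A, (X false).dl τ σ (f (2 * s)) (f (2 * s + 1))) := by
        rw [← tra2_absK_const_mul]
        refine tr_absK_congr hT2 k _ _ fun τ hτ hag => ?_
        have h01 : τ 0 1 = j := by rw [hag 0 1 (by omega) (by omega)]; simp [jtTab2]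
        rw [hF]
        simp only
        rw [← mul_assoc, ← hscale τ hτ h01]
        by_cases hw0 : w (l9hjRe (2 + k) f τ) = 0
        · rw [hw0, zero_mul, zero_mul]
        · congr 1
          unfold l9hjD
          rw [l9hj_nu_re hL hN h2n hA f hfix _ true hτ, l9hj_nu_re hL hN h2n hA f hfix _ false hτ]
          congr 1
          congr 1
          funext σ
          refine Finset.prod_congr rfl fun s hs => ?_
          have := (hsupp _ (l9hj_re_mem hfix hτ) hw0).2.2 s (hALo hs)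
          rw [hlv τ s (hALo hs)] at this
          unfold l9htDl JtCtx.dl
          rw [hmsk _ this, one_mul]
      rw [hcg, if_pos h2, abs_mul, abs_mul, abs_of_nonneg (hγ j)]
      have hW : |l9hjW ms N j| = l9aMu ms j := by
        unfold l9hjW
        rw [if_neg (by omega), abs_of_nonneg (l9a_mu_nonneg hms h2)]
      rw [hW, ← mul_assoc]
      exact mul_le_mul_of_nonneg_left key (mul_nonneg (l9a_mu_nonneg hms h2) (hγ j))
    · have hz : trAbsK ms N k 2 (jtTab2 N j) F = 0 := by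
        rw [← l9hj_absK_zero ms N k 2 (jtTab2 N j)]
        refine tr_absK_congr hT2 k _ _ fun τ hτ hag => ?_
        have h01 : τ 0 1 = j := by rw [hag 0 1 (by omega) (by omega)]; simp [jtTab2]
        rw [hF]
        simp only
        by_cases hw0 : w (l9hjRe (2 + k) f τ) = 0
        · rw [hw0, zero_mul]
        · have := hsupp _ (l9hj_re_mem hfix hτ) hw0
          rw [hab', h01] at this
          exact absurd ⟨this.1, this.2.1⟩ hjr
      rw [hz, mul_zero, abs_zero]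
      exact hR0
  refine (Finset.abs_sum_le_sum_abs _ _).trans ((Finset.sum_le_sum hone).trans (le_of_eq ?_))
  rw [← Finset.sum_mul, Finset.sum_range_succ, if_neg (by omega), add_zero]
  congr 1
  exact Finset.sum_congr rfl fun j hj => if_pos (by have := Finset.mem_range.mp hj; omega)

/-! ## 4. the bridge -/

omit [Fintype S] [Inhabited S] in
/-- the bound of `L8_LS2` is nonnegative -/
theorem l9hj_lam_nonneg {X Xt : JtCtx S} {ti k n : ℕ} {eb vv : ℕ → ℝ} {Lam : ℝ} (hvv : ∀ l, 0 ≤ vv l) (hti : ti ≤ X.N) (hn : 1 ≤ n)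
    (H : L8_LS2 X Xt ti eb vv k n Lam) : 0 ≤ Lam := by
  have := H X.N hti le_rfl {0} ∅ (fun _ => 0) (fun _ => 1) (fun _ => 0) (Finset.singleton_nonempty 0) (Finset.disjoint_empty_right _)
    (by
      intro s hs
      simp only [Finset.union_empty, Finset.mem_singleton] at hs
      rw [hs]
      exact Finset.mem_range.2 hn)
    (fun s _ => ⟨by omega, by omega, by omega⟩) (fun _ _ _ => rfl) (fun τ h => absurd rfl h)
    (fun τ => by simpa using hvv _)
  exact (abs_nonneg _).trans this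

/-- **BRIDGE**: (D16), second conclusion, in the interface form of LL 08 ⟹ (D16) on tables, the import of node HI.
`ti` = threshold cut of the mass `V1`; `sig ≤ eb` on the low cuts; `ms ≤ cv vv` on the low cuts. -/
theorem l9hj_ls {X : Bool → JtCtx S} {ms eb vv sig : ℕ → ℝ} {N ti n r : ℕ} {V1 cv Lam : ℝ} (hL : ∀ e, (X e).Law ms) (hN : ∀ e, (X e).N = N)
    (hthr : ∀ l, l ≤ N → (ti ≤ l ↔ V1 ≤ ms l)) (hti : ti ≤ N)
    (hmsk : ∀ l, l < ti → (X false).msk l = 1) (heb : ∀ l, 0 ≤ eb l) (hvv : ∀ l, 0 ≤ vv l)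
    (hsig0 : ∀ l, 0 ≤ sig l) (hsig : ∀ l, l < ti → sig l ≤ eb l) (hcv : 1 ≤ cv) (hmv : ∀ l, l < ti → ms l ≤ cv * vv l)
    (h2n : 2 * n ≤ r) (hr : 2 ≤ r) (H : L8_LS2 (X false) (X true) ti eb vv (r - 2) n Lam) :
    L9hiLS X N ms (X false).Sf sig V1 n r ((ms N + 1) * (cv * Lam)) := by
  classical
  obtain ⟨k, rfl⟩ : ∃ k, r = 2 + k := ⟨r - 2, by omega⟩
  rw [show 2 + k - 2 = k by omega] at H
  intro A Lo cs ds g G L0 w hAne hALo hLo hex hcs hds hL0 hg0 hglow hgint hwsupp hwmaj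
  obtain ⟨i0, hi0n, hi0⟩ := hex
  have hms : IsMs N ms := hN false ▸ (hL false).isMs
  have hLam : 0 ≤ Lam := l9hj_lam_nonneg hvv (by rw [hN false]; exact hti) (by omega) H
  have hG0 : 0 ≤ G := (l9ht_nm_nonneg hms hg0).trans hgint
  have hcv0 : 0 ≤ cv := by linarith
  -- facts on the support
  have hlow : ∀ τ, w τ ≠ 0 → ∀ i ∈ Lo, l9Lv τ i < ti := by
    intro τ hne i hi
    obtain ⟨h1, h2⟩ := hwsupp τ hne i (Finset.mem_range.1 (hLo hi))
    by_contra hc
    exact absurd (h2.1 hi) (not_lt.2 ((hthr _ h1).1 (not_lt.1 hc)))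
  obtain ⟨R, hR⟩ : ∃ R : JtTopo → ℝ, R = fun τ => (∏ i ∈ Lo \ A, eb (l9Lv τ i)) * if Lo.card = 1 then ∏ i ∈ A, vv (l9Lv τ i) else 1 := ⟨_, rfl⟩
  have hRe : ∀ τ, (∏ i ∈ Lo \ A, eb (l9Lv τ i)) * (if Lo.card = 1 then ∏ i ∈ A, vv (l9Lv τ i) else 1) = R τ := fun τ => by rw [hR]
  have hR0 : ∀ τ, 0 ≤ R τ := by
    intro τ
    rw [hR]
    refine mul_nonneg (Finset.prod_nonneg fun s _ => heb _) ?_
    split_ifs
    · exact Finset.prod_nonneg fun s _ => hvv _
    · exact zero_le_one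
  have hM : ∀ τ, w τ ≠ 0 → |w τ| ≤ L0 * (g (τ cs ds) * cv) * R τ := by
    intro τ hne
    have hl := hlow τ hne
    have p1 : ∏ i ∈ Lo \ A, sig (l9Lv τ i) ≤ ∏ i ∈ Lo \ A, eb (l9Lv τ i) :=
      Finset.prod_le_prod (fun i _ => hsig0 _) fun i hi => hsig _ (hl i (Finset.sdiff_subset hi))
    have p0 : 0 ≤ ∏ i ∈ Lo \ A, sig (l9Lv τ i) := Finset.prod_nonneg fun i _ => hsig0 _
    have t0 : 0 ≤ (if Lo.card = 1 then ∏ i ∈ A, vv (l9Lv τ i) else 1 : ℝ) := by
      split_ifs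
      · exact Finset.prod_nonneg fun s _ => hvv _
      · exact zero_le_one
    have t1 : (if Lo.card = 1 then ∏ i ∈ Lo, ms (l9Lv τ i) else 1 : ℝ) ≤ cv * if Lo.card = 1 then ∏ i ∈ A, vv (l9Lv τ i) else 1 := by
      by_cases hc : Lo.card = 1
      · rw [if_pos hc, if_pos hc]
        obtain ⟨i, hi⟩ := Finset.card_eq_one.1 hc
        have hAi : A = {i} := (Finset.Nonempty.subset_singleton_iff hAne).1 (hi ▸ hALo)
        rw [hi, hAi, Finset.prod_singleton, Finset.prod_singleton]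
        exact hmv _ (hl i (by rw [hi]; exact Finset.mem_singleton_self i))
      · rw [if_neg hc, if_neg hc, mul_one]
        exact hcv
    have t2 : 0 ≤ (if Lo.card = 1 then ∏ i ∈ Lo, ms (l9Lv τ i) else 1 : ℝ) := by
      split_ifs
      · exact Finset.prod_nonneg fun s _ => hms.nonneg _
      · exact zero_le_one
    refine (hwmaj τ).trans ?_
    rw [hR]
    have h3 : (∏ i ∈ Lo \ A, sig (l9Lv τ i)) * (if Lo.card = 1 then ∏ i ∈ Lo, ms (l9Lv τ i) else 1 : ℝ)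
        ≤ (∏ i ∈ Lo \ A, eb (l9Lv τ i)) * (cv * if Lo.card = 1 then ∏ i ∈ A, vv (l9Lv τ i) else 1) :=
      mul_le_mul p1 t1 t2 (p0.trans p1)
    have h4 := mul_le_mul_of_nonneg_left h3 (mul_nonneg hL0 (hg0 (τ cs ds)))
    calc L0 * (g (τ cs ds) * (∏ i ∈ Lo \ A, sig (l9Lv τ i)) * if Lo.card = 1 then ∏ i ∈ Lo, ms (l9Lv τ i) else 1)
        = L0 * g (τ cs ds) * ((∏ i ∈ Lo \ A, sig (l9Lv τ i)) * (if Lo.card = 1 then ∏ i ∈ Lo, ms (l9Lv τ i) else 1 : ℝ)) := by ring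
      _ ≤ _ := h4
      _ = _ := by ring
  -- the split
  obtain ⟨hi, hhi⟩ : ∃ hi : JtTopo → Prop, hi = fun τ => τ cs ds ≤ N ∧ V1 ≤ ms (τ cs ds) := ⟨_, rfl⟩
  have hsplit : ∑ τ ∈ l9aTab N (2 + k), |l9aWt ms N 1 (2 + k) τ| * w τ * l9hjD X (2 + k) A τ
      = ∑ τ ∈ l9aTab N (2 + k), |l9aWt ms N 1 (2 + k) τ| * (if hi τ then 0 else w τ) * l9hjD X (2 + k) A τ
        + ∑ τ ∈ l9aTab N (2 + k), |l9aWt ms N 1 (2 + k) τ| * (if hi τ then w τ else 0) * l9hjD X (2 + k) A τ := by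
    rw [← Finset.sum_add_distrib]
    refine Finset.sum_congr rfl fun τ _ => ?_
    by_cases h : hi τ
    · simp only [if_pos h]; ring
    · simp only [if_neg h]; ring
  -- the multiplier is bounded: the base pair `i0` is retained
  have hA' : |∑ τ ∈ l9aTab N (2 + k), |l9aWt ms N 1 (2 + k) τ| * (if hi τ then 0 else w τ) * l9hjD X (2 + k) A τ|
      ≤ (∑ j ∈ range (N + 1), l9aMu ms j * (L0 * (G * cv))) * Lam := by
    refine l9hj_core hL hN hmsk heb hvv hLam H h2n hAne hALo hLo (a := 2 * i0) (b := 2 * i0 + 1) (by omega) (by omega) (by omega)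
      (γ := fun _ => L0 * (G * cv)) (fun _ => by positivity) _ ?_ ?_
    · intro τ _ hne
      have hne' : w τ ≠ 0 := by
        intro h0
        apply hne
        split_ifs <;> first | rfl | exact h0
      obtain ⟨h1, h2⟩ := hwsupp τ hne' i0 hi0n
      exact ⟨(hthr _ h1).2 (not_lt.1 fun h => hi0 (h2.2 h)), h1, hlow τ hne'⟩
    · intro τ hτ
      rw [hRe]
      by_cases h : hi τ
      · rw [if_pos h, abs_zero]
        exact mul_nonneg (by positivity) (hR0 τ)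
      · rw [if_neg h]
        by_cases hw0 : w τ = 0
        · rw [hw0, abs_zero]
          exact mul_nonneg (by positivity) (hR0 τ)
        · refine (hM τ hw0).trans (mul_le_mul_of_nonneg_right (mul_le_mul_of_nonneg_left (mul_le_mul_of_nonneg_right ?_ hcv0) hL0) (hR0 τ))
          have hle := (l9a_mem_tab.mp hτ).1.le cs ds hcs hds
          rw [hhi] at h
          by_cases hN' : τ cs ds ≤ N
          · exact hglow _ (not_le.1 fun h' => h ⟨hN', h'⟩)
          · have e : τ cs ds = N + 1 := by omega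
            rw [e]
            refine le_trans ?_ hgint
            have := Finset.single_le_sum (f := fun k => l9aMw ms N k * g k) (fun k _ => mul_nonneg (l9a_mw_nonneg hms k) (hg0 k))
              (Finset.mem_range.2 (show N + 1 < N + 2 by omega))
            have e3 : l9aMw ms N (N + 1) = 1 := by unfold l9aMw; rw [if_neg (by omega)]
            simp only [e3, one_mul] at this
            exact this
  -- the multiplier is high: its pair is retained
  have hB' : |∑ τ ∈ l9aTab N (2 + k), |l9aWt ms N 1 (2 + k) τ| * (if hi τ then w τ else 0) * l9hjD X (2 + k) A τ|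
      ≤ (∑ j ∈ range (N + 1), l9aMu ms j * (L0 * (g j * cv))) * Lam := by
    by_cases hcd : cs = ds
    · have hz : ∑ τ ∈ l9aTab N (2 + k), |l9aWt ms N 1 (2 + k) τ| * (if hi τ then w τ else 0) * l9hjD X (2 + k) A τ = 0 := by
        refine Finset.sum_eq_zero fun τ hτ => ?_
        have : ¬ hi τ := by
          rw [hhi, hcd]
          intro h
          have h1 := h.1
          rw [(l9a_mem_tab.mp hτ).1.diag ds hds] at h1
          omega
        rw [if_neg this, mul_zero, zero_mul]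
      rw [hz, abs_zero]
      exact mul_nonneg (Finset.sum_nonneg fun j hj => mul_nonneg (l9a_mu_nonneg hms (by have := Finset.mem_range.1 hj; omega))
        (mul_nonneg hL0 (mul_nonneg (hg0 j) hcv0))) hLam
    · refine l9hj_core hL hN hmsk heb hvv hLam H h2n hAne hALo hLo (a := cs) (b := ds) hcs hds hcd
        (γ := fun j => L0 * (g j * cv)) (fun j => mul_nonneg hL0 (mul_nonneg (hg0 j) hcv0)) _ ?_ ?_
      · intro τ _ hne
        by_cases h : hi τ
        · rw [if_pos h] at hne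
          rw [hhi] at h
          exact ⟨(hthr _ h.1).2 h.2, h.1, hlow τ hne⟩
        · rw [if_neg h] at hne
          exact absurd rfl hne
      · intro τ _
        rw [hRe]
        have hp : 0 ≤ L0 * (g (τ cs ds) * cv) * R τ := mul_nonneg (mul_nonneg hL0 (mul_nonneg (hg0 _) hcv0)) (hR0 τ)
        by_cases h : hi τ
        · rw [if_pos h]
          by_cases hw0 : w τ = 0
          · rw [hw0, abs_zero]; exact hp
          · exact hM τ hw0
        · rw [if_neg h, abs_zero]; exact hp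
  show |∑ τ ∈ l9aTab N (2 + k), |l9aWt ms N 1 (2 + k) τ| * w τ * l9hjD X (2 + k) A τ| ≤ _
  rw [hsplit]
  refine (abs_add_le _ _).trans ((add_le_add hA' hB').trans ?_)
  have s1 : ∑ j ∈ range (N + 1), l9aMu ms j * (L0 * (G * cv)) = ms N * (L0 * (G * cv)) := by
    rw [← Finset.sum_mul, l9a_mu_sum]
  have s2 : ∑ j ∈ range (N + 1), l9aMu ms j * (L0 * (g j * cv)) ≤ G * (L0 * cv) := by
    have e1 : ∑ j ∈ range (N + 1), l9aMu ms j * (L0 * (g j * cv)) = (∑ j ∈ range (N + 1), l9aMu ms j * g j) * (L0 * cv) := by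
      rw [Finset.sum_mul]
      exact Finset.sum_congr rfl fun j _ => by ring
    rw [e1]
    refine mul_le_mul_of_nonneg_right (le_trans ?_ hgint) (mul_nonneg hL0 hcv0)
    unfold l9htNm
    rw [Finset.sum_range_succ _ (N + 1)]
    have e2 : ∑ j ∈ range (N + 1), l9aMw ms N j * g j = ∑ j ∈ range (N + 1), l9aMu ms j * g j :=
      Finset.sum_congr rfl fun j hj => by
        unfold l9aMw
        rw [if_pos (by have := Finset.mem_range.1 hj; omega)]
    rw [e2]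
    exact le_add_of_nonneg_right (mul_nonneg (l9a_mw_nonneg hms _) (hg0 _))
  rw [s1]
  have s3 := mul_le_mul_of_nonneg_right s2 hLam
  calc ms N * (L0 * (G * cv)) * Lam + (∑ j ∈ range (N + 1), l9aMu ms j * (L0 * (g j * cv))) * Lam
      ≤ ms N * (L0 * (G * cv)) * Lam + G * (L0 * cv) * Lam := by linarith
    _ = L0 * (G * ((ms N + 1) * (cv * Lam))) := by ring

end core

/-! ## 5. at a point of Sec. 9 -/

/-- **(D16), second conclusion, at a point `Q` of Sec. 9**: the interface form of LL 08 at the instance `Q.i8` (threshold cut `ti` of the mass `V1`, envelope `eb`, sole coefficient `v / a`), for the degrees `n ≤ J0` and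
`k ≤ 2 J0` new labels ⟹ `Q.HiLS` for EVERY envelope `0 ≤ sig`, `sig ≤ eb` on the low cuts. -/
theorem l9hj_point (Q : L9Q) {δm : ℝ} (hAdm : Q.Adm δm) {V1 Lam : ℝ} {ti J0 : ℕ} {eb sig : ℕ → ℝ} (hV : V1 ≤ Q.p.a) (ha1 : 1 ≤ Q.p.a)
    (hthr : Q.i8.Thr V1 ti) (heb : ∀ l, 0 ≤ eb l) (hsig0 : ∀ l, 0 ≤ sig l) (hsig : ∀ l, l < ti → sig l ≤ eb l)
    (H : ∀ n k, n ≤ J0 → k ≤ 2 * J0 → L8_LS2 (Q.i8.X false) (Q.i8.X true) ti eb (fun l => Q.i8.v l / Q.i8.a) k n Lam) :
    Q.HiLS V1 sig J0 ((Q.p.a + 1) * (Q.p.a * Lam)) := by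
  have hms := Q.isMs hAdm
  have ha0 : 0 < Q.p.a := hAdm.a_pos
  have htop : Q.ms Q.N = Q.p.a := Q.ms_top le_rfl
  have hthr' : ∀ l, l ≤ Q.N → (ti ≤ l ↔ V1 ≤ Q.ms l) := fun l hl => by
    have := hthr l hl
    rwa [l9rs_v] at this
  have hti : ti ≤ Q.N := (hthr' Q.N le_rfl).2 (by rw [htop]; exact hV)
  have hvv : ∀ l, 0 ≤ Q.i8.v l / Q.i8.a := fun l => by
    rw [l9rs_v]
    exact div_nonneg (hms.nonneg l) ha0.le
  have hmv : ∀ l, l < ti → Q.ms l ≤ Q.p.a * (Q.i8.v l / Q.i8.a) := fun l _ => by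
    rw [l9rs_v]
    show Q.ms l ≤ Q.p.a * (Q.ms l / Q.p.a)
    rw [mul_div_cancel₀ _ ha0.ne']
  intro n hn hnJ
  have key : ∀ r, 2 * n ≤ r → r - 2 ≤ 2 * J0 → L9hiLS Q.X Q.N Q.ms Q.Sf sig V1 n r ((Q.p.a + 1) * (Q.p.a * Lam)) := by
    intro r h1 h2
    have := l9hj_ls (X := Q.X) (ms := Q.ms) (N := Q.N) (sig := sig) (V1 := V1) (cv := Q.p.a) (Q.law hAdm) (fun _ => rfl) hthr' hti (fun _ _ => rfl) heb hvv
      hsig0 hsig ha1 hmv h1 (by omega) (H n (r - 2) hnJ h2)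
    rw [htop] at this
    exact this
  exact ⟨key _ le_rfl (by omega), key _ (by omega) (by omega)⟩

/-- threshold cuts exist -/
theorem l9hj_thr_exists (Q : L9Q) {δm : ℝ} (hAdm : Q.Adm δm) (V : ℝ) : ∃ ti, Q.i8.Thr V ti := by
  classical
  have hms := Q.isMs hAdm
  unfold L8In.Thr
  rw [l9rs_v]
  show ∃ ti, ∀ k, k ≤ Q.N → (ti ≤ k ↔ V ≤ Q.ms k)
  by_cases h : ∃ k, k ≤ Q.N ∧ V ≤ Q.ms k
  · exact ⟨Nat.find h, fun k hk => ⟨fun h1 => (Nat.find_spec h).2.trans (hms.mono _ _ h1 hk), fun h1 => Nat.find_min' h ⟨hk, h1⟩⟩⟩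
  · push Not at h
    exact ⟨Q.N + 1, fun k hk => ⟨fun h1 => by omega, fun h1 => absurd h1 (not_le.2 (h k hk))⟩⟩

/-- **(D16), SECOND CONCLUSION, AT A POINT OF THE SIZE SEGMENT, ON TABLES, numbers chosen**: the exports `I.All e A ..` of `exit_dlow` at `I = Q.i8`, on the stop, source loss `|A| ≤ C1 x^(-θ)`, orders `pm, jm ≥ J0`, `pm ≥ 4 / θ`,
`θ ≤ min (ε / (20 + 2 J0)) (a_1 / 40) (δ_* / 40)`, `N` large (`hbig`)   ⟹   `Q.HiLS (x^a1) sig J0 (20 K C x^(3 - ε - κ p_*) Zc²)`, `κ = s_* + 1 + η`,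
for EVERY envelope `0 ≤ sig`, `sig ≤ A' e` on the cuts below `x^a1`, `A' = (Cb + 2) C1 x^(-2θ)`.      `K` depends on `J0` only. -/
theorem l9hj_both (J0 : ℕ) (hJ : 1 ≤ J0) : ∃ K : ℝ, 0 ≤ K ∧
    ∀ (Q : L9Q) (δm : ℝ) (e : ℕ → ℝ) (A v0 v1 cE εs qs η' θ ε a1 Cb C1 : ℝ) (pm jm : ℕ), Q.Adm δm → Q.i8.Ok → l8Siz Q.p → Q.i8.Fine η' →
      1 ≤ Q.i8.Zc llDStar → Q.i8.All e A (Q.i8.Yc llDStar) 1 v0 v1 cE εs qs pm jm → Q.i8.s = qs * Q.x ^ (1 + εs) → Q.i8.Stop (Q.x ^ εs) →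
      |A| ≤ C1 * Q.x ^ (-θ) → 0 ≤ Cb → 1 ≤ C1 → 0 < v0 → 0 < Q.I.F.pS → Q.I.F.pS ≤ 1 → 0 ≤ Q.I.F.sS → Q.I.F.sS ≤ 1 → 0 ≤ Q.I.F.eta →
      0 < θ → (20 + 2 * (J0 : ℝ)) * θ ≤ ε → 40 * θ ≤ a1 → 40 * θ ≤ llDStar → 8 ≤ 2 * (pm : ℝ) * θ → 1 / min 1 v0 + (Cb + 2) * C1 ^ 2 ≤ Q.x ^ (-θ) →
      J0 ≤ pm → J0 ≤ jm →
      ∀ sig : ℕ → ℝ, (∀ l, 0 ≤ sig l) → (∀ l, l ≤ Q.N → Q.ms l < Q.x ^ a1 → sig l ≤ (Cb + 2) * (C1 * Q.x ^ (-θ)) * Q.x ^ (-θ) * e l) →
        Q.HiLS (Q.x ^ a1) sig J0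
          (20 * (K * (l8lrC J0 θ Cb C1 * Q.x ^ (3 - ε - (Q.I.F.sS + (1 + Q.I.F.eta)) * Q.I.F.pS) * Q.i8.Zc llDStar ^ 2))) := by
  obtain ⟨K, hK, H⟩ := exit_d16b_num J0 (2 * J0) hJ
  refine ⟨K, hK, ?_⟩
  intro Q δm e A v0 v1 cE εs qs η' θ ε a1 Cb C1 pm jm hAdm hOk hs hfin hZ hAll hst hstop hA hCb hC1 hv0 hp0 hp1 hs0 hs1 het hθ hθε hθa hθd hpm hbig
    hdp hdj sig hsig0 hsig
  obtain ⟨ti, hti⟩ := l9hj_thr_exists Q hAdm (Q.x ^ a1)
  obtain ⟨hN, hLS⟩ := H Q.i8 e A v0 v1 cE εs qs η' θ ε a1 Cb C1 pm jm ti hOk hs hfin hZ hAll hst hstop hA hCb hC1 hv0 hp0 hp1 hs0 hs1 het hθ hθε hθa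
    hθd hpm hbig hdp hdj hti
  obtain ⟨e1, -, -, -, e5, -⟩ := exit_d16b_env Q.i8 hOk hs hfin.adm hAll.env hA hCb hN hti
  obtain ⟨htin, -⟩ := l8lr_low Q.i8 hOk hs hfin.adm hAll.env hA hCb hN hti
  have ha : Q.p.a = 4 := Q.i8.l8lq_a_eq hs
  have hV1 : Q.x ^ a1 ≤ 1 := hN.hV.trans (min_le_left _ _)
  have h := l9hj_point Q hAdm (V1 := Q.x ^ a1) (sig := sig) (J0 := J0) (by rw [ha]; linarith) (by rw [ha]; norm_num) hti e1 hsig0
    (fun l hl => by
      have hlN : l ≤ Q.N := le_trans hl.le htin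
      rw [e5 l hl]
      refine hsig l hlN ?_
      have h1 : ¬ Q.x ^ a1 ≤ Q.i8.v l := fun h2 => absurd ((hti l hlN).2 h2) (by omega)
      rw [l9rs_v] at h1
      exact not_le.1 h1)
    (fun n k hn hk => hLS n hn k hk)
  rw [ha] at h
  have e20 : ∀ L : ℝ, ((4 : ℝ) + 1) * (4 * L) = 20 * L := fun L => by ring
  rw [e20] at h
  exact h

theorem l9hj_eqns_cite : True := by
  have := @l9hjRe.eq_1
  have := @l9hjW.eq_1
  have := @l9hjD.eq_1
  trivial

end Claimed.Agent.R286
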