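import Claimed.Agent.R286.L09.HiSup
import Claimed.Agent.R286.L08.DdHigh
import Claimed.Agent.R286.L09.HiTop
import Claimed.Agent.R286.LL.PathsClkF

/-!
# Row 286 (S0533), LL Sec. 9, node HI, file L09/HiSupQ : `Q.HiNum` AT ONE POINT OF THE SIZE SEGMENT      (owner helper124; head of the node helper235; shell helper71 `L09/HiNumX.lean`; prefix `l9hq`, `L8In.DdHi`, `L8xDdH`)

TEX[LL:exp:high-table] 09-expansion.tex l.331-337 ("every high deterministic factor, including `d` or `ḋ`, is bounded by `O_⋄(x^(2+b_H)(Z²+Z_g))`");   TEX[LL:paths:size-derivatives] (03: `d = H_lo + χ_lin H_lin` above the mask of a smoothed path).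
1. PATH PART of the dotted defect.   With the EXACT clock values of `L8In.Fine` v2 (`b_eq, K_eq, h_eq`, 118) at the instance `I.wP t`:   `I.Dp (k+1) t = (I.pAt t).d (v k)` for `v k ≠ x` (`l9hq_Dp_eq`);
   on a smoothed path `|d_θ'(v) - d_θ(v)| ≤ x³ |θ' - θ|` for `v ≥ x` (`l9hq_d_lip` <= `lcf_siz_d`, `lcf_siz_Hlo`, `lcf_siz_Hlin`, `l9hs_lamU`).
2. `I.DdHi V η` = `ḋ` above `V` up to an `L¹` excess;   EVENT `l9hq_ddHi` : `L8gFine + L8xDdH ⟹` (differentiable scalar clock values `→ I.DdHi (x^a1) (x^6)`), `L8xDdH` = the statement of `l8dh_exit` (226 / 124, `L08/DdHigh.lean`).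
3. DICTIONARY `Q ↔ Q.j8` at `Q = l9QS ..`: `l9hq_Sf`, `l9hq_ff`, `l9hq_dV`, `l9hq_dD`, `l9hq_mw`, `l9hq_Zc`, `l9hq_Y`, `l9hq_Zg`, `l9hq_dif`.
4. **`l9hq_num_pt`** : `Q.j8.HiSup c A a1 a2 bH CH a1 sig + Q.j8.DdHi (x^a1) (x^6) ⟹ Q.HiNum sig ..` (`sig` UNIVERSAL);   `E1 = A² Y²` (then `L9Q.HiNum.mono`).
-/

set_option autoImplicit false

namespace Claimed.Agent.R286

open Set Filter Topology

/-! ## 1. the path part of the dotted defect -/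

theorem L8In.hq_wP_v (I : L8In) (t : ℝ) (k : ℕ) : (I.wP t).v k = I.v k := by
  show skMs (I.wP t).a (llMat (I.wP t).LP) k = skMs I.a (llMat I.LP) k
  have e : ∀ P : LlStp, (llMat P).map SkInc.m = P.map LlInc.m := fun P => by
    unfold llMat; rw [List.map_map]; rfl
  unfold skMs
  rw [e, e, I.wP_mass, I.wP_a]

theorem L8In.hq_wP_x (I : L8In) (t : ℝ) : (I.wP t).x = I.x := by
  show (I.pAt t).x = I.p.x
  unfold LlPt.x
  rw [I.pAt_N]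

/-- **the path part is the defect of the path**, at a cut which reads the clocks at a stage of mass `≠ x` -/
theorem l9hq_Dp_eq (I : L8In) {t η : ℝ} (hf : (I.wP t).Fine η) {k : ℕ} (hk : k < I.n) (hx : I.v k ≠ I.x) :
    I.Dp (k + 1) t = (I.pAt t).d I.F I.𝔹 (I.v k) := by
  have hk' : k < (I.wP t).n := by rw [I.wP_n]; exact hk
  have hv := I.hq_wP_v t k
  have e1 := hf.b_eq k hk'
  have e2 := hf.K_eq k hk'
  have e3 := hf.h_eq k hk' (by rw [hv, I.hq_wP_x]; exact hx)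
  rw [hv] at e1 e2 e3
  unfold L8In.Dp
  rw [e1, e2, e3]
  show (I.pAt t).h I.F I.𝔹 (I.v k) - (I.pAt t).K I.F I.𝔹 (I.v k)
    + (I.pAt t).b I.F I.𝔹 (I.v k) * (I.pAt t).Gam I.F I.𝔹 ((I.pAt t).K I.F I.𝔹 (I.v k)) = _
  unfold LlPt.d LlPt.hS LlPt.q
  ring

/-- `|a - b| ≤ 2 |log a - log b|` on `(0, 2]` -/
theorem l9hq_sub_le_log {a b : ℝ} (ha : 0 < a) (hb : 0 < b) (ha2 : a ≤ 2) (hb2 : b ≤ 2) : |a - b| ≤ 2 * |Real.log a - Real.log b| := by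
  have key : ∀ {u w : ℝ}, 0 < u → 0 < w → u ≤ 2 → w ≤ u → |u - w| ≤ 2 * |Real.log u - Real.log w| := by
    intro u w hu hw hu2 hwu
    have h1 := Real.one_sub_inv_le_log_of_pos (div_pos hu hw)
    rw [Real.log_div hu.ne' hw.ne', inv_div] at h1
    have h0 : 0 ≤ Real.log u - Real.log w := sub_nonneg.2 (Real.log_le_log hw hwu)
    rw [abs_of_nonneg (sub_nonneg.2 hwu), abs_of_nonneg h0]
    have h2 : u - w = u * (1 - w / u) := by field_simp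
    rw [h2]
    calc u * (1 - w / u) ≤ u * (Real.log u - Real.log w) := mul_le_mul_of_nonneg_left h1 hu.le
      _ ≤ 2 * (Real.log u - Real.log w) := mul_le_mul_of_nonneg_right hu2 h0
  rcases le_total b a with h | h
  · exact key ha hb ha2 h
  · rw [abs_sub_comm a b, abs_sub_comm (Real.log a) (Real.log b)]
    exact key hb ha hb2 h

/-- **the defect of a smoothed path above the mask is `x³`-Lipschitz in `θ`** -/
theorem l9hq_d_lip {p : LlPt} {F : LlFix} (𝔹 : LlBase) (hp : p.Ok F) (hF : F.Ok) (hsm : p.sm = true) {t : ℝ} (hp' : (p.wTh t).Ok F) {v : ℝ}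
    (hv : p.x ≤ v) : |(p.wTh t).d F 𝔹 v - p.d F 𝔹 v| ≤ p.x ^ 3 * |t - 6 * Real.log p.ell| := by
  have hx0 := llc_x_pos hp
  have hl : 0 < p.ell := by linarith [hp.ell1]
  have hl' : 0 < Real.exp (t / 6) := Real.exp_pos _
  have hl2 : p.ell ≤ 2 := lce_ell_le hp
  have hl2' : Real.exp (t / 6) ≤ 2 := lce_ell_le hp'
  have e0 : p.wTh t = p.sEll (Real.exp (t / 6)) := rfl
  rw [e0, lcf_siz_d (p := p) (F := F) (𝔹 := 𝔹) (Real.exp (t / 6)) v (hp.sm_fin hsm).2, if_neg (not_lt.2 hv)]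
  have a1 := (lcf_siz_Hlo (p := p) (F := F) (ell' := Real.exp (t / 6)) hx0 hl hl' (lce_lam_pos hp).le v (hx0.trans_le hv)).1
  have a2 := (lcf_siz_Hlin (p := p) (F := F) (ell' := Real.exp (t / 6)) hx0.le v).1
  have hlog : Real.log (Real.exp (t / 6) / p.ell) = (t - 6 * Real.log p.ell) / 6 := by
    rw [Real.log_div hl'.ne' hl.ne', Real.log_exp]; ring
  have hsub : |Real.exp (t / 6) - p.ell| ≤ 2 * |(t - 6 * Real.log p.ell) / 6| := by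
    have := l9hq_sub_le_log hl' hl hl2' hl2
    rw [Real.log_exp] at this
    refine this.trans (le_of_eq ?_)
    congr 2
    ring
  rw [hlog] at a1
  set δ : ℝ := |t - 6 * Real.log p.ell| with hδ
  have hδ6 : |(t - 6 * Real.log p.ell) / 6| = δ / 6 := by rw [abs_div, abs_of_pos (by norm_num : (0 : ℝ) < 6)]
  rw [hδ6] at a1 hsub
  have hδ0 : 0 ≤ δ := abs_nonneg _
  have hx3 : 0 ≤ p.x ^ 3 := by positivity
  have b1 : |(p.sEll (Real.exp (t / 6))).Hlo F v - p.Hlo F v| ≤ p.x ^ 3 * (δ / 6) :=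
    a1.trans (mul_le_mul_of_nonneg_right (l9hs_lamU hp hF) (by positivity))
  have b2 : |p.chiL * ((p.sEll (Real.exp (t / 6))).Hlin F v - p.Hlin F v)| ≤ p.x ^ 3 * (2 * (δ / 6)) := by
    rw [abs_mul, abs_of_nonneg hp.chiL.1]
    calc p.chiL * |(p.sEll (Real.exp (t / 6))).Hlin F v - p.Hlin F v| ≤ 1 * |(p.sEll (Real.exp (t / 6))).Hlin F v - p.Hlin F v| :=
          mul_le_mul_of_nonneg_right hp.chiL.2 (abs_nonneg _)
      _ ≤ p.x ^ 3 * |Real.exp (t / 6) - p.ell| := by rw [one_mul]; exact a2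
      _ ≤ _ := mul_le_mul_of_nonneg_left hsub hx3
  calc _ ≤ |(p.sEll (Real.exp (t / 6))).Hlo F v - p.Hlo F v| + |p.chiL * ((p.sEll (Real.exp (t / 6))).Hlin F v - p.Hlin F v)| := abs_add_le _ _
    _ ≤ p.x ^ 3 * (δ / 6) + p.x ^ 3 * (2 * (δ / 6)) := add_le_add b1 b2
    _ = p.x ^ 3 * δ * (1 / 2) := by ring
    _ ≤ p.x ^ 3 * δ := by nlinarith [mul_nonneg hx3 hδ0]

/-! ## 2. the dotted defect above `V` -/

/-- **`ḋ` at the cuts of mass `≥ V`, up to an excess which is small in the mass integral** -/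
def L8In.DdHi (I : L8In) (V η : ℝ) : Prop :=
  ∃ ex : ℕ → ℝ, (∀ k, 0 ≤ ex k) ∧ ∑ k ∈ Finset.range (I.n + 1), I.dv k * ex k ≤ η ∧ ∀ k ≤ I.n, V ≤ I.v k → |I.dd k| ≤ I.x ^ 3 + η + ex k

/-- the statement of `l8dh_exit` (`L08/DdHigh.lean`) at a base `𝔹` -/
def L8xDdH (𝔹 : LlBase) (T : ℝ) : Prop :=
  ∀ F0, L8Fix 𝔹 T F0 → ∀ (pB : LLParB) (pS : ℝ), 0 < pS → pS ≤ 1 →
    ∀ η : ℕ → ℝ, (∀ N, 0 < η N) → ∃ N0 : ℕ, L8Ev (F0.wExp pB.sStar pB.eta pS) 𝔹 N0 (fun _ => True) fun I =>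
      (∀ j ≤ I.n, DifferentiableAt ℝ (fun t => (I.wP t).KC j) I.t0) →
      ∃ ex : ℕ → ℝ, (∀ k, 0 ≤ ex k) ∧ ∑ k ∈ Finset.range (I.n + 1), I.dv k * ex k ≤ η I.p.N ∧
        ∀ k ≤ I.n, ∀ Lp : ℝ, (∀ᶠ t in 𝓝 I.t0, (I.pAt t).Ok I.F → |I.Dp k t - I.Dp k I.t0| ≤ Lp * |t - I.t0|) → |I.dd k| ≤ Lp + η I.p.N + ex k

theorem l9hq_eqns_cite : True := by
  have := @L8In.DdHi.eq_1
  have := @L8xDdH.eq_1
  trivial

theorem exit_l8x_ddH (T : ℝ) (hT : 1 < T) : L8xDdH llBase T := l8dh_exit T hT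

/-- an event which holds uniformly in the point holds at all the parameters of the segment through the point -/
theorem L8Ev.hq_wP {F : LlFix} {𝔹 : LlBase} {N0 : ℕ} {Φ : L8In → Prop} (h : L8Ev F 𝔹 N0 (fun _ => True) Φ) :
    L8Ev F 𝔹 N0 (fun _ => True) fun I => ∀ t, (I.pAt t).Ok I.F → Φ (I.wP t) := by
  intro N s hN
  filter_upwards [h N s hN] with Fs hFs ell lam chiL chiE sm γ m _ hOk t ht
  cases sm with
  | true =>
    exact hFs (Real.exp (t / 6)) lam chiL chiE true γ m trivial ⟨ht, hOk.m_lo, hOk.m_hi, hOk.s_pos, hOk.s_lt⟩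
  | false =>
    exact hFs ell (Real.exp t) chiL chiE false γ m trivial ⟨ht, hOk.m_lo, hOk.m_hi, hOk.s_pos, hOk.s_lt⟩

/-- **one instance** -/
theorem l9hq_ddHi_one {I : L8In} (hOk : I.Ok) (hF : I.F.Ok) (hsm : I.p.sm = true) {η0 η V : ℝ} (hfi : I.Fine η0)
    (hfine : ∀ t, (I.pAt t).Ok I.F → (I.wP t).Fine η0) (h0 : 0 ≤ I.x + η0) (hV : I.x + η0 < V)
    (hlink : ∃ ex : ℕ → ℝ, (∀ k, 0 ≤ ex k) ∧ ∑ k ∈ Finset.range (I.n + 1), I.dv k * ex k ≤ η ∧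
      ∀ k ≤ I.n, ∀ Lp : ℝ, (∀ᶠ t in 𝓝 I.t0, (I.pAt t).Ok I.F → |I.Dp k t - I.Dp k I.t0| ≤ Lp * |t - I.t0|) → |I.dd k| ≤ Lp + η + ex k) :
    I.DdHi V η := by
  obtain ⟨ex, h1, h2, h3⟩ := hlink
  refine ⟨ex, h1, h2, fun k hk hv => ?_⟩
  obtain ⟨j, rfl, hj, hx⟩ := l9hs_left hfi hk h0 hV hv
  refine h3 (j + 1) hk (I.x ^ 3) (Filter.Eventually.of_forall fun t ht => ?_)
  have hl : 0 < I.p.ell := by linarith [hOk.pt.ell1]
  have e0 : I.pAt I.t0 = I.p := I.pAt_t0 hl (lce_lam_pos hOk.pt)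
  have ht0 : (I.pAt I.t0).Ok I.F := by rw [e0]; exact hOk.pt
  rw [l9hq_Dp_eq I (hfine t ht) hj (ne_of_gt hx), l9hq_Dp_eq I (hfine I.t0 ht0) hj (ne_of_gt hx), e0]
  have e1 : I.pAt t = I.p.wTh t := by unfold L8In.pAt; rw [if_pos hsm]
  have e2 : I.t0 = 6 * Real.log I.p.ell := by unfold L8In.t0; rw [if_pos hsm]
  rw [e1] at ht ⊢
  rw [e2]
  exact l9hq_d_lip I.𝔹 hOk.pt hF hsm ht hx.le

/-- **EVENT**: all sufficiently fine chains, all the points of the smoothed size path -/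
theorem l9hq_ddHi {𝔹 : LlBase} {T : ℝ} (hf : L8gFine 𝔹 T) (hd : L8xDdH 𝔹 T) {F0 : LlFix} (hF : L8Fix 𝔹 T F0) (pB : LLParB) {pS : ℝ} (h0 : 0 < pS)
    (h1 : pS ≤ 1) {a1 : ℝ} (ha1 : a1 ≤ 1 / 2) :
    ∃ N0 : ℕ, L8Ev (F0.wExp pB.sStar pB.eta pS) 𝔹 N0 l8Siz fun I =>
      (∀ j ≤ I.n, DifferentiableAt ℝ (fun t => (I.wP t).KC j) I.t0) → I.DdHi (I.x ^ a1) (I.x ^ 6) := by
  have hFok : (F0.wExp pB.sStar pB.eta pS).Ok := (hF.2.2 _ _ _ (tlk_expok pB h0 h1)).sec3.ok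
  obtain ⟨N1, e1⟩ := hf F0 hF pB pS h0 h1 (fun N => skX N ^ 3) (fun N hN => pow_pos (l9t_skX_pos (N := N) (by omega)) 3)
  obtain ⟨N2, e2⟩ := hd F0 hF pB pS h0 h1 (fun N => if 0 < skX N then skX N ^ 6 else 1) (fun N => by
    split_ifs with h
    · exact pow_pos h 6
    · exact one_pos)
  have e1' := e1.hq_wP
  refine ⟨N1 + N2 + 4096, fun N s hN => ?_⟩
  have hx0 : 0 < skX N := l9t_skX_pos (N := N) (by omega)
  have hx4 : skX N ≤ 1 / 4 := by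
    unfold skX
    have h1 : ((4096 : ℕ) : ℝ) ≤ (N : ℝ) := by exact_mod_cast (by omega : 4096 ≤ N)
    calc (N : ℝ) ^ (-(1 / 6 : ℝ)) ≤ ((4096 : ℕ) : ℝ) ^ (-(1 / 6 : ℝ)) :=
          Real.rpow_le_rpow_of_nonpos (by norm_num) h1 (by norm_num)
      _ = 1 / 4 := by
          rw [show ((4096 : ℕ) : ℝ) = (4 : ℝ) ^ (6 : ℝ) by norm_num, ← Real.rpow_mul (by norm_num)]
          norm_num
  filter_upwards [e1 N s (by omega), e1' N s (by omega), e2 N s (by omega)] with Fs g1 g2 g3 ell lam chiL chiE sm γ m hR hOk hdif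
  set I : L8In := ⟨F0.wExp pB.sStar pB.eta pS, 𝔹, ll04Pt N ell lam chiL chiE sm γ, m, s, Fs⟩ with hI
  have hxI : I.x = skX N := rfl
  have k1 : I.Fine (skX N ^ 3) := g1 ell lam chiL chiE sm γ m trivial hOk
  have k2 : ∀ t, (I.pAt t).Ok I.F → (I.wP t).Fine (skX N ^ 3) := by
    intro t ht
    have := g2 ell lam chiL chiE sm γ m trivial hOk t ht
    have eN : (I.wP t).p.N = N := I.pAt_N t
    rwa [eN] at this
  have k3 := g3 ell lam chiL chiE sm γ m trivial hOk hdif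
  have eN : I.p.N = N := rfl
  rw [eN, if_pos hx0] at k3
  rw [hxI]
  exact l9hq_ddHi_one hOk hFok hR.1 k1 k2 (by rw [hxI]; positivity) (by rw [hxI]; exact l9hs_Vx hx0 hx4 ha1) k3

/-! ## 3. dictionary -/

section dict

variable (Q : L9Q)

theorem l9hq_Sf (h : Q.j8.Std) {t : ℕ} (ht : t ≤ Q.j8.n) : Q.Sf t = Q.j8.S t := l8d_S h ht

theorem l9hq_ff (h : Q.j8.Std) {t : ℕ} (ht : t ≤ Q.j8.n) : Q.ff t = Q.j8.f t := by
  unfold L9Q.ff L8In.f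
  rw [l9hq_Sf Q h ht]
  rfl

theorem l9hq_dV (t : ℕ) : Q.dV t = Q.j8.d t := rfl

theorem l9hq_mw {t : ℕ} (ht : t ≤ Q.j8.n) : l9aMw Q.ms Q.N t = Q.j8.dv t := by
  unfold l9aMw
  rw [if_pos (show t ≤ Q.N from ht)]
  exact l8d_mu Q.j8 t

theorem l9hq_Zc (c : ℝ) (h : Q.p.Ok Q.I.F) (hsm : Q.p.sm = true) : Q.Zc (l8Mj c) = Q.j8.Zc llDStar := by
  rw [l8q_Zc Q c h, if_pos hsm]

theorem l9hq_Y (c : ℝ) (h : Q.p.Ok Q.I.F) (hsm : Q.p.sm = true) : Q.Y (l8Mj c) = Q.j8.Yc llDStar := by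
  rw [l8q_Y Q c h, hsm]
  rfl

theorem l9hq_Zg (c : ℝ) (h : Q.p.Ok Q.I.F) : Q.Zg (l8Mj c) = Q.j8.Zg c := (l8_Z_eq Q.j8 h c).2

/-- the record of 113 does not see the centring beyond the chain -/
theorem l9hq_pair {S : Type} [Fintype S] [Inhabited S] {X : Bool → JtCtx S} {N : ℕ} {Sf Sf' ms sig : ℕ → ℝ} {V1 V2 D1 D2 : ℝ} (h : L9htP X N Sf ms sig V1 V2 D1 D2)
    (hS : ∀ t ≤ N, Sf' t = Sf t) : L9htP X N Sf' ms sig V1 V2 D1 D2 := by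
  have e : ∀ e t, t ≤ N → ∀ g : ℝ → ℝ, l9htPm X N Sf' e t g = l9htPm X N Sf e t g := by
    intro e t ht g
    unfold l9htPm l9htDl
    rw [hS t ht]
  refine ⟨h.hN, h.pos, fun en t a b ht => ?_, fun en t ht hv => ?_, fun en t ht hv => ?_, fun en t ht hv => ?_⟩
  · have := h.bdd en t a b ht
    unfold l9htDl at this ⊢
    rwa [hS t ht]
  · rw [e en t ht]; exact h.st1 en t ht hv
  · rw [e en t ht]; exact h.st2 en t ht hv
  · rw [e en t ht]; exact h.low en t ht hv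

end dict

section size

variable (F : LlFix) (𝔹 : LlBase) (s : ℝ) (Fs : Finset GhPos) (m N : ℕ) (γ : Fin (N + 1) → ℝ) (θ : ℝ)

theorem l9hq_t0 : (l9QS F 𝔹 s Fs m N γ θ).j8.t0 = θ := by
  have e : (l9QS F 𝔹 s Fs m N γ θ).j8.t0 = 6 * Real.log (l9QS F 𝔹 s Fs m N γ θ).j8.p.ell := if_pos rfl
  rw [e]
  show 6 * Real.log (Real.exp (θ / 6)) = θ
  rw [Real.log_exp]
  ring

theorem l9hq_dD (v : ℕ) : (l9QS F 𝔹 s Fs m N γ θ).dD v = (l9QS F 𝔹 s Fs m N γ θ).j8.dd v := by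
  have e1 : (l9QS F 𝔹 s Fs m N γ θ).j8.dd v
      = deriv (fun θ' => L8In.d { (l9QS F 𝔹 s Fs m N γ θ).j8 with p := (l9QS F 𝔹 s Fs m N γ θ).j8.p.wTh θ' } v)
          (6 * Real.log (l9QS F 𝔹 s Fs m N γ θ).j8.p.ell) := if_pos rfl
  have e2 : 6 * Real.log (l9QS F 𝔹 s Fs m N γ θ).j8.p.ell = θ := by
    show 6 * Real.log (Real.exp (θ / 6)) = θ
    rw [Real.log_exp]
    ring
  rw [e1, e2]
  rfl

/-- the hypothesis of `l8dh_link` is in `L9HyS` -/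
theorem l9hq_dif {L : ℝ} (hy : L9HyS F 𝔹 N s L Fs m γ θ) (j : ℕ) :
    DifferentiableAt ℝ (fun t => ((l9QS F 𝔹 s Fs m N γ θ).j8.wP t).KC j) (l9QS F 𝔹 s Fs m N γ θ).j8.t0 := by
  rw [l9hq_t0]
  exact (hy.2.2.2.1 j).2.2

end size

/-! ## 4. the record of 235 at one point -/

/-- **`Q.HiNum` FROM THE SUPPLIES AT `Q.j8`**, `sig` universal.      `hdD`, `hdA`: dictionary of the dotted defect (`l9hq_dD`, `l8q_dA_S` at the points `l9QS`) -/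
theorem l9hq_num (Q : L9Q) (hsm : Q.p.sm = true) (hdD : ∀ v, Q.dD v = Q.j8.dd v) (hdA : ∀ v, Q.dA v = |Q.j8.d v| + |Q.j8.dd v|)
    {c A a1 a2 bH CH : ℝ} {sig : ℕ → ℝ} (hOk : Q.j8.Ok) (hfi : Q.j8.Fine 1) (h : Q.j8.HiSup c A a1 a2 bH CH a1 sig)
    (hdd : Q.j8.DdHi (Q.j8.x ^ a1) (Q.j8.x ^ 6)) (hA : 2 ≤ A) (hA3 : A * Q.j8.x ^ 3 ≤ 2) (hbH : bH ≤ 1) (hCH : 0 ≤ CH) (ha1 : 0 ≤ a1) :
    Q.HiNum sig (Q.x ^ a1) (Q.x ^ a2) (A * (Q.x ^ (3 - CH * a1) * Q.Zc (l8Mj c) ^ 2)) (A * (Q.x ^ (3 - CH * a2) * Q.Zc (l8Mj c) ^ 2))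
      (min 2 (A * (Q.x ^ (2 + bH) * (Q.Zc (l8Mj c) ^ 2 + Q.Zg (l8Mj c))))) (A * Q.x ^ a1) (A ^ 2 * Q.Y (l8Mj c) ^ 2) := by
  have hstd : Q.j8.Std := l8d_std hOk hfi
  have hx0 : 0 < Q.j8.x := llc_x_pos hOk.pt
  have hx1 : Q.j8.x ≤ 1 := llc_x_le_one hOk.pt
  have hpt : Q.p.Ok Q.I.F := hOk.pt
  rw [l9hq_Zc Q c hpt hsm, l9hq_Y Q c hpt hsm, l9hq_Zg Q c hpt, show Q.x = Q.j8.x from rfl]
  have hZc : 1 ≤ Q.j8.Zc llDStar := h.z1
  have hZg : 1 ≤ Q.j8.Zg c := le_max_left _ _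
  have hZ2 : 1 ≤ Q.j8.Zc llDStar ^ 2 := one_le_pow₀ hZc
  obtain ⟨P, hP⟩ : ∃ P, P = Q.j8.x ^ (2 + bH) * (Q.j8.Zc llDStar ^ 2 + Q.j8.Zg c) := ⟨_, rfl⟩
  rw [← hP]
  have hxb0 : 0 ≤ Q.j8.x ^ (2 + bH) := Real.rpow_nonneg hx0.le _
  have hx3b : Q.j8.x ^ 3 ≤ Q.j8.x ^ (2 + bH) := by
    rw [← Real.rpow_natCast]
    exact Real.rpow_le_rpow_of_exponent_ge hx0 hx1 (by push_cast; linarith)
  have hx3P : Q.j8.x ^ 3 ≤ P := by
    rw [hP]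
    nlinarith
  have hx30 : 0 ≤ Q.j8.x ^ 3 := by positivity
  have hP0 : 0 ≤ P := hx30.trans hx3P
  have hAx : A * Q.j8.x ^ 3 ≤ min 2 (A * P) := le_min hA3 (mul_le_mul_of_nonneg_left hx3P (by linarith))
  have hms : ∀ v, Q.ms v = Q.j8.v v := l8q_ms Q
  refine
    { pair := l9hq_pair h.pair (fun t ht => l9hq_Sf Q hstd ht)
      sig0 := h.sig0
      sigsg := fun k _ => h.sigsg k
      env1 := h.env1
      f_hi := fun v hv hV => ?_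
      d_hi := fun v hv hV => ?_
      dd_hi := ?_
      f_lo := fun v hv hV => ?_
      d_lo := fun v hv hV => ?_ }
  · rw [hms] at hV
    rw [l9hq_ff Q hstd hv]
    refine le_min ?_ ((h.fH v hv hV).trans ?_)
    · have a1' := l9hs_S_abs hstd hv
      have a2' := tlk_h_q_abs hOk hfi v
      unfold L8In.f
      exact (abs_sub _ _).trans (by linarith)
    · rw [← hP]
      exact le_mul_of_one_le_left hP0 (by linarith)
  · rw [hms] at hV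
    rw [l9hq_dV]
    exact (h.dH v hv hV).trans hAx
  · obtain ⟨ex, e1, e2, e3⟩ := hdd
    refine ⟨ex, e1, fun v hv hV => ?_, ?_⟩
    · rw [hms] at hV
      rw [hdD]
      have k1 := e3 v hv hV
      have k2 : Q.j8.x ^ 6 ≤ Q.j8.x ^ 3 := pow_le_pow_of_le_one hx0.le hx1 (by norm_num)
      have k3 : 2 * Q.j8.x ^ 3 ≤ A * Q.j8.x ^ 3 := mul_le_mul_of_nonneg_right hA hx30
      linarith
    · have es : ∑ v ∈ Finset.range (Q.N + 1), l9aMw Q.ms Q.N v * ex v = ∑ k ∈ Finset.range (Q.j8.n + 1), Q.j8.dv k * ex k :=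
        Finset.sum_congr rfl fun v hv => by rw [l9hq_mw Q (Nat.lt_succ_iff.1 (Finset.mem_range.1 hv))]
      rw [es]
      refine e2.trans ?_
      have k1 : Q.j8.x ^ 3 ≤ Q.j8.x ^ (3 - CH * a1) := by
        rw [← Real.rpow_natCast]
        exact Real.rpow_le_rpow_of_exponent_ge hx0 hx1 (by push_cast; nlinarith)
      have k2 : Q.j8.x ^ 3 ≤ A * (Q.j8.x ^ (3 - CH * a1) * Q.j8.Zc llDStar ^ 2) := by
        have k3 : Q.j8.x ^ 3 ≤ Q.j8.x ^ (3 - CH * a1) * Q.j8.Zc llDStar ^ 2 := by nlinarith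
        nlinarith
      calc Q.j8.x ^ 6 = (Q.j8.x ^ 3) ^ 2 := by ring
        _ ≤ _ := pow_le_pow_left₀ hx30 k2 2
  · rw [hms] at hV
    rw [l9hq_ff Q hstd hv]
    exact h.fL v hv hV
  · rw [hms] at hV
    rw [hdA]
    exact h.dL v hv hV

/-- **the same at a point of the size segment** -/
theorem l9hq_num_pt (F : LlFix) (𝔹 : LlBase) (s : ℝ) (Fs : Finset GhPos) (m N : ℕ) (γ : Fin (N + 1) → ℝ) (θ : ℝ)
    {c A a1 a2 bH CH : ℝ} {sig : ℕ → ℝ} (hOk : (l9QS F 𝔹 s Fs m N γ θ).j8.Ok) (hfi : (l9QS F 𝔹 s Fs m N γ θ).j8.Fine 1)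
    (h : (l9QS F 𝔹 s Fs m N γ θ).j8.HiSup c A a1 a2 bH CH a1 sig) (hdd : (l9QS F 𝔹 s Fs m N γ θ).j8.DdHi (skX N ^ a1) (skX N ^ 6))
    (hA : 2 ≤ A) (hA3 : A * skX N ^ 3 ≤ 2) (hbH : bH ≤ 1) (hCH : 0 ≤ CH) (ha1 : 0 ≤ a1) :
    (l9QS F 𝔹 s Fs m N γ θ).HiNum sig ((l9QS F 𝔹 s Fs m N γ θ).x ^ a1) ((l9QS F 𝔹 s Fs m N γ θ).x ^ a2)
      (A * ((l9QS F 𝔹 s Fs m N γ θ).x ^ (3 - CH * a1) * (l9QS F 𝔹 s Fs m N γ θ).Zc (l8Mj c) ^ 2))
      (A * ((l9QS F 𝔹 s Fs m N γ θ).x ^ (3 - CH * a2) * (l9QS F 𝔹 s Fs m N γ θ).Zc (l8Mj c) ^ 2))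
      (min 2 (A * ((l9QS F 𝔹 s Fs m N γ θ).x ^ (2 + bH) * ((l9QS F 𝔹 s Fs m N γ θ).Zc (l8Mj c) ^ 2 + (l9QS F 𝔹 s Fs m N γ θ).Zg (l8Mj c)))))
      (A * (l9QS F 𝔹 s Fs m N γ θ).x ^ a1) (A ^ 2 * (l9QS F 𝔹 s Fs m N γ θ).Y (l8Mj c) ^ 2) :=
  l9hq_num _ rfl (l9hq_dD F 𝔹 s Fs m N γ θ) (l8q_dA_S F 𝔹 s Fs m N γ θ) hOk hfi h hdd hA hA3 hbH hCH ha1

end Claimed.Agent.R286
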