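import Claimed.Agent.R286.Defs.L9HiThr
import Claimed.Agent.R286.L09.HiSupQ
import Claimed.Agent.R286.L09.HiLS
import Claimed.Agent.R286.Exit.D15
import Claimed.Agent.R286.Exit.D11
import Claimed.Agent.R286.Exit.DLow

/-!
# Row 286 (S0533), LL Sec. 9, node HI, file HiNumY: THE SUPPLY `L9hiNumS` WITH THE THRESHOLDS OF (D15)      (helper59, second cutter of `exit_l9_hiNumS`; prefix `l9hm`)

`l9hm_numS : L8xD15 + L8xLow + L8xD11 + L8gFine + L8xDdH ⟹ L9hnThr 𝔹 F0 pB c`      (`Defs/L9HiThr.lean`; `l9hm_good` turns it into the statement of `exit_l9_hiNumS`).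
MERGE AT ONE POINT (`l9hm_pt`), ONE envelope `sig = l9hsSig n e As (x^a1)`:
* `Q.HiNum sig ..`   = `L9hsHyp.sup` (124, `L09/HiSup.lean`) + `l9hq_num_pt` (124, `L09/HiSupQ.lean`) at the SMALL loss `As = Cs x^(-2θ)`, then `L9Q.HiNum.mono` (235) up to `A = C x^(-δ)`, `CH0 ≤ CH`;
* `Q.HiLS sig ..`    = `l9hj_both` (225, `L09/HiLS.lean`; (D16) conclusion 2 = `Exit/D16b.lean` of 71 + 280), `Cb = 0`, `sig ≤ As e ≤ 2 C1 x^(-2θ) e`, then `L9Q.HiLS.mono`.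
NUMBERS: `θ = min (δ / (20 + 2 J1)) (a1 / 40) (δ_* / 40)`, `J1 = max J0 1`, `pm = max 2 (max J1 ⌈4/θ⌉)`, `jm = J1`, source loss `x^(-θ/2)`.

THE CHAIN OF THE CONSTANTS (for a reader who wants to check the order of the quantifiers):
  1. `c` (exponent of `Z_g`), then `CH0, t0` from (D15); `pL, cE` from `L8xLow`, `pD` from `L8xD11` (they depend on the stage B only);
  2. `a0 ≤ t0 | bH ≤ min tH 1 | a1 ≤ min t1 (δ_*/3) | a2 ≤ min t2 1 | pS ≤ min (min tp pL) (min pD 1)`      (`a1 ≤ δ_*/3`: the gain `x^(a1)` of a second low factor is (D11); `bH ≤ 1`: `PhiH ≥ A x³`);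
  3. every `CH ≥ CH0`, `CL ≥ 2 > s_* + 1 + η`, every degree `J0`, every `K`;
  4. the loss `δ`, the tilt `(ε, q)`;   then `θ, pm, jm`;   ONE call of `L8xLow` (constant `C0`) for both halves, `L8xD11` at `r = 2` (`C11`), the transfer `tlk_I_tr` (189) at `(x^(-2θ), x^7)`, meshes `x³` and `1`, `l9hq_ddHi` (124, 226);
  5. `Cs` (`l9hs_num`), `C1 = max 1 (max |C0| |Cs|)`, `C = |Cs| + Cs² + 20 K |l8lrC J1 θ 0 C1|`;   `N` large: `l9hs_num`, `l8q_evS`, `l9hm_num`.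
EXIT: `l9hm_exit` = the body of `exit_l9_hiNumS` (`L09/BndExit.lean`).

DICTIONARY USED WITHOUT COMMENT:   `Q.i8` (153) and `Q.j8` (DSup) are the same record (`rfl`);   `Q.x = skX N`, `Q.lam = Q.x ^ pS`, `Q.I.F.pS = pS`, `Q.I.F.sS = pB.sStar`, `Q.I.F.eta = pB.eta` at the points `l9QS` (`rfl`);
`Q.Zc (l8Mj c) = Q.j8.Zc δ_*` (`l9hq_Zc`), `Q.Zg (l8Mj c) = Q.j8.Zg c` (`l9hq_Zg`), `Q.Z (l8Mj c) = Q.j8.Z` (`l8_Z_eq`).
CHECK: `#print axioms l9hm_numS` = `[propext, Classical.choice, Quot.sound]` (15 Oct, 08:00Z): nothing is open below the five hypotheses;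
what is open below `l9hm_exit` is what is open below `exit_d15`, `exit_dlow`, `exit_d11`, `l8g_fine`.
-/

set_option autoImplicit false

namespace Claimed.Agent.R286

open Filter

/-- the bound of (D16), conclusion 2, below the bound of `HiNumA` -/
theorem l9hm_B {x pS κ CL ε' δ KK Lc C Zc Z K : ℝ} (hx : 0 < x) (hx1 : x ≤ 1) (hp : 0 ≤ pS) (hκ : κ ≤ CL) (hε : ε' ≤ δ) (hKK : 0 ≤ KK)
    (hC : 20 * KK * |Lc| ≤ C) (hZc : 0 ≤ Zc) (hZ : Zc ≤ Z) :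
    20 * (KK * (Lc * x ^ (3 - ε' - κ * pS) * Zc ^ 2)) ≤ C * x ^ (-δ) * (x ^ 3 * (x ^ pS) ^ (-CL) * Z ^ 2) + x ^ K := by
  have e1 : x ^ (-δ) * (x ^ 3 * (x ^ pS) ^ (-CL)) = x ^ (-δ + (3 + pS * (-CL))) := by
    rw [← Real.rpow_natCast x 3, ← Real.rpow_mul hx.le, ← Real.rpow_add hx, ← Real.rpow_add hx]
    norm_num
  have e2 : x ^ (3 - ε' - κ * pS) ≤ x ^ (-δ) * (x ^ 3 * (x ^ pS) ^ (-CL)) := by
    rw [e1]
    refine Real.rpow_le_rpow_of_exponent_ge hx hx1 ?_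
    nlinarith
  have hX : 0 ≤ x ^ (3 - ε' - κ * pS) := Real.rpow_nonneg hx.le _
  have hZ2 : Zc ^ 2 ≤ Z ^ 2 := pow_le_pow_left₀ hZc hZ 2
  have hK : 0 ≤ x ^ K := Real.rpow_nonneg hx.le _
  have hC0 : 0 ≤ C := le_trans (by positivity) hC
  calc 20 * (KK * (Lc * x ^ (3 - ε' - κ * pS) * Zc ^ 2)) = (20 * KK * Lc) * (x ^ (3 - ε' - κ * pS) * Zc ^ 2) := by ring
    _ ≤ (20 * KK * |Lc|) * (x ^ (3 - ε' - κ * pS) * Zc ^ 2) :=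
        mul_le_mul_of_nonneg_right (mul_le_mul_of_nonneg_left (le_abs_self _) (by positivity)) (by positivity)
    _ ≤ C * ((x ^ (-δ) * (x ^ 3 * (x ^ pS) ^ (-CL))) * Z ^ 2) :=
        mul_le_mul hC (mul_le_mul e2 hZ2 (sq_nonneg _) (hX.trans e2)) (by positivity) hC0
    _ = C * x ^ (-δ) * (x ^ 3 * (x ^ pS) ^ (-CL) * Z ^ 2) := by ring
    _ ≤ _ := by linarith

/-- **THE MERGE AT ONE POINT OF THE SIZE SEGMENT** -/
theorem l9hm_pt (F : LlFix) (𝔹 : LlBase) (s : ℝ) (Fs : Finset GhPos) (m N : ℕ) (γ : Fin (N + 1) → ℝ) (θp : ℝ)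
    {e : ℕ → ℝ} {c As A0 Ab a1 a2 bH CH0 CH CL K A v0 v1 cE εs qs C11 M δt η A' B0 : ℝ} {pm jm J J0 J1 : ℕ}
    (H : L9hsHyp (l9QS F 𝔹 s Fs m N γ θp).j8 e c As A0 Ab a1 a2 bH CH0 a1 v0 v1 cE εs qs C11 M δt η pm jm J)
    (hfi1 : (l9QS F 𝔹 s Fs m N γ θp).j8.Fine 1)
    (hdd : (l9QS F 𝔹 s Fs m N γ θp).j8.DdHi (skX N ^ a1) (skX N ^ 6))
    (hLS : ∀ sig : ℕ → ℝ, (∀ l, 0 ≤ sig l) →
      (∀ l, l ≤ (l9QS F 𝔹 s Fs m N γ θp).N → (l9QS F 𝔹 s Fs m N γ θp).ms l < (l9QS F 𝔹 s Fs m N γ θp).x ^ a1 → sig l ≤ A' * e l) →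
      (l9QS F 𝔹 s Fs m N γ θp).HiLS ((l9QS F 𝔹 s Fs m N γ θp).x ^ a1) sig J1 B0)
    (hJ : J0 ≤ J1) (hA3 : As * skX N ^ 3 ≤ 2) (hbH : bH ≤ 1) (hCH : CH0 ≤ CH) (hAs : As ≤ A') (hA1 : As ≤ A) (hA2 : As ^ 2 ≤ A)
    (hB : B0 ≤ A * ((l9QS F 𝔹 s Fs m N γ θp).x ^ 3 * (l9QS F 𝔹 s Fs m N γ θp).lam ^ (-CL) * (l9QS F 𝔹 s Fs m N γ θp).Z (l8Mj c) ^ 2)
      + (l9QS F 𝔹 s Fs m N γ θp).x ^ K) :
    (l9QS F 𝔹 s Fs m N γ θp).HiNumA (l8Mj c) J0 a1 a2 bH CH CL K A := by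
  set Q := l9QS F 𝔹 s Fs m N γ θp with hQ
  have hx0 : 0 < Q.x := H.x0
  have hx1 : Q.x ≤ 1 := H.x1
  have hAs2 : 2 ≤ As := by have := H.num.A1; have := H.num.M1; linarith
  have hAs0 : 0 ≤ As := by linarith
  have hA0 : 0 ≤ A := hAs0.trans hA1
  have hZc : Q.Zc (l8Mj c) = Q.j8.Zc llDStar := l9hq_Zc Q c H.ok.pt rfl
  have hZg : 0 ≤ Q.Zg (l8Mj c) := by
    rw [l9hq_Zg Q c H.ok.pt]
    exact zero_le_one.trans (le_max_left _ _)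
  have hAdm : Q.Adm 1 := (l9rs_adm Q H.ok hfi1).1
  have hnum := l9hq_num_pt F 𝔹 s Fs m N γ θp (c := c) H.ok hfi1 H.sup hdd hAs2 hA3 hbH H.num.CH0 H.num.a1_pos.le
  have hp : ∀ t : ℝ, 0 ≤ Q.x ^ t := fun t => Real.rpow_nonneg hx0.le t
  have hD : ∀ a : ℝ, 0 ≤ a → |As * (Q.x ^ (3 - CH0 * a) * Q.Zc (l8Mj c) ^ 2)| ≤ A * (Q.x ^ (3 - CH * a) * Q.Zc (l8Mj c) ^ 2) := by
    intro a ha
    rw [abs_of_nonneg (mul_nonneg hAs0 (mul_nonneg (hp _) (sq_nonneg _)))]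
    refine mul_le_mul hA1 (mul_le_mul_of_nonneg_right ?_ (sq_nonneg _)) (mul_nonneg (hp _) (sq_nonneg _)) hA0
    exact Real.rpow_le_rpow_of_exponent_ge hx0 hx1 (by nlinarith)
  refine ⟨by rw [hZc]; exact H.z1, l9hsSig Q.j8.n e As (Q.j8.x ^ a1), ?_, ?_⟩
  · refine hnum.mono (hD a1 H.num.a1_pos.le) (hD a2 H.num.a2_pos.le) ?_ ?_ ?_
    · exact min_le_min_left _ (mul_le_mul_of_nonneg_right hA1 (mul_nonneg (hp _) (by positivity)))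
    · exact mul_le_mul_of_nonneg_right hA1 (hp _)
    · exact mul_le_mul_of_nonneg_right hA2 (sq_nonneg _)
  · have h1 := hLS (l9hsSig Q.j8.n e As (Q.j8.x ^ a1)) H.sig0 (fun l hl _ => by
      rw [show l9hsSig Q.j8.n e As (Q.j8.x ^ a1) l = As * min (e l) (Q.j8.x ^ a1) from if_pos hl]
      have he : 0 ≤ e l := (H.e0 hl).le
      calc As * min (e l) (Q.j8.x ^ a1) ≤ As * e l := mul_le_mul_of_nonneg_left (min_le_left _ _) hAs0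
        _ ≤ A' * e l := mul_le_mul_of_nonneg_right hAs he)
    have h2 : Q.HiLS (Q.x ^ a1) (l9hsSig Q.j8.n e As (Q.j8.x ^ a1)) J0 B0 := fun n hn hnJ => h1 n hn (hnJ.trans hJ)
    exact h2.mono hAdm hB

/-- the numbers of the merge along `x = skX N → 0` -/
theorem l9hm_num {δ θ v0 C0 Cs C1 C : ℝ} (hθ : 0 < θ) (hθ1 : θ ≤ 1) (h4 : 4 * θ ≤ δ) (hC1 : 1 ≤ C1) (hC0 : |C0| ≤ C1) (hCs : |Cs| ≤ C1)
    (hC : |Cs| + Cs ^ 2 ≤ C) :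
    ∃ N0 : ℕ, ∀ N : ℕ, N0 ≤ N → 0 < skX N ∧ skX N ≤ 1 ∧
      Cs * skX N ^ (-(2 * θ)) * skX N ^ 3 ≤ 2 ∧
      |C0 * skX N ^ (-(2 * θ / 4))| ≤ C1 * skX N ^ (-θ) ∧
      1 / min 1 v0 + (0 + 2) * C1 ^ 2 ≤ skX N ^ (-θ) ∧
      Cs * skX N ^ (-(2 * θ)) ≤ (0 + 2) * (C1 * skX N ^ (-θ)) * skX N ^ (-θ) ∧
      Cs * skX N ^ (-(2 * θ)) ≤ C * skX N ^ (-δ) ∧
      (Cs * skX N ^ (-(2 * θ))) ^ 2 ≤ C * skX N ^ (-δ) := by
  obtain ⟨Na, ha⟩ := l9hi_N0 (Cs / 2) (3 - 2 * θ) (by linarith)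
  obtain ⟨Nb, hb⟩ := l9hi_N0 (1 / min 1 v0 + (0 + 2) * C1 ^ 2) θ hθ
  refine ⟨max Na Nb, fun N hN => ?_⟩
  obtain ⟨hN1, ha⟩ := ha N ((le_max_left _ _).trans hN)
  obtain ⟨-, hb⟩ := hb N ((le_max_right _ _).trans hN)
  have hx : 0 < skX N := l9b_skX_pos hN1
  have hx1 : skX N ≤ 1 := l9b_skX_le_one hN1
  set x := skX N with hxdef
  have hp : ∀ t : ℝ, 0 < x ^ t := fun t => Real.rpow_pos_of_pos hx t
  have hmono : ∀ {a b : ℝ}, a ≤ b → x ^ (-a) ≤ x ^ (-b) := fun h => Real.rpow_le_rpow_of_exponent_ge hx hx1 (by linarith)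
  have hC0' : 0 ≤ C := le_trans (by positivity) hC
  have hC10 : 0 ≤ C1 := by linarith
  have e2 : x ^ (-(2 * θ)) = x ^ (-θ) * x ^ (-θ) := by rw [← Real.rpow_add hx]; congr 1; ring
  refine ⟨hx, hx1, ?_, ?_, ?_, ?_, ?_, ?_⟩
  · have e : x ^ (-(2 * θ)) * x ^ 3 = x ^ (3 - 2 * θ) := by
      rw [← Real.rpow_natCast x 3, ← Real.rpow_add hx]; congr 1; push_cast; ring
    rw [mul_assoc, e]
    linarith
  · rw [abs_mul, abs_of_pos (hp _)]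
    exact mul_le_mul hC0 (hmono (by linarith)) (hp _).le hC10
  · have e : x ^ θ * x ^ (-θ) = 1 := by rw [← Real.rpow_add hx]; simp
    calc 1 / min 1 v0 + (0 + 2) * C1 ^ 2 = (1 / min 1 v0 + (0 + 2) * C1 ^ 2) * (x ^ θ * x ^ (-θ)) := by rw [e, mul_one]
      _ = ((1 / min 1 v0 + (0 + 2) * C1 ^ 2) * x ^ θ) * x ^ (-θ) := by ring
      _ ≤ 1 * x ^ (-θ) := mul_le_mul_of_nonneg_right hb (hp _).le
      _ = x ^ (-θ) := one_mul _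
  · rw [e2]
    have h1 : Cs ≤ 2 * C1 := by linarith [le_abs_self Cs]
    have h2 : 0 ≤ x ^ (-θ) * x ^ (-θ) := by positivity
    calc Cs * (x ^ (-θ) * x ^ (-θ)) ≤ 2 * C1 * (x ^ (-θ) * x ^ (-θ)) := mul_le_mul_of_nonneg_right h1 h2
      _ = _ := by ring
  · exact mul_le_mul (by linarith [le_abs_self Cs, sq_nonneg Cs]) (hmono (by linarith)) (hp _).le hC0'
  · have e4 : (x ^ (-(2 * θ))) ^ 2 = x ^ (-(4 * θ)) := by
      rw [← Real.rpow_natCast _ 2, ← Real.rpow_mul hx.le]; congr 1; push_cast; ring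
    rw [mul_pow, e4]
    exact mul_le_mul (by linarith [abs_nonneg Cs]) (hmono h4) (hp _).le hC0'

/-- **THE SUPPLY `L9hiNumS` OF NODE HI, with the order of the thresholds of (D15)** -/
theorem l9hm_numS {𝔹 : LlBase} {T : ℝ} (h15 : L8xD15 𝔹 T) (hL : L8xLow 𝔹 T) (h11 : L8xD11 𝔹 T) (hf : L8gFine 𝔹 T) (hd : L8xDdH 𝔹 T)
    {F0 : LlFix} (hF : L8Fix 𝔹 T F0) (pB : LLParB) (hSt : LlcStB 𝔹 F0 pB) {c : ℝ} (hc : 0 < c) : L9hnThr 𝔹 F0 pB c := by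
  obtain ⟨CH0, t0, hCH0, ht0, h15⟩ := h15 F0 hF pB c hSt hc
  obtain ⟨pL, cE, hpL, hcE, hL⟩ := hL F0 hF pB hSt
  obtain ⟨pD, hpD, h11⟩ := h11 F0 hF pB hSt
  have hD0 : (0 : ℝ) < llDStar := by unfold llDStar; norm_num
  have hD1 : llDStar ≤ 1 := by unfold llDStar; norm_num
  refine ⟨CH0, t0, hCH0, ht0, fun a0 ha0 ha0' => ?_⟩
  obtain ⟨tH, htH, h15⟩ := h15 a0 ha0 ha0'
  refine ⟨min tH 1, lt_min htH one_pos, fun bH hbH hbH' => ?_⟩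
  obtain ⟨t1, ht1, h15⟩ := h15 bH hbH (hbH'.trans (min_le_left _ _))
  refine ⟨min t1 (llDStar / 3), lt_min ht1 (by positivity), fun a1 ha1 ha1' => ?_⟩
  obtain ⟨t2, ht2, h15⟩ := h15 a1 ha1 (ha1'.trans (min_le_left _ _))
  have ha1d : a1 ≤ llDStar / 3 := ha1'.trans (min_le_right _ _)
  have ha1h : a1 ≤ 1 / 2 := by linarith
  refine ⟨min t2 1, lt_min ht2 one_pos, fun a2 ha2 ha2' => ?_⟩
  obtain ⟨tp, htp, h15⟩ := h15 a2 ha2 (ha2'.trans (min_le_left _ _))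
  refine ⟨min (min tp pL) (min pD 1), lt_min (lt_min htp hpL) (lt_min hpD one_pos), fun pS h0 h1 CH CL hCH hCL J0 K => ?_⟩
  have h1' : pS ≤ 1 := h1.trans ((min_le_right _ _).trans (min_le_right _ _))
  obtain ⟨N15, h15⟩ := h15 pS h0 (h1.trans ((min_le_left _ _).trans (min_le_left _ _)))
  obtain ⟨v0, v1, hv0, hv1, hL⟩ := hL pS h0 (h1.trans ((min_le_left _ _).trans (min_le_right _ _)))
  have h11 := h11 pS h0 (h1.trans ((min_le_right _ _).trans (min_le_left _ _)))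
  have hE := tlk_expok pB h0 h1'
  intro δ hδ ε hε q hq
  -- the numbers
  obtain ⟨J1, hJ1⟩ : ∃ J1 : ℕ, J1 = max J0 1 := ⟨_, rfl⟩
  have hJ01 : J0 ≤ J1 := hJ1 ▸ le_max_left _ _
  have hJ11 : 1 ≤ J1 := hJ1 ▸ le_max_right _ _
  obtain ⟨KK, hKK, HLS⟩ := l9hj_both J1 hJ11
  have hJp : (0 : ℝ) < 20 + 2 * (J1 : ℝ) := by positivity
  obtain ⟨θ, hθdef⟩ : ∃ θ : ℝ, θ = min (δ / (20 + 2 * (J1 : ℝ))) (min (a1 / 40) (llDStar / 40)) := ⟨_, rfl⟩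
  have hθ : 0 < θ := by rw [hθdef]; exact lt_min (by positivity) (lt_min (by positivity) (by positivity))
  have hθδ : (20 + 2 * (J1 : ℝ)) * θ ≤ δ := by
    have : θ ≤ δ / (20 + 2 * (J1 : ℝ)) := hθdef ▸ min_le_left _ _
    rw [le_div_iff₀ hJp] at this
    linarith
  have hθa : 40 * θ ≤ a1 := by
    have : θ ≤ a1 / 40 := hθdef ▸ (min_le_right _ _).trans (min_le_left _ _)
    linarith
  have hθd : 40 * θ ≤ llDStar := by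
    have : θ ≤ llDStar / 40 := hθdef ▸ (min_le_right _ _).trans (min_le_right _ _)
    linarith
  have hθ4 : 4 * θ ≤ δ := by
    have : (0 : ℝ) ≤ (J1 : ℝ) := Nat.cast_nonneg _
    nlinarith
  have hθ1 : θ ≤ 1 := by linarith
  obtain ⟨pm, hpm2, hpmJ, hpmθ⟩ : ∃ pm : ℕ, 2 ≤ pm ∧ J1 ≤ pm ∧ 8 ≤ 2 * (pm : ℝ) * θ := by
    refine ⟨max 2 (max J1 ⌈4 / θ⌉₊), le_max_left _ _, (le_max_left _ _).trans (le_max_right _ _), ?_⟩
    have h2 : 4 / θ ≤ ((max 2 (max J1 ⌈4 / θ⌉₊) : ℕ) : ℝ) :=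
      (Nat.le_ceil _).trans (by exact_mod_cast (le_max_right _ _).trans (le_max_right _ _))
    rw [div_le_iff₀ hθ] at h2
    linarith
  have h2θ : 0 < 2 * θ := by positivity
  obtain ⟨C0, NL, hL⟩ := hL ε q hε hq pm J1 (2 * θ / 4) (by positivity)
  obtain ⟨C11, N11, h11⟩ := h11 ε q hε hq 2 (by norm_num)
  obtain ⟨Nt, htr⟩ := tlk_I_tr ε q (2 * θ) 7 hε hq h2θ
  have hFok : (F0.wExp pB.sStar pB.eta pS).Ok := (hF.2.2 _ _ _ hE).sec3.ok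
  obtain ⟨Nf, hfine⟩ := L8Ev.of_fine hf hF pB h0 h1' 3 Nt (R := l8Siz)
    (Φ := fun I => I.Fine (I.x ^ (3 : ℝ)) ∧ Nt ≤ I.p.N ∧ I.F = F0.wExp pB.sStar pB.eta pS ∧ I.p.sm = true)
    (fun I hIF _ hN hR _ hfi => ⟨hfi, hN, hIF, hR.1⟩)
  obtain ⟨Nf', hfine'⟩ := L8Ev.of_fine hf hF pB h0 h1' 0 0 (R := l8Siz) (Φ := fun I => I.Fine (I.x ^ (0 : ℝ))) (fun I _ _ _ _ _ hfi => hfi)
  obtain ⟨Nd, hddE⟩ := l9hq_ddHi hf hd hF pB h0 h1' ha1h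
  obtain ⟨Cs, Nn, hnum⟩ := l9hs_num h2θ hv0 ha1 ha1h ha2 (ha2'.trans (min_le_right _ _)) (by linarith : 0 ≤ CH0) ha1d (by linarith : a1 ≤ 3 * a1) C0 C11
  obtain ⟨C1, hC1def⟩ : ∃ C1 : ℝ, C1 = max 1 (max |C0| |Cs|) := ⟨_, rfl⟩
  have hC11 : 1 ≤ C1 := hC1def ▸ le_max_left _ _
  have hC10 : |C0| ≤ C1 := hC1def ▸ (le_max_left _ _).trans (le_max_right _ _)
  have hC1s : |Cs| ≤ C1 := hC1def ▸ (le_max_right _ _).trans (le_max_right _ _)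
  obtain ⟨C, hCdef⟩ : ∃ C : ℝ, C = |Cs| + Cs ^ 2 + 20 * KK * |l8lrC J1 θ 0 C1| := ⟨_, rfl⟩
  have hCa : |Cs| + Cs ^ 2 ≤ C := by rw [hCdef]; have : 0 ≤ 20 * KK * |l8lrC J1 θ 0 C1| := by positivity
                                     linarith
  have hCb : 20 * KK * |l8lrC J1 θ 0 C1| ≤ C := by rw [hCdef]; have := abs_nonneg Cs; have := sq_nonneg Cs; linarith
  obtain ⟨Nm, hmer⟩ := l9hm_num (v0 := v0) hθ hθ1 hθ4 hC11 hC10 hC1s hCa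
  obtain ⟨Ne, hev⟩ := l8q_evS (show (F0.wExp pB.sStar pB.eta pS).pS ≤ 12 by show pS ≤ 12; linarith)
    (((((h15.and hL).and h11).and hfine).and hfine').and hddE) hε hq
  refine ⟨C, max Nn (max Ne Nm), fun N hN => ?_⟩
  obtain ⟨J, hnum⟩ := hnum N ((le_max_left _ _).trans hN)
  obtain ⟨hx0, hx1, m1, m2, m3, m4, m5, m6⟩ := hmer N (((le_max_right _ _).trans (le_max_right _ _)).trans hN)
  filter_upwards [hev N (((le_max_left _ _).trans (le_max_right _ _)).trans hN)] with Fs g m γ θp hHy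
  obtain ⟨hOk, hstp, ⟨⟨⟨⟨g15, hZc, e, hAll⟩, g11⟩, hfi, hNt, hIF, hsm⟩, hfi'⟩, gdd⟩ := g m γ θp hHy
  set Q := l9QS (F0.wExp pB.sStar pB.eta pS) 𝔹 (q * skX N ^ (1 + ε)) Fs m N γ θp with hQ
  rw [Real.rpow_zero] at hfi'
  have hIFok : Q.j8.F.Ok := hIF ▸ hFok
  have hs : Q.j8.s = q * Q.j8.x ^ (1 + ε) := rfl
  have hAdm : Q.Adm 1 := (l9rs_adm Q hOk hfi').1
  have hZZ : Q.j8.Zc llDStar ≤ Q.Z (l8Mj c) := by
    rw [show Q.Z (l8Mj c) = Q.j8.Z from (l8_Z_eq Q.j8 hOk.pt c).1]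
    exact min_le_left _ _
  refine l9hm_pt (F0.wExp pB.sStar pB.eta pS) 𝔹 (q * skX N ^ (1 + ε)) Fs m N γ θp (c := c) (bH := bH) (J1 := J1) (e := e)
    (A' := (0 + 2) * (C1 * skX N ^ (-θ)) * skX N ^ (-θ))
    (B0 := 20 * (KK * (l8lrC J1 θ 0 C1 * skX N ^ (3 - (20 + 2 * (J1 : ℝ)) * θ - (pB.sStar + (1 + pB.eta)) * pS) * Q.j8.Zc llDStar ^ 2)))
    { ok := hOk, fok := hIFok, sm := hsm, fine := hfi, z1 := hZc, all := hAll, pm2 := hpm2, s_eq := hs, stop := hstp,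
      d11 := fun tl => g11 tl fun _ => ⟨hs, hstp⟩, d15f := g15.1, d151 := g15.2.1, d152 := g15.2.2,
      tr := htr Q.j8 hNt hOk hIFok hfi' hs hstp, num := hnum }
    hfi' (gdd fun j _ => l9hq_dif _ _ _ _ _ _ _ _ hHy j) ?_ hJ01 m1 (hbH'.trans (min_le_right _ _)) hCH m4 m5 m6 ?_
  · exact HLS Q 1 e _ v0 v1 cE ε q _ θ ((20 + 2 * (J1 : ℝ)) * θ) a1 0 C1 pm J1 hAdm hOk ⟨rfl, rfl⟩ hfi hZc hAll hs hstp m2 le_rfl hC11 hv0 h0 h1'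
      (by have := hE.s_lo; show (0 : ℝ) ≤ pB.sStar; linarith) (by have := hE.s_hi; show pB.sStar ≤ 1; linarith) hE.e_lo.le hθ le_rfl hθa hθd hpmθ m3 hpmJ le_rfl
  · exact l9hm_B hx0 hx1 h0.le (by have := hE.s_hi; have := hE.e_hi; linarith) hθδ hKK hCb (by linarith) hZZ

/-- **THE BODY OF `exit_l9_hiNumS`** (`L09/BndExit.lean`): the numbers of LL 08 for node HI, in the form `LLGood` -/
theorem l9hm_exit (T : ℝ) (hT : 1 < T) (F0 : LlFix) (h0 : L8Fix llBase T F0) (hG : LlcG1Exit llBase T) :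
    LLGood fun par => L9hiNumS llBase (l9qMj par) (l9qF F0 par) par.kPr par.a1 par.a2 par.bH par.CH par.CL :=
  l9hm_good hG h0 fun pB hSt _ hc =>
    l9hm_numS (exit_d15 T hT) (exit_dlow T hT) (exit_d11 T hT) (l8g_fine T hT) (exit_l8x_ddH T hT) h0 pB hSt hc

end Claimed.Agent.R286
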