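import Claimed.Agent.R286.L09.RedD0
import Claimed.Agent.R286.L09.HiCo
import Claimed.Agent.R286.L09.Dots

/-!
# Row 286 (S0533), unit L09, node RED, supply D0, SECOND FILE: THE REAL COEFFICIENTS, THE PRODUCERS OF `L9cD0S`, `L9cD0D`      (owner helper95; head of the unit helper60; prefix `l9d0`, `L9Q.D0N`)

TEX[LL:exp:prop-low-coefficients] 09-expansion.tex l.459-463: "For this first projection, bounded coefficient densities suffice.  Their prefactor is `λ` on direct paths and `O_∘(1)`, including integrated dotted weights, on size paths."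
ROUTE (no pointwise bound of the dotted cumulant in the table is needed, the added scalar pair is SUMMED with the table):
* LEIBNIZ `l9hi_co_eq` (235 / 145, `L09/HiInst.lean`):   `co n R = G0 ∏_{i ∉ R} d + G1 ∑_{i0 ∉ R} ḋ_{i0} ∏ d`;   `Q.HiDif := l9hc_dif` (113, `L09/HiCo.lean`);
* `|κ| ≤ l9CumC` (`L9Q.kap_abs`),   `|κ̇| ≤ C ∑_{added pair} |wt| |K̇|(level)` (`l9ht_kd_abs`, 113);
* so `|co n R τ| ≤ K A^(2n+1) T0 (1 + ∑_{added pair} |wt| gK(level))`, `|K̇| ≤ T0 gK`      (`L9Q.D0N.co_le`);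
* TOTAL MASS of this majorant over the tables: `l9ht_tm` (113, `L09/HiTab.lean`);   the square counterterm: `L9Q.Hq_sum_le` (`L09/RedD0.lean`);
* NUMBERS: record `Q.D0N A T0 V gK`, produced from `Q.Dots` (69 / 159, `L09/Dots.lean`):   size `T0 = 1 + dot`, `gK = |K̇| / (1 + dot)`;   direct `T0 = λ`, `gK = A a`.
EXITS:   `l9d0_S : LlExpOk → LlSec3 𝔹 F → 0 < a2 → L9cAdmS 𝔹 F → L9cD0S 𝔹 F a2`,      `l9d0_D : LlExpOk → LlBaseProfile → LlSec3 𝔹 F → L9cAdmD 𝔹 Mj κ F → ∀ cD, L9cD0D 𝔹 Mj κ F cD`.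
-/

set_option autoImplicit false

namespace Claimed.Agent.R286

open scoped BigOperators Nat Topology
open Filter

noncomputable section

/-! ## 1. numbers -/

/-- a product of bounded numbers -/
theorem l9d0_prod_le {s : Finset ℕ} {n : ℕ} (hs : s.card ≤ n) {A : ℝ} (hA : 1 ≤ A) {f : ℕ → ℝ} (hf : ∀ i ∈ s, |f i| ≤ A) :
    |∏ i ∈ s, f i| ≤ A ^ n := by
  rw [Finset.abs_prod]
  calc ∏ i ∈ s, |f i| ≤ ∏ _i ∈ s, A := Finset.prod_le_prod (fun i _ => abs_nonneg _) hf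
    _ = A ^ s.card := by simp
    _ ≤ A ^ n := pow_le_pow_right₀ hA hs

/-- a Leibniz sum of bounded numbers -/
theorem l9d0_leib_le {s : Finset ℕ} {n : ℕ} (hs : s.card ≤ n) {A D : ℝ} (hA : 1 ≤ A) (hD : 0 ≤ D) {f fd : ℕ → ℝ} (hf : ∀ i ∈ s, |f i| ≤ A)
    (hfd : ∀ i ∈ s, |fd i| ≤ D) : |∑ i ∈ s, fd i * ∏ j ∈ s.erase i, f j| ≤ n * (D * A ^ n) := by
  have hAn : 0 ≤ A ^ n := by positivity
  refine (Finset.abs_sum_le_sum_abs _ _).trans ?_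
  calc ∑ i ∈ s, |fd i * ∏ j ∈ s.erase i, f j| ≤ ∑ _i ∈ s, D * A ^ n := by
        refine Finset.sum_le_sum fun i hi => ?_
        rw [abs_mul]
        exact mul_le_mul (hfd i hi)
          (l9d0_prod_le ((Finset.card_le_card (Finset.erase_subset _ _)).trans hs) hA fun j hj => hf j (Finset.mem_of_mem_erase hj))
          (abs_nonneg _) hD
    _ = s.card * (D * A ^ n) := by rw [Finset.sum_const, nsmul_eq_mul]
    _ ≤ n * (D * A ^ n) := mul_le_mul_of_nonneg_right (by exact_mod_cast hs) (mul_nonneg hD hAn)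

/-- the four terms of Leibniz as numbers -/
theorem l9d0_num {T0 A Cκ Cd AK c0 κ κd Pb Pd Sb Sd P nn : ℝ} (hT : 0 ≤ T0) (hA : 1 ≤ A) (hCκ : 0 ≤ Cκ) (hCd : 0 ≤ Cd) (hAK : 0 ≤ AK)
    (hP : 0 ≤ P) (hn : 0 ≤ nn) (hc0 : |c0| ≤ (nn + 1) * T0) (hκ : |κ| ≤ Cκ) (hκd : |κd| ≤ Cd * (T0 * AK)) (hPb : |Pb| ≤ P) (hPd : |Pd| ≤ P)
    (hSb : |Sb| ≤ nn * (A * T0 * P)) (hSd : |Sd| ≤ nn * (A * T0 * P)) :
    |((c0 * κ + κd) * Pb + κ * Sb) * Pd + κ * Pb * Sd| ≤ ((3 * nn + 1) * Cκ + Cd) * (A * P ^ 2) * T0 * (1 + AK) := by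
  have hS0 : 0 ≤ nn * (A * T0 * P) := by positivity
  have t1 : |c0 * κ + κd| ≤ (nn + 1) * T0 * Cκ + Cd * (T0 * AK) := by
    refine (abs_add_le _ _).trans (add_le_add ?_ hκd)
    rw [abs_mul]
    exact mul_le_mul hc0 hκ (abs_nonneg _) (by positivity)
  have t10 : 0 ≤ (nn + 1) * T0 * Cκ + Cd * (T0 * AK) := by positivity
  have t2 : |(c0 * κ + κd) * Pb| ≤ ((nn + 1) * T0 * Cκ + Cd * (T0 * AK)) * P := by
    rw [abs_mul]; exact mul_le_mul t1 hPb (abs_nonneg _) t10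
  have t3 : |κ * Sb| ≤ Cκ * (nn * (A * T0 * P)) := by
    rw [abs_mul]; exact mul_le_mul hκ hSb (abs_nonneg _) hCκ
  have t4 : |((c0 * κ + κd) * Pb + κ * Sb) * Pd| ≤ (((nn + 1) * T0 * Cκ + Cd * (T0 * AK)) * P + Cκ * (nn * (A * T0 * P))) * P := by
    rw [abs_mul]
    exact mul_le_mul ((abs_add_le _ _).trans (add_le_add t2 t3)) hPd (abs_nonneg _) (by positivity)
  have t5 : |κ * Pb * Sd| ≤ Cκ * P * (nn * (A * T0 * P)) := by
    rw [abs_mul, abs_mul]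
    exact mul_le_mul (mul_le_mul hκ hPb (abs_nonneg _) hCκ) hSd (abs_nonneg _) (by positivity)
  refine (abs_add_le _ _).trans ((add_le_add t4 t5).trans ?_)
  have e : ((3 * nn + 1) * Cκ + Cd) * (A * P ^ 2) * T0 * (1 + AK)
      - ((((nn + 1) * T0 * Cκ + Cd * (T0 * AK)) * P + Cκ * (nn * (A * T0 * P))) * P + Cκ * P * (nn * (A * T0 * P)))
      = T0 * P ^ 2 * ((A - 1) * ((nn + 1) * Cκ + Cd * AK) + A * ((3 * nn + 1) * Cκ * AK + Cd)) := by ring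
  have : 0 ≤ T0 * P ^ 2 * ((A - 1) * ((nn + 1) * Cκ + Cd * AK) + A * ((3 * nn + 1) * Cκ * AK + Cd)) := by
    have : 0 ≤ A - 1 := by linarith
    positivity
  linarith

/-! ## 2. one point -/

/-- **the numbers used by D0 at one point**: `A` = loss, `T0` = prefactor, `V` = top of the base pairs, `T0 gK` = majorant of `|K̇|` -/
structure L9Q.D0N (Q : L9Q) (A T0 V : ℝ) (gK : ℕ → ℝ) : Prop where
  A1 : 1 ≤ A
  T_nn : 0 ≤ T0
  u_le : |Q.u| ≤ T0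
  e_le : |Q.e| ≤ T0
  b_le : ∀ v, |Q.bV v| ≤ A
  d_le : ∀ v, |Q.dV v| ≤ A
  bD_le : ∀ v, |Q.bD v| ≤ A * T0
  dD_le : ∀ v, v ≤ Q.N → Q.ms v < V → |Q.dD v| ≤ A * T0
  K_nn : ∀ l, 0 ≤ gK l
  KD_le : ∀ l, l ≤ Q.N → |Q.KD l| ≤ T0 * gK l
  K_int : l9htNm Q.ms Q.N gK ≤ A

/-- the constant of the real coefficient of degree `n` -/
def l9d0Kn (n : ℕ) : ℝ := (3 * (n : ℝ) + 1) * l9CumC (Finset.range n) + l9CumC (Finset.range (n + 1))

theorem l9d0_Kn_nonneg (n : ℕ) : 0 ≤ l9d0Kn n := by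
  have := l9hc_cumC_nonneg (Finset.range n)
  have := l9hc_cumC_nonneg (Finset.range (n + 1))
  unfold l9d0Kn
  positivity

/-- sum of the constants of the allocation -/
def l9d0Cs : ℝ := ∑ r ∈ Finset.range 11, l9aC r 4

theorem l9d0_Cs_nonneg : 0 ≤ l9d0Cs := Finset.sum_nonneg fun r _ => l9a_C_nonneg r 4

theorem l9d0_C_le {r : ℕ} (hr : r ≤ 10) {a : ℝ} (ha : a ≤ 4) : l9aC r a ≤ l9d0Cs :=
  (l9d_C_mono r ha).trans (Finset.single_le_sum (f := fun r => l9aC r 4) (fun r _ => l9a_C_nonneg r 4) (Finset.mem_range.2 (by omega)))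

/-- the constant of D0 -/
def l9d0K : ℝ := 732 * l9d0Cs * (l9d0Kn 2 + l9d0Kn 3 + l9d0Kn 4) + 8 * l9aC 2 4

theorem l9d0_K_nonneg : 0 ≤ l9d0K := by
  have := l9d0_Cs_nonneg
  have := l9d0_Kn_nonneg 2; have := l9d0_Kn_nonneg 3; have := l9d0_Kn_nonneg 4
  have := l9a_C_nonneg 2 4
  unfold l9d0K
  refine add_nonneg (mul_nonneg (mul_nonneg (by norm_num) l9d0_Cs_nonneg) (by linarith)) (by linarith)

theorem l9d0_off_ne {S : Type} {X : JtCtx S} {n : ℕ} {τ : JtTopo} (h : X.off 0 n τ ≠ 0) (i : ℕ) (hi : i < n) : τ (2 * i) (2 * i + 1) ≤ X.N := by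
  unfold JtCtx.off at h
  rw [Finset.prod_ne_zero_iff] at h
  have h1 := h i (Finset.mem_range.2 hi)
  by_contra hc
  apply h1
  have e1 : jtC 0 i = 2 * i := by unfold jtC; omega
  have e2 : jtD 0 i = 2 * i + 1 := by unfold jtD; omega
  rw [e1, e2, if_neg hc]

namespace L9Q

variable {Q : L9Q} {A T0 V : ℝ} {gK : ℕ → ℝ}

theorem D0N.wK_le (h : Q.D0N A T0 V gK) (l : ℕ) : |Q.wK l| ≤ T0 * gK l := by
  unfold L9Q.wK
  split_ifs with hl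
  · rw [one_mul]; exact h.KD_le l hl
  · rw [zero_mul, abs_zero]; exact mul_nonneg h.T_nn (h.K_nn l)

/-- the dotted cumulant -/
theorem D0N.kapD_le (h : Q.D0N A T0 V gK) {δm : ℝ} (hAdm : Q.Adm δm) {n : ℕ} {τ : JtTopo} (hτ : IsTr Q.N (2 * n) τ) :
    |Q.kapD n τ| ≤ l9CumC (Finset.range (n + 1)) * (T0 * trAbsK Q.ms Q.N 2 (2 * n) τ (fun τ' => gK (τ' (2 * n) (2 * n + 1)))) := by
  have h1 := l9ht_kd_abs (ms := Q.ms) hτ Q.wK (fun l => T0 * gK l) (Q.kap (n + 1)) h.wK_le (fun τ' _ => kap_abs hAdm (n + 1) τ')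
  rwa [tra2_absK_const_mul] at h1

/-- **the real coefficient at a table of the low region** -/
theorem D0N.co_le (h : Q.D0N A T0 V gK) (hD : Q.HiDif) {δm : ℝ} (hAdm : Q.Adm δm) {n : ℕ} (h1 : 1 ≤ n) {R : Finset ℕ}
    (hR : R ⊆ Finset.range n) {τ : JtTopo} (hτ : τ ∈ Q.Tb (l9RgL4 V) n) (ho : (Q.X false).off 0 n τ ≠ 0) :
    |Q.co n R τ| ≤ l9d0Kn n * (A * (A ^ n) ^ 2) * T0 * l9htMl Q.ms Q.N n gK (fun _ => 0) τ := by
  classical
  have hτ' := Finset.mem_filter.1 hτ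
  have htr : IsTr Q.N (2 * n) τ := (l9a_mem_tab.mp hτ'.1).1
  have hlv : ∀ i, i < n → l9Lv τ i ≤ Q.N := fun i hi => l9d0_off_ne ho i hi
  have hlow : ∀ i, i < n → Q.ms (l9Lv τ i) < V := fun i hi => hτ'.2.1 i hi
  have hAK : 0 ≤ trAbsK Q.ms Q.N 2 (2 * n) τ (fun τ' => gK (τ' (2 * n) (2 * n + 1))) := tra2_absK_nonneg 2 _ fun τ' => h.K_nn _
  have hcR : R.card ≤ n := by simpa using Finset.card_le_card hR
  have hcR' : (Finset.range n \ R).card ≤ n := by simpa using Finset.card_le_card (Finset.sdiff_subset (s := Finset.range n) (t := R))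
  have hAT : 0 ≤ A * T0 := mul_nonneg (by linarith [h.A1]) h.T_nn
  have hc0 : |Q.u - Q.e * R.card| ≤ ((n : ℝ) + 1) * T0 := by
    have hc : (R.card : ℝ) ≤ n := by exact_mod_cast hcR
    calc |Q.u - Q.e * R.card| ≤ |Q.u| + |Q.e * R.card| := abs_sub _ _
      _ = |Q.u| + |Q.e| * R.card := by rw [abs_mul, Nat.abs_cast]
      _ ≤ T0 + T0 * n := add_le_add h.u_le (mul_le_mul h.e_le hc (by positivity) h.T_nn)
      _ = _ := by ring
  have e : l9htMl Q.ms Q.N n gK (fun _ => 0) τ = 1 + trAbsK Q.ms Q.N 2 (2 * n) τ (fun τ' => gK (τ' (2 * n) (2 * n + 1))) := by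
    unfold l9htMl; simp
  rw [l9hi_co_eq Q hD h1 R htr, e]
  unfold L9Q.G0 L9Q.G1 l9d0Kn
  exact l9d0_num h.T_nn h.A1 (l9hc_cumC_nonneg _) (l9hc_cumC_nonneg _) hAK (by have := h.A1; positivity) (Nat.cast_nonneg n) hc0
    (kap_abs hAdm n τ) (h.kapD_le hAdm htr)
    (l9d0_prod_le hcR h.A1 fun i _ => h.b_le _)
    (l9d0_prod_le hcR' h.A1 fun i _ => h.d_le _)
    (l9d0_leib_le hcR h.A1 hAT (fun i _ => h.b_le _) fun i _ => h.bD_le _)
    (l9d0_leib_le hcR' h.A1 hAT (fun i _ => h.d_le _) fun i hi => by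
      have hi' := Finset.mem_range.1 (Finset.mem_sdiff.1 hi).1
      exact h.dD_le _ (hlv i hi') (hlow i hi'))

/-- the ordinary flat coefficient against the majorant of 113 -/
theorem D0N.H_le (h : Q.D0N A T0 V gK) (hD : Q.HiDif) {δm : ℝ} (hAdm : Q.Adm δm) {n : ℕ} (h1 : 1 ≤ n) {R : Finset ℕ}
    (hR : R ⊆ Finset.range n) {τ : JtTopo} (hτ : τ ∈ Q.Tb (l9RgL4 V) n) :
    |Q.H n R τ| ≤ l9htAw Q.ms Q.N n (l9d0Kn n * (A * (A ^ n) ^ 2) * T0) gK (fun _ => 0) τ := by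
  have hA0 : 0 ≤ A := by linarith [h.A1]
  have hCG : 0 ≤ l9d0Kn n * (A * (A ^ n) ^ 2) * T0 := mul_nonneg (mul_nonneg (l9d0_Kn_nonneg n) (by positivity)) h.T_nn
  have haw := l9ht_aw_nonneg Q.ms Q.N n hCG h.K_nn (fun _ => le_rfl) τ
  unfold L9Q.H
  by_cases ho : (Q.X false).off 0 n τ = 0
  · rw [ho]; simpa using haw
  · obtain ⟨o0, o1⟩ := l9d_off_mem (Q.X false) 0 n τ
    have hc := h.co_le hD hAdm h1 hR hτ ho
    have hf0 : 0 ≤ ((2 : ℝ) ^ n * (n ! : ℝ))⁻¹ := by positivity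
    rw [abs_mul, abs_mul, abs_mul, abs_of_nonneg hf0, abs_of_nonneg o0]
    unfold l9htAw
    calc ((2 : ℝ) ^ n * (n ! : ℝ))⁻¹ * |l9aWt Q.ms Q.N 1 (2 * n) τ| * (Q.X false).off 0 n τ * |Q.co n R τ|
        ≤ 1 * |l9aWt Q.ms Q.N 1 (2 * n) τ| * 1 * (l9d0Kn n * (A * (A ^ n) ^ 2) * T0 * l9htMl Q.ms Q.N n gK (fun _ => 0) τ) := by
          apply mul_le_mul _ hc (abs_nonneg _) (by positivity)
          apply mul_le_mul _ o1 o0 (by positivity)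
          exact mul_le_mul_of_nonneg_right (l9d_fact_le n) (abs_nonneg _)
      _ = _ := by ring

/-- sum of the ordinary flat coefficients -/
theorem D0N.H_sum (h : Q.D0N A T0 V gK) (hD : Q.HiDif) {δm : ℝ} (hAdm : Q.Adm δm) (ha : Q.ms Q.N ≤ 4) {n : ℕ} (h2 : 2 ≤ n) (h4 : n ≤ 4)
    {R : Finset ℕ} (hR : R ⊆ Finset.range n) :
    ∑ τ ∈ Q.Tb (l9RgL4 V) n, |Q.H n R τ| ≤ 732 * l9d0Cs * (l9d0Kn 2 + l9d0Kn 3 + l9d0Kn 4) * (A ^ 10 * T0) := by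
  classical
  have hms := Q.isMs hAdm
  have hA1 := h.A1
  have hA0 : 0 ≤ A := by linarith
  have hT := h.T_nn
  have hCG : 0 ≤ l9d0Kn n * (A * (A ^ n) ^ 2) * T0 := mul_nonneg (mul_nonneg (l9d0_Kn_nonneg n) (by positivity)) hT
  have s1 := (Finset.sum_le_sum fun τ hτ => h.H_le hD hAdm (by omega : 1 ≤ n) hR hτ).trans
    (l9ht_tm hms (by omega : 1 ≤ n) (Finset.filter_subset _ _) hCG h.K_nn (fun _ => le_rfl))
  refine s1.trans ?_
  have hz : l9htNm Q.ms Q.N (fun _ => (0 : ℝ)) = 0 := by simp [l9htNm]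
  have hK0 := l9ht_nm_nonneg hms h.K_nn
  have hKn : l9d0Kn n ≤ l9d0Kn 2 + l9d0Kn 3 + l9d0Kn 4 := by
    have := l9d0_Kn_nonneg 2; have := l9d0_Kn_nonneg 3; have := l9d0_Kn_nonneg 4
    interval_cases n <;> linarith
  have hKs : 0 ≤ l9d0Kn 2 + l9d0Kn 3 + l9d0Kn 4 := (l9d0_Kn_nonneg n).trans hKn
  have hpw : A * (A ^ n) ^ 2 ≤ A ^ 9 := by
    have e : A * (A ^ n) ^ 2 = A ^ (2 * n + 1) := by rw [← pow_mul]; ring
    rw [e]
    exact pow_le_pow_right₀ hA1 (by omega)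
  have hCG' : l9d0Kn n * (A * (A ^ n) ^ 2) * T0 ≤ (l9d0Kn 2 + l9d0Kn 3 + l9d0Kn 4) * A ^ 9 * T0 :=
    mul_le_mul_of_nonneg_right (mul_le_mul hKn hpw (by positivity) hKs) hT
  have c1 := l9d0_C_le (r := 2 * n) (by omega) ha
  have c2 := l9d0_C_le (r := 2 * n + 2) (by omega) ha
  have c10 := l9a_C_nonneg (2 * n) (Q.ms Q.N)
  have c20 := l9a_C_nonneg (2 * n + 2) (Q.ms Q.N)
  have hCs := l9d0_Cs_nonneg
  have hk : (((2 * n + 2 : ℕ) : ℝ) + 1) ^ 2 ≤ 121 := by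
    have h1 : (((2 * n + 2 : ℕ) : ℝ)) ≤ 10 := by exact_mod_cast (by omega : 2 * n + 2 ≤ 10)
    have h0 : (0 : ℝ) ≤ ((2 * n + 2 : ℕ) : ℝ) := Nat.cast_nonneg _
    nlinarith
  have hin : l9aC (2 * n) (Q.ms Q.N) + l9aC (2 * n + 2) (Q.ms Q.N) * ((((2 * n + 2 : ℕ) : ℝ) + 1) ^ 2 * l9htNm Q.ms Q.N gK)
      + n * (l9aC (2 * n) (Q.ms Q.N) * ((((2 * n : ℕ) : ℝ) + 1) ^ 2 * l9htNm Q.ms Q.N fun _ => (0 : ℝ))) ≤ l9d0Cs * (122 * A) := by
    rw [hz, mul_zero, mul_zero, mul_zero, add_zero]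
    have t1 : (((2 * n + 2 : ℕ) : ℝ) + 1) ^ 2 * l9htNm Q.ms Q.N gK ≤ 121 * A := mul_le_mul hk h.K_int hK0 (by norm_num)
    have t2 : l9aC (2 * n + 2) (Q.ms Q.N) * ((((2 * n + 2 : ℕ) : ℝ) + 1) ^ 2 * l9htNm Q.ms Q.N gK) ≤ l9d0Cs * (121 * A) :=
      mul_le_mul c2 t1 (by positivity) hCs
    nlinarith
  have hin0 : 0 ≤ l9aC (2 * n) (Q.ms Q.N) + l9aC (2 * n + 2) (Q.ms Q.N) * ((((2 * n + 2 : ℕ) : ℝ) + 1) ^ 2 * l9htNm Q.ms Q.N gK)
      + n * (l9aC (2 * n) (Q.ms Q.N) * ((((2 * n : ℕ) : ℝ) + 1) ^ 2 * l9htNm Q.ms Q.N fun _ => (0 : ℝ))) := by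
    rw [hz]; positivity
  have ha0 := hms.nonneg Q.N
  unfold l9htCT
  calc l9d0Kn n * (A * (A ^ n) ^ 2) * T0 * (Q.ms Q.N + 2) * _
      ≤ ((l9d0Kn 2 + l9d0Kn 3 + l9d0Kn 4) * A ^ 9 * T0 * 6) * (l9d0Cs * (122 * A)) := by
        refine mul_le_mul (mul_le_mul hCG' (by linarith) (by linarith) (by positivity)) hin hin0 (by positivity)
    _ = _ := by ring

/-- the coefficient of the square counterterm -/
theorem D0N.coq_le (h : Q.D0N A T0 V gK) (τ : JtTopo) : |Q.coq τ| ≤ 4 * A * T0 := by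
  have hb : |(Q.I.X0 (Q.pf Q.t)).bC (τ 0 1)| ≤ A := h.b_le (τ 0 1)
  have hd : |deriv (fun t' => (Q.I.X0 (Q.pf t')).bC (τ 0 1)) Q.t| ≤ A * T0 := h.bD_le (τ 0 1)
  have hA1 := h.A1
  have hT := h.T_nn
  have hc : |Q.u - Q.e * ((2 : ℕ) : ℝ)| ≤ 3 * T0 := by
    calc |Q.u - Q.e * ((2 : ℕ) : ℝ)| ≤ |Q.u| + |Q.e * ((2 : ℕ) : ℝ)| := abs_sub _ _
      _ = |Q.u| + |Q.e| * 2 := by rw [abs_mul]; norm_num
      _ ≤ _ := by linarith [h.u_le, h.e_le]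
  unfold L9Q.coq l9O
  refine (abs_add_le _ _).trans ?_
  rw [abs_mul]
  have := mul_le_mul hc hb (abs_nonneg _) (by positivity)
  nlinarith

/-- **D0 at one point** -/
theorem D0N.point (h : Q.D0N A T0 V gK) (hD : Q.HiDif) {δm : ℝ} (hAdm : Q.Adm δm) (ha : Q.ms Q.N ≤ 4) : Q.D0 (l9d0K * A ^ 10) T0 V := by
  intro n h2 h4 R hR
  have hms := Q.isMs hAdm
  have hA1 := h.A1
  have hT := h.T_nn
  have hH := h.H_sum hD hAdm ha h2 h4 hR
  have c2 := l9a_C_nonneg 2 4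
  have hA10 : A ≤ A ^ 10 := by
    calc A = A ^ 1 := (pow_one A).symm
      _ ≤ A ^ 10 := pow_le_pow_right₀ hA1 (by norm_num)
  have hq0 : 0 ≤ 8 * l9aC 2 4 * (A ^ 10 * T0) := mul_nonneg (mul_nonneg (by norm_num) c2) (mul_nonneg (by positivity) hT)
  unfold L9Q.Ht l9d0K
  by_cases hc : n = 2 ∧ R = {0, 1}
  · simp only [if_pos hc]
    have hq := Hq_sum_le (Q := Q) (B := 4 * A * T0) (V := V) (by positivity) (fun τ _ _ => h.coq_le τ) hms ha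
    have hq' : ∑ τ ∈ Q.Tb (l9RgL4 V) 2, |Q.Hq τ| ≤ 8 * l9aC 2 4 * (A ^ 10 * T0) := by
      refine hq.trans ?_
      have : A * T0 ≤ A ^ 10 * T0 := mul_le_mul_of_nonneg_right hA10 hT
      nlinarith
    obtain ⟨rfl, -⟩ := hc
    calc ∑ τ ∈ Q.Tb (l9RgL4 V) 2, |Q.H 2 R τ + Q.Hq τ|
        ≤ ∑ τ ∈ Q.Tb (l9RgL4 V) 2, (|Q.H 2 R τ| + |Q.Hq τ|) := Finset.sum_le_sum fun τ _ => abs_add_le _ _
      _ = ∑ τ ∈ Q.Tb (l9RgL4 V) 2, |Q.H 2 R τ| + ∑ τ ∈ Q.Tb (l9RgL4 V) 2, |Q.Hq τ| := Finset.sum_add_distrib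
      _ ≤ _ := by linarith
  · simp only [if_neg hc, add_zero]
    linarith

end L9Q

/-! ## 3. the numbers from DOTS -/

theorem l9d0_pm_le {N : ℕ} {ms : ℕ → ℝ} (hms : IsMs N ms) {v : ℕ} (hv : v ≤ N) : trPm ms v ≤ ms v := by
  unfold trPm
  split_ifs
  · exact hms.nonneg v
  · exact hms.mono _ _ (by omega) hv

/-- the mass integral with the atom at the coincidence level, for a function which vanishes there -/
theorem l9d0_nm_cut (ms : ℕ → ℝ) (N : ℕ) (f : ℕ → ℝ) :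
    l9htNm ms N (fun l => if l ≤ N then f l else 0) = ∑ k ∈ Finset.range (N + 1), l9rMu ms k * f k := by
  unfold l9htNm
  rw [Finset.sum_range_succ]
  beta_reduce
  rw [if_neg (by omega), mul_zero, add_zero]
  refine Finset.sum_congr rfl fun k hk => ?_
  have hk' : k ≤ N := by have := Finset.mem_range.1 hk; omega
  rw [if_pos hk']
  unfold l9aMw
  rw [if_pos hk']
  rfl

/-- **size segment** -/
theorem l9d0_of_dotS {Q : L9Q} {Ad vK V : ℝ} (h : Q.Dots Ad 1 vK) (hev : Q.AdmEv) (hms : IsMs Q.N Q.ms) (ha : Q.p.a = 4) (hu : Q.u = 1)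
    (he : Q.e = 1 / 6) (hV : V ≤ vK) :
    Q.D0N (2300 * (1 + Ad) ^ 2) (1 + Q.I.dot Q.pf Q.t) V (fun l => if l ≤ Q.N then |Q.KD l| / (1 + Q.I.dot Q.pf Q.t) else 0) := by
  have hA := h.A_nn
  have hd0 : 0 ≤ Q.I.dot Q.pf Q.t := h.iK_nn.trans h.iK_le
  set dt := Q.I.dot Q.pf Q.t with hdt
  have hT : 0 < 1 + dt := by linarith
  have hAA : Ad ≤ 2300 * (1 + Ad) ^ 2 := by nlinarith
  have hA3 : 3 * Ad ≤ 2300 * (1 + Ad) ^ 2 := by nlinarith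
  have hA20 : 0 ≤ 2300 * (1 + Ad) ^ 2 := by positivity
  refine ⟨by nlinarith, hT.le, by rw [hu, abs_one]; linarith, by rw [he, abs_of_pos (by norm_num)]; linarith, fun v => ?_, fun v => ?_, fun v => ?_,
    fun v hv hlow => ?_, fun l => ?_, fun l hl => ?_, ?_⟩
  · show |(Q.X false).bC v| ≤ _
    rw [abs_of_nonneg (h.b_nn v)]
    exact (h.b_le v).trans hAA
  · exact (h.d_le v).trans hA3
  · have := h.bd v
    rw [mul_one] at this
    nlinarith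
  · have hmc : Q.mc v ≤ vK := ((l9d0_pm_le hms hv).trans hlow.le).trans hV
    have k1 := h.dd hev v
    have k2 := h.hd v hmc
    have k3 := h.Kd v hmc
    have k4 := h.bd v
    have k5 := h.qd hev v hv
    have k6 := h.m_le v
    have k7 := h.iK_le
    rw [ha] at k5 k6
    rw [mul_one] at k2 k3 k4
    have k3' : |Q.KD v| ≤ Ad * 4 := k3.trans (mul_le_mul_of_nonneg_left k6 hA)
    have k5' : |Q.qD v| ≤ 36 * dt + 2240 * Ad := by nlinarith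
    have k8 : Ad * |Q.qD v| ≤ Ad * (36 * dt + 2240 * Ad) := mul_le_mul_of_nonneg_left k5' hA
    have p1 : 0 ≤ Ad * dt := mul_nonneg hA hd0
    have p2 : 0 ≤ Ad ^ 2 * dt := by positivity
    nlinarith
  · show 0 ≤ if l ≤ Q.N then |Q.KD l| / (1 + dt) else 0
    split_ifs
    · positivity
    · exact le_rfl
  · show |Q.KD l| ≤ (1 + dt) * (if l ≤ Q.N then |Q.KD l| / (1 + dt) else 0)
    rw [if_pos hl, mul_div_cancel₀ _ hT.ne']
  · rw [l9d0_nm_cut Q.ms Q.N fun l => |Q.KD l| / (1 + dt)]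
    have e : ∑ k ∈ Finset.range (Q.N + 1), l9rMu Q.ms k * (|Q.KD k| / (1 + dt)) = Q.iK / (1 + dt) := by
      unfold L9Q.iK
      rw [Finset.sum_div]
      exact Finset.sum_congr rfl fun k _ => by ring
    rw [e]
    have : Q.iK / (1 + dt) ≤ 1 := by
      rw [div_le_one hT]
      linarith [h.iK_le]
    nlinarith

/-- **strength sweep** -/
theorem l9d0_of_dotD {Q : L9Q} {Ad V : ℝ} (h : Q.Dots Ad Q.lam Q.p.a) (hev : Q.AdmEv) (ha : Q.p.a ≤ 2) (hu : Q.u = 0) (he : Q.e = 0) :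
    Q.D0N (400 * (1 + Ad) ^ 2) Q.lam V (fun l => if l ≤ Q.N then Ad * Q.p.a else 0) := by
  have hA := h.A_nn
  have hT := h.T_nn
  have ha0 := h.a_pos
  have hAA : Ad ≤ 400 * (1 + Ad) ^ 2 := by nlinarith
  have hA3 : 3 * Ad ≤ 400 * (1 + Ad) ^ 2 := by nlinarith
  refine ⟨by nlinarith, hT, by rw [hu, abs_zero]; exact hT, by rw [he, abs_zero]; exact hT, fun v => ?_, fun v => ?_, fun v => ?_,
    fun v hv _ => ?_, fun l => ?_, fun l hl => ?_, ?_⟩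
  · show |(Q.X false).bC v| ≤ _
    rw [abs_of_nonneg (h.b_nn v)]
    exact (h.b_le v).trans hAA
  · exact (h.d_le v).trans hA3
  · exact (h.bd v).trans (mul_le_mul_of_nonneg_right hAA hT)
  · refine (h.dd_all le_rfl hev hv).trans ?_
    rw [← mul_assoc]
    refine mul_le_mul_of_nonneg_right ?_ hT
    have h3 : Q.p.a ^ 3 ≤ 8 := by
      calc Q.p.a ^ 3 ≤ 2 ^ 3 := pow_le_pow_left₀ ha0.le ha 3
        _ = 8 := by norm_num
    have h4 : 44 * Q.p.a ^ 3 * Ad ≤ 352 * Ad := by nlinarith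
    have h5 : (2 + Q.p.a + 44 * Q.p.a ^ 3 * Ad) * Ad ≤ (4 + 352 * Ad) * Ad := mul_le_mul_of_nonneg_right (by linarith) hA
    nlinarith
  · show 0 ≤ if l ≤ Q.N then Ad * Q.p.a else 0
    split_ifs
    · positivity
    · exact le_rfl
  · show |Q.KD l| ≤ Q.lam * (if l ≤ Q.N then Ad * Q.p.a else 0)
    rw [if_pos hl]
    refine (h.Kd_all le_rfl l).trans (le_of_eq ?_)
    ring
  · rw [l9d0_nm_cut Q.ms Q.N fun _ => Ad * Q.p.a, ← Finset.sum_mul, h.mu_sum]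
    have h2 : Q.p.a * Q.p.a ≤ 4 := by nlinarith
    have h3 := mul_le_mul_of_nonneg_left h2 hA
    nlinarith

/-! ## 4. the exits -/

/-- powers of a subpower loss -/
theorem l9d0_loss {x δ c C Ad : ℝ} (hx : 0 < x) (hx1 : x ≤ 1) (hδ : 0 < δ) (hc : 0 ≤ c) (hAd : Ad = C * x ^ (-(δ / 20))) (h0 : 0 ≤ Ad) :
    (c * (1 + Ad) ^ 2) ^ 10 ≤ (c * (1 + |C|) ^ 2) ^ 10 * x ^ (-δ) := by
  set y := x ^ (-(δ / 20)) with hy
  have hy1 : 1 ≤ y := Real.one_le_rpow_of_pos_of_le_one_of_nonpos hx hx1 (by linarith)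
  have h1 : 1 + Ad ≤ (1 + |C|) * y := by
    rw [hAd]
    have := mul_le_mul_of_nonneg_right (le_abs_self C) (by linarith : (0 : ℝ) ≤ y)
    linarith
  have h2 : (1 + Ad) ^ 2 ≤ ((1 + |C|) * y) ^ 2 := pow_le_pow_left₀ (by linarith) h1 2
  have h3 : c * (1 + Ad) ^ 2 ≤ c * (1 + |C|) ^ 2 * y ^ 2 := by
    calc c * (1 + Ad) ^ 2 ≤ c * ((1 + |C|) * y) ^ 2 := mul_le_mul_of_nonneg_left h2 hc
      _ = _ := by ring
  have h4 := pow_le_pow_left₀ (by positivity : 0 ≤ c * (1 + Ad) ^ 2) h3 10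
  have hy20 : (y ^ 2) ^ 10 = x ^ (-δ) := by
    rw [← pow_mul, hy, ← Real.rpow_natCast, ← Real.rpow_mul hx.le]
    congr 1
    norm_num
  calc (c * (1 + Ad) ^ 2) ^ 10 ≤ (c * (1 + |C|) ^ 2 * y ^ 2) ^ 10 := h4
    _ = (c * (1 + |C|) ^ 2) ^ 10 * (y ^ 2) ^ 10 := by rw [mul_pow]
    _ = _ := by rw [hy20]

/-- **EXIT, size segment**: the supply `L9cD0S` of RED -/
theorem l9d0_S (𝔹 : LlBase) (F : LlFix) (hE : LlExpOk F.sS F.eta F.pS) (h3 : LlSec3 𝔹 F) {a2 : ℝ} (ha2 : 0 < a2) (hAdm : L9cAdmS 𝔹 F) :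
    L9cD0S 𝔹 F a2 := by
  obtain ⟨vK, hvK, hDot⟩ := l9t_dotS 𝔹 F hE h3
  intro δ hδ ε hε q hq
  obtain ⟨C, N0, h⟩ := hDot (δ / 20) (by positivity) ε hε q hq
  obtain ⟨C', N0', h'⟩ := hAdm 0 δ hδ ε hε q hq
  obtain ⟨N1, hN1⟩ := l9c_X_small 1 ha2 hvK
  refine ⟨l9d0K * (2300 * (1 + |C|) ^ 2) ^ 10, max (max N0 N0') (max N1 1), fun N hN => ?_⟩
  have hNa : N0 ≤ N := (le_max_left _ _).trans ((le_max_left _ _).trans hN)
  have hNb : N0' ≤ N := (le_max_right _ _).trans ((le_max_left _ _).trans hN)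
  have hNc : N1 ≤ N := (le_max_left _ _).trans ((le_max_right _ _).trans hN)
  have hNd : 0 < N := (le_max_right _ _).trans ((le_max_right _ _).trans hN)
  filter_upwards [h N hNa, h' N hNb] with Fs h1 h2
  intro m γ θ hy
  obtain ⟨hD, hEv⟩ := h1 m γ θ hy
  obtain ⟨hA, -⟩ := h2 m γ θ hy
  have hev := hEv
  have hx := l9c_X_pos hNd
  have hx1 := l9c_X_le hNd
  have hV : skX N ^ a2 ≤ vK := by simpa using hN1 N hNc
  have hdif := l9hc_dif _ (fun t' => by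
    show (l9PtS F N γ t').a = (l9PtS F N γ θ).a
    rw [l9t_S_a, l9t_S_a]) hA.a_pos hev hy.2.2.2.1
  have hn := l9d0_of_dotS hD hev (L9Q.isMs _ hA) (l9t_S_a F N γ θ) rfl rfl hV
  have hpt := hn.point hdif hA (by
    rw [l9d_ms_top]
    exact (l9t_S_a F N γ θ).le)
  intro n hn2 hn4 R hR
  refine (hpt n hn2 hn4 R hR).trans (mul_le_mul_of_nonneg_right ?_ hn.T_nn)
  rw [mul_assoc]
  exact mul_le_mul_of_nonneg_left (l9d0_loss hx hx1 hδ (by norm_num) rfl hD.A_nn) l9d0_K_nonneg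

/-- **EXIT, strength sweep**: the supply `L9cD0D` of RED, every threshold `cD` -/
theorem l9d0_D (𝔹 : LlBase) (Mj : L9Mj) (κ : ℝ) (F : LlFix) (hE : LlExpOk F.sS F.eta F.pS) (hP : LlBaseProfile 𝔹 F.T) (h3 : LlSec3 𝔹 F)
    (hAdm : L9cAdmD 𝔹 Mj κ F) (cD : ℝ) : L9cD0D 𝔹 Mj κ F cD := by
  have hDot := l9t_dotD 𝔹 Mj κ F hE hP h3
  intro δ hδ ε hε q hq
  obtain ⟨C, N0, h⟩ := hDot (δ / 20) (by positivity) ε hε q hq
  obtain ⟨C', N0', h'⟩ := hAdm 0 δ hδ ε hε q hq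
  refine ⟨l9d0K * (400 * (1 + |C|) ^ 2) ^ 10, max (max N0 N0') 1, fun N hN => ?_⟩
  have hNa : N0 ≤ N := (le_max_left _ _).trans ((le_max_left _ _).trans hN)
  have hNb : N0' ≤ N := (le_max_right _ _).trans ((le_max_left _ _).trans hN)
  have hNd : 0 < N := (le_max_right _ _).trans hN
  filter_upwards [h N hNa, h' N hNb] with Fs h1 h2
  intro m ell γ t hy
  obtain ⟨hD, hEv⟩ := h1 m ell γ t hy
  have hA := h2 m ell γ t hy
  have hev := hEv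
  have hx := l9c_X_pos hNd
  have hx1 := l9c_X_le hNd
  have hl2 : ell ≤ 2 := by
    have hl : ell ≤ (2 : ℝ) ^ (1 / 6 : ℝ) := hy.2.2.1.2
    have h2 : (2 : ℝ) ^ (1 / 6 : ℝ) ≤ 2 ^ (1 : ℝ) := Real.rpow_le_rpow_of_exponent_le (by norm_num) (by norm_num)
    rw [Real.rpow_one] at h2
    linarith
  have hdif := l9hc_dif _ (fun t' => by
    show (l9PtL N ell γ t').a = (l9PtL N ell γ t).a
    rw [l9t_L_a, l9t_L_a]) hA.a_pos hev hy.2.2.2.2.1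
  have hn := l9d0_of_dotD (V := cD) hD hev (by
    show (l9PtL N ell γ t).a ≤ 2
    rw [l9t_L_a]; exact hl2) rfl rfl
  have hpt := hn.point hdif hA (by
    rw [l9d_ms_top]
    show (l9PtL N ell γ t).a ≤ 4
    rw [l9t_L_a]; linarith)
  intro n hn2 hn4 R hR
  refine (hpt n hn2 hn4 R hR).trans (mul_le_mul_of_nonneg_right ?_ hn.T_nn)
  rw [mul_assoc]
  exact mul_le_mul_of_nonneg_left (l9d0_loss hx hx1 hδ (by norm_num) rfl hD.A_nn) l9d0_K_nonneg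

end

theorem l9d0_defs_eqns_cite : True := by
  have := @l9d0Kn.eq_1; have := @l9d0Cs.eq_1; have := @l9d0K.eq_1
  trivial

end Claimed.Agent.R286
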