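import Claimed.Agent.R286.L09.HiTerm
import Claimed.Agent.R286.L09.CutG
import Claimed.Agent.R286.L09.CCInst
import Claimed.Agent.R286.L09.Par

/-!
# Row 286 (S0533), LL sec. 9, node HI (09-expansion.tex l.331-395), file L09/HiTab : THE RECORDS OF THE H TABLE ON TABLES      (owner helper113; head of the node helper235; prefix `l9ht`, `L9ht`)

0 sorry.      INST[L9hWt], INST[L9hDel] (hence INST[L9hEns] through `l9h_ens_of_del`): the abstract records of `L09/HiAbs.lean`, `L09/HiTerm.lean` (235) are CONSTRUCTED from NUMBERS of two jet contexts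
`X false` (untilted), `X true` (tilted) and from the absolute allocation measure of 276 (`L09/Marg.lean`).      TEX[LL:exp:high-table]

DICTIONARY of one term `d[H ∏_{i ∉ A} φ_i ; ∏_{i ∈ A} δ_i]`, degree `n`:
* `𝒯`                 the tables of the term: ANY subset of `l9aTab N (2 n)` on which the two ends of each base pair are different leaves (`L9htTb N n 𝒯`; the factor `off` kills the other tables);
                      `Tr := L9htTr 𝒯` (subtype), `ι := Fin n`, `lv := l9htLv` (`τ (2 i) (2 i + 1)`);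
* `Ω := L9htOm S (2 n)`  configurations of the `2 n` leaves (discrete sigma-algebra; `ω.v` the configuration), `nu := l9htNu X n` (`l9htMu` = the probability vector `l9ciPw` of 70 as a measure);
                      `l9ht_int_nu` : `∫ P (trExt ω.v) = X.nu r τ P`;
* `del := l9htDel X Sf n`  `δ_i = msk * ov - Sf(level)`, `Sf` = ANY centring (the untilted mean `S_v` in the application);      `l9ht_E` : `l9hE nu del A e τ` is the tree number of `∏_{i ∈ A} δ_i`;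
* `L9htP X N Sf ms sig V1 V2 D1 D2`  **THE IMPORTS FROM LL 08** = numbers on the PAIR tables `l9rT2 N t`, `t ≤ N`, both ensembles: `|δ| ≤ 2`, (D15) at the masses `≥ V₁`, `≥ V₂`, (D2)/(D11) fourth moment below `V₁`.
                      `l9ht_pair` (marginal of one base pair), **`l9ht_del`** : `L9htP ⟹ L9hDel`.
* `aw := l9htAw ms N n CG gK gb` `= |wt τ| CG (1 + ∑_{added scalar pair} gK(its level) + ∑_i gb(level of the pair i))`  (`l9htMl` = the bracket): majorant of (allocation weight) x (differentiated scalar coefficient);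
                      `gK` = majorant of `|K̇|` (`= C` below `V₁`, where `|K̇(v)| ≤ C v`), `gb` = majorant of `|ḃ|`;      `l9htNm ms N g = ∑_{k ≤ N+1} mw_k g_k` (mass integral, atom `1` at the coincidence level).
* `l9ht_two_stage`    the total variation tower ON TABLES: `∑_{τ on q} |wt| G(τ) absK k q τ Φ = ∑_{τ' on q+k} |wt| G Φ`;
* `l9ht_marg2`        marginal of TWO pairs, tied or not (`≤ C (r+1)² (‖g₁‖ ‖g₂‖ + ‖g₁ g₂‖)`): "If it is tied to a high base vertex, integrate against that same variable" (09 l.345-347);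
* `l9ht_aw_sum`, **`l9ht_tm`**, **`l9ht_sm`**   total mass `≤ l9htCT`, one-pair marginal `≤ l9htCS * ‖g‖` for `g` carried by the masses `< V₁`;
* **`l9ht_wt`**       the record `L9hWt` (`K = range (N+2)`, `mw = l9aMw ms N`, `E2 = V1 * E1`) from `|H τ| ≤ |wt τ| |G τ|`, `|G| ≤ CG * Ml`, PAR `|G| ≤ ms(v) * CG * Ml` (sole low factor), the region, `env1`.
SCALAR COEFFICIENTS (numbers; `m = 1` gives the majorant, `m = ms k` gives PAR):
* `l9ht_kd_abs`, **`l9ht_kd_par`**   the dotted cumulant `κ̇ = ½ ∑_{added pair} w(level) κ₊(τ')` (= `RdData.kapD` of 239): 09 l.355-358;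
* **`l9ht_G0_le`**    `(c₀ κ + κ̇) ∏_R b + κ ∑_{i ∈ R} ḃ_i ∏_{R \ i} b`.
-/

set_option autoImplicit false
set_option linter.unusedSectionVars false

namespace Claimed.Agent.R286

open scoped BigOperators
open MeasureTheory

/-! ## 1. allocation sums -/

/-- `‖g‖ = ∑_{k ≤ N + 1} mw_k g_k` -/
noncomputable def l9htNm (ms : ℕ → ℝ) (N : ℕ) (g : ℕ → ℝ) : ℝ := ∑ k ∈ Finset.range (N + 2), l9aMw ms N k * g k

theorem l9ht_nm_nonneg {N : ℕ} {ms : ℕ → ℝ} (hms : IsMs N ms) {g : ℕ → ℝ} (hg : ∀ k, 0 ≤ g k) : 0 ≤ l9htNm ms N g :=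
  Finset.sum_nonneg fun k _ => mul_nonneg (l9a_mw_nonneg hms k) (hg k)

theorem l9ht_nm_mono {N : ℕ} {ms : ℕ → ℝ} (hms : IsMs N ms) {g g' : ℕ → ℝ} (h : ∀ k, g k ≤ g' k) : l9htNm ms N g ≤ l9htNm ms N g' :=
  Finset.sum_le_sum fun k _ => mul_le_mul_of_nonneg_left (h k) (l9a_mw_nonneg hms k)

theorem l9ht_nm_smul (ms : ℕ → ℝ) (N : ℕ) (c : ℝ) (g : ℕ → ℝ) : l9htNm ms N (fun k => c * g k) = c * l9htNm ms N g := by
  unfold l9htNm
  rw [Finset.mul_sum]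
  exact Finset.sum_congr rfl fun k _ => by ring

/-- the restriction of a table to the first `q` labels -/
theorem l9ht_nm_mem {N q r : ℕ} (h : q ≤ r) {τ : ℕ → ℕ → ℕ} (hτ : τ ∈ l9aTab N r) : l9aNm q τ ∈ l9aTab N q :=
  l9a_nm_mem_tab (tr_isTr_mono (l9a_mem_tab.mp hτ).1 h)

theorem l9ht_wt_split (ms : ℕ → ℝ) (N : ℕ) {p q r : ℕ} (h1 : p ≤ q) (h2 : q ≤ r) (τ : ℕ → ℕ → ℕ) :
    l9aWt ms N p r τ = l9aWt ms N p q τ * l9aWt ms N q r τ := by
  unfold l9aWt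
  exact (Finset.prod_Ico_consecutive _ h1 h2).symm

/-- **two stages, total variation**: first the labels `< q`, then `k` others -/
theorem l9ht_two_stage {N : ℕ} {ms : ℕ → ℝ} {q : ℕ} (hq : 1 ≤ q) (k : ℕ) (G Φ : (ℕ → ℕ → ℕ) → ℝ)
    (hG : ∀ τ₁ τ₂, L9aAg q τ₁ τ₂ → G τ₁ = G τ₂) (hΦ : ∀ τ₁ τ₂, L9aAg (q + k) τ₁ τ₂ → Φ τ₁ = Φ τ₂) :
    ∑ τ ∈ l9aTab N q, |l9aWt ms N 1 q τ| * (G τ * trAbsK ms N k q τ Φ)
      = ∑ τ' ∈ l9aTab N (q + k), |l9aWt ms N 1 (q + k) τ'| * (G τ' * Φ τ') := by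
  classical
  have h1 : ∀ τ ∈ l9aTab N q, |l9aWt ms N 1 q τ| * (G τ * trAbsK ms N k q τ Φ)
      = ∑ τ' ∈ l9aTab N (q + k), if L9aAg q τ' τ then |l9aWt ms N 1 q τ| * (G τ * (|l9aWt ms N q (q + k) τ'| * Φ τ')) else 0 := by
    intro τ hτ
    rw [l9a_flat_abs_gen k (l9a_mem_tab.mp hτ).1 hq Φ hΦ, Finset.sum_filter, Finset.mul_sum, Finset.mul_sum]
    refine Finset.sum_congr rfl fun τ' _ => ?_
    split_ifs <;> simp
  rw [Finset.sum_congr rfl h1, Finset.sum_comm]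
  refine Finset.sum_congr rfl fun τ' hτ' => ?_
  have hT' := (l9a_mem_tab.mp hτ').1
  have hTq : IsTr N q τ' := tr_isTr_mono hT' (by omega)
  rw [Finset.sum_eq_single (l9aNm q τ')]
  · rw [if_pos (l9a_nm_ag q τ').symm, l9a_wt_congr ms hTq le_rfl (l9a_nm_ag q τ').symm, hG _ _ (l9a_nm_ag q τ'),
      l9ht_wt_split ms N hq (Nat.le_add_right q k) τ', abs_mul]
    ring
  · intro τ hτ hne
    rw [if_neg]
    intro hag
    apply hne
    rw [← (l9a_mem_tab.mp hτ).2]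
    exact (l9a_nm_eq hag).symm
  · intro h
    exact absurd (l9ht_nm_mem (Nat.le_add_right q k) hτ') h

/-- the blocks of two pairs -/
theorem l9ht_blk2 {N r : ℕ} {ms : ℕ → ℝ} (hms : IsMs N ms) (g : Bool → ℕ → ℝ) (hg : ∀ i k, 0 ≤ g i k) (f : Bool → Option (Fin r)) :
    ∏ o, l9aBlk ms N g f o ≤ l9htNm ms N (g false) * l9htNm ms N (g true) + l9htNm ms N (fun k => g false k * g true k) := by
  classical
  have n0 := l9ht_nm_nonneg hms (hg false)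
  have n1 := l9ht_nm_nonneg hms (hg true)
  have n2 : 0 ≤ l9htNm ms N (fun k => g false k * g true k) := l9ht_nm_nonneg hms fun k => mul_nonneg (hg _ _) (hg _ _)
  by_cases h : f false = f true
  · have e : ∏ o, l9aBlk ms N g f o = l9htNm ms N (fun k => g false k * g true k) := by
      rw [Finset.prod_eq_single (f false)]
      · unfold l9aBlk l9htNm
        rw [if_pos ⟨false, rfl⟩]
        refine Finset.sum_congr rfl fun k _ => ?_
        congr 1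
        have : Finset.univ.filter (fun i => f i = f false) = Finset.univ := by
          ext i; cases i <;> simp [h]
        rw [this]
        simp [mul_comm]
      · intro o _ ho
        unfold l9aBlk
        rw [if_neg]
        rintro ⟨i, hi⟩
        cases i
        · exact ho hi.symm
        · exact ho (by rw [h]; exact hi.symm)
      · intro hh; exact absurd (Finset.mem_univ _) hh
    rw [e]
    have := mul_nonneg n0 n1
    linarith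
  · have e : ∏ o, l9aBlk ms N g f o = l9htNm ms N (g false) * l9htNm ms N (g true) := by
      rw [← Finset.mul_prod_erase Finset.univ _ (Finset.mem_univ (f false)),
        ← Finset.mul_prod_erase _ _ (Finset.mem_erase.mpr ⟨fun hh => h hh.symm, Finset.mem_univ (f true)⟩),
        Finset.prod_eq_one, mul_one]
      · congr 1
        · unfold l9aBlk l9htNm
          rw [if_pos ⟨false, rfl⟩]
          refine Finset.sum_congr rfl fun k _ => ?_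
          congr 1
          have : Finset.univ.filter (fun i => f i = f false) = {false} := by
            ext i; cases i
            · simp
            · simpa using fun hh : f true = f false => h hh.symm
          rw [this]
          simp
        · unfold l9aBlk l9htNm
          rw [if_pos ⟨true, rfl⟩]
          refine Finset.sum_congr rfl fun k _ => ?_
          congr 1
          have : Finset.univ.filter (fun i => f i = f true) = {true} := by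
            ext i; cases i
            · simp [h]
            · simp
          rw [this]
          simp
      · intro o ho
        rw [Finset.mem_erase, Finset.mem_erase] at ho
        unfold l9aBlk
        rw [if_neg]
        rintro ⟨i, hi⟩
        cases i
        · exact ho.2.1 hi.symm
        · exact ho.1 hi.symm
    rw [e]
    linarith

/-- **marginal of two pairs** (tied or not, equal or not) -/
theorem l9ht_marg2 {N r : ℕ} {ms : ℕ → ℝ} (hms : IsMs N ms) (a₁ b₁ a₂ b₂ : Fin r) (g₁ g₂ : ℕ → ℝ) (h₁ : ∀ k, 0 ≤ g₁ k) (h₂ : ∀ k, 0 ≤ g₂ k) :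
    ∑ τ ∈ l9aTab N r, |l9aWt ms N 1 r τ| * (g₁ (τ a₁ b₁) * g₂ (τ a₂ b₂))
      ≤ l9aC r (ms N) * ((r + 1 : ℝ) ^ 2 * (l9htNm ms N g₁ * l9htNm ms N g₂ + l9htNm ms N fun k => g₁ k * g₂ k)) := by
  classical
  have h := l9a_marg_pairs hms (ι := Bool) (fun i => if i then a₂ else a₁) (fun i => if i then b₂ else b₁)
    (fun i => if i then g₂ else g₁) (fun i k => by cases i <;> simp [h₁, h₂])
  simp only [Fintype.prod_bool, if_true, Bool.false_eq_true, if_false] at h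
  have e : ∀ τ : ℕ → ℕ → ℕ, g₁ (τ a₁ b₁) * g₂ (τ a₂ b₂) = g₂ (τ a₂ b₂) * g₁ (τ a₁ b₁) := fun τ => mul_comm _ _
  simp only [e]
  refine h.trans (mul_le_mul_of_nonneg_left ?_ (l9a_C_nonneg _ _))
  have hb := fun f : Bool → Option (Fin r) => l9ht_blk2 hms (fun i => if i then g₂ else g₁) (fun i k => by cases i <;> simp [h₁, h₂]) f
  simp only [if_true, Bool.false_eq_true, if_false] at hb
  refine (Finset.sum_le_sum fun f _ => hb f).trans (le_of_eq ?_)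
  rw [Finset.sum_const, Finset.card_univ, nsmul_eq_mul]
  simp [Fintype.card_option]

/-- the multiplier of the majorant: `1 +` (an added dotted scalar pair) `+ ∑_i` (a dotted coefficient on the base pair `i`) -/
noncomputable def l9htMl (ms : ℕ → ℝ) (N n : ℕ) (gK gb : ℕ → ℝ) (τ : ℕ → ℕ → ℕ) : ℝ :=
  1 + trAbsK ms N 2 (2 * n) τ (fun τ' => gK (τ' (2 * n) (2 * n + 1))) + ∑ i ∈ Finset.range n, gb (τ (2 * i) (2 * i + 1))

/-- THE MAJORANT of the weights of node HI -/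
noncomputable def l9htAw (ms : ℕ → ℝ) (N n : ℕ) (CG : ℝ) (gK gb : ℕ → ℝ) (τ : ℕ → ℕ → ℕ) : ℝ :=
  |l9aWt ms N 1 (2 * n) τ| * (CG * l9htMl ms N n gK gb τ)

theorem l9ht_ml_nonneg (ms : ℕ → ℝ) (N n : ℕ) {gK gb : ℕ → ℝ} (hK : ∀ k, 0 ≤ gK k) (hb : ∀ k, 0 ≤ gb k) (τ : ℕ → ℕ → ℕ) :
    0 ≤ l9htMl ms N n gK gb τ := by
  unfold l9htMl
  have h1 : 0 ≤ trAbsK ms N 2 (2 * n) τ (fun τ' => gK (τ' (2 * n) (2 * n + 1))) := tra2_absK_nonneg 2 _ fun τ' => hK _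
  have h2 : 0 ≤ ∑ i ∈ Finset.range n, gb (τ (2 * i) (2 * i + 1)) := Finset.sum_nonneg fun i _ => hb _
  linarith

theorem l9ht_aw_nonneg (ms : ℕ → ℝ) (N n : ℕ) {CG : ℝ} (hC : 0 ≤ CG) {gK gb : ℕ → ℝ} (hK : ∀ k, 0 ≤ gK k) (hb : ∀ k, 0 ≤ gb k)
    (τ : ℕ → ℕ → ℕ) : 0 ≤ l9htAw ms N n CG gK gb τ :=
  mul_nonneg (abs_nonneg _) (mul_nonneg hC (l9ht_ml_nonneg ms N n hK hb τ))

/-- the bound of `∑_τ aw τ g(τ_i)` -/
noncomputable def l9htSB (ms : ℕ → ℝ) (N n : ℕ) (CG : ℝ) (gK gb g : ℕ → ℝ) : ℝ :=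
  CG * (l9aC (2 * n) (ms N) * l9htNm ms N g
    + l9aC (2 * n + 2) (ms N) * (((2 * n + 2 : ℕ) + 1 : ℝ) ^ 2 * (l9htNm ms N g * l9htNm ms N gK + l9htNm ms N fun k => g k * gK k))
    + n * (l9aC (2 * n) (ms N) * (((2 * n : ℕ) + 1 : ℝ) ^ 2 * (l9htNm ms N g * l9htNm ms N gb + l9htNm ms N fun k => g k * gb k))))

/-- **the weighted sums of the majorant** -/
theorem l9ht_aw_sum {N n : ℕ} {ms : ℕ → ℝ} (hms : IsMs N ms) {i : ℕ} (hi : i < n) {CG : ℝ} (hC : 0 ≤ CG) {gK gb g : ℕ → ℝ}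
    (hK : ∀ k, 0 ≤ gK k) (hb : ∀ k, 0 ≤ gb k) (hg : ∀ k, 0 ≤ g k) :
    ∑ τ ∈ l9aTab N (2 * n), l9htAw ms N n CG gK gb τ * g (τ (2 * i) (2 * i + 1)) ≤ l9htSB ms N n CG gK gb g := by
  have e : ∀ τ : ℕ → ℕ → ℕ, l9htAw ms N n CG gK gb τ * g (τ (2 * i) (2 * i + 1))
      = CG * (|l9aWt ms N 1 (2 * n) τ| * g (τ (2 * i) (2 * i + 1))
        + |l9aWt ms N 1 (2 * n) τ| * (g (τ (2 * i) (2 * i + 1)) * trAbsK ms N 2 (2 * n) τ (fun τ' => gK (τ' (2 * n) (2 * n + 1))))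
        + ∑ i' ∈ Finset.range n, |l9aWt ms N 1 (2 * n) τ| * (g (τ (2 * i) (2 * i + 1)) * gb (τ (2 * i') (2 * i' + 1)))) := by
    intro τ
    unfold l9htAw l9htMl
    rw [← Finset.mul_sum, ← Finset.mul_sum]
    ring
  simp only [e]
  rw [← Finset.mul_sum, Finset.sum_add_distrib, Finset.sum_add_distrib, Finset.sum_comm]
  unfold l9htSB
  refine mul_le_mul_of_nonneg_left (add_le_add (add_le_add ?_ ?_) ?_) hC
  · exact l9a_marg hms (⟨2 * i, by omega⟩ : Fin (2 * n)) ⟨2 * i + 1, by omega⟩ g hg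
  · rw [l9ht_two_stage (by omega) 2 (fun τ => g (τ (2 * i) (2 * i + 1))) (fun τ' => gK (τ' (2 * n) (2 * n + 1)))
      (fun τ₁ τ₂ h => by rw [h _ _ (by omega) (by omega)]) (fun τ₁ τ₂ h => by rw [h _ _ (by omega) (by omega)])]
    exact l9ht_marg2 hms (⟨2 * i, by omega⟩ : Fin (2 * n + 2)) ⟨2 * i + 1, by omega⟩ ⟨2 * n, by omega⟩ ⟨2 * n + 1, by omega⟩ g gK hg hK
  · have h1 : ∀ i' ∈ Finset.range n, ∑ τ ∈ l9aTab N (2 * n), |l9aWt ms N 1 (2 * n) τ| * (g (τ (2 * i) (2 * i + 1)) * gb (τ (2 * i') (2 * i' + 1)))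
        ≤ l9aC (2 * n) (ms N) * (((2 * n : ℕ) + 1 : ℝ) ^ 2 * (l9htNm ms N g * l9htNm ms N gb + l9htNm ms N fun k => g k * gb k)) := by
      intro i' hi'
      rw [Finset.mem_range] at hi'
      exact l9ht_marg2 hms (⟨2 * i, by omega⟩ : Fin (2 * n)) ⟨2 * i + 1, by omega⟩ ⟨2 * i', by omega⟩ ⟨2 * i' + 1, by omega⟩ g gb hg hb
    refine (Finset.sum_le_sum h1).trans (le_of_eq ?_)
    rw [Finset.sum_const, Finset.card_range, nsmul_eq_mul]

/-! ## 2. the laws of the tables as measures -/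

/-- configurations of `r` leaves, discrete sigma-algebra -/
def L9htOm (S : Type) (r : ℕ) : Type := Fin r → S

/-- the underlying configuration -/
def L9htOm.v {S : Type} {r : ℕ} (ω : L9htOm S r) : Fin r → S := ω

instance l9htOmMS (S : Type) (r : ℕ) : MeasurableSpace (L9htOm S r) := ⊤

instance l9htOmDisc (S : Type) (r : ℕ) : DiscreteMeasurableSpace (L9htOm S r) := ⟨fun _ => MeasurableSpace.measurableSet_top⟩

instance l9htOmFin (S : Type) [Fintype S] (r : ℕ) : Fintype (L9htOm S r) := inferInstanceAs (Fintype (Fin r → S))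

section meas
variable {S : Type} [Fintype S] [Inhabited S]

/-- the law of the `r` leaves of the table `τ` -/
noncomputable def l9htMu (X : JtCtx S) (r : ℕ) (τ : ℕ → ℕ → ℕ) : Measure (L9htOm S r) :=
  ∑ ω : L9htOm S r, ENNReal.ofReal (l9ciPw X r τ ω.v) • Measure.dirac ω

theorem l9ht_sum_om (r : ℕ) (F : (Fin r → S) → ℝ) : ∑ ω : L9htOm S r, F ω.v = ∑ ω : Fin r → S, F ω := rfl

theorem l9ht_int {X : JtCtx S} (hX : L9rPos X) (r : ℕ) (τ : ℕ → ℕ → ℕ) (f : L9htOm S r → ℝ) :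
    ∫ ω, f ω ∂(l9htMu X r τ) = ∑ ω : L9htOm S r, l9ciPw X r τ ω.v * f ω := by
  unfold l9htMu
  rw [integral_finsetSum_measure]
  · refine Finset.sum_congr rfl fun ω _ => ?_
    rw [integral_smul_measure, integral_dirac, ENNReal.toReal_ofReal (l9ci_pw_nonneg hX r τ ω.v), smul_eq_mul]
  · intro ω _
    exact (integrable_dirac (by simp)).smul_measure ENNReal.ofReal_ne_top

theorem l9ht_prob {X : JtCtx S} (hX : L9rPos X) (r : ℕ) (τ : ℕ → ℕ → ℕ) : IsProbabilityMeasure (l9htMu X r τ) := by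
  constructor
  unfold l9htMu
  rw [Measure.finsetSum_apply]
  simp only [Measure.smul_apply, measure_univ, smul_eq_mul, mul_one]
  rw [← ENNReal.ofReal_sum_of_nonneg fun ω _ => l9ci_pw_nonneg hX r τ ω.v, l9ht_sum_om r (l9ciPw X r τ), l9ci_pw_sum hX r τ,
    ENNReal.ofReal_one]

/-- integrals = tree numbers -/
theorem l9ht_int_nu {X : JtCtx S} (hX : L9rPos X) {r : ℕ} {τ : ℕ → ℕ → ℕ} (hτ : IsTr X.N r τ) (P : (ℕ → S) → ℝ) :
    ∫ ω : L9htOm S r, P (trExt ω.v) ∂(l9htMu X r τ) = X.nu r τ P := by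
  rw [l9ht_int hX, l9ci_pw_rep hX hτ]
  exact l9ht_sum_om r fun ω => l9ciPw X r τ ω * P (trExt ω)

theorem l9ht_meas (X : JtCtx S) (r : ℕ) (τ : ℕ → ℕ → ℕ) (f : L9htOm S r → ℝ) : AEStronglyMeasurable f (l9htMu X r τ) :=
  (Measurable.of_discrete).aestronglyMeasurable

/-! ## 3. the stochastic factors: `L9hDel` from numbers on the pair tables -/

/-- the trees of one term: a finite set of tables as a type -/
abbrev L9htTr (𝒯 : Finset (ℕ → ℕ → ℕ)) : Type := {τ : ℕ → ℕ → ℕ // τ ∈ 𝒯}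

/-- split level of the base pair `i` -/
def l9htLv {𝒯 : Finset (ℕ → ℕ → ℕ)} {n : ℕ} (τ : L9htTr 𝒯) (i : Fin n) : ℕ := τ.1 (2 * i) (2 * i + 1)

/-- the factor `δ = Q^* - S` of a pair which shares `t` stages -/
def l9htDl (X : Bool → JtCtx S) (Sf : ℕ → ℝ) (e : Bool) (t : ℕ) (a b : S) : ℝ := (X e).msk t * (X e).ov a b - Sf t

/-- the stochastic factor of the base pair `i` as a random variable -/
def l9htDel {𝒯 : Finset (ℕ → ℕ → ℕ)} (X : Bool → JtCtx S) (Sf : ℕ → ℝ) (n : ℕ) (e : Bool) (τ : L9htTr 𝒯) (i : Fin n)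
    (ω : L9htOm S (2 * n)) : ℝ :=
  l9htDl X Sf e (l9htLv τ i) (trExt ω.v (2 * i)) (trExt ω.v (2 * i + 1))

/-- the laws -/
noncomputable def l9htNu {𝒯 : Finset (ℕ → ℕ → ℕ)} (X : Bool → JtCtx S) (n : ℕ) (e : Bool) (τ : L9htTr 𝒯) : Measure (L9htOm S (2 * n)) :=
  l9htMu (X e) (2 * n) τ.1

/-- `ν^e[g(δ)]` on the pair table -/
def l9htPm (X : Bool → JtCtx S) (N : ℕ) (Sf : ℕ → ℝ) (e : Bool) (t : ℕ) (g : ℝ → ℝ) : ℝ :=
  (X e).nu 2 (l9rT2 N t) fun σ => g (l9htDl X Sf e t (σ 0) (σ 1))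

/-- **the imports on the pair tables** (numbers; both ensembles): (D15) at the masses `≥ V₁`, `≥ V₂`, (D2) below `V₁` -/
structure L9htP (X : Bool → JtCtx S) (N : ℕ) (Sf ms sig : ℕ → ℝ) (V1 V2 D1 D2 : ℝ) : Prop where
  hN : ∀ e, (X e).N = N
  pos : ∀ e, L9rPos (X e)
  bdd : ∀ e t a b, t ≤ N → |l9htDl X Sf e t a b| ≤ 2
  st1 : ∀ e t, t ≤ N → V1 ≤ ms t → l9htPm X N Sf e t (fun u => u ^ 2) ≤ D1 ^ 2
  st2 : ∀ e t, t ≤ N → V2 ≤ ms t → l9htPm X N Sf e t (fun u => u ^ 2) ≤ D2 ^ 2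
  low : ∀ e t, t ≤ N → ms t < V1 → l9htPm X N Sf e t (fun u => u ^ 4) ≤ sig t ^ 4

/-- the tables of one term: trees on `2 n` labels, the two ends of each base pair are different leaves -/
def L9htTb (N n : ℕ) (𝒯 : Finset (ℕ → ℕ → ℕ)) : Prop := 𝒯 ⊆ l9aTab N (2 * n) ∧ ∀ τ ∈ 𝒯, ∀ i, i < n → τ (2 * i) (2 * i + 1) ≤ N

theorem L9htTb.isTr {N n : ℕ} {𝒯 : Finset (ℕ → ℕ → ℕ)} (h : L9htTb N n 𝒯) (τ : L9htTr 𝒯) : IsTr N (2 * n) τ.1 :=
  (l9a_mem_tab.mp (h.1 τ.2)).1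

theorem L9htTb.lv_le {N n : ℕ} {𝒯 : Finset (ℕ → ℕ → ℕ)} (h : L9htTb N n 𝒯) (τ : L9htTr 𝒯) (i : Fin n) : l9htLv τ i ≤ N :=
  h.2 τ.1 τ.2 i i.2

/-- **marginal of one base pair** -/
theorem l9ht_pair {X : Bool → JtCtx S} {N n : ℕ} {𝒯 : Finset (ℕ → ℕ → ℕ)} (hN : ∀ e, (X e).N = N) (pos : ∀ e, L9rPos (X e))
    (h𝒯 : L9htTb N n 𝒯) (Sf : ℕ → ℝ) (e : Bool) (τ : L9htTr 𝒯) (i : Fin n) (g : ℝ → ℝ) :
    ∫ ω, g (l9htDel X Sf n e τ i ω) ∂(l9htNu X n e τ) = l9htPm X N Sf e (l9htLv τ i) g := by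
  have hT : IsTr (X e).N (2 * n) τ.1 := by rw [hN e]; exact h𝒯.isTr τ
  have hi : 2 * (i : ℕ) + 1 < 2 * n := by have := i.2; omega
  have h1 := l9ht_int_nu (pos e) hT fun σ => g (l9htDl X Sf e (l9htLv τ i) (σ (2 * i)) (σ (2 * i + 1)))
  unfold l9htNu l9htDel
  rw [h1]
  have hag := l9r_pair_two (h𝒯.isTr τ) hi
  exact l9r_nu_pull (pos e) hT (fun x => 2 * (i : ℕ) + x) (fun x hx => by omega) hag
    (fun σ => g (l9htDl X Sf e (l9htLv τ i) (σ 0) (σ 1)))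
    (fun σ σ' hh => by
      show g (l9htDl X Sf e (l9htLv τ i) (σ 0) (σ 1)) = g (l9htDl X Sf e (l9htLv τ i) (σ' 0) (σ' 1))
      rw [hh 0 (by norm_num), hh 1 (by norm_num)])

/-- **INST[L9hDel]** -/
theorem l9ht_del {X : Bool → JtCtx S} {N n : ℕ} {𝒯 : Finset (ℕ → ℕ → ℕ)} {Sf ms sig : ℕ → ℝ} {V1 V2 D1 D2 : ℝ}
    (hP : L9htP X N Sf ms sig V1 V2 D1 D2) (h𝒯 : L9htTb N n 𝒯) (A : Finset (Fin n)) (e : Bool) :
    L9hDel (l9htNu (𝒯 := 𝒯) X n e) (l9htDel X Sf n e) A l9htLv ms sig V1 V2 D1 D2 where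
  prob := fun τ => l9ht_prob (hP.pos e) _ _
  meas := fun τ i _ => l9ht_meas _ _ _ _
  bdd := fun τ i _ ω => hP.bdd e _ _ _ (h𝒯.lv_le τ i)
  st1 := fun τ i _ h => by
    rw [l9ht_pair hP.hN hP.pos h𝒯 Sf e τ i fun u => u ^ 2]
    exact hP.st1 e _ (h𝒯.lv_le τ i) h
  st2 := fun τ i _ h => by
    rw [l9ht_pair hP.hN hP.pos h𝒯 Sf e τ i fun u => u ^ 2]
    exact hP.st2 e _ (h𝒯.lv_le τ i) h
  low := fun τ i _ h => by
    rw [l9ht_pair hP.hN hP.pos h𝒯 Sf e τ i fun u => u ^ 4]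
    exact hP.low e _ (h𝒯.lv_le τ i) h

/-- the expectation of the stochastic factors is a tree number -/
theorem l9ht_E {X : Bool → JtCtx S} {N n : ℕ} {𝒯 : Finset (ℕ → ℕ → ℕ)} (hN : ∀ e, (X e).N = N) (pos : ∀ e, L9rPos (X e))
    (h𝒯 : L9htTb N n 𝒯) (Sf : ℕ → ℝ) (A : Finset (Fin n)) (e : Bool) (τ : L9htTr 𝒯) :
    l9hE (l9htNu X n) (l9htDel X Sf n) A e τ
      = (X e).nu (2 * n) τ.1 fun σ => ∏ i ∈ A, l9htDl X Sf e (τ.1 (2 * i) (2 * i + 1)) (σ (2 * i)) (σ (2 * i + 1)) := by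
  have hT : IsTr (X e).N (2 * n) τ.1 := by rw [hN e]; exact h𝒯.isTr τ
  exact l9ht_int_nu (pos e) hT fun σ => ∏ i ∈ A, l9htDl X Sf e (τ.1 (2 * i) (2 * i + 1)) (σ (2 * i)) (σ (2 * i + 1))

end meas

/-! ## 4. total mass, one-pair marginal of the majorant; INST[L9hWt] -/

/-- `g` is carried by the masses below `V1`, where the multiplier `h` is bounded -/
theorem l9ht_nm_low {N : ℕ} {ms : ℕ → ℝ} (hms : IsMs N ms) {V1 C : ℝ} {g h : ℕ → ℝ} (hg : ∀ k, 0 ≤ g k) (hs : ∀ k, V1 ≤ ms k → g k = 0)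
    (hh : ∀ k, ms k < V1 → h k ≤ C) : l9htNm ms N (fun k => g k * h k) ≤ C * l9htNm ms N g := by
  unfold l9htNm
  rw [Finset.mul_sum]
  refine Finset.sum_le_sum fun k _ => ?_
  rcases lt_or_ge (ms k) V1 with hk | hk
  · have := mul_le_mul_of_nonneg_left (hh k hk) (mul_nonneg (l9a_mw_nonneg hms k) (hg k))
    calc l9aMw ms N k * (g k * h k) = l9aMw ms N k * g k * h k := by ring
      _ ≤ l9aMw ms N k * g k * C := this
      _ = C * (l9aMw ms N k * g k) := by ring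
  · simp only [hs k hk, zero_mul, mul_zero, le_refl]

theorem l9ht_nm_one (ms : ℕ → ℝ) (N : ℕ) : l9htNm ms N (fun _ => 1) = ms N + 1 := by
  unfold l9htNm
  rw [l9a_mw_sum]
  simp only [mul_one]
  rw [l9a_mu_sum]

/-- the constant of the total mass -/
noncomputable def l9htCT (ms : ℕ → ℝ) (N n : ℕ) (CG : ℝ) (gK gb : ℕ → ℝ) : ℝ :=
  CG * (ms N + 2) * (l9aC (2 * n) (ms N) + l9aC (2 * n + 2) (ms N) * (((2 * n + 2 : ℕ) + 1 : ℝ) ^ 2 * l9htNm ms N gK)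
    + n * (l9aC (2 * n) (ms N) * (((2 * n : ℕ) + 1 : ℝ) ^ 2 * l9htNm ms N gb)))

/-- the constant of the one-pair marginal -/
noncomputable def l9htCS (ms : ℕ → ℝ) (N n : ℕ) (CG CK Cb : ℝ) (gK gb : ℕ → ℝ) : ℝ :=
  CG * (l9aC (2 * n) (ms N) + l9aC (2 * n + 2) (ms N) * (((2 * n + 2 : ℕ) + 1 : ℝ) ^ 2 * (l9htNm ms N gK + CK))
    + n * (l9aC (2 * n) (ms N) * (((2 * n : ℕ) + 1 : ℝ) ^ 2 * (l9htNm ms N gb + Cb))))

theorem l9ht_CS_nonneg {N : ℕ} {ms : ℕ → ℝ} (hms : IsMs N ms) (n : ℕ) {CG CK Cb : ℝ} (hC : 0 ≤ CG) (hCK : 0 ≤ CK) (hCb : 0 ≤ Cb) {gK gb : ℕ → ℝ}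
    (hK : ∀ k, 0 ≤ gK k) (hb : ∀ k, 0 ≤ gb k) : 0 ≤ l9htCS ms N n CG CK Cb gK gb := by
  have := l9a_C_nonneg (2 * n) (ms N)
  have := l9a_C_nonneg (2 * n + 2) (ms N)
  have := l9ht_nm_nonneg hms hK
  have := l9ht_nm_nonneg hms hb
  unfold l9htCS
  positivity

/-- **total mass** of the majorant -/
theorem l9ht_tm {N n : ℕ} {ms : ℕ → ℝ} (hms : IsMs N ms) (hn : 1 ≤ n) {𝒯 : Finset (ℕ → ℕ → ℕ)} (h𝒯 : 𝒯 ⊆ l9aTab N (2 * n)) {CG : ℝ} (hC : 0 ≤ CG)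
    {gK gb : ℕ → ℝ} (hK : ∀ k, 0 ≤ gK k) (hb : ∀ k, 0 ≤ gb k) :
    ∑ τ ∈ 𝒯, l9htAw ms N n CG gK gb τ ≤ l9htCT ms N n CG gK gb := by
  have h1 := l9ht_aw_sum hms (i := 0) (n := n) (by omega) hC hK hb (g := fun _ => 1) fun _ => zero_le_one
  simp only [mul_one] at h1
  refine (Finset.sum_le_sum_of_subset_of_nonneg h𝒯 fun τ _ _ => l9ht_aw_nonneg ms N n hC hK hb τ).trans (h1.trans ?_)
  unfold l9htSB l9htCT
  simp only [one_mul, l9ht_nm_one]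
  have a0 := hms.nonneg N
  have c1 := l9a_C_nonneg (2 * n) (ms N)
  have c2 := l9a_C_nonneg (2 * n + 2) (ms N)
  have k0 := l9ht_nm_nonneg hms hK
  have b0 := l9ht_nm_nonneg hms hb
  rw [mul_assoc]
  refine mul_le_mul_of_nonneg_left ?_ hC
  have e : (ms N + 2) * (l9aC (2 * n) (ms N) + l9aC (2 * n + 2) (ms N) * (((2 * n + 2 : ℕ) + 1 : ℝ) ^ 2 * l9htNm ms N gK)
        + n * (l9aC (2 * n) (ms N) * (((2 * n : ℕ) + 1 : ℝ) ^ 2 * l9htNm ms N gb)))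
      - (l9aC (2 * n) (ms N) * (ms N + 1)
        + l9aC (2 * n + 2) (ms N) * (((2 * n + 2 : ℕ) + 1 : ℝ) ^ 2 * ((ms N + 1) * l9htNm ms N gK + l9htNm ms N fun k => gK k))
        + n * (l9aC (2 * n) (ms N) * (((2 * n : ℕ) + 1 : ℝ) ^ 2 * ((ms N + 1) * l9htNm ms N gb + l9htNm ms N fun k => gb k))))
      = l9aC (2 * n) (ms N) := by ring
  linarith

/-- **one-pair marginal** of the majorant, test functions carried by the masses below `V1` -/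
theorem l9ht_sm {N n : ℕ} {ms : ℕ → ℝ} (hms : IsMs N ms) {𝒯 : Finset (ℕ → ℕ → ℕ)} (h𝒯 : 𝒯 ⊆ l9aTab N (2 * n)) {i : ℕ} (hi : i < n)
    {CG CK Cb V1 : ℝ} (hC : 0 ≤ CG) {gK gb g : ℕ → ℝ} (hK : ∀ k, 0 ≤ gK k) (hb : ∀ k, 0 ≤ gb k) (hg : ∀ k, 0 ≤ g k)
    (hs : ∀ k, V1 ≤ ms k → g k = 0) (hKlo : ∀ k, ms k < V1 → gK k ≤ CK) (hblo : ∀ k, ms k < V1 → gb k ≤ Cb) :
    ∑ τ ∈ 𝒯, l9htAw ms N n CG gK gb τ * g (τ (2 * i) (2 * i + 1)) ≤ l9htCS ms N n CG CK Cb gK gb * l9htNm ms N g := by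
  have h1 := l9ht_aw_sum hms hi hC hK hb hg
  refine (Finset.sum_le_sum_of_subset_of_nonneg h𝒯 fun τ _ _ => mul_nonneg (l9ht_aw_nonneg ms N n hC hK hb τ) (hg _)).trans (h1.trans ?_)
  unfold l9htSB l9htCS
  have c1 := l9a_C_nonneg (2 * n) (ms N)
  have c2 := l9a_C_nonneg (2 * n + 2) (ms N)
  have l1 := l9ht_nm_low hms hg hs hKlo
  have l2 := l9ht_nm_low hms hg hs hblo
  rw [mul_assoc]
  refine mul_le_mul_of_nonneg_left ?_ hC
  have t1 : l9aC (2 * n + 2) (ms N) * (((2 * n + 2 : ℕ) + 1 : ℝ) ^ 2 * (l9htNm ms N g * l9htNm ms N gK + l9htNm ms N fun k => g k * gK k))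
      ≤ l9aC (2 * n + 2) (ms N) * (((2 * n + 2 : ℕ) + 1 : ℝ) ^ 2 * (l9htNm ms N g * l9htNm ms N gK + CK * l9htNm ms N g)) := by
    gcongr
  have t2 : (n : ℝ) * (l9aC (2 * n) (ms N) * (((2 * n : ℕ) + 1 : ℝ) ^ 2 * (l9htNm ms N g * l9htNm ms N gb + l9htNm ms N fun k => g k * gb k)))
      ≤ n * (l9aC (2 * n) (ms N) * (((2 * n : ℕ) + 1 : ℝ) ^ 2 * (l9htNm ms N g * l9htNm ms N gb + Cb * l9htNm ms N g))) := by
    gcongr
  calc _ ≤ l9aC (2 * n) (ms N) * l9htNm ms N g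
        + l9aC (2 * n + 2) (ms N) * (((2 * n + 2 : ℕ) + 1 : ℝ) ^ 2 * (l9htNm ms N g * l9htNm ms N gK + CK * l9htNm ms N g))
        + n * (l9aC (2 * n) (ms N) * (((2 * n : ℕ) + 1 : ℝ) ^ 2 * (l9htNm ms N g * l9htNm ms N gb + Cb * l9htNm ms N g))) := by linarith
    _ = _ := by ring

/-- **INST[L9hWt]**: the record of `L09/HiAbs.lean` for a weight `|H τ| ≤ |wt τ| |G τ|` on a set of tables -/
theorem l9ht_wt {N n : ℕ} {ms sig : ℕ → ℝ} (hms : IsMs N ms) (hn : 1 ≤ n) {𝒯 : Finset (ℕ → ℕ → ℕ)} (h𝒯 : L9htTb N n 𝒯)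
    {V1 V2 sg CG CK Cb E1 : ℝ} {gK gb : ℕ → ℝ} {H : L9htTr 𝒯 → ℝ} {G : (ℕ → ℕ → ℕ) → ℝ}
    (hV : V1 ≤ V2) (hV0 : 0 ≤ V1) (hsg : 0 ≤ sg) (hC : 0 ≤ CG) (hCK : 0 ≤ CK) (hCb : 0 ≤ Cb) (hK : ∀ k, 0 ≤ gK k) (hb : ∀ k, 0 ≤ gb k)
    (hKlo : ∀ k, ms k < V1 → gK k ≤ CK) (hblo : ∀ k, ms k < V1 → gb k ≤ Cb)
    (hsig0 : ∀ k, 0 ≤ sig k) (hsigsg : ∀ k, ms k < V1 → sig k ≤ sg)
    (hreg : ∀ τ ∈ 𝒯, ∃ i, i < n ∧ V2 ≤ ms (τ (2 * i) (2 * i + 1)))
    (hH : ∀ τ : L9htTr 𝒯, |H τ| ≤ |l9aWt ms N 1 (2 * n) τ.1| * |G τ.1|)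
    (hG : ∀ τ ∈ 𝒯, |G τ| ≤ CG * l9htMl ms N n gK gb τ)
    (hGp : ∀ τ ∈ 𝒯, ∀ i, i < n → ms (τ (2 * i) (2 * i + 1)) < V1 → (∀ i', i' < n → i' ≠ i → V1 ≤ ms (τ (2 * i') (2 * i' + 1))) →
      |G τ| ≤ ms (τ (2 * i) (2 * i + 1)) * (CG * l9htMl ms N n gK gb τ))
    (henv : ∑ k ∈ (Finset.range (N + 2)).filter (fun k => ms k < V1), l9aMw ms N k * sig k ≤ E1) :
    L9hWt (l9htLv (n := n)) ms sig (l9aMw ms N) (Finset.range (N + 2)) H (fun τ : L9htTr 𝒯 => l9htAw ms N n CG gK gb τ.1) V1 V2 sg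
      (l9htCT ms N n CG gK gb) (l9htCS ms N n CG CK Cb gK gb) E1 (V1 * E1) where
  hV := hV
  sg0 := hsg
  CS0 := l9ht_CS_nonneg hms n hC hCK hCb hK hb
  ms0 := hms.nonneg
  sig0 := hsig0
  sigsg := hsigsg
  maj := fun τ => (hH τ).trans (mul_le_mul_of_nonneg_left (hG τ.1 τ.2) (abs_nonneg _))
  supp := fun τ _ => by
    obtain ⟨i, hi, h⟩ := hreg τ.1 τ.2
    exact ⟨⟨i, hi⟩, h⟩
  par := fun τ i hlo hoth => by
    have h1 := hGp τ.1 τ.2 i i.2 hlo fun i' hi' hne => hoth ⟨i', hi'⟩ fun h => hne (by rw [← h])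
    calc |H τ| ≤ |l9aWt ms N 1 (2 * n) τ.1| * |G τ.1| := hH τ
      _ ≤ |l9aWt ms N 1 (2 * n) τ.1| * (ms (τ.1 (2 * i) (2 * i + 1)) * (CG * l9htMl ms N n gK gb τ.1)) :=
          mul_le_mul_of_nonneg_left h1 (abs_nonneg _)
      _ = _ := by unfold l9htAw l9htLv; ring
  tm := by
    rw [Finset.sum_coe_sort 𝒯 fun τ => l9htAw ms N n CG gK gb τ]
    exact l9ht_tm hms hn h𝒯.1 hC hK hb
  sm := fun i g hg hs => by
    have := l9ht_sm hms h𝒯.1 i.2 hC hK hb hg hs hKlo hblo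
    rw [← Finset.sum_coe_sort 𝒯 fun τ => l9htAw ms N n CG gK gb τ * g (τ (2 * i) (2 * i + 1))] at this
    exact this
  env1 := henv
  env2 := by
    refine le_trans ?_ (mul_le_mul_of_nonneg_left henv hV0)
    rw [Finset.mul_sum]
    refine Finset.sum_le_sum fun k hk => ?_
    have hk' := (Finset.mem_filter.mp hk).2
    have := mul_le_mul_of_nonneg_right hk'.le (mul_nonneg (l9a_mw_nonneg hms k) (hsig0 k))
    calc l9aMw ms N k * (ms k * sig k) = ms k * (l9aMw ms N k * sig k) := by ring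
      _ ≤ V1 * (l9aMw ms N k * sig k) := this

/-! ## 5. the scalar coefficients -/

/-- a signed sum against a total variation sum, on the trees which extend `τ` -/
theorem l9ht_sumK_le {N q : ℕ} {τ : ℕ → ℕ → ℕ} {ms : ℕ → ℝ} (hτ : IsTr N q τ) (k : ℕ) (Φ Ψ : (ℕ → ℕ → ℕ) → ℝ) (c : ℝ)
    (h : ∀ τ', IsTr N (q + k) τ' → (∀ y z, y < q → z < q → τ' y z = τ y z) → |Φ τ'| ≤ c * Ψ τ') :
    |trSumK ms N k q τ Φ| ≤ c * trAbsK ms N k q τ Ψ := by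
  rw [← tra2_absK_const_mul]
  exact (tr_sumK_le k Φ).trans (l9p_absK_mono hτ k _ _ h)

/-- **the dotted cumulant**: `κ̇ = ½ ∑_{added pair} w(level) κ₊(τ')`, crude bound -/
theorem l9ht_kd_abs {N n : ℕ} {τ : ℕ → ℕ → ℕ} {ms : ℕ → ℝ} (hτ : IsTr N (2 * n) τ) (w gK : ℕ → ℝ) (κp : (ℕ → ℕ → ℕ) → ℝ) {Cp : ℝ}
    (hw : ∀ l, |w l| ≤ gK l) (hκ : ∀ τ', IsTr N (2 * n + 2) τ' → |κp τ'| ≤ Cp) :
    |2⁻¹ * trSumK ms N 2 (2 * n) τ (fun τ' => w (τ' (2 * n) (2 * n + 1)) * κp τ')|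
      ≤ Cp * trAbsK ms N 2 (2 * n) τ (fun τ' => gK (τ' (2 * n) (2 * n + 1))) := by
  have hA : 0 ≤ trAbsK ms N 2 (2 * n) τ (fun τ' => gK (τ' (2 * n) (2 * n + 1))) :=
    tra2_absK_nonneg 2 _ fun τ' => (abs_nonneg _).trans (hw _)
  have h1 := l9ht_sumK_le (ms := ms) hτ 2 (fun τ' => w (τ' (2 * n) (2 * n + 1)) * κp τ') (fun τ' => gK (τ' (2 * n) (2 * n + 1))) Cp
    (fun τ' hτ' _ => by
      rw [abs_mul, mul_comm]
      exact mul_le_mul (hκ τ' hτ') (hw _) (abs_nonneg _) ((abs_nonneg _).trans (hκ τ' hτ')))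
  have h0 : 0 ≤ Cp * trAbsK ms N 2 (2 * n) τ (fun τ' => gK (τ' (2 * n) (2 * n + 1))) := (abs_nonneg _).trans h1
  rw [abs_mul, abs_of_pos (by norm_num : (0 : ℝ) < 2⁻¹)]
  linarith

/-- **PAR for the dotted cumulant** (09 l.355-358): the added pair splits later than `k` ⟹ parity of `κ₊`;   earlier or at `k` ⟹ its own weight is `O(v)` -/
theorem l9ht_kd_par {N n : ℕ} {τ : ℕ → ℕ → ℕ} {ms : ℕ → ℝ} (hτ : IsTr N (2 * n) τ) (w gK : ℕ → ℝ) (κp : (ℕ → ℕ → ℕ) → ℝ) {Cp m : ℝ} (k : ℕ)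
    (hm : 0 ≤ m) (hw : ∀ l, |w l| ≤ gK l) (hwlo : ∀ l, l ≤ k → |w l| ≤ m * gK l) (hκ : ∀ τ', IsTr N (2 * n + 2) τ' → |κp τ'| ≤ Cp)
    (hκp : ∀ τ', IsTr N (2 * n + 2) τ' → (∀ y z, y < 2 * n → z < 2 * n → τ' y z = τ y z) → k < τ' (2 * n) (2 * n + 1) → |κp τ'| ≤ m * Cp) :
    |2⁻¹ * trSumK ms N 2 (2 * n) τ (fun τ' => w (τ' (2 * n) (2 * n + 1)) * κp τ')|
      ≤ m * (Cp * trAbsK ms N 2 (2 * n) τ (fun τ' => gK (τ' (2 * n) (2 * n + 1)))) := by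
  have h1 := l9ht_sumK_le (ms := ms) hτ 2 (fun τ' => w (τ' (2 * n) (2 * n + 1)) * κp τ') (fun τ' => gK (τ' (2 * n) (2 * n + 1))) (m * Cp)
    (fun τ' hτ' hag => by
      have hC0 : 0 ≤ Cp := (abs_nonneg _).trans (hκ τ' hτ')
      have hg0 : 0 ≤ gK (τ' (2 * n) (2 * n + 1)) := (abs_nonneg _).trans (hw _)
      rw [abs_mul]
      rcases lt_or_ge k (τ' (2 * n) (2 * n + 1)) with hk | hk
      · calc |w (τ' (2 * n) (2 * n + 1))| * |κp τ'| ≤ gK (τ' (2 * n) (2 * n + 1)) * (m * Cp) :=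
              mul_le_mul (hw _) (hκp τ' hτ' hag hk) (abs_nonneg _) hg0
          _ = m * Cp * gK (τ' (2 * n) (2 * n + 1)) := by ring
      · calc |w (τ' (2 * n) (2 * n + 1))| * |κp τ'| ≤ (m * gK (τ' (2 * n) (2 * n + 1))) * Cp :=
              mul_le_mul (hwlo _ hk) (hκ τ' hτ') (abs_nonneg _) (mul_nonneg hm hg0)
          _ = m * Cp * gK (τ' (2 * n) (2 * n + 1)) := by ring)
  have h0 := (abs_nonneg _).trans h1
  rw [abs_mul, abs_of_pos (by norm_num : (0 : ℝ) < 2⁻¹), ← mul_assoc]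
  linarith

/-- **the coefficient `G₀`** (numbers): `(c₀ κ + κ̇) ∏_R b + κ ∑_{i ∈ R} ḃ_i ∏_{R \ i} b`.   `m = 1`: the majorant;   `m = ms k`: PAR. -/
theorem l9ht_G0_le {n : ℕ} {R : Finset ℕ} (hR : R ⊆ Finset.range n) {m B Cκ Cd c0 κ κd AK : ℝ} {b bd gb : ℕ → ℝ}
    (hm : 0 ≤ m) (hB : 1 ≤ B) (hCκ : 0 ≤ Cκ) (hCd : 0 ≤ Cd) (hAK : 0 ≤ AK) (hκ : |κ| ≤ m * Cκ) (hκd : |κd| ≤ m * (Cd * AK))
    (hb : ∀ i ∈ R, |b i| ≤ B) (hbd : ∀ i ∈ R, |bd i| ≤ gb i) (hgb : ∀ i, 0 ≤ gb i) :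
    |(c0 * κ + κd) * ∏ i ∈ R, b i + κ * ∑ i ∈ R, bd i * ∏ j ∈ R.erase i, b j|
      ≤ m * (B ^ n * (|c0| * Cκ + Cd + Cκ) * (1 + AK + ∑ i ∈ Finset.range n, gb i)) := by
  have hB0 : 0 ≤ B := le_trans zero_le_one hB
  have hcard : R.card ≤ n := by simpa using Finset.card_le_card hR
  have hp : ∀ T : Finset ℕ, T ⊆ R → |∏ i ∈ T, b i| ≤ B ^ n := by
    intro T hT
    rw [Finset.abs_prod]
    calc ∏ i ∈ T, |b i| ≤ ∏ _i ∈ T, B := Finset.prod_le_prod (fun i _ => abs_nonneg _) fun i hi => hb i (hT hi)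
      _ = B ^ T.card := by simp
      _ ≤ B ^ n := pow_le_pow_right₀ hB ((Finset.card_le_card hT).trans hcard)
  have hBn : 0 ≤ B ^ n := pow_nonneg hB0 n
  have hS0 : 0 ≤ ∑ i ∈ Finset.range n, gb i := Finset.sum_nonneg fun i _ => hgb i
  have h1 : |(c0 * κ + κd) * ∏ i ∈ R, b i| ≤ (|c0| * (m * Cκ) + m * (Cd * AK)) * B ^ n := by
    rw [abs_mul]
    refine mul_le_mul ?_ (hp R subset_rfl) (abs_nonneg _) (by positivity)
    refine (abs_add_le _ _).trans (add_le_add ?_ hκd)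
    rw [abs_mul]
    exact mul_le_mul_of_nonneg_left hκ (abs_nonneg _)
  have h2 : |κ * ∑ i ∈ R, bd i * ∏ j ∈ R.erase i, b j| ≤ (m * Cκ) * ((∑ i ∈ Finset.range n, gb i) * B ^ n) := by
    rw [abs_mul]
    refine mul_le_mul hκ ?_ (abs_nonneg _) (by positivity)
    refine (Finset.abs_sum_le_sum_abs _ _).trans ?_
    rw [Finset.sum_mul]
    refine (Finset.sum_le_sum fun i hi => ?_).trans
      (Finset.sum_le_sum_of_subset_of_nonneg hR fun i _ _ => mul_nonneg (hgb i) hBn)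
    rw [abs_mul]
    exact mul_le_mul (hbd i hi) (hp _ (Finset.erase_subset _ _)) (abs_nonneg _) (hgb i)
  refine (abs_add_le _ _).trans ((add_le_add h1 h2).trans ?_)
  have hc : 0 ≤ |c0| := abs_nonneg _
  have e : m * (B ^ n * (|c0| * Cκ + Cd + Cκ) * (1 + AK + ∑ i ∈ Finset.range n, gb i))
      - ((|c0| * (m * Cκ) + m * (Cd * AK)) * B ^ n + (m * Cκ) * ((∑ i ∈ Finset.range n, gb i) * B ^ n))
      = m * B ^ n * (|c0| * Cκ * (AK + ∑ i ∈ Finset.range n, gb i) + Cd * (1 + ∑ i ∈ Finset.range n, gb i) + Cκ * (1 + AK)) := by ring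
  have : 0 ≤ m * B ^ n * (|c0| * Cκ * (AK + ∑ i ∈ Finset.range n, gb i) + Cd * (1 + ∑ i ∈ Finset.range n, gb i) + Cκ * (1 + AK)) := by
    positivity
  linarith

theorem l9ht_eqns_cite : True := by
  have := @l9htNm.eq_1
  have := @l9htMl.eq_1
  have := @l9htAw.eq_1
  have := @l9htSB.eq_1
  have := @L9htOm.eq_1
  have := @L9htOm.v.eq_1
  have := @l9htMu.eq_1
  have := @l9htLv.eq_1
  have := @l9htDl.eq_1
  have := @l9htDel.eq_1
  have := @l9htNu.eq_1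
  have := @l9htPm.eq_1
  have := @L9htTb.eq_1
  have := @l9htCT.eq_1
  have := @l9htCS.eq_1
  trivial

end Claimed.Agent.R286
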