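import Claimed.Agent.R286.L09.W5
import Claimed.Agent.R286.L09.HiTab
import Claimed.Agent.R286.L09.Fam

/-!
# Row 286 (S0533), unit L09, node W5, file W5Co: THE REAL COEFFICIENTS      (owner helper183; head of W5 helper299; head of the unit helper60; prefix `l9wc`, `L9wc`)

PRODUCER of `Q.Co A T0 vt e g n0 J0`, `Q.Co2 A T0 vt e` of `L09/W5.lean` (299) = bounds of the NUMBER `Q.co n R τ = O (κ_K(τ) ∏_{i ∈ R} b ∏_{i ∉ R} d)` at a fixed table.
TEX[LL:exp:prop-low-coefficients] 09-expansion.tex l.340-347 ("The scalar coefficients are bounded, including `ḃ = O(1)`.  Differentiating `K` may add one scalar pair with weight `|K̇|`.  At high mass this weight is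
integrable separately ... At a low mass `v`, `|K̇(v)| = O(v)`"), l.350-358 (parity), l.396-411 (direct path: "The dotted weights supply `O(λ)`, and `|ḋ| ≲ λ r² e`.  For a quadratic term with two distinct designated
vertices, scalar parity gives the required smaller-scale ratio.  If differentiation adds a scalar pair at a smaller mass `v'`, its weight gives that ratio instead"; "An extra dotted weight that is unbounded must be at a
higher mass and on a separate variable, where its absolute integral is available").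

ONE POINT `Q : L9Q`.
* `Q.Fm`                    the family at the point: constant terminal mass, admissible chains near `Q.t`, `Q.I.Dif`  (all that is needed to differentiate; tools of 71 `L09/Fam`, 239 `L02/RowD`, 73 `L02/RowI`).
* `Q.wbD j, Q.wKD j, Q.wdD j`   the dotted clocks `ḃ, K̇, ḋ` at the depth `j` (`deriv` of the values of the chain);      `Q.wkD n τ` THE DOTTED CUMULANT `κ̇ = ½ ∑_{added pair} K̇(level) κ_{n+1}(τ')`.
* **`l9wc_leib`**           LEIBNIZ, exact:  `Q.co n R τ = ((u - e |R|) κ + κ̇) ∏_R b ∏_{R^c} d + κ (∑_{i ∈ R} ḃ_i ∏_{R \ i} b) ∏_{R^c} d + κ ∏_R b ∑_{i ∉ R} ḋ_i ∏ d`.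
* **`l9wc_absK2`**          SC-DOT, POINTWISE IN THE TABLE:  `∑_{two attachments} |wt| g(level of the added pair) ≤ C(q, a) (‖g‖ + ∑_{y, z < q} g(τ y z))`   (`‖g‖ = l9htNm` of 113: mass integral + atom at the coincidence level).
* **`l9wc_forks`**          `1 + ∑_{y, z} g(τ y z) ≤ (2 n)² (1 + G) ∏_s l9wG`  (`g ≤ G` at the designated forks; `l9a_vx_spec` of 276).
* `l9wc_num`                the four terms of Leibniz as NUMBERS, with a common factor `m` (`m = 1`: majorant; `m = m_{k}`: parity).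
* INPUTS (records on `Q`; to be produced from `Q.Dots` (69, 159), `Q.Sup` (153), `Q.Adm` (211)):  `Q.WcB A T0 vt e` (operator, `b`, `ḃ`, `d`, `ḋ`),  `Q.WcG A T0 vt g` (`|K̇| ≤ T0 g`, `∑ μ g ≤ 1`, `g ≤ A` at low masses),
                            `Q.WcP A T0 vt` (`K(j) ≤ A m_j` at low masses, `|K̇| ≤ A T0`, `|K̇(j)| ≤ A T0 m_j` at low masses).
* **`l9wc_co`**             `Fm + Adm + WcB + WcG ⟹ Q.Co (Kc A^(2 J0 + 2)) T0 vt e g n0 J0`   (also for `R = ∅`: `l9wc_co_all`, for RED-D0 of 95).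
* `l9wc_kap_par`            PARITY of 235 (`l9p_kap_par`) under the weaker hypothesis "the two ends of every other pair are on the same side of the block of `c_s` after the depth `k`"  (covers two pairs which split at the SAME
                            depth at two DIFFERENT vertices).
* **`l9wc_co2`**            `Fm + Adm + WcB + WcP ⟹ Q.Co2 (Kc A^6) T0 vt e`;      `l9wc_par_vx`: the field `par` under `l9aVx τ 0 1 ≠ l9aVx τ 2 3` (what `Q.rho` of 299 asks).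
-/

set_option autoImplicit false

namespace Claimed.Agent.R286

open scoped BigOperators Nat Topology

noncomputable section

namespace L9Q
variable (Q : L9Q)

/-- the family at the point -/
structure Fm : Prop where
  a_const : ∀ t', (Q.pf t').a = (Q.pf Q.t).a
  adm : ∀ᶠ t' in 𝓝 Q.t, LlStpAdm (Q.pf t').a (Q.I.P (Q.pf t'))
  dif : Q.I.Dif Q.pf Q.t

/-- `ḃ` at the depth `j` -/
def wbD (j : ℕ) : ℝ := deriv (fun t' => (Q.I.X0 (Q.pf t')).bC j) Q.t
/-- `K̇` at the depth `j` -/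
def wKD (j : ℕ) : ℝ := deriv (fun t' => (Q.I.X0 (Q.pf t')).KC j) Q.t
/-- `ḋ` at the depth `j` -/
def wdD (j : ℕ) : ℝ := deriv (fun t' => (Q.I.X0 (Q.pf t')).dC j) Q.t
/-- weight of the added scalar pair: `K̇` at its level, `0` at the coincidence level -/
def wKw (l : ℕ) : ℝ := if l ≤ Q.N then Q.wKD l else 0
/-- the cumulant `κ_K` of the `n` base pairs -/
def wk (n : ℕ) (τ : JtTopo) : ℝ := (Q.X false).Kap (2 * n) 0 τ (Finset.range n)
/-- the dotted cumulant -/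
def wkD (n : ℕ) (τ : JtTopo) : ℝ :=
  2⁻¹ * trSumK Q.ms Q.N 2 (2 * n) τ fun τ' => Q.wKw (τ' (2 * n) (2 * n + 1)) * Q.wk (n + 1) τ'

/-- operator, `b`, `ḃ`, `d`, `ḋ` at the depths of mass `≤ vt` -/
structure WcB (A T0 vt : ℝ) (e : ℕ → ℝ) : Prop where
  A1 : 1 ≤ A
  T_nn : 0 ≤ T0
  u_le : |Q.u| ≤ T0
  e_le : |Q.e| ≤ T0
  b_le : ∀ j, j ≤ Q.N → Q.ms j ≤ vt → |(Q.X false).bC j| ≤ A
  bD_le : ∀ j, j ≤ Q.N → Q.ms j ≤ vt → |Q.wbD j| ≤ A * T0
  e_nn : ∀ j, 0 ≤ e j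
  d_le : ∀ j, j ≤ Q.N → Q.ms j ≤ vt → Q.dA j ≤ A * e j
  dT_le : ∀ j, j ≤ Q.N → Q.ms j ≤ vt → Q.dA j ≤ A * T0 * e j

/-- the dotted weight of the added pair: integrable, bounded at the low masses -/
structure WcG (A T0 vt : ℝ) (g : ℕ → ℝ) : Prop where
  g_nn : ∀ j, 0 ≤ g j
  KD_le : ∀ j, j ≤ Q.N → |Q.wKD j| ≤ T0 * g j
  g_sum : ∑ j ∈ Finset.range (Q.N + 1), l9aMu Q.ms j * g j ≤ 1
  g_low : ∀ j, j ≤ Q.N → Q.ms j ≤ vt → g j ≤ A

/-- the inputs of parity -/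
structure WcP (A T0 vt : ℝ) : Prop where
  K_lo : ∀ j, j ≤ Q.N → Q.ms j ≤ vt → (Q.X false).KC j ≤ A * trPm Q.ms j
  KD_le : ∀ j, j ≤ Q.N → |Q.wKD j| ≤ A * T0
  KD_lo : ∀ j, j ≤ Q.N → Q.ms j ≤ vt → |Q.wKD j| ≤ A * T0 * trPm Q.ms j

end L9Q

end

theorem l9wc_defs_eqns_cite : True := by
  have := @L9Q.wbD.eq_1; have := @L9Q.wKD.eq_1; have := @L9Q.wdD.eq_1; have := @L9Q.wKw.eq_1; have := @L9Q.wk.eq_1; have := @L9Q.wkD.eq_1
  trivial

/-! ## 1. LEIBNIZ -/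

section leib
variable {Q : L9Q}

theorem l9wc_a_pos {δm : ℝ} (hA : Q.Adm δm) : 0 < (Q.pf Q.t).a := hA.a_pos

/-- the dotted cumulant is the derivative of the cumulant (239: `rd_kap_deriv`, at the data `I.Rd` of 71) -/
theorem l9wc_kap_deriv (h : Q.Fm) {δm : ℝ} (hA : Q.Adm δm) {n : ℕ} (hn : 1 ≤ n) {τ : JtTopo} (hτ : IsTr Q.N (2 * n) τ) :
    HasDerivAt (fun t' => (Q.I.X0 (Q.pf t')).Kap (2 * n) 0 τ (Finset.range n)) (Q.wkD n τ) Q.t := by
  have hOk := l9u_rd_ok Q.I Q.pf 0 Q.t (U := {t' | LlStpAdm (Q.pf t').a (Q.I.P (Q.pf t'))}) (mem_of_mem_nhds h.adm) h.a_const hA.a_pos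
    (fun _ h => h) h.dif false
  have h1 := (RdData.rd_kap_deriv hOk hn (τ := τ) hτ).hasDerivAt h.adm
  rw [l9u_rd_Y Q.I Q.pf 0 _ Q.t h.a_const false] at h1
  have e : (Q.I.Rd Q.pf 0 {t' | LlStpAdm (Q.pf t').a (Q.I.P (Q.pf t'))} Q.t false).kapD n τ = Q.wkD n τ := by
    unfold RdData.kapD L9Q.wkD
    congr 1
    show trSumK Q.ms Q.N 2 (2 * n) τ _ = _
    congr 1
    funext τ'
    have e1 : jtC 0 n = 2 * n := by unfold jtC; omega
    have e2 : jtD 0 n = 2 * n + 1 := by unfold jtD; omega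
    rw [e1, e2, l9u_rd_Kd Q.I Q.pf 0 _ Q.t h.a_const false]
    unfold RdData.od L9Q.wKw L9Q.wk
    show (if τ' (2 * n) (2 * n + 1) ≤ Q.N then (1 : ℝ) else 0) * Q.wKD _ * (Q.X false).Kap (2 * n + 2) 0 τ' (Finset.range (n + 1)) = _
    split_ifs
    · rw [one_mul]; rfl
    · rw [zero_mul, zero_mul, zero_mul]
  rw [e] at h1
  exact h1

theorem l9wc_b_deriv (h : Q.Fm) (j : ℕ) : HasDerivAt (fun t' => (Q.I.X0 (Q.pf t')).bC j) (Q.wbD j) Q.t :=
  (h.dif j).1.hasDerivAt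

/-- the defect `d = h - K + b q` is differentiable -/
theorem l9wc_d_deriv (h : Q.Fm) {δm : ℝ} (hA : Q.Adm δm) (j : ℕ) : HasDerivAt (fun t' => (Q.I.X0 (Q.pf t')).dC j) (Q.wdD j) Q.t := by
  have hq := l9u_rd_qd Q.I Q.pf 0 Q.t h.adm h.a_const hA.a_pos (fun _ h => h) h.dif false j
  have hd : DifferentiableAt ℝ (fun t' => (Q.I.X0 (Q.pf t')).dC j) Q.t := by
    unfold JtCtx.dC
    exact (((h.dif j).2.1).sub ((h.dif j).2.2)).add (((h.dif j).1).mul hq.differentiableAt)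
  exact hd.hasDerivAt

/-- **LEIBNIZ** -/
theorem l9wc_leib (h : Q.Fm) {δm : ℝ} (hA : Q.Adm δm) {n : ℕ} (hn : 1 ≤ n) (R : Finset ℕ) {τ : JtTopo} (hτ : IsTr Q.N (2 * n) τ) :
    Q.co n R τ
      = ((Q.u - Q.e * R.card) * Q.wk n τ + Q.wkD n τ) * (∏ i ∈ R, (Q.X false).bC (τ (2 * i) (2 * i + 1)))
            * (∏ i ∈ Finset.range n \ R, (Q.X false).dC (τ (2 * i) (2 * i + 1)))
        + Q.wk n τ * (∑ i ∈ R, Q.wbD (τ (2 * i) (2 * i + 1)) * ∏ j ∈ R.erase i, (Q.X false).bC (τ (2 * j) (2 * j + 1)))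
            * (∏ i ∈ Finset.range n \ R, (Q.X false).dC (τ (2 * i) (2 * i + 1)))
        + Q.wk n τ * (∏ i ∈ R, (Q.X false).bC (τ (2 * i) (2 * i + 1)))
            * ∑ i ∈ Finset.range n \ R, Q.wdD (τ (2 * i) (2 * i + 1)) * ∏ j ∈ (Finset.range n \ R).erase i, (Q.X false).dC (τ (2 * j) (2 * j + 1)) := by
  have hK := l9wc_kap_deriv h hA hn hτ
  have hb := HasDerivAt.fun_finsetProd (u := R) (f := fun i t' => (Q.I.X0 (Q.pf t')).bC (τ (2 * i) (2 * i + 1)))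
    (f' := fun i => Q.wbD (τ (2 * i) (2 * i + 1))) (x := Q.t) fun i _ => l9wc_b_deriv h _
  have hd := HasDerivAt.fun_finsetProd (u := Finset.range n \ R) (f := fun i t' => (Q.I.X0 (Q.pf t')).dC (τ (2 * i) (2 * i + 1)))
    (f' := fun i => Q.wdD (τ (2 * i) (2 * i + 1))) (x := Q.t) fun i _ => l9wc_d_deriv h hA _
  have hcf := (hK.mul hb).mul hd
  have e0 : (fun t' => (Q.I.X0 (Q.pf t')).cf n R τ)
      = (fun t' => (Q.I.X0 (Q.pf t')).Kap (2 * n) 0 τ (Finset.range n) * (∏ i ∈ R, (Q.I.X0 (Q.pf t')).bC (τ (2 * i) (2 * i + 1)))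
          * ∏ i ∈ Finset.range n \ R, (Q.I.X0 (Q.pf t')).dC (τ (2 * i) (2 * i + 1))) := by
    funext t'
    unfold JtCtx.cf
    simp only [l9c_jt_pair]
  unfold L9Q.co l9O
  rw [e0]
  have hder := hcf.deriv
  have e1 : deriv (fun t' => (Q.I.X0 (Q.pf t')).Kap (2 * n) 0 τ (Finset.range n) * (∏ i ∈ R, (Q.I.X0 (Q.pf t')).bC (τ (2 * i) (2 * i + 1)))
          * ∏ i ∈ Finset.range n \ R, (Q.I.X0 (Q.pf t')).dC (τ (2 * i) (2 * i + 1))) Q.t = _ := hder
  rw [e1]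
  simp only [smul_eq_mul, Pi.mul_apply]
  show _ = ((Q.u - Q.e * R.card) * (Q.I.X0 (Q.pf Q.t)).Kap (2 * n) 0 τ (Finset.range n) + Q.wkD n τ) * (∏ i ∈ R, (Q.I.X0 (Q.pf Q.t)).bC (τ (2 * i) (2 * i + 1)))
            * (∏ i ∈ Finset.range n \ R, (Q.I.X0 (Q.pf Q.t)).dC (τ (2 * i) (2 * i + 1)))
        + (Q.I.X0 (Q.pf Q.t)).Kap (2 * n) 0 τ (Finset.range n) * (∑ i ∈ R, Q.wbD (τ (2 * i) (2 * i + 1)) * ∏ j ∈ R.erase i, (Q.I.X0 (Q.pf Q.t)).bC (τ (2 * j) (2 * j + 1)))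
            * (∏ i ∈ Finset.range n \ R, (Q.I.X0 (Q.pf Q.t)).dC (τ (2 * i) (2 * i + 1)))
        + (Q.I.X0 (Q.pf Q.t)).Kap (2 * n) 0 τ (Finset.range n) * (∏ i ∈ R, (Q.I.X0 (Q.pf Q.t)).bC (τ (2 * i) (2 * i + 1)))
            * ∑ i ∈ Finset.range n \ R, Q.wdD (τ (2 * i) (2 * i + 1)) * ∏ j ∈ (Finset.range n \ R).erase i, (Q.I.X0 (Q.pf Q.t)).dC (τ (2 * j) (2 * j + 1))
  have s1 : ∑ i ∈ R, (∏ j ∈ R.erase i, (Q.I.X0 (Q.pf Q.t)).bC (τ (2 * j) (2 * j + 1))) * Q.wbD (τ (2 * i) (2 * i + 1))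
      = ∑ i ∈ R, Q.wbD (τ (2 * i) (2 * i + 1)) * ∏ j ∈ R.erase i, (Q.I.X0 (Q.pf Q.t)).bC (τ (2 * j) (2 * j + 1)) :=
    Finset.sum_congr rfl fun i _ => mul_comm _ _
  have s2 : ∑ i ∈ Finset.range n \ R, (∏ j ∈ (Finset.range n \ R).erase i, (Q.I.X0 (Q.pf Q.t)).dC (τ (2 * j) (2 * j + 1))) * Q.wdD (τ (2 * i) (2 * i + 1))
      = ∑ i ∈ Finset.range n \ R, Q.wdD (τ (2 * i) (2 * i + 1)) * ∏ j ∈ (Finset.range n \ R).erase i, (Q.I.X0 (Q.pf Q.t)).dC (τ (2 * j) (2 * j + 1)) :=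
    Finset.sum_congr rfl fun i _ => mul_comm _ _
  rw [s1, s2]
  ring

end leib

/-! ## 2. the four terms as numbers -/

/-- the four terms of Leibniz;  `m` = common factor of `κ`, `κ̇` -/
theorem l9wc_num {n : ℕ} {R : Finset ℕ} (hR : R ⊆ Finset.range n) {m B Cκ Kd Bd T c0 κ κd : ℝ} {b bd d dd E : ℕ → ℝ}
    (hm : 0 ≤ m) (hB : 1 ≤ B) (hCκ : 0 ≤ Cκ) (hKd : 0 ≤ Kd) (hBd : 0 ≤ Bd) (hT : 0 ≤ T) (hκ : |κ| ≤ m * Cκ) (hκd : |κd| ≤ m * Kd)
    (hb : ∀ i ∈ R, |b i| ≤ B) (hbd : ∀ i ∈ R, |bd i| ≤ Bd) (hd : ∀ i ∈ Finset.range n \ R, |d i| ≤ E i)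
    (hdd : ∀ i ∈ Finset.range n \ R, |dd i| ≤ T * E i) :
    |(c0 * κ + κd) * (∏ i ∈ R, b i) * (∏ i ∈ Finset.range n \ R, d i) + κ * (∑ i ∈ R, bd i * ∏ j ∈ R.erase i, b j) * (∏ i ∈ Finset.range n \ R, d i)
        + κ * (∏ i ∈ R, b i) * ∑ i ∈ Finset.range n \ R, dd i * ∏ j ∈ (Finset.range n \ R).erase i, d j|
      ≤ m * (B ^ n * (|c0| * Cκ + Kd + n * (Cκ * Bd) + n * (Cκ * T))) * ∏ i ∈ Finset.range n \ R, E i := by
  obtain ⟨S, hS⟩ : ∃ S, S = Finset.range n \ R := ⟨_, rfl⟩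
  rw [← hS] at hd hdd ⊢
  have hE : ∀ i ∈ S, 0 ≤ E i := fun i hi => (abs_nonneg _).trans (hd i hi)
  have hPE : 0 ≤ ∏ i ∈ S, E i := Finset.prod_nonneg hE
  have hRn : R.card ≤ n := (Finset.card_le_card hR).trans (by simp)
  have hSn : S.card ≤ n := by
    rw [hS]
    exact (Finset.card_le_card Finset.sdiff_subset).trans (by simp)
  have hRc : (R.card : ℝ) ≤ n := by exact_mod_cast hRn
  have hSc : (S.card : ℝ) ≤ n := by exact_mod_cast hSn
  have hB0 : 0 ≤ B := by linarith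
  have hBn : 0 ≤ B ^ n := by positivity
  have p1 : ∀ R' ⊆ R, |∏ i ∈ R', b i| ≤ B ^ n := by
    intro R' hR'
    rw [Finset.abs_prod]
    calc ∏ i ∈ R', |b i| ≤ ∏ _i ∈ R', B := Finset.prod_le_prod (fun i _ => abs_nonneg _) (fun i hi => hb i (hR' hi))
      _ = B ^ R'.card := by simp
      _ ≤ B ^ n := pow_le_pow_right₀ hB ((Finset.card_le_card hR').trans hRn)
  have p2 : |∏ i ∈ S, d i| ≤ ∏ i ∈ S, E i := by
    rw [Finset.abs_prod]
    exact Finset.prod_le_prod (fun _ _ => abs_nonneg _) hd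
  have p3 : |∑ i ∈ R, bd i * ∏ j ∈ R.erase i, b j| ≤ n * (Bd * B ^ n) := by
    calc |∑ i ∈ R, bd i * ∏ j ∈ R.erase i, b j| ≤ ∑ i ∈ R, |bd i * ∏ j ∈ R.erase i, b j| := Finset.abs_sum_le_sum_abs _ _
      _ ≤ ∑ _i ∈ R, Bd * B ^ n := Finset.sum_le_sum fun i hi => by
          rw [abs_mul]
          exact mul_le_mul (hbd i hi) (p1 _ (Finset.erase_subset _ _)) (abs_nonneg _) hBd
      _ = R.card * (Bd * B ^ n) := by simp
      _ ≤ n * (Bd * B ^ n) := mul_le_mul_of_nonneg_right hRc (by positivity)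
  have p4 : |∑ i ∈ S, dd i * ∏ j ∈ S.erase i, d j| ≤ n * (T * ∏ i ∈ S, E i) := by
    calc |∑ i ∈ S, dd i * ∏ j ∈ S.erase i, d j| ≤ ∑ i ∈ S, |dd i * ∏ j ∈ S.erase i, d j| := Finset.abs_sum_le_sum_abs _ _
      _ ≤ ∑ _i ∈ S, T * ∏ j ∈ S, E j := Finset.sum_le_sum fun i hi => by
          rw [abs_mul, Finset.abs_prod, ← Finset.mul_prod_erase S E hi, ← mul_assoc]
          exact mul_le_mul (hdd i hi)
            (Finset.prod_le_prod (fun _ _ => abs_nonneg _) (fun j hj => hd j (Finset.mem_of_mem_erase hj)))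
            (Finset.prod_nonneg fun _ _ => abs_nonneg _) (mul_nonneg hT (hE i hi))
      _ = S.card * (T * ∏ j ∈ S, E j) := by simp
      _ ≤ n * (T * ∏ i ∈ S, E i) := mul_le_mul_of_nonneg_right hSc (by positivity)
  have p5 : |c0 * κ + κd| ≤ |c0| * (m * Cκ) + m * Kd := by
    calc |c0 * κ + κd| ≤ |c0 * κ| + |κd| := abs_add_le _ _
      _ ≤ _ := by
        rw [abs_mul]
        exact add_le_add (mul_le_mul_of_nonneg_left hκ (abs_nonneg _)) hκd
  have p1' := p1 R subset_rfl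
  obtain ⟨PE, hPEd⟩ : ∃ PE, PE = ∏ i ∈ S, E i := ⟨_, rfl⟩
  rw [← hPEd] at hPE p2 p4 ⊢
  have hn0 : (0 : ℝ) ≤ n := Nat.cast_nonneg _
  have t1 : |(c0 * κ + κd) * (∏ i ∈ R, b i) * (∏ i ∈ S, d i)| ≤ (|c0| * (m * Cκ) + m * Kd) * B ^ n * PE := by
    rw [abs_mul, abs_mul]
    exact mul_le_mul (mul_le_mul p5 p1' (abs_nonneg _) (by positivity)) p2 (abs_nonneg _) (by positivity)
  have t2 : |κ * (∑ i ∈ R, bd i * ∏ j ∈ R.erase i, b j) * (∏ i ∈ S, d i)| ≤ (m * Cκ) * (n * (Bd * B ^ n)) * PE := by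
    rw [abs_mul, abs_mul]
    exact mul_le_mul (mul_le_mul hκ p3 (abs_nonneg _) (by positivity)) p2 (abs_nonneg _) (by positivity)
  have t3 : |κ * (∏ i ∈ R, b i) * ∑ i ∈ S, dd i * ∏ j ∈ S.erase i, d j| ≤ (m * Cκ) * B ^ n * (n * (T * PE)) := by
    rw [abs_mul, abs_mul]
    exact mul_le_mul (mul_le_mul hκ p1' (abs_nonneg _) (by positivity)) p4 (abs_nonneg _) (by positivity)
  calc _ ≤ _ := abs_add_three _ _ _
    _ ≤ (|c0| * (m * Cκ) + m * Kd) * B ^ n * PE + (m * Cκ) * (n * (Bd * B ^ n)) * PE + (m * Cκ) * B ^ n * (n * (T * PE)) :=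
        add_le_add (add_le_add t1 t2) t3
    _ = _ := by ring

/-! ## 3. SC-DOT, pointwise in the table -/

/-- number of occupied children: at most one more than the number of leaves which leave `x` at the depth `j` -/
theorem l9wc_deg_le {N q : ℕ} {τ : ℕ → ℕ → ℕ} (hτ : IsTr N q τ) {x : ℕ} (hx : x < q) (j : ℕ) :
    trDeg q τ j x ≤ 1 + ((Finset.range q).filter fun y => τ x y = j).card := by
  unfold trDeg
  have hsub : ((Finset.range q).filter fun y => j ≤ τ x y ∧ trIsMin τ (j + 1) y)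
      ⊆ ((Finset.range q).filter fun y => j < τ x y ∧ trIsMin τ (j + 1) y) ∪ ((Finset.range q).filter fun y => τ x y = j) := by
    intro y hy
    simp only [Finset.mem_filter, Finset.mem_range, Finset.mem_union] at hy ⊢
    rcases Nat.lt_or_ge j (τ x y) with h | h
    · exact Or.inl ⟨hy.1, h, hy.2.2⟩
    · exact Or.inr ⟨hy.1, by omega⟩
  refine (Finset.card_le_card hsub).trans ((Finset.card_union_le _ _).trans (Nat.add_le_add_right ?_ _))
  rw [Finset.card_le_one]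
  have aux : ∀ y1 y2, y1 < q → y2 < q → j < τ x y1 → j < τ x y2 → trIsMin τ (j + 1) y2 → y1 < y2 → False := by
    intro y1 y2 q1 q2 a1 a2 m2 hlt
    have := m2 y1 hlt
    have u := hτ.ultra y2 x y1 q2 hx q1
    have s := hτ.symm y2 x q2 hx
    omega
  intro y1 h1 y2 h2
  simp only [Finset.mem_filter, Finset.mem_range] at h1 h2
  by_contra hne
  rcases lt_or_gt_of_ne hne with h | h
  · exact aux y1 y2 h1.1 h2.1 h1.2.1 h2.2.1 h2.2.2 h
  · exact aux y2 y1 h2.1 h1.1 h2.2.1 h1.2.1 h1.2.2 h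

/-- the weight of one attachment at a depth `j ≤ N` -/
theorem l9wc_wt_le {N q : ℕ} {ms : ℕ → ℝ} (hms : IsMs N ms) {τ : ℕ → ℕ → ℕ} (hτ : IsTr N q τ) {x : ℕ} (hx : x < q) {j : ℕ} (hj : j ≤ N) :
    |trWt ms N q τ x j| ≤ l9aMu ms j + ms N * (((Finset.range q).filter fun y => τ x y = j).card : ℝ) := by
  have m0 := hms.nonneg j
  have mN := hms.mono j N hj le_rfl
  have hmu := l9a_mu_nonneg hms hj
  have hc : (0 : ℝ) ≤ (((Finset.range q).filter fun y => τ x y = j).card : ℝ) := Nat.cast_nonneg _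
  unfold trWt
  split_ifs with h1 h2
  · omega
  · have d1 : (1 : ℝ) ≤ trDeg q τ j x := by exact_mod_cast tra2_deg_pos hτ hx hj
    have d2 : (trDeg q τ j x : ℝ) ≤ 1 + (((Finset.range q).filter fun y => τ x y = j).card : ℝ) := by
      exact_mod_cast l9wc_deg_le hτ hx j
    have p := tra2_pm_le hms hj
    unfold l9aMu at hmu ⊢
    rw [abs_of_nonpos (by nlinarith)]
    nlinarith
  · rw [abs_zero]
    have := hms.nonneg N
    positivity

/-- the weight of a coincidence -/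
theorem l9wc_wt_top {N q : ℕ} {ms : ℕ → ℝ} (hms : IsMs N ms) (τ : ℕ → ℕ → ℕ) (x : ℕ) : |trWt ms N q τ x (N + 1)| ≤ ms N := by
  have := hms.nonneg N
  unfold trWt
  split_ifs with h1 h2
  · rw [abs_of_nonneg this]
  · exact absurd rfl h2
  · rw [abs_zero]; exact this

/-- one attachment at `x` against a function of its depth -/
theorem l9wc_abs1x {N q : ℕ} {ms : ℕ → ℝ} (hms : IsMs N ms) {τ : ℕ → ℕ → ℕ} (hτ : IsTr N q τ) (g : ℕ → ℝ) (hg : ∀ k, 0 ≤ g k)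
    {x : ℕ} (hx : x < q) :
    ∑ j ∈ Finset.range (N + 2), |trWt ms N q τ x j| * g j
      ≤ max 1 (ms N) * l9htNm ms N g + ms N * ∑ z ∈ Finset.range q, g (τ x z) := by
  have hN := hms.nonneg N
  have e1 : l9htNm ms N g = ∑ k ∈ Finset.range (N + 1), l9aMu ms k * g k + g (N + 1) := by
    unfold l9htNm
    rw [Finset.sum_range_succ]
    congr 1
    · refine Finset.sum_congr rfl fun k hk => ?_
      rw [Finset.mem_range] at hk
      unfold l9aMw
      rw [if_pos (by omega)]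
    · unfold l9aMw
      rw [if_neg (by omega), one_mul]
  have h0 : 0 ≤ ∑ k ∈ Finset.range (N + 1), l9aMu ms k * g k := Finset.sum_nonneg fun k hk =>
    mul_nonneg (l9a_mu_nonneg hms (by rw [Finset.mem_range] at hk; omega)) (hg k)
  have h2 : ∑ j ∈ Finset.range (N + 1), (((Finset.range q).filter fun y => τ x y = j).card : ℝ) * g j ≤ ∑ z ∈ Finset.range q, g (τ x z) := by
    have e : ∀ j, (((Finset.range q).filter fun y => τ x y = j).card : ℝ) * g j = ∑ z ∈ Finset.range q, if τ x z = j then g j else 0 := fun j => by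
      rw [← Finset.sum_filter, Finset.sum_const, nsmul_eq_mul]
    simp only [e]
    rw [Finset.sum_comm]
    refine Finset.sum_le_sum fun z _ => ?_
    rw [Finset.sum_ite_eq]
    split_ifs
    · exact le_rfl
    · exact hg _
  have h3 : ∑ j ∈ Finset.range (N + 1), |trWt ms N q τ x j| * g j
      ≤ ∑ k ∈ Finset.range (N + 1), l9aMu ms k * g k + ms N * ∑ z ∈ Finset.range q, g (τ x z) := by
    calc _ ≤ ∑ j ∈ Finset.range (N + 1), (l9aMu ms j * g j + ms N * ((((Finset.range q).filter fun y => τ x y = j).card : ℝ) * g j)) := by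
          refine Finset.sum_le_sum fun j hj => ?_
          rw [Finset.mem_range] at hj
          have := mul_le_mul_of_nonneg_right (l9wc_wt_le hms hτ hx (show j ≤ N by omega)) (hg j)
          linarith
      _ = ∑ k ∈ Finset.range (N + 1), l9aMu ms k * g k
            + ms N * ∑ j ∈ Finset.range (N + 1), (((Finset.range q).filter fun y => τ x y = j).card : ℝ) * g j := by
          rw [Finset.sum_add_distrib, Finset.mul_sum]
      _ ≤ _ := by
          have := mul_le_mul_of_nonneg_left h2 hN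
          linarith
  rw [Finset.sum_range_succ, e1]
  have h4 := mul_le_mul_of_nonneg_right (l9wc_wt_top (q := q) hms τ x) (hg (N + 1))
  have m1 : (1 : ℝ) ≤ max 1 (ms N) := le_max_left _ _
  have m2 : ms N ≤ max 1 (ms N) := le_max_right _ _
  have := hg (N + 1)
  nlinarith

/-- one attachment against a function of its depth -/
theorem l9wc_abs1 {N q : ℕ} {ms : ℕ → ℝ} (hms : IsMs N ms) {τ : ℕ → ℕ → ℕ} (hτ : IsTr N q τ) (g : ℕ → ℝ) (hg : ∀ k, 0 ≤ g k) :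
    ∑ x ∈ Finset.range q, ∑ j ∈ Finset.range (N + 2), |trWt ms N q τ x j| * g j
      ≤ q * (max 1 (ms N) * l9htNm ms N g) + ms N * ∑ y ∈ Finset.range q, ∑ z ∈ Finset.range q, g (τ y z) := by
  calc _ ≤ ∑ x ∈ Finset.range q, (max 1 (ms N) * l9htNm ms N g + ms N * ∑ z ∈ Finset.range q, g (τ x z)) :=
        Finset.sum_le_sum fun x hx => l9wc_abs1x hms hτ g hg (Finset.mem_range.1 hx)
    _ = _ := by
        rw [Finset.sum_add_distrib, Finset.sum_const, Finset.card_range, nsmul_eq_mul, Finset.mul_sum]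

theorem l9wc_row_le {q : ℕ} {τ : ℕ → ℕ → ℕ} {g : ℕ → ℝ} (hg : ∀ k, 0 ≤ g k) {x : ℕ} (hx : x < q) :
    ∑ z ∈ Finset.range q, g (τ x z) ≤ ∑ y ∈ Finset.range q, ∑ z ∈ Finset.range q, g (τ y z) :=
  Finset.single_le_sum (f := fun y => ∑ z ∈ Finset.range q, g (τ y z)) (fun _ _ => Finset.sum_nonneg fun _ _ => hg _)
    (Finset.mem_range.2 hx)

theorem l9wc_col_le {q : ℕ} {τ : ℕ → ℕ → ℕ} {g : ℕ → ℝ} (hg : ∀ k, 0 ≤ g k) {x : ℕ} (hx : x < q) :
    ∑ y ∈ Finset.range q, g (τ y x) ≤ ∑ y ∈ Finset.range q, ∑ z ∈ Finset.range q, g (τ y z) :=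
  Finset.sum_le_sum fun y _ => Finset.single_le_sum (f := fun z => g (τ y z)) (fun _ _ => hg _) (Finset.mem_range.2 hx)

theorem l9wc_g_min {g : ℕ → ℝ} (hg : ∀ k, 0 ≤ g k) (s t : ℕ) : g (min s t) ≤ g s + g t := by
  rcases le_total s t with h | h
  · rw [min_eq_left h]; linarith [hg t]
  · rw [min_eq_right h]; linarith [hg s]

/-- the levels of the enlarged table -/
theorem l9wc_S_att (N : ℕ) {q : ℕ} (τ : ℕ → ℕ → ℕ) {g : ℕ → ℝ} (hg : ∀ k, 0 ≤ g k) {x : ℕ} (hx : x < q) (j : ℕ) :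
    ∑ y ∈ Finset.range (q + 1), ∑ z ∈ Finset.range (q + 1), g (trAtt N q τ x j y z)
      ≤ 3 * (∑ y ∈ Finset.range q, ∑ z ∈ Finset.range q, g (τ y z)) + 2 * q * g j + g (N + 1) := by
  have e1 : ∀ y ∈ Finset.range q, ∀ z ∈ Finset.range q, trAtt N q τ x j y z = τ y z := fun y hy z hz => by
    rw [Finset.mem_range] at hy hz
    unfold trAtt
    rw [if_neg (by omega), if_neg (by omega)]
  have e2 : ∀ y ∈ Finset.range q, trAtt N q τ x j y q = min j (τ y x) := fun y hy => by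
    rw [Finset.mem_range] at hy
    unfold trAtt
    rw [if_neg (by omega), if_pos rfl]
  have e3 : ∀ z ∈ Finset.range q, trAtt N q τ x j q z = min j (τ x z) := fun z hz => by
    rw [Finset.mem_range] at hz
    unfold trAtt
    rw [if_pos rfl, if_neg (by omega)]
  have e4 : trAtt N q τ x j q q = N + 1 := by
    unfold trAtt
    rw [if_pos rfl, if_pos rfl]
  rw [Finset.sum_range_succ, Finset.sum_range_succ, e4]
  have a1 : ∑ y ∈ Finset.range q, ∑ z ∈ Finset.range (q + 1), g (trAtt N q τ x j y z)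
      ≤ (∑ y ∈ Finset.range q, ∑ z ∈ Finset.range q, g (τ y z)) + (q * g j + ∑ y ∈ Finset.range q, g (τ y x)) := by
    calc _ ≤ ∑ y ∈ Finset.range q, (∑ z ∈ Finset.range q, g (τ y z) + (g j + g (τ y x))) := by
          refine Finset.sum_le_sum fun y hy => ?_
          rw [Finset.sum_range_succ, e2 y hy, Finset.sum_congr rfl fun z hz => by rw [e1 y hy z hz]]
          linarith [l9wc_g_min hg j (τ y x)]
      _ = _ := by
          rw [Finset.sum_add_distrib, Finset.sum_add_distrib, Finset.sum_const, Finset.card_range, nsmul_eq_mul]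
  have a2 : ∑ z ∈ Finset.range q, g (trAtt N q τ x j q z) ≤ q * g j + ∑ z ∈ Finset.range q, g (τ x z) := by
    calc _ ≤ ∑ z ∈ Finset.range q, (g j + g (τ x z)) := by
          refine Finset.sum_le_sum fun z hz => ?_
          rw [e3 z hz]
          exact l9wc_g_min hg j (τ x z)
      _ = _ := by
          rw [Finset.sum_add_distrib, Finset.sum_const, Finset.card_range, nsmul_eq_mul]
  have a3 := l9wc_row_le (τ := τ) hg hx
  have a4 := l9wc_col_le (τ := τ) hg hx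
  linarith

/-- the second attachment against the level of the added pair -/
theorem l9wc_abs_in {N q : ℕ} {ms : ℕ → ℝ} (hms : IsMs N ms) {τ : ℕ → ℕ → ℕ} (hτ : IsTr N (q + 1) τ) (g : ℕ → ℝ) (hg : ∀ k, 0 ≤ g k) :
    trAbs ms N (q + 1) τ (fun τ' => g (τ' q (q + 1)))
      ≤ ((q + 1 : ℕ) : ℝ) * (max 1 (ms N) * l9htNm ms N g)
        + (ms N + 2 * ms N * ((q + 1 : ℕ) : ℝ)) * ∑ y ∈ Finset.range (q + 1), ∑ z ∈ Finset.range (q + 1), g (τ y z) := by
  have hN := hms.nonneg N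
  have e : ∀ x j, trAtt N (q + 1) τ x j q (q + 1) = min j (τ q x) := fun x j => by
    unfold trAtt
    rw [if_neg (by omega), if_pos rfl]
  unfold trAbs
  simp only [e]
  have hS0 : ∀ x ∈ Finset.range (q + 1), 0 ≤ g (τ q x) := fun x _ => hg _
  have h1 := l9wc_abs1 hms hτ g hg
  have htv := tra2_abs_total hτ hms
  have h2 : ∑ x ∈ Finset.range (q + 1), ∑ j ∈ Finset.range (N + 2), |trWt ms N (q + 1) τ x j| * g (τ q x)
      ≤ 2 * ms N * ((q + 1 : ℕ) : ℝ) * ∑ y ∈ Finset.range (q + 1), ∑ z ∈ Finset.range (q + 1), g (τ y z) := by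
    calc _ = ∑ x ∈ Finset.range (q + 1), (∑ j ∈ Finset.range (N + 2), |trWt ms N (q + 1) τ x j|) * g (τ q x) :=
          Finset.sum_congr rfl fun x _ => by rw [Finset.sum_mul]
      _ ≤ ∑ x ∈ Finset.range (q + 1), (2 * ms N * ((q + 1 : ℕ) : ℝ)) * g (τ q x) := by
          refine Finset.sum_le_sum fun x hx => mul_le_mul_of_nonneg_right (le_trans ?_ htv) (hg _)
          exact Finset.single_le_sum (f := fun x => ∑ j ∈ Finset.range (N + 2), |trWt ms N (q + 1) τ x j|)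
            (fun y _ => Finset.sum_nonneg fun j _ => abs_nonneg _) hx
      _ = 2 * ms N * ((q + 1 : ℕ) : ℝ) * ∑ x ∈ Finset.range (q + 1), g (τ q x) := by rw [Finset.mul_sum]
      _ ≤ _ := mul_le_mul_of_nonneg_left (l9wc_row_le hg (Nat.lt_succ_self q)) (by positivity)
  calc _ ≤ ∑ x ∈ Finset.range (q + 1), ∑ j ∈ Finset.range (N + 2),
        (|trWt ms N (q + 1) τ x j| * g j + |trWt ms N (q + 1) τ x j| * g (τ q x)) := by
        refine Finset.sum_le_sum fun x _ => Finset.sum_le_sum fun j _ => ?_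
        rw [← mul_add]
        exact mul_le_mul_of_nonneg_left (l9wc_g_min hg _ _) (abs_nonneg _)
    _ = (∑ x ∈ Finset.range (q + 1), ∑ j ∈ Finset.range (N + 2), |trWt ms N (q + 1) τ x j| * g j)
        + ∑ x ∈ Finset.range (q + 1), ∑ j ∈ Finset.range (N + 2), |trWt ms N (q + 1) τ x j| * g (τ q x) := by
        simp only [Finset.sum_add_distrib]
    _ ≤ _ := by linarith

/-- **SC-DOT**: two attachments against a function of the level of the added pair -/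
theorem l9wc_absK2 (q : ℕ) (a : ℝ) : ∃ C : ℝ, 0 ≤ C ∧ ∀ (N : ℕ) (ms : ℕ → ℝ) (τ : ℕ → ℕ → ℕ) (g : ℕ → ℝ), IsMs N ms → ms N ≤ a → IsTr N q τ →
    (∀ k, 0 ≤ g k) →
    trAbsK ms N 2 q τ (fun τ' => g (τ' q (q + 1))) ≤ C * (l9htNm ms N g + ∑ y ∈ Finset.range q, ∑ z ∈ Finset.range q, g (τ y z)) := by
  set A : ℝ := max 1 a with hA
  have hA1 : 1 ≤ A := le_max_left _ _
  set c1 : ℝ := A + 2 * A * ((q + 1 : ℕ) : ℝ) with hc1
  have hc0 : 0 ≤ c1 := by positivity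
  refine ⟨2 * A * q * (((q + 1 : ℕ) : ℝ) * A + 3 * c1) + 2 * q * c1 * (q * A + A), by positivity, fun N ms τ g hms ha hτ hg => ?_⟩
  have hN := hms.nonneg N
  have hNA : ms N ≤ A := ha.trans (le_max_right _ _)
  have hMA : max 1 (ms N) ≤ A := max_le hA1 hNA
  set Nm : ℝ := l9htNm ms N g with hNm
  set S : ℝ := ∑ y ∈ Finset.range q, ∑ z ∈ Finset.range q, g (τ y z) with hS
  have hNm0 : 0 ≤ Nm := l9ht_nm_nonneg hms hg
  have hS0 : 0 ≤ S := Finset.sum_nonneg fun y _ => Finset.sum_nonneg fun z _ => hg _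
  have htop : g (N + 1) ≤ Nm := by
    have := Finset.single_le_sum (f := fun k => l9aMw ms N k * g k) (s := Finset.range (N + 2))
      (fun k _ => mul_nonneg (l9a_mw_nonneg hms k) (hg k)) (Finset.mem_range.2 (Nat.lt_succ_self (N + 1)))
    simp only [l9aMw] at this
    rw [if_neg (by omega), one_mul] at this
    exact this
  have hin : ∀ x ∈ Finset.range q, ∀ j ∈ Finset.range (N + 2),
      trAbs ms N (q + 1) (trAtt N q τ x j) (fun τ' => g (τ' q (q + 1)))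
        ≤ (((q + 1 : ℕ) : ℝ) * (A * Nm) + c1 * (3 * S + Nm)) + 2 * q * c1 * g j := fun x hx j hj => by
    rw [Finset.mem_range] at hx hj
    have h1 := l9wc_abs_in hms (tr_att_isTr hτ hx (show j ≤ N + 1 by omega)) g hg
    have h2 := l9wc_S_att N τ hg hx j
    have h3 : 0 ≤ ∑ y ∈ Finset.range (q + 1), ∑ z ∈ Finset.range (q + 1), g (trAtt N q τ x j y z) :=
      Finset.sum_nonneg fun y _ => Finset.sum_nonneg fun z _ => hg _
    have h4 : ms N + 2 * ms N * ((q + 1 : ℕ) : ℝ) ≤ c1 := by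
      rw [hc1]
      have : (0 : ℝ) ≤ ((q + 1 : ℕ) : ℝ) := Nat.cast_nonneg _
      nlinarith
    have h5 : ((q + 1 : ℕ) : ℝ) * (max 1 (ms N) * Nm) ≤ ((q + 1 : ℕ) : ℝ) * (A * Nm) :=
      mul_le_mul_of_nonneg_left (mul_le_mul_of_nonneg_right hMA hNm0) (Nat.cast_nonneg _)
    have h6 := mul_le_mul h4 h2 h3 hc0
    have h7 : c1 * (3 * S + 2 * q * g j + g (N + 1)) ≤ c1 * (3 * S + 2 * q * g j + Nm) :=
      mul_le_mul_of_nonneg_left (by linarith) hc0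
    calc _ ≤ _ := h1
      _ ≤ ((q + 1 : ℕ) : ℝ) * (A * Nm) + c1 * (3 * S + 2 * q * g j + Nm) := by linarith
      _ = _ := by ring
  have htv := tra2_abs_total hτ hms
  have h1 := l9wc_abs1 hms hτ g hg
  set D : ℝ := ((q + 1 : ℕ) : ℝ) * (A * Nm) + c1 * (3 * S + Nm) with hD
  have hD0 : 0 ≤ D := by positivity
  have hq0 : (0 : ℝ) ≤ (q : ℝ) := Nat.cast_nonneg _
  have key : trAbsK ms N 2 q τ (fun τ' => g (τ' q (q + 1)))
      ≤ (2 * A * q) * D + 2 * q * c1 * (q * (A * Nm) + A * S) := by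
    simp only [trAbsK]
    unfold trAbs at hin ⊢
    calc _ ≤ ∑ x ∈ Finset.range q, ∑ j ∈ Finset.range (N + 2), |trWt ms N q τ x j| * (D + 2 * q * c1 * g j) :=
          Finset.sum_le_sum fun x hx => Finset.sum_le_sum fun j hj => mul_le_mul_of_nonneg_left (hin x hx j hj) (abs_nonneg _)
      _ = (∑ x ∈ Finset.range q, ∑ j ∈ Finset.range (N + 2), |trWt ms N q τ x j|) * D
          + 2 * q * c1 * ∑ x ∈ Finset.range q, ∑ j ∈ Finset.range (N + 2), |trWt ms N q τ x j| * g j := by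
          simp only [Finset.sum_mul, Finset.mul_sum, ← Finset.sum_add_distrib]
          refine Finset.sum_congr rfl fun x _ => Finset.sum_congr rfl fun j _ => by ring
      _ ≤ _ := by
          have t1 : (∑ x ∈ Finset.range q, ∑ j ∈ Finset.range (N + 2), |trWt ms N q τ x j|) * D ≤ (2 * A * q) * D :=
            mul_le_mul_of_nonneg_right (htv.trans (by nlinarith)) hD0
          have t2 : ∑ x ∈ Finset.range q, ∑ j ∈ Finset.range (N + 2), |trWt ms N q τ x j| * g j ≤ q * (A * Nm) + A * S := by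
            refine h1.trans (add_le_add ?_ (mul_le_mul_of_nonneg_right hNA hS0))
            exact mul_le_mul_of_nonneg_left (mul_le_mul_of_nonneg_right hMA hNm0) hq0
          have t3 := mul_le_mul_of_nonneg_left t2 (show 0 ≤ 2 * q * c1 by positivity)
          linarith
  refine key.trans ?_
  have hfin : (2 * A * q * (((q + 1 : ℕ) : ℝ) * A + 3 * c1) + 2 * q * c1 * (q * A + A)) * (Nm + S)
      - ((2 * A * q) * D + 2 * q * c1 * (q * (A * Nm) + A * S))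
      = Nm * (2 * A * q * (2 * c1) + 2 * q * c1 * A) + S * (2 * A * q * (((q + 1 : ℕ) : ℝ) * A) + 2 * q * c1 * (q * A)) := by
    rw [hD]; ring
  have hpos : 0 ≤ Nm * (2 * A * q * (2 * c1) + 2 * q * c1 * A) + S * (2 * A * q * (((q + 1 : ℕ) : ℝ) * A) + 2 * q * c1 * (q * A)) := by
    positivity
  linarith

/-! ## 4. the forks -/

theorem l9wc_G_one_le {N : ℕ} {g : ℕ → ℝ} (hg : ∀ k, 0 ≤ g k) (n : ℕ) (τ : JtTopo) (s : ℕ) : 1 ≤ l9wG N g n τ s := by
  unfold l9wG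
  split_ifs
  · linarith [hg (l9aBj τ s)]
  · exact le_rfl

/-- **the levels of a table are the birth depths of its forks** -/
theorem l9wc_forks {N n : ℕ} (hn : 1 ≤ n) {τ : JtTopo} (hτ : IsTr N (2 * n) τ) {g : ℕ → ℝ} (hg : ∀ k, 0 ≤ g k) {G : ℝ} (hG : 0 ≤ G)
    (hoff : ∀ i, i < n → τ (2 * i) (2 * i + 1) ≤ N) (hlow : ∀ i, i < n → g (τ (2 * i) (2 * i + 1)) ≤ G) :
    1 + ∑ y ∈ Finset.range (2 * n), ∑ z ∈ Finset.range (2 * n), (if τ y z ≤ N then g (τ y z) else 0)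
      ≤ ((2 * n : ℕ) : ℝ) ^ 2 * (1 + G) * ∏ s ∈ Finset.Ico 1 (2 * n), l9wG N g n τ s := by
  have h1 : ∀ s, 1 ≤ l9wG N g n τ s := l9wc_G_one_le hg n τ
  have hs : ∀ s ∈ Finset.Ico 1 (2 * n), l9wG N g n τ s ≤ ∏ s ∈ Finset.Ico 1 (2 * n), l9wG N g n τ s := fun s hs => by
    have := Finset.prod_le_prod (s := Finset.Ico 1 (2 * n)) (f := fun t => if t = s then l9wG N g n τ s else 1) (g := l9wG N g n τ)
      (fun t _ => by
        show (0 : ℝ) ≤ if t = s then l9wG N g n τ s else 1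
        split_ifs
        · linarith [h1 s]
        · exact zero_le_one)
      (fun t _ => by
        show (if t = s then l9wG N g n τ s else 1) ≤ l9wG N g n τ t
        split_ifs with h
        · rw [h]
        · exact h1 t)
    rwa [Finset.prod_ite_eq', if_pos hs] at this
  have hP1 : 1 ≤ ∏ s ∈ Finset.Ico 1 (2 * n), l9wG N g n τ s :=
    (h1 1).trans (hs 1 (Finset.mem_Ico.2 ⟨le_rfl, by omega⟩))
  generalize hPr : ∏ s ∈ Finset.Ico 1 (2 * n), l9wG N g n τ s = Pr at hs hP1 ⊢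
  have hbase : 0 ≤ (1 + G) * Pr - 1 := by nlinarith
  have ht : ∀ y ∈ Finset.range (2 * n), ∀ z ∈ Finset.range (2 * n), (if τ y z ≤ N then g (τ y z) else 0) ≤ (1 + G) * Pr - 1 := by
    intro y hy z hz
    rw [Finset.mem_range] at hy hz
    split_ifs with hle
    · obtain ⟨v1, v2, v3⟩ := l9a_vx_spec hτ hy hz hle
      by_cases hd : l9wDes n τ (l9aVx τ y z)
      · obtain ⟨i, hi, hie⟩ := hd
        obtain ⟨_, _, w3⟩ := l9a_vx_spec hτ (by omega : 2 * i < 2 * n) (by omega : 2 * i + 1 < 2 * n) (hoff i hi)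
        rw [hie, v3] at w3
        rw [w3]
        have := hlow i hi
        nlinarith
      · have h2 := hs (l9aVx τ y z) (Finset.mem_Ico.2 ⟨v2.1, v1⟩)
        unfold l9wG at h2
        rw [if_pos ⟨v2, hd⟩, v3] at h2
        nlinarith
    · exact hbase
  have hq : (1 : ℝ) ≤ ((2 * n : ℕ) : ℝ) ^ 2 := by
    have : (1 : ℝ) ≤ ((2 * n : ℕ) : ℝ) := by exact_mod_cast (by omega : 1 ≤ 2 * n)
    nlinarith
  calc _ ≤ 1 + ∑ y ∈ Finset.range (2 * n), ∑ z ∈ Finset.range (2 * n), ((1 + G) * Pr - 1) :=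
        add_le_add le_rfl (Finset.sum_le_sum fun y hy => Finset.sum_le_sum fun z hz => ht y hy z hz)
    _ = 1 + ((2 * n : ℕ) : ℝ) ^ 2 * ((1 + G) * Pr - 1) := by
        simp only [Finset.sum_const, Finset.card_range, nsmul_eq_mul]
        ring
    _ ≤ _ := by nlinarith

/-! ## 5. the record `Q.Co` -/

/-- the bound of `Q.Co`, all `R` (also `R = ∅`) -/
theorem l9wc_co_all (J0 : ℕ) : ∃ Kc : ℝ, 0 ≤ Kc ∧ ∀ (Q : L9Q) (δm A T0 vt : ℝ) (e g : ℕ → ℝ), Q.Fm → Q.Adm δm → Q.p.a ≤ 4 → Q.WcB A T0 vt e → Q.WcG A T0 vt g →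
    ∀ n, 1 ≤ n → n ≤ J0 → ∀ R, R ⊆ Finset.range n → ∀ τ ∈ l9aTab Q.N (2 * n), Q.Low vt n τ →
      |Q.co n R τ| ≤ Kc * A ^ (2 * J0 + 2) * T0 * (∏ i ∈ Finset.range n \ R, e (τ (2 * i) (2 * i + 1))) * ∏ s ∈ Finset.Ico 1 (2 * n), l9wG Q.N g n τ s := by
  obtain ⟨Ck, hCk0, hCk⟩ := l9x_kap_bd (J0 + 1)
  choose C2 hC20 hC2 using fun q : ℕ => l9wc_absK2 q 4
  set C2m : ℝ := ∑ n ∈ Finset.range (J0 + 1), C2 (2 * n) with hC2m
  have hC2m0 : 0 ≤ C2m := Finset.sum_nonneg fun n _ => hC20 _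
  have hC2le : ∀ n, n ≤ J0 → C2 (2 * n) ≤ C2m := fun n hn =>
    Finset.single_le_sum (f := fun n => C2 (2 * n)) (fun n _ => hC20 _) (Finset.mem_range.2 (by omega))
  refine ⟨(1 + (J0 : ℝ)) * Ck + Ck * (C2m * (((2 * J0 : ℕ) : ℝ) ^ 2 * 2)) + (J0 : ℝ) * Ck + (J0 : ℝ) * Ck, by positivity, ?_⟩
  intro Q δm A T0 vt e g hF hA ha hB hG n hn hnJ R hR τ hτ hL
  have hτ' : IsTr Q.N (2 * n) τ := (l9a_mem_tab.1 hτ).1
  have hms : IsMs Q.N Q.ms := ll2_law_isMs hA.a_pos.le hA.adm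
  have hmsN : Q.ms Q.N ≤ 4 := by rw [l9w_ms_top]; exact ha
  have hA1 := hB.A1
  have hT0 := hB.T_nn
  rw [l9wc_leib hF hA hn R hτ']
  have hG1 : ∀ s, 1 ≤ l9wG Q.N g n τ s := l9wc_G_one_le hG.g_nn n τ
  have hPg1 : 1 ≤ ∏ s ∈ Finset.Ico 1 (2 * n), l9wG Q.N g n τ s := by
    have := Finset.prod_le_prod (s := Finset.Ico 1 (2 * n)) (f := fun _ => (1 : ℝ)) (g := l9wG Q.N g n τ)
      (fun _ _ => zero_le_one) (fun s _ => hG1 s)
    rwa [Finset.prod_const_one] at this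
  have hfk := l9wc_forks hn hτ' hG.g_nn (G := A) (by linarith) (fun i hi => (hL i hi).1)
    (fun i hi => hG.g_low _ (hL i hi).1 (hL i hi).2)
  generalize ∏ s ∈ Finset.Ico 1 (2 * n), l9wG Q.N g n τ s = Pg at hPg1 hfk ⊢
  -- the cumulant
  have hκ : |Q.wk n τ| ≤ 1 * Ck := by
    rw [one_mul]
    exact hCk (Q.X false) Q.ms (l9c_law Q hA false) _ _ _ _ (by rw [Finset.card_range]; omega)
  -- the dotted cumulant
  set g' : ℕ → ℝ := fun l => T0 * (if l ≤ Q.N then g l else 0) with hg'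
  have hg'0 : ∀ l, 0 ≤ g' l := fun l => by
    rw [hg']
    show 0 ≤ T0 * (if l ≤ Q.N then g l else 0)
    split_ifs
    · exact mul_nonneg hT0 (hG.g_nn l)
    · rw [mul_zero]
  have hw : ∀ l, |Q.wKw l| ≤ g' l := fun l => by
    rw [hg']
    show |Q.wKw l| ≤ T0 * (if l ≤ Q.N then g l else 0)
    unfold L9Q.wKw
    split_ifs with h
    · exact hG.KD_le l h
    · rw [abs_zero, mul_zero]
  have hkd1 := l9ht_kd_abs (ms := Q.ms) hτ' Q.wKw g' (fun τ' => Q.wk (n + 1) τ') (Cp := Ck) hw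
    (fun τ' _ => hCk (Q.X false) Q.ms (l9c_law Q hA false) _ _ _ _ (by rw [Finset.card_range]; omega))
  have hkd2 := hC2 (2 * n) Q.N Q.ms τ g' hms hmsN hτ' hg'0
  have hnm : l9htNm Q.ms Q.N g' ≤ T0 * 1 := by
    rw [hg', l9ht_nm_smul]
    refine mul_le_mul_of_nonneg_left (le_trans (le_of_eq ?_) hG.g_sum) hT0
    unfold l9htNm
    rw [Finset.sum_range_succ]
    simp only [if_neg (show ¬ Q.N + 1 ≤ Q.N by omega), mul_zero, add_zero]
    refine Finset.sum_congr rfl fun k hk => ?_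
    rw [Finset.mem_range] at hk
    unfold l9aMw
    rw [if_pos (show k ≤ Q.N by omega), if_pos (show k ≤ Q.N by omega)]
  have hss : ∑ y ∈ Finset.range (2 * n), ∑ z ∈ Finset.range (2 * n), g' (τ y z)
      = T0 * ∑ y ∈ Finset.range (2 * n), ∑ z ∈ Finset.range (2 * n), (if τ y z ≤ Q.N then g (τ y z) else 0) := by
    rw [hg']
    simp only [Finset.mul_sum]
  have hkd : |Q.wkD n τ| ≤ 1 * (Ck * (C2m * (T0 * (((2 * n : ℕ) : ℝ) ^ 2 * (1 + A) * Pg)))) := by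
    rw [one_mul]
    refine le_trans hkd1 (mul_le_mul_of_nonneg_left (hkd2.trans ?_) hCk0)
    have h1 : l9htNm Q.ms Q.N g' + ∑ y ∈ Finset.range (2 * n), ∑ z ∈ Finset.range (2 * n), g' (τ y z)
        ≤ T0 * (((2 * n : ℕ) : ℝ) ^ 2 * (1 + A) * Pg) := by
      rw [hss]
      have := mul_le_mul_of_nonneg_left hfk hT0
      linarith
    have h0 : 0 ≤ l9htNm Q.ms Q.N g' + ∑ y ∈ Finset.range (2 * n), ∑ z ∈ Finset.range (2 * n), g' (τ y z) :=
      add_nonneg (l9ht_nm_nonneg hms hg'0) (Finset.sum_nonneg fun y _ => Finset.sum_nonneg fun z _ => hg'0 _)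
    exact mul_le_mul (hC2le n hnJ) h1 h0 hC2m0
  have hlow : ∀ i ∈ Finset.range n, τ (2 * i) (2 * i + 1) ≤ Q.N ∧ Q.ms (τ (2 * i) (2 * i + 1)) ≤ vt := fun i hi =>
    hL i (Finset.mem_range.1 hi)
  have hnum := l9wc_num hR (m := 1) (B := A) (Cκ := Ck) (Kd := Ck * (C2m * (T0 * (((2 * n : ℕ) : ℝ) ^ 2 * (1 + A) * Pg))))
    (Bd := A * T0) (T := T0) (c0 := Q.u - Q.e * R.card) (κ := Q.wk n τ) (κd := Q.wkD n τ)
    (b := fun i => (Q.X false).bC (τ (2 * i) (2 * i + 1))) (bd := fun i => Q.wbD (τ (2 * i) (2 * i + 1)))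
    (d := fun i => (Q.X false).dC (τ (2 * i) (2 * i + 1))) (dd := fun i => Q.wdD (τ (2 * i) (2 * i + 1)))
    (E := fun i => A * e (τ (2 * i) (2 * i + 1))) zero_le_one hA1 hCk0 (by positivity) (by positivity) hT0 hκ hkd
    (fun i hi => hB.b_le _ (hlow i (hR hi)).1 (hlow i (hR hi)).2)
    (fun i hi => hB.bD_le _ (hlow i (hR hi)).1 (hlow i (hR hi)).2)
    (fun i hi => by
      have h1 := hB.d_le _ (hlow i (Finset.mem_sdiff.1 hi).1).1 (hlow i (Finset.mem_sdiff.1 hi).1).2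
      unfold L9Q.dA at h1
      have := abs_nonneg (deriv (fun t' => (Q.I.X0 (Q.pf t')).dC (τ (2 * i) (2 * i + 1))) Q.t)
      linarith)
    (fun i hi => by
      have h1 := hB.dT_le _ (hlow i (Finset.mem_sdiff.1 hi).1).1 (hlow i (Finset.mem_sdiff.1 hi).1).2
      unfold L9Q.dA at h1
      have := abs_nonneg ((Q.X false).dC (τ (2 * i) (2 * i + 1)))
      unfold L9Q.wdD
      linarith)
  refine hnum.trans ?_
  rw [one_mul, Finset.prod_mul_distrib, Finset.prod_const]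
  have hPe0 : 0 ≤ ∏ i ∈ Finset.range n \ R, e (τ (2 * i) (2 * i + 1)) := Finset.prod_nonneg fun i _ => hB.e_nn _
  generalize ∏ i ∈ Finset.range n \ R, e (τ (2 * i) (2 * i + 1)) = Pe at hPe0 ⊢
  have hcard : (Finset.range n \ R).card ≤ n := (Finset.card_le_card Finset.sdiff_subset).trans (by rw [Finset.card_range])
  have hRc : (R.card : ℝ) ≤ (n : ℝ) := by
    have := Finset.card_le_card hR
    rw [Finset.card_range] at this
    exact_mod_cast this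
  have hnJ' : (n : ℝ) ≤ (J0 : ℝ) := by exact_mod_cast hnJ
  have hn0 : (0 : ℝ) ≤ (n : ℝ) := Nat.cast_nonneg _
  have h2nJ : ((2 * n : ℕ) : ℝ) ^ 2 ≤ ((2 * J0 : ℕ) : ℝ) ^ 2 := by
    have : ((2 * n : ℕ) : ℝ) ≤ ((2 * J0 : ℕ) : ℝ) := by exact_mod_cast (by omega : 2 * n ≤ 2 * J0)
    exact pow_le_pow_left₀ (Nat.cast_nonneg _) this 2
  -- the unit `W`
  set W : ℝ := T0 * (A ^ 2 * Pg) with hW
  have hA2 : A ≤ A ^ 2 := by nlinarith
  have hA21 : 1 ≤ A ^ 2 := one_le_pow₀ hA1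
  have hPg0 : 0 ≤ Pg := by linarith
  have hAP : 1 ≤ A ^ 2 * Pg := one_le_mul_of_one_le_of_one_le hA21 hPg1
  have hW0 : 0 ≤ W := by positivity
  have w1 : T0 ≤ W := le_mul_of_one_le_right hT0 hAP
  have w2 : A * T0 ≤ W := by
    have h1 : A ≤ A ^ 2 * Pg := hA2.trans (le_mul_of_one_le_right (by positivity) hPg1)
    rw [mul_comm]
    exact mul_le_mul_of_nonneg_left h1 hT0
  have w3 : T0 * ((1 + A) * Pg) ≤ 2 * W := by
    have h1 : (1 + A) * Pg ≤ (2 * A ^ 2) * Pg := mul_le_mul_of_nonneg_right (by linarith) hPg0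
    have h2 := mul_le_mul_of_nonneg_left h1 hT0
    rw [hW]
    linarith
  have hc0 : |Q.u - Q.e * R.card| ≤ (1 + (J0 : ℝ)) * W := by
    have h1 : |Q.u - Q.e * R.card| ≤ |Q.u| + |Q.e| * R.card := by
      have := abs_add_le Q.u (-(Q.e * R.card))
      rw [abs_neg, abs_mul, Nat.abs_cast, ← sub_eq_add_neg] at this
      exact this
    have h2 : |Q.e| * R.card ≤ T0 * (J0 : ℝ) := mul_le_mul hB.e_le (hRc.trans hnJ') (Nat.cast_nonneg _) hT0
    have h3 := hB.u_le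
    have h4 : T0 * (1 + (J0 : ℝ)) ≤ W * (1 + (J0 : ℝ)) := mul_le_mul_of_nonneg_right w1 (by positivity)
    linarith
  have t1 : |Q.u - Q.e * R.card| * Ck ≤ (1 + (J0 : ℝ)) * Ck * W := by
    have := mul_le_mul_of_nonneg_right hc0 hCk0
    linarith
  have t2 : Ck * (C2m * (T0 * (((2 * n : ℕ) : ℝ) ^ 2 * (1 + A) * Pg))) ≤ Ck * (C2m * (((2 * J0 : ℕ) : ℝ) ^ 2 * 2)) * W := by
    have h1 : T0 * (((2 * n : ℕ) : ℝ) ^ 2 * (1 + A) * Pg) ≤ ((2 * J0 : ℕ) : ℝ) ^ 2 * (2 * W) := by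
      have e1 : T0 * (((2 * n : ℕ) : ℝ) ^ 2 * (1 + A) * Pg) = ((2 * n : ℕ) : ℝ) ^ 2 * (T0 * ((1 + A) * Pg)) := by ring
      rw [e1]
      exact mul_le_mul h2nJ w3 (by positivity) (by positivity)
    have h2 := mul_le_mul_of_nonneg_left (mul_le_mul_of_nonneg_left h1 hC2m0) hCk0
    linarith
  have t3 : (n : ℝ) * (Ck * (A * T0)) ≤ (J0 : ℝ) * Ck * W := by
    have h1 : Ck * (A * T0) ≤ Ck * W := mul_le_mul_of_nonneg_left w2 hCk0
    have h2 := mul_le_mul hnJ' h1 (by positivity) (Nat.cast_nonneg J0)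
    linarith
  have t4 : (n : ℝ) * (Ck * T0) ≤ (J0 : ℝ) * Ck * W := by
    have h1 : Ck * T0 ≤ Ck * W := mul_le_mul_of_nonneg_left w1 hCk0
    have h2 := mul_le_mul hnJ' h1 (by positivity) (Nat.cast_nonneg J0)
    linarith
  set Kc : ℝ := (1 + (J0 : ℝ)) * Ck + Ck * (C2m * (((2 * J0 : ℕ) : ℝ) ^ 2 * 2)) + (J0 : ℝ) * Ck + (J0 : ℝ) * Ck with hKc
  have hKc0 : 0 ≤ Kc := by positivity
  have hX : |Q.u - Q.e * R.card| * Ck + Ck * (C2m * (T0 * (((2 * n : ℕ) : ℝ) ^ 2 * (1 + A) * Pg))) + (n : ℝ) * (Ck * (A * T0)) + (n : ℝ) * (Ck * T0)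
      ≤ Kc * W := by
    rw [hKc]; linarith
  have hpow : A ^ n * A ^ (Finset.range n \ R).card * A ^ 2 ≤ A ^ (2 * J0 + 2) := by
    rw [← pow_add, ← pow_add]
    exact pow_le_pow_right₀ hA1 (by omega)
  have hAn0 : 0 ≤ A ^ n := by positivity
  have hAc0 : 0 ≤ A ^ (Finset.range n \ R).card := by positivity
  calc A ^ n * (|Q.u - Q.e * R.card| * Ck + Ck * (C2m * (T0 * (((2 * n : ℕ) : ℝ) ^ 2 * (1 + A) * Pg))) + (n : ℝ) * (Ck * (A * T0)) + (n : ℝ) * (Ck * T0))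
        * (A ^ (Finset.range n \ R).card * Pe)
      ≤ A ^ n * (Kc * W) * (A ^ (Finset.range n \ R).card * Pe) :=
        mul_le_mul_of_nonneg_right (mul_le_mul_of_nonneg_left hX hAn0) (by positivity)
    _ = (A ^ n * A ^ (Finset.range n \ R).card * A ^ 2) * (Kc * T0 * Pe * Pg) := by rw [hW]; ring
    _ ≤ A ^ (2 * J0 + 2) * (Kc * T0 * Pe * Pg) := mul_le_mul_of_nonneg_right hpow (by positivity)
    _ = Kc * A ^ (2 * J0 + 2) * T0 * Pe * Pg := by ring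

/-- **`Q.Co`** -/
theorem l9wc_co (J0 : ℕ) : ∃ Kc : ℝ, 0 ≤ Kc ∧ ∀ (Q : L9Q) (δm A T0 vt : ℝ) (e g : ℕ → ℝ) (n0 : ℕ), 1 ≤ n0 → Q.Fm → Q.Adm δm → Q.p.a ≤ 4 →
    Q.WcB A T0 vt e → Q.WcG A T0 vt g → Q.Co (Kc * A ^ (2 * J0 + 2)) T0 vt e g n0 J0 := by
  obtain ⟨Kc, h0, h⟩ := l9wc_co_all J0
  exact ⟨Kc, h0, fun Q δm A T0 vt e g n0 hn0 hF hA ha hB hG n hn hnJ R hR _ τ hτ hL =>
    h Q δm A T0 vt e g hF hA ha hB hG n (hn0.trans hn) hnJ R hR τ hτ hL⟩

/-! ## 6. parity -/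

/-- the parity configuration: the two ends of every other pair are on the same side of the block of `c_s` after the split of the pair `s` -/
theorem l9wc_Ts_odd {N r q : ℕ} {τ : ℕ → ℕ → ℕ} (hτ : IsTr N r τ) {A : Finset ℕ} (hA : ∀ i ∈ A, jtD q i < r) {s : ℕ}
    (hs : s ∈ A) (hk : τ (jtC q s) (jtD q s) ≤ N)
    (hoth : ∀ i ∈ A, i ≠ s → (τ (jtC q s) (jtD q s) < τ (jtC q s) (jtC q i) ↔ τ (jtC q s) (jtD q s) < τ (jtC q s) (jtD q i))) (σ : ℕ → SkCfg 1) :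
    l9pTs q ∅ A (l9pFA (fun x => τ (jtC q s) (jtD q s) < τ (jtC q s) x) σ) = - l9pTs q ∅ A σ := by
  have hlt : ∀ i ∈ A, jtC q i < r := fun i hi => by
    have := hA i hi; unfold jtC; unfold jtD at this; omega
  rw [l9p_Ts_FA, Finset.prod_empty, one_mul, Finset.prod_eq_single_of_mem s hs]
  · have h1 : l9pEp (fun x => τ (jtC q s) (jtD q s) < τ (jtC q s) x) (jtC q s) = -1 := by
      unfold l9pEp
      rw [if_pos (by show τ (jtC q s) (jtD q s) < τ (jtC q s) (jtC q s); rw [hτ.diag _ (hlt s hs)]; omega)]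
    have h2 : l9pEp (fun x => τ (jtC q s) (jtD q s) < τ (jtC q s) x) (jtD q s) = 1 := by
      unfold l9pEp
      rw [if_neg (lt_irrefl _)]
    rw [h1, h2]; ring
  · intro i hi hne
    have hiff := hoth i hi hne
    unfold l9pEp
    by_cases h : τ (jtC q s) (jtD q s) < τ (jtC q s) (jtC q i)
    · rw [if_pos h, if_pos (hiff.1 h)]; norm_num
    · rw [if_neg h, if_neg (fun h' => h (hiff.2 h'))]; norm_num

/-- **PAR for the joint cumulants**, weak hypothesis -/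
theorem l9wc_kap_par {a : ℝ} (ha : 0 < a) {P : LlStp} (hP : SkAdm a (llSc P)) (n : ℕ) (tl : Option ℕ) {r q : ℕ}
    {A : Finset ℕ} {τ : ℕ → ℕ → ℕ} (hτ : IsTr P.length r τ) (hA : ∀ i ∈ A, jtD q i < r) {s : ℕ}
    (hs : s ∈ A) (hk : τ (jtC q s) (jtD q s) ≤ P.length)
    (hoth : ∀ i ∈ A, i ≠ s → (τ (jtC q s) (jtD q s) < τ (jtC q s) (jtC q i) ↔ τ (jtC q s) (jtD q s) < τ (jtC q s) (jtD q i))) :
    |(llJs n a P tl).Kap r q τ A| ≤ l9CumC A * (l9pC a r * llCumK P (τ (jtC q s) (jtD q s))) := by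
  unfold JtCtx.Kap
  rw [jtLog_eq_cum _ ⟨s, hs⟩]
  have h := l9Cum_abs_le ((llJs n a P tl).Psi r q τ) (l9pB s (l9pC a r * llCumK P (τ (jtC q s) (jtD q s)))) A ?_
  · rwa [l9p_B_prod, if_pos hs] at h
  · intro t ht _
    rw [l9p_B_prod]
    split_ifs with hst
    · obtain ⟨hM, hv⟩ := l9p_adm ha hP
      have hτ' : IsTr (l9pM P).length r τ := by rw [l9p_M_len]; exact hτ
      have hc : jtC q s < r := by have := hA s hs; unfold jtC; unfold jtD at this; omega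
      show |(llJs n a P tl).scM r q ∅ τ t| ≤ _
      rw [l9p_scM ha hP, l9p_cumK]
      exact l9p_par hM hv hτ' (by rw [l9p_M_len]; exact hk) _ (l9p_blk hτ' hc _)
        (l9p_Ts_uses (by simp) (fun i hi => hA i (ht hi))) (l9p_Ts_abs q ∅ t)
        (l9wc_Ts_odd hτ (fun i hi => hA i (ht hi)) hst hk (fun i hi => hoth i (ht hi)))
    · exact l9p_scM_abs ha hP n tl r q ∅ t τ

/-- two base pairs which do not split at the same vertex -/
def L9wcDv (τ : JtTopo) : Prop := τ 0 1 ≠ τ 2 3 ∨ τ 0 2 < τ 0 1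

/-- different fork labels: not the same vertex -/
theorem l9wc_dv_of_vx {N : ℕ} {τ : JtTopo} (hτ : τ ∈ l9aTab N 4) (h : l9aVx τ 0 1 ≠ l9aVx τ 2 3) : L9wcDv τ := by
  obtain ⟨hT, hn⟩ := l9a_mem_tab.1 hτ
  unfold L9wcDv
  by_contra hcon
  push Not at hcon
  obtain ⟨h1, h2⟩ := hcon
  apply h
  unfold l9aVx
  congr 1
  ext s
  simp only [Set.mem_ofPred_eq]
  rw [← h1]
  refine and_congr_left fun _ => ?_
  by_cases hs : s < 4
  · have u1 := hT.ultra 0 2 s (by norm_num) (by norm_num) hs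
    have u2 := hT.ultra 2 0 s (by norm_num) (by norm_num) hs
    have u3 := hT.symm 0 2 (by norm_num) (by norm_num)
    omega
  · have e1 : τ 0 s = 0 := by
      rw [← hn]; unfold l9aNm; rw [if_neg (by omega)]
    have e2 : τ 2 s = 0 := by
      rw [← hn]; unfold l9aNm; rw [if_neg (by omega)]
    rw [e1, e2]

theorem l9wc_par_dv_cum (s : Finset ℕ) : 0 ≤ l9CumC s := by
  unfold l9CumC l9PS
  exact Finset.sum_nonneg fun _ _ => Nat.cast_nonneg _

theorem l9wc_par_dv_pC {a : ℝ} (ha : 0 < a) (ha4 : a ≤ 4) (q : ℕ) : l9pC a q ≤ 32 * ((q : ℝ) * (q + 1)) := by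
  unfold l9pC
  have : a ^ 2 ≤ 16 := by nlinarith
  have hq : 0 ≤ (q : ℝ) * (q + 1) := by positivity
  nlinarith

/-- parity at the pair `s` of the smaller depth: the cumulant of the base pairs and of the base pairs with one added pair which splits later -/
theorem l9wc_par_dv_kap {Q : L9Q} {δm A T0 vt : ℝ} (hA : Q.Adm δm) (ha4 : Q.p.a ≤ 4) (hA1 : 1 ≤ A) (hP : Q.WcP A T0 vt) {r n : ℕ} (hr : r = 2 * n) {τ : JtTopo}
    (hτ : IsTr Q.N r τ) {s : ℕ} (hs : s < n) (hk : τ (2 * s) (2 * s + 1) ≤ Q.N) (hv : Q.ms (τ (2 * s) (2 * s + 1)) ≤ vt)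
    (hoth : ∀ i, i < n → i ≠ s → (τ (2 * s) (2 * s + 1) < τ (2 * s) (2 * i) ↔ τ (2 * s) (2 * s + 1) < τ (2 * s) (2 * i + 1))) :
    |(Q.X false).Kap r 0 τ (Finset.range n)| ≤ Q.ms (τ (2 * s) (2 * s + 1)) * (l9CumC (Finset.range n) * (32 * ((r : ℝ) * (r + 1))) * A) := by
  have hms := (l2rw_isMs Q.I.m hA.a_pos hA.adm).1
  have eC : ∀ i, jtC 0 i = 2 * i := fun i => by unfold jtC; omega
  have eD : ∀ i, jtD 0 i = 2 * i + 1 := fun i => by unfold jtD; omega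
  have h1 := l9wc_kap_par hA.a_pos hA.adm.2 Q.I.m none (r := r) (q := 0) (A := Finset.range n) (τ := τ) (s := s) hτ
    (fun i hi => by rw [eD]; have := Finset.mem_range.1 hi; omega) (Finset.mem_range.2 hs) (by rw [eC, eD]; exact hk)
    (fun i hi his => by rw [eC, eD, eC, eD]; exact hoth i (Finset.mem_range.1 hi) his)
  rw [eC, eD] at h1
  have h2 : llCumK (Q.I.P Q.p) (τ (2 * s) (2 * s + 1)) ≤ A * trPm Q.ms (τ (2 * s) (2 * s + 1)) := hP.K_lo _ hk hv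
  have h3 : trPm Q.ms (τ (2 * s) (2 * s + 1)) ≤ Q.ms (τ (2 * s) (2 * s + 1)) := tra2_pm_le hms hk
  have h4 := l9wc_par_dv_pC hA.a_pos ha4 r
  have h5 := l9wc_par_dv_cum (Finset.range n)
  have h6 := l9p_C_nonneg Q.p.a r
  have h7 : 0 ≤ Q.ms (τ (2 * s) (2 * s + 1)) := hms.nonneg _
  have hA0 : 0 ≤ A := by linarith
  refine h1.trans ?_
  calc l9CumC (Finset.range n) * (l9pC Q.p.a r * llCumK (Q.I.P Q.p) (τ (2 * s) (2 * s + 1)))
      ≤ l9CumC (Finset.range n) * (l9pC Q.p.a r * (A * Q.ms (τ (2 * s) (2 * s + 1)))) := by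
        apply mul_le_mul_of_nonneg_left _ h5
        apply mul_le_mul_of_nonneg_left _ h6
        exact h2.trans (mul_le_mul_of_nonneg_left h3 hA0)
    _ ≤ l9CumC (Finset.range n) * (32 * ((r : ℝ) * (r + 1)) * (A * Q.ms (τ (2 * s) (2 * s + 1)))) := by
        apply mul_le_mul_of_nonneg_left _ h5
        exact mul_le_mul_of_nonneg_right h4 (by positivity)
    _ = _ := by ring

/-- the constant of `l9wc_par_dv` -/
noncomputable def l9wcKp : ℝ := l9CumC (Finset.range 2) * (7 * (32 * 20)) + l9CumC (Finset.range 3) * ((32 * 42) * (64 * 20))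

theorem l9wc_par_dv_eqns_cite : True := by
  have := @l9wcKp.eq_1
  trivial

/-- Leibniz + numbers, with abstract constants of the cumulants -/
theorem l9wc_par_dv_abs {Q : L9Q} {δm A T0 vt : ℝ} {e : ℕ → ℝ} (hF : Q.Fm) (hA : Q.Adm δm) (ha4 : Q.p.a ≤ 4) (hB : Q.WcB A T0 vt e) (hP : Q.WcP A T0 vt)
    {R : Finset ℕ} (hR : R ⊆ Finset.range 2) {τ : JtTopo} (hτ : IsTr Q.N (2 * 2) τ) (hL : Q.Low vt 2 τ) {k : ℕ} (hkN : k ≤ Q.N) (hkv : Q.ms k ≤ vt)
    {C2 C3 : ℝ} (c2 : 0 ≤ C2) (c3 : 0 ≤ C3) (hκ : |Q.wk 2 τ| ≤ Q.ms k * (C2 * (32 * 20) * A)) (hκ3 : ∀ τ', |Q.wk (2 + 1) τ'| ≤ C3)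
    (hκp : ∀ τ', IsTr Q.N (2 * 2 + 2) τ' → (∀ y z, y < 2 * 2 → z < 2 * 2 → τ' y z = τ y z) → k < τ' (2 * 2) (2 * 2 + 1) →
      |Q.wk (2 + 1) τ'| ≤ Q.ms k * (C3 * (32 * 42) * A)) :
    |Q.co 2 R τ| ≤ (C2 * (7 * (32 * 20)) + C3 * ((32 * 42) * (64 * 20))) * A ^ 6 * T0 * Q.ms k * ∏ i ∈ Finset.range 2 \ R, e (τ (2 * i) (2 * i + 1)) := by
  have hms : IsMs Q.N Q.ms := ll2_law_isMs hA.a_pos.le hA.adm
  have hmsN : Q.ms Q.N ≤ 4 := by rw [l9w_ms_top]; exact ha4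
  have hA1 := hB.A1
  have hA0 : 0 ≤ A := by linarith
  have hT0 := hB.T_nn
  have hm0 : 0 ≤ Q.ms k := hms.nonneg k
  rw [l9wc_leib hF hA (by norm_num) R hτ]
  -- the dotted cumulant
  have hw : ∀ l, |Q.wKw l| ≤ A * T0 := fun l => by
    unfold L9Q.wKw
    split_ifs with h
    · exact hP.KD_le l h
    · rw [abs_zero]; positivity
  have hwlo : ∀ l, l ≤ k → |Q.wKw l| ≤ Q.ms k * (A * T0) := fun l hl => by
    unfold L9Q.wKw
    rw [if_pos (hl.trans hkN)]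
    have h1 : Q.ms l ≤ Q.ms k := hms.mono _ _ hl hkN
    have h2 := hP.KD_lo l (hl.trans hkN) (h1.trans hkv)
    have h3 : trPm Q.ms l ≤ Q.ms l := tra2_pm_le hms (hl.trans hkN)
    calc |Q.wKD l| ≤ A * T0 * trPm Q.ms l := h2
      _ ≤ A * T0 * Q.ms k := mul_le_mul_of_nonneg_left (h3.trans h1) (by positivity)
      _ = _ := by ring
  have hkd1 := l9ht_kd_par (ms := Q.ms) hτ Q.wKw (fun _ => A * T0) (fun τ' => Q.wk (2 + 1) τ') (Cp := C3 * (32 * 42) * A) (m := Q.ms k) k hm0 hw hwlo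
    (fun τ' _ => (hκ3 τ').trans (by nlinarith)) hκp
  have habs : trAbsK Q.ms Q.N 2 (2 * 2) τ (fun _ => A * T0) ≤ 64 * 20 * (A * T0) := by
    have h1 := tr_absK_le hτ hms 2 (fun _ => A * T0) (A * T0) (fun _ _ => by rw [abs_of_nonneg (by positivity)])
    have e1 : (fun _ : ℕ → ℕ → ℕ => |A * T0|) = fun _ => A * T0 := by
      funext _; rw [abs_of_nonneg (by positivity)]
    rw [e1] at h1
    refine h1.trans ?_
    have h2 : (2 * Q.ms Q.N) ^ 2 ≤ 64 := by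
      have := hms.nonneg Q.N
      nlinarith
    have h3 : ∏ i ∈ Finset.range 2, (((2 * 2 : ℕ) : ℝ) + i) = 20 := by
      simp [Finset.prod_range_succ]; norm_num
    rw [h3]
    have h4 : 0 ≤ A * T0 := by positivity
    nlinarith
  have hkd : |Q.wkD 2 τ| ≤ Q.ms k * (C3 * (32 * 42) * A * (64 * 20 * (A * T0))) := by
    refine hkd1.trans ?_
    apply mul_le_mul_of_nonneg_left _ hm0
    exact mul_le_mul_of_nonneg_left habs (by positivity)
  have hlow : ∀ i ∈ Finset.range 2, τ (2 * i) (2 * i + 1) ≤ Q.N ∧ Q.ms (τ (2 * i) (2 * i + 1)) ≤ vt := fun i hi =>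
    hL i (Finset.mem_range.1 hi)
  have hnum := l9wc_num hR (m := Q.ms k) (B := A) (Cκ := C2 * (32 * 20) * A) (Kd := C3 * (32 * 42) * A * (64 * 20 * (A * T0)))
    (Bd := A * T0) (T := T0) (c0 := Q.u - Q.e * R.card) (κ := Q.wk 2 τ) (κd := Q.wkD 2 τ)
    (b := fun i => (Q.X false).bC (τ (2 * i) (2 * i + 1))) (bd := fun i => Q.wbD (τ (2 * i) (2 * i + 1)))
    (d := fun i => (Q.X false).dC (τ (2 * i) (2 * i + 1))) (dd := fun i => Q.wdD (τ (2 * i) (2 * i + 1)))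
    (E := fun i => A * e (τ (2 * i) (2 * i + 1))) hm0 hA1 (by positivity) (by positivity) (by positivity) hT0 hκ hkd
    (fun i hi => hB.b_le _ (hlow i (hR hi)).1 (hlow i (hR hi)).2)
    (fun i hi => hB.bD_le _ (hlow i (hR hi)).1 (hlow i (hR hi)).2)
    (fun i hi => by
      have h1 := hB.d_le _ (hlow i (Finset.mem_sdiff.1 hi).1).1 (hlow i (Finset.mem_sdiff.1 hi).1).2
      unfold L9Q.dA at h1
      have := abs_nonneg (deriv (fun t' => (Q.I.X0 (Q.pf t')).dC (τ (2 * i) (2 * i + 1))) Q.t)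
      linarith)
    (fun i hi => by
      have h1 := hB.dT_le _ (hlow i (Finset.mem_sdiff.1 hi).1).1 (hlow i (Finset.mem_sdiff.1 hi).1).2
      unfold L9Q.dA at h1
      have := abs_nonneg ((Q.X false).dC (τ (2 * i) (2 * i + 1)))
      unfold L9Q.wdD
      linarith)
  refine hnum.trans ?_
  rw [Finset.prod_mul_distrib, Finset.prod_const]
  have hPe0 : 0 ≤ ∏ i ∈ Finset.range 2 \ R, e (τ (2 * i) (2 * i + 1)) := Finset.prod_nonneg fun i _ => hB.e_nn _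
  generalize ∏ i ∈ Finset.range 2 \ R, e (τ (2 * i) (2 * i + 1)) = Pe at hPe0 ⊢
  have hcard : (Finset.range 2 \ R).card ≤ 2 := (Finset.card_le_card Finset.sdiff_subset).trans (by rw [Finset.card_range])
  have hRc : (R.card : ℝ) ≤ 2 := by
    have := Finset.card_le_card hR
    rw [Finset.card_range] at this
    exact_mod_cast this
  have hAc : A ^ (Finset.range 2 \ R).card ≤ A ^ 2 := pow_le_pow_right₀ hA1 hcard
  have hAc0 : 0 ≤ A ^ (Finset.range 2 \ R).card := by positivity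
  generalize A ^ (Finset.range 2 \ R).card = Ac at hAc hAc0 ⊢
  have hc0 : |Q.u - Q.e * R.card| ≤ 3 * T0 := by
    have h1 : |Q.u - Q.e * R.card| ≤ |Q.u| + |Q.e| * R.card := by
      have := abs_add_le Q.u (-(Q.e * R.card))
      rw [abs_neg, abs_mul, Nat.abs_cast, ← sub_eq_add_neg] at this
      exact this
    have h2 : |Q.e| * R.card ≤ T0 * 2 := mul_le_mul hB.e_le hRc (Nat.cast_nonneg _) hT0
    have h3 := hB.u_le
    linarith
  have hA2 : A ≤ A ^ 2 := by nlinarith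
  have hsum : |Q.u - Q.e * R.card| * (C2 * (32 * 20) * A) + C3 * (32 * 42) * A * (64 * 20 * (A * T0)) + ((2 : ℕ) : ℝ) * (C2 * (32 * 20) * A * (A * T0)) + ((2 : ℕ) : ℝ) * (C2 * (32 * 20) * A * T0)
      ≤ (C2 * (7 * (32 * 20)) + C3 * ((32 * 42) * (64 * 20))) * (A ^ 2 * T0) := by
    have t1 : |Q.u - Q.e * R.card| * (C2 * (32 * 20) * A) ≤ 3 * T0 * (C2 * (32 * 20) * A ^ 2) :=
      mul_le_mul hc0 (by nlinarith) (by positivity) (by positivity)
    have t2 : C2 * (32 * 20) * A * T0 ≤ C2 * (32 * 20) * A ^ 2 * T0 := by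
      apply mul_le_mul_of_nonneg_right _ hT0
      nlinarith
    push_cast
    nlinarith
  have hsum0 : 0 ≤ |Q.u - Q.e * R.card| * (C2 * (32 * 20) * A) + C3 * (32 * 42) * A * (64 * 20 * (A * T0)) + ((2 : ℕ) : ℝ) * (C2 * (32 * 20) * A * (A * T0)) + ((2 : ℕ) : ℝ) * (C2 * (32 * 20) * A * T0) := by
    positivity
  generalize |Q.u - Q.e * R.card| * (C2 * (32 * 20) * A) + C3 * (32 * 42) * A * (64 * 20 * (A * T0)) + ((2 : ℕ) : ℝ) * (C2 * (32 * 20) * A * (A * T0)) + ((2 : ℕ) : ℝ) * (C2 * (32 * 20) * A * T0) = Sm at hsum hsum0 ⊢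
  have hKp : 0 ≤ C2 * (7 * (32 * 20)) + C3 * ((32 * 42) * (64 * 20)) := by positivity
  calc Q.ms k * (A ^ 2 * Sm) * (Ac * Pe) ≤ Q.ms k * (A ^ 2 * ((C2 * (7 * (32 * 20)) + C3 * ((32 * 42) * (64 * 20))) * (A ^ 2 * T0))) * (A ^ 2 * Pe) := by
        apply mul_le_mul _ (mul_le_mul_of_nonneg_right hAc hPe0) (by positivity) (by positivity)
        apply mul_le_mul_of_nonneg_left _ hm0
        exact mul_le_mul_of_nonneg_left hsum (by positivity)
    _ = _ := by ring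

/-- parity of the real coefficient at the pair `s` of the smaller depth -/
theorem l9wc_par_dv_core {Q : L9Q} {δm A T0 vt : ℝ} {e : ℕ → ℝ} (hF : Q.Fm) (hA : Q.Adm δm) (ha4 : Q.p.a ≤ 4) (hB : Q.WcB A T0 vt e) (hP : Q.WcP A T0 vt)
    {R : Finset ℕ} (hR : R ⊆ Finset.range 2) {τ : JtTopo} (hτ : IsTr Q.N (2 * 2) τ) (hL : Q.Low vt 2 τ) {s : ℕ} (hs : s < 2)
    (hoth : ∀ i, i < 2 → i ≠ s → (τ (2 * s) (2 * s + 1) < τ (2 * s) (2 * i) ↔ τ (2 * s) (2 * s + 1) < τ (2 * s) (2 * i + 1))) :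
    |Q.co 2 R τ| ≤ l9wcKp * A ^ 6 * T0 * Q.vm τ s * ∏ i ∈ Finset.range 2 \ R, e (τ (2 * i) (2 * i + 1)) := by
  have hA1 := hB.A1
  obtain ⟨k, hk⟩ : ∃ k, k = τ (2 * s) (2 * s + 1) := ⟨_, rfl⟩
  have hkN : k ≤ Q.N := hk ▸ (hL s hs).1
  have hkv : Q.ms k ≤ vt := hk ▸ (hL s hs).2
  have evm : Q.vm τ s = Q.ms k := by unfold L9Q.vm; rw [hk]
  rw [evm]
  unfold l9wcKp
  refine l9wc_par_dv_abs hF hA ha4 hB hP hR hτ hL hkN hkv (l9wc_par_dv_cum _) (l9wc_par_dv_cum _) ?_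
    (fun τ' => l9p_kap_abs hA.a_pos hA.adm.2 Q.I.m none _ _ _ _) ?_
  · have := l9wc_par_dv_kap hA ha4 hA1 hP (r := 2 * 2) (n := 2) rfl hτ hs (hL s hs).1 (hL s hs).2 hoth
    rw [← hk] at this
    refine this.trans (le_of_eq ?_)
    push_cast
    ring
  · intro τ' hτ' hag hlt
    have hs4 : 2 * s + 1 < 2 * 2 := by omega
    have ek : τ' (2 * s) (2 * s + 1) = k := by rw [hag _ _ (by omega) hs4, hk]
    have := l9wc_par_dv_kap hA ha4 hA1 hP (r := 2 * 2 + 2) (n := 2 + 1) rfl hτ' (s := s) (by omega) (by rw [ek]; exact hkN) (by rw [ek]; exact hkv)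
      (fun i hi his => by
        rw [ek]
        rcases Nat.lt_or_ge i 2 with h2 | h2
        · rw [hag _ _ (by omega) (by omega), hag _ _ (by omega) (by omega), hk]
          exact hoth i h2 his
        · have e2 : i = 2 := by omega
          subst e2
          have u1 := hτ'.ultra (2 * s) (2 * 2) (2 * 2 + 1) (by omega) (by omega) (by omega)
          have u2 := hτ'.ultra (2 * s) (2 * 2 + 1) (2 * 2) (by omega) (by omega) (by omega)
          have u3 := hτ'.symm (2 * 2) (2 * 2 + 1) (by omega) (by omega)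
          omega)
    rw [ek] at this
    refine this.trans (le_of_eq ?_)
    push_cast
    ring

theorem l9wc_par_dv_Kp : 0 ≤ l9wcKp := by
  unfold l9wcKp
  have := l9wc_par_dv_cum (Finset.range 2)
  have := l9wc_par_dv_cum (Finset.range 3)
  generalize l9CumC (Finset.range 2) = C2 at *
  generalize l9CumC (Finset.range 3) = C3 at *
  positivity

theorem l9wc_par_dv_one {Q : L9Q} {δm A T0 vt : ℝ} {e : ℕ → ℝ} (hF : Q.Fm) (hA : Q.Adm δm) (ha4 : Q.p.a ≤ 4) (hB : Q.WcB A T0 vt e) (hP : Q.WcP A T0 vt)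
    {R : Finset ℕ} (hR : R ⊆ Finset.range 2) {τ : JtTopo} (hτ : τ ∈ l9aTab Q.N (2 * 2)) (hL : Q.Low vt 2 τ) (hdv : L9wcDv τ) :
    |Q.co 2 R τ| ≤ l9wcKp * A ^ 6 * T0 * min (Q.vm τ 0) (Q.vm τ 1) * ∏ i ∈ Finset.range 2 \ R, e (τ (2 * i) (2 * i + 1)) := by
  have hT : IsTr Q.N (2 * 2) τ := (l9a_mem_tab.1 hτ).1
  have hms : IsMs Q.N Q.ms := ll2_law_isMs hA.a_pos.le hA.adm
  have h0N : τ 0 1 ≤ Q.N := (hL 0 (by norm_num)).1
  have h1N : τ 2 3 ≤ Q.N := (hL 1 (by norm_num)).1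
  have u1 := hT.ultra 0 2 3 (by norm_num) (by norm_num) (by norm_num)
  have u2 := hT.ultra 0 3 2 (by norm_num) (by norm_num) (by norm_num)
  have u3 := hT.symm 2 3 (by norm_num) (by norm_num)
  have u4 := hT.ultra 2 0 1 (by norm_num) (by norm_num) (by norm_num)
  have u5 := hT.ultra 2 1 0 (by norm_num) (by norm_num) (by norm_num)
  have u6 := hT.symm 0 1 (by norm_num) (by norm_num)
  unfold L9wcDv at hdv
  rcases Nat.lt_or_ge (τ 2 3) (τ 0 1) with hlt | hge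
  · have hmin : min (Q.vm τ 0) (Q.vm τ 1) = Q.vm τ 1 := min_eq_right (hms.mono _ _ hlt.le h0N)
    rw [hmin]
    refine l9wc_par_dv_core hF hA ha4 hB hP hR hT hL (s := 1) (by norm_num) fun i hi his => ?_
    have e0 : i = 0 := by omega
    subst e0
    show τ 2 3 < τ 2 0 ↔ τ 2 3 < τ 2 1
    omega
  · have hmin : min (Q.vm τ 0) (Q.vm τ 1) = Q.vm τ 0 := min_eq_left (hms.mono _ _ hge h1N)
    rw [hmin]
    refine l9wc_par_dv_core hF hA ha4 hB hP hR hT hL (s := 0) (by norm_num) fun i hi his => ?_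
    have e1 : i = 1 := by omega
    subst e1
    show τ 0 1 < τ 0 2 ↔ τ 0 1 < τ 0 3
    omega

/-- parity of the real coefficient, degree two, two different vertices -/
theorem l9wc_par_dv : ∃ Kc : ℝ, 0 ≤ Kc ∧ ∀ (Q : L9Q) (δm A T0 vt : ℝ) (e : ℕ → ℝ), Q.Fm → Q.Adm δm → Q.p.a ≤ 4 → Q.WcB A T0 vt e → Q.WcP A T0 vt →
    ∀ R, R ⊆ Finset.range 2 → ∀ τ ∈ l9aTab Q.N (2 * 2), Q.Low vt 2 τ → L9wcDv τ →
      |Q.co 2 R τ| ≤ Kc * A ^ 6 * T0 * min (Q.vm τ 0) (Q.vm τ 1) * ∏ i ∈ Finset.range 2 \ R, e (τ (2 * i) (2 * i + 1)) :=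
  ⟨l9wcKp, l9wc_par_dv_Kp, fun _ _ _ _ _ _ hF hA ha hB hP _ hR _ hτ hL hdv => l9wc_par_dv_one hF hA ha hB hP hR hτ hL hdv⟩

/-- the square counterterm -/
theorem l9wc_coq {Q : L9Q} {A T0 vt : ℝ} {e : ℕ → ℝ} (hB : Q.WcB A T0 vt e) {τ : JtTopo} (h1 : τ 0 1 ≤ Q.N) (h2 : Q.vm τ 0 ≤ vt) :
    |Q.coq τ| ≤ 4 * A * T0 := by
  have h2' : Q.ms (τ 0 1) ≤ vt := h2
  have b1 := hB.b_le _ h1 h2'
  have b2 := hB.bD_le _ h1 h2'
  have hA := hB.A1
  have hT := hB.T_nn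
  have e1 : Q.coq τ = (Q.u - Q.e * 2) * (Q.X false).bC (τ 0 1) + Q.wbD (τ 0 1) := by
    unfold L9Q.coq l9O L9Q.wbD
    push_cast
    rfl
  rw [e1]
  have c1 : |Q.u - Q.e * 2| ≤ 3 * T0 := by
    have := hB.u_le
    have := hB.e_le
    calc |Q.u - Q.e * 2| ≤ |Q.u| + |Q.e * 2| := abs_sub _ _
      _ = |Q.u| + |Q.e| * 2 := by rw [abs_mul]; norm_num
      _ ≤ _ := by linarith
  calc |(Q.u - Q.e * 2) * (Q.X false).bC (τ 0 1) + Q.wbD (τ 0 1)| ≤ |(Q.u - Q.e * 2) * (Q.X false).bC (τ 0 1)| + |Q.wbD (τ 0 1)| := abs_add_le _ _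
    _ ≤ 3 * T0 * A + A * T0 := by
        rw [abs_mul]
        exact add_le_add (mul_le_mul c1 b1 (abs_nonneg _) (by positivity)) b2
    _ = _ := by ring

/-- **`Q.Co2`** -/
theorem l9wc_co2 : ∃ Kc : ℝ, 0 ≤ Kc ∧ ∀ (Q : L9Q) (δm A T0 vt : ℝ) (e : ℕ → ℝ), Q.Fm → Q.Adm δm → Q.p.a ≤ 4 → Q.WcB A T0 vt e → Q.WcP A T0 vt →
    Q.Co2 (Kc * A ^ 6) T0 vt e := by
  have hK := l9wc_par_dv_Kp
  refine ⟨l9wcKp + 4, by linarith, fun Q δm A T0 vt e hF hA ha hB hP => ⟨?_, ?_⟩⟩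
  · intro R hR _ τ hτ hL hne
    refine (l9wc_par_dv_one hF hA ha hB hP hR hτ hL (Or.inl hne)).trans ?_
    have hms : IsMs Q.N Q.ms := ll2_law_isMs hA.a_pos.le hA.adm
    have hA0 : 0 ≤ A := by linarith [hB.A1]
    have hT0 := hB.T_nn
    have hm : 0 ≤ min (Q.vm τ 0) (Q.vm τ 1) := le_min (hms.nonneg _) (hms.nonneg _)
    have hPe0 : 0 ≤ ∏ i ∈ Finset.range 2 \ R, e (τ (2 * i) (2 * i + 1)) := Finset.prod_nonneg fun i _ => hB.e_nn _
    apply mul_le_mul_of_nonneg_right _ hPe0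
    apply mul_le_mul_of_nonneg_right _ hm
    apply mul_le_mul_of_nonneg_right _ hT0
    apply mul_le_mul_of_nonneg_right _ (by positivity)
    linarith
  · intro τ h1 h2
    refine (l9wc_coq hB h1 h2).trans ?_
    have hA1 := hB.A1
    have hT0 := hB.T_nn
    apply mul_le_mul_of_nonneg_right _ hT0
    have h6 : A ≤ A ^ 6 := by
      calc A = A ^ 1 := (pow_one A).symm
        _ ≤ A ^ 6 := pow_le_pow_right₀ hA1 (by norm_num)
    have h60 : 0 ≤ A ^ 6 := by positivity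
    nlinarith

/-- the field `par` under the hypothesis of `Q.rho` (299) -/
theorem l9wc_par_vx : ∃ Kc : ℝ, 0 ≤ Kc ∧ ∀ (Q : L9Q) (δm A T0 vt : ℝ) (e : ℕ → ℝ), Q.Fm → Q.Adm δm → Q.p.a ≤ 4 → Q.WcB A T0 vt e → Q.WcP A T0 vt →
    ∀ R, R ⊆ Finset.range 2 → ∀ τ ∈ l9aTab Q.N (2 * 2), Q.Low vt 2 τ → l9aVx τ 0 1 ≠ l9aVx τ 2 3 →
      |Q.co 2 R τ| ≤ Kc * A ^ 6 * T0 * min (Q.vm τ 0) (Q.vm τ 1) * ∏ i ∈ Finset.range 2 \ R, e (τ (2 * i) (2 * i + 1)) := by
  obtain ⟨Kc, h0, h⟩ := l9wc_par_dv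
  exact ⟨Kc, h0, fun Q δm A T0 vt e hF hA ha hB hP R hR τ hτ hL hv => h Q δm A T0 vt e hF hA ha hB hP R hR τ hτ hL (l9wc_dv_of_vx hτ hv)⟩

theorem l9wc_eqns_cite : True := by
  have := @L9wcDv.eq_1
  trivial

end Claimed.Agent.R286
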