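import Claimed.Agent.R286.L09.W5b
import Claimed.Agent.R286.L09.W5Co
import Claimed.Agent.R286.L09.Dots
import Claimed.Agent.R286.L09.RedSup
import Claimed.Agent.R286.L09.RedCC
import Claimed.Agent.R286.L09.CCNum
import Claimed.Agent.R286.Defs.L9Pre
import Claimed.Agent.R286.Exit.DDir

/-!
# Row 286 (S0533), unit L09, node W5, file W5ExD: THE PRODUCERS `exit_l9_hiD`, `exit_l9_w5D` OF `L09/BndExit.lean` (STRENGTH SWEEP)      (architect + prover helper291, post of 243 06:35Z; head of W5 helper299; prefix `l9we`, `L9we`)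

TEX[LL:exp:prop-low-coefficients] 09-expansion.tex l.396-409 ("On a direct path, terms whose maximum mass is bounded below by a fixed positive constant already satisfy (E1).  The dotted weights supply `O(λ)`, and `|ḋ| ≲ λ r² e` ..",
"All direct terms of degree `j ≥ 5` also satisfy (E1) by the normalized-measure calculation above").

    exit_l9_hiD, exit_l9_w5D (L09/BndExit)  <=  l9we_hiD, l9we_w5D  <=  l9wb_DHi, l9wb_D5 (266, L09/W5b, PROVED)  +  l9rs_admD (153) + l8g_fine  +  l9we_wsupD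
    l9we_wsupD : LLGood (L9wSupD .. 2 par.J0)  <=  l9we_supD (HERE, PROVED)  +  exit_ddir, l8g_fine (LL 08)  +  l9t_dotD (69 / 159, L09/Dots, PROVED)  +  exit_l9_ccwD
    exit_l9_ccwD (any degree J; also for 299's W5y)  <=  l9we_ccD (HERE)  <=  l9rc_shellD (153, L09/RedCC, PROVED)  +  l13y_num_ccw (64, L09/CCNum, PROVED)  <=  l9cf_ccw_pow (30, L09/CCFit)  <=  l9ci_val (70, L09/CCInst)
    l9we_supD  <=  l9rs_bothD (153)  +  `L9wCCD` (contract, Sec. 3)  +  `L9tDotD`  +  l9we_co (Sec. 2)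
    l9we_co    <=  l9wc_co, l9wc_co2 (183 / 231, L09/W5Co)  +  the adapters of Sec. 1:   `Q.Dots Ad T0 a` + `AdmEv` + `Dif` + `Env.d_le`  ⟹  `Q.Fm`, `Q.WcB`, `Q.WcG`, `Q.WcP`
* the dotted weight of an added scalar pair is BOUNDED on the strength sweep (`|K̇| ≤ A λ a`): `g = 1/4`, `T0' = 16 A λ`; the factors `l9wG ≤ 5/4` of the non designated forks go to the constant, so `Q.Co` holds with `g = 0`.
* LOSSES: `Q.Co` costs the power `P = 2 J0 + 3` of the loss of the sources, so all the sources are called at `δ / P`.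
-/

set_option autoImplicit false

namespace Claimed.Agent.R286

open scoped BigOperators Nat Topology
open Filter Set

/-! ## 1. the input records of `L09/W5Co.lean` on the strength sweep (all masses are low) -/

section pt
variable {Q : L9Q}

theorem l9we_coB {Ad A T0 vt : ℝ} {e : ℕ → ℝ} (hD : Q.Dots Ad T0 Q.p.a) (hAd : Ad ≤ A) (hA1 : 1 ≤ A) (hu : Q.u = 0) (he0 : Q.e = 0)
    (he : ∀ j, 0 ≤ e j) (hd : ∀ j, j ≤ Q.N → Q.dA j ≤ A * T0 * e j) (hT1 : T0 ≤ 1) : Q.WcB A (16 * A * T0) vt e := by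
  have hT := hD.T_nn
  have hA0 : 0 ≤ A := by linarith
  have hTT : T0 ≤ 16 * A * T0 := by nlinarith
  refine ⟨hA1, by positivity, by rw [hu, abs_zero]; positivity, by rw [he0, abs_zero]; positivity, fun j _ _ => ?_, fun j _ _ => ?_, he,
    fun j hj _ => ?_, fun j hj _ => ?_⟩
  · rw [abs_of_nonneg (hD.b_nn j)]
    exact (hD.b_le j).trans hAd
  · calc |Q.wbD j| ≤ Ad * T0 := hD.bd j
      _ ≤ A * T0 := mul_le_mul_of_nonneg_right hAd hT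
      _ ≤ A * (16 * A * T0) := mul_le_mul_of_nonneg_left hTT hA0
  · refine (hd j hj).trans (mul_le_mul_of_nonneg_right ?_ (he j))
    nlinarith
  · refine (hd j hj).trans (mul_le_mul_of_nonneg_right ?_ (he j))
    exact mul_le_mul_of_nonneg_left hTT hA0

theorem l9we_coG {Ad A T0 vt : ℝ} (hD : Q.Dots Ad T0 Q.p.a) (hAd : Ad ≤ A) (hA1 : 1 ≤ A) (ha4 : Q.p.a ≤ 4) :
    Q.WcG A (16 * A * T0) vt fun _ => 1 / 4 := by
  have hT := hD.T_nn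
  refine ⟨fun _ => by norm_num, fun j _ => ?_, ?_, fun _ _ _ => by linarith⟩
  · calc |Q.wKD j| ≤ Ad * T0 * Q.p.a := hD.Kd_all le_rfl j
      _ ≤ A * T0 * 4 := mul_le_mul (mul_le_mul_of_nonneg_right hAd hT) ha4 hD.a_pos.le (mul_nonneg (by linarith) hT)
      _ = 16 * A * T0 * (1 / 4) := by ring
  · have h := hD.mu_sum
    rw [← Finset.sum_mul]
    have : ∑ j ∈ Finset.range (Q.N + 1), l9aMu Q.ms j = Q.p.a := h
    rw [this]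
    linarith

theorem l9we_coP {Ad A T0 vt : ℝ} (hD : Q.Dots Ad T0 Q.p.a) (hAd : Ad ≤ A) (hA1 : 1 ≤ A) (ha4 : Q.p.a ≤ 4) : Q.WcP A (16 * A * T0) vt := by
  have hT := hD.T_nn
  have hA0 : 0 ≤ A := by linarith
  have hAT : 0 ≤ A * T0 := mul_nonneg hA0 hT
  have h16 : A * T0 * 4 ≤ A * (16 * A * T0) := by nlinarith
  refine ⟨fun j _ _ => ?_, fun j _ => ?_, fun j _ _ => ?_⟩
  · exact (hD.K_lw j (hD.m_le j)).trans (mul_le_mul_of_nonneg_right hAd (hD.m_nn j))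
  · calc |Q.wKD j| ≤ Ad * T0 * Q.p.a := hD.Kd_all le_rfl j
      _ ≤ A * T0 * 4 := mul_le_mul (mul_le_mul_of_nonneg_right hAd hT) ha4 hD.a_pos.le hAT
      _ ≤ _ := h16
  · calc |Q.wKD j| ≤ Ad * T0 * Q.mc j := hD.Kd j (hD.m_le j)
      _ ≤ A * (16 * A * T0) * Q.mc j := mul_le_mul_of_nonneg_right (by nlinarith [mul_le_mul_of_nonneg_right hAd hT]) (hD.m_nn j)

/-- the factors of the non designated forks, bounded density -/
theorem l9we_G_le (N n : ℕ) (τ : JtTopo) (I : Finset ℕ) : ∏ s ∈ I, l9wG N (fun _ => 1 / 4) n τ s ≤ 2 ^ I.card := by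
  calc ∏ s ∈ I, l9wG N (fun _ => 1 / 4) n τ s ≤ ∏ _s ∈ I, (2 : ℝ) := by
        refine Finset.prod_le_prod (fun s _ => ?_) fun s _ => ?_ <;> unfold l9wG <;> split_ifs <;> norm_num
    _ = 2 ^ I.card := by rw [Finset.prod_const]

end pt

/-! ## 2. `Q.Co` (with `g = 0`), `Q.Co2` on the strength sweep -/

/-- **the real coefficients at a point of the strength sweep**: `T0 = λ`, loss `Kc A^(2 J0 + 3)` -/
theorem l9we_co (J0 : ℕ) (hJ : 2 ≤ J0) : ∃ Kc : ℝ, 0 ≤ Kc ∧ ∀ (Q : L9Q) (δm Ad A T0 vt : ℝ) (e : ℕ → ℝ), Q.Fm → Q.Adm δm → Q.p.a ≤ 4 →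
    Q.Dots Ad T0 Q.p.a → Ad ≤ A → 1 ≤ A → Q.u = 0 → Q.e = 0 → (∀ j, 0 ≤ e j) → (∀ j, j ≤ Q.N → Q.dA j ≤ A * T0 * e j) → T0 ≤ 1 →
      Q.Co (Kc * A ^ (2 * J0 + 3)) T0 vt e (fun _ => 0) 2 J0 ∧ Q.Co2 (Kc * A ^ (2 * J0 + 3)) T0 vt e := by
  obtain ⟨K1, hK1, H1⟩ := l9wc_co J0
  obtain ⟨K2, hK2, H2⟩ := l9wc_co2
  refine ⟨16 * 2 ^ (2 * J0) * K1 + 16 * K2, by positivity, fun Q δm Ad A T0 vt e hF hA ha hD hAd hA1 hu he0 he hd hT1 => ?_⟩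
  have hT := hD.T_nn
  have hA0 : 0 ≤ A := by linarith
  have hB := l9we_coB (vt := vt) hD hAd hA1 hu he0 he hd hT1
  have hp : A ^ 7 ≤ A ^ (2 * J0 + 3) := pow_le_pow_right₀ hA1 (by omega)
  have hP0 : 0 ≤ A ^ (2 * J0 + 3) := by positivity
  constructor
  · intro n hn hnJ R hR hne τ hτ hlow
    have h := H1 Q δm A (16 * A * T0) vt e _ 2 (by norm_num) hF hA ha hB (l9we_coG hD hAd hA1 ha) n hn hnJ R hR hne τ hτ hlow
    have hE : 0 ≤ ∏ i ∈ Finset.range n \ R, e (τ (2 * i) (2 * i + 1)) := Finset.prod_nonneg fun i _ => he _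
    have hG : ∏ s ∈ Finset.Ico 1 (2 * n), l9wG Q.N (fun _ => 1 / 4) n τ s ≤ 2 ^ (2 * J0) :=
      (l9we_G_le _ _ _ _).trans (pow_le_pow_right₀ one_le_two (by rw [Nat.card_Ico]; omega))
    rw [l9w_G_zero, mul_one]
    have h0 : 0 ≤ K1 * A ^ (2 * J0 + 2) * (16 * A * T0) * ∏ i ∈ Finset.range n \ R, e (τ (2 * i) (2 * i + 1)) := by positivity
    calc |Q.co n R τ| ≤ K1 * A ^ (2 * J0 + 2) * (16 * A * T0) * (∏ i ∈ Finset.range n \ R, e (τ (2 * i) (2 * i + 1))) * 2 ^ (2 * J0) :=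
          h.trans (mul_le_mul_of_nonneg_left hG h0)
      _ = 16 * 2 ^ (2 * J0) * K1 * A ^ (2 * J0 + 3) * T0 * ∏ i ∈ Finset.range n \ R, e (τ (2 * i) (2 * i + 1)) := by ring
      _ ≤ (16 * 2 ^ (2 * J0) * K1 + 16 * K2) * A ^ (2 * J0 + 3) * T0 * ∏ i ∈ Finset.range n \ R, e (τ (2 * i) (2 * i + 1)) := by
          refine mul_le_mul_of_nonneg_right (mul_le_mul_of_nonneg_right (mul_le_mul_of_nonneg_right ?_ hP0) hT) hE
          linarith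
  · have h := H2 Q δm A (16 * A * T0) vt e hF hA ha hB (l9we_coP hD hAd hA1 ha)
    have h' : Q.Co2 (16 * K2 * A ^ 7) T0 vt e := by
      refine ⟨fun R hR hne τ hτ hlow hd' => (h.par R hR hne τ hτ hlow hd').trans (le_of_eq (by ring)), fun τ h1 h2 => (h.sq τ h1 h2).trans (le_of_eq (by ring))⟩
    refine l9wb_co2_mono h' hA he ?_ hT
    have hK0 : 0 ≤ 16 * 2 ^ (2 * J0) * K1 := by positivity
    calc 16 * K2 * A ^ 7 ≤ 16 * K2 * A ^ (2 * J0 + 3) := mul_le_mul_of_nonneg_left hp (by positivity)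
      _ ≤ _ := mul_le_mul_of_nonneg_right (by linarith) hP0

/-! ## 3. the contract of CCw, the producer of `L9wSupD` -/

theorem L9Q.CCw.mono {Q : L9Q} {Mj : L9Mj} {e : ℕ → ℝ} {A A' vt K : ℝ} {J0 : ℕ} (h : Q.CCw Mj e A vt K J0) (hA : A ≤ A') (hE : 0 ≤ Q.E3 Mj K) :
    Q.CCw Mj e A' vt K J0 := fun n hn hnJ R hR β om hom0 hom B L0 hL0 hB hB2 =>
  (h n hn hnJ R hR β om hom0 hom B L0 hL0 hB hB2).trans (mul_le_mul_of_nonneg_left (mul_le_mul_of_nonneg_right hA hE) hL0)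

/-- all the masses are `≤ a`: `CCw` at `vt = a` is `CCw` at any `vt` -/
theorem L9Q.CCw.of_top {Q : L9Q} {Mj : L9Mj} {e : ℕ → ℝ} {A K δm : ℝ} {J0 : ℕ} (h : Q.CCw Mj e A Q.p.a K J0) (hA : Q.Adm δm) (vt : ℝ) :
    Q.CCw Mj e A vt K J0 := fun n hn hnJ R hR β om hom0 hom B L0 hL0 hB hB2 =>
  h n hn hnJ R hR β om hom0 hom B L0 hL0 (fun τ hτ i hi => ⟨(hB τ hτ i hi).1, (hB τ hτ i hi).2.1, l9w_ms_le Q hA _⟩) hB2

/-- **CONTRACT of CCw (Lemma 9.1 on FULL tables, all the degrees `2 ≤ n ≤ J0`), strength sweep** = `L9cCCD` of 153 (`L09/RedSup.lean`) with `Q.CC` replaced by `Q.CCw` of 299: for the target loss `δ` the prover chooses the orders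
`(pm, jm)`, the mesh exponent `Km`, the source loss `δ1 ≤ δ` and `δ'` of (D8); then, for EVERY source constant `C1`, at every point on the stop: LL 08 at the loss `C1 x^(-δ1)` with the envelope `e` ⟹ `Q.CCw` with the SAME envelope
(`0` outside the chain), ALL the masses (`vt = a`), ANY degree `J0` (form agreed with 299, 153) -/
def L9wCCD (𝔹 : LlBase) (Mj : L9Mj) (κ : ℝ) (F : LlFix) (C0 δ0 v0 cE : ℝ) (J0 : ℕ) : Prop :=
  ∀ K : ℝ, ∀ δ : ℝ, 0 < δ → ∃ (pm jm : ℕ) (Km δ1 δ' : ℝ), 2 ≤ pm ∧ 1 ≤ Km ∧ 0 < δ1 ∧ δ1 ≤ δ ∧ 0 < δ' ∧ δ' ≤ δ0 ∧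
    ∀ ε : ℝ, 0 < ε → ∀ q : ℝ, 0 < q → ∀ C1 : ℝ, ∃ (C : ℝ) (N0 : ℕ), ∀ N : ℕ, N0 ≤ N → ∀ᶠ Fs : Finset GhPos in atTop,
      ∀ (m : ℕ) (ell : ℝ) (γ : Fin (N + 1) → ℝ) (t : ℝ), L9HyD F 𝔹 Mj κ N (q * skX N ^ (1 + ε)) (skX N ^ ε) Fs m ell γ t →
        ∀ (Q : L9Q) (e : ℕ → ℝ), Q = l9QD F 𝔹 (q * skX N ^ (1 + ε)) Fs m N ell γ t → Q.i8.Ok → Q.i8.Fine (Q.x ^ Km) →
          Q.i8.Both e (C1 * skX N ^ (-δ1)) Q.i8.Y Q.i8.Z Q.i8.a v0 cE pm jm → Q.i8.D8 e (C1 * skX N ^ (-δ1)) C0 δ' →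
            Q.CCw Mj (l9rsE Q.N e) (C * skX N ^ (-δ)) Q.p.a K J0

theorem l9we_eqns_cite : True := by
  have := @L9wCCD.eq_1
  trivial

/-- **`L9wCCD`** from the pointwise form `L9rcNum` of 153 (`L09/RedCC.lean`), through his shell `l9rc_shellD` -/
theorem l9we_ccD (𝔹 : LlBase) (F : LlFix) (hF : 0 ≤ F.eta ∧ 0 ≤ F.sS ∧ 0 ≤ F.pS) (c : ℝ) {κ : ℝ} (hκ : 0 < κ) (J0 : ℕ)
    (hnum : ∀ K : ℝ, L9rcNum (l8Mj c) J0 fun Q e A vt => Q.CCw (l8Mj c) e A vt K J0) (C0 : ℝ) {δ0 : ℝ} (hδ0 : 0 < δ0) (v0 cE : ℝ) :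
    L9wCCD 𝔹 (l8Mj c) κ F C0 δ0 v0 cE J0 := by
  intro K δ hδ
  obtain ⟨pm, δ1, hpm, hδ1, hδ1', H⟩ := l9rc_shellD 𝔹 F hF c hκ (hnum K) v0 cE hδ
  refine ⟨pm, J0, 1, δ1, δ0, hpm, le_rfl, hδ1, hδ1', hδ0, le_rfl, fun ε hε q hq C1 => ?_⟩
  obtain ⟨C, hC⟩ := H J0 1 le_rfl ε hε q hq C1
  exact ⟨C, 2, fun N hN => Eventually.of_forall fun Fs m ell γ t hy Q e hQ hok hfi hBo _ => hC N hN Fs m ell γ t hy Q e hQ hok hfi hBo⟩

/-- arithmetic of the losses: the power `P` of a loss `x^(-δ/P)` -/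
theorem l9we_loss {x δ : ℝ} (hx : 0 < x) (P : ℕ) (hP : 0 < P) (c : ℝ) : (c * x ^ (-(δ / P))) ^ P = c ^ P * x ^ (-δ) := by
  rw [mul_pow, ← Real.rpow_natCast (x ^ (-(δ / P))) P, ← Real.rpow_mul hx.le]
  congr 2
  have : (P : ℝ) ≠ 0 := by exact_mod_cast hP.ne'
  field_simp

/-- the defect against the truncated envelope -/
theorem l9we_dA {Q : L9Q} {δm Ae A Y : ℝ} {e : ℕ → ℝ} (hAdm : Q.Adm δm) (ha2 : Q.p.a ≤ 2) (hl : 0 ≤ Q.lam) (hAe : 0 ≤ Ae) (hA : 16 * Ae ≤ A) (hY1 : Y ≤ 1)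
    (he : ∀ j, j ≤ Q.N → 0 ≤ e j) (hd : ∀ j, j ≤ Q.N → Q.dA j ≤ Ae * Q.lam * max (Q.ms j) Y ^ 2 * e j) (j : ℕ) (hj : j ≤ Q.N) :
    Q.dA j ≤ A * Q.lam * l9rsE Q.N e j := by
  rw [l9rs_E_of_le e hj]
  have hmj : Q.ms j ≤ Q.p.a := l9w_ms_le Q hAdm j
  have hm0 : 0 ≤ Q.ms j := (Q.isMs hAdm).nonneg j
  have hmx0 : 0 ≤ max (Q.ms j) Y := le_max_of_le_left hm0
  have hmx4 : max (Q.ms j) Y ≤ 4 := max_le (by linarith) (by linarith)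
  have hmx : max (Q.ms j) Y ^ 2 ≤ 16 := by
    calc max (Q.ms j) Y ^ 2 ≤ 4 ^ 2 := pow_le_pow_left₀ hmx0 hmx4 2
      _ = 16 := by norm_num
  calc Q.dA j ≤ Ae * Q.lam * max (Q.ms j) Y ^ 2 * e j := hd j hj
    _ ≤ Ae * Q.lam * 16 * e j := mul_le_mul_of_nonneg_right (mul_le_mul_of_nonneg_left hmx (mul_nonneg hAe hl)) (he j hj)
    _ = 16 * Ae * (Q.lam * e j) := by ring
    _ ≤ A * (Q.lam * e j) := mul_le_mul_of_nonneg_right hA (mul_nonneg hl (he j hj))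
    _ = _ := by ring

theorem l9we_E_nonneg {N : ℕ} {e : ℕ → ℝ} (he : ∀ j, j ≤ N → 0 ≤ e j) (j : ℕ) : 0 ≤ l9rsE N e j := by
  unfold l9rsE
  split_ifs with hj
  · exact he j hj
  · exact le_rfl

/-- **the supplies of W5 at ONE point of the strength sweep** -/
theorem l9we_pt (J0 : ℕ) (hJ : 2 ≤ J0) : ∃ Kc : ℝ, 0 ≤ Kc ∧ ∀ (Q : L9Q) (Mj : L9Mj) (δm Ad Ae Ac A Af Y K : ℝ) (e : ℕ → ℝ), Q.Fm → Q.Adm δm → Q.p.a ≤ 2 →
    Q.Dots Ad Q.lam Q.p.a → Q.u = 0 → Q.e = 0 → Q.lam ≤ 1 → 1 ≤ Q.Zc Mj → 0 ≤ Q.E3 Mj K → Y ≤ 1 → (∀ j, j ≤ Q.N → 0 ≤ e j) → 0 ≤ Ae →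
    (∀ j, j ≤ Q.N → Q.dA j ≤ Ae * Q.lam * max (Q.ms j) Y ^ 2 * e j) → Q.CCw Mj (l9rsE Q.N e) Ac Q.p.a K J0 →
    Ad ≤ A → 16 * Ae ≤ A → 1 ≤ A → Kc * A ^ (2 * J0 + 3) ≤ Af → Ac ≤ Af →
      Q.Sw Mj Af Q.lam 2 K 2 J0 (l9rsE Q.N e) (fun _ => 0) ∧ Q.Co2 Af Q.lam 2 (l9rsE Q.N e) := by
  obtain ⟨Kc, hKc, hCo⟩ := l9we_co J0 hJ
  refine ⟨Kc, hKc, fun Q Mj δm Ad Ae Ac A Af Y K e hFm hAdm ha2 hDots hu he0 hl1 hz1 hE3 hY1 he hAe hd hCC hAd h16 hA1 hAf hAc => ?_⟩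
  have hl : 0 ≤ Q.lam := hDots.T_nn
  have hE := l9we_E_nonneg he
  obtain ⟨hco, hco2⟩ := hCo Q δm Ad A Q.lam 2 (l9rsE Q.N e) hFm hAdm (by linarith) hDots hAd hA1 hu he0 hE
    (l9we_dA hAdm ha2 hl hAe h16 hY1 he hd) hl1
  refine ⟨⟨hz1, hE, fun _ => le_rfl, by simp, (hCC.mono hAc hE3).of_top hAdm 2, ?_⟩, l9wb_co2_mono hco2 hAdm hE hAf hl⟩
  intro n hn hnJ R hR hne τ hτ hlow
  refine (hco n hn hnJ R hR hne τ hτ hlow).trans ?_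
  have h1 : 0 ≤ ∏ i ∈ Finset.range n \ R, l9rsE Q.N e (τ (2 * i) (2 * i + 1)) := Finset.prod_nonneg fun i _ => hE _
  rw [l9w_G_zero, mul_one, mul_one]
  exact mul_le_mul_of_nonneg_right (mul_le_mul_of_nonneg_right hAf hl) h1

/-- arithmetic of the constants -/
theorem l9we_consts {x δ δ1 Kc C1 C2 C3 : ℝ} (hx : 0 < x) (hx1 : x ≤ 1) (hKc : 0 ≤ Kc) (P : ℕ) (hP : 0 < P) (hδ : 0 < δ) (hδ1 : 0 < δ1) (hδ1' : δ1 ≤ δ / P) :
    C3 * x ^ (-(δ / P)) ≤ max (max (16 * |C1|) |C3|) 1 * x ^ (-(δ / P)) ∧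
    16 * (C1 * x ^ (-δ1)) ≤ max (max (16 * |C1|) |C3|) 1 * x ^ (-(δ / P)) ∧
    1 ≤ max (max (16 * |C1|) |C3|) 1 * x ^ (-(δ / P)) ∧
    Kc * (max (max (16 * |C1|) |C3|) 1 * x ^ (-(δ / P))) ^ P ≤ max (Kc * max (max (16 * |C1|) |C3|) 1 ^ P) |C2| * x ^ (-δ) ∧
    C2 * x ^ (-(δ / P)) ≤ max (Kc * max (max (16 * |C1|) |C3|) 1 ^ P) |C2| * x ^ (-δ) := by
  have hPr : (0 : ℝ) < (P : ℝ) := by exact_mod_cast hP
  have hP1 : (1 : ℝ) ≤ (P : ℝ) := by exact_mod_cast hP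
  have hδP : 0 < δ / P := div_pos hδ hPr
  have hδle : δ / P ≤ δ := div_le_self hδ.le hP1
  generalize hCa : max (max (16 * |C1|) |C3|) 1 = Ca
  have c1 : 16 * |C1| ≤ Ca := hCa ▸ (le_max_left _ _).trans (le_max_left _ _)
  have c3 : |C3| ≤ Ca := hCa ▸ (le_max_right _ _).trans (le_max_left _ _)
  have c0 : 1 ≤ Ca := hCa ▸ le_max_right _ _
  rw [l9we_loss hx P hP Ca]
  generalize hX : x ^ (-(δ / P)) = X
  have hX1 : 1 ≤ X := hX ▸ Real.one_le_rpow_of_pos_of_le_one_of_nonpos hx hx1 (by linarith)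
  have hXd : x ^ (-δ1) ≤ X := hX ▸ Real.rpow_le_rpow_of_exponent_ge hx hx1 (by linarith)
  have hXδ : X ≤ x ^ (-δ) := hX ▸ Real.rpow_le_rpow_of_exponent_ge hx hx1 (by linarith)
  have hxδ0 : 0 ≤ x ^ (-δ) := Real.rpow_nonneg hx.le _
  have hX0 : 0 ≤ X := by linarith
  refine ⟨mul_le_mul_of_nonneg_right ((le_abs_self _).trans c3) hX0, ?_, ?_, ?_, ?_⟩
  · calc 16 * (C1 * x ^ (-δ1)) = 16 * C1 * x ^ (-δ1) := by ring
      _ ≤ 16 * |C1| * x ^ (-δ1) := mul_le_mul_of_nonneg_right (by linarith [le_abs_self C1]) (Real.rpow_nonneg hx.le _)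
      _ ≤ 16 * |C1| * X := mul_le_mul_of_nonneg_left hXd (by positivity)
      _ ≤ _ := mul_le_mul_of_nonneg_right c1 hX0
  · calc (1 : ℝ) = 1 * 1 := (one_mul 1).symm
      _ ≤ Ca * X := mul_le_mul c0 hX1 zero_le_one (by linarith)
  · rw [← mul_assoc]
    exact mul_le_mul_of_nonneg_right (le_max_left _ _) hxδ0
  · calc C2 * X ≤ |C2| * X := mul_le_mul_of_nonneg_right (le_abs_self _) hX0
      _ ≤ |C2| * x ^ (-δ) := mul_le_mul_of_nonneg_left hXδ (abs_nonneg _)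
      _ ≤ _ := mul_le_mul_of_nonneg_right (le_max_right _ _) hxδ0

/-- **PRODUCER of `L9wSupD`** (masses `≤ 2`, i.e. all): `exit_ddir` + `l8g_fine` + the contract of CCw + DOTS + the real coefficients -/
theorem l9we_supD {𝔹 : LlBase} {T : ℝ} (hdir : L8xDir 𝔹 T) (hfine : L8gFine 𝔹 T) {F0 : LlFix} (hF : L8Fix 𝔹 T F0) (pB : LLParB) {pS : ℝ}
    (h0 : 0 < pS) (h1 : pS ≤ 1) (c : ℝ) (J0 : ℕ) (hJ : 2 ≤ J0) :
    ∃ C0 δ0 v0 cE : ℝ, 1 ≤ C0 ∧ 0 < δ0 ∧ 0 < v0 ∧ 0 < cE ∧ ∀ κ : ℝ, 0 < κ →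
      L9wCCD 𝔹 (l8Mj c) κ (F0.wExp pB.sStar pB.eta pS) C0 δ0 v0 cE J0 → L9tDotD 𝔹 (l8Mj c) κ (F0.wExp pB.sStar pB.eta pS) →
        L9wSupD 𝔹 (l8Mj c) κ (F0.wExp pB.sStar pB.eta pS) 2 J0 := by
  obtain ⟨C0, δ0, v0, cE, hC0, hδ0, hv0, hcE, hB⟩ := l9rs_bothD hdir hfine hF pB h0 h1 c
  obtain ⟨Kc, hKc, hPt⟩ := l9we_pt J0 hJ
  refine ⟨C0, δ0, v0, cE, hC0, hδ0, hv0, hcE, fun κ hκ hcc hdot K δ hδ ε hε q hq => ?_⟩
  have hP : 0 < 2 * J0 + 3 := by omega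
  have hPr : (0 : ℝ) < ((2 * J0 + 3 : ℕ) : ℝ) := by exact_mod_cast hP
  have hδP : 0 < δ / ((2 * J0 + 3 : ℕ) : ℝ) := div_pos hδ hPr
  obtain ⟨pm, jm, Km, δ1, δ', hpm, hKm, hδ1, hδ1', hδ', hδ'', hc⟩ := hcc K _ hδP
  obtain ⟨C1, N1, hb⟩ := hB κ hκ pm jm Km δ' hδ' hδ'' δ1 hδ1 ε hε q hq
  obtain ⟨C2, N2, hc⟩ := hc ε hε q hq C1
  obtain ⟨C3, N3, hd⟩ := hdot _ hδP ε hε q hq
  refine ⟨max (Kc * (max (max (16 * |C1|) |C3|) 1) ^ (2 * J0 + 3)) |C2|, N1 + N2 + N3 + 2, fun N hN => ?_⟩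
  filter_upwards [hb N (by omega), hc N (by omega), hd N (by omega)] with Fs g1 g2 g3 m ell γ t hy hAdm
  obtain ⟨Q, hQ⟩ : ∃ Q, Q = l9QD (F0.wExp pB.sStar pB.eta pS) 𝔹 (q * skX N ^ (1 + ε)) Fs m N ell γ t := ⟨_, rfl⟩
  have g1' := g1 m ell γ t hy
  have g3' := g3 m ell γ t hy
  rw [← hQ] at g1' g3' hAdm ⊢
  obtain ⟨hok, hfi, e, hBo, h8⟩ := g1'
  obtain ⟨hDots, hEv⟩ := g3'
  have hCC := g2 m ell γ t hy Q e hQ hok hfi hBo h8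
  have hsm : Q.p.sm = false := by rw [hQ]; rfl
  have hxN : Q.i8.x = skX N := by rw [hQ]; rfl
  obtain ⟨hx, hx1, hl, hl1, hxU⟩ := l9rs_scales Q.i8 hok (show 0 ≤ Q.I.F.pS by rw [hQ]; exact h0.le)
    (show 0 ≤ Q.I.F.sS by rw [hQ]; exact (by have := pB.sStar_pos; linarith : (0 : ℝ) ≤ pB.sStar))
  have hZc := l9rs_Zc_D Q c hok hsm
  have hz1 : 1 ≤ Q.Zc (l8Mj c) := by rw [hZc]; exact l9rs_Z_ge _
  have hU : 0 < Q.U := hx.trans_le hxU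
  have hY : Q.Y (l8Mj c) = Q.i8.Y := by unfold L9Q.Y; rw [hZc]; rfl
  have hY0 : 0 ≤ Q.Y (l8Mj c) := mul_nonneg hU.le (by linarith)
  rw [hxN] at hx hx1
  have hY1 : Q.i8.Y ≤ 1 := by
    rw [← hY]
    have h7 : Q.U * Q.Z (l8Mj c) ≤ skX N ^ κ := by rw [hQ]; exact hy.2.2.2.2.2.2
    have h8 : Q.Zc (l8Mj c) = Q.Z (l8Mj c) := by unfold L9Q.Zc; rw [if_neg (by simp [hsm])]
    unfold L9Q.Y
    rw [h8]
    exact h7.trans (Real.rpow_le_one hx.le hx1 hκ.le)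
  have hell : Q.p.a = ell := by rw [hQ]; exact l9t_L_a N ell γ t
  have h26 : (2 : ℝ) ^ (1 / 6 : ℝ) ≤ 2 := by
    calc (2 : ℝ) ^ (1 / 6 : ℝ) ≤ (2 : ℝ) ^ (1 : ℝ) := Real.rpow_le_rpow_of_exponent_le one_le_two (by norm_num)
      _ = 2 := Real.rpow_one 2
  have ha2 : Q.p.a ≤ 2 := by rw [hell]; exact hy.2.2.1.2.trans h26
  have ha1 : 1 ≤ Q.p.a := by rw [hell]; exact hy.2.2.1.1
  have hE3 : 0 ≤ Q.E3 (l8Mj c) K := l9rs_E3_nonneg Q _ K (show 0 ≤ Q.i8.x by rw [hxN]; exact hx.le) hl.le hY0 (by linarith)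
  have hFm : Q.Fm := by
    refine ⟨fun t' => ?_, hEv, ?_⟩
    · rw [hQ]
      show (l9PtL N ell γ t').a = (l9PtL N ell γ t).a
      rw [l9t_L_a, l9t_L_a]
    · rw [hQ]; exact hy.2.2.2.2.1
  have he : ∀ j, j ≤ Q.N → 0 ≤ e j := fun j hj => (Real.rpow_nonneg (by rw [hxN]; exact hx.le) _).trans (hBo.env.lo j hj)
  have hA0 : 0 ≤ C1 * skX N ^ (-δ1) := l9rs_A_nonneg Q.i8 hok hfi hBo.env (hok.s_lt.le.trans ((hxN ▸ hx1).trans ha1))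
  have hdA : ∀ j, j ≤ Q.N → Q.dA j ≤ C1 * skX N ^ (-δ1) * Q.lam * max (Q.ms j) Q.i8.Y ^ 2 * e j := by
    intro j hj
    have hv : Q.i8.v j = Q.ms j := by rw [l9rs_v]
    have h2 := hBo.env.d_le j hj (by rw [hv]; exact l9w_ms_le Q hAdm j)
    rw [hv] at h2
    have hdd : Q.dA j = |Q.i8.d j| + |Q.i8.dd j| := by rw [hQ]; exact l9rs_dA_D _ _ _ _ _ _ _ _ _ j
    rw [hdd]
    exact h2
  obtain ⟨k1, k2, k3, k4, k5⟩ := l9we_consts (C1 := C1) (C2 := C2) (C3 := C3) hx hx1 hKc (2 * J0 + 3) hP hδ hδ1 hδ1'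
  exact ⟨l9rsE Q.N e, hPt Q (l8Mj c) Q.x _ _ _ _ _ Q.i8.Y K e hFm hAdm ha2 hDots (by rw [hQ]; rfl) (by rw [hQ]; rfl) hl1 hz1 hE3 hY1 he hA0 hdA hCC k1 k2 k3 k4 k5⟩

/-! ## 4. the form `LLGood` -/

theorem l9we_a2_lt (par : LLPar) : par.a2 < llDStar / 3 := by
  have h1 := par.a2_le
  have h2 := par.a1_le
  have h3 := par.bH_le
  have h4 := par.a0_le_dStar
  have h5 := par.CH_ge
  have h6 := par.a2_pos
  have h7 := par.a1_pos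
  have h8 := par.a0_pos
  have e1 : 100 * par.a2 ≤ par.a1 := by nlinarith
  have e2 : 100 * par.a1 ≤ par.bH := by nlinarith
  have hd : (0 : ℝ) < llDStar := by unfold llDStar; norm_num
  linarith

theorem l9we_p_lt (par : LLPar) : par.pStar < par.a2 := by
  have h1 := par.pStar_le_a2
  have h2 := par.CL_ge
  have h3 := par.pStar_pos
  nlinarith

theorem l9we_p_le (par : LLPar) : par.pStar ≤ 1 := by
  have h1 := l9we_p_lt par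
  have h2 := l9we_a2_lt par
  have hd : llDStar = 1 / 10000 := rfl
  linarith

theorem l9we_exp (F0 : LlFix) (par : LLPar) : L9cExp (l9qF F0 par) := by
  have ht := par.tau_pos
  have ht1 := par.tau_le
  have he := par.eta_pos
  have he1 := par.eta_le
  have hp := par.pStar_pos
  have hp1 := l9we_p_lt par
  have ha := l9we_a2_lt par
  have hd : llDStar = 1 / 10000 := rfl
  have hs : (l9qF F0 par).sS = 1 / 2 - par.tau := rfl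
  have hη : (l9qF F0 par).eta = par.eta := rfl
  have hpS : (l9qF F0 par).pS = par.pStar := rfl
  constructor <;> simp only [hs, hη, hpS] <;> linarith

theorem l9we_J0 (par : LLPar) : 2 ≤ par.J0 := by
  have h := par.kPr_ge
  have hd : llDStar = 1 / 10000 := rfl
  rw [hd] at h
  refine le_trans ?_ par.J0_ge_kPr
  by_contra hh
  have : (par.kPr : ℝ) ≤ 1 := by exact_mod_cast (by omega : par.kPr ≤ 1)
  linarith

section good
variable (T : ℝ) (hT : 1 < T) (F0 : LlFix) (h0 : L8Fix llBase T F0) (hG : LlcG1Exit llBase T)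
include hT h0 hG

/-- **CCw = Lemma 9.1 on FULL tables, direct**: the contract `L9wCCD`, for all the constants of LL 08, ANY degree -/
theorem exit_l9_ccwD : LLGood fun par => ∀ (J : ℕ) (C0 δ0 v0 cE : ℝ), 1 ≤ C0 → 0 < δ0 → 0 < v0 → 0 < cE →
    L9wCCD llBase (l9qMj par) par.kappa (l9qF F0 par) C0 δ0 v0 cE J :=
  .of_forall fun par J C0 δ0 v0 cE _ hδ0 _ _ =>
    l9we_ccD llBase (l9qF F0 par) ⟨par.eta_pos.le, by have := (l9q_expOk par).s_lo; show 0 ≤ par.sStar; linarith, par.pStar_pos.le⟩ par.cC par.kappa_pos J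
      (fun K => l13y_num_ccw (l8Mj par.cC) K J) C0 hδ0 v0 cE

/-- **the supplies of W5, direct**, in the form `LLGood` -/
theorem l9we_wsupD : LLGood fun par => L9wSupD llBase (l9qMj par) par.kappa (l9qF F0 par) 2 par.J0 := by
  filter_upwards [exit_l9_ccwD T hT F0 h0 hG] with par hcc
  obtain ⟨C0, δ0, v0, cE, hC0, hδ0, hv0, hcE, H⟩ :=
    l9we_supD (exit_ddir T hT) (l8g_fine T hT) h0 par.toLLParB par.pStar_pos (l9we_p_le par) par.cC par.J0 (l9we_J0 par)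
  exact H par.kappa par.kappa_pos (hcc par.J0 C0 δ0 v0 cE hC0 hδ0 hv0 hcE)
    (l9t_dotD llBase _ _ _ (l9q_expOk par) (by show LlBaseProfile llBase F0.T; rw [h0.1]; exact h0.2.1) (h0.2.2 _ _ _ (l9q_expOk par)).sec3)

/-- **W5 (i), direct**: terms with a base pair at mass `≥ cD` -/
theorem l9we_hiD : LLGood fun par => ∀ cD : ℝ, 0 < cD → cD ≤ 1 → L9BndDg llBase (l9qMj par) par.kappa par.J0 (l9qF F0 par) fun _ => l9RgHi cD := by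
  filter_upwards [l9we_wsupD T hT F0 h0 hG] with par hS cD hcD hcD1
  exact l9wb_DHi llBase (l9qMj par) par.kappa par.kappa_pos par.J0 (l9we_J0 par) (l9qF F0 par) (l9we_exp F0 par) 2 cD hcD hcD1 le_rfl hS
    (l9rs_admD (l8g_fine T hT) h0 par.toLLParB par.pStar_pos (l9we_p_le par) par.cC par.kappa)

/-- **W5 (ii), direct**: all base pairs below `cD`, degree `≥ 5` -/
theorem l9we_w5D : LLGood fun par => ∀ cD : ℝ, 0 < cD → cD ≤ 1 → L9BndDg llBase (l9qMj par) par.kappa par.J0 (l9qF F0 par) fun _ => l9RgL5 cD := by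
  filter_upwards [l9we_wsupD T hT F0 h0 hG] with par hS cD hcD hcD1
  exact l9wb_D5 llBase (l9qMj par) par.kappa par.kappa_pos par.J0 (l9we_J0 par) (l9qF F0 par) (l9we_exp F0 par) 2 cD hcD hcD1 (by linarith) hS
    (l9rs_admD (l8g_fine T hT) h0 par.toLLParB par.pStar_pos (l9we_p_le par) par.cC par.kappa)

end good

end Claimed.Agent.R286
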