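import Claimed.Agent.R286.L09.W5b
import Claimed.Agent.R286.L09.W5Co
import Claimed.Agent.R286.L09.Dots
import Claimed.Agent.R286.L09.CCNum

/-!
# Row 286 (S0533), unit L09, node W5, file W5ExS: PRODUCER OF `L9wSupS` = THE SUPPLIES OF W5 ON THE SIZE SEGMENT      (owner helper236, post of helper82 06:27Z; head of W5 helper299; head of the unit helper60; prefix `l9ws`, `L9ws`)

    exit_l9_w5S (L09/BndExit)  <=  l9wb_S5 (266, L09/W5b, PROVED)  +  exit_l9_admS (PROVED glue)  +  l9ws_exit (THIS FILE, PROVED glue)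
    l9ws_exit                  <=  l9ws_supS (THIS FILE, PROVED)  +  exit_dlow, l8g_fine (LL 08; HYPOTHESES `L8xLow`, `L8gFine` here, supplied in L09/BndExit)  +  l9ws_ccS (THIS FILE, PROVED)
    l9ws_ccS : L9wCCS          <=  l9rc_shellS (153, L09/RedCC, PROVED)  +  l13y_num_ccw (64, L09/CCNum, PROVED; 30 L09/CCFit, 70 L09/CCInst)          [CCw = Lemma 9.1 on full tables, any degree]
    l9ws_supS                  <=  l9rs_bothS, l9rs_sup8 (153, L09/RedSup)  +  l9t_dotS (69, 159, L09/Dots, PROVED)  +  l9wc_co (183, 231, 107, L09/W5Co)  +  the contract `L9wCCS`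
NO sorry in this file: the debt of `exit_l9_w5S` is the debt of `exit_dlow`, `l8g_fine` (LL 08) and of `l9wc_co_all` (L09/W5Co).

TEX[LL:exp:prop-low-coefficients] 09-expansion.tex l.340-347: "The scalar coefficients are bounded, including `ḃ = O(1)`.  Differentiating `K` may add one scalar pair with weight `|K̇|`.  At high mass this weight is integrable
separately ... At a low mass `v`, `|K̇(v)| = O(v)`".      On the size segment the move is `O(1)` but the mass integral of `|K̇|` is only `≤ dot` (`Q.Dots.iK_le`), hence ONE factor `T0 = 1 + dot` and the density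
`g = |K̇| / (1 + dot)` of the dotted weight, `∑ μ g ≤ 1`.

## ONE POINT `Q : L9Q`
* `Q.wsG j = |K̇_j| / (1 + dot)`         the density;
* `l9ws_Fm`                             `a` constant + `Q.AdmEv` + `Q.I.Dif`  ⟹ `Q.Fm`;
* `l9ws_WcB`                            `Q.Dots A1 1 vK` + `Q.Sup8 Mj A2 vt e` (`λ ≤ 1`, `Y ≤ 1`, `vt ≤ 1`)  ⟹ `Q.WcB A (1 + dot) vt e`,  `A ≥ max A1 A2 1`;
* `l9ws_WcG`                            `Q.Dots A1 1 vK` (`vt ≤ min vK 1`)  ⟹ `Q.WcG A (1 + dot) vt Q.wsG`;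
* `l9ws_co_mono`, `l9ws_ccw_mono`, `l9ws_ccw_anti`   monotonicity in the loss, in the top mass;
* `l9ws_Sw`                             all of it + `Q.CCw`  ⟹ `Q.Sw Mj A' (1 + dot) vt K 5 J0 e Q.wsG`  for `Kc A^(2 J0 + 2) ≤ A'`.

## SHAPE
* `L9wCCS`                              CONTRACT of CCw, size segment: VERBATIM `L9cCCS` of 153 (`L09/RedSup.lean`) without `Cs`, conclusion `Q.CCw Mj (l9rsE Q.N e) (C x^(-δ)) (min v0 v1) K J0`;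
* `l9ws_pow`                            `(C x^(-δ/(2 J0 + 2)))^(2 J0 + 2) = C^(2 J0 + 2) x^(-δ)`: the power of the loss in `l9wc_co` is paid by calling all the sources at the loss `δ / (2 J0 + 2)`;
* **`l9ws_supS`**                       the producer (copy of `l9rs_supS` of 153 + DOTS + `l9ws_Sw`);
* `l9ws_ccS`                            the contract holds (copy of `l9rc_ccS` of 153 at `Ψ = Q.CCw`);
* **`l9ws_exit`**                       the form `LLGood` (copy of `exit_l9_supS` of 282): `∃ v0 > 0, L9wSupS llBase (l9qMj par) (l9qF F0 par) v0 par.kPr`.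
-/

set_option autoImplicit false

namespace Claimed.Agent.R286

open Filter Set

noncomputable section

/-! ## 1. one point -/

/-- the density of the dotted weight on the size segment -/
def L9Q.wsG (Q : L9Q) (j : ℕ) : ℝ := |Q.KD j| / (1 + Q.I.dot Q.pf Q.t)

section pt
variable {Q : L9Q} {Mj : L9Mj}

theorem l9ws_Fm (ha : ∀ t', (Q.pf t').a = (Q.pf Q.t).a) (hev : Q.AdmEv) (hd : Q.I.Dif Q.pf Q.t) : Q.Fm := ⟨ha, hev, hd⟩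

/-- `|d| + |ḋ| ≤ A e` below the mass `vt ≤ 1` -/
theorem l9ws_dA_le {A2 A vt : ℝ} {e : ℕ → ℝ} (hS : Q.Sup8 Mj A2 vt e) (he : ∀ j, 0 ≤ e j) (hA2 : A2 ≤ A) (h1 : 1 ≤ A) (hl0 : 0 ≤ Q.lam)
    (hl1 : Q.lam ≤ 1) (hY0 : 0 ≤ Q.Y Mj) (hY1 : Q.Y Mj ≤ 1) (hvt : vt ≤ 1) {j : ℕ} (hj : j ≤ Q.N) (hm : Q.ms j ≤ vt) : Q.dA j ≤ A * e j := by
  have h := hS.d_le j hj hm
  have m0 : 0 ≤ max (Q.ms j) (Q.Y Mj) := hY0.trans (le_max_right _ _)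
  have m1 : max (Q.ms j) (Q.Y Mj) ≤ 1 := max_le (hm.trans hvt) hY1
  have c0 : 0 ≤ Q.lam * max (Q.ms j) (Q.Y Mj) ^ 2 := mul_nonneg hl0 (sq_nonneg _)
  have c1 : Q.lam * max (Q.ms j) (Q.Y Mj) ^ 2 ≤ 1 := by
    calc Q.lam * max (Q.ms j) (Q.Y Mj) ^ 2 ≤ 1 * 1 := mul_le_mul hl1 (pow_le_one₀ m0 m1) (sq_nonneg _) zero_le_one
      _ = 1 := one_mul 1
  calc Q.dA j ≤ A2 * Q.lam * max (Q.ms j) (Q.Y Mj) ^ 2 * e j := h
    _ = A2 * (Q.lam * max (Q.ms j) (Q.Y Mj) ^ 2) * e j := by ring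
    _ ≤ A * (Q.lam * max (Q.ms j) (Q.Y Mj) ^ 2) * e j := mul_le_mul_of_nonneg_right (mul_le_mul_of_nonneg_right hA2 c0) (he j)
    _ ≤ A * 1 * e j := mul_le_mul_of_nonneg_right (mul_le_mul_of_nonneg_left c1 (by linarith)) (he j)
    _ = A * e j := by rw [mul_one]

/-- operator, `b`, `ḃ`, `d`, `ḋ` -/
theorem l9ws_WcB {A1 A2 A vK vt : ℝ} {e : ℕ → ℝ} (hD : Q.Dots A1 1 vK) (hS : Q.Sup8 Mj A2 vt e) (he : ∀ j, 0 ≤ e j)
    (hdot : 0 ≤ Q.I.dot Q.pf Q.t) (hu : |Q.u| ≤ 1) (hue : |Q.e| ≤ 1) (hA1 : A1 ≤ A) (hA2 : A2 ≤ A) (h1 : 1 ≤ A) (hl0 : 0 ≤ Q.lam)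
    (hl1 : Q.lam ≤ 1) (hY0 : 0 ≤ Q.Y Mj) (hY1 : Q.Y Mj ≤ 1) (hvt : vt ≤ 1) : Q.WcB A (1 + Q.I.dot Q.pf Q.t) vt e := by
  have hA0 : 0 ≤ A := by linarith
  have hAT : A ≤ A * (1 + Q.I.dot Q.pf Q.t) := by nlinarith
  refine ⟨h1, by linarith, by linarith, by linarith, fun j _ _ => ?_, fun j _ _ => ?_, he, fun j hj hm => ?_, fun j hj hm => ?_⟩
  · rw [abs_of_nonneg (hD.b_nn j)]
    exact (hD.b_le j).trans hA1
  · have h := hD.bd j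
    rw [mul_one] at h
    exact (h.trans hA1).trans hAT
  · exact l9ws_dA_le hS he hA2 h1 hl0 hl1 hY0 hY1 hvt hj hm
  · exact (l9ws_dA_le hS he hA2 h1 hl0 hl1 hY0 hY1 hvt hj hm).trans (mul_le_mul_of_nonneg_right hAT (he j))

/-- the dotted weight of the added pair -/
theorem l9ws_WcG {A1 A vK vt : ℝ} (hD : Q.Dots A1 1 vK) (hdot : 0 ≤ Q.I.dot Q.pf Q.t) (hA1 : A1 ≤ A) (hvK : vt ≤ vK) (hvt : vt ≤ 1) :
    Q.WcG A (1 + Q.I.dot Q.pf Q.t) vt Q.wsG := by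
  have hT : 0 < 1 + Q.I.dot Q.pf Q.t := by linarith
  have hA0 : 0 ≤ A := hD.A_nn.trans hA1
  refine ⟨fun j => div_nonneg (abs_nonneg _) hT.le, fun j _ => ?_, ?_, fun j _ hm => ?_⟩
  · unfold L9Q.wsG
    rw [mul_div_cancel₀ _ hT.ne']
    exact le_rfl
  · have e1 : ∑ j ∈ Finset.range (Q.N + 1), l9aMu Q.ms j * Q.wsG j = Q.iK / (1 + Q.I.dot Q.pf Q.t) := by
      unfold L9Q.iK L9Q.wsG
      rw [Finset.sum_div]
      refine Finset.sum_congr rfl fun j _ => ?_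
      rw [mul_div_assoc]
      rfl
    rw [e1, div_le_one hT]
    linarith [hD.iK_le]
  · have hmu := hD.mu_nn j
    have hmc : Q.mc j ≤ Q.ms j := by
      have : l9rMu Q.ms j = Q.ms j - Q.mc j := rfl
      linarith
    have h := hD.Kd j ((hmc.trans hm).trans hvK)
    rw [mul_one] at h
    have h2 : |Q.KD j| ≤ A := by
      calc |Q.KD j| ≤ A1 * Q.mc j := h
        _ ≤ A1 * 1 := mul_le_mul_of_nonneg_left ((hmc.trans hm).trans hvt) hD.A_nn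
        _ ≤ A := by rw [mul_one]; exact hA1
    unfold L9Q.wsG
    rw [div_le_iff₀ hT]
    nlinarith

theorem l9ws_co_mono {A A' T0 vt : ℝ} {e g : ℕ → ℝ} {n0 J0 : ℕ} (h : Q.Co A T0 vt e g n0 J0) (he : ∀ t, 0 ≤ e t) (hg : ∀ t, 0 ≤ g t) (hA : A ≤ A')
    (hT0 : 0 ≤ T0) : Q.Co A' T0 vt e g n0 J0 := by
  intro n hn hnJ R hR hne τ hτ hlow
  refine (h n hn hnJ R hR hne τ hτ hlow).trans ?_
  have h1 : 0 ≤ ∏ i ∈ Finset.range n \ R, e (τ (2 * i) (2 * i + 1)) := Finset.prod_nonneg fun i _ => he _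
  have h2 : 0 ≤ ∏ s ∈ Finset.Ico 1 (2 * n), l9wG Q.N g n τ s := by
    refine Finset.prod_nonneg fun s _ => ?_
    unfold l9wG
    split_ifs
    · linarith [hg (l9aBj τ s)]
    · exact zero_le_one
  exact mul_le_mul_of_nonneg_right (mul_le_mul_of_nonneg_right (mul_le_mul_of_nonneg_right hA hT0) h1) h2

theorem l9ws_ccw_mono {e : ℕ → ℝ} {A A' vt K : ℝ} {J0 : ℕ} (h : Q.CCw Mj e A vt K J0) (hA : A ≤ A') (hE : 0 ≤ Q.E3 Mj K) : Q.CCw Mj e A' vt K J0 := by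
  intro n hn hnJ R hR β om hom0 hom B L0 hL0 hB hB2
  exact (h n hn hnJ R hR β om hom0 hom B L0 hL0 hB hB2).trans (mul_le_mul_of_nonneg_left (mul_le_mul_of_nonneg_right hA hE) hL0)

theorem l9ws_ccw_anti {e : ℕ → ℝ} {A vt vt' K : ℝ} {J0 : ℕ} (h : Q.CCw Mj e A vt K J0) (hv : vt' ≤ vt) : Q.CCw Mj e A vt' K J0 := by
  intro n hn hnJ R hR β om hom0 hom B L0 hL0 hB hB2
  exact h n hn hnJ R hR β om hom0 hom B L0 hL0 (fun τ hτ i hi => ⟨(hB τ hτ i hi).1, (hB τ hτ i hi).2.1, (hB τ hτ i hi).2.2.trans hv⟩) hB2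

end pt

/-- **the supplies of W5 at one point of the size segment** -/
theorem l9ws_Sw (J0 : ℕ) : ∃ Kc : ℝ, 0 ≤ Kc ∧ ∀ (Q : L9Q) (Mj : L9Mj) (δm A1 A2 A A' vK vt K : ℝ) (e : ℕ → ℝ),
    (∀ t', (Q.pf t').a = (Q.pf Q.t).a) → Q.AdmEv → Q.I.Dif Q.pf Q.t → Q.Adm δm → Q.p.a ≤ 4 → Q.Dots A1 1 vK → Q.Sup8 Mj A2 vt e → (∀ j, 0 ≤ e j) →
    0 ≤ Q.I.dot Q.pf Q.t → |Q.u| ≤ 1 → |Q.e| ≤ 1 → A1 ≤ A → A2 ≤ A → 1 ≤ A → 0 ≤ Q.lam → Q.lam ≤ 1 → 0 ≤ Q.Y Mj → Q.Y Mj ≤ 1 → vt ≤ vK → vt ≤ 1 →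
    Kc * A ^ (2 * J0 + 2) ≤ A' → Q.CCw Mj e A' vt K J0 → Q.Sw Mj A' (1 + Q.I.dot Q.pf Q.t) vt K 5 J0 e Q.wsG := by
  obtain ⟨Kc, hKc, H⟩ := l9wc_co J0
  refine ⟨Kc, hKc, fun Q Mj δm A1 A2 A A' vK vt K e ha hev hdif hAd ha4 hD hS he hdot hu hue hA1 hA2 h1 hl0 hl1 hY0 hY1 hvK hvt hAA hcc => ?_⟩
  have hB := l9ws_WcB hD hS he hdot hu hue hA1 hA2 h1 hl0 hl1 hY0 hY1 hvt
  have hG := l9ws_WcG hD hdot hA1 hvK hvt
  have hco := H Q δm A (1 + Q.I.dot Q.pf Q.t) vt e Q.wsG 5 (by norm_num) (l9ws_Fm ha hev hdif) hAd ha4 hB hG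
  exact ⟨hS.z1, he, hG.g_nn, hG.g_sum.trans (by norm_num), hcc, l9ws_co_mono hco he hG.g_nn hAA (by linarith)⟩

/-! ## 2. the contract of CCw, the producer -/

/-- **CONTRACT of CCw (Lemma 9.1 on full tables, any degree `≤ J0`), size segment**: the pattern of `L9cCCS` (153): for the target loss `δ` the prover chooses the orders `(pm, jm)`, the mesh exponent `Km`, the source loss
`δ1 ≤ δ`; then, for EVERY source constant `C1`, at every point on the stop: LL 08 (low-region variant) at the loss `C1 x^(-δ1)` with the envelope `e` ⟹ `Q.CCw` with the SAME envelope (`0` outside the chain) -/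
def L9wCCS (𝔹 : LlBase) (Mj : L9Mj) (F : LlFix) (v0 v1 cE : ℝ) (J0 : ℕ) : Prop :=
  ∀ K : ℝ, ∀ δ : ℝ, 0 < δ → ∃ (pm jm : ℕ) (Km δ1 : ℝ), 2 ≤ pm ∧ 1 ≤ Km ∧ 0 < δ1 ∧ δ1 ≤ δ ∧
    ∀ ε : ℝ, 0 < ε → ∀ q : ℝ, 0 < q → ∀ C1 : ℝ, ∃ (C : ℝ) (N0 : ℕ), ∀ N : ℕ, N0 ≤ N → ∀ᶠ Fs : Finset GhPos in atTop,
      ∀ (m : ℕ) (γ : Fin (N + 1) → ℝ) (θ : ℝ), L9HyS F 𝔹 N (q * skX N ^ (1 + ε)) (skX N ^ ε) Fs m γ θ →
        ∀ (Q : L9Q) (e : ℕ → ℝ), Q = l9QS F 𝔹 (q * skX N ^ (1 + ε)) Fs m N γ θ → Q.i8.Ok → Q.i8.Fine (Q.x ^ Km) → 1 ≤ Q.i8.Zc llDStar →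
          Q.i8.Both e (C1 * skX N ^ (-δ1)) (Q.i8.Yc llDStar) 1 v0 v1 cE pm jm →
            Q.CCw Mj (l9rsE Q.N e) (C * skX N ^ (-δ)) (min v0 v1) K J0

/-- the power of the loss -/
theorem l9ws_pow {x : ℝ} (hx : 0 < x) (C δ : ℝ) (J0 : ℕ) : (C * x ^ (-(δ / (2 * J0 + 2)))) ^ (2 * J0 + 2) = C ^ (2 * J0 + 2) * x ^ (-δ) := by
  rw [mul_pow, ← Real.rpow_natCast (x ^ (-(δ / (2 * J0 + 2)))), ← Real.rpow_mul hx.le]
  congr 2
  have : (2 * (J0 : ℝ) + 2) ≠ 0 := by positivity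
  push_cast
  field_simp

theorem l9ws_E_nonneg {N : ℕ} {e : ℕ → ℝ} (h : ∀ v, v ≤ N → 0 ≤ e v) (j : ℕ) : 0 ≤ l9rsE N e j := by
  unfold l9rsE
  split_ifs with hv
  · exact h j hv
  · exact le_rfl

/-- **PRODUCER of `L9wSupS`**: `exit_dlow` + `l8g_fine` + DIC + DOTS + the real coefficients + the contract of CCw -/
theorem l9ws_supS {𝔹 : LlBase} {T : ℝ} (hlow : L8xLow 𝔹 T) (hfine : L8gFine 𝔹 T) {F0 : LlFix} (hF : L8Fix 𝔹 T F0) (pB : LLParB)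
    (hSt : LlcStB 𝔹 F0 pB) (c : ℝ) :
    ∃ p0 cE : ℝ, 0 < p0 ∧ 0 < cE ∧ ∀ pS : ℝ, 0 < pS → pS ≤ p0 → pS ≤ 1 → LlExpOk pB.sStar pB.eta pS → ∃ v0 v1 vt : ℝ, 0 < v0 ∧ 0 < v1 ∧ 0 < vt ∧
      ∀ J0 : ℕ, L9wCCS 𝔹 (l8Mj c) (F0.wExp pB.sStar pB.eta pS) v0 v1 cE J0 → L9wSupS 𝔹 (l8Mj c) (F0.wExp pB.sStar pB.eta pS) vt J0 := by
  obtain ⟨p0, cE, hp0, hcE, hB⟩ := l9rs_bothS hlow hfine hF pB hSt
  refine ⟨p0, cE, hp0, hcE, fun pS h0 h1 h1' hE => ?_⟩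
  obtain ⟨v0, v1, hv0, hv1, hB⟩ := hB pS h0 h1 h1'
  obtain ⟨vK, hvK, hDot⟩ := l9t_dotS 𝔹 (F0.wExp pB.sStar pB.eta pS) hE (hF.2.2 _ _ _ hE).sec3
  refine ⟨v0, v1, min (min v0 v1) (min vK 1), hv0, hv1, lt_min (lt_min hv0 hv1) (lt_min hvK one_pos), fun J0 hcc K δ hδ ε hε q hq => ?_⟩
  obtain ⟨Kc, hKc, hSw⟩ := l9ws_Sw J0
  have hJ : (0 : ℝ) < 2 * J0 + 2 := by positivity
  have hδ2 : 0 < δ / (2 * J0 + 2) := div_pos hδ hJ
  have hδ2' : δ / (2 * J0 + 2) ≤ δ := div_le_self hδ.le (by linarith [(Nat.cast_nonneg J0 : (0 : ℝ) ≤ J0)])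
  obtain ⟨pm, jm, Km, δ1, hpm, hKm, hδ1, hδ1', hc⟩ := hcc K _ hδ2
  obtain ⟨C1, N1, hb⟩ := hB pm jm Km δ1 hδ1 ε hε q hq
  obtain ⟨C2, N2, hc⟩ := hc ε hε q hq C1
  obtain ⟨C3, N4, hd⟩ := hDot _ hδ2 ε hε q hq
  obtain ⟨N3, hN3⟩ := l9s_small 1 (1 / v0) one_pos (by positivity)
  refine ⟨max (Kc * max (max (3 * |C1|) 1) C3 ^ (2 * J0 + 2)) |C2|, N1 + N2 + N3 + N4 + 1, fun N hN => ?_⟩
  filter_upwards [hb N (by omega), hc N (by omega), hd N (by omega)] with Fs g1 g2 g3 m γ θ hy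
  obtain ⟨Q, hQ⟩ : ∃ Q, Q = l9QS (F0.wExp pB.sStar pB.eta pS) 𝔹 (q * skX N ^ (1 + ε)) Fs m N γ θ := ⟨_, rfl⟩
  have g1' := g1 m γ θ hy
  have g3' := g3 m γ θ hy
  rw [← hQ] at g1' g3' ⊢
  obtain ⟨hok, hfi, hZ1, e, hBo⟩ := g1'
  obtain ⟨hDo, hEv⟩ := g3'
  have hCC := g2 m γ θ hy Q e hQ hok hfi hZ1 hBo
  have hsm : Q.p.sm = true := by rw [hQ]; rfl
  have hxN : Q.i8.x = skX N := by rw [hQ]; rfl
  obtain ⟨hx, hx1, hl, hl1, hxU⟩ := l9rs_scales Q.i8 hok (show 0 ≤ Q.I.F.pS by rw [hQ]; exact h0.le)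
    (show 0 ≤ Q.I.F.sS by rw [hQ]; exact (by have := pB.sStar_pos; linarith : (0 : ℝ) ≤ pB.sStar))
  have hZc := l9rs_Zc_S Q c hok hsm
  have hz1 : 1 ≤ Q.Zc (l8Mj c) := by rw [hZc]; exact hZ1
  have hU : 0 < Q.U := hx.trans_le hxU
  have hY : Q.Y (l8Mj c) = Q.i8.Yc llDStar := by unfold L9Q.Y; rw [hZc]; rfl
  have hxY : Q.x ≤ Q.Y (l8Mj c) := by
    unfold L9Q.Y
    calc Q.x ≤ Q.U * 1 := by rw [mul_one]; exact hxU
      _ ≤ _ := mul_le_mul_of_nonneg_left hz1 hU.le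
  have hY1 : Q.Y (l8Mj c) ≤ 1 := by
    have e1 : Q.Zc (l8Mj c) = min (Q.Z (l8Mj c)) (Q.x ^ (llDStar / 3) / Q.U) := if_pos hsm
    unfold L9Q.Y
    rw [e1]
    calc Q.U * min (Q.Z (l8Mj c)) (Q.x ^ (llDStar / 3) / Q.U) ≤ Q.U * (Q.x ^ (llDStar / 3) / Q.U) :=
          mul_le_mul_of_nonneg_left (min_le_right _ _) hU.le
      _ = Q.x ^ (llDStar / 3) := mul_div_cancel₀ _ hU.ne'
      _ ≤ 1 := Real.rpow_le_one hx.le hx1 (by unfold llDStar; norm_num)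
  have hs : Q.I.s ≤ Q.x := hok.s_lt.le
  have hxv : Q.x ≤ v0 := by
    have := hN3 N (by omega)
    rw [Real.rpow_one, div_mul_eq_mul_div, one_mul, div_lt_one hv0] at this
    show Q.i8.x ≤ v0
    rw [hxN]; exact this.le
  have hxs : 0 < skX N := hxN ▸ hx
  have hxs1 : skX N ≤ 1 := hxN ▸ hx1
  obtain ⟨l1, l2, l3⟩ := l9rs_loss (C1 := C1) (C2 := C3) hxs hxs1 hδ1 hδ1'
  have h8' := l9rs_sup8 Q (l8Mj c) (A' := max (max (3 * |C1|) 1) C3 * skX N ^ (-(δ / (2 * J0 + 2)))) hok hfi (hY ▸ hBo) hpm l1 l2 hz1 hU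
    ((Real.rpow_le_rpow_of_exponent_ge hx hx1 hKm).trans (by rw [Real.rpow_one]; exact hxY)) (hs.trans hxY)
    (hs.trans hxv) hl.le (fun v => by rw [hQ]; exact l9rs_dA_S _ _ _ _ _ _ _ _ v)
  have h8 := (h8'.anti (min_le_left (min v0 v1) (min vK 1))).trunc
  have hE3 := l9rs_E3_nonneg Q (l8Mj c) K hx.le hl.le (hx.le.trans hxY) (by linarith)
  have hX : 0 < skX N ^ (-δ) := Real.rpow_pos_of_pos hxs _
  have hXX : skX N ^ (-(δ / (2 * J0 + 2))) ≤ skX N ^ (-δ) := Real.rpow_le_rpow_of_exponent_ge hxs hxs1 (by linarith)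
  have hC2 : C2 * skX N ^ (-(δ / (2 * J0 + 2))) ≤ max (Kc * max (max (3 * |C1|) 1) C3 ^ (2 * J0 + 2)) |C2| * skX N ^ (-δ) := by
    calc C2 * skX N ^ (-(δ / (2 * J0 + 2))) ≤ |C2| * skX N ^ (-(δ / (2 * J0 + 2))) :=
          mul_le_mul_of_nonneg_right (le_abs_self _) (Real.rpow_nonneg hxs.le _)
      _ ≤ |C2| * skX N ^ (-δ) := mul_le_mul_of_nonneg_left hXX (abs_nonneg _)
      _ ≤ _ := mul_le_mul_of_nonneg_right (le_max_right _ _) hX.le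
  have hKA : Kc * (max (max (3 * |C1|) 1) C3 * skX N ^ (-(δ / (2 * J0 + 2)))) ^ (2 * J0 + 2)
      ≤ max (Kc * max (max (3 * |C1|) 1) C3 ^ (2 * J0 + 2)) |C2| * skX N ^ (-δ) := by
    rw [l9ws_pow hxs, ← mul_assoc]
    exact mul_le_mul_of_nonneg_right (le_max_left _ _) hX.le
  intro hAd
  refine ⟨l9rsE Q.N e, Q.wsG, hSw Q (l8Mj c) Q.x _ _ _ _ vK _ K _ (fun t' => ?_) hEv (by rw [hQ]; exact hy.2.2.2.1) hAd ?_ hDo h8
    (l9ws_E_nonneg h8'.e_nn) (l9rs_adm Q hok hfi).2 ?_ ?_ l3 le_rfl l2 hl.le hl1 (hx.le.trans hxY) hY1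
    ((min_le_right _ _).trans (min_le_left _ _)) ((min_le_right _ _).trans (min_le_right _ _)) hKA
    (l9ws_ccw_mono (l9ws_ccw_anti hCC (min_le_left _ _)) hC2 hE3)⟩
  · rw [hQ]
    show (l9PtS _ N γ t').a = (l9PtS _ N γ θ).a
    rw [l9t_S_a, l9t_S_a]
  · rw [hQ]
    show (l9PtS _ N γ θ).a ≤ 4
    rw [l9t_S_a]
  · rw [hQ]
    show |(1 : ℝ)| ≤ 1
    rw [abs_one]
  · rw [hQ]
    show |(1 / 6 : ℝ)| ≤ 1
    rw [abs_of_nonneg (by norm_num)]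
    norm_num

/-- **`L9wCCS`** from the pointwise form of 64 (`l13y_num_ccw`) through the shell of 153 (`l9rc_shellS`) -/
theorem l9ws_ccS (𝔹 : LlBase) (F : LlFix) (hF : 0 ≤ F.eta ∧ 0 ≤ F.sS ∧ 0 ≤ F.pS) (hps : F.pS * F.sS ≤ 2) (c : ℝ) {v0 : ℝ} (hv0 : 0 < v0) (v1 cE : ℝ)
    (J0 : ℕ) : L9wCCS 𝔹 (l8Mj c) F v0 v1 cE J0 := by
  intro K δ hδ
  obtain ⟨pm, δ1, hpm, hδ1, hδ1', H⟩ := l9rc_shellS 𝔹 F hF hps c (l13y_num_ccw (l8Mj c) K J0) hv0 v1 cE hδ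
  refine ⟨pm, J0, 1, δ1, hpm, le_rfl, hδ1, hδ1', fun ε hε q hq C1 => ?_⟩
  obtain ⟨C, N0, hC⟩ := H J0 1 le_rfl ε hε q hq C1
  refine ⟨C, N0, fun N hN => Eventually.of_forall fun Fs m γ θ hy Q e hQ hok hfi hZ hBo => ?_⟩
  exact l9ws_ccw_anti (hC N hN Fs m γ θ hy Q e hQ hok hfi hZ hBo) (min_le_left _ _)

/-! ## 3. the form `LLGood` -/

/-- **LL08 + DIC + DOTS + COEF + CCw, size: the supplies of W5** -/
theorem l9ws_exit {T : ℝ} (hlow : L8xLow llBase T) (hfine : L8gFine llBase T) {F0 : LlFix} (h0 : L8Fix llBase T F0) (hG : LlcG1Exit llBase T) :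
    LLGood fun par => ∃ v0 : ℝ, 0 < v0 ∧ L9wSupS llBase (l9qMj par) (l9qF F0 par) v0 par.kPr := by
  refine l9q_of_stB hG h0 fun pB hSt => ?_
  refine l9q_FilB_intro fun pC eC => ?_
  obtain ⟨p0, cE, hp0, hcE, H⟩ := l9ws_supS hlow hfine h0 pB hSt pC.cC
  filter_upwards [l9q_FilC_to pC, l9q_FilC_of (l9q_FD_pStar pC hp0)] with par e1 hp
  subst eC
  subst e1
  obtain ⟨v0, v1, vt, hv0, hv1, hvt, H2⟩ := H par.pStar par.pStar_pos hp (l9q_expOk par).p_hi (l9q_expOk par)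
  exact ⟨vt, hvt, H2 par.kPr (l9ws_ccS llBase (l9qF F0 par) (l13y_F_ok F0 par).1 (l13y_F_ok F0 par).2 par.cC hv0 v1 cE par.kPr)⟩

end

theorem l9ws_eqns_cite : True := by
  have := @L9Q.wsG.eq_1; have := @L9wCCS.eq_1
  trivial

end Claimed.Agent.R286
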