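import Claimed.Agent.R286.Defs.L9Pre
import Claimed.Agent.R286.L09.RedC
import Claimed.Agent.R286.L09.RedSup
import Claimed.Agent.R286.L09.RedD0M
import Claimed.Agent.R286.L09.E4M
import Claimed.Agent.R286.L09.HiCo
import Claimed.Agent.R286.L09.CCNum
import Claimed.Agent.R286.Exit.DDir
import Claimed.Agent.R286.Exit.DLow
import Claimed.Agent.R286.L09.W5ExD
import Claimed.Agent.R286.L09.W5ExS
import Claimed.Agent.R286.L09.HiNumY
import Claimed.Agent.R286.L09.E4DX

/-!
# Row 286 (S0533), unit L09, file BndExit: THE NODES `exit_l9_bndS`, `exit_l9_bndD` IN THE FORM `LLGood`, ONE PRODUCER PER REGION AND PER SUPPLY      (architect helper282, ruling of helper60 04:50Z; prefix `l9x`, `exit_l9_`)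

    exit_l9_bndS (L09/Nodes)  <=  l9x_bndS  <=  exit_l9_hiS [HI, 235]  +  exit_l9_w5S [W5, 299]  +  l9x_redS
    exit_l9_hiS               <=  l9hi_par (L09/HiTop, 235, PROVED)  +  exit_l9_hiNumS [59, 124, 225, 71]  +  exit_l9_hiCoS, exit_l9_hiDifS (113, 69: PROVED)  +  exit_l9_admS                                       (PROVED glue, Sec. 3b)
    l9x_redS                  <=  l9c_redS (L09/RedC, PROVED)  +  exit_l9_e4S [(E4), 242]  +  exit_l9_d0S [densities: l9d0_S, 95, L09/RedD0M]  +  exit_l9_supS  +  exit_l9_admS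
    exit_l9_supS / supD       <=  l9rs_supS / supD (153, L09/RedSup, PROVED)  +  exit_dlow / exit_ddir, l8g_fine (LL 08)  +  exit_l9_ccS / ccD [CC = Lemma 9.1 on tables: 70, 30, 64, 153: PROVED]          (PROVED glue, Sec. 3b)
    exit_l9_admS / admD       <=  l9rs_admS / admD (153, PROVED)  +  l8g_fine                                                                                                    (PROVED glue, Sec. 3b)
    exit_l9_bndD (L09/Nodes)  <=  l9x_bndD  <=  exit_l9_hiD, exit_l9_w5D [W5 (i), (ii), 299]  +  l9x_redD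
    l9x_redD                  <=  l9c_redD (L09/RedC, PROVED)  +  exit_l9_e4D [242]  +  exit_l9_d0D [l9d0_D, 95]  +  exit_l9_supD  +  exit_l9_admD
ALL the producers speak about the data of `Defs/L9Pre.lean`: `l9qF F0 par`, `l9qMj par`, degrees `par.kPr` (size), `par.J0` (direct), cut `par.kappa`, threshold of the size regions `V_2 = x^(par.a2)`; the threshold of the direct regions is a
fixed small mass `cD`, chosen HERE (`cD = min c1 (cmax / (8 Cs))`), so the producers of the direct regions Hi, L5 are stated for EVERY `0 < cD ≤ 1` (ADV 213: `l9wb_DHi`, `l9wb_D5` of `L09/W5b.lean` ask `cD ≤ 1`).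
Every producer takes `(hG : LlcG1Exit llBase T)`, so the legal prefix `l9q_of_stB hG h0` is available.      The glue (second half of the file) is PROVED.
An owner proves his producer in his own file (imports `Defs/L9Pre`, `L09/RedC` or `L09/Bnd`), adds the import here and replaces the body by the citation.
-/

set_option autoImplicit false

namespace Claimed.Agent.R286

open Filter

/-! ## 1. the producers -/

section prod
variable (T : ℝ) (hT : 1 < T) (F0 : LlFix) (h0 : L8Fix llBase T F0) (hG : LlcG1Exit llBase T)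
include hT h0 hG

/-- **HI, size, THE supply: the numbers of LL 08 (+ LL 03) on the tables** (head helper235; owners helper59 [shell, arrow D15 / D16b], helper124 `L09/HiSup.lean` [`Q.HiNum`], helper225 + helper71 [`Q.HiLS` = D16, conclusion 2]):
shape `L9hiNumS` of `L09/HiTop.lean` -/
theorem exit_l9_hiNumS : LLGood fun par => L9hiNumS llBase (l9qMj par) (l9qF F0 par) par.kPr par.a1 par.a2 par.bH par.CH par.CL :=
  l9hm_exit T hT F0 h0 hG

/-- **(E4), size** (head helper242; `l9em_e4S` of helper276, `L09/E4M.lean` sec. 8, over `l9es_exit` of helper11: PROVED by citation, wire helper49) -/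
theorem exit_l9_e4S : LLGood fun par => ∃ Cs Cl : ℝ, 16 ≤ Cs ∧ 0 < Cl ∧ L9cE4S llBase (l9qF F0 par) Cs Cl :=
  .of_forall fun par => l9em_e4S (l9qF F0 par) (l9q_expOk par) (show LlBaseProfile llBase F0.T from h0.1.symm ▸ h0.2.1) (h0.2.2 _ _ _ (l9q_expOk par))
    (l9rs_admS (l8g_fine T hT) h0 par.toLLParB par.pStar_pos (l9q_expOk par).p_hi)

/-- **CC = Lemma 9.1 on tables, size** (helper70, helper30, helper64, helper153: PROVED, `L09/CCNum.lean`): the contract `L9cCCS` of 153 (`L09/RedSup.lean`), for all the constants of LL 08 -/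
theorem exit_l9_ccS : LLGood fun par => ∀ v0 v1 cE : ℝ, 0 < v0 → 0 < v1 → 0 < cE → L9cCCS llBase (l9qMj par) (l9qF F0 par) v0 v1 cE :=
  l13y_exit_ccS F0

/-- **W5 (i), direct** (helper291, `L09/W5ExD.lean`: PROVED by citation): terms with a base pair at mass `≥ cD` -/
theorem exit_l9_hiD : LLGood fun par => ∀ cD : ℝ, 0 < cD → cD ≤ 1 → L9BndDg llBase (l9qMj par) par.kappa par.J0 (l9qF F0 par) fun _ => l9RgHi cD :=
  l9we_hiD T hT F0 h0 hG

/-- **W5 (ii), direct** (helper291, `L09/W5ExD.lean`: PROVED by citation): all base pairs below `cD`, degree `≥ 5` -/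
theorem exit_l9_w5D : LLGood fun par => ∀ cD : ℝ, 0 < cD → cD ≤ 1 → L9BndDg llBase (l9qMj par) par.kappa par.J0 (l9qF F0 par) fun _ => l9RgL5 cD :=
  l9we_w5D T hT F0 h0 hG

/-- **(E4), direct** (head helper242; `L09/E4DX.lean` of helper166 + helper98: PROVED by citation) -/
theorem exit_l9_e4D : LLGood fun par => ∃ Cs cmax : ℝ, 16 ≤ Cs ∧ 0 < cmax ∧ L9cE4D llBase (l9qMj par) par.kappa (l9qF F0 par) Cs cmax :=
  l9edx_exit T F0 h0

/-- **CC = Lemma 9.1 on tables, direct** (helper70, helper30, helper64, helper153: PROVED, `L09/CCNum.lean`): the contract `L9cCCD` of 153, for all the constants of LL 08 -/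
theorem exit_l9_ccD : LLGood fun par => ∀ C0 δ0 v0 cE : ℝ, 1 ≤ C0 → 0 < δ0 → 0 < v0 → 0 < cE →
    L9cCCD llBase (l9qMj par) par.kappa (l9qF F0 par) C0 δ0 v0 cE :=
  l13y_exit_ccD F0

end prod

/-! ## 2. the exponents of `par` -/

theorem l9x_a2_lt (par : LLPar) : par.a2 < llDStar / 3 := by
  have h1 := par.a2_le
  have h2 := par.a1_le
  have h3 := par.bH_le
  have h4 := par.a0_le_dStar
  have h5 := par.CH_ge
  have h6 := par.a2_pos
  have h7 := par.a1_pos
  have h8 := par.a0_pos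
  have e1 : 100 * par.a2 ≤ par.a1 := by nlinarith
  have e2 : 100 * par.a1 ≤ par.bH := by nlinarith
  have hd : (0 : ℝ) < llDStar := by unfold llDStar; norm_num
  linarith

theorem l9x_p_lt (par : LLPar) : par.pStar < par.a2 := by
  have h1 := par.pStar_le_a2
  have h2 := par.CL_ge
  have h3 := par.pStar_pos
  nlinarith

theorem l9x_exp (F0 : LlFix) (par : LLPar) : L9cExp (l9qF F0 par) := by
  have ht := par.tau_pos
  have ht1 := par.tau_le
  have he := par.eta_pos
  have he1 := par.eta_le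
  have hp := par.pStar_pos
  have hp1 := l9x_p_lt par
  have ha := l9x_a2_lt par
  have hd : llDStar = 1 / 10000 := rfl
  have hs : (l9qF F0 par).sS = 1 / 2 - par.tau := rfl
  have hη : (l9qF F0 par).eta = par.eta := rfl
  have hpS : (l9qF F0 par).pS = par.pStar := rfl
  constructor <;> simp only [hs, hη, hpS] <;> linarith

theorem l9x_kPr (par : LLPar) : 2 ≤ par.kPr := by
  have h := par.kPr_ge
  have hd : llDStar = 1 / 10000 := rfl
  rw [hd] at h
  by_contra hh
  have : (par.kPr : ℝ) ≤ 1 := by exact_mod_cast (by omega : par.kPr ≤ 1)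
  linarith

theorem l9x_J0 (par : LLPar) : 2 ≤ par.J0 := (l9x_kPr par).trans par.J0_ge_kPr

theorem l9x_Zg_nn (par : LLPar) (F : LlFix) (𝔹 : LlBase) (Fs : Finset GhPos) (p : LlPt) (m : ℕ) : 0 ≤ (l9qMj par).Zg F 𝔹 Fs p m :=
  le_trans zero_le_one (le_max_left _ _)

/-! ## 3. the shapes are monotone -/

theorem L9SbD.mono {𝔹 : LlBase} {Mj : L9Mj} {κ : ℝ} {F : LlFix} {Φ Ψ : ℝ → L9Q → Prop} (h : L9SbD 𝔹 Mj κ F Φ) (hΦ : ∀ A Q, Φ A Q → Ψ A Q) :
    L9SbD 𝔹 Mj κ F Ψ := by
  intro δ hδ ε hε q hq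
  obtain ⟨C, N0, H⟩ := h δ hδ ε hε q hq
  refine ⟨C, N0, fun N hN => ?_⟩
  filter_upwards [H N hN] with Fs HF
  exact fun m ell γ t hy => hΦ _ _ (HF m ell γ t hy)

theorem L9SbS.mono {𝔹 : LlBase} {F : LlFix} {Φ Ψ : ℝ → L9Q → Prop} (h : L9SbS 𝔹 F Φ) (hΦ : ∀ A Q, Φ A Q → Ψ A Q) : L9SbS 𝔹 F Ψ := by
  intro δ hδ ε hε q hq
  obtain ⟨C, N0, H⟩ := h δ hδ ε hε q hq
  refine ⟨C, N0, fun N hN => ?_⟩
  filter_upwards [H N hN] with Fs HF
  exact fun m γ θ hy => hΦ _ _ (HF m γ θ hy)

/-- (E4) for the cuts up to a smaller mass -/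
theorem L9cE4D.anti {𝔹 : LlBase} {Mj : L9Mj} {κ : ℝ} {F : LlFix} {Cs cmax cmax' : ℝ} (h : L9cE4D 𝔹 Mj κ F Cs cmax) (hc : cmax' ≤ cmax) :
    L9cE4D 𝔹 Mj κ F Cs cmax' :=
  L9SbD.mono h fun _ _ hE => hE.anti hc

/-! ## 3b. LL 08 at the points of Sec. 9: the producers of 153 (`L09/RedSup.lean`) in the form `LLGood` -/

theorem l9x_p_le (par : LLPar) : par.pStar ≤ 1 := by
  have h1 := l9x_p_lt par
  have h2 := l9x_a2_lt par
  have hd : llDStar = 1 / 10000 := rfl
  linarith

section sup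
variable (T : ℝ) (hT : 1 < T) (F0 : LlFix) (h0 : L8Fix llBase T F0) (hG : LlcG1Exit llBase T)
include hT h0

/-- **chains, size** -/
theorem exit_l9_admS : LLGood fun par => L9cAdmS llBase (l9qF F0 par) :=
  .of_forall fun par => l9rs_admS (l8g_fine T hT) h0 par.toLLParB par.pStar_pos (l9x_p_le par)

/-- **HI, size: the scalar coefficients** (helper113 `L09/HiCo.lean`, helper69 `L09/Dots.lean`) -/
theorem exit_l9_hiCoS : LLGood fun par => L9hiCoS llBase (l9qF F0 par) par.kPr par.a1 par.a2 :=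
  .of_forall fun par => l9hc_coS llBase (l9qF F0 par) (l9q_expOk par) (h0.2.2 _ _ _ (l9q_expOk par)).sec3
    (l9rs_admS (l8g_fine T hT) h0 par.toLLParB par.pStar_pos (l9x_p_le par)) par.kPr par.a1_pos par.a2

/-- **HI, size: differentiability of the scalar coefficients along the segment** (helper113) -/
theorem exit_l9_hiDifS : LLGood fun par => L9hiDifS llBase (l9qF F0 par) :=
  .of_forall fun par => l9hc_difS llBase (l9qF F0 par) (l9q_expOk par) (h0.2.2 _ _ _ (l9q_expOk par)).sec3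

include hG in
/-- **HI, size** (owner helper235): terms with a base pair at mass `≥ V_2`      (PROVED glue: `l9hi_par`, `L09/HiTop.lean`) -/
theorem exit_l9_hiS : LLGood fun par => L9BndSg llBase (l9qMj par) par.kPr (l9qF F0 par) fun x => l9RgHi (x ^ par.a2) := by
  filter_upwards [exit_l9_hiNumS T hT F0 h0 hG, exit_l9_hiCoS T hT F0 h0, exit_l9_hiDifS T hT F0 h0, exit_l9_admS T hT F0 h0] with par h1 h2 h3 h4
  exact l9hi_par F0 par h1 h2 h3 h4

/-- **chains, direct** -/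
theorem exit_l9_admD : LLGood fun par => L9cAdmD llBase (l9qMj par) par.kappa (l9qF F0 par) :=
  .of_forall fun par => l9rs_admD (l8g_fine T hT) h0 par.toLLParB par.pStar_pos (l9x_p_le par) par.cC par.kappa

include hG

/-- **W5, size** (helper236, `L09/W5ExS.lean`: `l9ws_exit`; consumer `l9wb_S5` of 266): all base pairs below `V_2`, degree `≥ 5`      (PROVED glue) -/
theorem exit_l9_w5S : LLGood fun par => L9BndSg llBase (l9qMj par) par.kPr (l9qF F0 par) fun x => l9RgL5 (x ^ par.a2) := by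
  filter_upwards [l9ws_exit (exit_dlow T hT) (l8g_fine T hT) h0 hG, exit_l9_admS T hT F0 h0] with par ⟨v0, hv0, hS⟩ hA
  exact l9wb_S5 llBase (l9qMj par) par.kPr (l9x_kPr par) (l9qF F0 par) (l9x_exp F0 par) par.a2 (l9x_p_lt par) (l9x_a2_lt par) v0 hv0 hS hA (l9x_Zg_nn par _ _)

/-- **densities, size** (helper95: `l9d0_S`, `L09/RedD0M.lean`) -/
theorem exit_l9_d0S : LLGood fun par => L9cD0S llBase (l9qF F0 par) par.a2 :=
  .of_forall fun par => l9d0_S llBase (l9qF F0 par) (l9q_expOk par) (h0.2.2 _ _ _ (l9q_expOk par)).sec3 par.a2_pos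
    (l9rs_admS (l8g_fine T hT) h0 par.toLLParB par.pStar_pos (l9x_p_le par))

/-- **densities, direct** (helper95: `l9d0_D`, `L09/RedD0M.lean`; every threshold) -/
theorem exit_l9_d0D : LLGood fun par => ∃ c1 : ℝ, 0 < c1 ∧ ∀ cD : ℝ, 0 < cD → cD ≤ c1 → L9cD0D llBase (l9qMj par) par.kappa (l9qF F0 par) cD :=
  .of_forall fun par => ⟨1, one_pos, fun cD _ _ => l9d0_D llBase (l9qMj par) par.kappa (l9qF F0 par) (l9q_expOk par)
    (by have h := h0.2.1; rw [← h0.1] at h; exact h) (h0.2.2 _ _ _ (l9q_expOk par)).sec3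
    (l9rs_admD (l8g_fine T hT) h0 par.toLLParB par.pStar_pos (l9x_p_le par) par.cC par.kappa) cD⟩

/-- **LL08 + DIC + CC, direct** -/
theorem exit_l9_supD : LLGood fun par => ∃ v0 : ℝ, 0 < v0 ∧ L9cSupD llBase (l9qMj par) par.kappa (l9qF F0 par) v0 := by
  filter_upwards [exit_l9_ccD T hT F0 h0 hG] with par hcc
  obtain ⟨C0, δ0, v0, cE, hC0, hδ0, hv0, hcE, H⟩ :=
    l9rs_supD (exit_ddir T hT) (l8g_fine T hT) h0 par.toLLParB par.pStar_pos (l9x_p_le par) par.cC
  exact ⟨min v0 1, lt_min hv0 one_pos, (H par.kappa par.kappa_pos (hcc C0 δ0 v0 cE hC0 hδ0 hv0 hcE)).supD⟩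

/-- **LL08 + DIC + CC, size** -/
theorem exit_l9_supS : LLGood fun par => ∃ v0 : ℝ, 0 < v0 ∧ L9cSupS llBase (l9qMj par) (l9qF F0 par) v0 := by
  have key : LLGood fun par => (∀ v0 v1 cE : ℝ, 0 < v0 → 0 < v1 → 0 < cE → L9cCCS llBase (l9qMj par) (l9qF F0 par) v0 v1 cE) →
      ∃ v0 : ℝ, 0 < v0 ∧ L9cSupS llBase (l9qMj par) (l9qF F0 par) v0 := by
    refine l9q_of_stB hG h0 fun pB hSt => ?_
    refine l9q_FilB_intro fun pC eC => ?_
    obtain ⟨p0, cE, hp0, hcE, H⟩ := l9rs_supS (exit_dlow T hT) (l8g_fine T hT) h0 pB hSt pC.cC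
    filter_upwards [l9q_FilC_to pC, l9q_FilC_of (l9q_FD_pStar pC hp0)] with par e1 hp hcc
    obtain ⟨v0, v1, hv0, hv1, H2⟩ := H par.pStar par.pStar_pos hp (l9x_p_le par)
    subst eC
    subst e1
    exact ⟨min v0 v1, lt_min hv0 hv1, H2 (hcc v0 v1 cE hv0 hv1 hcE)⟩
  filter_upwards [key, exit_l9_ccS T hT F0 h0 hG] with par h1 h2 using h1 h2

end sup

/-! ## 4. the glue -/

section glue
variable (T : ℝ) (hT : 1 < T) (F0 : LlFix) (h0 : L8Fix llBase T F0) (hG : LlcG1Exit llBase T)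
include hT h0 hG

/-- **RED, size**, in the form `LLGood` -/
theorem l9x_redS : LLGood fun par => L9BndSg llBase (l9qMj par) par.kPr (l9qF F0 par) fun x => l9RgL4 (x ^ par.a2) := by
  filter_upwards [exit_l9_e4S T hT F0 h0 hG, exit_l9_d0S T hT F0 h0 hG, exit_l9_supS T hT F0 h0 hG, exit_l9_admS T hT F0 h0]
    with par ⟨Cs, Cl, hCs, hCl, hE4⟩ hD0 ⟨v0, hv0, hSup⟩ hAdm
  exact l9c_redS llBase (l9qMj par) par.kPr (l9x_kPr par) (l9qF F0 par) (l9x_exp F0 par) par.a2 (l9x_p_lt par) (l9x_a2_lt par) Cs Cl v0 hCs hCl hv0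
    hE4 hD0 hSup hAdm (l9x_Zg_nn par _ _)

/-- **NODE BndS** -/
theorem l9x_bndS : LLGood fun par => L9BndS llBase (l9qMj par) par.kPr (l9qF F0 par) := by
  filter_upwards [exit_l9_hiS T hT F0 h0 hG, exit_l9_w5S T hT F0 h0 hG, l9x_redS T hT F0 h0 hG] with par h1 h2 h3
  exact l9b_bndS llBase (l9qMj par) par.kPr (l9qF F0 par) (fun x => x ^ par.a2) h1 h2 h3

/-- **RED, direct**, in the form `LLGood`: the fixed mass `cD` is chosen here -/
theorem l9x_redD : LLGood fun par => ∃ cD : ℝ, 0 < cD ∧ cD ≤ 1 ∧ L9BndDg llBase (l9qMj par) par.kappa par.J0 (l9qF F0 par) fun _ => l9RgL4 cD := by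
  filter_upwards [exit_l9_e4D T hT F0 h0 hG, exit_l9_d0D T hT F0 h0 hG, exit_l9_supD T hT F0 h0 hG, exit_l9_admD T hT F0 h0]
    with par ⟨Cs, cmax, hCs, hcm, hE4⟩ ⟨c1, hc1, hD0⟩ ⟨v0, hv0, hSup⟩ hAdm
  have hm0 : 0 < min cmax (min 1 v0) := lt_min hcm (lt_min one_pos hv0)
  have hCs0 : (0 : ℝ) < 8 * Cs := by linarith
  have hcD : 0 < min c1 (min cmax (min 1 v0) / (8 * Cs)) := lt_min hc1 (div_pos hm0 hCs0)
  have hcD1 : min c1 (min cmax (min 1 v0) / (8 * Cs)) ≤ 1 := by
    refine (min_le_right _ _).trans ((div_le_one hCs0).2 ?_)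
    have : min cmax (min 1 v0) ≤ 1 := (min_le_right _ _).trans (min_le_left _ _)
    linarith
  refine ⟨min c1 (min cmax (min 1 v0) / (8 * Cs)), hcD, hcD1, ?_⟩
  refine l9c_redD llBase (l9qMj par) par.kappa par.kappa_pos par.J0 (l9x_J0 par) (l9qF F0 par) (l9x_exp F0 par) Cs (min cmax (min 1 v0)) _ v0 hCs hm0
    ((min_le_right _ _).trans (min_le_left _ _)) ((min_le_right _ _).trans (min_le_right _ _)) hcD ?_ (hE4.anti (min_le_left _ _))
    (hD0 _ hcD (min_le_left _ _)) hSup hAdm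
  calc 8 * Cs * min c1 (min cmax (min 1 v0) / (8 * Cs)) ≤ 8 * Cs * (min cmax (min 1 v0) / (8 * Cs)) :=
        mul_le_mul_of_nonneg_left (min_le_right _ _) hCs0.le
    _ = min cmax (min 1 v0) := by field_simp

/-- **NODE BndD** -/
theorem l9x_bndD : LLGood fun par => L9BndD llBase (l9qMj par) par.kappa par.J0 (l9qF F0 par) := by
  filter_upwards [exit_l9_hiD T hT F0 h0 hG, exit_l9_w5D T hT F0 h0 hG, l9x_redD T hT F0 h0 hG] with par h1 h2 ⟨cD, hcD, hcD1, h3⟩
  exact l9b_bndD llBase (l9qMj par) par.kappa par.J0 (l9qF F0 par) (fun _ => cD) (h1 cD hcD hcD1) (h2 cD hcD hcD1) h3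

end glue

end Claimed.Agent.R286
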