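import Claimed.Agent.R286.Defs.LLParEx

/-!
# Row 286 (S0533), unit L09, file ParChain: THE PARAMETER CHAIN OF THE BODY      (owner helper70; spec helper60 `notes/R286/PARCHAIN_60.md`; prefix `l9q`, `LLGood`)

`LLGood Φ` = **"Φ par holds for all sufficiently small exponents, chosen in the order of LL Sec. 10"** = THE form of every exit which is consumed by the last glue of the body (`Exit/Inc.lean`).

DEFINITION.   `LLGood Φ := ∀ᶠ par in l9qFil, Φ par`, where `l9qFil : Filter LLPar` is the iterated filter with ONE level per field of 242's `LLPar`, in the order of the stages A..F and of the fields inside a stage: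
   small fields  (`cG | tau eta tau0 bs bl he | cC cP | a0 bH a1 a2 pStar | zeta sigL rho | kappa dPr epsG cFin epsL`):   `∀ᶠ t in 𝓝[>] 0`   (`l9qS`)
   large fields  (`kRow kPr CH CL | nSt | C0 J0 pMom pTr rSt`):                                                              `∀ᶠ t in atTop`    (`l9qL`, `l9qN`)
 so `LLGood Φ ↔ ∀ᶠ cG, ∀ pA (cG), ∀ᶠ tau, ∀ᶠ eta, .., ∀ pB (pA, tau, ..), ∀ᶠ cC, .. , ∀ par (pE, kappa, ..), Φ par`   (`l9q_Fil_iff`, `l9q_FilA_iff`, .., `l9q_FA_iff`, `l9q_FB_iff`, ..).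
CONVENTION (60).   A SAVING may be decreased, a LOSS / a degree may be increased.   So the EXTERNAL constants (`cG` of (G1), `cC` of (C2), `cP` of (P11), `CH`, `CL`, `C0`) are thresholds like all the others.

HOW TO USE IT
 * it is an `Eventually`: `filter_upwards [h1, h2] with par a b`, `.mono`, `.and` work;   `LLGood.exists : LLGood Φ → ∃ par, Φ par`.
 * quantify over an EARLIER stage:   `LLGood.of_C : (∀ pC, ∀ᶠ par in l9qFilC pC, Φ par) → LLGood Φ`;   `l9qFilC pC` = the filter of the choices after the stage C;   `l9q_FilC_to : ∀ᶠ par in l9qFilC pC, par.toLLParC = pC`.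
 * go one stage down:   `l9q_FilC_iff : (∀ᶠ par in l9qFilC pC, Φ par) ↔ ∀ᶠ pD in l9qFD pC, ∀ᶠ par in l9qFilD pD, Φ par`;   skip it: `l9q_FilC_intro`;   lift a fact of the stage: `l9q_FilC_of`.
 * thresholds inside a stage:   `l9q_FD_pStar pC (ht : 0 < t) : ∀ᶠ p in l9qFD pC, p.pStar ≤ t` (one lemma per field);   NESTED thresholds inside one stage: `l9q_FD_iff` + `l9q_evS_iff` (`∀ᶠ t in 𝓝[>] 0, P t ↔ ∃ t0 > 0, ∀ t, 0 < t → t ≤ t0 → P t`).
 * the form of the header of `Defs/LLPar.lean`:   `LLGood.thr_zeta : (∀ pD : LLParD, ∃ thr > 0, ∀ par, par.toLLParD = pD → par.zeta ≤ thr → Φ par) → LLGood Φ` (one adapter per field).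
Everything in this file is PROVED (Mathlib + `Defs/LLPar`, `Defs/LLParEx` only).
-/

set_option autoImplicit false

namespace Claimed.Agent.R286

open Filter Topology

noncomputable section

/-- "small positive" -/
abbrev l9qS : Filter ℝ := 𝓝[>] (0 : ℝ)
/-- "large real" -/
abbrev l9qL : Filter ℝ := atTop
/-- "large integer" -/
abbrev l9qN : Filter ℕ := atTop

theorem l9q_small {t0 : ℝ} (h : 0 < t0) : ∀ᶠ t in l9qS, 0 < t ∧ t ≤ t0 := by
  filter_upwards [Ioc_mem_nhdsGT h] with t ht using ht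

/-- a level "small" in threshold form -/
theorem l9q_evS_iff (P : ℝ → Prop) : (∀ᶠ t in l9qS, P t) ↔ ∃ t0 : ℝ, 0 < t0 ∧ ∀ t, 0 < t → t ≤ t0 → P t := by
  constructor
  · intro h
    obtain ⟨u, hu, H⟩ := (mem_nhdsGT_iff_exists_Ioc_subset).1 h
    exact ⟨u, hu, fun t h0 h1 => H ⟨h0, h1⟩⟩
  · rintro ⟨t0, h0, H⟩
    filter_upwards [l9q_small h0] with t ht using H t ht.1 ht.2

/-- a level "large real" in threshold form -/
theorem l9q_evL_iff (P : ℝ → Prop) : (∀ᶠ t in l9qL, P t) ↔ ∃ t0 : ℝ, ∀ t, t0 ≤ t → P t := eventually_atTop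

/-- a level "large integer" in threshold form -/
theorem l9q_evN_iff (P : ℕ → Prop) : (∀ᶠ t in l9qN, P t) ↔ ∃ t0 : ℕ, ∀ t, t0 ≤ t → P t := eventually_atTop

/-! ### stage A -/

/-- the filter of the choices of stage A -/
def l9qFA : Filter LLParA := comap (fun p : LLParA => p.cG) (l9qS)

/-- UNFOLDING: one `∀ᶠ` per field, in the order of the fields -/
theorem l9q_FA_iff (Ψ : LLParA → Prop) :
    (∀ᶠ p in l9qFA, Ψ p) ↔ ∀ᶠ cG in l9qS,
      ∀ p : LLParA, p.cG = cG → Ψ p := by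
  simp only [l9qFA, eventually_comap]

theorem l9q_FA_cG {t : ℝ} (ht : 0 < t) : ∀ᶠ p in l9qFA, p.cG ≤ t := by
  rw [l9q_FA_iff]
  filter_upwards [l9q_small ht] with _ h
  intro p e
  rw [e]; exact h.2

/-! ### stage B -/

/-- the filter of the choices of stage B after the stage A -/
def l9qFB (pA : LLParA) : Filter LLParB :=
  comap (fun p : LLParB => (p.tau, p.eta, p.tau0, p.bs, p.bl, p.he))
    (l9qS.curry <| l9qS.curry <| l9qS.curry <| l9qS.curry <| l9qS.curry l9qS) ⊓ 𝓟 {p | p.toLLParA = pA}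

/-- UNFOLDING: one `∀ᶠ` per field, in the order of the fields -/
theorem l9q_FB_iff (pA : LLParA) (Ψ : LLParB → Prop) :
    (∀ᶠ p in l9qFB pA, Ψ p) ↔ ∀ᶠ tau in l9qS, ∀ᶠ eta in l9qS, ∀ᶠ tau0 in l9qS, ∀ᶠ bs in l9qS, ∀ᶠ bl in l9qS, ∀ᶠ he in l9qS,
      ∀ p : LLParB, p.tau = tau → p.eta = eta → p.tau0 = tau0 → p.bs = bs → p.bl = bl → p.he = he → p.toLLParA = pA → Ψ p := by
  simp only [l9qFB, eventually_inf_principal, eventually_comap, eventually_curry_iff, Prod.mk.injEq, and_imp, Set.mem_ofPred_eq]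

theorem l9q_FB_to (pA : LLParA) : ∀ᶠ p in l9qFB pA, p.toLLParA = pA :=
  eventually_inf_principal.2 (.of_forall fun _ h => h)

theorem l9q_FB_tau (pA : LLParA) {t : ℝ} (ht : 0 < t) : ∀ᶠ p in l9qFB pA, p.tau ≤ t := by
  rw [l9q_FB_iff]
  filter_upwards [l9q_small ht] with _ h
  refine .of_forall fun _ => .of_forall fun _ => .of_forall fun _ => .of_forall fun _ => .of_forall fun _ => ?_
  intro p e _ _ _ _ _ _
  rw [e]; exact h.2

theorem l9q_FB_eta (pA : LLParA) {t : ℝ} (ht : 0 < t) : ∀ᶠ p in l9qFB pA, p.eta ≤ t := by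
  rw [l9q_FB_iff]
  refine .of_forall fun _ => ?_
  filter_upwards [l9q_small ht] with _ h
  refine .of_forall fun _ => .of_forall fun _ => .of_forall fun _ => .of_forall fun _ => ?_
  intro p _ e _ _ _ _ _
  rw [e]; exact h.2

theorem l9q_FB_tau0 (pA : LLParA) {t : ℝ} (ht : 0 < t) : ∀ᶠ p in l9qFB pA, p.tau0 ≤ t := by
  rw [l9q_FB_iff]
  refine .of_forall fun _ => .of_forall fun _ => ?_
  filter_upwards [l9q_small ht] with _ h
  refine .of_forall fun _ => .of_forall fun _ => .of_forall fun _ => ?_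
  intro p _ _ e _ _ _ _
  rw [e]; exact h.2

theorem l9q_FB_bs (pA : LLParA) {t : ℝ} (ht : 0 < t) : ∀ᶠ p in l9qFB pA, p.bs ≤ t := by
  rw [l9q_FB_iff]
  refine .of_forall fun _ => .of_forall fun _ => .of_forall fun _ => ?_
  filter_upwards [l9q_small ht] with _ h
  refine .of_forall fun _ => .of_forall fun _ => ?_
  intro p _ _ _ e _ _ _
  rw [e]; exact h.2

theorem l9q_FB_bl (pA : LLParA) {t : ℝ} (ht : 0 < t) : ∀ᶠ p in l9qFB pA, p.bl ≤ t := by
  rw [l9q_FB_iff]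
  refine .of_forall fun _ => .of_forall fun _ => .of_forall fun _ => .of_forall fun _ => ?_
  filter_upwards [l9q_small ht] with _ h
  refine .of_forall fun _ => ?_
  intro p _ _ _ _ e _ _
  rw [e]; exact h.2

theorem l9q_FB_he (pA : LLParA) {t : ℝ} (ht : 0 < t) : ∀ᶠ p in l9qFB pA, p.he ≤ t := by
  rw [l9q_FB_iff]
  refine .of_forall fun _ => .of_forall fun _ => .of_forall fun _ => .of_forall fun _ => .of_forall fun _ => ?_
  filter_upwards [l9q_small ht] with _ h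
  intro p _ _ _ _ _ e _
  rw [e]; exact h.2

/-! ### stage C -/

/-- the filter of the choices of stage C after the stage B -/
def l9qFC (pB : LLParB) : Filter LLParC :=
  comap (fun p : LLParC => (p.cC, p.cP, p.kRow, p.kPr, p.CH, p.CL))
    (l9qS.curry <| l9qS.curry <| l9qN.curry <| l9qN.curry <| l9qL.curry l9qL) ⊓ 𝓟 {p | p.toLLParB = pB}

/-- UNFOLDING: one `∀ᶠ` per field, in the order of the fields -/
theorem l9q_FC_iff (pB : LLParB) (Ψ : LLParC → Prop) :
    (∀ᶠ p in l9qFC pB, Ψ p) ↔ ∀ᶠ cC in l9qS, ∀ᶠ cP in l9qS, ∀ᶠ kRow in l9qN, ∀ᶠ kPr in l9qN, ∀ᶠ CH in l9qL, ∀ᶠ CL in l9qL,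
      ∀ p : LLParC, p.cC = cC → p.cP = cP → p.kRow = kRow → p.kPr = kPr → p.CH = CH → p.CL = CL → p.toLLParB = pB → Ψ p := by
  simp only [l9qFC, eventually_inf_principal, eventually_comap, eventually_curry_iff, Prod.mk.injEq, and_imp, Set.mem_ofPred_eq]

theorem l9q_FC_to (pB : LLParB) : ∀ᶠ p in l9qFC pB, p.toLLParB = pB :=
  eventually_inf_principal.2 (.of_forall fun _ h => h)

theorem l9q_FC_cC (pB : LLParB) {t : ℝ} (ht : 0 < t) : ∀ᶠ p in l9qFC pB, p.cC ≤ t := by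
  rw [l9q_FC_iff]
  filter_upwards [l9q_small ht] with _ h
  refine .of_forall fun _ => .of_forall fun _ => .of_forall fun _ => .of_forall fun _ => .of_forall fun _ => ?_
  intro p e _ _ _ _ _ _
  rw [e]; exact h.2

theorem l9q_FC_cP (pB : LLParB) {t : ℝ} (ht : 0 < t) : ∀ᶠ p in l9qFC pB, p.cP ≤ t := by
  rw [l9q_FC_iff]
  refine .of_forall fun _ => ?_
  filter_upwards [l9q_small ht] with _ h
  refine .of_forall fun _ => .of_forall fun _ => .of_forall fun _ => .of_forall fun _ => ?_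
  intro p _ e _ _ _ _ _
  rw [e]; exact h.2

theorem l9q_FC_kRow (pB : LLParB) (t : ℕ) : ∀ᶠ p in l9qFC pB, t ≤ p.kRow := by
  rw [l9q_FC_iff]
  refine .of_forall fun _ => .of_forall fun _ => ?_
  filter_upwards [eventually_ge_atTop t] with _ h
  refine .of_forall fun _ => .of_forall fun _ => .of_forall fun _ => ?_
  intro p _ _ e _ _ _ _
  rw [e]; exact h

theorem l9q_FC_kPr (pB : LLParB) (t : ℕ) : ∀ᶠ p in l9qFC pB, t ≤ p.kPr := by
  rw [l9q_FC_iff]
  refine .of_forall fun _ => .of_forall fun _ => .of_forall fun _ => ?_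
  filter_upwards [eventually_ge_atTop t] with _ h
  refine .of_forall fun _ => .of_forall fun _ => ?_
  intro p _ _ _ e _ _ _
  rw [e]; exact h

theorem l9q_FC_CH (pB : LLParB) (t : ℝ) : ∀ᶠ p in l9qFC pB, t ≤ p.CH := by
  rw [l9q_FC_iff]
  refine .of_forall fun _ => .of_forall fun _ => .of_forall fun _ => .of_forall fun _ => ?_
  filter_upwards [eventually_ge_atTop t] with _ h
  refine .of_forall fun _ => ?_
  intro p _ _ _ _ e _ _
  rw [e]; exact h

theorem l9q_FC_CL (pB : LLParB) (t : ℝ) : ∀ᶠ p in l9qFC pB, t ≤ p.CL := by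
  rw [l9q_FC_iff]
  refine .of_forall fun _ => .of_forall fun _ => .of_forall fun _ => .of_forall fun _ => .of_forall fun _ => ?_
  filter_upwards [eventually_ge_atTop t] with _ h
  intro p _ _ _ _ _ e _
  rw [e]; exact h

/-! ### stage D -/

/-- the filter of the choices of stage D after the stage C -/
def l9qFD (pC : LLParC) : Filter LLParD :=
  comap (fun p : LLParD => (p.a0, p.bH, p.a1, p.a2, p.pStar))
    (l9qS.curry <| l9qS.curry <| l9qS.curry <| l9qS.curry l9qS) ⊓ 𝓟 {p | p.toLLParC = pC}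

/-- UNFOLDING: one `∀ᶠ` per field, in the order of the fields -/
theorem l9q_FD_iff (pC : LLParC) (Ψ : LLParD → Prop) :
    (∀ᶠ p in l9qFD pC, Ψ p) ↔ ∀ᶠ a0 in l9qS, ∀ᶠ bH in l9qS, ∀ᶠ a1 in l9qS, ∀ᶠ a2 in l9qS, ∀ᶠ pStar in l9qS,
      ∀ p : LLParD, p.a0 = a0 → p.bH = bH → p.a1 = a1 → p.a2 = a2 → p.pStar = pStar → p.toLLParC = pC → Ψ p := by
  simp only [l9qFD, eventually_inf_principal, eventually_comap, eventually_curry_iff, Prod.mk.injEq, and_imp, Set.mem_ofPred_eq]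

theorem l9q_FD_to (pC : LLParC) : ∀ᶠ p in l9qFD pC, p.toLLParC = pC :=
  eventually_inf_principal.2 (.of_forall fun _ h => h)

theorem l9q_FD_a0 (pC : LLParC) {t : ℝ} (ht : 0 < t) : ∀ᶠ p in l9qFD pC, p.a0 ≤ t := by
  rw [l9q_FD_iff]
  filter_upwards [l9q_small ht] with _ h
  refine .of_forall fun _ => .of_forall fun _ => .of_forall fun _ => .of_forall fun _ => ?_
  intro p e _ _ _ _ _
  rw [e]; exact h.2

theorem l9q_FD_bH (pC : LLParC) {t : ℝ} (ht : 0 < t) : ∀ᶠ p in l9qFD pC, p.bH ≤ t := by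
  rw [l9q_FD_iff]
  refine .of_forall fun _ => ?_
  filter_upwards [l9q_small ht] with _ h
  refine .of_forall fun _ => .of_forall fun _ => .of_forall fun _ => ?_
  intro p _ e _ _ _ _
  rw [e]; exact h.2

theorem l9q_FD_a1 (pC : LLParC) {t : ℝ} (ht : 0 < t) : ∀ᶠ p in l9qFD pC, p.a1 ≤ t := by
  rw [l9q_FD_iff]
  refine .of_forall fun _ => .of_forall fun _ => ?_
  filter_upwards [l9q_small ht] with _ h
  refine .of_forall fun _ => .of_forall fun _ => ?_
  intro p _ _ e _ _ _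
  rw [e]; exact h.2

theorem l9q_FD_a2 (pC : LLParC) {t : ℝ} (ht : 0 < t) : ∀ᶠ p in l9qFD pC, p.a2 ≤ t := by
  rw [l9q_FD_iff]
  refine .of_forall fun _ => .of_forall fun _ => .of_forall fun _ => ?_
  filter_upwards [l9q_small ht] with _ h
  refine .of_forall fun _ => ?_
  intro p _ _ _ e _ _
  rw [e]; exact h.2

theorem l9q_FD_pStar (pC : LLParC) {t : ℝ} (ht : 0 < t) : ∀ᶠ p in l9qFD pC, p.pStar ≤ t := by
  rw [l9q_FD_iff]
  refine .of_forall fun _ => .of_forall fun _ => .of_forall fun _ => .of_forall fun _ => ?_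
  filter_upwards [l9q_small ht] with _ h
  intro p _ _ _ _ e _
  rw [e]; exact h.2

/-! ### stage E -/

/-- the filter of the choices of stage E after the stage D -/
def l9qFE (pD : LLParD) : Filter LLParE :=
  comap (fun p : LLParE => (p.nSt, p.zeta, p.sigL, p.rho))
    (l9qN.curry <| l9qS.curry <| l9qS.curry l9qS) ⊓ 𝓟 {p | p.toLLParD = pD}

/-- UNFOLDING: one `∀ᶠ` per field, in the order of the fields -/
theorem l9q_FE_iff (pD : LLParD) (Ψ : LLParE → Prop) :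
    (∀ᶠ p in l9qFE pD, Ψ p) ↔ ∀ᶠ nSt in l9qN, ∀ᶠ zeta in l9qS, ∀ᶠ sigL in l9qS, ∀ᶠ rho in l9qS,
      ∀ p : LLParE, p.nSt = nSt → p.zeta = zeta → p.sigL = sigL → p.rho = rho → p.toLLParD = pD → Ψ p := by
  simp only [l9qFE, eventually_inf_principal, eventually_comap, eventually_curry_iff, Prod.mk.injEq, and_imp, Set.mem_ofPred_eq]

theorem l9q_FE_to (pD : LLParD) : ∀ᶠ p in l9qFE pD, p.toLLParD = pD :=
  eventually_inf_principal.2 (.of_forall fun _ h => h)

theorem l9q_FE_nSt (pD : LLParD) (t : ℕ) : ∀ᶠ p in l9qFE pD, t ≤ p.nSt := by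
  rw [l9q_FE_iff]
  filter_upwards [eventually_ge_atTop t] with _ h
  refine .of_forall fun _ => .of_forall fun _ => .of_forall fun _ => ?_
  intro p e _ _ _ _
  rw [e]; exact h

theorem l9q_FE_zeta (pD : LLParD) {t : ℝ} (ht : 0 < t) : ∀ᶠ p in l9qFE pD, p.zeta ≤ t := by
  rw [l9q_FE_iff]
  refine .of_forall fun _ => ?_
  filter_upwards [l9q_small ht] with _ h
  refine .of_forall fun _ => .of_forall fun _ => ?_
  intro p _ e _ _ _
  rw [e]; exact h.2

theorem l9q_FE_sigL (pD : LLParD) {t : ℝ} (ht : 0 < t) : ∀ᶠ p in l9qFE pD, p.sigL ≤ t := by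
  rw [l9q_FE_iff]
  refine .of_forall fun _ => .of_forall fun _ => ?_
  filter_upwards [l9q_small ht] with _ h
  refine .of_forall fun _ => ?_
  intro p _ _ e _ _
  rw [e]; exact h.2

theorem l9q_FE_rho (pD : LLParD) {t : ℝ} (ht : 0 < t) : ∀ᶠ p in l9qFE pD, p.rho ≤ t := by
  rw [l9q_FE_iff]
  refine .of_forall fun _ => .of_forall fun _ => .of_forall fun _ => ?_
  filter_upwards [l9q_small ht] with _ h
  intro p _ _ _ e _
  rw [e]; exact h.2

/-! ### stage F -/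

/-- the filter of the choices of stage F after the stage E -/
def l9qFF (pE : LLParE) : Filter LLPar :=
  comap (fun p : LLPar => (p.kappa, p.C0, p.dPr, p.J0, p.pMom, p.pTr, p.epsG, p.rSt, p.cFin, p.epsL))
    (l9qS.curry <| l9qL.curry <| l9qS.curry <| l9qN.curry <| l9qN.curry <| l9qN.curry <| l9qS.curry <| l9qN.curry <| l9qS.curry l9qS) ⊓ 𝓟 {p | p.toLLParE = pE}

/-- UNFOLDING: one `∀ᶠ` per field, in the order of the fields -/
theorem l9q_FF_iff (pE : LLParE) (Ψ : LLPar → Prop) :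
    (∀ᶠ p in l9qFF pE, Ψ p) ↔ ∀ᶠ kappa in l9qS, ∀ᶠ C0 in l9qL, ∀ᶠ dPr in l9qS, ∀ᶠ J0 in l9qN, ∀ᶠ pMom in l9qN, ∀ᶠ pTr in l9qN, ∀ᶠ epsG in l9qS, ∀ᶠ rSt in l9qN, ∀ᶠ cFin in l9qS, ∀ᶠ epsL in l9qS,
      ∀ p : LLPar, p.kappa = kappa → p.C0 = C0 → p.dPr = dPr → p.J0 = J0 → p.pMom = pMom → p.pTr = pTr → p.epsG = epsG → p.rSt = rSt → p.cFin = cFin → p.epsL = epsL → p.toLLParE = pE → Ψ p := by
  simp only [l9qFF, eventually_inf_principal, eventually_comap, eventually_curry_iff, Prod.mk.injEq, and_imp, Set.mem_ofPred_eq]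

theorem l9q_FF_to (pE : LLParE) : ∀ᶠ p in l9qFF pE, p.toLLParE = pE :=
  eventually_inf_principal.2 (.of_forall fun _ h => h)

theorem l9q_FF_kappa (pE : LLParE) {t : ℝ} (ht : 0 < t) : ∀ᶠ p in l9qFF pE, p.kappa ≤ t := by
  rw [l9q_FF_iff]
  filter_upwards [l9q_small ht] with _ h
  refine .of_forall fun _ => .of_forall fun _ => .of_forall fun _ => .of_forall fun _ => .of_forall fun _ => .of_forall fun _ => .of_forall fun _ => .of_forall fun _ => .of_forall fun _ => ?_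
  intro p e _ _ _ _ _ _ _ _ _ _
  rw [e]; exact h.2

theorem l9q_FF_C0 (pE : LLParE) (t : ℝ) : ∀ᶠ p in l9qFF pE, t ≤ p.C0 := by
  rw [l9q_FF_iff]
  refine .of_forall fun _ => ?_
  filter_upwards [eventually_ge_atTop t] with _ h
  refine .of_forall fun _ => .of_forall fun _ => .of_forall fun _ => .of_forall fun _ => .of_forall fun _ => .of_forall fun _ => .of_forall fun _ => .of_forall fun _ => ?_
  intro p _ e _ _ _ _ _ _ _ _ _
  rw [e]; exact h

theorem l9q_FF_dPr (pE : LLParE) {t : ℝ} (ht : 0 < t) : ∀ᶠ p in l9qFF pE, p.dPr ≤ t := by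
  rw [l9q_FF_iff]
  refine .of_forall fun _ => .of_forall fun _ => ?_
  filter_upwards [l9q_small ht] with _ h
  refine .of_forall fun _ => .of_forall fun _ => .of_forall fun _ => .of_forall fun _ => .of_forall fun _ => .of_forall fun _ => .of_forall fun _ => ?_
  intro p _ _ e _ _ _ _ _ _ _ _
  rw [e]; exact h.2

theorem l9q_FF_J0 (pE : LLParE) (t : ℕ) : ∀ᶠ p in l9qFF pE, t ≤ p.J0 := by
  rw [l9q_FF_iff]
  refine .of_forall fun _ => .of_forall fun _ => .of_forall fun _ => ?_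
  filter_upwards [eventually_ge_atTop t] with _ h
  refine .of_forall fun _ => .of_forall fun _ => .of_forall fun _ => .of_forall fun _ => .of_forall fun _ => .of_forall fun _ => ?_
  intro p _ _ _ e _ _ _ _ _ _ _
  rw [e]; exact h

theorem l9q_FF_pMom (pE : LLParE) (t : ℕ) : ∀ᶠ p in l9qFF pE, t ≤ p.pMom := by
  rw [l9q_FF_iff]
  refine .of_forall fun _ => .of_forall fun _ => .of_forall fun _ => .of_forall fun _ => ?_
  filter_upwards [eventually_ge_atTop t] with _ h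
  refine .of_forall fun _ => .of_forall fun _ => .of_forall fun _ => .of_forall fun _ => .of_forall fun _ => ?_
  intro p _ _ _ _ e _ _ _ _ _ _
  rw [e]; exact h

theorem l9q_FF_pTr (pE : LLParE) (t : ℕ) : ∀ᶠ p in l9qFF pE, t ≤ p.pTr := by
  rw [l9q_FF_iff]
  refine .of_forall fun _ => .of_forall fun _ => .of_forall fun _ => .of_forall fun _ => .of_forall fun _ => ?_
  filter_upwards [eventually_ge_atTop t] with _ h
  refine .of_forall fun _ => .of_forall fun _ => .of_forall fun _ => .of_forall fun _ => ?_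
  intro p _ _ _ _ _ e _ _ _ _ _
  rw [e]; exact h

theorem l9q_FF_epsG (pE : LLParE) {t : ℝ} (ht : 0 < t) : ∀ᶠ p in l9qFF pE, p.epsG ≤ t := by
  rw [l9q_FF_iff]
  refine .of_forall fun _ => .of_forall fun _ => .of_forall fun _ => .of_forall fun _ => .of_forall fun _ => .of_forall fun _ => ?_
  filter_upwards [l9q_small ht] with _ h
  refine .of_forall fun _ => .of_forall fun _ => .of_forall fun _ => ?_
  intro p _ _ _ _ _ _ e _ _ _ _
  rw [e]; exact h.2

theorem l9q_FF_rSt (pE : LLParE) (t : ℕ) : ∀ᶠ p in l9qFF pE, t ≤ p.rSt := by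
  rw [l9q_FF_iff]
  refine .of_forall fun _ => .of_forall fun _ => .of_forall fun _ => .of_forall fun _ => .of_forall fun _ => .of_forall fun _ => .of_forall fun _ => ?_
  filter_upwards [eventually_ge_atTop t] with _ h
  refine .of_forall fun _ => .of_forall fun _ => ?_
  intro p _ _ _ _ _ _ _ e _ _ _
  rw [e]; exact h

theorem l9q_FF_cFin (pE : LLParE) {t : ℝ} (ht : 0 < t) : ∀ᶠ p in l9qFF pE, p.cFin ≤ t := by
  rw [l9q_FF_iff]
  refine .of_forall fun _ => .of_forall fun _ => .of_forall fun _ => .of_forall fun _ => .of_forall fun _ => .of_forall fun _ => .of_forall fun _ => .of_forall fun _ => ?_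
  filter_upwards [l9q_small ht] with _ h
  refine .of_forall fun _ => ?_
  intro p _ _ _ _ _ _ _ _ e _ _
  rw [e]; exact h.2

theorem l9q_FF_epsL (pE : LLParE) {t : ℝ} (ht : 0 < t) : ∀ᶠ p in l9qFF pE, p.epsL ≤ t := by
  rw [l9q_FF_iff]
  refine .of_forall fun _ => .of_forall fun _ => .of_forall fun _ => .of_forall fun _ => .of_forall fun _ => .of_forall fun _ => .of_forall fun _ => .of_forall fun _ => .of_forall fun _ => ?_
  filter_upwards [l9q_small ht] with _ h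
  intro p _ _ _ _ _ _ _ _ _ e _
  rw [e]; exact h.2
/-! ### non-triviality of the six stages -/

theorem l9q_FA_ex {Ψ : LLParA → Prop} (h : ∀ᶠ p in l9qFA, Ψ p) : ∃ p, Ψ p := by
  rw [l9q_FA_iff] at h
  obtain ⟨cG, h, h0, h1⟩ := (h.and (l9q_small one_pos)).exists
  exact ⟨⟨cG, h0, h1⟩, h _ rfl⟩

theorem l9q_FB_ex {pA : LLParA} {Ψ : LLParB → Prop} (h : ∀ᶠ p in l9qFB pA, Ψ p) : ∃ p, Ψ p := by
  rw [l9q_FB_iff] at h
  have hG := pA.cG_pos
  obtain ⟨tau, ⟨h, t0, t1⟩, -, t2⟩ := ((h.and (l9q_small (show (0 : ℝ) < 1 / 1000000 by norm_num))).and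
    (l9q_small (show 0 < pA.cG / 1200 by positivity))).exists
  obtain ⟨eta, h, e0, e1⟩ := (h.and (l9q_small (show 0 < tau / 100 by positivity))).exists
  obtain ⟨tau0, h, u0, u1⟩ := (h.and (l9q_small (show 0 < eta / 100 by positivity))).exists
  obtain ⟨bs, h, b0, b1⟩ := (h.and (l9q_small (show 0 < eta / 100 by positivity))).exists
  obtain ⟨bl, h, l0, l1⟩ := (h.and (l9q_small (show 0 < bs / 100 by positivity))).exists
  obtain ⟨he, h, g0, g1⟩ := (h.and (l9q_small (show 0 < pA.cG / 1000 by positivity))).exists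
  exact ⟨{ toLLParA := pA, tau := tau, eta := eta, tau0 := tau0, bs := bs, bl := bl, he := he,
           tau_pos := t0, eta_pos := e0, tau0_pos := u0, bs_pos := b0, bl_pos := l0, he_pos := g0,
           tau_le := by linarith, tau_le_cG := by linarith, eta_le := by linarith, tau0_le := by linarith,
           bs_le := by linarith, bl_le := by linarith, he_le := by linarith }, h _ rfl rfl rfl rfl rfl rfl rfl⟩

theorem l9q_FC_ex {pB : LLParB} {Ψ : LLParC → Prop} (h : ∀ᶠ p in l9qFC pB, Ψ p) : ∃ p, Ψ p := by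
  rw [l9q_FC_iff] at h
  obtain ⟨cC, h, c0, c1⟩ := (h.and (l9q_small one_pos)).exists
  obtain ⟨cP, h, d0, d1⟩ := (h.and (l9q_small one_pos)).exists
  obtain ⟨kRow, h, k1⟩ := (h.and (eventually_ge_atTop 70000)).exists
  obtain ⟨kPr, h, k2⟩ := (h.and (eventually_ge_atTop 70000)).exists
  obtain ⟨CH, h, k3⟩ := (h.and (eventually_ge_atTop 1)).exists
  obtain ⟨CL, h, k4⟩ := (h.and (eventually_ge_atTop 1)).exists
  have k1' : (70000 : ℝ) ≤ (kRow : ℝ) := by exact_mod_cast k1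
  have k2' : (70000 : ℝ) ≤ (kPr : ℝ) := by exact_mod_cast k2
  exact ⟨{ toLLParB := pB, cC := cC, cP := cP, kRow := kRow, kPr := kPr, CH := CH, CL := CL,
           cC_pos := c0, cC_le := c1, cP_pos := d0, cP_le := d1,
           kRow_ge := by unfold llDStar; linarith, kPr_ge := by unfold llDStar; linarith, CH_ge := k3, CL_ge := k4 },
         h _ rfl rfl rfl rfl rfl rfl rfl⟩

theorem l9q_FD_ex {pC : LLParC} {Ψ : LLParD → Prop} (h : ∀ᶠ p in l9qFD pC, Ψ p) : ∃ p, Ψ p := by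
  rw [l9q_FD_iff] at h
  have hcC := pC.cC_pos
  have hcP := pC.cP_pos
  have hhe := pC.he_pos
  have hCH : 0 < pC.CH := lt_of_lt_of_le one_pos pC.CH_ge
  have hCL : 0 < pC.CL := lt_of_lt_of_le one_pos pC.CL_ge
  obtain ⟨a0, ⟨h, a00, a01⟩, -, a02⟩ := ((h.and (l9q_small (show 0 < pC.cC / 100 by positivity))).and
    (l9q_small (show 0 < llDStar / 100 by unfold llDStar; norm_num))).exists
  obtain ⟨bH, h, b0, b1⟩ := (h.and (l9q_small (show 0 < a0 / 100 by positivity))).exists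
  obtain ⟨a1, h, a10, a11⟩ := (h.and (l9q_small (show 0 < bH / (100 * pC.CH) by positivity))).exists
  obtain ⟨a2, h, a20, a21⟩ := (h.and (l9q_small (show 0 < a1 / (100 * pC.CH) by positivity))).exists
  obtain ⟨pS, ⟨⟨h, p0, p1⟩, -, p2⟩, -, p3⟩ := (((h.and (l9q_small (show 0 < a2 / (100 * pC.CL) by positivity))).and
    (l9q_small (show 0 < pC.he / 1000 by positivity))).and (l9q_small (show 0 < pC.cP / 100 by positivity))).exists
  rw [le_div_iff₀ (by positivity)] at a11 a21 p1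
  exact ⟨{ toLLParC := pC, a0 := a0, bH := bH, a1 := a1, a2 := a2, pStar := pS,
           a0_pos := a00, bH_pos := b0, a1_pos := a10, a2_pos := a20, pStar_pos := p0,
           a0_le_cC := by linarith, a0_le_dStar := by linarith, bH_le := by linarith, a1_le := by linarith,
           a2_le := by linarith, pStar_le_a2 := by linarith, pStar_le_he := by linarith, pStar_le_cP := by linarith },
         h _ rfl rfl rfl rfl rfl rfl⟩

theorem l9q_FE_ex {pD : LLParD} {Ψ : LLParE → Prop} (h : ∀ᶠ p in l9qFE pD, Ψ p) : ∃ p, Ψ p := by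
  rw [l9q_FE_iff] at h
  have hp := pD.pStar_pos
  have hbl := pD.bl_pos
  have ht0 := pD.tau0_pos
  obtain ⟨n1, hn1⟩ := exists_pow_lt_of_lt_one (show (0 : ℝ) < 0.12 * (pD.pStar / 2) by positivity)
    (show (2 / 3 : ℝ) < 1 by norm_num)
  obtain ⟨n, ⟨h, n0⟩, n2⟩ := ((h.and (eventually_ge_atTop 1)).and (eventually_ge_atTop n1)).exists
  obtain ⟨zeta, ⟨⟨h, z0, z1⟩, -, z2⟩, -, z3⟩ := (((h.and (l9q_small (show 0 < pD.pStar * pD.bl / 100 by positivity))).and
    (l9q_small (show 0 < pD.pStar * pD.tau0 / 100 by positivity))).and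
    (l9q_small (show 0 < pD.pStar * pD.tau0 * pD.bl / 100000 by positivity))).exists
  obtain ⟨sigL, h, s0, s1⟩ := (h.and (l9q_small (show 0 < zeta / 100 by positivity))).exists
  obtain ⟨rho, h, r0, r1⟩ := (h.and (l9q_small (show 0 < zeta / 100 by positivity))).exists
  refine ⟨{ toLLParD := pD, nSt := n, zeta := zeta, sigL := sigL, rho := rho,
            nSt_pos := n0, zeta_pos := z0, sigL_pos := s0, rho_pos := r0, nSt_ok := ?_,
            zeta_le_bl := by linarith, zeta_le_tau0 := by linarith, zeta_le := by linarith,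
            sigL_le := by linarith, rho_le := by linarith }, h _ rfl rfl rfl rfl rfl⟩
  have h4 : (2 / 3 : ℝ) ^ n ≤ (2 / 3 : ℝ) ^ n1 := pow_le_pow_of_le_one (by norm_num) (by norm_num) n2
  calc (2 / 3 : ℝ) ^ n * (2 / pD.pStar) ≤ 0.12 * (pD.pStar / 2) * (2 / pD.pStar) := by
        have := h4.trans hn1.le
        gcongr
    _ = 0.12 := by field_simp

theorem l9q_FF_ex {pE : LLParE} {Ψ : LLPar → Prop} (h : ∀ᶠ p in l9qFF pE, Ψ p) : ∃ p, Ψ p := by
  rw [l9q_FF_iff] at h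
  have hp := pE.pStar_pos
  have he := pE.eta_pos
  have hrho := pE.rho_pos
  obtain ⟨kappa, h, k0, k1⟩ := (h.and (l9q_small (show 0 < pE.pStar * pE.eta / 100 by positivity))).exists
  obtain ⟨C0, h, c1⟩ := (h.and (eventually_ge_atTop 1)).exists
  have c0 : 0 < C0 := lt_of_lt_of_le one_pos c1
  obtain ⟨dPr, h, d0, d1⟩ := (h.and (l9q_small (show 0 < kappa / (100 * C0) by positivity))).exists
  obtain ⟨J0, ⟨h, j1⟩, j2⟩ := ((h.and (eventually_ge_atTop pE.kPr)).and (eventually_ge_atTop (⌈7 / dPr⌉₊ + 2))).exists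
  obtain ⟨pMom, h, m1⟩ := (h.and (eventually_ge_atTop 4)).exists
  obtain ⟨pTr, h, m2⟩ := (h.and (eventually_ge_atTop 4)).exists
  obtain ⟨epsG, ⟨h, g0, g1⟩, -, g2⟩ := ((h.and (l9q_small (show 0 < dPr / 100 by positivity))).and
    (l9q_small (show 0 < pE.rho / 100 by positivity))).exists
  obtain ⟨rSt, h, r1⟩ := (h.and (eventually_ge_atTop J0)).exists
  obtain ⟨cFin, h, f0, f1⟩ := (h.and (l9q_small (show 0 < epsG / 100 by positivity))).exists
  obtain ⟨epsL, h, l0, l1⟩ := (h.and (l9q_small (show 0 < cFin / 100 by positivity))).exists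
  rw [le_div_iff₀ (by positivity)] at d1
  refine ⟨{ toLLParE := pE, kappa := kappa, C0 := C0, dPr := dPr, J0 := J0, pMom := pMom,
            pTr := pTr, epsG := epsG, rSt := rSt, cFin := cFin, epsL := epsL,
            kappa_pos := k0, C0_ge := c1, dPr_pos := d0, epsG_pos := g0, cFin_pos := f0, epsL_pos := l0,
            pMom_ge := m1, pTr_ge := m2, rSt_ge := r1, J0_ge_kPr := j1,
            kappa_le := by linarith, dPr_le := by linarith, J0_ge := ?_, epsG_le := by linarith,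
            epsG_le_rho := by linarith, cFin_le := by linarith, epsL_le := by linarith },
          h _ rfl rfl rfl rfl rfl rfl rfl rfl rfl rfl rfl⟩
  have h1 : ((⌈7 / dPr⌉₊ + 2 : ℕ) : ℝ) ≤ (J0 : ℝ) := by exact_mod_cast j2
  have h2 : 7 / dPr ≤ (⌈7 / dPr⌉₊ : ℝ) := Nat.le_ceil _
  push_cast at h1
  have h3 : 7 / dPr ≤ (J0 : ℝ) - 2 := by linarith
  rw [div_le_iff₀ d0] at h3
  exact h3

/-! ### the filters of the REMAINING choices -/

/-- all the choices after the stage E -/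
def l9qFilE (pE : LLParE) : Filter LLPar := l9qFF pE
/-- all the choices after the stage D -/
def l9qFilD (pD : LLParD) : Filter LLPar := (l9qFE pD).bind l9qFilE
/-- all the choices after the stage C -/
def l9qFilC (pC : LLParC) : Filter LLPar := (l9qFD pC).bind l9qFilD
/-- all the choices after the stage B -/
def l9qFilB (pB : LLParB) : Filter LLPar := (l9qFC pB).bind l9qFilC
/-- all the choices after the stage A -/
def l9qFilA (pA : LLParA) : Filter LLPar := (l9qFB pA).bind l9qFilB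
/-- **THE FILTER "all sufficiently small exponents, in the order of LL Sec. 10"** -/
def l9qFil : Filter LLPar := l9qFA.bind l9qFilA

/-- **"for all sufficiently small exponents in the order of LL Sec. 10"** -/
def LLGood (Φ : LLPar → Prop) : Prop := ∀ᶠ par in l9qFil, Φ par

theorem l9q_Fil_iff (Φ : LLPar → Prop) : LLGood Φ ↔ ∀ᶠ pA in l9qFA, ∀ᶠ par in l9qFilA pA, Φ par := eventually_bind
theorem l9q_FilA_iff (pA : LLParA) (Φ : LLPar → Prop) :
    (∀ᶠ par in l9qFilA pA, Φ par) ↔ ∀ᶠ pB in l9qFB pA, ∀ᶠ par in l9qFilB pB, Φ par := eventually_bind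
theorem l9q_FilB_iff (pB : LLParB) (Φ : LLPar → Prop) :
    (∀ᶠ par in l9qFilB pB, Φ par) ↔ ∀ᶠ pC in l9qFC pB, ∀ᶠ par in l9qFilC pC, Φ par := eventually_bind
theorem l9q_FilC_iff (pC : LLParC) (Φ : LLPar → Prop) :
    (∀ᶠ par in l9qFilC pC, Φ par) ↔ ∀ᶠ pD in l9qFD pC, ∀ᶠ par in l9qFilD pD, Φ par := eventually_bind
theorem l9q_FilD_iff (pD : LLParD) (Φ : LLPar → Prop) :
    (∀ᶠ par in l9qFilD pD, Φ par) ↔ ∀ᶠ pE in l9qFE pD, ∀ᶠ par in l9qFilE pE, Φ par := eventually_bind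
theorem l9q_FilE_iff (pE : LLParE) (Φ : LLPar → Prop) : (∀ᶠ par in l9qFilE pE, Φ par) ↔ ∀ᶠ par in l9qFF pE, Φ par := Iff.rfl

theorem l9q_FilE_to (pE : LLParE) : ∀ᶠ par in l9qFilE pE, par.toLLParE = pE := l9q_FF_to pE
theorem l9q_FilD_to (pD : LLParD) : ∀ᶠ par in l9qFilD pD, par.toLLParD = pD := by
  rw [l9q_FilD_iff]
  filter_upwards [l9q_FE_to pD] with pE e
  filter_upwards [l9q_FilE_to pE] with par e2
  rw [← e, ← e2]
theorem l9q_FilC_to (pC : LLParC) : ∀ᶠ par in l9qFilC pC, par.toLLParC = pC := by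
  rw [l9q_FilC_iff]
  filter_upwards [l9q_FD_to pC] with pD e
  filter_upwards [l9q_FilD_to pD] with par e2
  rw [← e, ← e2]
theorem l9q_FilB_to (pB : LLParB) : ∀ᶠ par in l9qFilB pB, par.toLLParB = pB := by
  rw [l9q_FilB_iff]
  filter_upwards [l9q_FC_to pB] with pC e
  filter_upwards [l9q_FilC_to pC] with par e2
  rw [← e, ← e2]
theorem l9q_FilA_to (pA : LLParA) : ∀ᶠ par in l9qFilA pA, par.toLLParA = pA := by
  rw [l9q_FilA_iff]
  filter_upwards [l9q_FB_to pA] with pB e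
  filter_upwards [l9q_FilB_to pB] with par e2
  rw [← e, ← e2]

theorem l9q_FilE_of {pE : LLParE} {Ψ : LLPar → Prop} (h : ∀ᶠ p in l9qFF pE, Ψ p) : ∀ᶠ par in l9qFilE pE, Ψ par := h
/-- a property of the stage E which holds eventually in the stage E -/
theorem l9q_FilD_of {pD : LLParD} {Ψ : LLParE → Prop} (h : ∀ᶠ p in l9qFE pD, Ψ p) : ∀ᶠ par in l9qFilD pD, Ψ par.toLLParE := by
  rw [l9q_FilD_iff]
  filter_upwards [h] with pE h1
  filter_upwards [l9q_FilE_to pE] with par e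
  rw [e]; exact h1
/-- a property of the stage D which holds eventually in the stage D -/
theorem l9q_FilC_of {pC : LLParC} {Ψ : LLParD → Prop} (h : ∀ᶠ p in l9qFD pC, Ψ p) : ∀ᶠ par in l9qFilC pC, Ψ par.toLLParD := by
  rw [l9q_FilC_iff]
  filter_upwards [h] with pD h1
  filter_upwards [l9q_FilD_to pD] with par e
  rw [e]; exact h1
/-- a property of the stage C which holds eventually in the stage C -/
theorem l9q_FilB_of {pB : LLParB} {Ψ : LLParC → Prop} (h : ∀ᶠ p in l9qFC pB, Ψ p) : ∀ᶠ par in l9qFilB pB, Ψ par.toLLParC := by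
  rw [l9q_FilB_iff]
  filter_upwards [h] with pC h1
  filter_upwards [l9q_FilC_to pC] with par e
  rw [e]; exact h1
/-- a property of the stage B which holds eventually in the stage B -/
theorem l9q_FilA_of {pA : LLParA} {Ψ : LLParB → Prop} (h : ∀ᶠ p in l9qFB pA, Ψ p) : ∀ᶠ par in l9qFilA pA, Ψ par.toLLParB := by
  rw [l9q_FilA_iff]
  filter_upwards [h] with pB h1
  filter_upwards [l9q_FilB_to pB] with par e
  rw [e]; exact h1
theorem l9q_Fil_of {Ψ : LLParA → Prop} (h : ∀ᶠ p in l9qFA, Ψ p) : LLGood fun par => Ψ par.toLLParA := by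
  rw [l9q_Fil_iff]
  filter_upwards [h] with pA h1
  filter_upwards [l9q_FilA_to pA] with par e
  rw [e]; exact h1

/-- skip the stage E -/
theorem l9q_FilD_intro {pD : LLParD} {Φ : LLPar → Prop} (h : ∀ pE : LLParE, pE.toLLParD = pD → ∀ᶠ par in l9qFilE pE, Φ par) :
    ∀ᶠ par in l9qFilD pD, Φ par := by
  rw [l9q_FilD_iff]
  filter_upwards [l9q_FE_to pD] with pE e using h pE e
/-- skip the stage D -/
theorem l9q_FilC_intro {pC : LLParC} {Φ : LLPar → Prop} (h : ∀ pD : LLParD, pD.toLLParC = pC → ∀ᶠ par in l9qFilD pD, Φ par) :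
    ∀ᶠ par in l9qFilC pC, Φ par := by
  rw [l9q_FilC_iff]
  filter_upwards [l9q_FD_to pC] with pD e using h pD e
/-- skip the stage C -/
theorem l9q_FilB_intro {pB : LLParB} {Φ : LLPar → Prop} (h : ∀ pC : LLParC, pC.toLLParB = pB → ∀ᶠ par in l9qFilC pC, Φ par) :
    ∀ᶠ par in l9qFilB pB, Φ par := by
  rw [l9q_FilB_iff]
  filter_upwards [l9q_FC_to pB] with pC e using h pC e
/-- skip the stage B -/
theorem l9q_FilA_intro {pA : LLParA} {Φ : LLPar → Prop} (h : ∀ pB : LLParB, pB.toLLParA = pA → ∀ᶠ par in l9qFilB pB, Φ par) :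
    ∀ᶠ par in l9qFilA pA, Φ par := by
  rw [l9q_FilA_iff]
  filter_upwards [l9q_FB_to pA] with pB e using h pB e
/-! ### `LLGood` -/

theorem LLGood.mono {Φ Ψ : LLPar → Prop} (h : LLGood Φ) (hi : ∀ par, Φ par → Ψ par) : LLGood Ψ := Eventually.mono h hi

theorem LLGood.and {Φ Ψ : LLPar → Prop} (h1 : LLGood Φ) (h2 : LLGood Ψ) : LLGood fun par => Φ par ∧ Ψ par := Eventually.and h1 h2

theorem LLGood.of_forall {Φ : LLPar → Prop} (h : ∀ par, Φ par) : LLGood Φ := Eventually.of_forall h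

/-- **the chain can be run**: there ARE parameters -/
theorem LLGood.exists {Φ : LLPar → Prop} (h : LLGood Φ) : ∃ par, Φ par := by
  obtain ⟨pA, h⟩ := l9q_FA_ex ((l9q_Fil_iff Φ).1 h)
  obtain ⟨pB, h⟩ := l9q_FB_ex ((l9q_FilA_iff pA Φ).1 h)
  obtain ⟨pC, h⟩ := l9q_FC_ex ((l9q_FilB_iff pB Φ).1 h)
  obtain ⟨pD, h⟩ := l9q_FD_ex ((l9q_FilC_iff pC Φ).1 h)
  obtain ⟨pE, h⟩ := l9q_FE_ex ((l9q_FilD_iff pD Φ).1 h)
  exact l9q_FF_ex ((l9q_FilE_iff pE Φ).1 h)

instance l9q_Fil_neBot : l9qFil.NeBot := by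
  refine ⟨fun h => ?_⟩
  have h1 : LLGood fun _ => False := by
    unfold LLGood
    rw [h]
    exact eventually_bot
  exact h1.exists.elim fun _ h => h

theorem LLGood.of_A {Φ : LLPar → Prop} (h : ∀ pA : LLParA, ∀ᶠ par in l9qFilA pA, Φ par) : LLGood Φ :=
  (l9q_Fil_iff Φ).2 (.of_forall h)
theorem LLGood.of_B {Φ : LLPar → Prop} (h : ∀ pB : LLParB, ∀ᶠ par in l9qFilB pB, Φ par) : LLGood Φ :=
  LLGood.of_A fun _ => l9q_FilA_intro fun p _ => h p
theorem LLGood.of_C {Φ : LLPar → Prop} (h : ∀ pC : LLParC, ∀ᶠ par in l9qFilC pC, Φ par) : LLGood Φ :=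
  LLGood.of_B fun _ => l9q_FilB_intro fun p _ => h p
theorem LLGood.of_D {Φ : LLPar → Prop} (h : ∀ pD : LLParD, ∀ᶠ par in l9qFilD pD, Φ par) : LLGood Φ :=
  LLGood.of_C fun _ => l9q_FilC_intro fun p _ => h p
theorem LLGood.of_E {Φ : LLPar → Prop} (h : ∀ pE : LLParE, ∀ᶠ par in l9qFilE pE, Φ par) : LLGood Φ :=
  LLGood.of_D fun _ => l9q_FilD_intro fun p _ => h p

/-! ### one adapter per field: a threshold which depends on the EARLIER STAGES only (the form of the header of `Defs/LLPar.lean`) -/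

theorem LLGood.thr_cG {Φ : LLPar → Prop} (h : ∃ thr : ℝ, 0 < thr ∧ ∀ par : LLPar, par.cG ≤ thr → Φ par) : LLGood Φ := by
  obtain ⟨thr, h0, H⟩ := h
  exact (l9q_Fil_of (l9q_FA_cG h0)).mono fun par e => H par e
theorem LLGood.thr_tau {Φ : LLPar → Prop} (h : ∀ pA : LLParA, ∃ thr : ℝ, 0 < thr ∧ ∀ par : LLPar, par.toLLParA = pA → par.tau ≤ thr → Φ par) : LLGood Φ := by
  refine LLGood.of_A fun pA => ?_
  obtain ⟨thr, h0, H⟩ := h pA
  filter_upwards [l9q_FilA_to pA, l9q_FilA_of (l9q_FB_tau pA h0)] with par e1 e2 using H par e1 e2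
theorem LLGood.thr_eta {Φ : LLPar → Prop} (h : ∀ pA : LLParA, ∃ thr : ℝ, 0 < thr ∧ ∀ par : LLPar, par.toLLParA = pA → par.eta ≤ thr → Φ par) : LLGood Φ := by
  refine LLGood.of_A fun pA => ?_
  obtain ⟨thr, h0, H⟩ := h pA
  filter_upwards [l9q_FilA_to pA, l9q_FilA_of (l9q_FB_eta pA h0)] with par e1 e2 using H par e1 e2
theorem LLGood.thr_tau0 {Φ : LLPar → Prop} (h : ∀ pA : LLParA, ∃ thr : ℝ, 0 < thr ∧ ∀ par : LLPar, par.toLLParA = pA → par.tau0 ≤ thr → Φ par) : LLGood Φ := by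
  refine LLGood.of_A fun pA => ?_
  obtain ⟨thr, h0, H⟩ := h pA
  filter_upwards [l9q_FilA_to pA, l9q_FilA_of (l9q_FB_tau0 pA h0)] with par e1 e2 using H par e1 e2
theorem LLGood.thr_bs {Φ : LLPar → Prop} (h : ∀ pA : LLParA, ∃ thr : ℝ, 0 < thr ∧ ∀ par : LLPar, par.toLLParA = pA → par.bs ≤ thr → Φ par) : LLGood Φ := by
  refine LLGood.of_A fun pA => ?_
  obtain ⟨thr, h0, H⟩ := h pA
  filter_upwards [l9q_FilA_to pA, l9q_FilA_of (l9q_FB_bs pA h0)] with par e1 e2 using H par e1 e2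
theorem LLGood.thr_bl {Φ : LLPar → Prop} (h : ∀ pA : LLParA, ∃ thr : ℝ, 0 < thr ∧ ∀ par : LLPar, par.toLLParA = pA → par.bl ≤ thr → Φ par) : LLGood Φ := by
  refine LLGood.of_A fun pA => ?_
  obtain ⟨thr, h0, H⟩ := h pA
  filter_upwards [l9q_FilA_to pA, l9q_FilA_of (l9q_FB_bl pA h0)] with par e1 e2 using H par e1 e2
theorem LLGood.thr_he {Φ : LLPar → Prop} (h : ∀ pA : LLParA, ∃ thr : ℝ, 0 < thr ∧ ∀ par : LLPar, par.toLLParA = pA → par.he ≤ thr → Φ par) : LLGood Φ := by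
  refine LLGood.of_A fun pA => ?_
  obtain ⟨thr, h0, H⟩ := h pA
  filter_upwards [l9q_FilA_to pA, l9q_FilA_of (l9q_FB_he pA h0)] with par e1 e2 using H par e1 e2
theorem LLGood.thr_cC {Φ : LLPar → Prop} (h : ∀ pB : LLParB, ∃ thr : ℝ, 0 < thr ∧ ∀ par : LLPar, par.toLLParB = pB → par.cC ≤ thr → Φ par) : LLGood Φ := by
  refine LLGood.of_B fun pB => ?_
  obtain ⟨thr, h0, H⟩ := h pB
  filter_upwards [l9q_FilB_to pB, l9q_FilB_of (l9q_FC_cC pB h0)] with par e1 e2 using H par e1 e2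
theorem LLGood.thr_cP {Φ : LLPar → Prop} (h : ∀ pB : LLParB, ∃ thr : ℝ, 0 < thr ∧ ∀ par : LLPar, par.toLLParB = pB → par.cP ≤ thr → Φ par) : LLGood Φ := by
  refine LLGood.of_B fun pB => ?_
  obtain ⟨thr, h0, H⟩ := h pB
  filter_upwards [l9q_FilB_to pB, l9q_FilB_of (l9q_FC_cP pB h0)] with par e1 e2 using H par e1 e2
theorem LLGood.thr_kRow {Φ : LLPar → Prop} (h : ∀ pB : LLParB, ∃ thr : ℕ, ∀ par : LLPar, par.toLLParB = pB → thr ≤ par.kRow → Φ par) : LLGood Φ := by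
  refine LLGood.of_B fun pB => ?_
  obtain ⟨thr, H⟩ := h pB
  filter_upwards [l9q_FilB_to pB, l9q_FilB_of (l9q_FC_kRow pB thr)] with par e1 e2 using H par e1 e2
theorem LLGood.thr_kPr {Φ : LLPar → Prop} (h : ∀ pB : LLParB, ∃ thr : ℕ, ∀ par : LLPar, par.toLLParB = pB → thr ≤ par.kPr → Φ par) : LLGood Φ := by
  refine LLGood.of_B fun pB => ?_
  obtain ⟨thr, H⟩ := h pB
  filter_upwards [l9q_FilB_to pB, l9q_FilB_of (l9q_FC_kPr pB thr)] with par e1 e2 using H par e1 e2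
theorem LLGood.thr_CH {Φ : LLPar → Prop} (h : ∀ pB : LLParB, ∃ thr : ℝ, ∀ par : LLPar, par.toLLParB = pB → thr ≤ par.CH → Φ par) : LLGood Φ := by
  refine LLGood.of_B fun pB => ?_
  obtain ⟨thr, H⟩ := h pB
  filter_upwards [l9q_FilB_to pB, l9q_FilB_of (l9q_FC_CH pB thr)] with par e1 e2 using H par e1 e2
theorem LLGood.thr_CL {Φ : LLPar → Prop} (h : ∀ pB : LLParB, ∃ thr : ℝ, ∀ par : LLPar, par.toLLParB = pB → thr ≤ par.CL → Φ par) : LLGood Φ := by
  refine LLGood.of_B fun pB => ?_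
  obtain ⟨thr, H⟩ := h pB
  filter_upwards [l9q_FilB_to pB, l9q_FilB_of (l9q_FC_CL pB thr)] with par e1 e2 using H par e1 e2
theorem LLGood.thr_a0 {Φ : LLPar → Prop} (h : ∀ pC : LLParC, ∃ thr : ℝ, 0 < thr ∧ ∀ par : LLPar, par.toLLParC = pC → par.a0 ≤ thr → Φ par) : LLGood Φ := by
  refine LLGood.of_C fun pC => ?_
  obtain ⟨thr, h0, H⟩ := h pC
  filter_upwards [l9q_FilC_to pC, l9q_FilC_of (l9q_FD_a0 pC h0)] with par e1 e2 using H par e1 e2
theorem LLGood.thr_bH {Φ : LLPar → Prop} (h : ∀ pC : LLParC, ∃ thr : ℝ, 0 < thr ∧ ∀ par : LLPar, par.toLLParC = pC → par.bH ≤ thr → Φ par) : LLGood Φ := by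
  refine LLGood.of_C fun pC => ?_
  obtain ⟨thr, h0, H⟩ := h pC
  filter_upwards [l9q_FilC_to pC, l9q_FilC_of (l9q_FD_bH pC h0)] with par e1 e2 using H par e1 e2
theorem LLGood.thr_a1 {Φ : LLPar → Prop} (h : ∀ pC : LLParC, ∃ thr : ℝ, 0 < thr ∧ ∀ par : LLPar, par.toLLParC = pC → par.a1 ≤ thr → Φ par) : LLGood Φ := by
  refine LLGood.of_C fun pC => ?_
  obtain ⟨thr, h0, H⟩ := h pC
  filter_upwards [l9q_FilC_to pC, l9q_FilC_of (l9q_FD_a1 pC h0)] with par e1 e2 using H par e1 e2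
theorem LLGood.thr_a2 {Φ : LLPar → Prop} (h : ∀ pC : LLParC, ∃ thr : ℝ, 0 < thr ∧ ∀ par : LLPar, par.toLLParC = pC → par.a2 ≤ thr → Φ par) : LLGood Φ := by
  refine LLGood.of_C fun pC => ?_
  obtain ⟨thr, h0, H⟩ := h pC
  filter_upwards [l9q_FilC_to pC, l9q_FilC_of (l9q_FD_a2 pC h0)] with par e1 e2 using H par e1 e2
theorem LLGood.thr_pStar {Φ : LLPar → Prop} (h : ∀ pC : LLParC, ∃ thr : ℝ, 0 < thr ∧ ∀ par : LLPar, par.toLLParC = pC → par.pStar ≤ thr → Φ par) : LLGood Φ := by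
  refine LLGood.of_C fun pC => ?_
  obtain ⟨thr, h0, H⟩ := h pC
  filter_upwards [l9q_FilC_to pC, l9q_FilC_of (l9q_FD_pStar pC h0)] with par e1 e2 using H par e1 e2
theorem LLGood.thr_nSt {Φ : LLPar → Prop} (h : ∀ pD : LLParD, ∃ thr : ℕ, ∀ par : LLPar, par.toLLParD = pD → thr ≤ par.nSt → Φ par) : LLGood Φ := by
  refine LLGood.of_D fun pD => ?_
  obtain ⟨thr, H⟩ := h pD
  filter_upwards [l9q_FilD_to pD, l9q_FilD_of (l9q_FE_nSt pD thr)] with par e1 e2 using H par e1 e2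
theorem LLGood.thr_zeta {Φ : LLPar → Prop} (h : ∀ pD : LLParD, ∃ thr : ℝ, 0 < thr ∧ ∀ par : LLPar, par.toLLParD = pD → par.zeta ≤ thr → Φ par) : LLGood Φ := by
  refine LLGood.of_D fun pD => ?_
  obtain ⟨thr, h0, H⟩ := h pD
  filter_upwards [l9q_FilD_to pD, l9q_FilD_of (l9q_FE_zeta pD h0)] with par e1 e2 using H par e1 e2
theorem LLGood.thr_sigL {Φ : LLPar → Prop} (h : ∀ pD : LLParD, ∃ thr : ℝ, 0 < thr ∧ ∀ par : LLPar, par.toLLParD = pD → par.sigL ≤ thr → Φ par) : LLGood Φ := by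
  refine LLGood.of_D fun pD => ?_
  obtain ⟨thr, h0, H⟩ := h pD
  filter_upwards [l9q_FilD_to pD, l9q_FilD_of (l9q_FE_sigL pD h0)] with par e1 e2 using H par e1 e2
theorem LLGood.thr_rho {Φ : LLPar → Prop} (h : ∀ pD : LLParD, ∃ thr : ℝ, 0 < thr ∧ ∀ par : LLPar, par.toLLParD = pD → par.rho ≤ thr → Φ par) : LLGood Φ := by
  refine LLGood.of_D fun pD => ?_
  obtain ⟨thr, h0, H⟩ := h pD
  filter_upwards [l9q_FilD_to pD, l9q_FilD_of (l9q_FE_rho pD h0)] with par e1 e2 using H par e1 e2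
theorem LLGood.thr_kappa {Φ : LLPar → Prop} (h : ∀ pE : LLParE, ∃ thr : ℝ, 0 < thr ∧ ∀ par : LLPar, par.toLLParE = pE → par.kappa ≤ thr → Φ par) : LLGood Φ := by
  refine LLGood.of_E fun pE => ?_
  obtain ⟨thr, h0, H⟩ := h pE
  filter_upwards [l9q_FilE_to pE, l9q_FilE_of (l9q_FF_kappa pE h0)] with par e1 e2 using H par e1 e2
theorem LLGood.thr_C0 {Φ : LLPar → Prop} (h : ∀ pE : LLParE, ∃ thr : ℝ, ∀ par : LLPar, par.toLLParE = pE → thr ≤ par.C0 → Φ par) : LLGood Φ := by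
  refine LLGood.of_E fun pE => ?_
  obtain ⟨thr, H⟩ := h pE
  filter_upwards [l9q_FilE_to pE, l9q_FilE_of (l9q_FF_C0 pE thr)] with par e1 e2 using H par e1 e2
theorem LLGood.thr_dPr {Φ : LLPar → Prop} (h : ∀ pE : LLParE, ∃ thr : ℝ, 0 < thr ∧ ∀ par : LLPar, par.toLLParE = pE → par.dPr ≤ thr → Φ par) : LLGood Φ := by
  refine LLGood.of_E fun pE => ?_
  obtain ⟨thr, h0, H⟩ := h pE
  filter_upwards [l9q_FilE_to pE, l9q_FilE_of (l9q_FF_dPr pE h0)] with par e1 e2 using H par e1 e2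
theorem LLGood.thr_J0 {Φ : LLPar → Prop} (h : ∀ pE : LLParE, ∃ thr : ℕ, ∀ par : LLPar, par.toLLParE = pE → thr ≤ par.J0 → Φ par) : LLGood Φ := by
  refine LLGood.of_E fun pE => ?_
  obtain ⟨thr, H⟩ := h pE
  filter_upwards [l9q_FilE_to pE, l9q_FilE_of (l9q_FF_J0 pE thr)] with par e1 e2 using H par e1 e2
theorem LLGood.thr_pMom {Φ : LLPar → Prop} (h : ∀ pE : LLParE, ∃ thr : ℕ, ∀ par : LLPar, par.toLLParE = pE → thr ≤ par.pMom → Φ par) : LLGood Φ := by
  refine LLGood.of_E fun pE => ?_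
  obtain ⟨thr, H⟩ := h pE
  filter_upwards [l9q_FilE_to pE, l9q_FilE_of (l9q_FF_pMom pE thr)] with par e1 e2 using H par e1 e2
theorem LLGood.thr_pTr {Φ : LLPar → Prop} (h : ∀ pE : LLParE, ∃ thr : ℕ, ∀ par : LLPar, par.toLLParE = pE → thr ≤ par.pTr → Φ par) : LLGood Φ := by
  refine LLGood.of_E fun pE => ?_
  obtain ⟨thr, H⟩ := h pE
  filter_upwards [l9q_FilE_to pE, l9q_FilE_of (l9q_FF_pTr pE thr)] with par e1 e2 using H par e1 e2
theorem LLGood.thr_epsG {Φ : LLPar → Prop} (h : ∀ pE : LLParE, ∃ thr : ℝ, 0 < thr ∧ ∀ par : LLPar, par.toLLParE = pE → par.epsG ≤ thr → Φ par) : LLGood Φ := by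
  refine LLGood.of_E fun pE => ?_
  obtain ⟨thr, h0, H⟩ := h pE
  filter_upwards [l9q_FilE_to pE, l9q_FilE_of (l9q_FF_epsG pE h0)] with par e1 e2 using H par e1 e2
theorem LLGood.thr_rSt {Φ : LLPar → Prop} (h : ∀ pE : LLParE, ∃ thr : ℕ, ∀ par : LLPar, par.toLLParE = pE → thr ≤ par.rSt → Φ par) : LLGood Φ := by
  refine LLGood.of_E fun pE => ?_
  obtain ⟨thr, H⟩ := h pE
  filter_upwards [l9q_FilE_to pE, l9q_FilE_of (l9q_FF_rSt pE thr)] with par e1 e2 using H par e1 e2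
theorem LLGood.thr_cFin {Φ : LLPar → Prop} (h : ∀ pE : LLParE, ∃ thr : ℝ, 0 < thr ∧ ∀ par : LLPar, par.toLLParE = pE → par.cFin ≤ thr → Φ par) : LLGood Φ := by
  refine LLGood.of_E fun pE => ?_
  obtain ⟨thr, h0, H⟩ := h pE
  filter_upwards [l9q_FilE_to pE, l9q_FilE_of (l9q_FF_cFin pE h0)] with par e1 e2 using H par e1 e2
theorem LLGood.thr_epsL {Φ : LLPar → Prop} (h : ∀ pE : LLParE, ∃ thr : ℝ, 0 < thr ∧ ∀ par : LLPar, par.toLLParE = pE → par.epsL ≤ thr → Φ par) : LLGood Φ := by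
  refine LLGood.of_E fun pE => ?_
  obtain ⟨thr, h0, H⟩ := h pE
  filter_upwards [l9q_FilE_to pE, l9q_FilE_of (l9q_FF_epsL pE h0)] with par e1 e2 using H par e1 e2
end

/-- forces the equation lemmas of the definitions of this file to live in this module. -/
theorem l9q_eqns_cite : True := by
  have := @l9qS.eq_1; have := @l9qL.eq_1; have := @l9qN.eq_1
  have := @l9qFA.eq_1; have := @l9qFB.eq_1; have := @l9qFC.eq_1; have := @l9qFD.eq_1; have := @l9qFE.eq_1; have := @l9qFF.eq_1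
  have := @l9qFilA.eq_1; have := @l9qFilB.eq_1; have := @l9qFilC.eq_1; have := @l9qFilD.eq_1; have := @l9qFilE.eq_1
  have := @l9qFil.eq_1; have := @LLGood.eq_1
  trivial

end Claimed.Agent.R286
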