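import Claimed.Agent.R286.L09.TrdCore
import Claimed.Agent.R286.L08.DList
import Claimed.Agent.R286.L08.TlTil
import Claimed.Agent.R286.Fd.Contract
import Claimed.Agent.R286.L09.RedSup
import Claimed.Agent.R286.L09.ParChain

/-!
# Row 286 (S0533), unit L09, file TrdT: THE TRUE TAYLOR REMAINDER OF THE NODE **TRD** (T3 + T4; LL 09-expansion.tex l.252-285) FROM LL 08      (owner helper101; prefix `l9x_in_`, `l9x_t34_`, `L8In.x*`)

    exit_l9x_t34 (L09/Trd)  <=  l9x_t34_ev (here: shape `L8Ev`, from `L8xDir` + `L8gFine`)  <=  l9x_in_t34 (ONE instance)  <=  l9y_t34 (TrdCore, 29) + dictionary `L08/DList` (220)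

ONE instance `I : L8In` of the strength sweep, ensemble `tl`.
* `I.xSm s = I.S (min s n)`      the centring: UNTILTED mean overlap;      `I.xXS tl` = the jet context at the MONOTONE REFERENCE `K_S = h + b S` (`l9xPS`): there `J = b δ`, `δ = msk Q - S` (`l9x_in_J`);
* `I.xV tl t = ν_t[(Q - S)²]`    second moment about the untilted mean in the ensemble `tl`;
* (D2) second line + `|f| ≲ e` (active pairs), `S ≲ v + Y = 2 e` (masked pairs)  ⟹  `‖J‖_k ≤ 4 M0 A e(t)` at EVERY pair (`l9x_in_mom`);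
* an envelope `e(t) ≥ x^δ'` forces `v_t > Y` (`e = Y ≤ x^κ < x^δ'` below `Y`), hence an ACTIVE pair in the range of (D8) (`l9x_in_big`);  (D8), (D8t) = the sum over these cuts (`l9x_in_e8`).
-/

set_option autoImplicit false

namespace Claimed.Agent.R286

open scoped BigOperators Nat
open Filter Finset MeasureTheory

noncomputable section

/-! ### 5. T3 + T4 at one instance of LL 08 -/

namespace L8In

variable (I : L8In)

/-- the centring `S` (constant after the last stage) -/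
def xSm (s : ℕ) : ℝ := I.S (min s I.n)

/-- the context of the ensemble `tl` at the monotone reference `K_S = h + b S` -/
def xXS (tl : Bool) : JtCtx (SkCfg I.m) := llJs I.m I.a (l9xPS I.LP I.xSm) (l8dTl I tl)

/-- second moment of the overlap about the UNTILTED mean, at the cut `t` -/
def xV (tl : Bool) (t : ℕ) : ℝ := I.moF tl t 1 fun ω => (I.sp tl).Q ω - I.S t

end L8In

variable {I : L8In}

theorem l9x_in_cen (h : I.Std) : L9xCen I.LP I.xSm where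
  nn := fun _ => (fd_S_range h.m_pos h.a_pos _ h.adm.1 0 _).1
  le := fun _ => (fd_S_range h.m_pos h.a_pos _ h.adm.1 0 _).2
  mono := fun s => fd_S_mono h.m_pos h.a_pos _ h.adm.1 0 (min_le_min_right _ (Nat.le_succ s))
  top := fun s hs => by
    unfold L8In.xSm
    have hs' : I.n ≤ s := hs
    rw [min_eq_right hs']
    congr 1
    exact (min_eq_right (le_refl I.n)).symm

theorem l9x_in_pair (h : I.Std) (tl : Bool) :
    L2rcPair (I.X tl) (I.xXS tl) (llMs I.a I.LP) (l2riKap I.a I.LP (l9xPS I.LP I.xSm)) :=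
  l2ri_pair I.m h.a_pos h.adm (l9x_ps_adm h.adm (l9x_in_cen h)) (l9x_ref_mat _ _) (l8dTl I tl)

theorem l9x_in_N (I : L8In) (tl : Bool) : (I.xXS tl).N = I.n := by
  show (l9xPS I.LP I.xSm).length = I.LP.length
  unfold l9xPS
  rw [l9x_ref_len]

/-- at the reference `K_S` the insertion is `b δ`, `δ = msk Q - S` -/
theorem l9x_in_J (h : I.Std) (tl : Bool) (t : ℕ) (σ : ℕ → SkCfg I.m) :
    (I.xXS tl).J (trPair (I.xXS tl).N t) σ 0 1 = I.bC t * ((I.X tl).msk t * (I.X tl).ov (σ 0) (σ 1) - I.xSm t) := by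
  have hp := l9x_in_pair h tl
  have e0 : trPair (I.xXS tl).N t 0 1 = t := by simp [trPair]
  unfold JtCtx.J JtCtx.Qs
  rw [e0, hp.hb, hp.hh, hp.hmsk, hp.hov]
  have eK : (I.xXS tl).KC t = l9xKS I.LP I.xSm t := l9x_ps_KC (l9x_in_cen h) t
  rw [eK]
  unfold l9xKS
  show skCumH (llMat I.LP) t + skCumB (llMat I.LP) t * _ - _ = skCumB (llMat I.LP) t * _
  ring

theorem l9x_in_b (h : I.Std) {M0 : ℝ} (hBd : LlBd M0 I.LP) (t : ℕ) : 0 ≤ I.bC t ∧ I.bC t ≤ M0 :=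
  ⟨ll2_law_cumB_nonneg h.adm.1 t, (hBd t).1⟩

theorem l9x_in_del_abs (h : I.Std) (tl : Bool) (t : ℕ) (s s' : SkCfg I.m) : |(I.X tl).msk t * (I.X tl).ov s s' - I.xSm t| ≤ 2 := by
  have hX := l8d_law h tl
  have h1 := hX.ov_abs s s'
  have h2 := (l9x_in_cen h).nn t
  have h3 := (l9x_in_cen h).le t
  have h4 : |(I.X tl).msk t * (I.X tl).ov s s'| ≤ 1 := by
    rcases hX.msk t with e | e
    · rw [e, zero_mul, abs_zero]; norm_num
    · rw [e, one_mul]; exact h1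
  calc |(I.X tl).msk t * (I.X tl).ov s s' - I.xSm t| ≤ |(I.X tl).msk t * (I.X tl).ov s s'| + |I.xSm t| := abs_sub _ _
    _ ≤ 1 + 1 := add_le_add h4 (by rw [abs_of_nonneg h2]; exact h3)
    _ = 2 := by norm_num

/-- uniform bound of the insertion -/
theorem l9x_in_bd (h : I.Std) {M0 : ℝ} (hBd : LlBd M0 I.LP) (tl : Bool) (t : ℕ) (σ : ℕ → SkCfg I.m) :
    |(I.xXS tl).J (trPair (I.xXS tl).N t) σ 0 1| ≤ 2 * M0 + 1 := by
  rw [l9x_in_J h, abs_mul, abs_of_nonneg (l9x_in_b h hBd t).1]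
  have h1 := l9x_in_del_abs h tl t (σ 0) (σ 1)
  have h2 := l9x_in_b h hBd t
  nlinarith [abs_nonneg ((I.X tl).msk t * (I.X tl).ov (σ 0) (σ 1) - I.xSm t)]

theorem l9x_in_v_le (h : I.Std) {t : ℕ} (ht : t ≤ I.n) : I.v t ≤ I.a := by
  have h1 := l8d_v_mono h ht le_rfl
  have h2 : I.v I.n = I.a := by
    rw [← l8d_ms]
    show llMs I.a I.LP I.LP.length = I.a
    simp [llMs]
  rwa [h2] at h1

theorem l9x_in_Sm {t : ℕ} (ht : t ≤ I.n) : I.xSm t = I.S t := by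
  unfold L8In.xSm
  rw [min_eq_left ht]

section mom

variable {e : ℕ → ℝ} {A Y Zh vp cE M0 : ℝ} {pm jm : ℕ} {tl : Bool}

theorem l9x_in_e_nonneg (hEnv : I.Env e A Y I.a cE) {t : ℕ} (ht : t ≤ I.n) : 0 ≤ e t :=
  (Real.rpow_nonneg I.x_nonneg _).trans (hEnv.lo t ht)

/-- all moments of `δ = msk Q - S` at a pair which shares `t ≤ n` stages: (D2) second line + `|f| ≲ e` (active), `S ≲ v + Y` (masked) -/
theorem l9x_in_del_mom (h : I.Std) (hA : 0 ≤ A) (hEnv : I.Env e A Y I.a cE) (hNum : I.Num A Y Zh I.a) (hR : I.Rnd tl e A Y Zh I.a vp pm jm)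
    (hpm : 1 ≤ pm) {k : ℕ} (hk1 : 1 ≤ k) (hk : k ≤ 2 * pm) (hlow : ∀ t ≤ I.js, I.v t ≤ Y) {t : ℕ} (ht : t ≤ I.n) :
    (I.X tl).nu 2 (trPair I.n t) (fun σ => |(I.X tl).msk t * (I.X tl).ov (σ 0) (σ 1) - I.S t| ^ k) ≤ (4 * A * e t) ^ k := by
  have hX := l8d_law h tl
  have he := l9x_in_e_nonneg hEnv ht
  have hAe : 0 ≤ A * e t := mul_nonneg hA he
  by_cases hact : I.act tl t
  · have h1 := l8d_rnd_mom h hR hpm hact (l9x_in_v_le h ht) hk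
    rw [abs_of_nonneg hAe] at h1
    have h2 := hEnv.f_le t ht (l9x_in_v_le h ht)
    have h3 : ∀ σ : ℕ → SkCfg I.m, |(I.X tl).msk t * (I.X tl).ov (σ 0) (σ 1) - I.S t| ^ k
        ≤ 2 ^ k * |(I.X tl).Dl (trPair (I.X tl).N t) σ 0 1| ^ k + 2 ^ k * |I.f t| ^ k := fun σ => by
      rw [l8d_Dl_pair, ← mul_add]
      refine le_trans (pow_le_pow_left₀ (abs_nonneg _) ?_ k) (l9s_add_pow_le (abs_nonneg _) (abs_nonneg _) k)
      have e1 : (I.X tl).msk t * (I.X tl).ov (σ 0) (σ 1) - I.S t = ((I.X tl).msk t * (I.X tl).ov (σ 0) (σ 1) - (I.X tl).qC t) - I.f t := by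
        show _ = _ - I.q t - (I.S t - I.q t)
        ring
      rw [e1]
      exact abs_sub _ _
    refine (hX.nu.mono 2 _ h3).trans ?_
    rw [hX.nu.add, hX.nu.const_mul, hX.nu.const]
    have h4 : |I.f t| ^ k ≤ (A * e t) ^ k := pow_le_pow_left₀ (abs_nonneg _) h2 k
    have h5 : (2 : ℝ) * 2 ^ k ≤ 4 ^ k := by
      calc (2 : ℝ) * 2 ^ k ≤ 2 ^ k * 2 ^ k := mul_le_mul_of_nonneg_right (le_self_pow₀ (by norm_num) (by omega)) (by positivity)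
        _ = 4 ^ k := by rw [← mul_pow]; norm_num
    have h6 : 0 ≤ (A * e t) ^ k := pow_nonneg hAe k
    have h1' : (I.X tl).nu 2 (trPair I.n t) (fun σ => |(I.X tl).Dl (trPair (I.X tl).N t) σ 0 1| ^ k) ≤ (A * e t) ^ k := h1
    calc 2 ^ k * (I.X tl).nu 2 (trPair I.n t) (fun σ => |(I.X tl).Dl (trPair (I.X tl).N t) σ 0 1| ^ k) + 2 ^ k * |I.f t| ^ k
        ≤ 2 ^ k * (A * e t) ^ k + 2 ^ k * (A * e t) ^ k := by gcongr
      _ = (2 * 2 ^ k) * (A * e t) ^ k := by ring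
      _ ≤ 4 ^ k * (A * e t) ^ k := mul_le_mul_of_nonneg_right h5 h6
      _ = (4 * A * e t) ^ k := by rw [← mul_pow]; ring_nf
  · have htl : tl = true := by
      by_contra hne
      exact hact ⟨ht, fun h' => absurd h' hne⟩
    subst htl
    have hjs : t ≤ I.js := by
      by_contra hne
      exact hact ⟨ht, fun _ => by omega⟩
    simp only [l8d_msk_off hjs, zero_mul, zero_sub, abs_neg]
    rw [hX.nu.const]
    have hS0 : 0 ≤ I.S t := (fd_S_range h.m_pos h.a_pos _ h.adm.1 0 _).1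
    have hv := hlow t hjs
    have hS := hNum.s_le t ht
    have hee := hEnv.low t ht hv
    rw [abs_of_nonneg hS0]
    refine pow_le_pow_left₀ hS0 ?_ k
    calc I.S t ≤ A * (I.v t + Y) := hS
      _ ≤ A * (Y + Y) := mul_le_mul_of_nonneg_left (by linarith) hA
      _ = 2 * (A * e t) := by rw [hee]; ring
      _ ≤ 4 * A * e t := by nlinarith

/-- all moments of the insertion at the reference `K_S` -/
theorem l9x_in_mom (h : I.Std) (hBd : LlBd M0 I.LP) (hA : 0 ≤ A) (hEnv : I.Env e A Y I.a cE) (hNum : I.Num A Y Zh I.a)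
    (hR : I.Rnd tl e A Y Zh I.a vp pm jm) (hpm : 1 ≤ pm) {k : ℕ} (hk1 : 1 ≤ k) (hk : k ≤ 2 * pm) (hlow : ∀ t ≤ I.js, I.v t ≤ Y)
    {t : ℕ} (ht : t ≤ I.n) :
    (I.xXS tl).nu 2 (trPair (I.xXS tl).N t) (fun σ => |(I.xXS tl).J (trPair (I.xXS tl).N t) σ 0 1| ^ k) ≤ (M0 * (4 * A * e t)) ^ k := by
  have hX := l8d_law h tl
  have hb := l9x_in_b h hBd t
  simp only [l9x_in_J h, abs_mul, mul_pow, l9x_in_Sm ht]
  rw [(l9x_in_pair h tl).hnu, l9x_in_N, hX.nu.const_mul, abs_of_nonneg hb.1]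
  have h1 := l9x_in_del_mom h hA hEnv hNum hR hpm hk1 hk hlow ht
  rw [mul_pow, mul_pow] at h1
  have h0 : 0 ≤ (I.X tl).nu 2 (trPair I.n t) (fun σ => |(I.X tl).msk t * (I.X tl).ov (σ 0) (σ 1) - I.S t| ^ k) :=
    hX.nu.nonneg 2 _ fun σ => by positivity
  exact mul_le_mul (pow_le_pow_left₀ hb.1 hb.2 k) h1 h0 (pow_nonneg (hb.1.trans hb.2) k)

end mom

/-! #### second moments -/

theorem l9x_in_V_eq (h : I.Std) (tl : Bool) {t : ℕ} (ht : t ≤ I.n) :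
    I.xV tl t = (I.X tl).nu 2 (trPair I.n t) fun σ => ((I.X tl).ov (σ 0) (σ 1) - I.S t) ^ 2 := l8d_rnd_var h tl ht

theorem l9x_in_V_nonneg (h : I.Std) (tl : Bool) {t : ℕ} (ht : t ≤ I.n) : 0 ≤ I.xV tl t := by
  rw [l9x_in_V_eq h tl ht]
  exact (l8d_law h tl).nu.nonneg 2 _ fun σ => sq_nonneg _

theorem l9x_in_V_unt (h : I.Std) {t : ℕ} (ht : t ≤ I.n) : I.xV false t = I.D2 t := by
  rw [l9x_in_V_eq h false ht, l8d_D2 h ht]

/-- second moment of the insertion at an ACTIVE pair -/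
theorem l9x_in_var (h : I.Std) {M0 : ℝ} (hBd : LlBd M0 I.LP) {tl : Bool} {t : ℕ} (ht : I.act tl t) :
    (I.xXS tl).nu 2 (trPair (I.xXS tl).N t) (fun σ => (I.xXS tl).J (trPair (I.xXS tl).N t) σ 0 1 ^ 2) ≤ M0 ^ 2 * I.xV tl t := by
  have hX := l8d_law h tl
  have hb := l9x_in_b h hBd t
  simp only [l9x_in_J h, mul_pow, l9x_in_Sm ht.1, l8d_msk_act ht, one_mul]
  rw [(l9x_in_pair h tl).hnu, l9x_in_N, hX.nu.const_mul, ← l9x_in_V_eq h tl ht.1]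
  exact mul_le_mul_of_nonneg_right (pow_le_pow_left₀ hb.1 hb.2 2) (l9x_in_V_nonneg h tl ht.1)

theorem l9x_in_dv_nonneg (h : I.Std) {t : ℕ} (ht : t ≤ I.n) : 0 ≤ I.dv t := by
  rw [← l8d_mu]
  exact l9s_gap_nonneg (l8d_law h false).isMs ht

theorem l9x_in_dv_sum (I : L8In) : ∑ t ∈ range (I.n + 1), I.dv t = I.a := by
  have h1 := l8d_int_all I fun _ => 1
  rw [l9s_int_one] at h1
  simp only [mul_one] at h1
  rw [← h1]
  show llMs I.a I.LP I.LP.length = I.a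
  simp [llMs]

section e8

variable {e : ℕ → ℝ} {A cE C0 δ' : ℝ}

/-- a cut with a large envelope lies above `Y` -/
theorem l9x_in_big (hEnv : I.Env e A I.Y I.a cE) (hY : I.Y < I.x ^ δ') {t : ℕ} (ht : t ≤ I.n) (hb : I.x ^ δ' ≤ e t) : I.Y < I.v t := by
  by_contra hc
  have := hEnv.low t ht (not_lt.1 hc)
  linarith

/-- (D8) as a sum over the cuts with a large envelope -/
theorem l9x_in_d8 (h : I.Std) (hEnv : I.Env e A I.Y I.a cE) (hY : I.Y < I.x ^ δ') (hD8 : I.D8 e A C0 δ') :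
    ∑ t ∈ (range (I.n + 1)).filter (fun t => I.x ^ δ' ≤ e t), I.dv t * I.D2 t ≤ A * I.x ^ (-(C0 * δ')) * I.z0 1 * I.Y ^ 2 * I.Z ^ 2 := by
  refine le_trans (le_of_eq ?_) hD8
  unfold L8In.int
  simp only [mul_ite, mul_zero]
  rw [← Finset.sum_filter, Finset.filter_filter]
  refine Finset.sum_congr ?_ fun _ _ => rfl
  ext t
  simp only [Finset.mem_filter, Finset.mem_range]
  constructor
  · rintro ⟨h1, h2⟩
    have ht : t ≤ I.n := by omega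
    exact ⟨h1, ⟨(l9x_in_big hEnv hY ht h2).le, l9x_in_v_le h ht⟩, h2⟩
  · rintro ⟨h1, -, h2⟩
    exact ⟨h1, h2⟩

/-- (D8t) as a sum over the cuts with a large envelope -/
theorem l9x_in_d8t (h : I.Std) (hEnv : I.Env e A I.Y I.a cE) (hY : I.Y < I.x ^ δ') (hD8 : I.D8t e A C0 δ') :
    ∑ t ∈ (range (I.n + 1)).filter (fun t => I.x ^ δ' ≤ e t), I.dv t * I.xV true t ≤ A * I.x ^ (-(C0 * δ')) * I.z0 1 * I.Y ^ 2 * I.Z ^ 2 := by
  refine le_trans (le_of_eq ?_) hD8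
  unfold L8In.int L8In.xV
  simp only [mul_ite, mul_zero]
  rw [← Finset.sum_filter, Finset.filter_filter]
  refine Finset.sum_congr ?_ fun _ _ => rfl
  ext t
  simp only [Finset.mem_filter, Finset.mem_range]
  constructor
  · rintro ⟨h1, h2⟩
    have ht : t ≤ I.n := by omega
    exact ⟨h1, ⟨(l9x_in_big hEnv hY ht h2).le, l9x_in_v_le h ht⟩, h2⟩
  · rintro ⟨h1, -, h2⟩
    exact ⟨h1, h2⟩

/-- **(D8) in both ensembles** -/
theorem l9x_in_e8 (h : I.Std) (hEnv : I.Env e A I.Y I.a cE) (hY : I.Y < I.x ^ δ') (hD8 : I.D8 e A C0 δ') (tl : Bool)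
    (hD8t : tl = true → I.D8t e A C0 δ') :
    ∑ t ∈ (range (I.n + 1)).filter (fun t => I.x ^ δ' ≤ e t), I.dv t * I.xV tl t ≤ A * I.x ^ (-(C0 * δ')) * I.z0 1 * I.Y ^ 2 * I.Z ^ 2 := by
  cases tl with
  | true => exact l9x_in_d8t h hEnv hY (hD8t rfl)
  | false =>
    refine le_trans (le_of_eq ?_) (l9x_in_d8 h hEnv hY hD8)
    refine Finset.sum_congr rfl fun t ht => ?_
    rw [l9x_in_V_unt h (by have := Finset.mem_range.1 (Finset.mem_filter.1 ht).1; omega)]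

end e8

/-- **T3 + T4 at one instance** (09 l.252-285): `l9y_t34` with `sig = 4 (M0 + 1) (A + 1) e`, `thr = 4 (M0 + 1) (A + 1) x^δ'`, `Dsq = M0² ν[(Q - S)²]` -/
theorem l9x_in_t34 (k : ℕ) (hk : 2 ≤ k) : ∃ C : ℝ, 0 ≤ C ∧
    ∀ (I : L8In) (e : ℕ → ℝ) (A M0 C0 δ' vp cE : ℝ) (pm jm : ℕ) (tl : Bool),
      I.Ok → I.Fine 1 → I.a ≤ 4 → LlBd M0 I.LP → 0 ≤ A → 1 ≤ pm → k ≤ 2 * pm →
      I.Env e A I.Y I.a cE → I.Num A I.Y I.Z I.a → I.Rnd tl e A I.Y I.Z I.a vp pm jm → I.D8 e A C0 δ' → (tl = true → I.D8t e A C0 δ') →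
      I.Y < I.x ^ δ' → (∀ t ≤ I.js, I.v t ≤ I.Y) →
      ∀ (W : ℕ → ℝ) (w : ℝ), (∀ j, 0 ≤ W j) → (∀ j ≤ I.n, W j ≤ w) →
        (I.xXS tl).errW W k ≤ C * w * ((2 * M0 + 1) * ((M0 + 1) * (4 * (A + 1) * I.x ^ δ')) ^ (k - 1)
          + (2 * M0 + 1) ^ (k - 2) * (M0 ^ 2 * (A * I.x ^ (-(C0 * δ')) * I.z0 1 * I.Y ^ 2 * I.Z ^ 2))) := by
  obtain ⟨C, hC, H⟩ := l9y_t34 k hk 4
  refine ⟨C, hC, ?_⟩
  intro I e A M0 C0 δ' vp cE pm jm tl hOk hf ha4 hBd hA hpm hkp hEnv hNum hR hD8 hD8t hY hlow W w hW0 hWw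
  have h := l8d_std hOk hf
  have hN := l9x_in_N I tl
  have hM0 : 0 ≤ M0 := (l9x_in_b h hBd 0).1.trans (l9x_in_b h hBd 0).2
  have hx : 0 < I.x := tlk_h_x_pos hOk
  have hxd : 0 < I.x ^ δ' := Real.rpow_pos_of_pos hx _
  have hc : 0 < (M0 + 1) * (4 * (A + 1)) := by positivity
  have hepos : ∀ t ≤ I.n, 0 < e t := fun t ht => (Real.rpow_pos_of_pos hx _).trans_le (hEnv.lo t ht)
  have hbig : ∀ t ≤ I.n, ((M0 + 1) * (4 * (A + 1) * I.x ^ δ') ≤ (if t ≤ I.n then (M0 + 1) * (4 * (A + 1) * e t) else 1)) ↔ I.x ^ δ' ≤ e t := by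
    intro t ht
    rw [if_pos ht, ← mul_assoc, ← mul_assoc, ← mul_assoc, ← mul_assoc]
    rw [show (M0 + 1) * 4 * (A + 1) = (M0 + 1) * (4 * (A + 1)) by ring]
    exact mul_le_mul_iff_right₀ hc
  have hmsN : llMs I.a I.LP (I.xXS tl).N ≤ 4 := by
    rw [hN, l8d_ms]
    exact (l9x_in_v_le h le_rfl).trans ha4
  refine H (SkCfg I.m) (I.xXS tl) (llMs I.a I.LP) (l9x_in_pair h tl).law' hmsN W
    (fun t => if t ≤ I.n then (M0 + 1) * (4 * (A + 1) * e t) else 1) (fun t => if t ≤ I.n then M0 ^ 2 * I.xV tl t else 0) w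
    ((M0 + 1) * (4 * (A + 1) * I.x ^ δ')) (2 * M0 + 1) _ hW0 (fun j hj => hWw j (hN ▸ hj)) (by positivity) (by positivity) ?_ ?_ ?_ ?_ ?_ ?_
  · intro t
    show 0 < (if t ≤ I.n then (M0 + 1) * (4 * (A + 1) * e t) else 1)
    split_ifs with ht
    · have := hepos t ht
      positivity
    · exact one_pos
  · intro t
    show 0 ≤ (if t ≤ I.n then M0 ^ 2 * I.xV tl t else 0)
    split_ifs with ht
    · exact mul_nonneg (sq_nonneg _) (l9x_in_V_nonneg h tl ht)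
    · exact le_rfl
  · intro t _ σ
    exact l9x_in_bd h hBd tl t σ
  · intro t ht _
    rw [hN] at ht
    refine (l9x_in_mom h hBd hA hEnv hNum hR hpm (by omega) hkp hlow ht).trans ?_
    show _ ≤ (if t ≤ I.n then (M0 + 1) * (4 * (A + 1) * e t) else 1) ^ k
    rw [if_pos ht]
    have he := (hepos t ht).le
    refine pow_le_pow_left₀ (by positivity) ?_ k
    have h1 : 4 * A * e t ≤ 4 * (A + 1) * e t := by nlinarith
    exact mul_le_mul (by linarith) h1 (by positivity) (by positivity)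
  · intro t ht hb
    rw [hN] at ht
    have hb' := (hbig t ht).1 hb
    have hv := l9x_in_big hEnv hY ht hb'
    have hact : I.act tl t := ⟨ht, fun _ => by
      by_contra hc'
      have := hlow t (by omega)
      linarith⟩
    show _ ≤ (if t ≤ I.n then M0 ^ 2 * I.xV tl t else 0)
    rw [if_pos ht]
    exact l9x_in_var h hBd hact
  · rw [hN]
    have e1 : (range (I.n + 1)).filter (fun t => (M0 + 1) * (4 * (A + 1) * I.x ^ δ') ≤ (if t ≤ I.n then (M0 + 1) * (4 * (A + 1) * e t) else 1))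
        = (range (I.n + 1)).filter (fun t => I.x ^ δ' ≤ e t) := by
      refine Finset.filter_congr fun t ht => hbig t (by have := Finset.mem_range.1 ht; omega)
    rw [e1]
    have e2 : ∑ t ∈ (range (I.n + 1)).filter (fun t => I.x ^ δ' ≤ e t),
          (llMs I.a I.LP t - trPm (llMs I.a I.LP) t) * (if t ≤ I.n then M0 ^ 2 * I.xV tl t else 0)
        = M0 ^ 2 * ∑ t ∈ (range (I.n + 1)).filter (fun t => I.x ^ δ' ≤ e t), I.dv t * I.xV tl t := by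
      rw [Finset.mul_sum]
      refine Finset.sum_congr rfl fun t ht => ?_
      have ht' : t ≤ I.n := by have := Finset.mem_range.1 (Finset.mem_filter.1 ht).1; omega
      rw [if_pos ht', ← l8d_mu]
      unfold l9rMu
      ring
    rw [e2]
    exact mul_le_mul_of_nonneg_left (l9x_in_e8 h hEnv hY hD8 tl hD8t) (sq_nonneg _)

/-! ### the shape of the exits of LL 08 -/

/-- the arithmetic of T3 + T4: losses `x^(-ε8)` of LL 08, `ε8 ≤ δ`, `(δ' - ε8) (k - 1) ≥ 6` -/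
theorem l9x_t34_num {x δ ε8 δ' c c' C8 M0 Ck w zz : ℝ} {k : ℕ} (hx : 0 < x) (hx1 : x ≤ 1) (hk : 2 ≤ k) (hCk : 0 ≤ Ck) (hw : 0 ≤ w)
    (hM0 : 0 ≤ M0) (hzz : 0 ≤ zz) (hε0 : 0 ≤ ε8) (hεδ : ε8 ≤ δ) (hcc : c' ≤ c) (h6 : 6 ≤ (δ' - ε8) * ((k : ℝ) - 1))
    (hA : 0 ≤ C8 * x ^ (-ε8)) :
    Ck * w * ((2 * M0 + 1) * ((M0 + 1) * (4 * (C8 * x ^ (-ε8) + 1) * x ^ δ')) ^ (k - 1)
        + (2 * M0 + 1) ^ (k - 2) * (M0 ^ 2 * (C8 * x ^ (-ε8) * x ^ (-c') * zz)))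
      ≤ Ck * ((2 * M0 + 1) * ((M0 + 1) * (4 * (|C8| + 1))) ^ (k - 1) + (2 * M0 + 1) ^ (k - 2) * (M0 ^ 2 * |C8|)) * x ^ (-δ) * w
          * (x ^ (6 : ℝ) + x ^ (-c) * zz) := by
  obtain ⟨a8, ha8⟩ : ∃ a8 : ℝ, a8 = x ^ (-ε8) := ⟨_, rfl⟩
  obtain ⟨ad, had⟩ : ∃ ad : ℝ, ad = x ^ (-δ) := ⟨_, rfl⟩
  obtain ⟨x6, hx6⟩ : ∃ x6 : ℝ, x6 = x ^ (6 : ℝ) := ⟨_, rfl⟩
  obtain ⟨xc, hxc⟩ : ∃ xc : ℝ, xc = x ^ (-c) := ⟨_, rfl⟩
  have h1a : 1 ≤ a8 := by rw [ha8]; exact Real.one_le_rpow_of_pos_of_le_one_of_nonpos hx hx1 (by linarith)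
  have haa : a8 ≤ ad := by rw [ha8, had]; exact Real.rpow_le_rpow_of_exponent_ge hx hx1 (by linarith)
  have h1d : 1 ≤ ad := h1a.trans haa
  have hx60 : 0 < x6 := by rw [hx6]; exact Real.rpow_pos_of_pos hx _
  have hxc0 : 0 < xc := by rw [hxc]; exact Real.rpow_pos_of_pos hx _
  have hxcc : x ^ (-c') ≤ xc := by rw [hxc]; exact Real.rpow_le_rpow_of_exponent_ge hx hx1 (by linarith)
  have hxc'0 : 0 < x ^ (-c') := Real.rpow_pos_of_pos hx _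
  have hxd0 : 0 < x ^ δ' := Real.rpow_pos_of_pos hx _
  rw [← ha8, ← had, ← hx6, ← hxc]
  rw [← ha8] at hA
  have hC : C8 * a8 ≤ |C8| * a8 := mul_le_mul_of_nonneg_right (le_abs_self _) (by linarith)
  have hC0 := abs_nonneg C8
  -- the small envelopes
  have p0 : (a8 * x ^ δ') ^ (k - 1) ≤ x6 := by
    rw [ha8, ← Real.rpow_add hx, ← Real.rpow_natCast, ← Real.rpow_mul hx.le, hx6]
    refine Real.rpow_le_rpow_of_exponent_ge hx hx1 ?_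
    have : ((k - 1 : ℕ) : ℝ) = (k : ℝ) - 1 := by
      rw [Nat.cast_sub (by omega)]; norm_num
    rw [this]
    linarith
  have p1 : ((M0 + 1) * (4 * (C8 * a8 + 1) * x ^ δ')) ^ (k - 1) ≤ ((M0 + 1) * (4 * (|C8| + 1))) ^ (k - 1) * x6 := by
    have hb : (M0 + 1) * (4 * (C8 * a8 + 1) * x ^ δ') ≤ (M0 + 1) * (4 * (|C8| + 1)) * (a8 * x ^ δ') := by
      have h2 : C8 * a8 + 1 ≤ (|C8| + 1) * a8 := by nlinarith
      calc (M0 + 1) * (4 * (C8 * a8 + 1) * x ^ δ') ≤ (M0 + 1) * (4 * ((|C8| + 1) * a8) * x ^ δ') := by gcongr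
        _ = _ := by ring
    calc ((M0 + 1) * (4 * (C8 * a8 + 1) * x ^ δ')) ^ (k - 1) ≤ ((M0 + 1) * (4 * (|C8| + 1)) * (a8 * x ^ δ')) ^ (k - 1) :=
          pow_le_pow_left₀ (by positivity) hb _
      _ = ((M0 + 1) * (4 * (|C8| + 1))) ^ (k - 1) * (a8 * x ^ δ') ^ (k - 1) := mul_pow _ _ _
      _ ≤ _ := mul_le_mul_of_nonneg_left p0 (by positivity)
  -- the large envelopes
  have p2 : C8 * a8 * x ^ (-c') * zz ≤ |C8| * (ad * (xc * zz)) := by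
    calc C8 * a8 * x ^ (-c') * zz ≤ |C8| * ad * xc * zz := by
          have : C8 * a8 ≤ |C8| * ad := hC.trans (mul_le_mul_of_nonneg_left haa hC0)
          exact mul_le_mul_of_nonneg_right (mul_le_mul this hxcc hxc'0.le (by positivity)) hzz
      _ = _ := by ring
  obtain ⟨K1, hK1⟩ : ∃ K1 : ℝ, K1 = (2 * M0 + 1) * ((M0 + 1) * (4 * (|C8| + 1))) ^ (k - 1) := ⟨_, rfl⟩
  obtain ⟨K2, hK2⟩ : ∃ K2 : ℝ, K2 = (2 * M0 + 1) ^ (k - 2) * (M0 ^ 2 * |C8|) := ⟨_, rfl⟩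
  have hK10 : 0 ≤ K1 := by rw [hK1]; positivity
  have hK20 : 0 ≤ K2 := by rw [hK2]; positivity
  have q1 : (2 * M0 + 1) * ((M0 + 1) * (4 * (C8 * a8 + 1) * x ^ δ')) ^ (k - 1) ≤ K1 * x6 := by
    have h21 : 0 ≤ 2 * M0 + 1 := by positivity
    calc (2 * M0 + 1) * ((M0 + 1) * (4 * (C8 * a8 + 1) * x ^ δ')) ^ (k - 1)
        ≤ (2 * M0 + 1) * (((M0 + 1) * (4 * (|C8| + 1))) ^ (k - 1) * x6) := mul_le_mul_of_nonneg_left p1 h21
      _ = K1 * x6 := by rw [hK1]; ring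
  have q2 : (2 * M0 + 1) ^ (k - 2) * (M0 ^ 2 * (C8 * a8 * x ^ (-c') * zz)) ≤ K2 * (ad * (xc * zz)) := by
    have : (2 * M0 + 1) ^ (k - 2) * (M0 ^ 2 * (C8 * a8 * x ^ (-c') * zz)) ≤ (2 * M0 + 1) ^ (k - 2) * (M0 ^ 2 * (|C8| * (ad * (xc * zz)))) := by
      gcongr
    refine this.trans (le_of_eq ?_)
    rw [hK2]; ring
  rw [← hK1, ← hK2]
  have hz0 : 0 ≤ xc * zz := by positivity
  have q3 : K1 * x6 + K2 * (ad * (xc * zz)) ≤ (K1 + K2) * (ad * (x6 + xc * zz)) := by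
    have t1 : K1 * x6 ≤ K1 * (ad * x6) := mul_le_mul_of_nonneg_left (le_mul_of_one_le_left hx60.le h1d) hK10
    have t2 : 0 ≤ K1 * (ad * (xc * zz)) := by positivity
    have t3 : 0 ≤ K2 * (ad * x6) := by positivity
    nlinarith
  calc Ck * w * ((2 * M0 + 1) * ((M0 + 1) * (4 * (C8 * a8 + 1) * x ^ δ')) ^ (k - 1)
        + (2 * M0 + 1) ^ (k - 2) * (M0 ^ 2 * (C8 * a8 * x ^ (-c') * zz)))
      ≤ Ck * w * ((K1 + K2) * (ad * (x6 + xc * zz))) := mul_le_mul_of_nonneg_left ((add_le_add q1 q2).trans q3) (by positivity)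
    _ = _ := by ring

theorem l9x_in_eqns_cite : True := by
  have := @L8In.xSm.eq_1
  have := @L8In.xXS.eq_1
  have := @L8In.xV.eq_1
  trivial

/-- the masked cuts lie below `Y` -/
theorem l9x_in_low (hOk : I.Ok) (hf : I.Fine 1) (hxY : I.x ≤ I.Y) : ∀ t ≤ I.js, I.v t ≤ I.Y := fun t ht => by
  have h := l8d_std hOk hf
  have h1 := l8d_v_mono h ht hf.js_lt.le
  rw [hf.js_m] at h1
  linarith [hOk.s_lt]

/-- **T3 + T4 at one instance, with the losses of LL 08** -/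
theorem l9x_t34_at (k : ℕ) (hk : 2 ≤ k) : ∃ Ck : ℝ, 0 ≤ Ck ∧ ∀ (I : L8In) (C8 ε8 δ δ' c C0 κ M0 v0 cE εs qs : ℝ),
    I.Ok → I.F.Ok → I.Fine 1 → 0 < δ' → δ' < κ → C0 * δ' ≤ c → 7 ≤ ((k : ℝ) - 1) * δ' → 0 < ε8 → ε8 ≤ δ → ε8 * ((k : ℝ) - 1) ≤ 1 →
    I.Y ≤ I.x ^ κ → LlBd M0 I.LP → I.s = qs * I.x ^ (1 + εs) → I.Stop (I.x ^ εs) →
    (∃ e : ℕ → ℝ, I.All e (C8 * I.x ^ (-ε8)) I.Y I.Z I.a v0 cE εs qs k 0 ∧ I.D8 e (C8 * I.x ^ (-ε8)) C0 δ' ∧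
      (I.s = qs * I.x ^ (1 + εs) → I.Stop (I.x ^ εs) → I.D8t e (C8 * I.x ^ (-ε8)) C0 δ')) →
    ∀ (tl : Bool) (W : ℕ → ℝ) (w : ℝ), (∀ j, 0 ≤ W j) → (∀ j ≤ I.n, W j ≤ w) →
      (I.xXS tl).errW W k ≤ Ck * ((2 * M0 + 1) * ((M0 + 1) * (4 * (|C8| + 1))) ^ (k - 1) + (2 * M0 + 1) ^ (k - 2) * (M0 ^ 2 * |C8|))
        * I.x ^ (-δ) * w * (I.x ^ (6 : ℝ) + I.x ^ (-c) * I.z0 1 * I.Y ^ 2 * I.Z ^ 2) := by
  obtain ⟨Ck, hCk, Hk⟩ := l9x_in_t34 k hk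
  refine ⟨Ck, hCk, ?_⟩
  intro I C8 ε8 δ δ' c C0 κ M0 v0 cE εs qs hOk hIF hfine hδ' hδκ hc hk7 hε8 hε8δ hε8k hY hBd hs hstop hex tl W w hW0 hWw
  obtain ⟨e, hAll, hD8, hD8t⟩ := hex
  have hκ : 0 < κ := hδ'.trans hδκ
  have h := l8d_std hOk hfine
  obtain ⟨hx0, hx1, hxY, -, hZ1⟩ := tlk_scales hOk hIF false hκ (fun _ => hY)
  have hxY' : I.x ≤ I.Y := hxY
  have ha4 : I.a ≤ 4 := (tlk_sc hOk hIF).2.2.2.2.2.2.2.2.2.1
  have hxlt : I.x < 1 := by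
    have hN2 : (1 : ℝ) < I.p.N := by exact_mod_cast (by have := hOk.pt.N2; omega : 1 < I.p.N)
    exact Real.rpow_lt_one_of_one_lt_of_neg hN2 (by norm_num)
  have hYlt : I.Y < I.x ^ δ' := hY.trans_lt (Real.rpow_lt_rpow_of_exponent_gt hx0 hxlt hδκ)
  have hA : 0 ≤ C8 * I.x ^ (-ε8) := by
    have h1 := hAll.env.f_le 0 (Nat.zero_le _) (l9x_in_v_le h (Nat.zero_le _))
    have h2 : 0 < e 0 := (Real.rpow_pos_of_pos hx0 _).trans_le (hAll.env.lo 0 (Nat.zero_le _))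
    exact nonneg_of_mul_nonneg_left ((abs_nonneg _).trans h1) h2
  have hR' : I.Rnd tl e (C8 * I.x ^ (-ε8)) I.Y I.Z I.a v0 k 0 := by
    cases tl with
    | false => exact hAll.unt
    | true => exact hAll.til hs hstop
  have key := Hk I e (C8 * I.x ^ (-ε8)) M0 C0 δ' v0 cE k 0 tl hOk hfine ha4 hBd hA (by omega) (by omega) hAll.env hAll.num hR' hD8
    (fun _ => hD8t hs hstop) hYlt (l9x_in_low hOk hfine hxY') W w hW0 hWw
  have hM0 : 0 ≤ M0 := (l9x_in_b h hBd 0).1.trans (l9x_in_b h hBd 0).2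
  have hw : 0 ≤ w := (hW0 0).trans (hWw 0 (Nat.zero_le _))
  have hz : 0 ≤ I.z0 1 := div_nonneg (pow_nonneg hx0.le _) (mul_nonneg (Real.sqrt_nonneg _) (by norm_num))
  have num := l9x_t34_num (x := I.x) (δ := δ) (ε8 := ε8) (δ' := δ') (c := c) (c' := C0 * δ') (C8 := C8) (M0 := M0) (Ck := Ck) (w := w)
    (zz := I.z0 1 * I.Y ^ 2 * I.Z ^ 2) (k := k) hx0 hx1 hk hCk hw hM0 (by positivity) hε8.le hε8δ hc (by nlinarith) hA
  refine key.trans (le_trans (le_of_eq ?_) (num.trans (le_of_eq ?_)))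
  · ring
  · ring

/-- **T3 + T4 in the shape `L8Ev`**, from (D1)-(D8) on the strength sweep.      Order: `C_0`, the threshold of `δ'` FIRST; then `κ, δ'`, `c ≥ C_0 δ'`, the bound `M0` of the clocks, the degree `k` (`(k - 1) δ' ≥ 7`);
then the loss `δ` and the tilt; then `C, N0`. -/
theorem l9x_t34_ev {𝔹 : LlBase} {T : ℝ} (hDir : L8xDir 𝔹 T) (hFine : L8gFine 𝔹 T) {F0 : LlFix} (h0 : L8Fix 𝔹 T F0) (pB : LLParB) {pS : ℝ}
    (hp0 : 0 < pS) (hp1 : pS ≤ 1) :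
    ∃ C0 δ0 : ℝ, 1 ≤ C0 ∧ 0 < δ0 ∧ ∀ (κ δ' c M0 : ℝ) (k : ℕ), 0 < δ' → δ' ≤ δ0 → δ' < κ → C0 * δ' ≤ c → 2 ≤ k → 7 ≤ ((k : ℝ) - 1) * δ' →
      ∀ δ εs qs : ℝ, 0 < δ → 0 < εs → 0 < qs → ∃ (C : ℝ) (N0 : ℕ), L8Ev (F0.wExp pB.sStar pB.eta pS) 𝔹 N0 l8Dir fun I =>
        I.Y ≤ I.x ^ κ → LlBd M0 I.LP → I.s = qs * I.x ^ (1 + εs) → I.Stop (I.x ^ εs) →
        ∀ (tl : Bool) (W : ℕ → ℝ) (w : ℝ), (∀ j, 0 ≤ W j) → (∀ j ≤ I.n, W j ≤ w) →
          (I.xXS tl).errW W k ≤ C * I.x ^ (-δ) * w * (I.x ^ (6 : ℝ) + I.x ^ (-c) * I.z0 1 * I.Y ^ 2 * I.Z ^ 2) := by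
  obtain ⟨C0, δ0, v0, cE, hC0, hδ0, -, -, H⟩ := hDir F0 h0 pB pS hp0 hp1
  refine ⟨C0, δ0, hC0, hδ0, fun κ δ' c M0 k hδ' hδ'0 hδκ hc hk hk7 δ εs qs hδ hεs hqs => ?_⟩
  obtain ⟨Ck, hCk, Hk⟩ := l9x_t34_at k hk
  have hκ : 0 < κ := hδ'.trans hδκ
  have hkR : (2 : ℝ) ≤ k := by exact_mod_cast hk
  obtain ⟨ε8, hε8d⟩ : ∃ ε8 : ℝ, ε8 = min δ (1 / (k : ℝ)) := ⟨_, rfl⟩
  have hε8 : 0 < ε8 := by rw [hε8d]; exact lt_min hδ (by positivity)
  have hε8δ : ε8 ≤ δ := by rw [hε8d]; exact min_le_left _ _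
  have hε8k : ε8 * ((k : ℝ) - 1) ≤ 1 := by
    have h1 : ε8 ≤ 1 / (k : ℝ) := by rw [hε8d]; exact min_le_right _ _
    calc ε8 * ((k : ℝ) - 1) ≤ 1 / (k : ℝ) * (k : ℝ) := mul_le_mul h1 (by linarith) (by linarith) (by positivity)
      _ = 1 := by field_simp
  obtain ⟨C8, N8, h8⟩ := H κ εs qs hκ hεs hqs k 0 ε8 δ' hε8 hδ' hδ'0
  obtain ⟨Nf, hf⟩ := hFine F0 h0 pB pS hp0 hp1 (fun _ => 1) (fun _ _ => one_pos)
  have hFok : (F0.wExp pB.sStar pB.eta pS).Ok := (h0.2.2 _ _ _ (tlk_expok pB hp0 hp1)).sec3.ok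
  refine ⟨Ck * ((2 * M0 + 1) * ((M0 + 1) * (4 * (|C8| + 1))) ^ (k - 1) + (2 * M0 + 1) ^ (k - 2) * (M0 ^ 2 * |C8|)), max N8 Nf, ?_⟩
  intro N s hN
  filter_upwards [h8 N s ((le_max_left _ _).trans hN), hf N s ((le_max_right _ _).trans hN)] with Fs a8 af ell lam chiL chiE sm γ m hR hOk
  intro hY hBd hs hstop
  exact Hk _ C8 ε8 δ δ' c C0 κ M0 v0 cE εs qs hOk hFok (af ell lam chiL chiE sm γ m trivial hOk) hδ' hδκ hc hk7 hε8 hε8δ hε8k hY hBd hs hstop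
    (a8 ell lam chiL chiE sm γ m hR hOk hY)


/-! ### 6. the shapes `L9SbD`, `LLGood` -/

/-- T3 + T4 at a point of Sec. 9 (statement of `Q.xT34` unfolded: `L09/Trd.lean` is downstream) -/
def L9Q.xT34u (Q : L9Q) (Mj : L9Mj) (A c : ℝ) (k : ℕ) : Prop :=
  ∀ (en : Bool) (W : ℕ → ℝ) (w : ℝ), (∀ j, 0 ≤ W j) → (∀ j ≤ Q.N, W j ≤ w) →
    (llJs Q.I.m Q.p.a (l9xPS (Q.I.P Q.p) fun s => obS Q.I.m Q.p.a (llMat (Q.I.P Q.p)) 0 (min s Q.N))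
      (if en then some (Q.I.js Q.p) else none)).errW W k ≤ A * w * (Q.x ^ (6 : ℝ) + Q.x ^ (-c) * Q.z0 1 * Q.Y Mj ^ 2 * Q.Z Mj ^ 2)

/-- dictionary `Q.i8` / `Q` for the statement of T3 + T4 -/
theorem l9x_t34_dict (Q : L9Q) (cC A c : ℝ) (k : ℕ) (hok : Q.i8.Ok) (hsm : Q.p.sm = false)
    (h : ∀ (tl : Bool) (W : ℕ → ℝ) (w : ℝ), (∀ j, 0 ≤ W j) → (∀ j ≤ Q.i8.n, W j ≤ w) →
      (Q.i8.xXS tl).errW W k ≤ A * w * (Q.i8.x ^ (6 : ℝ) + Q.i8.x ^ (-c) * Q.i8.z0 1 * Q.i8.Y ^ 2 * Q.i8.Z ^ 2)) :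
    Q.xT34u (l8Mj cC) A c k := by
  intro en W w hW0 hWw
  have e1 : Q.Z (l8Mj cC) = Q.i8.Z := (l8_Z_eq Q.i8 hok.pt cC).1
  have e2 : Q.Y (l8Mj cC) = Q.i8.Y := by
    show Q.U * Q.Zc (l8Mj cC) = Q.i8.U * Q.i8.Z
    rw [l9rs_Zc_D Q cC hok hsm]
    rfl
  rw [e1, e2]
  exact h en W w hW0 hWw

/-- **T3 + T4 in the shape `L9SbD`** on the points where the clocks are bounded -/
theorem l9x_t34_sb {𝔹 : LlBase} {T : ℝ} (hDir : L8xDir 𝔹 T) (hFine : L8gFine 𝔹 T) {F0 : LlFix} (h0 : L8Fix 𝔹 T F0) (pB : LLParB) {pS : ℝ}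
    (hp0 : 0 < pS) (hp1 : pS ≤ 1) :
    ∃ C0 δ0 : ℝ, 1 ≤ C0 ∧ 0 < δ0 ∧ ∀ (cC κ δ' c M0 : ℝ) (k : ℕ), 0 < δ' → δ' ≤ δ0 → δ' < κ → C0 * δ' ≤ c → 2 ≤ k → 7 ≤ ((k : ℝ) - 1) * δ' →
      L9SbD 𝔹 (l8Mj cC) κ (F0.wExp pB.sStar pB.eta pS) fun A Q => LlBd M0 (Q.I.P Q.p) → Q.xT34u (l8Mj cC) A c k := by
  obtain ⟨C0, δ0, hC0, hδ0, H⟩ := l9x_t34_ev hDir hFine h0 pB hp0 hp1
  refine ⟨C0, δ0, hC0, hδ0, fun cC κ δ' c M0 k h1 h2 h3 h4 h5 h6 => ?_⟩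
  have K := l9rs_sbD_of_ev (𝔹 := 𝔹) (F := F0.wExp pB.sStar pB.eta pS) cC κ
    (Φ := fun A I => LlBd M0 I.LP → ∀ (tl : Bool) (W : ℕ → ℝ) (w : ℝ), (∀ j, 0 ≤ W j) → (∀ j ≤ I.n, W j ≤ w) →
          (I.xXS tl).errW W k ≤ A * w * (I.x ^ (6 : ℝ) + I.x ^ (-c) * I.z0 1 * I.Y ^ 2 * I.Z ^ 2)) ?_
  · intro δ hδ ε hε q hq
    obtain ⟨C, N0, h⟩ := K δ hδ ε hε q hq
    refine ⟨C, N0, fun N hN => ?_⟩
    filter_upwards [h N hN] with Fs hFs m ell γ t hy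
    obtain ⟨hok, hh⟩ := hFs m ell γ t hy
    intro hBd
    exact l9x_t34_dict _ cC _ c k hok rfl (hh hBd)
  · intro δ hδ ε hε q hq
    obtain ⟨C, N0, h⟩ := H κ δ' c M0 k h1 h2 h3 h4 h5 h6 δ ε q hδ hε hq
    refine ⟨C, N0, L8Ev.mono h le_rfl ?_⟩
    intro I _ hI hY hs hst hBd
    exact hI hY hBd hs hst

/-- **T3 + T4 in the form `LLGood`**, given the bound of the clocks in the same form.      `C_0`, `δ'` of `par` beat the constants of (D8), which depend on the stages B, D only. -/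
theorem l9x_t34_good {𝔹 : LlBase} {T : ℝ} (hDir : L8xDir 𝔹 T) (hFine : L8gFine 𝔹 T) {F0 : LlFix} (h0 : L8Fix 𝔹 T F0)
    (hBd : LLGood fun par => ∃ M0 : ℝ, L9SbD 𝔹 (l8Mj par.cC) par.kappa (F0.wExp par.sStar par.eta par.pStar) fun _ Q => LlBd M0 (Q.I.P Q.p)) :
    LLGood fun par => L9SbD 𝔹 (l8Mj par.cC) par.kappa (F0.wExp par.sStar par.eta par.pStar) fun A Q =>
      Q.xT34u (l8Mj par.cC) A (par.C0 * par.dPr) par.J0 := by
  have hT : LLGood fun par => ∀ M0 : ℝ, L9SbD 𝔹 (l8Mj par.cC) par.kappa (F0.wExp par.sStar par.eta par.pStar) fun A Q =>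
      LlBd M0 (Q.I.P Q.p) → Q.xT34u (l8Mj par.cC) A (par.C0 * par.dPr) par.J0 := by
    refine LLGood.of_E fun pE => ?_
    have hp1 : pE.pStar ≤ 1 := by
      have h1 := pE.pStar_le_cP
      have h2 := pE.cP_le
      have h3 := pE.pStar_pos
      linarith
    obtain ⟨C0, δ0, hC0, hδ0, H⟩ := l9x_t34_sb hDir hFine h0 pE.toLLParB pE.pStar_pos hp1
    filter_upwards [l9q_FilE_to pE, l9q_FilE_of (l9q_FF_C0 pE C0), l9q_FilE_of (l9q_FF_dPr pE hδ0)] with par e1 e2 e3 M0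
    have g1 := par.J0_ge
    have g2 := par.dPr_le
    have g3 := par.C0_ge
    have g4 := par.dPr_pos
    have g5 := par.kappa_le
    have g6 : 2 ≤ par.J0 := by
      have : (2 : ℝ) < (par.J0 : ℝ) := by
        by_contra hh
        push Not at hh
        nlinarith
      exact_mod_cast this.le
    have := H par.cC par.kappa par.dPr (par.C0 * par.dPr) M0 par.J0 g4 e3 (by nlinarith) (by nlinarith) g6 (by nlinarith)
    rw [← e1] at this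
    exact this
  refine (hBd.and hT).mono ?_
  rintro par ⟨⟨M0, hb⟩, ht⟩
  intro δ hδ ε hε q hq
  obtain ⟨C, N0, h⟩ := ht M0 δ hδ ε hε q hq
  obtain ⟨C', N0', h'⟩ := hb δ hδ ε hε q hq
  refine ⟨C, max N0 N0', fun N hN => ?_⟩
  filter_upwards [h N ((le_max_left _ _).trans hN), h' N ((le_max_right _ _).trans hN)] with Fs a1 a2 m ell γ t hy
  exact a1 m ell γ t hy (a2 m ell γ t hy)

end

end Claimed.Agent.R286
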