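import Claimed.Agent.R286.L09.RedC
import Claimed.Agent.R286.L08.LsInst
import Claimed.Agent.R286.L08.Glue
import Claimed.Agent.R286.L08.SPC

/-!
# Row 286 (S0533), unit L09, node RED, file RedInst: **DIC** = THE DICTIONARY fork laws of LL 08 <-> tree numbers of LL 02/09      (owner helper153; T4 of helper93; prefix `l9ri`)

INSTANCE debt of `L9rPos`, `L9rEnv`, `L9rChg`, `L9rSet`, `L9rAt` (282: `L09/RedDefs`, `L09/RedMain`) and of the fields `d2`, `p87` of `L9Q.Sup` (`L09/RedC`) at the contexts `I.X tl = llJs m a LP tl`.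
ENGINE: the consistent family of path laws `l8liSk` of 257 (`L08/LsInst`: `l8li_rep`, `l8li_ok`): `ν_τ[F(spins)] = ∫ F d(law τ)`, pair marginals of `law τ` = the fork laws of `skSP`.
* `l9ri_pos`       : `L9rPos (llJs n a P tl)`;
* `l9ri_dic_pair`  : `ν_τ[G(σ_x, σ_y)] = ∫ G(spins of the two branches) d fork(τ x y)`, any table on `r ≥ 2` labels;      `l9ri_dic2` : the table `l9rT2`;
* `l9ri_QX_term`   : the projected pair beyond the terminal draw is the overlap `skOv`;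
* `l9ri_env`, `l9ri_env_msk` : (D2) in the form of `L8In.Rnd` (`ref_Q`) ⟹ `L9rEnv`;
* `l9ri_chg`       : Cor. 8.7 in the form of `L8In.Rnd` (`proj`) ⟹ `L9rChg` (RESAMPLING form): on the 4-label law the projected pair at the cut `c` is COMMON to the pair and to its resampled copy (`l8s_fork_prefix`).
-/

set_option autoImplicit false

namespace Claimed.Agent.R286

open MeasureTheory ProbabilityTheory Finset

/-! ## 1. the positive laws -/

/-- **INSTANCE** of `L9rPos` -/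
theorem l9ri_pos (n : ℕ) {a : ℝ} (ha : 0 < a) {P : LlStp} (hP : LlStpAdm a P) (tl : Option ℕ) : L9rPos (llJs n a P tl) := by
  classical
  have hB := obt_base_ok n ha
  have hls : GhAdm (skBase n a) 0 (skLvs n (llMv tl P)) := l8i_adm (ll2_mv_adm hP tl)
  have hlen : (skLvs n (llMv tl P)).length = P.length := by simp [skLvs, ll2_mv_len]
  refine ⟨fun q τ _ => ?_, fun q τ τ' T h => ?_, fun q p τ hτ f hf T hT => ?_⟩
  · exact ⟨fun σ => trPr (skBase n a) (skLvs n (llMv tl P)) q τ 0 σ, fun σ => tr_pr_nonneg hB hls q τ 0 σ, tr_pr_sum hB hls q τ 0,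
      fun T => tr_nu_eq_sum hB hls q τ 0 T⟩
  · exact tr_nu_congr _ _ h 0 T
  · exact tr_nu_comap hB hls (hlen.symm ▸ hτ) 0 f hf T hT

/-- a constant under a positive law -/
theorem l9ri_nu_const (n : ℕ) {a : ℝ} (ha : 0 < a) {P : LlStp} (hP : LlStpAdm a P) (tl : Option ℕ) {q : ℕ} {τ : ℕ → ℕ → ℕ}
    (hτ : IsTr P.length q τ) (c : ℝ) : (llJs n a P tl).nu q τ (fun _ => c) = c := by
  obtain ⟨w, -, hs, hrep⟩ := (l9ri_pos n ha hP tl).rep q τ hτ
  rw [hrep, ← Finset.sum_mul, hs, one_mul]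

/-! ## 2. pair marginals -/

section pair

variable (n : ℕ) {a : ℝ} (ha : 0 < a) {P : LlStp} (hP : LlStpAdm a P) (tl : Option ℕ) {r : ℕ} (hr : 2 ≤ r)
  {τ : ℕ → ℕ → ℕ} (hτ : IsTr P.length r τ) {x y : ℕ} (hx : x < r) (hy : y < r) (hxy : x ≠ y)
include ha hP hr hτ hx hy hxy

/-- the law of the paths of two labels is the fork law -/
theorem l9ri_marg2 : ((l8liSk n a P tl r).law τ).map (fun w => (w x, w y)) = (skSP n a (llMv tl P)).fork (τ x y) := by
  have R := l8li_rep n a ha P hP tl r hr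
  have hV : (l8liSk n a P tl r).V τ := by rw [R.hV]; exact hτ
  rw [← l8li_sk_fork n a P tl r]
  exact R.ok.marg2 τ hV x y (R.hr.symm ▸ hx) (R.hr.symm ▸ hy) hxy

/-- tests of the paths of two labels -/
theorem l9ri_law_pair (F : SkOm n × SkOm n → ℝ) (hF : Measurable F) :
    ∫ w, F (w x, w y) ∂(l8liSk n a P tl r).law τ = ∫ p, F p ∂(skSP n a (llMv tl P)).fork (τ x y) := by
  rw [← l9ri_marg2 n ha hP tl hr hτ hx hy hxy,
    integral_map ((measurable_pi_apply x).prodMk (measurable_pi_apply y)).aemeasurable hF.aestronglyMeasurable]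

/-- almost sure properties of the paths of two labels -/
theorem l9ri_ae_pair {p : SkOm n × SkOm n → Prop} (h : ∀ᵐ z ∂(skSP n a (llMv tl P)).fork (τ x y), p z) :
    ∀ᵐ w ∂(l8liSk n a P tl r).law τ, p (w x, w y) := by
  rw [← l9ri_marg2 n ha hP tl hr hτ hx hy hxy] at h
  exact ae_of_ae_map ((measurable_pi_apply x).prodMk (measurable_pi_apply y)).aemeasurable h

/-- **DIC, pairs**: a test of the spins of two labels under the positive law of ANY table = the same test of the terminal spins of the two branches under the fork law -/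
theorem l9ri_dic_pair (G : SkCfg n → SkCfg n → ℝ) :
    (llJs n a P tl).nu r τ (fun σ => G (σ x) (σ y)) = ∫ p, G p.1.2 p.2.2 ∂(skSP n a (llMv tl P)).fork (τ x y) := by
  have R := l8li_rep n a ha P hP tl r hr
  have hu : TrUses r (fun σ : ℕ → SkCfg n => G (σ x) (σ y)) := fun σ σ' h => by simp only [h x hx, h y hy]
  have hm : Measurable fun p : SkOm n × SkOm n => G p.1.2 p.2.2 :=
    (Measurable.of_discrete (f := fun q : SkCfg n × SkCfg n => G q.1 q.2)).comp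
      ((measurable_snd.comp measurable_fst).prodMk (measurable_snd.comp measurable_snd))
  rw [R.rep τ hτ _ hu]
  exact l9ri_law_pair n ha hP tl hr hτ hx hy hxy (fun p => G p.1.2 p.2.2) hm

end pair

/-- **DIC** on the table `l9rT2` -/
theorem l9ri_dic2 (n : ℕ) {a : ℝ} (ha : 0 < a) {P : LlStp} (hP : LlStpAdm a P) (tl : Option ℕ) {v : ℕ} (hv : v ≤ P.length + 1)
    (G : SkCfg n → SkCfg n → ℝ) :
    (llJs n a P tl).nu 2 (l9rT2 P.length v) (fun σ => G (σ 0) (σ 1)) = ∫ p, G p.1.2 p.2.2 ∂(skSP n a (llMv tl P)).fork v :=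
  l9ri_dic_pair n ha hP tl le_rfl (l9r_t2_isTr hv) (x := 0) (y := 1) (by norm_num) (by norm_num) (by norm_num) G

/-! ## 3. the projected pair beyond the terminal draw -/

theorem l9ri_QX_term (n : ℕ) (a : ℝ) (Q : SkStp) {k₁ k₂ : ℕ} (h1 : Q.length < k₁) (h2 : Q.length < k₂) (p : SkOm n × SkOm n) :
    (skSP n a Q).QX k₁ k₂ p = skOv p.1.2 p.2.2 := by
  unfold L8P.QX skOv
  rw [Finset.sum_div]
  refine Finset.sum_congr rfl fun i _ => ?_
  rw [l8i_X_gt n a Q k₁ h1, l8i_X_gt n a Q k₂ h2]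
  unfold skY
  rw [div_mul_div_comm, Real.mul_self_sqrt (Nat.cast_nonneg n)]

theorem l9ri_QX_meas (n : ℕ) (a : ℝ) (Q : SkStp) (k₁ k₂ : ℕ) : Measurable ((skSP n a Q).QX k₁ k₂) := by
  unfold L8P.QX
  exact Finset.measurable_sum _ fun i _ => ((l8i_X_meas n a Q k₁ i).comp measurable_fst).mul ((l8i_X_meas n a Q k₂ i).comp measurable_snd)

theorem l9ri_QX_bdd (n : ℕ) {a : ℝ} (ha : 0 < a) {Q : SkStp} (hQ : SkAdm a Q) (k₁ k₂ : ℕ) (p : SkOm n × SkOm n) :
    |(skSP n a Q).QX k₁ k₂ p| ≤ n := by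
  unfold L8P.QX
  refine (Finset.abs_sum_le_sum_abs _ _).trans ?_
  calc ∑ i, |(skSP n a Q).X k₁ i p.1 * (skSP n a Q).X k₂ i p.2| ≤ ∑ _i : Fin n, (1 : ℝ) := by
        refine Finset.sum_le_sum fun i _ => ?_
        rw [abs_mul]
        exact mul_le_one₀ (l8i_X_bdd n a ha Q hQ k₁ i p.1) (abs_nonneg _) (l8i_X_bdd n a ha Q hQ k₂ i p.2)
    _ = n := by simp

/-! ## 4. resampling -/

theorem l9ri_pow_sub_le (x y : ℝ) (r : ℕ) : (x - y) ^ (2 * r) ≤ 2 ^ (2 * r) * ((x ^ (2 * r) + y ^ (2 * r)) / 2) := by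
  have hc : ConvexOn ℝ Set.univ fun x : ℝ => x ^ (2 * r) := Even.convexOn_pow (even_two_mul r)
  have h := hc.2 (Set.mem_univ x) (Set.mem_univ (-y)) (show (0 : ℝ) ≤ 1 / 2 by norm_num) (show (0 : ℝ) ≤ 1 / 2 by norm_num) (by norm_num)
  simp only [smul_eq_mul, Even.neg_pow (even_two_mul r)] at h
  calc (x - y) ^ (2 * r) = 2 ^ (2 * r) * (1 / 2 * x + 1 / 2 * -y) ^ (2 * r) := by rw [← mul_pow]; ring_nf
    _ ≤ 2 ^ (2 * r) * (1 / 2 * x ^ (2 * r) + 1 / 2 * y ^ (2 * r)) := mul_le_mul_of_nonneg_left h (by positivity)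
    _ = _ := by ring

/-- **DIC, resampling** (LL Cor. 8.7 ⟹ its resampling form): the pair `(0,1)` splits at `v`, the copy `(2,3)` is resampled after the cut `c`; the projected pair at the cut `c` is common -/
theorem l9ri_chg_gen (n : ℕ) (hn : 1 ≤ n) {a : ℝ} (ha : 0 < a) {P : LlStp} (hP : LlStpAdm a P) (tl : Option ℕ) {r v c : ℕ} (hvc : v ≤ c)
    (hc : c ≤ P.length + 1) {ζ : ℝ}
    (h : ∫ p, ((skSP n a (llMv tl P)).QX (P.length + 1) (P.length + 1) p - (skSP n a (llMv tl P)).QX c c p) ^ (2 * r)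
      ∂(skSP n a (llMv tl P)).fork v ≤ ζ ^ (2 * r)) :
    (llJs n a P tl).nu 4 (l9rT4 P.length v c) (fun σ => (skOv (σ 0) (σ 1) - skOv (σ 2) (σ 3)) ^ (2 * r)) ≤ (2 * ζ) ^ (2 * r) := by
  classical
  obtain ⟨S, hSd⟩ : ∃ S, S = skSP n a (llMv tl P) := ⟨_, rfl⟩
  rw [← hSd] at h
  have hQ : SkAdm a (llMv tl P) := ll2_mv_adm hP tl
  have hS : S.Ok := hSd ▸ l8i_ok n hn a ha _ hQ
  have hlen : (llMv tl P).length = P.length := ll2_mv_len tl P
  have hτ : IsTr P.length 4 (l9rT4 P.length v c) := l9r_t4_isTr hvc hc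
  have R := l8li_rep n a ha P hP tl 4 (by norm_num)
  have hV : (l8liSk n a P tl 4).V (l9rT4 P.length v c) := by rw [R.hV]; exact hτ
  have hprob := R.ok.prob _ hV
  obtain ⟨L, hL⟩ : ∃ L, L = (l8liSk n a P tl 4).law (l9rT4 P.length v c) := ⟨_, rfl⟩
  rw [← hL] at hprob
  obtain ⟨D, hD⟩ : ∃ D : SkOm n × SkOm n → ℝ, D = fun p => S.QX (P.length + 1) (P.length + 1) p - S.QX c c p := ⟨_, rfl⟩
  have hDm : Measurable D := by
    rw [hD, hSd]; exact (l9ri_QX_meas n a _ _ _).sub (l9ri_QX_meas n a _ _ _)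
  have hDb : ∀ p, |D p| ≤ 2 * n := fun p => by
    have h1 := l9ri_QX_bdd n ha hQ (P.length + 1) (P.length + 1) p
    have h2 := l9ri_QX_bdd n ha hQ c c p
    rw [← hSd] at h1 h2
    rw [hD]
    calc |S.QX (P.length + 1) (P.length + 1) p - S.QX c c p| ≤ |S.QX (P.length + 1) (P.length + 1) p| + |S.QX c c p| := abs_sub _ _
      _ ≤ _ := by linarith
  have t01 : l9rT4 P.length v c 0 1 = v := by simp [l9rT4]
  have t23 : l9rT4 P.length v c 2 3 = v := by simp [l9rT4]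
  have t02 : l9rT4 P.length v c 0 2 = c := by simp [l9rT4]
  have t13 : l9rT4 P.length v c 1 3 = c := by simp [l9rT4]
  have hu : TrUses 4 (fun σ : ℕ → SkCfg n => (skOv (σ 0) (σ 1) - skOv (σ 2) (σ 3)) ^ (2 * r)) := fun σ σ' h => by
    simp only [h 0 (by norm_num), h 1 (by norm_num), h 2 (by norm_num), h 3 (by norm_num)]
  rw [R.rep _ hτ _ hu, ← hL]
  -- the posterior means at the cut `c` are common
  have hX : ∀ i, Measurable[S.ℱ c] (S.X c i) := fun i => (S.l8s_E_sm hS c (S.l8s_y_bd hS i)).measurable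
  have a02 : ∀ᵐ w ∂L, ∀ i, S.X c i (w 0) = S.X c i (w 2) := by
    rw [ae_all_iff]
    intro i
    have h0 : ∀ᵐ z ∂(skSP n a (llMv tl P)).fork (l9rT4 P.length v c 0 2), S.X c i z.1 = S.X c i z.2 := by
      rw [t02, ← hSd]; exact S.l8s_fork_prefix hS c (hX i)
    rw [hL]
    exact l9ri_ae_pair n ha hP tl (by norm_num) hτ (x := 0) (y := 2) (by norm_num) (by norm_num) (by norm_num) h0
  have a13 : ∀ᵐ w ∂L, ∀ i, S.X c i (w 1) = S.X c i (w 3) := by
    rw [ae_all_iff]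
    intro i
    have h0 : ∀ᵐ z ∂(skSP n a (llMv tl P)).fork (l9rT4 P.length v c 1 3), S.X c i z.1 = S.X c i z.2 := by
      rw [t13, ← hSd]; exact S.l8s_fork_prefix hS c (hX i)
    rw [hL]
    exact l9ri_ae_pair n ha hP tl (by norm_num) hτ (x := 1) (y := 3) (by norm_num) (by norm_num) (by norm_num) h0
  have hae : ∀ᵐ w ∂L, (skOv (w 0).2 (w 1).2 - skOv (w 2).2 (w 3).2) ^ (2 * r) = (D (w 0, w 1) - D (w 2, w 3)) ^ (2 * r) := by
    filter_upwards [a02, a13] with w h02 h13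
    have e1 : S.QX c c (w 0, w 1) = S.QX c c (w 2, w 3) := by
      unfold L8P.QX
      exact Finset.sum_congr rfl fun i _ => by rw [h02 i, h13 i]
    have e2 : ∀ p, S.QX (P.length + 1) (P.length + 1) p = skOv p.1.2 p.2.2 := fun p => by
      rw [hSd]; exact l9ri_QX_term n a _ (by omega) (by omega) p
    rw [hD]
    simp only [e2, e1]
    ring_nf
  rw [integral_congr_ae hae]
  have hpm : ∀ x y : ℕ, Measurable fun w : ℕ → SkOm n => D (w x, w y) := fun x y =>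
    hDm.comp ((measurable_pi_apply x).prodMk (measurable_pi_apply y))
  have hint : ∀ x y : ℕ, Integrable (fun w : ℕ → SkOm n => D (w x, w y) ^ (2 * r)) L := fun x y =>
    Integrable.of_bound ((hpm x y).pow_const _).aestronglyMeasurable ((2 * n) ^ (2 * r)) (ae_of_all _ fun w => by
      rw [Real.norm_eq_abs, abs_pow]; exact pow_le_pow_left₀ (abs_nonneg _) (hDb _) _)
  have hint2 : Integrable (fun w : ℕ → SkOm n => (D (w 0, w 1) - D (w 2, w 3)) ^ (2 * r)) L :=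
    Integrable.of_bound (((hpm 0 1).sub (hpm 2 3)).pow_const _).aestronglyMeasurable ((2 * n + 2 * n) ^ (2 * r)) (ae_of_all _ fun w => by
      rw [Real.norm_eq_abs, abs_pow]
      exact pow_le_pow_left₀ (abs_nonneg _) ((abs_sub _ _).trans (add_le_add (hDb _) (hDb _))) _)
  have m01 : ∫ w, D (w 0, w 1) ^ (2 * r) ∂L = ∫ p, D p ^ (2 * r) ∂S.fork v := by
    have := l9ri_law_pair n ha hP tl (by norm_num) hτ (x := 0) (y := 1) (by norm_num) (by norm_num) (by norm_num)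
      (fun p => D p ^ (2 * r)) (hDm.pow_const _)
    rw [t01, ← hL, ← hSd] at this
    exact this
  have m23 : ∫ w, D (w 2, w 3) ^ (2 * r) ∂L = ∫ p, D p ^ (2 * r) ∂S.fork v := by
    have := l9ri_law_pair n ha hP tl (by norm_num) hτ (x := 2) (y := 3) (by norm_num) (by norm_num) (by norm_num)
      (fun p => D p ^ (2 * r)) (hDm.pow_const _)
    rw [t23, ← hL, ← hSd] at this
    exact this
  have h' : ∫ p, D p ^ (2 * r) ∂S.fork v ≤ ζ ^ (2 * r) := by rw [hD]; exact h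
  calc ∫ w, (D (w 0, w 1) - D (w 2, w 3)) ^ (2 * r) ∂L
      ≤ ∫ w, 2 ^ (2 * r) * ((D (w 0, w 1) ^ (2 * r) + D (w 2, w 3) ^ (2 * r)) / 2) ∂L :=
        integral_mono hint2 ((((hint 0 1).add (hint 2 3)).div_const 2).const_mul _) fun w => l9ri_pow_sub_le _ _ _
    _ = 2 ^ (2 * r) * ((∫ w, D (w 0, w 1) ^ (2 * r) ∂L + ∫ w, D (w 2, w 3) ^ (2 * r) ∂L) / 2) := by
        rw [integral_const_mul, integral_div, integral_add (hint 0 1) (hint 2 3)]
    _ = 2 ^ (2 * r) * ∫ p, D p ^ (2 * r) ∂S.fork v := by rw [m01, m23]; ring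
    _ ≤ 2 ^ (2 * r) * ζ ^ (2 * r) := mul_le_mul_of_nonneg_left h' (by positivity)
    _ = _ := by rw [mul_pow]

/-! ## 5. at an instance of LL 08 -/

theorem l9ri_msk_act (I : L8In) {tl : Bool} {v : ℕ} (h : I.act tl v) : (I.X tl).msk v = 1 := by
  cases tl with
  | false => rfl
  | true =>
    show (if I.js < v then (1 : ℝ) else 0) = 1
    rw [if_pos (h.2 rfl)]

theorem l9ri_msk_not (I : L8In) {v : ℕ} (h : v ≤ I.js) : (I.X true).msk v = 0 := by
  show (if I.js < v then (1 : ℝ) else 0) = 0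
  rw [if_neg (by omega)]

theorem l9ri_len (I : L8In) (tl : Bool) : (I.P tl).length = I.n := ll2_mv_len _ _

/-- the terminal pair is the overlap -/
theorem l9ri_QX_ov (I : L8In) (tl : Bool) (p : SkOm I.m × SkOm I.m) : (I.sp tl).QX (I.n + 1) (I.n + 1) p = skOv p.1.2 p.2.2 :=
  l9ri_QX_term I.m I.a (I.P tl) (by rw [l9ri_len]; omega) (by rw [l9ri_len]; omega) p

/-- **(D2) ⟹ `L9rEnv`**, active pairs -/
theorem l9ri_env (I : L8In) (ha : 0 < I.a) (hP : LlStpAdm I.a I.LP) (tl : Bool) {r v : ℕ} {E : ℝ} (hact : I.act tl v)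
    (h : I.moF tl v r (fun ω => (I.sp tl).QX (I.n + 1) (I.n + 1) ω - I.q v) ≤ E ^ (2 * r)) : L9rEnv (I.X tl) (2 * r) v E := by
  unfold L9rEnv
  have hm := l9ri_msk_act I hact
  have e : (fun σ : ℕ → SkCfg I.m => |(I.X tl).msk v * (I.X tl).ov (σ 0) (σ 1) - (I.X tl).qC v| ^ (2 * r))
      = fun σ => (fun s s' : SkCfg I.m => (skOv s s' - I.q v) ^ (2 * r)) (σ 0) (σ 1) := by
    funext σ
    rw [hm, one_mul, pow_mul, sq_abs, ← pow_mul]
    rfl
  rw [e]
  have hv : v ≤ I.LP.length + 1 := by have := hact.1; unfold L8In.n at this; omega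
  have d := l9ri_dic2 I.m ha hP (if tl then some I.js else none) hv (fun s s' : SkCfg I.m => (skOv s s' - I.q v) ^ (2 * r))
  refine le_trans (le_of_eq d) ?_
  unfold L8In.moF at h
  simp only [l9ri_QX_ov] at h
  exact h

/-- **`L9rEnv`**, masked pairs of the tilted ensemble -/
theorem l9ri_env_msk (I : L8In) (ha : 0 < I.a) (hP : LlStpAdm I.a I.LP) {r v : ℕ} {E : ℝ} (hv : v ≤ I.js) (hn : v ≤ I.n + 1)
    (h : |I.q v| ≤ E) : L9rEnv (I.X true) r v E := by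
  unfold L9rEnv
  have e : (fun σ : ℕ → SkCfg I.m => |(I.X true).msk v * (I.X true).ov (σ 0) (σ 1) - (I.X true).qC v| ^ r) = fun _ => |I.q v| ^ r := by
    funext σ
    rw [l9ri_msk_not I hv, zero_mul, zero_sub, abs_neg]
    rfl
  rw [e]
  have c := l9ri_nu_const I.m ha hP (some I.js) (l9r_t2_isTr (N := I.LP.length) (v := v) hn) (|I.q v| ^ r)
  refine le_trans (le_of_eq c) ?_
  exact pow_le_pow_left₀ (abs_nonneg _) h r

/-- **Cor. 8.7 ⟹ `L9rChg`** -/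
theorem l9ri_chg (I : L8In) (hm : 1 ≤ I.m) (ha : 0 < I.a) (hP : LlStpAdm I.a I.LP) (tl : Bool) {r v c : ℕ} (hr : 1 ≤ r) (hvn : v ≤ I.n)
    (hvc : v ≤ c) (hc : c ≤ I.n + 1) {ζ : ℝ}
    (h : I.act tl v → I.moF tl v r (fun ω => (I.sp tl).QX (I.n + 1) (I.n + 1) ω - (I.sp tl).QX c c ω) ≤ ζ ^ (2 * r)) :
    L9rChg (I.X tl) (2 * r) v c (2 * ζ) := by
  unfold L9rChg
  by_cases hact : I.act tl v
  · have e : (fun σ : ℕ → SkCfg I.m => |(I.X tl).msk v * ((I.X tl).ov (σ 0) (σ 1) - (I.X tl).ov (σ 2) (σ 3))| ^ (2 * r))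
        = fun σ => (skOv (σ 0) (σ 1) - skOv (σ 2) (σ 3)) ^ (2 * r) := by
      funext σ
      rw [l9ri_msk_act I hact, one_mul, pow_mul, sq_abs, ← pow_mul]
      rfl
    rw [e]
    exact l9ri_chg_gen I.m hm ha hP (if tl then some I.js else none) hvc hc (h hact)
  · have htl : tl = true ∧ v ≤ I.js := by
      unfold L8In.act at hact
      cases tl with
      | false => exact absurd ⟨hvn, fun h => by cases h⟩ hact
      | true => exact ⟨rfl, by by_contra hh; exact hact ⟨hvn, fun _ => by omega⟩⟩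
    obtain ⟨rfl, hjs⟩ := htl
    have e : (fun σ : ℕ → SkCfg I.m => |(I.X true).msk v * ((I.X true).ov (σ 0) (σ 1) - (I.X true).ov (σ 2) (σ 3))| ^ (2 * r))
        = fun _ => 0 := by
      funext σ
      rw [l9ri_msk_not I hjs, zero_mul, abs_zero, zero_pow (by omega)]
    rw [e]
    have c0 := l9ri_nu_const I.m ha hP (some I.js) (l9r_t4_isTr (N := I.LP.length) hvc hc) 0
    refine le_trans (le_of_eq c0) ?_
    exact Even.pow_nonneg (even_two_mul r) _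

theorem l9ri_env_mono {S : Type} {X : JtCtx S} {r v : ℕ} {E E' : ℝ} (h : L9rEnv X r v E) (h0 : 0 ≤ E) (hE : E ≤ E') : L9rEnv X r v E' :=
  le_trans h (pow_le_pow_left₀ h0 hE r)

theorem l9ri_chg_mono {S : Type} {X : JtCtx S} {r v c : ℕ} {ζ ζ' : ℝ} (h : L9rChg X r v c ζ) (h0 : 0 ≤ ζ) (hE : ζ ≤ ζ') : L9rChg X r v c ζ' :=
  le_trans h (pow_le_pow_left₀ h0 hE r)

/-! ## 6. the random fields of `L9Q.Sup` from `L8In.Rnd` -/

theorem l9ri_a_pos (I : L8In) (hok : I.Ok) : 0 < I.a := by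
  unfold L8In.a LlPt.a
  split_ifs
  · norm_num
  · linarith [hok.pt.ell1]

theorem l9ri_m_pos (I : L8In) (hok : I.Ok) : 1 ≤ I.m := by
  have h1 := hok.pt.N2
  have h2 := hok.m_lo
  omega

theorem l9ri_x_nonneg (I : L8In) : 0 ≤ I.x := Real.rpow_nonneg (Nat.cast_nonneg _) _

theorem l9ri_v_mono (I : L8In) (hok : I.Ok) (hP : LlStpAdm I.a I.LP) : Monotone I.v :=
  (l8i_ok I.m (l9ri_m_pos I hok) I.a (l9ri_a_pos I hok) I.P0 hP.1).v_mono

theorem l9ri_v_term (I : L8In) (hok : I.Ok) (hP : LlStpAdm I.a I.LP) {k : ℕ} (hk : I.n ≤ k) : I.v k = I.a :=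
  (l8i_ok I.m (l9ri_m_pos I hok) I.a (l9ri_a_pos I hok) I.P0 hP.1).v_term k (by
    show (llMat I.LP).length ≤ k
    rw [ll2_mat_len]; exact hk)

theorem l9ri_S_nonneg (I : L8In) (hok : I.Ok) (hP : LlStpAdm I.a I.LP) {k : ℕ} (hk : k ≤ I.n) : 0 ≤ I.S k := by
  have h := l8i_S I.m I.a (l9ri_a_pos I hok) I.P0 hP.1 k (by
    show k ≤ (llMat I.LP).length
    rw [ll2_mat_len]; exact hk)
  show 0 ≤ obS I.m I.a I.P0 0 k
  rw [← h]
  exact integral_nonneg fun ω => Finset.sum_nonneg fun i _ => sq_nonneg _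

/-- **(D2) in table form**, both kinds of pairs -/
theorem l9ri_I_d2 (I : L8In) (hok : I.Ok) {η : ℝ} (hf : I.Fine η) {e : ℕ → ℝ} {A Y Zh vt vp cE : ℝ} {pm jm : ℕ} (hpm : 2 ≤ pm)
    (henv : I.Env e A Y vt cE) (hnum : I.Num A Y Zh vt) (hA : 0 ≤ A) (hsY : I.s ≤ Y) (tl : Bool) (hr : I.Rnd tl e A Y Zh vt vp pm jm)
    {v : ℕ} (hv : v ≤ I.n) (hvt : I.v v ≤ vt) : L9rEnv (I.X tl) 4 v (3 * A * e v) := by
  have ha := l9ri_a_pos I hok
  have he : 0 ≤ e v := (Real.rpow_nonneg (l9ri_x_nonneg I) _).trans (henv.lo v hv)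
  by_cases hact : I.act tl v
  · have h1 := hr.ref_Q 2 (by norm_num) hpm v hact hvt (I.n + 1) (I.n + 1) (by omega) (by omega)
    have h2 : L9rEnv (I.X tl) (2 * 2) v (A * e v) := l9ri_env I ha hf.adm tl hact h1
    exact l9ri_env_mono h2 (mul_nonneg hA he) (by nlinarith [mul_nonneg hA he])
  · have htl : tl = true ∧ v ≤ I.js := by
      unfold L8In.act at hact
      cases tl with
      | false => exact absurd ⟨hv, fun h => by cases h⟩ hact
      | true => exact ⟨rfl, by by_contra hh; exact hact ⟨hv, fun _ => by omega⟩⟩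
    obtain ⟨rfl, hjs⟩ := htl
    have hvs : I.v v ≤ I.s := hf.js_m ▸ l9ri_v_mono I hok hf.adm hjs
    have hvY : I.v v ≤ Y := hvs.trans hsY
    have heY : e v = Y := henv.low v hv hvY
    have h1 := henv.f_le v hv hvt
    have h2 := hnum.s_le v hv
    have h3 := l9ri_S_nonneg I hok hf.adm hv
    refine l9ri_env_msk I ha hf.adm hjs (by omega) ?_
    have e1 : I.q v = I.S v - I.f v := by unfold L8In.f; ring
    rw [e1]
    calc |I.S v - I.f v| ≤ |I.S v| + |I.f v| := abs_sub _ _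
      _ ≤ A * (I.v v + Y) + A * e v := by rw [abs_of_nonneg h3]; exact add_le_add h2 h1
      _ ≤ A * (Y + Y) + A * e v := by
          have := mul_le_mul_of_nonneg_left (add_le_add_left hvY Y) hA
          linarith
      _ = 3 * A * e v := by rw [heY]; ring

/-- **Cor. 8.7 in table (resampling) form**.   `trPm I.v c` = mass of the cut of depth `c` (left end of its cell) -/
theorem l9ri_I_p87 (I : L8In) (hok : I.Ok) {η : ℝ} (hf : I.Fine η) {e : ℕ → ℝ} {A Y Zh vt vp : ℝ} {pm jm : ℕ} (hpm : 2 ≤ pm)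
    (hY : 0 < Y) (hη : η ≤ Y) (tl : Bool) (hr : I.Rnd tl e A Y Zh vt vp pm jm) {v c : ℕ} (hvc : v ≤ c) (hc : c ≤ I.n + 1)
    (h8 : 8 * I.v v ≤ trPm I.v c) (hYc : Y ≤ trPm I.v c) (hcv : trPm I.v c ≤ vp) :
    L9rChg (I.X tl) 4 v c (2 * (A * (I.z0 (trPm I.v c) * trPm I.v c))) := by
  have ha := l9ri_a_pos I hok
  have hmono := l9ri_v_mono I hok hf.adm
  have hc0 : c ≠ 0 := by
    rintro rfl
    simp only [trPm, if_true] at hYc
    linarith
  have hpm' : trPm I.v c = I.v (c - 1) := by simp [trPm, hc0]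
  have hvn : v ≤ I.n := by
    by_contra hh
    have e1 : v = I.n + 1 := by omega
    have e2 : c = I.n + 1 := by omega
    rw [hpm', e1, e2, l9ri_v_term I hok hf.adm (k := I.n + 1) (by omega), l9ri_v_term I hok hf.adm (k := I.n + 1 - 1) (by omega)] at h8
    linarith
  have h1 : trPm I.v c ≤ I.v c := by rw [hpm']; exact hmono (by omega)
  have h2 : I.v c ≤ 2 * trPm I.v c := by
    by_cases hcn : c ≤ I.n
    · have h3 := hf.dv_le c hcn
      have e3 : I.dv c = I.v c - trPm I.v c := by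
        show skGap I.a I.P0 c = _
        unfold skGap trPm
        rfl
      rw [e3] at h3
      linarith
    · have e2 : c = I.n + 1 := by omega
      rw [hpm', e2, l9ri_v_term I hok hf.adm (k := I.n + 1) (by omega), l9ri_v_term I hok hf.adm (k := I.n + 1 - 1) (by omega)]
      linarith
  have key : L9rChg (I.X tl) (2 * 2) v c (2 * (A * (I.z0 (trPm I.v c) * trPm I.v c))) :=
    l9ri_chg I (l9ri_m_pos I hok) ha hf.adm tl (by norm_num) hvn hvc hc fun hact =>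
      hr.proj 2 (by norm_num) hpm (trPm I.v c) hYc hcv v c hact (by linarith) h1 h2 (I.n + 1) (I.n + 1) hc hc
  exact key

/-! # PART B (owner helper211; POST (b2) of 60 / 82, 05:17Z): INSTANCE `L9cAdmS`, `L9cAdmD` (the chains) FROM `L8gFine`      (prefix `l9ca_`; 0 sorry)

    l9c_admS : L8gFine 𝔹 T → L8Fix 𝔹 T F0 → 0 < pS → pS ≤ 1 → L9cAdmS 𝔹 (F0.wExp pB.sStar pB.eta pS)
    l9c_admD : L8gFine 𝔹 T → L8Fix 𝔹 T F0 → 0 < pS → pS ≤ 1 → L9cAdmD 𝔹 Mj κ (F0.wExp pB.sStar pB.eta pS)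

* ONE INSTANCE: `l9ca_adm_of_fine` : `I.Fine η → 0 < I.a → Q.Adm η` for every point `Q : L9Q` on the instance `I : L8In` (`Q.I = I.i9`, `Q.p = I.p`): `adm` = `Fine.adm`, `mesh` = `Fine.dv_le` (`l9ca_mu_eq`).
* `l9ca_dot_nonneg` : on an admissible chain `I.dot ≥ 0`.      * `l9ca_inS_ok`, `l9ca_inD_ok` : `L8In.Ok` from `L9HyS`, `L9HyD` (`N` large: `q x^ε < 1`).
* for the assembly of RED (282): `l9ca_Zg_nonneg` = the hypothesis `hZg` of `l9c_redS` for the concrete majorants `l8Mj c`.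
The proofs never unfold the chain (`L9I.ps`, `L9I.P`): they survive a change of the chain of the instances. -/

section Adm211

open Filter

/-! ## B1. masses and gaps -/

theorem l9ca_ms_eq (a : ℝ) (P : LlStp) (j : ℕ) : skMs a (llMat P) j = llMs a P j := by
  unfold skMs llMs llMat
  rw [List.map_map, List.getD_eq_getElem?_getD]
  rfl

theorem l9ca_mu_eq (a : ℝ) (P : LlStp) (j : ℕ) : l9rMu (llMs a P) j = skGap a (llMat P) j := by
  unfold l9rMu skGap trPm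
  simp only [l9ca_ms_eq]

theorem l9ca_ms_of_lt (a : ℝ) (P : SkStp) {j : ℕ} (hj : j < P.length) : skMs a P j = (P[j]'hj).m := by
  unfold skMs
  rw [List.getD_eq_getElem?_getD, List.getElem?_eq_getElem (by simpa using hj)]
  simp

theorem l9ca_ms_of_le (a : ℝ) (P : SkStp) {j : ℕ} (hj : P.length ≤ j) : skMs a P j = a := by
  unfold skMs
  rw [List.getD_eq_getElem?_getD, List.getElem?_eq_none (by simpa using hj)]
  rfl

/-- the cells of an admissible chain have nonnegative length -/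
theorem l9ca_gap_nonneg {a : ℝ} (ha : 0 ≤ a) {P : SkStp} (hP : SkAdm a P) (j : ℕ) : 0 ≤ skGap a P j := by
  unfold skGap
  rcases Nat.eq_zero_or_pos j with rfl | hj
  · simp only [if_true, sub_zero]
    rcases Nat.lt_or_ge 0 P.length with h | h
    · rw [l9ca_ms_of_lt a P h]
      exact (hP.2 _ (List.getElem_mem h)).1
    · rw [l9ca_ms_of_le a P h]
      exact ha
  · rw [if_neg (by omega)]
    rcases Nat.lt_or_ge j P.length with h | h
    · rw [l9ca_ms_of_lt a P h, l9ca_ms_of_lt a P (by omega : j - 1 < P.length)]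
      have := (List.pairwise_iff_getElem.1 hP.1) (j - 1) j (by omega) h (by omega)
      linarith
    · rw [l9ca_ms_of_le a P h]
      rcases Nat.lt_or_ge (j - 1) P.length with h' | h'
      · rw [l9ca_ms_of_lt a P h']
        have := (hP.2 _ (List.getElem_mem h')).2.1
        linarith
      · rw [l9ca_ms_of_le a P h']
        simp

/-- on an admissible chain the dotted norm is nonnegative -/
theorem l9ca_dot_nonneg (I : L9I) (pf : ℝ → LlPt) (t : ℝ) (ha : 0 ≤ (pf t).a) (h : LlStpAdm (pf t).a (I.P (pf t))) : 0 ≤ I.dot pf t := by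
  unfold L9I.dot
  refine Finset.sum_nonneg fun j _ => mul_nonneg (l9ca_gap_nonneg ha h.1 j) ?_
  positivity

/-! ## B2. one instance -/

/-- **a fine instance of LL 08 is an admissible point of RED** -/
theorem l9ca_adm_of_fine (I : L8In) {η : ℝ} (ha : 0 < I.a) (h : I.Fine η) (pf : ℝ → LlPt) (u e t : ℝ) (hp : pf t = I.p) :
    (⟨I.i9, pf, u, e, t⟩ : L9Q).Adm η := by
  have hQ : (⟨I.i9, pf, u, e, t⟩ : L9Q).p = I.p := hp
  refine ⟨?_, ?_, ?_⟩
  · rw [hQ]; exact ha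
  · rw [hQ]; exact h.adm
  · intro j hj
    unfold L9Q.ms
    unfold L9Q.N at hj
    rw [hQ] at hj ⊢
    rw [l9ca_mu_eq]
    exact h.dv_le j hj

/-! ## B3. the points of the two segments are in the range of the exits of LL 08 -/

theorem l9ca_x_mem {N : ℕ} (hN : 1 ≤ N) : skX N ∈ Set.Ioc (0 : ℝ) 1 := by
  have hN0 : (1 : ℝ) ≤ N := by exact_mod_cast hN
  unfold skX
  exact ⟨Real.rpow_pos_of_pos (by linarith) _, Real.rpow_le_one_of_one_le_of_nonpos hN0 (by norm_num)⟩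

theorem l9ca_cl_mem (y : ℝ) : ll04Cl y ∈ Set.Icc (-4 : ℝ) 4 := by
  unfold ll04Cl
  exact ⟨le_trans (by norm_num) (le_max_left _ _), max_le (by norm_num) (le_trans (min_le_left _ _) (by norm_num))⟩

theorem l9ca_small (ε q : ℝ) (hε : 0 < ε) (hq : 0 < q) : ∃ N0 : ℕ, ∀ N : ℕ, N0 ≤ N → q * skX N ^ ε < 1 := by
  have hlim : Tendsto (fun N : ℕ => skX N ^ ε) atTop (nhds 0) := by
    have h1 : Tendsto (fun N : ℕ => (N : ℝ) ^ (-(ε / 6))) atTop (nhds 0) :=
      (tendsto_rpow_neg_atTop (by positivity : 0 < ε / 6)).comp tendsto_natCast_atTop_atTop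
    refine h1.congr fun N => ?_
    unfold skX
    rw [← Real.rpow_mul (Nat.cast_nonneg N)]
    congr 1
    ring
  obtain ⟨N0, hN0⟩ := eventually_atTop.1 (hlim.eventually (gt_mem_nhds (show 0 < 1 / q by positivity)))
  refine ⟨N0, fun N hN => ?_⟩
  have := hN0 N hN
  rw [lt_div_iff₀ hq] at this
  linarith

/-- the test mass `s = q x^(1+ε)` lies in `(0, x)` -/
theorem l9ca_s_mem {N : ℕ} (hN : 1 ≤ N) {ε q : ℝ} (hq : 0 < q) (h : q * skX N ^ ε < 1) :
    0 < q * skX N ^ (1 + ε) ∧ q * skX N ^ (1 + ε) < skX N := by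
  have hx := (l9ca_x_mem hN).1
  refine ⟨mul_pos hq (Real.rpow_pos_of_pos hx _), ?_⟩
  rw [Real.rpow_add hx, Real.rpow_one]
  calc q * (skX N * skX N ^ ε) = skX N * (q * skX N ^ ε) := by ring
    _ < skX N * 1 := mul_lt_mul_of_pos_left h hx
    _ = skX N := mul_one _

/-- the points of the size segment -/
theorem l9ca_ptS_ok (F : LlFix) (hp : F.pS ≤ 12) {N : ℕ} (hN : 2 ≤ N) (γ : Fin (N + 1) → ℝ) {θ : ℝ} (hθ : θ ∈ Set.Icc (0 : ℝ) (Real.log 2)) :
    (l9PtS F N γ θ).Ok F := by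
  have hx := l9ca_x_mem (N := N) (by omega)
  refine ⟨hN, Real.one_le_exp (by linarith [hθ.1]), ?_, ?_, le_rfl, l9ca_cl_mem _, fun h => ?_, ⟨zero_le_one, le_rfl⟩, ⟨le_rfl, zero_le_one⟩,
    fun _ => ⟨rfl, rfl⟩⟩
  · show Real.exp (θ / 6) ≤ _
    rw [Real.rpow_def_of_pos (by norm_num : (0 : ℝ) < 2)]
    exact Real.exp_le_exp.2 (by linarith [hθ.2])
  · exact Real.rpow_le_rpow_of_exponent_ge hx.1 hx.2 hp
  · show (if hh : h < N then ll04Cl (γ ⟨h + 1, Nat.succ_lt_succ hh⟩) else 1 / 2) ∈ Set.Icc (-4 : ℝ) 4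
    split_ifs
    · exact l9ca_cl_mem _
    · constructor <;> norm_num

/-- the points of the strength sweep, parameter `t = log λ` -/
theorem l9ca_ptL_ok (F : LlFix) {N : ℕ} (hN : 2 ≤ N) {ell : ℝ} (hl : ell ∈ Set.Icc (1 : ℝ) ((2 : ℝ) ^ (1 / 6 : ℝ))) (γ : Fin (N + 1) → ℝ)
    {t : ℝ} (ht : t ∈ l9LamRg F N) : (l9PtL N ell γ t).Ok F := by
  have hx := (l9ca_x_mem (N := N) (by omega)).1
  have hcl : ∀ y, ll04Cl y ∈ Set.Icc (-4 : ℝ) 4 := l9ca_cl_mem
  have hxe : (l9PtL N ell γ t).x = skX N := rfl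
  refine ⟨hN, hl.1, hl.2, ?_, ?_, hcl _, fun h => ?_, ⟨le_rfl, zero_le_one⟩, ⟨zero_le_one, le_rfl⟩, fun h => by simp [l9PtL, ll04Pt] at h⟩
  · rw [hxe, Real.rpow_def_of_pos hx]
    show Real.exp _ ≤ Real.exp t
    exact Real.exp_le_exp.2 (by have := ht.1; linarith)
  · rw [hxe, Real.rpow_def_of_pos hx]
    show Real.exp t ≤ Real.exp _
    exact Real.exp_le_exp.2 (by have := ht.2; linarith)
  · show (if hh : h < N then ll04Cl (γ ⟨h + 1, Nat.succ_lt_succ hh⟩) else 1 / 2) ∈ Set.Icc (-4 : ℝ) 4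
    split_ifs
    · exact hcl _
    · constructor <;> norm_num

theorem l9ca_inS_ok (𝔹 : LlBase) (F : LlFix) (hp : F.pS ≤ 12) {N : ℕ} (hN : 2 ≤ N) {s L : ℝ} (hs0 : 0 < s) (hs1 : s < skX N) {Fs : Finset GhPos} {m : ℕ}
    {γ : Fin (N + 1) → ℝ} {θ : ℝ} (h : L9HyS F 𝔹 N s L Fs m γ θ) : (L8In.mk F 𝔹 (l9PtS F N γ θ) m s Fs).Ok :=
  ⟨l9ca_ptS_ok F hp hN γ (Set.Ioo_subset_Icc_self h.2.2.1), h.1, h.2.1, hs0, hs1⟩

theorem l9ca_inD_ok (𝔹 : LlBase) (F : LlFix) (Mj : L9Mj) (κ : ℝ) {N : ℕ} (hN : 2 ≤ N) {s L : ℝ} (hs0 : 0 < s) (hs1 : s < skX N) {Fs : Finset GhPos} {m : ℕ}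
    {ell : ℝ} {γ : Fin (N + 1) → ℝ} {t : ℝ} (h : L9HyD F 𝔹 Mj κ N s L Fs m ell γ t) : (L8In.mk F 𝔹 (l9PtL N ell γ t) m s Fs).Ok :=
  ⟨l9ca_ptL_ok F hN h.2.2.1 γ h.2.2.2.1, h.1, h.2.1, hs0, hs1⟩

theorem l9ca_ptS_a (F : LlFix) (N : ℕ) (γ : Fin (N + 1) → ℝ) (θ : ℝ) : (l9PtS F N γ θ).a = 4 := by
  simp [l9PtS, ll04Pt, LlPt.a]

theorem l9ca_ptL_a (N : ℕ) (ell : ℝ) (γ : Fin (N + 1) → ℝ) (t : ℝ) : (l9PtL N ell γ t).a = ell := by
  simp [l9PtL, ll04Pt, LlPt.a]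

/-! ## B4. THE TWO INSTANCES -/

/-- the mesh `x^Km` as a sequence -/
theorem l9ca_eta_pos (Km : ℝ) (N : ℕ) (hN : 2 ≤ N) : 0 < skX N ^ Km :=
  Real.rpow_pos_of_pos (l9ca_x_mem (N := N) (by omega)).1 _

/-- **(b2), size segment** -/
theorem l9c_admS {𝔹 : LlBase} {T : ℝ} (hf : L8gFine 𝔹 T) {F0 : LlFix} (hF : L8Fix 𝔹 T F0) (pB : LLParB) {pS : ℝ} (h0 : 0 < pS) (h1 : pS ≤ 1) :
    L9cAdmS 𝔹 (F0.wExp pB.sStar pB.eta pS) := by
  intro Km δ _ ε hε q hq
  obtain ⟨N0, hN0⟩ := hf F0 hF pB pS h0 h1 (fun N => skX N ^ Km) (l9ca_eta_pos Km)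
  obtain ⟨N1, hN1⟩ := l9ca_small ε q hε hq
  refine ⟨0, max (max N0 N1) 2, fun N hN => ?_⟩
  have hNa : N0 ≤ N := le_trans (le_trans (le_max_left _ _) (le_max_left _ _)) hN
  have hNb : N1 ≤ N := le_trans (le_trans (le_max_right _ _) (le_max_left _ _)) hN
  have hN2 : 2 ≤ N := le_trans (le_max_right _ _) hN
  obtain ⟨hs0, hs1⟩ := l9ca_s_mem (N := N) (by omega) hq (hN1 N hNb)
  filter_upwards [hN0 N (q * skX N ^ (1 + ε)) hNa] with Fs hFs m γ θ hy
  have hp12 : (F0.wExp pB.sStar pB.eta pS).pS ≤ 12 := by show pS ≤ 12; linarith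
  have hOk := l9ca_inS_ok 𝔹 _ hp12 hN2 hs0 hs1 hy
  have hfine := hFs (Real.exp (θ / 6)) (skX N ^ (F0.wExp pB.sStar pB.eta pS).pS) 1 0 true γ m trivial hOk
  have ha : (0 : ℝ) < (l9PtS (F0.wExp pB.sStar pB.eta pS) N γ θ).a := by rw [l9ca_ptS_a]; norm_num
  have hadm := l9ca_adm_of_fine ⟨F0.wExp pB.sStar pB.eta pS, 𝔹, l9PtS (F0.wExp pB.sStar pB.eta pS) N γ θ, m, q * skX N ^ (1 + ε), Fs⟩ ha hfine
    (l9PtS (F0.wExp pB.sStar pB.eta pS) N γ) 1 (1 / 6) θ rfl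
  exact ⟨hadm, l9ca_dot_nonneg _ _ _ ha.le hfine.adm⟩

/-- **(b2), strength sweep** -/
theorem l9c_admD {𝔹 : LlBase} {T : ℝ} (hf : L8gFine 𝔹 T) {F0 : LlFix} (hF : L8Fix 𝔹 T F0) (pB : LLParB) {pS : ℝ} (h0 : 0 < pS) (h1 : pS ≤ 1)
    (Mj : L9Mj) (κ : ℝ) : L9cAdmD 𝔹 Mj κ (F0.wExp pB.sStar pB.eta pS) := by
  intro Km δ _ ε hε q hq
  obtain ⟨N0, hN0⟩ := hf F0 hF pB pS h0 h1 (fun N => skX N ^ Km) (l9ca_eta_pos Km)
  obtain ⟨N1, hN1⟩ := l9ca_small ε q hε hq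
  refine ⟨0, max (max N0 N1) 2, fun N hN => ?_⟩
  have hNa : N0 ≤ N := le_trans (le_trans (le_max_left _ _) (le_max_left _ _)) hN
  have hNb : N1 ≤ N := le_trans (le_trans (le_max_right _ _) (le_max_left _ _)) hN
  have hN2 : 2 ≤ N := le_trans (le_max_right _ _) hN
  obtain ⟨hs0, hs1⟩ := l9ca_s_mem (N := N) (by omega) hq (hN1 N hNb)
  filter_upwards [hN0 N (q * skX N ^ (1 + ε)) hNa] with Fs hFs m ell γ t hy
  have hOk := l9ca_inD_ok 𝔹 _ Mj κ hN2 hs0 hs1 hy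
  have hfine := hFs ell (Real.exp t) 0 1 false γ m trivial hOk
  have ha : (0 : ℝ) < (l9PtL N ell γ t).a := by rw [l9ca_ptL_a]; linarith [hy.2.2.1.1]
  exact l9ca_adm_of_fine ⟨F0.wExp pB.sStar pB.eta pS, 𝔹, l9PtL N ell γ t, m, q * skX N ^ (1 + ε), Fs⟩ ha hfine (l9PtL N ell γ) 0 0 t rfl

/-! ## B5. for the assembly of RED -/

/-- the hypothesis `hZg` of `l9c_redS` for the concrete majorants -/
theorem l9ca_Zg_nonneg (c : ℝ) (F : LlFix) (𝔹 : LlBase) (Fs : Finset GhPos) (p : LlPt) (m : ℕ) : 0 ≤ (l8Mj c).Zg F 𝔹 Fs p m :=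
  le_trans zero_le_one (le_max_left _ _)

theorem l9ca_Zg_one_le (c : ℝ) (F : LlFix) (𝔹 : LlBase) (Fs : Finset GhPos) (p : LlPt) (m : ℕ) : 1 ≤ (l8Mj c).Zg F 𝔹 Fs p m :=
  le_max_left _ _

end Adm211

end Claimed.Agent.R286
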