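import Claimed.Agent.R286.L09.W5
import Claimed.Agent.R286.L09.RedInst

/-!
# Row 286 (S0533), unit L09, node W5, file W5b: FROM ONE BAND VECTOR TO THE EXITS OF W5      (owner + prover helper266; head of W5 helper299; prefix `l9wb`, `L9wb`)

TEX[LL:exp:prop-low-coefficients] 09-expansion.tex l.396-409 ("On a direct path, terms whose maximum mass is bounded below .. already satisfy (E1)", "All direct terms of degree `j ≥ 5` ..", "the remaining size terms of those degrees").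
-/

set_option autoImplicit false

namespace Claimed.Agent.R286

open scoped BigOperators Nat
open Filter

noncomputable section

/-! ## 1. FLAT, any local region, all degrees -/

namespace L9Q

variable (Q : L9Q)

/-- tilted minus untilted of the flat sum of the degree `n`, factors `R`, on the region `Rg` -/
def DD (Rg : L9Rg) (n : ℕ) (R : Finset ℕ) : ℝ :=
  l9rD0 (Q.X true) R (2 * n) (Q.Tb Rg n) (Q.Ht n R) - l9rD0 (Q.X false) R (2 * n) (Q.Tb Rg n) (Q.Ht n R)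

end L9Q

end

theorem l9wb_eqns_cite : True := by
  have := @L9Q.DD.eq_1
  trivial

theorem l9wb_D0_add {S : Type} (X : JtCtx S) (R : Finset ℕ) (n : ℕ) (𝒯 : Finset (ℕ → ℕ → ℕ)) (H H' : (ℕ → ℕ → ℕ) → ℝ) :
    l9rD0 X R n 𝒯 (fun τ => H τ + H' τ) = l9rD0 X R n 𝒯 H + l9rD0 X R n 𝒯 H' := by
  unfold l9rD0
  rw [← Finset.sum_add_distrib]
  exact Finset.sum_congr rfl fun τ _ => by ring

/-- one ensemble in flat form -/
theorem l9wb_oeg (Q : L9Q) {δm : ℝ} (hA : Q.Adm δm) (Rg : L9Rg) (hRg : Rg.Loc) {J0 : ℕ} (hJ : 2 ≤ J0) (en : Bool) :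
    Q.OEg Rg J0 en = ∑ n ∈ Finset.Icc 2 J0, ∑ R ∈ (Finset.range n).powerset, l9rD0 (Q.X en) R (2 * n) (Q.Tb Rg n) (Q.Ht n R) := by
  classical
  have h1 : ∀ n ∈ Finset.Icc 2 J0, ∀ R ∈ (Finset.range n).powerset,
      l9rD0 (Q.X en) R (2 * n) (Q.Tb Rg n) (Q.Ht n R)
        = (Q.X en).mon n R (fun τ => if Rg n (Q.vm τ) then Q.co n R τ else 0)
          + if n = 2 ∧ R = {0, 1} then l9rD0 (Q.X en) {0, 1} 4 (Q.Tb Rg 2) Q.Hq else 0 := by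
    intro n hn R hR
    rw [Finset.mem_Icc] at hn
    rw [Finset.mem_powerset] at hR
    rw [l9c_flat Q Rg hRg (by omega) hR en]
    by_cases hc : n = 2 ∧ R = {0, 1}
    · obtain ⟨rfl, rfl⟩ := hc
      have e : Q.Ht 2 {0, 1} = fun τ => Q.H 2 {0, 1} τ + Q.Hq τ := by
        funext τ
        unfold L9Q.Ht
        rw [if_pos ⟨rfl, rfl⟩]
      rw [e, l9wb_D0_add, if_pos ⟨rfl, rfl⟩]
    · have e : Q.Ht n R = Q.H n R := by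
        funext τ
        unfold L9Q.Ht
        rw [if_neg hc, add_zero]
      rw [e, if_neg hc, add_zero]
  rw [Finset.sum_congr rfl fun n hn => Finset.sum_congr rfl fun R hR => h1 n hn R hR]
  simp only [Finset.sum_add_distrib]
  have h2 : ∑ n ∈ Finset.Icc 2 J0, ∑ R ∈ (Finset.range n).powerset,
      (if n = 2 ∧ R = {0, 1} then l9rD0 (Q.X en) {0, 1} 4 (Q.Tb Rg 2) Q.Hq else 0) = l9rD0 (Q.X en) {0, 1} 4 (Q.Tb Rg 2) Q.Hq := by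
    rw [Finset.sum_eq_single 2]
    · rw [Finset.sum_eq_single ({0, 1} : Finset ℕ)]
      · rw [if_pos ⟨rfl, rfl⟩]
      · intro R _ hne
        rw [if_neg fun h => hne h.2]
      · intro h
        exact absurd (Finset.mem_powerset.2 (by intro i hi; simp only [Finset.mem_insert, Finset.mem_singleton] at hi; rw [Finset.mem_range]; omega)) h
    · intro n _ hne
      exact Finset.sum_eq_zero fun R _ => if_neg fun h => hne h.1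
    · intro h
      exact absurd (Finset.mem_Icc.2 ⟨le_rfl, hJ⟩) h
  rw [h2, ← l9c_flat_sq Q hA Rg hRg en]
  unfold L9Q.OEg
  ring

/-- **FLAT**: (E1) restricted to a local region, tilted minus untilted -/
theorem l9wb_doeg (Q : L9Q) {δm : ℝ} (hA : Q.Adm δm) (Rg : L9Rg) (hRg : Rg.Loc) {J0 : ℕ} (hJ : 2 ≤ J0) :
    Q.DOEg Rg J0 = ∑ n ∈ Finset.Icc 2 J0, ∑ R ∈ (Finset.range n).powerset, Q.DD Rg n R := by
  unfold L9Q.DOEg L9Q.DD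
  rw [l9wb_oeg Q hA Rg hRg hJ, l9wb_oeg Q hA Rg hRg hJ, ← Finset.sum_sub_distrib]
  exact Finset.sum_congr rfl fun n _ => (Finset.sum_sub_distrib _ _).symm

theorem l9wb_DD_eq (Q : L9Q) (Rg : L9Rg) (n : ℕ) (R : Finset ℕ) :
    Q.DD Rg n R = ∑ τ ∈ Q.Tb Rg n, Q.Ht n R τ * (l9rNum (Q.X true) R (2 * n) τ - l9rNum (Q.X false) R (2 * n) τ) := by
  unfold L9Q.DD l9rD0
  rw [← Finset.sum_sub_distrib]
  exact Finset.sum_congr rfl fun τ _ => by ring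

/-- products without a stochastic factor cancel -/
theorem l9wb_num_empty (Q : L9Q) {δm : ℝ} (hA : Q.Adm δm) (en : Bool) {q : ℕ} {τ : JtTopo} (hτ : IsTr Q.N q τ) : l9rNum (Q.X en) ∅ q τ = 1 := by
  unfold l9rNum
  simp only [Finset.prod_empty]
  exact l9ri_nu_const Q.I.m hA.a_pos hA.adm _ hτ 1

theorem l9wb_DD_empty (Q : L9Q) {δm : ℝ} (hA : Q.Adm δm) (Rg : L9Rg) (n : ℕ) : Q.DD Rg n ∅ = 0 := by
  classical
  rw [l9wb_DD_eq]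
  refine Finset.sum_eq_zero fun τ hτ => ?_
  unfold L9Q.Tb at hτ
  have h := (l9a_mem_tab.1 (Finset.mem_filter.1 hτ).1).1
  rw [l9wb_num_empty Q hA true h, l9wb_num_empty Q hA false h, sub_self, mul_zero]

/-! ## 2. the sum over the degrees and the sets of factors -/

/-- **one point**: the sum over the degrees and the sets of factors -/
theorem l9wb_sum (Q : L9Q) {δm : ℝ} (hA : Q.Adm δm) (Rg : L9Rg) (hRg : Rg.Loc) {J0 : ℕ} (hJ : 2 ≤ J0) {Bd : ℝ} (hBd : 0 ≤ Bd)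
    (hb : ∀ n, 2 ≤ n → n ≤ J0 → ∀ R, R ⊆ Finset.range n → R.Nonempty → |Q.DD Rg n R| ≤ Bd) :
    |Q.DOEg Rg J0| ≤ (J0 : ℝ) * 2 ^ J0 * Bd := by
  classical
  rw [l9wb_doeg Q hA Rg hRg hJ]
  have h1 : ∀ n ∈ Finset.Icc 2 J0, ∀ R ∈ (Finset.range n).powerset, |Q.DD Rg n R| ≤ Bd := by
    intro n hn R hR
    rw [Finset.mem_Icc] at hn
    rw [Finset.mem_powerset] at hR
    rcases R.eq_empty_or_nonempty with rfl | hne
    · rw [l9wb_DD_empty Q hA, abs_zero]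
      exact hBd
    · exact hb n hn.1 hn.2 R hR hne
  have h2 : ∀ n ∈ Finset.Icc 2 J0, |∑ R ∈ (Finset.range n).powerset, Q.DD Rg n R| ≤ 2 ^ J0 * Bd := by
    intro n hn
    refine (Finset.abs_sum_le_sum_abs _ _).trans ?_
    refine (Finset.sum_le_card_nsmul _ _ _ fun R hR => h1 n hn R hR).trans ?_
    rw [nsmul_eq_mul, Finset.card_powerset, Finset.card_range]
    refine mul_le_mul_of_nonneg_right ?_ hBd
    push_cast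
    exact pow_le_pow_right₀ one_le_two (Finset.mem_Icc.1 hn).2
  refine (Finset.abs_sum_le_sum_abs _ _).trans ?_
  refine (Finset.sum_le_card_nsmul _ _ _ h2).trans ?_
  rw [nsmul_eq_mul, Nat.card_Icc]
  have h3 : ((J0 + 1 - 2 : ℕ) : ℝ) ≤ J0 := by exact_mod_cast (by omega : J0 + 1 - 2 ≤ J0)
  calc ((J0 + 1 - 2 : ℕ) : ℝ) * (2 ^ J0 * Bd) ≤ (J0 : ℝ) * (2 ^ J0 * Bd) := mul_le_mul_of_nonneg_right h3 (by positivity)
    _ = _ := by ring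

theorem l9wb_L5_loc (V : ℝ) : (l9RgL5 V).Loc := by
  intro n v v' h
  unfold l9RgL5
  constructor
  · rintro ⟨h1, h2⟩
    exact ⟨fun i hi => by rw [← h i hi]; exact h1 i hi, h2⟩
  · rintro ⟨h1, h2⟩
    exact ⟨fun i hi => by rw [h i hi]; exact h1 i hi, h2⟩

theorem l9wb_Hi_loc (V : ℝ) : (l9RgHi V).Loc := by
  intro n v v' h
  unfold l9RgHi
  constructor
  · rintro ⟨i, hi, h1⟩
    exact ⟨i, hi, by rw [← h i hi]; exact h1⟩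
  · rintro ⟨i, hi, h1⟩
    exact ⟨i, hi, by rw [h i hi]; exact h1⟩

/-! ## 3. POINT, the region `L5` (all base pairs below `V ≤ 1`, degree `≥ 5`) -/

theorem l9wb_C_mono {n J0 : ℕ} (hn : n ≤ J0) {a : ℝ} (ha0 : 0 ≤ a) (ha : a ≤ 4) : l9wC n a ≤ l9wC J0 4 := by
  unfold l9wC
  have h1 : max 1 (((2 * n : ℕ) : ℝ) * a) ≤ max 1 (((2 * J0 : ℕ) : ℝ) * 4) := by
    refine max_le_max le_rfl ?_
    have : ((2 * n : ℕ) : ℝ) ≤ ((2 * J0 : ℕ) : ℝ) := by exact_mod_cast (by omega : 2 * n ≤ 2 * J0)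
    exact mul_le_mul this ha ha0 (Nat.cast_nonneg _)
  calc max 1 (((2 * n : ℕ) : ℝ) * a) ^ (2 * n) ≤ max 1 (((2 * J0 : ℕ) : ℝ) * 4) ^ (2 * n) :=
        pow_le_pow_left₀ (zero_le_one.trans (le_max_left _ _)) h1 _
    _ ≤ max 1 (((2 * J0 : ℕ) : ℝ) * 4) ^ (2 * J0) := pow_le_pow_right₀ (le_max_left _ _) (by omega)

/-- the supplies of W5 at one point: `1 ≤ Z`, envelope `e`, density `g` of the dotted weight, Lemma 9.1 on full tables, bound of the real coefficients of the degrees `n0 ≤ n ≤ J0` -/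
structure L9Q.Sw (Q : L9Q) (Mj : L9Mj) (A T0 vt K : ℝ) (n0 J0 : ℕ) (e g : ℕ → ℝ) : Prop where
  z1 : 1 ≤ Q.Zc Mj
  e_nn : ∀ t, 0 ≤ e t
  g_nn : ∀ t, 0 ≤ g t
  g_sum : ∑ t ∈ Finset.range (Q.N + 1), l9aMu Q.ms t * g t ≤ 4
  cc : Q.CCw Mj e A vt K J0
  co : Q.Co A T0 vt e g n0 J0

section pt5

variable {Q : L9Q} {Mj : L9Mj} {A T0 vt K V δm : ℝ} {J0 Kb : ℕ} {e g : ℕ → ℝ}

/-- one monomial of degree `n ≥ 5` on the region `L5` -/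
theorem l9wb_term5 (hA : Q.Adm δm) (hS : Q.Sw Mj A T0 vt K 5 J0 e g) (hlam : 0 < Q.lam) (hY : 0 < Q.Y Mj) (hYV : Q.Y Mj ≤ V) (hV1 : V ≤ 1)
    (hVt : V ≤ vt) (ha4 : Q.p.a ≤ 4) (hAT : 0 ≤ A * T0) (hAE : 0 ≤ A * Q.E3 Mj K) (hKb1 : 1 ≤ Kb) (hKb : V ≤ 2 ^ Kb * Q.Y Mj) {n : ℕ} (hn : 5 ≤ n)
    (hnJ : n ≤ J0) {R : Finset ℕ} (hR : R ⊆ Finset.range n) (hne : R.Nonempty) :
    |Q.DD (l9RgL5 V) n R| ≤ (Kb : ℝ) ^ n * (l9wC n (Q.ms Q.N) * (A * T0) * V / Q.lam * (A * Q.E3 Mj K)) := by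
  classical
  have hms := Q.isMs hA
  have hV0 : 0 < V := hY.trans_le hYV
  have hC1 := l9w_C_one_le n (Q.ms Q.N)
  have hom0 := l9w_om_nonneg hms hS.g_nn
  have hom : ∑ t ∈ Finset.range (Q.N + 2), l9wOm Q.ms Q.N g t ≤ 8 := by
    rw [l9w_om_sum, Q.ms_top le_rfl]
    linarith [hS.g_sum]
  have hHt : Q.Ht n R = Q.H n R := by
    funext τ
    unfold L9Q.Ht
    rw [if_neg (by omega), add_zero]
  have hmem : ∀ τ ∈ Q.Tb (l9RgL5 V) n, τ ∈ l9aTab Q.N (2 * n) ∧ ∀ i, i < n → Q.vm τ i < V := by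
    intro τ hτ
    unfold L9Q.Tb at hτ
    rw [Finset.mem_filter] at hτ
    exact ⟨hτ.1, hτ.2.1⟩
  rw [l9wb_DD_eq, hHt]
  refine l9w_term hS.cc hms hlam hY hS.e_nn hAE (by omega) hnJ hR hom0 hom (Q.Tb (l9RgL5 V) n) (fun τ hτ => (hmem τ hτ).1) hKb1
    (fun τ hτ i hi => ⟨((hmem τ hτ).2 i hi).le.trans hKb, ((hmem τ hτ).2 i hi).le.trans hVt⟩) (Q.H n R) ?_
    (Λ := l9wC n (Q.ms Q.N) * (A * T0)) (Wf := V) (by positivity) hV0.le (fun h => by omega) ?_ ?_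
  · intro τ _ hne0 i hi
    refine l9w_off_ne (X := Q.X false) (n := n) ?_ i hi
    intro h0
    apply hne0
    unfold L9Q.H
    rw [h0]
    ring
  · intro τ hτ β hB l hl1 _ _
    have hw0 : 0 < l9Bw (Q.Y Mj) n β := by unfold l9Bw; positivity
    have hwV : l9Bw (Q.Y Mj) n β ≤ V :=
      l9c_bw_le hY.le hYV (v := Q.vm τ) fun i hi => ⟨(hB i hi).2.1, (hmem τ hτ).2 i hi⟩
    have hw1 : l9Bw (Q.Y Mj) n β ≤ 1 := hwV.trans hV1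
    have h1 : l9Bw (Q.Y Mj) n β ^ l ≤ V := (pow_le_of_le_one hw0.le hw1 (by omega)).trans hwV
    have h2 : l9Bw (Q.Y Mj) n β ^ n ≤ l9Bw (Q.Y Mj) n β ^ 5 := pow_le_pow_of_le_one hw0.le hw1 hn
    exact mul_le_mul h1 h2 (by positivity) hV0.le
  · intro τ hτ
    have hT := (l9a_mem_tab.1 (hmem τ hτ).1).1
    have hrho : Q.rho n τ = 1 := by
      unfold L9Q.rho
      rw [if_neg (by omega)]
    have hE0 : 0 ≤ ∏ i ∈ Finset.range n \ R, e (τ (2 * i) (2 * i + 1)) := Finset.prod_nonneg fun i _ => hS.e_nn _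
    rw [hrho, mul_one]
    unfold L9Q.Raw
    by_cases h0 : (Q.X false).off 0 n τ = 0
    · have : Q.H n R τ = 0 := by
        unfold L9Q.H
        rw [h0]
        ring
      rw [this, abs_zero]
      have := Finset.prod_nonneg fun s (_ : s ∈ Finset.Ico 1 (2 * n)) => l9w_sl_nonneg hms zero_le_one hom0 n τ s
      positivity
    · have hlow : Q.Low vt n τ := fun i hi => ⟨l9w_off_ne (X := Q.X false) h0 i hi, ((hmem τ hτ).2 i hi).le.trans hVt⟩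
      have hc := hS.co n hn hnJ R hR hne τ (hmem τ hτ).1 hlow
      refine (l9w_H_le hms hS.g_nn hT (c := A * T0 * ∏ i ∈ Finset.range n \ R, e (τ (2 * i) (2 * i + 1))) (by positivity) hc).trans (le_of_eq ?_)
      ring

/-- **POINT, region `L5`** -/
theorem l9wb_point5 (hA : Q.Adm δm) (hJ : 2 ≤ J0) (hS : Q.Sw Mj A T0 vt K 5 J0 e g) (hlam : 0 < Q.lam) (hY : 0 < Q.Y Mj) (hYV : Q.Y Mj ≤ V) (hV1 : V ≤ 1)
    (hVt : V ≤ vt) (ha4 : Q.p.a ≤ 4) (hAT : 0 ≤ A * T0) (hAE : 0 ≤ A * Q.E3 Mj K) (hKb1 : 1 ≤ Kb) (hKb : V ≤ 2 ^ Kb * Q.Y Mj) :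
    |Q.DOEg (l9RgL5 V) J0| ≤ (J0 : ℝ) * 2 ^ J0 * ((Kb : ℝ) ^ J0 * (l9wC J0 4 * (A * T0) * V / Q.lam * (A * Q.E3 Mj K))) := by
  classical
  have hV0 : 0 < V := hY.trans_le hYV
  have hK1 : (1 : ℝ) ≤ Kb := by exact_mod_cast hKb1
  have hC0 : 0 ≤ l9wC J0 4 := zero_le_one.trans (l9w_C_one_le _ _)
  refine l9wb_sum Q hA _ (l9wb_L5_loc V) hJ (by positivity) fun n hn2 hnJ R hR hne => ?_
  by_cases hn : 5 ≤ n
  · refine (l9wb_term5 hA hS hlam hY hYV hV1 hVt ha4 hAT hAE hKb1 hKb hn hnJ hR hne).trans ?_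
    have h1 : (Kb : ℝ) ^ n ≤ (Kb : ℝ) ^ J0 := pow_le_pow_right₀ hK1 hnJ
    have h2 : l9wC n (Q.ms Q.N) ≤ l9wC J0 4 := by
      rw [Q.ms_top le_rfl]
      exact l9wb_C_mono hnJ hA.a_pos.le ha4
    have h3 : l9wC n (Q.ms Q.N) * (A * T0) * V / Q.lam * (A * Q.E3 Mj K) ≤ l9wC J0 4 * (A * T0) * V / Q.lam * (A * Q.E3 Mj K) := by
      refine mul_le_mul_of_nonneg_right ?_ hAE
      refine div_le_div_of_nonneg_right ?_ hlam.le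
      exact mul_le_mul_of_nonneg_right (mul_le_mul_of_nonneg_right h2 hAT) hV0.le
    exact mul_le_mul h1 h3 (by have := l9w_C_one_le n (Q.ms Q.N); positivity) (by positivity)
  · have : Q.Tb (l9RgL5 V) n = ∅ := by
      unfold L9Q.Tb
      rw [Finset.filter_eq_empty_iff]
      intro τ _ h
      exact hn h.2
    rw [l9wb_DD_eq, this, Finset.sum_empty, abs_zero]
    positivity

end pt5

/-! ## 4. NUM -/

/-- every power of the logarithm is a subpower loss -/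
theorem l9wb_Lg (k : ℕ) {δ : ℝ} (hδ : 0 < δ) : ∃ C : ℝ, 0 ≤ C ∧ ∀ x : ℝ, 0 < x → x ≤ 1 → (3 + Real.logb 2 (1 / x)) ^ k ≤ C * x ^ (-δ) := by
  have hlog2 : 0 < Real.log 2 := Real.log_pos (by norm_num)
  have hk : (0 : ℝ) < k + 1 := by positivity
  set d : ℝ := δ / (k + 1) with hd
  have hd0 : 0 < d := by positivity
  set C1 : ℝ := 3 + 1 / (d * Real.log 2) with hC1
  have hC10 : 0 ≤ C1 := by positivity
  refine ⟨C1 ^ k, by positivity, fun x hx hx1 => ?_⟩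
  have ht : 1 ≤ 1 / x := by rw [le_div_iff₀ hx]; linarith
  have ht0 : 0 < 1 / x := by positivity
  have h1 : Real.log (1 / x) ≤ (1 / x) ^ d / d := Real.log_le_rpow_div ht0.le hd0
  have h2 : 1 ≤ (1 / x) ^ d := Real.one_le_rpow ht hd0.le
  have h3 : 0 ≤ Real.logb 2 (1 / x) := Real.logb_nonneg (by norm_num) ht
  have h4 : 3 + Real.logb 2 (1 / x) ≤ C1 * (1 / x) ^ d := by
    have : Real.logb 2 (1 / x) ≤ 1 / (d * Real.log 2) * (1 / x) ^ d := by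
      unfold Real.logb
      rw [div_le_iff₀ hlog2]
      calc Real.log (1 / x) ≤ (1 / x) ^ d / d := h1
        _ = 1 / (d * Real.log 2) * (1 / x) ^ d * Real.log 2 := by field_simp
    rw [hC1, add_mul]
    linarith
  have h5 : ((1 / x) ^ d) ^ k ≤ x ^ (-δ) := by
    rw [← Real.rpow_natCast, ← Real.rpow_mul ht0.le, Real.rpow_neg hx.le, ← Real.inv_rpow hx.le, ← one_div]
    refine Real.rpow_le_rpow_of_exponent_le ht ?_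
    rw [hd, div_mul_eq_mul_div, div_le_iff₀ hk]
    nlinarith
  calc (3 + Real.logb 2 (1 / x)) ^ k ≤ (C1 * (1 / x) ^ d) ^ k := pow_le_pow_left₀ (by linarith) h4 k
    _ = C1 ^ k * ((1 / x) ^ d) ^ k := mul_pow _ _ _
    _ ≤ C1 ^ k * x ^ (-δ) := mul_le_mul_of_nonneg_left h5 (by positivity)

/-- `x^κ` is small for `N` large -/
theorem l9wb_small {κ c : ℝ} (hκ : 0 < κ) (hc : 0 < c) : ∃ N0 : ℕ, ∀ N : ℕ, N0 ≤ N → skX N ^ κ ≤ c := by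
  have h1 : Tendsto (fun N : ℕ => (N : ℝ) ^ (-(κ / 6))) atTop (nhds 0) :=
    (tendsto_rpow_neg_atTop (by positivity : 0 < κ / 6)).comp tendsto_natCast_atTop_atTop
  obtain ⟨N0, h⟩ := Filter.eventually_atTop.1 (h1.eventually (ge_mem_nhds hc))
  refine ⟨N0, fun N hN => ?_⟩
  have := h N hN
  unfold skX
  rw [← Real.rpow_mul (Nat.cast_nonneg N)]
  have e : -(1 / 6 : ℝ) * κ = -(κ / 6) := by ring
  rw [e]
  exact this

/-- the number of bands below `V ≤ 1` -/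
theorem l9wb_Kb {x Y V : ℝ} (hx : 0 < x) (hxY : x ≤ Y) (hYV : Y ≤ V) (hV1 : V ≤ 1) :
    ∃ Kb : ℕ, 1 ≤ Kb ∧ V ≤ 2 ^ Kb * Y ∧ (Kb : ℝ) ≤ 3 + Real.logb 2 (1 / x) := by
  have hY : 0 < Y := hx.trans_le hxY
  have hV0 : 0 < V := hY.trans_le hYV
  have h1 : 1 ≤ V / Y := by rw [le_div_iff₀ hY]; linarith
  have hlog0 : 0 ≤ Real.logb 2 (V / Y) := Real.logb_nonneg (by norm_num) h1
  have hVx : V / Y ≤ 1 / x := by
    rw [div_le_div_iff₀ hY hx]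
    nlinarith
  have hlog1 : Real.logb 2 (V / Y) ≤ Real.logb 2 (1 / x) := Real.logb_le_logb_of_le (by norm_num) (by positivity) hVx
  refine ⟨⌈Real.logb 2 (V / Y)⌉₊ + 1, by omega, ?_, ?_⟩
  · have h2 : V / Y ≤ 2 ^ (⌈Real.logb 2 (V / Y)⌉₊ + 1) := by
      calc V / Y = (2 : ℝ) ^ Real.logb 2 (V / Y) := (Real.rpow_logb (by norm_num) (by norm_num) (by positivity)).symm
        _ ≤ (2 : ℝ) ^ ((⌈Real.logb 2 (V / Y)⌉₊ + 1 : ℕ) : ℝ) := by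
            refine Real.rpow_le_rpow_of_exponent_le (by norm_num) ?_
            push_cast
            linarith [Nat.le_ceil (Real.logb 2 (V / Y))]
        _ = _ := Real.rpow_natCast _ _
    rwa [div_le_iff₀ hY] at h2
  · have h3 := Nat.ceil_lt_add_one hlog0
    push_cast
    linarith

/-- the saving of (E3) -/
noncomputable def l9wbC (F : LlFix) : ℝ := F.pS * min (1 - 2 * F.sS) ((1 - F.eta) / 2 - F.sS)

theorem l9wbC_eqns_cite : True := by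
  have := @l9wbC.eq_1
  trivial

theorem l9wbC_pos {F : LlFix} (hF : L9cExp F) : 0 < l9wbC F := by
  unfold l9wbC
  refine mul_pos hF.p_pos (lt_min ?_ ?_)
  · linarith [hF.s_hi]
  · linarith [hF.e_t]

theorem l9wbC_le_one {F : LlFix} (hF : L9cExp F) : l9wbC F ≤ 1 := by
  unfold l9wbC
  have h1 : min (1 - 2 * F.sS) ((1 - F.eta) / 2 - F.sS) ≤ 1 := (min_le_left _ _).trans (by linarith [hF.s_lo, hF.e_pos])
  have h2 : 0 < min (1 - 2 * F.sS) ((1 - F.eta) / 2 - F.sS) := lt_min (by linarith [hF.s_hi]) (by linarith [hF.e_t])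
  nlinarith [hF.p_pos, hF.p_le]

section num

variable {Q : L9Q} {Mj : L9Mj}

theorem l9wb_E3_nn (hx : 0 < Q.x) (hl : 0 < Q.lam) (hU : 0 < Q.U) (hZ : 1 ≤ Q.Zc Mj) (K : ℝ) : 0 ≤ Q.E3 Mj K := by
  have hZ0 : 0 < Q.Zc Mj := lt_of_lt_of_le one_pos hZ
  have hY : 0 < Q.Y Mj := by unfold L9Q.Y; positivity
  have hg : 0 ≤ Q.gB Mj := by
    unfold L9Q.gB
    exact div_nonneg (Real.rpow_nonneg hl.le _) (Real.rpow_nonneg hZ0.le _)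
  have hxK : 0 ≤ Q.x ^ K := Real.rpow_nonneg hx.le _
  unfold L9Q.E3
  positivity

/-- `(E3) ≤ 3 x^(5 + c) Zc⁴` -/
theorem l9wb_E3_le (hF : L9cExp Q.I.F) (hx : 0 < Q.x) (hx1 : Q.x ≤ 1) (hl : 0 < Q.lam) (hlp : Q.lam ≤ Q.x ^ Q.I.F.pS) (hU : Q.U < 1) (hZ : 1 ≤ Q.Zc Mj) :
    Q.E3 Mj 6 ≤ 3 * Q.x ^ (5 + l9wbC Q.I.F) * Q.Zc Mj ^ 4 := by
  have h := l9c_num_E3 Q Mj hF hx hx1 hl hlp hU hZ 6
  have hp := hF.p_pos
  have hZ4 : 1 ≤ Q.Zc Mj ^ 4 := one_le_pow₀ hZ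
  have hX : 0 < Q.x ^ (5 + l9wbC Q.I.F) := Real.rpow_pos_of_pos hx _
  have h1 : Q.x ^ (5 + Q.I.F.pS * (1 - 2 * Q.I.F.sS)) ≤ Q.x ^ (5 + l9wbC Q.I.F) := by
    refine Real.rpow_le_rpow_of_exponent_ge hx hx1 ?_
    unfold l9wbC
    have := mul_le_mul_of_nonneg_left (min_le_left (1 - 2 * Q.I.F.sS) ((1 - Q.I.F.eta) / 2 - Q.I.F.sS)) hp.le
    linarith
  have h2 : Q.x ^ (5 + Q.I.F.pS * ((1 - Q.I.F.eta) / 2 - Q.I.F.sS)) ≤ Q.x ^ (5 + l9wbC Q.I.F) := by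
    refine Real.rpow_le_rpow_of_exponent_ge hx hx1 ?_
    unfold l9wbC
    have := mul_le_mul_of_nonneg_left (min_le_right (1 - 2 * Q.I.F.sS) ((1 - Q.I.F.eta) / 2 - Q.I.F.sS)) hp.le
    linarith
  have h3 : Q.x ^ (6 : ℝ) ≤ Q.x ^ (5 + l9wbC Q.I.F) := Real.rpow_le_rpow_of_exponent_ge hx hx1 (by linarith [l9wbC_le_one hF])
  nlinarith

theorem L9Q.Sw.mono {A A' T0 vt K : ℝ} {n0 J0 : ℕ} {e g : ℕ → ℝ} (h : Q.Sw Mj A T0 vt K n0 J0 e g) (hA : A ≤ A') (hT0 : 0 ≤ T0)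
    (hE3 : 0 ≤ Q.E3 Mj K) : Q.Sw Mj A' T0 vt K n0 J0 e g := by
  refine ⟨h.z1, h.e_nn, h.g_nn, h.g_sum, ?_, ?_⟩
  · intro n hn hnJ R hR β om hom0 hom B L0 hL0 hB hB2
    exact (h.cc n hn hnJ R hR β om hom0 hom B L0 hL0 hB hB2).trans (mul_le_mul_of_nonneg_left (mul_le_mul_of_nonneg_right hA hE3) hL0)
  · intro n hn hnJ R hR hne τ hτ hlow
    refine (h.co n hn hnJ R hR hne τ hτ hlow).trans ?_
    have h1 : 0 ≤ ∏ i ∈ Finset.range n \ R, e (τ (2 * i) (2 * i + 1)) := Finset.prod_nonneg fun i _ => h.e_nn _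
    have h2 : 0 ≤ ∏ s ∈ Finset.Ico 1 (2 * n), l9wG Q.N g n τ s := by
      refine Finset.prod_nonneg fun s _ => ?_
      unfold l9wG
      split_ifs
      · linarith [h.g_nn (l9aBj τ s)]
      · exact zero_le_one
    exact mul_le_mul_of_nonneg_right (mul_le_mul_of_nonneg_right (mul_le_mul_of_nonneg_right hA hT0) h1) h2

/-- `x ≤ U` -/
theorem l9wb_x_le_U (hx : 0 < Q.x) (hx1 : Q.x ≤ 1) (hl : 0 < Q.lam) (hl1 : Q.lam ≤ 1) (hs : 0 ≤ Q.I.F.sS) : Q.x ≤ Q.U := by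
  have h : Q.U = min 1 (Q.x * Q.lam ^ (-(Q.I.F.sS / 2))) := rfl
  rw [h]
  refine le_min hx1 ?_
  have : 1 ≤ Q.lam ^ (-(Q.I.F.sS / 2)) := Real.one_le_rpow_of_pos_of_le_one_of_nonpos hl hl1 (by linarith)
  nlinarith

/-- **NUM, region `L5`**: the point theorem with the power count -/
theorem l9wb_num5 {A T0 Tb vt V δm Ca CL δ : ℝ} {J0 : ℕ} {e g : ℕ → ℝ} (hF : L9cExp Q.I.F) (hx : 0 < Q.x) (hx1 : Q.x ≤ 1) (hl : 0 < Q.lam)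
    (hlp : Q.lam ≤ Q.x ^ Q.I.F.pS) (hU : Q.U < 1) (hA : Q.Adm δm) (hJ : 2 ≤ J0) (hS : Q.Sw Mj A T0 vt 6 5 J0 e g) (hYV : Q.Y Mj ≤ V) (hV1 : V ≤ 1)
    (hVt : V ≤ vt) (ha4 : Q.p.a ≤ 4) (hT0 : 0 ≤ T0) (hTb : T0 * V / Q.lam ≤ Tb) (hCa : 0 ≤ Ca) (hAC : A ≤ Ca * Q.x ^ (-δ))
    (hLg : Q.Lg ^ J0 ≤ CL * Q.x ^ (-δ)) (hδ : 6 * δ ≤ l9wbC Q.I.F) :
    |Q.DOEg (l9RgL5 V) J0| ≤ ((J0 : ℝ) * 2 ^ J0 * CL * l9wC J0 4 * Ca ^ 2 * 3) * Q.x ^ (5 + l9wbC Q.I.F / 2) * (Q.Zc Mj ^ 4 * Tb) := by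
  have hl1 : Q.lam ≤ 1 := hlp.trans (Real.rpow_le_one hx.le hx1 hF.p_pos.le)
  have hs0 : 0 ≤ Q.I.F.sS := by linarith [hF.s_lo, hF.e_pos]
  have hxU := l9wb_x_le_U (Q := Q) hx hx1 hl hl1 hs0
  have hU0 : 0 < Q.U := hx.trans_le hxU
  have hZ := hS.z1
  have hZ0 : 0 < Q.Zc Mj := lt_of_lt_of_le one_pos hZ
  have hUY : Q.U ≤ Q.Y Mj := by unfold L9Q.Y; nlinarith
  have hY : 0 < Q.Y Mj := hU0.trans_le hUY
  have hV0 : 0 < V := hY.trans_le hYV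
  have hE0 := l9wb_E3_nn (Q := Q) (Mj := Mj) hx hl hU0 hZ 6
  have hE := l9wb_E3_le (Q := Q) (Mj := Mj) hF hx hx1 hl hlp hU hZ
  set X : ℝ := Q.x ^ (-δ) with hX
  have hX0 : 0 < X := Real.rpow_pos_of_pos hx _
  have hS' := hS.mono hAC hT0 hE0
  obtain ⟨Kb, hKb1, hKb, hKL⟩ := l9wb_Kb hx (hxU.trans hUY) hYV hV1
  have hpt := l9wb_point5 hA hJ hS' hl hY hYV hV1 hVt ha4 (by positivity) (by positivity) hKb1 hKb
  refine hpt.trans ?_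
  have hC0 : 0 ≤ l9wC J0 4 := zero_le_one.trans (l9w_C_one_le _ _)
  have hKJ : (Kb : ℝ) ^ J0 ≤ CL * X := (pow_le_pow_left₀ (Nat.cast_nonneg _) hKL J0).trans hLg
  have hCL : 0 ≤ CL := by
    have : 0 ≤ CL * X := (by positivity : (0 : ℝ) ≤ (Kb : ℝ) ^ J0).trans hKJ
    exact nonneg_of_mul_nonneg_left this hX0
  have hTb0 : 0 ≤ Tb := le_trans (by positivity) hTb
  have hZ4 : 0 < Q.Zc Mj ^ 4 := by positivity
  have hXX : X ^ 3 * Q.x ^ (5 + l9wbC Q.I.F) ≤ Q.x ^ (5 + l9wbC Q.I.F / 2) := by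
    rw [hX, ← Real.rpow_natCast, ← Real.rpow_mul hx.le, ← Real.rpow_add hx]
    refine Real.rpow_le_rpow_of_exponent_ge hx hx1 ?_
    push_cast
    linarith
  have hP : 0 < Q.x ^ (5 + l9wbC Q.I.F) := Real.rpow_pos_of_pos hx _
  have e1 : l9wC J0 4 * (Ca * X * T0) * V / Q.lam * (Ca * X * Q.E3 Mj 6) = l9wC J0 4 * (Ca * X) * (T0 * V / Q.lam) * (Ca * X * Q.E3 Mj 6) := by ring
  rw [e1]
  calc (J0 : ℝ) * 2 ^ J0 * ((Kb : ℝ) ^ J0 * (l9wC J0 4 * (Ca * X) * (T0 * V / Q.lam) * (Ca * X * Q.E3 Mj 6)))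
      ≤ (J0 : ℝ) * 2 ^ J0 * ((CL * X) * (l9wC J0 4 * (Ca * X) * Tb * (Ca * X * (3 * Q.x ^ (5 + l9wbC Q.I.F) * Q.Zc Mj ^ 4)))) := by
        gcongr
    _ = ((J0 : ℝ) * 2 ^ J0 * CL * l9wC J0 4 * Ca ^ 2 * 3) * (X ^ 3 * Q.x ^ (5 + l9wbC Q.I.F)) * (Q.Zc Mj ^ 4 * Tb) := by ring
    _ ≤ _ := by gcongr


theorem L9Q.Sw.of_le {A T0 vt K : ℝ} {n0 n1 J0 : ℕ} {e g : ℕ → ℝ} (h : Q.Sw Mj A T0 vt K n0 J0 e g) (hn : n0 ≤ n1) : Q.Sw Mj A T0 vt K n1 J0 e g :=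
  ⟨h.z1, h.e_nn, h.g_nn, h.g_sum, h.cc, fun n hn1 => h.co n (hn.trans hn1)⟩

theorem l9wb_co2_mono {A A' T0 vt δm : ℝ} {e : ℕ → ℝ} (h : Q.Co2 A T0 vt e) (hAd : Q.Adm δm) (he : ∀ t, 0 ≤ e t) (hA : A ≤ A') (hT0 : 0 ≤ T0) :
    Q.Co2 A' T0 vt e := by
  have hms := Q.isMs hAd
  refine ⟨fun R hR hne τ hτ hlow hd => (h.par R hR hne τ hτ hlow hd).trans ?_, fun τ h1 h2 => (h.sq τ h1 h2).trans (mul_le_mul_of_nonneg_right hA hT0)⟩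
  have h1 : 0 ≤ ∏ i ∈ Finset.range 2 \ R, e (τ (2 * i) (2 * i + 1)) := Finset.prod_nonneg fun i _ => he _
  have h2 : 0 ≤ min (Q.vm τ 0) (Q.vm τ 1) := le_min (hms.nonneg _) (hms.nonneg _)
  exact mul_le_mul_of_nonneg_right (mul_le_mul_of_nonneg_right (mul_le_mul_of_nonneg_right hA hT0) h2) h1

/-- **NUM, region `Hi`**: the point theorem of helper299 with the power count -/
theorem l9wb_numHi {A T0 Tb vt cD δm Ca CL δ : ℝ} {J0 : ℕ} {e : ℕ → ℝ} (hF : L9cExp Q.I.F) (hx : 0 < Q.x) (hx1 : Q.x ≤ 1) (hl : 0 < Q.lam)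
    (hlp : Q.lam ≤ Q.x ^ Q.I.F.pS) (hU : Q.U < 1) (hA : Q.Adm δm) (hJ : 2 ≤ J0) (hS : Q.Sw Mj A T0 vt 6 2 J0 e fun _ => 0) (hC2 : Q.Co2 A T0 vt e)
    (hY4 : Q.Y Mj ≤ 4) (hcD : 0 < cD) (hcD1 : cD ≤ 1) (ha4 : Q.p.a ≤ 4) (hat : Q.p.a ≤ vt) (hT0 : 0 ≤ T0) (hTb : T0 / Q.lam ≤ Tb) (hCa : 0 ≤ Ca)
    (hAC : A ≤ Ca * Q.x ^ (-δ)) (hLg : Q.Lg ^ J0 ≤ CL * Q.x ^ (-δ)) (hδ : 6 * δ ≤ l9wbC Q.I.F) :
    |Q.DOEg (l9RgHi cD) J0|
      ≤ (((J0 : ℝ) * 2 ^ J0 + 1) * CL * (l9wC J0 4 / cD * (4 ^ (2 * J0) * (2 / cD) ^ 5)) * Ca ^ 2 * 3) * Q.x ^ (5 + l9wbC Q.I.F / 2) * (Q.Zc Mj ^ 4 * Tb) := by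
  have hl1 : Q.lam ≤ 1 := hlp.trans (Real.rpow_le_one hx.le hx1 hF.p_pos.le)
  have hs0 : 0 ≤ Q.I.F.sS := by linarith [hF.s_lo, hF.e_pos]
  have hxU := l9wb_x_le_U (Q := Q) hx hx1 hl hl1 hs0
  have hU0 : 0 < Q.U := hx.trans_le hxU
  have hZ := hS.z1
  have hZ0 : 0 < Q.Zc Mj := lt_of_lt_of_le one_pos hZ
  have hUY : Q.U ≤ Q.Y Mj := by unfold L9Q.Y; nlinarith
  have hE0 := l9wb_E3_nn (Q := Q) (Mj := Mj) hx hl hU0 hZ 6
  have hE := l9wb_E3_le (Q := Q) (Mj := Mj) hF hx hx1 hl hlp hU hZ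
  set X : ℝ := Q.x ^ (-δ) with hX
  have hX0 : 0 < X := Real.rpow_pos_of_pos hx _
  have hS' := hS.mono hAC hT0 hE0
  have hC2' := l9wb_co2_mono hC2 hA hS.e_nn hAC hT0
  have hpt := l9w_pointHi hA hS'.cc hS'.co hC2' hx hx1 hl (hxU.trans hUY) hY4 hcD hcD1 ha4 hat hS.e_nn (by positivity) (by positivity) hJ
  refine hpt.trans ?_
  have hC0 : 0 ≤ l9wC J0 4 := zero_le_one.trans (l9w_C_one_le _ _)
  have hLg0 : 0 ≤ Q.Lg ^ J0 := by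
    have : 0 ≤ Q.Lg := by
      have h3 : 0 ≤ Real.logb 2 (1 / Q.x) := Real.logb_nonneg (by norm_num) (by rw [le_div_iff₀ hx]; linarith)
      unfold L9Q.Lg
      linarith
    positivity
  have hCL : 0 ≤ CL := nonneg_of_mul_nonneg_left (hLg0.trans hLg) hX0
  have hTb0 : 0 ≤ Tb := le_trans (by positivity) hTb
  have hZ4 : 0 < Q.Zc Mj ^ 4 := by positivity
  have hXX : X ^ 3 * Q.x ^ (5 + l9wbC Q.I.F) ≤ Q.x ^ (5 + l9wbC Q.I.F / 2) := by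
    rw [hX, ← Real.rpow_natCast, ← Real.rpow_mul hx.le, ← Real.rpow_add hx]
    refine Real.rpow_le_rpow_of_exponent_ge hx hx1 ?_
    push_cast
    linarith
  have hP : 0 < Q.x ^ (5 + l9wbC Q.I.F) := Real.rpow_pos_of_pos hx _
  set M : ℝ := l9wC J0 4 / cD * (4 ^ (2 * J0) * (2 / cD) ^ 5) with hM
  have hM0 : 0 ≤ M := by positivity
  have e1 : l9wC J0 4 * (Ca * X * T0) / cD * (4 ^ (2 * J0) * (2 / cD) ^ 5) / Q.lam * (Ca * X * Q.E3 Mj 6) = M * (Ca * X) * (T0 / Q.lam) * (Ca * X * Q.E3 Mj 6) := by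
    rw [hM]
    ring
  rw [e1]
  calc ((J0 : ℝ) * 2 ^ J0 + 1) * (Q.Lg ^ J0 * (M * (Ca * X) * (T0 / Q.lam) * (Ca * X * Q.E3 Mj 6)))
      ≤ ((J0 : ℝ) * 2 ^ J0 + 1) * ((CL * X) * (M * (Ca * X) * Tb * (Ca * X * (3 * Q.x ^ (5 + l9wbC Q.I.F) * Q.Zc Mj ^ 4)))) := by
        gcongr
    _ = (((J0 : ℝ) * 2 ^ J0 + 1) * CL * M * Ca ^ 2 * 3) * (X ^ 3 * Q.x ^ (5 + l9wbC Q.I.F)) * (Q.Zc Mj ^ 4 * Tb) := by ring
    _ ≤ _ := by gcongr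

end num

/-! ## 4b. the threshold `vt`: every mass is `≤ a`, so the supplies at `vt = a` are the supplies at every `vt` -/

theorem l9wb_cc_vt {Q : L9Q} {Mj : L9Mj} {e : ℕ → ℝ} {A K δm : ℝ} {J0 : ℕ} (hA : Q.Adm δm) (h : Q.CCw Mj e A Q.p.a K J0) (vt : ℝ) : Q.CCw Mj e A vt K J0 := by
  intro n hn hnJ R hR β om hom0 hom B L0 hL0 hB hB2
  exact h n hn hnJ R hR β om hom0 hom B L0 hL0 (fun τ hτ i hi => ⟨(hB τ hτ i hi).1, (hB τ hτ i hi).2.1, l9w_ms_le Q hA _⟩) hB2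

theorem l9wb_low_vt {Q : L9Q} {δm vt : ℝ} (hA : Q.Adm δm) {n : ℕ} {τ : JtTopo} (h : Q.Low vt n τ) : Q.Low Q.p.a n τ :=
  fun i hi => ⟨(h i hi).1, l9w_ms_le Q hA _⟩

theorem l9wb_co_vt {Q : L9Q} {e g : ℕ → ℝ} {A T0 δm : ℝ} {n0 J0 : ℕ} (hA : Q.Adm δm) (h : Q.Co A T0 Q.p.a e g n0 J0) (vt : ℝ) : Q.Co A T0 vt e g n0 J0 :=
  fun n hn hnJ R hR hne τ hτ hlow => h n hn hnJ R hR hne τ hτ (l9wb_low_vt hA hlow)

theorem l9wb_co2_vt {Q : L9Q} {e : ℕ → ℝ} {A T0 δm : ℝ} (hA : Q.Adm δm) (h : Q.Co2 A T0 Q.p.a e) (vt : ℝ) : Q.Co2 A T0 vt e :=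
  ⟨fun R hR hne τ hτ hlow hd => h.par R hR hne τ hτ (l9wb_low_vt hA hlow) hd, fun τ h1 _ => h.sq τ h1 (l9w_ms_le Q hA _)⟩

theorem L9Q.Sw.vt {Q : L9Q} {Mj : L9Mj} {e g : ℕ → ℝ} {A T0 K δm : ℝ} {n0 J0 : ℕ} (hA : Q.Adm δm) (h : Q.Sw Mj A T0 Q.p.a K n0 J0 e g) (vt : ℝ) :
    Q.Sw Mj A T0 vt K n0 J0 e g :=
  ⟨h.z1, h.e_nn, h.g_nn, h.g_sum, l9wb_cc_vt hA h.cc vt, l9wb_co_vt hA h.co vt⟩

/-- a smaller threshold asks less -/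
theorem L9Q.Sw.anti {Q : L9Q} {Mj : L9Mj} {e g : ℕ → ℝ} {A T0 K vt vt' : ℝ} {n0 J0 : ℕ} (h : Q.Sw Mj A T0 vt K n0 J0 e g) (hv : vt' ≤ vt) :
    Q.Sw Mj A T0 vt' K n0 J0 e g := by
  refine ⟨h.z1, h.e_nn, h.g_nn, h.g_sum, ?_, ?_⟩
  · intro n hn hnJ R hR β om hom0 hom B L0 hL0 hB hB2
    exact h.cc n hn hnJ R hR β om hom0 hom B L0 hL0 (fun τ hτ i hi => ⟨(hB τ hτ i hi).1, (hB τ hτ i hi).2.1, (hB τ hτ i hi).2.2.trans hv⟩) hB2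
  · intro n hn hnJ R hR hne τ hτ hlow
    exact h.co n hn hnJ R hR hne τ hτ fun i hi => ⟨(hlow i hi).1, (hlow i hi).2.trans hv⟩

/-! ## 5. the supplies in the shapes of RED, the EXITS -/

/-- **supplies of W5, size segment**: Lemma 9.1 on full tables + the real coefficients of the degrees `5 ≤ n ≤ J0`, ONE envelope `e`, below the fixed mass `v0`; one factor `1 + dot` -/
def L9wSupS (𝔹 : LlBase) (Mj : L9Mj) (F : LlFix) (v0 : ℝ) (J0 : ℕ) : Prop :=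
  ∀ K : ℝ, L9SbS 𝔹 F fun A Q => Q.Adm Q.x → ∃ e g, Q.Sw Mj A (1 + Q.I.dot Q.pf Q.t) v0 K 5 J0 e g

/-- **supplies of W5, strength sweep**: Lemma 9.1 on full tables + the real coefficients of the degrees `2 ≤ n ≤ J0` (no unbounded dotted weight) + parity and the square counterterm in degree two, masses `≤ vt` -/
def L9wSupD (𝔹 : LlBase) (Mj : L9Mj) (κ : ℝ) (F : LlFix) (vt : ℝ) (J0 : ℕ) : Prop :=
  ∀ K : ℝ, L9SbD 𝔹 Mj κ F fun A Q => Q.Adm Q.x → ∃ e, Q.Sw Mj A Q.lam vt K 2 J0 e (fun _ => 0) ∧ Q.Co2 A Q.lam vt e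

theorem l9wb_sup_eqns_cite : True := by
  have := @L9wSupS.eq_1; have := @L9wSupD.eq_1
  trivial

/-- **EXIT W5, size segment** -/
theorem l9wb_S5 (𝔹 : LlBase) (Mj : L9Mj) (J0 : ℕ) (hJ : 2 ≤ J0) (F : LlFix) (hF : L9cExp F) (a2 : ℝ) (ha2 : F.pS < a2) (ha2' : a2 < llDStar / 3)
    (v0 : ℝ) (hv0 : 0 < v0) (hSup : L9wSupS 𝔹 Mj F v0 J0) (hAdm : L9cAdmS 𝔹 F) (hZg : ∀ Fs p m, 0 ≤ Mj.Zg F 𝔹 Fs p m) :
    L9BndSg 𝔹 Mj J0 F fun x => l9RgL5 (x ^ a2) := by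
  have hc := l9wbC_pos hF
  have hδ : 0 < l9wbC F / 6 := by positivity
  have ha20 : 0 < a2 := hF.p_pos.trans ha2
  obtain ⟨CL, hCL, hLg⟩ := l9wb_Lg J0 hδ
  refine ⟨l9wbC F / 2, by positivity, 1, one_pos, fun ε hε _ q hq => ?_⟩
  obtain ⟨C1, N1, h1⟩ := hSup 6 _ hδ ε hε q hq
  obtain ⟨C4, N4, h4⟩ := hAdm 1 _ hδ ε hε q hq
  obtain ⟨N5, h5⟩ := l9wb_small ha20 hv0
  refine ⟨(J0 : ℝ) * 2 ^ J0 * CL * l9wC J0 4 * |C1| ^ 2 * 3, max (max N1 N4) (max N5 2), fun N hN => ?_⟩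
  have hN1 : N1 ≤ N := le_trans (le_trans (le_max_left _ _) (le_max_left _ _)) hN
  have hN4 : N4 ≤ N := le_trans (le_trans (le_max_right _ _) (le_max_left _ _)) hN
  have hN5 : N5 ≤ N := le_trans (le_trans (le_max_left _ _) (le_max_right _ _)) hN
  have hN7 : 2 ≤ N := le_trans (le_trans (le_max_right _ _) (le_max_right _ _)) hN
  have hx : 0 < skX N := l9c_X_pos (by omega)
  have hx1 : skX N ≤ 1 := l9c_X_le (by omega)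
  have hxlt : skX N < 1 := l9c_X_lt hN7
  have hlam0 : 0 < skX N ^ F.pS := Real.rpow_pos_of_pos hx _
  have hV0 : 0 < skX N ^ a2 := Real.rpow_pos_of_pos hx _
  have hV1 : skX N ^ a2 ≤ 1 := Real.rpow_le_one hx.le hx1 ha20.le
  have hVl : skX N ^ a2 ≤ skX N ^ F.pS := Real.rpow_le_rpow_of_exponent_ge hx hx1 ha2.le
  have hU' : skX N * (skX N ^ F.pS) ^ (-(F.sS / 2)) < 1 := by
    have e1 : skX N * (skX N ^ F.pS) ^ (-(F.sS / 2)) = skX N ^ (1 + F.pS * (-(F.sS / 2))) := by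
      rw [Real.rpow_add hx, Real.rpow_one, Real.rpow_mul hx.le]
    rw [e1]
    refine Real.rpow_lt_one hx.le hxlt ?_
    nlinarith [hF.p_pos, hF.p_le, hF.s_hi, hF.e_s, hF.e_pos]
  filter_upwards [h1 N hN1, h4 N hN4] with Fs e1 e4
  intro m γ θ hy
  obtain ⟨Ad, hdot⟩ := e4 m γ θ hy
  rw [Real.rpow_one] at Ad
  obtain ⟨e, g, Sp⟩ := e1 m γ θ hy Ad
  have hU : (l9QS F 𝔹 (q * skX N ^ (1 + ε)) Fs m N γ θ).U < 1 := min_lt_of_right_lt hU'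
  have hU0 : 0 < (l9QS F 𝔹 (q * skX N ^ (1 + ε)) Fs m N γ θ).U :=
    lt_min one_pos (mul_pos hx (Real.rpow_pos_of_pos hlam0 _))
  have hZc : (l9QS F 𝔹 (q * skX N ^ (1 + ε)) Fs m N γ θ).Zc Mj
      = min (Mj.Z F 𝔹 Fs (l9PtS F N γ θ) m) (skX N ^ (llDStar / 3) / (l9QS F 𝔹 (q * skX N ^ (1 + ε)) Fs m N γ θ).U) := if_pos rfl
  have hYV : (l9QS F 𝔹 (q * skX N ^ (1 + ε)) Fs m N γ θ).Y Mj ≤ skX N ^ a2 := by
    unfold L9Q.Y
    rw [hZc]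
    calc _ ≤ (l9QS F 𝔹 (q * skX N ^ (1 + ε)) Fs m N γ θ).U * (skX N ^ (llDStar / 3) / (l9QS F 𝔹 (q * skX N ^ (1 + ε)) Fs m N γ θ).U) :=
          mul_le_mul_of_nonneg_left (min_le_right _ _) hU0.le
      _ = skX N ^ (llDStar / 3) := mul_div_cancel₀ _ hU0.ne'
      _ ≤ skX N ^ a2 := Real.rpow_le_rpow_of_exponent_ge hx hx1 ha2'.le
  have hT : 0 ≤ 1 + (⟨F, 𝔹, q * skX N ^ (1 + ε), Fs, m⟩ : L9I).dot (l9PtS F N γ) θ := add_nonneg zero_le_one hdot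
  have hTb : (1 + (⟨F, 𝔹, q * skX N ^ (1 + ε), Fs, m⟩ : L9I).dot (l9PtS F N γ) θ) * skX N ^ a2 / skX N ^ F.pS
      ≤ 1 + (⟨F, 𝔹, q * skX N ^ (1 + ε), Fs, m⟩ : L9I).dot (l9PtS F N γ) θ := by
    rw [div_le_iff₀ hlam0]
    exact mul_le_mul_of_nonneg_left hVl hT
  have := l9wb_num5 (Q := l9QS F 𝔹 (q * skX N ^ (1 + ε)) Fs m N γ θ) (Mj := Mj) (V := skX N ^ a2) (Ca := |C1|) (CL := CL) (δ := l9wbC F / 6) hF hx hx1
    hlam0 le_rfl hU Ad hJ Sp hYV hV1 (h5 N hN5) (by show (4 : ℝ) ≤ 4; norm_num) hT hTb (abs_nonneg _)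
    (mul_le_mul_of_nonneg_right (le_abs_self _) (Real.rpow_nonneg hx.le _)) (hLg _ hx hx1) (by show 6 * (l9wbC F / 6) ≤ l9wbC F; linarith)
  refine this.trans ?_
  have hZ1 : 1 ≤ (l9QS F 𝔹 (q * skX N ^ (1 + ε)) Fs m N γ θ).Zc Mj := Sp.z1
  have hZle : (l9QS F 𝔹 (q * skX N ^ (1 + ε)) Fs m N γ θ).Zc Mj ≤ Mj.Z F 𝔹 Fs (l9PtS F N γ θ) m := by rw [hZc]; exact min_le_left _ _
  have hZ4 : (l9QS F 𝔹 (q * skX N ^ (1 + ε)) Fs m N γ θ).Zc Mj ^ 4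
      ≤ Mj.Z F 𝔹 Fs (l9PtS F N γ θ) m ^ 4 + Mj.Zg F 𝔹 Fs (l9PtS F N γ θ) m * Mj.Z F 𝔹 Fs (l9PtS F N γ θ) m ^ 2 :=
    (pow_le_pow_left₀ (by linarith) hZle 4).trans (le_add_of_nonneg_right (mul_nonneg (hZg _ _ _) (by positivity)))
  unfold l9WS
  refine mul_le_mul_of_nonneg_left (mul_le_mul_of_nonneg_right hZ4 hT) ?_
  have h0 : 0 ≤ skX N ^ (5 + l9wbC F / 2) := Real.rpow_nonneg hx.le _
  have hC0 : 0 ≤ l9wC J0 4 := zero_le_one.trans (l9w_C_one_le _ _)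
  exact mul_nonneg (by positivity) h0

/-- **EXIT W5 (ii), strength sweep**: all the base pairs below the fixed mass `cD`, degree `≥ 5` -/
theorem l9wb_D5 (𝔹 : LlBase) (Mj : L9Mj) (κ : ℝ) (hκ : 0 < κ) (J0 : ℕ) (hJ : 2 ≤ J0) (F : LlFix) (hF : L9cExp F) (vt cD : ℝ) (hcD : 0 < cD) (hcD1 : cD ≤ 1)
    (hcv : cD ≤ vt) (hSup : L9wSupD 𝔹 Mj κ F vt J0) (hAdm : L9cAdmD 𝔹 Mj κ F) :
    L9BndDg 𝔹 Mj κ J0 F fun _ => l9RgL5 cD := by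
  have hc := l9wbC_pos hF
  have hδ : 0 < l9wbC F / 6 := by positivity
  obtain ⟨CL, hCL, hLg⟩ := l9wb_Lg J0 hδ
  refine ⟨l9wbC F / 2, by positivity, 1, one_pos, fun ε hε _ q hq => ?_⟩
  obtain ⟨C1, N1, h1⟩ := hSup 6 _ hδ ε hε q hq
  obtain ⟨C4, N4, h4⟩ := hAdm 1 _ hδ ε hε q hq
  obtain ⟨N5, h5⟩ := l9wb_small hκ hcD
  refine ⟨(J0 : ℝ) * 2 ^ J0 * CL * l9wC J0 4 * |C1| ^ 2 * 3, max (max N1 N4) (max N5 2), fun N hN => ?_⟩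
  have hN1 : N1 ≤ N := le_trans (le_trans (le_max_left _ _) (le_max_left _ _)) hN
  have hN4 : N4 ≤ N := le_trans (le_trans (le_max_right _ _) (le_max_left _ _)) hN
  have hN5 : N5 ≤ N := le_trans (le_trans (le_max_left _ _) (le_max_right _ _)) hN
  have hN7 : 2 ≤ N := le_trans (le_trans (le_max_right _ _) (le_max_right _ _)) hN
  have hx : 0 < skX N := l9c_X_pos (by omega)
  have hx1 : skX N ≤ 1 := l9c_X_le (by omega)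
  have hxlt : skX N < 1 := l9c_X_lt hN7
  filter_upwards [h1 N hN1, h4 N hN4] with Fs e1 e4
  intro m ell γ t hy
  have Ad := e4 m ell γ t hy
  rw [Real.rpow_one] at Ad
  obtain ⟨e, Sp, -⟩ := e1 m ell γ t hy Ad
  obtain ⟨-, -, hell, ht, -, -, hstop⟩ := hy
  obtain ⟨hlo, hhi⟩ := l9c_lamRg (F := F) (by omega : 0 < N) ht
  have hZ : 1 ≤ Mj.Z F 𝔹 Fs (l9PtL N ell γ t) m := Sp.z1
  have hU0 : 0 ≤ (l9PtL N ell γ t).U F := le_min zero_le_one (mul_nonneg hx.le (Real.rpow_nonneg (Real.exp_pos t).le _))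
  have hκ1 : skX N ^ κ < 1 := Real.rpow_lt_one hx.le hxlt hκ
  have hU : (l9PtL N ell γ t).U F < 1 := lt_of_le_of_lt ((le_mul_of_one_le_right hU0 hZ).trans hstop) hκ1
  have hYV : (l9PtL N ell γ t).U F * Mj.Z F 𝔹 Fs (l9PtL N ell γ t) m ≤ cD := hstop.trans (h5 N hN5)
  have h26 : (2 : ℝ) ^ (1 / 6 : ℝ) ≤ 2 := by
    calc (2 : ℝ) ^ (1 / 6 : ℝ) ≤ (2 : ℝ) ^ (1 : ℝ) := Real.rpow_le_rpow_of_exponent_le one_le_two (by norm_num)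
      _ = 2 := Real.rpow_one 2
  have hTb : Real.exp t * cD / Real.exp t ≤ 1 := by
    rw [mul_div_cancel_left₀ _ (Real.exp_pos t).ne']
    exact hcD1
  have := l9wb_num5 (Q := l9QD F 𝔹 (q * skX N ^ (1 + ε)) Fs m N ell γ t) (Mj := Mj) (V := cD) (Ca := |C1|) (CL := CL) (δ := l9wbC F / 6) hF hx hx1
    (Real.exp_pos t) hhi hU Ad hJ (Sp.of_le (by norm_num)) hYV hcD1 hcv (by show ell ≤ 4; linarith [hell.2]) (Real.exp_pos t).le hTb (abs_nonneg _)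
    (mul_le_mul_of_nonneg_right (le_abs_self _) (Real.rpow_nonneg hx.le _)) (hLg _ hx hx1) (by show 6 * (l9wbC F / 6) ≤ l9wbC F; linarith)
  rw [mul_one] at this
  exact this

/-- **EXIT W5 (i), strength sweep**: a base pair at mass at least the fixed `cD` -/
theorem l9wb_DHi (𝔹 : LlBase) (Mj : L9Mj) (κ : ℝ) (hκ : 0 < κ) (J0 : ℕ) (hJ : 2 ≤ J0) (F : LlFix) (hF : L9cExp F) (vt cD : ℝ) (hcD : 0 < cD) (hcD1 : cD ≤ 1)
    (hvt : 2 ≤ vt) (hSup : L9wSupD 𝔹 Mj κ F vt J0) (hAdm : L9cAdmD 𝔹 Mj κ F) :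
    L9BndDg 𝔹 Mj κ J0 F fun _ => l9RgHi cD := by
  have hc := l9wbC_pos hF
  have hδ : 0 < l9wbC F / 6 := by positivity
  obtain ⟨CL, hCL, hLg⟩ := l9wb_Lg J0 hδ
  refine ⟨l9wbC F / 2, by positivity, 1, one_pos, fun ε hε _ q hq => ?_⟩
  obtain ⟨C1, N1, h1⟩ := hSup 6 _ hδ ε hε q hq
  obtain ⟨C4, N4, h4⟩ := hAdm 1 _ hδ ε hε q hq
  refine ⟨((J0 : ℝ) * 2 ^ J0 + 1) * CL * (l9wC J0 4 / cD * (4 ^ (2 * J0) * (2 / cD) ^ 5)) * |C1| ^ 2 * 3, max (max N1 N4) 2, fun N hN => ?_⟩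
  have hN1 : N1 ≤ N := le_trans (le_trans (le_max_left _ _) (le_max_left _ _)) hN
  have hN4 : N4 ≤ N := le_trans (le_trans (le_max_right _ _) (le_max_left _ _)) hN
  have hN7 : 2 ≤ N := le_trans (le_max_right _ _) hN
  have hx : 0 < skX N := l9c_X_pos (by omega)
  have hx1 : skX N ≤ 1 := l9c_X_le (by omega)
  have hxlt : skX N < 1 := l9c_X_lt hN7
  filter_upwards [h1 N hN1, h4 N hN4] with Fs e1 e4
  intro m ell γ t hy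
  have Ad := e4 m ell γ t hy
  rw [Real.rpow_one] at Ad
  obtain ⟨e, Sp, C2⟩ := e1 m ell γ t hy Ad
  obtain ⟨-, -, hell, ht, -, -, hstop⟩ := hy
  obtain ⟨hlo, hhi⟩ := l9c_lamRg (F := F) (by omega : 0 < N) ht
  have hZ : 1 ≤ Mj.Z F 𝔹 Fs (l9PtL N ell γ t) m := Sp.z1
  have hU0 : 0 ≤ (l9PtL N ell γ t).U F := le_min zero_le_one (mul_nonneg hx.le (Real.rpow_nonneg (Real.exp_pos t).le _))
  have hκ1 : skX N ^ κ < 1 := Real.rpow_lt_one hx.le hxlt hκ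
  have hU : (l9PtL N ell γ t).U F < 1 := lt_of_le_of_lt ((le_mul_of_one_le_right hU0 hZ).trans hstop) hκ1
  have hY4 : (l9PtL N ell γ t).U F * Mj.Z F 𝔹 Fs (l9PtL N ell γ t) m ≤ 4 := hstop.trans (by linarith)
  have h26 : (2 : ℝ) ^ (1 / 6 : ℝ) ≤ 2 := by
    calc (2 : ℝ) ^ (1 / 6 : ℝ) ≤ (2 : ℝ) ^ (1 : ℝ) := Real.rpow_le_rpow_of_exponent_le one_le_two (by norm_num)
      _ = 2 := Real.rpow_one 2
  have hTb : Real.exp t / Real.exp t ≤ 1 := (div_self (Real.exp_pos t).ne').le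
  have := l9wb_numHi (Q := l9QD F 𝔹 (q * skX N ^ (1 + ε)) Fs m N ell γ t) (Mj := Mj) (cD := cD) (Ca := |C1|) (CL := CL) (δ := l9wbC F / 6) hF hx hx1
    (Real.exp_pos t) hhi hU Ad hJ Sp C2 hY4 hcD hcD1 (by show ell ≤ 4; linarith [hell.2]) (by show ell ≤ vt; linarith [hell.2]) (Real.exp_pos t).le hTb
    (abs_nonneg _) (mul_le_mul_of_nonneg_right (le_abs_self _) (Real.rpow_nonneg hx.le _)) (hLg _ hx hx1)
    (by show 6 * (l9wbC F / 6) ≤ l9wbC F; linarith)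
  rw [mul_one] at this
  exact this

end Claimed.Agent.R286
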