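import Claimed.Agent.R286.L09.W5x
import Claimed.Agent.R286.L09.W5b
import Claimed.Agent.R286.L09.RedSup
import Claimed.Agent.R286.L09.TrdCore
import Claimed.Agent.R286.L09.ParChain
import Claimed.Agent.R286.L08.Caller
import Claimed.Agent.R286.L08.Fine
import Claimed.Agent.R286.Exit.DDir

/-!
# Row 286 (S0533), unit L09, node TRD, file TrdW5: THE SUPPLY **W5** OF TRD = `exit_l9x_w5` (`L09/Trd.lean`), THE SHELL      (architect + owner helper230, order of helper101; prefix `l9ti`, `L9ti`)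

TEX[LL:exp:lem-centered-count] 09-expansion.tex l.286-306: "Each factor is either `K_S - K = b f + d` or `b δ` .. We need only the difference between the two ensembles, so Lemma 9.1 applies once its weight condition is checked ..
With `j` factors at `l` distinct vertices, changing to the normalized measure costs `w^l`.  Since `j + l ≥ 5`, `∏ dv_s = w^l ∏ dv_s / w ≲ w^(5-j) ∏ dv_s / w`."

    exit_l9x_w5 (L09/Trd)  <=  l9ti_w5 (LLGood)  <=  l9ti_shape (L9SbD, losses `l9ti_loss`)  <=  l9ti_point (ONE point)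
    l9ti_point  <=  l9wx_point (299, `L09/W5x.lean`: the contract `L9xBD` of 101 from `Q.CCw`)  +  `Env.f_le` (`|S - q| ≤ A e`)  +  l9ti_phi (`|K_S - K| = |b f + d| ≤ A (M0 + 16) e`)  +  l9ti_cc_nonneg
    l9ti_shape  <=  l9rs_bothD (153: LL 08 at the points of the sweep, masses up to `a`)  +  l8cl_caller (`LlBd M0`)  +  l9rs_admD  +  l9wb_Lg (266)  +  the CONTRACT `L9tiCC` of CC on full tables, degree `n`.
The ONLY debt: the contract `L9tiCC` (= `L9wCCD` of 291 / 299 / 153, same text) at the degree `par.J0 + 1`, `K = 6`.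
-/

set_option autoImplicit false

namespace Claimed.Agent.R286

open scoped BigOperators Nat
open Filter

/-! ## 1. one point -/

/-- the constant of `l9ti_point` -/
noncomputable def l9tiK (n : ℕ) : ℝ := l9wxC n ^ n * 2 ^ n * l9wC n 4 * 4 ^ (2 * n)

theorem l9ti_K_nonneg (n : ℕ) : 0 ≤ l9tiK n := by
  unfold l9tiK
  have h2 : 0 ≤ l9wC n 4 := zero_le_one.trans (l9w_C_one_le _ _)
  have h3 : 0 ≤ l9wxC n := by unfold l9wxC; positivity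
  positivity

theorem L9xBD.mono {S : Type} {X0 Xs : JtCtx S} {Sm env : ℕ → ℝ} {n : ℕ} {Bd Bd' : ℝ} (h : L9xBD X0 Xs Sm env n Bd) (hB : Bd ≤ Bd') :
    L9xBD X0 Xs Sm env n Bd' :=
  fun A B G Λ h1 h2 h3 h4 h5 h6 => (h A B G Λ h1 h2 h3 h4 h5 h6).trans (mul_le_mul_of_nonneg_left hB h5)


/-- the centring of TRD (`= Q.xSm` of `L09/Trd.lean`): untilted mean overlap at a pair which shares `s` stages -/
noncomputable def L9Q.tiSm (Q : L9Q) (s : ℕ) : ℝ := obS Q.I.m Q.p.a (llMat (Q.I.P Q.p)) 0 (min s Q.N)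

/-- **CONTRACT of CC on FULL tables (Lemma 9.1, `Q.CCw` of 299), strength sweep, degree `J0`**: the pattern of `L9cCCD` (153), all the masses (`vt = a`).      Same text as `L9wCCD` of 291 (`L09/W5ExD.lean`). -/
def L9tiCC (𝔹 : LlBase) (Mj : L9Mj) (κ : ℝ) (F : LlFix) (C0 δ0 v0 cE : ℝ) (J0 : ℕ) : Prop :=
  ∀ K δ : ℝ, 0 < δ → ∃ (pm jm : ℕ) (Km δ1 δ' : ℝ), 2 ≤ pm ∧ 1 ≤ Km ∧ 0 < δ1 ∧ δ1 ≤ δ ∧ 0 < δ' ∧ δ' ≤ δ0 ∧
    ∀ ε : ℝ, 0 < ε → ∀ q : ℝ, 0 < q → ∀ C1 : ℝ, ∃ (C : ℝ) (N0 : ℕ), ∀ N : ℕ, N0 ≤ N → ∀ᶠ Fs : Finset GhPos in atTop,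
      ∀ (m : ℕ) (ell : ℝ) (γ : Fin (N + 1) → ℝ) (t : ℝ), L9HyD F 𝔹 Mj κ N (q * skX N ^ (1 + ε)) (skX N ^ ε) Fs m ell γ t →
        ∀ (Q : L9Q) (e : ℕ → ℝ), Q = l9QD F 𝔹 (q * skX N ^ (1 + ε)) Fs m N ell γ t → Q.i8.Ok → Q.i8.Fine (Q.x ^ Km) →
          Q.i8.Both e (C1 * skX N ^ (-δ1)) Q.i8.Y Q.i8.Z Q.i8.a v0 cE pm jm → Q.i8.D8 e (C1 * skX N ^ (-δ1)) C0 δ' →
            Q.CCw Mj (l9rsE Q.N e) (C * skX N ^ (-δ)) Q.p.a K J0

theorem l9ti_glue_eqns_cite : True := by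
  have := @l9tiK.eq_1
  have := @L9Q.tiSm.eq_1
  have := @L9tiCC.eq_1
  trivial

/-- the bound of `CCw` is nonnegative -/
theorem l9ti_cc_nonneg {Q : L9Q} {Mj : L9Mj} {e : ℕ → ℝ} {A vt K : ℝ} {J0 : ℕ} (hJ : 2 ≤ J0) (hCC : Q.CCw Mj e A vt K J0) (hms : IsMs Q.N Q.ms)
    (hlam : 0 < Q.lam) (hY : 0 < Q.Y Mj) (he : ∀ t, 0 ≤ e t) : 0 ≤ A * Q.E3 Mj K := by
  have h := hCC 2 le_rfl hJ ∅ (Finset.empty_subset _) (fun _ => 0) (fun _ => 0) (fun _ => le_rfl) (by simp) (fun _ => 0) 1 zero_le_one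
    (fun τ h => absurd rfl h) (fun τ _ => by
      rw [abs_zero, one_mul]
      exact l9w_E2w_nonneg hms hlam hY he (fun _ => le_rfl) _ _ _ _)
  rw [one_mul] at h
  exact (abs_nonneg _).trans h

/-- `K_S - K = b f + d` is bounded by the envelope -/
theorem l9ti_phi {I : L8In} (hOk : I.Ok) (hF : I.F.Ok) (hf : I.Fine 1) (hadm : LlStpAdm I.a I.LP) {M0 A κ cE : ℝ} {e : ℕ → ℝ} (hM0 : 0 ≤ M0)
    (hBd : LlBd M0 I.LP) (hA : 0 ≤ A)
    (hκ : 0 < κ) (hY : I.Y ≤ I.x ^ κ) (hEnv : I.Env e A I.Y I.a cE) {s : ℕ} (hs : s ≤ I.n) :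
    |l9xKS I.LP (fun s => I.S (min s I.n)) s - I.KC s| ≤ A * (M0 + 16) * e s := by
  obtain ⟨hx0, hx1, hxY, hY1, -⟩ := tlk_scales hOk hF false hκ (fun _ => hY)
  replace hxY : I.x ≤ I.Y := hxY
  replace hY1 : I.Y ≤ 1 := hY1
  obtain ⟨-, -, hl0, hl1, -, -, -, -, -, ha4, -⟩ := tlk_sc hOk hF
  obtain ⟨hv0, hva, -⟩ := tlk_v_rg hOk hf s
  have he : 0 ≤ e s := (Real.rpow_nonneg hx0.le _).trans (hEnv.lo s hs)
  have e1 : l9xKS I.LP (fun s => I.S (min s I.n)) s - I.KC s = I.bC s * I.f s + I.d s := by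
    unfold l9xKS L8In.f L8In.d
    beta_reduce
    rw [min_eq_left hs]
    show I.hC s + I.bC s * I.S s - I.KC s = _
    ring
  have hb0 : 0 ≤ I.bC s := ll2_law_cumB_nonneg hadm.1 s
  have h1 : |I.bC s * I.f s| ≤ M0 * (A * e s) := by
    rw [abs_mul, abs_of_nonneg hb0]
    exact mul_le_mul (hBd s).1 (hEnv.f_le s hs hva) (abs_nonneg _) hM0
  have h2 : |I.d s| ≤ A * 16 * e s := by
    have h3 := hEnv.d_le s hs hva
    have h4 : max (I.v s) I.Y ^ 2 ≤ 16 := by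
      have : max (I.v s) I.Y ≤ 4 := max_le (hva.trans ha4) (by linarith)
      have h0 : 0 ≤ max (I.v s) I.Y := le_max_of_le_left hv0
      nlinarith
    have h5 : A * I.lam * max (I.v s) I.Y ^ 2 ≤ A * 16 := by
      calc A * I.lam * max (I.v s) I.Y ^ 2 ≤ A * 1 * 16 :=
            mul_le_mul (mul_le_mul_of_nonneg_left hl1 (by linarith)) h4 (sq_nonneg _) (by linarith)
        _ = A * 16 := by ring
    have h6 := mul_le_mul_of_nonneg_right h5 he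
    linarith [abs_nonneg (I.dd s)]
  rw [e1]
  refine (abs_add_le _ _).trans ?_
  calc |I.bC s * I.f s| + |I.d s| ≤ M0 * (A * e s) + A * 16 * e s := add_le_add h1 h2
    _ = A * (M0 + 16) * e s := by ring

/-- **W5 OF TRD AT ONE POINT** of the strength sweep: LL 08 (`Both`) + `LlBd` + Lemma 9.1 on full tables -/
theorem l9ti_point {Q : L9Q} {c κ M0 A1 Acc v0 cE δm : ℝ} {e : ℕ → ℝ} {pm jm n : ℕ} (hκ : 0 < κ) (hsm : Q.p.sm = false) (hOk : Q.i8.Ok)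
    (hF : Q.I.F.Ok) (hf : Q.i8.Fine 1) (hAd : Q.Adm δm) (hY : Q.i8.Y ≤ Q.i8.x ^ κ) (hM0 : 0 ≤ M0) (hBd : LlBd M0 (Q.I.P Q.p))
    (hB : Q.i8.Both e A1 Q.i8.Y Q.i8.Z Q.i8.a v0 cE pm jm) (h2n : 2 ≤ n) (hCC : Q.CCw (l8Mj c) (l9rsE Q.N e) Acc Q.p.a 6 n) :
    0 ≤ A1 ∧ 0 ≤ Q.E3 (l8Mj c) 6 ∧ (∀ s, 0 ≤ l9rsE Q.N e s) ∧
      L9xBD (Q.X false) (Q.X true) Q.tiSm (l9rsE Q.N e) n (l9tiK n * (1 + A1) ^ n * Q.Lg ^ n * (Acc * Q.E3 (l8Mj c) 6 / Q.lam)) ∧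
      ∀ s ≤ Q.N, |l9xKS (Q.I.P Q.p) Q.tiSm s - llCumK (Q.I.P Q.p) s| ≤ A1 * (M0 + 16) * l9rsE Q.N e s := by
  obtain ⟨hx0, hx1, hxY, hY1, -⟩ := tlk_scales hOk hF false hκ (fun _ => hY)
  replace hxY : Q.i8.x ≤ Q.i8.Y := hxY
  replace hY1 : Q.i8.Y ≤ 1 := hY1
  obtain ⟨-, -, hl0, hl1, -, -, -, -, ha1, ha4, -⟩ := tlk_sc hOk hF
  have hZc := l9rs_Zc_D Q c hOk hsm
  have hYe : Q.Y (l8Mj c) = Q.i8.Y := by unfold L9Q.Y; rw [hZc]; rfl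
  have hms : IsMs Q.N Q.ms := (l9c_law Q hAd false).isMs
  have hA1 : 0 ≤ A1 := l9rs_A_nonneg Q.i8 hOk hf hB.env (hOk.s_lt.le.trans (hx1.trans ha1))
  have he : ∀ s, 0 ≤ l9rsE Q.N e s := by
    intro s
    unfold l9rsE
    split_ifs with h
    · exact (Real.rpow_nonneg hx0.le _).trans (hB.env.lo s h)
    · exact le_rfl
  have hY0 : 0 < Q.Y (l8Mj c) := by rw [hYe]; exact hx0.trans_le hxY
  have hAE := l9ti_cc_nonneg h2n hCC hms hl0 hY0 he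
  have hE3 : 0 ≤ Q.E3 (l8Mj c) 6 :=
    l9rs_E3_nonneg Q (l8Mj c) 6 hx0.le hl0.le hY0.le (by rw [hZc]; exact zero_le_one.trans (l9rs_Z_ge _))
  refine ⟨hA1, hE3, he, ?_, fun s hs => ?_⟩
  · have key := l9wx_point hAd hCC hx0 hx1 hl0 (by rw [hYe]; exact hxY) (by rw [hYe]; linarith) ha4 le_rfl he hAE (Sm := Q.tiSm) (Cf := 1 + A1)
      (by linarith) (fun s hs => by
        rw [l9rs_E_of_le e hs]
        have hva : Q.i8.v s ≤ Q.i8.a := (tlk_v_rg hOk hf s).2.1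
        have h1 := hB.env.f_le s hs hva
        have e1 : (Q.X false).qC s - Q.tiSm s = -Q.i8.f s := by
          unfold L9Q.tiSm L8In.f
          rw [min_eq_left hs, neg_sub]
          rfl
        rw [e1, abs_neg]
        have h2 : 0 ≤ e s := (Real.rpow_nonneg hx0.le _).trans (hB.env.lo s hs)
        nlinarith) (le_refl n)
    refine key.mono (le_of_eq ?_)
    unfold l9tiK
    ring
  · rw [l9rs_E_of_le e hs]
    exact l9ti_phi hOk hF hf hAd.adm hM0 hBd hA1 hκ hY hB.env hs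

/-! ## 2. the shape -/

/-- arithmetic of the losses -/
theorem l9ti_loss {X δ δ1 C1 C2 CL K Lg E M : ℝ} {n : ℕ} (hX : 0 < X) (hX1 : X ≤ 1) (hδ : 0 < δ) (hδ1 : 0 < δ1) (hδ1' : δ1 ≤ δ / ((n : ℝ) + 2))
    (hK : 0 ≤ K) (hCL : 0 ≤ CL) (hA1 : 0 ≤ C1 * X ^ (-δ1)) (hLg0 : 0 ≤ Lg) (hLg : Lg ^ n ≤ CL * X ^ (-(δ / ((n : ℝ) + 2)))) (hE : 0 ≤ E) (hM : 0 ≤ M) :
    K * (1 + C1 * X ^ (-δ1)) ^ n * Lg ^ n * (C2 * X ^ (-(δ / ((n : ℝ) + 2))) * E) ≤ (K * (1 + |C1|) ^ n * CL * |C2| + |C1| * M) * X ^ (-δ) * E ∧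
      C1 * X ^ (-δ1) * M ≤ (K * (1 + |C1|) ^ n * CL * |C2| + |C1| * M) * X ^ (-δ) := by
  have hn2 : (0 : ℝ) < (n : ℝ) + 2 := by positivity
  obtain ⟨P, hP⟩ : ∃ P, P = X ^ (-(δ / ((n : ℝ) + 2))) := ⟨_, rfl⟩
  have hP1 : 1 ≤ P := by
    rw [hP]
    exact Real.one_le_rpow_of_pos_of_le_one_of_nonpos hX hX1 (by have : 0 < δ / ((n : ℝ) + 2) := by positivity
                                                                 linarith)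
  have hPn : X ^ (-δ) = P ^ (n + 2) := by
    rw [hP, ← Real.rpow_natCast, ← Real.rpow_mul hX.le]
    congr 1
    push_cast
    field_simp
  have hXP : X ^ (-δ1) ≤ P := by
    rw [hP]
    exact Real.rpow_le_rpow_of_exponent_ge hX hX1 (by linarith)
  have hX0 : 0 < X ^ (-δ1) := Real.rpow_pos_of_pos hX _
  have hc : C1 * X ^ (-δ1) ≤ |C1| * P :=
    (mul_le_mul_of_nonneg_right (le_abs_self C1) hX0.le).trans (mul_le_mul_of_nonneg_left hXP (abs_nonneg _))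
  have h1 : 1 + C1 * X ^ (-δ1) ≤ (1 + |C1|) * P := by nlinarith
  have h2 : (1 + C1 * X ^ (-δ1)) ^ n ≤ (1 + |C1|) ^ n * P ^ n := by
    rw [← mul_pow]
    exact pow_le_pow_left₀ (by linarith) h1 n
  have h3 : C2 * P * E ≤ |C2| * P * E :=
    mul_le_mul_of_nonneg_right (mul_le_mul_of_nonneg_right (le_abs_self C2) (by linarith)) hE
  have hPP : P ≤ P ^ (n + 2) := le_self_pow₀ hP1 (by omega)
  have hC1 := abs_nonneg C1
  have hC2 := abs_nonneg C2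
  have hP0 : 0 ≤ P := by linarith
  rw [← hP] at hLg ⊢
  rw [hPn]
  constructor
  · have a1 : K * (1 + C1 * X ^ (-δ1)) ^ n * Lg ^ n ≤ K * ((1 + |C1|) ^ n * P ^ n) * (CL * P) :=
      mul_le_mul (mul_le_mul_of_nonneg_left h2 hK) hLg (pow_nonneg hLg0 n) (by positivity)
    have a0 : 0 ≤ K * (1 + C1 * X ^ (-δ1)) ^ n * Lg ^ n := by positivity
    calc K * (1 + C1 * X ^ (-δ1)) ^ n * Lg ^ n * (C2 * P * E)
        ≤ K * (1 + C1 * X ^ (-δ1)) ^ n * Lg ^ n * (|C2| * P * E) := mul_le_mul_of_nonneg_left h3 a0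
      _ ≤ K * ((1 + |C1|) ^ n * P ^ n) * (CL * P) * (|C2| * P * E) := mul_le_mul_of_nonneg_right a1 (by positivity)
      _ = K * (1 + |C1|) ^ n * CL * |C2| * P ^ (n + 2) * E := by ring
      _ ≤ (K * (1 + |C1|) ^ n * CL * |C2| + |C1| * M) * P ^ (n + 2) * E := by
          refine mul_le_mul_of_nonneg_right (mul_le_mul_of_nonneg_right ?_ (by positivity)) hE
          have : 0 ≤ |C1| * M := by positivity
          linarith
  · calc C1 * X ^ (-δ1) * M ≤ |C1| * P * M := mul_le_mul_of_nonneg_right hc hM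
      _ ≤ |C1| * P ^ (n + 2) * M := by gcongr
      _ = |C1| * M * P ^ (n + 2) := by ring
      _ ≤ _ := by
          refine mul_le_mul_of_nonneg_right ?_ (by positivity)
          have : 0 ≤ K * (1 + |C1|) ^ n * CL * |C2| := by positivity
          linarith

/-- **SHAPE**: the supply W5 of TRD on `n` pairs, from the exits of LL 08 and the contract of CC on full tables -/
theorem l9ti_shape {𝔹 : LlBase} {T : ℝ} (hdir : L8xDir 𝔹 T) (hfine : L8gFine 𝔹 T) {F0 : LlFix} (hF : L8Fix 𝔹 T F0) (pB : LLParB) {pS : ℝ}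
    (h0 : 0 < pS) (h1 : pS ≤ 1) (c : ℝ) {κ : ℝ} (hκ : 0 < κ) {n : ℕ} (hn : 2 ≤ n)
    (hcc : ∀ C0 δ0 v0 cE : ℝ, 1 ≤ C0 → 0 < δ0 → 0 < v0 → 0 < cE → L9tiCC 𝔹 (l8Mj c) κ (F0.wExp pB.sStar pB.eta pS) C0 δ0 v0 cE n) :
    L9SbD 𝔹 (l8Mj c) κ (F0.wExp pB.sStar pB.eta pS) fun A Q =>
      ∃ env : ℕ → ℝ, (∀ s ≤ Q.N, 0 ≤ env s) ∧ L9xBD (Q.X false) (Q.X true) Q.tiSm env n (A * (Q.E3 (l8Mj c) 6 / Q.lam)) ∧
        ∀ s ≤ Q.N, |l9xKS (Q.I.P Q.p) Q.tiSm s - llCumK (Q.I.P Q.p) s| ≤ A * env s := by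
  obtain ⟨C0, δ0, v0, cE, hC0, hδ0, hv0, hcE, hB⟩ := l9rs_bothD hdir hfine hF pB h0 h1 c
  have hP := hF.2.2 _ _ _ (tlk_expok pB h0 h1)
  have hFok : (F0.wExp pB.sStar pB.eta pS).Ok := hP.sec3.ok
  obtain ⟨M0, N5, hM0, hcal⟩ := l8cl_caller (F0.wExp pB.sStar pB.eta pS) 𝔹 (by have := hF.2.1; rw [← hF.1] at this; exact this) hP.sec3
  have hAdm := l9rs_admD hfine hF pB h0 h1 c κ
  intro δ hδ ε hε q hq
  have hn2 : (0 : ℝ) < (n : ℝ) + 2 := by positivity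
  have hδa : 0 < δ / ((n : ℝ) + 2) := by positivity
  obtain ⟨pm, jm, Km, δ1, δ', hpm, hKm, hδ1, hδ1', hδ', hδ'', hc⟩ := hcc C0 δ0 v0 cE hC0 hδ0 hv0 hcE 6 _ hδa
  obtain ⟨C1, N1, hb⟩ := hB κ hκ pm jm Km δ' hδ' hδ'' δ1 hδ1 ε hε q hq
  obtain ⟨C2, N2, hc⟩ := hc ε hε q hq C1
  obtain ⟨C4, N4, h4⟩ := hAdm 1 _ hδ ε hε q hq
  obtain ⟨CL, hCL, hLg⟩ := l9wb_Lg n hδa
  refine ⟨l9tiK n * (1 + |C1|) ^ n * CL * |C2| + |C1| * (M0 + 16), N1 + N2 + N4 + N5 + 2, fun N hN => ?_⟩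
  filter_upwards [hb N (by omega), hc N (by omega), h4 N (by omega)] with Fs g1 g2 g4 m ell γ t hy
  obtain ⟨Q, hQ⟩ : ∃ Q, Q = l9QD (F0.wExp pB.sStar pB.eta pS) 𝔹 (q * skX N ^ (1 + ε)) Fs m N ell γ t := ⟨_, rfl⟩
  have g1' := g1 m ell γ t hy
  have g4' := g4 m ell γ t hy
  rw [← hQ] at g1' g4' ⊢
  obtain ⟨hok, hfi, e, hBo, h8⟩ := g1'
  have hCC := g2 m ell γ t hy Q e hQ hok hfi hBo h8
  have hsm : Q.p.sm = false := by rw [hQ]; rfl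
  have hxN : Q.i8.x = skX N := by rw [hQ]; rfl
  have hQF : Q.I.F = F0.wExp pB.sStar pB.eta pS := by rw [hQ]; rfl
  have hQB : Q.I.𝔹 = 𝔹 := by rw [hQ]; rfl
  have hQN : Q.i8.p.N = N := by rw [hQ]; rfl
  have hx : 0 < skX N := l9t_skX_pos (by omega)
  have hx1 : skX N ≤ 1 := l9t_skX_le_one (by omega)
  have hf1 : Q.i8.Fine 1 := hfi.mono (by
    show Q.i8.x ^ Km ≤ 1
    rw [hxN]
    exact Real.rpow_le_one hx.le hx1 (by linarith))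
  have hYk : Q.i8.Y ≤ Q.i8.x ^ κ := by
    have e := (l8_Z_eq Q.i8 hok.pt c).1
    obtain ⟨-, -, -, -, -, -, hY⟩ := hy
    rw [hxN]
    show Q.i8.U * Q.i8.Z ≤ _
    rw [← e, hQ]
    exact hY
  obtain ⟨-, -, -, -, hBd⟩ := hcal Q.i8 hQF hQB hok (by rw [hQN]; omega)
  have hFQ : Q.I.F.Ok := by rw [hQF]; exact hFok
  obtain ⟨hA1, hE3, he, p2, p3⟩ := l9ti_point (c := c) hκ hsm hok hFQ hf1 g4' hYk hM0 hBd hBo hn hCC
  have hlam : 0 < Q.lam := (tlk_sc hok hFQ).2.2.1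
  have hLg0 : 0 ≤ Q.Lg := by
    unfold L9Q.Lg
    have : 0 ≤ Real.logb 2 (1 / Q.x) := Real.logb_nonneg (by norm_num) (by
      show 1 ≤ 1 / Q.i8.x
      rw [hxN, le_div_iff₀ hx]; linarith)
    linarith
  obtain ⟨l1, l2⟩ := l9ti_loss (C2 := C2) (E := Q.E3 (l8Mj c) 6 / Q.lam) hx hx1 hδ hδ1 hδ1' (l9ti_K_nonneg n) hCL hA1 hLg0
    (show Q.Lg ^ n ≤ _ from by
      have := hLg Q.i8.x (hxN ▸ hx) (hxN ▸ hx1)
      rw [hxN] at this
      rw [show Q.Lg = 3 + Real.logb 2 (1 / skX N) from by unfold L9Q.Lg; rw [← hxN]; rfl]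
      exact this)
    (div_nonneg hE3 hlam.le) (by linarith : (0 : ℝ) ≤ M0 + 16)
  refine ⟨l9rsE Q.N e, fun s _ => he s, p2.mono ?_, fun s hs => (p3 s hs).trans (mul_le_mul_of_nonneg_right l2 (he s))⟩
  calc l9tiK n * (1 + C1 * skX N ^ (-δ1)) ^ n * Q.Lg ^ n * (C2 * skX N ^ (-(δ / ((n : ℝ) + 2))) * Q.E3 (l8Mj c) 6 / Q.lam)
      = l9tiK n * (1 + C1 * skX N ^ (-δ1)) ^ n * Q.Lg ^ n * (C2 * skX N ^ (-(δ / ((n : ℝ) + 2))) * (Q.E3 (l8Mj c) 6 / Q.lam)) := by ring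
    _ ≤ _ := l1
    _ = _ := by ring

/-- **`exit_l9x_w5`** (`L09/Trd.lean`; `Q.xW5`, `Q.xSm`, `L9xSup` unfolded) from the contract of CC on full tables at the degree `J_0 + 1` -/
theorem l9ti_w5 (T : ℝ) (hT : 1 < T) (F0 : LlFix) (h0 : L8Fix llBase T F0)
    (hcc : LLGood fun par => ∀ C0 δ0 v0 cE : ℝ, 1 ≤ C0 → 0 < δ0 → 0 < v0 → 0 < cE →
      L9tiCC llBase (l8Mj par.cC) par.kappa (F0.wExp par.sStar par.eta par.pStar) C0 δ0 v0 cE (par.J0 + 1)) :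
    LLGood fun par => L9SbD llBase (l8Mj par.cC) par.kappa (F0.wExp par.sStar par.eta par.pStar) fun A Q =>
      ∃ env : ℕ → ℝ, (∀ s ≤ Q.N, 0 ≤ env s) ∧ L9xBD (Q.X false) (Q.X true) Q.tiSm env (par.J0 + 1) (A * (Q.E3 (l8Mj par.cC) 6 / Q.lam)) ∧
        ∀ s ≤ Q.N, |l9xKS (Q.I.P Q.p) Q.tiSm s - llCumK (Q.I.P Q.p) s| ≤ A * env s := by
  filter_upwards [hcc] with par h
  have hp1 : par.pStar ≤ 1 := by have := par.toLLParD.pStar_lt; linarith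
  have hJ : 2 ≤ par.J0 + 1 := by
    have h1 := par.kPr_ge
    have h2 := par.J0_ge_kPr
    have hd : llDStar = 1 / 10000 := rfl
    rw [hd] at h1
    by_contra hh
    have h3 : (par.kPr : ℝ) ≤ 0 := by exact_mod_cast (by omega : par.kPr ≤ 0)
    linarith
  exact l9ti_shape (exit_ddir T hT) (l8g_fine T hT) h0 par.toLLParB par.pStar_pos hp1 par.cC par.kappa_pos hJ h

end Claimed.Agent.R286
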