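import Claimed.Agent.R286.L09.Fam
import Claimed.Agent.R286.L09.Dots
import Claimed.Agent.R286.L09.DotsD
import Claimed.Agent.R286.L09.TrdCore
import Claimed.Agent.R286.L09.TrdT
import Claimed.Agent.R286.L09.RedC
import Claimed.Agent.R286.L09.ParChain
import Claimed.Agent.R286.L08.DList
import Claimed.Agent.R286.Exit.DDir
import Claimed.Agent.R286.Fd.Contract
import Claimed.Agent.R286.L08.Caller
import Claimed.Agent.R286.L09.RedInst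
import Claimed.Agent.R286.Defs.L9Pre
import Claimed.Agent.R286.L09.TrdW5
import Claimed.Agent.R286.L09.W5ExD

/-!
# Row 286 (S0533), unit L09, file Trd: THE NODE **TRD** (LL 09-expansion.tex l.252-330)      (owner helper101; prefix `l9x_`, `L9x`, `L9Q.x*`)

    exit_l9_trd (L09/Nodes)  <=  l9x_node  <=  l9x_trd (PROVED here: glue + power count)
                                           +  L9xInst          (156: `l9x_core` + `l9e_e1x` at `I : L9I`, file L09/FamInst)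
                                           +  exit_l9x_ok      chain admissible near `t`, tilt stage, `LlBd M0`                                  [LL03 + fine chains]
                                           +  exit_l9x_dot     sup of the dotted clocks `≲_∘ λ`                                                  [69/159: `Q.Dots`]
                                           +  exit_l9x_w5      Lemma 9.1 in the form `L9xBD` + `|K_S - K| ≲ e`                                   [299: `l9w_xbd`]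
                                           +  exit_l9x_t34     true Taylor remainder at the reference `K_S`  <=  `l9y_t34` (TrdCore) + LL08      [sec. 4-6 below]

ONE POINT `Q : L9Q` (`L09/Bnd.lean`), loss `A = C x^(-δ)`, SHAPE `L9SbD` (`L09/RedC.lean`): "for every loss `δ`, tilt `(ε, q)`: `∃ C N0, ∀ N ≥ N0, ∀ᶠ Fs`, all points of the sweep with `L9HyD`: `Φ (C x^(-δ)) Q`".
* `Q.xSm s`        the centring `S` = UNTILTED mean overlap at a pair which shares `s` stages (`obS`, constant after the last stage);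
* `Q.xXS en`       the jet context of the ensemble `en` at the MONOTONE REFERENCE `K_S = h + b S` (`l9xPS`, TrdCore): there `J = b δ`, `δ = msk Q - S`;
* `Q.xOk M0`, `Q.xDot w`, `Q.xW5 Mj A K n`, `Q.xT34 Mj A c k` = the four supplies at one point.
POWER COUNT (09 l.277-285, l.296-306):  `λ x^(-c) z₁⁰ Y² Z² ≤ x^(5 + p g - c) Z⁴`,  `E3 ≤ 3 x^(5 + p g) Z⁴`,  `g = (1 - η)/2 - s_*`,  `c = C_0 δ'`;   saving `c0 = (p g - c)/2`, losses `δ = c0 / (J_0 + 2)`.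
-/

set_option autoImplicit false

namespace Claimed.Agent.R286

open scoped BigOperators Nat
open Filter Finset

noncomputable section

/-! ### 1. the supplies at one point -/

namespace L9Q

variable (Q : L9Q) (Mj : L9Mj)

/-- the centring `S`: untilted mean overlap at a pair which shares `s` stages -/
def xSm (s : ℕ) : ℝ := obS Q.I.m Q.p.a (llMat (Q.I.P Q.p)) 0 (min s Q.N)

/-- the context of the ensemble `en` at the monotone reference `K_S = h + b S` -/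
def xXS (en : Bool) : JtCtx (SkCfg Q.I.m) := llJs Q.I.m Q.p.a (l9xPS (Q.I.P Q.p) Q.xSm) (if en then some (Q.I.js Q.p) else none)

/-- the chain near the point -/
structure xOk (M0 : ℝ) : Prop where
  ev : ∀ᶠ t' in nhds Q.t, LlStpAdm (Q.pf t').a (Q.I.P (Q.pf t')) ∧ LlTiltOk (Q.I.P (Q.pf t')) (some (Q.I.js (Q.pf t')))
  bd : LlBd M0 (Q.I.P Q.p)

/-- sup bound of the dotted clocks on the chain -/
def xDot (w : ℝ) : Prop :=
  ∀ s ≤ Q.N, |deriv (fun t' => (Q.I.X0 (Q.pf t')).hC s) Q.t| ≤ w ∧ |deriv (fun t' => (Q.I.X0 (Q.pf t')).bC s) Q.t| ≤ w ∧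
    |deriv (fun t' => (Q.I.X0 (Q.pf t')).KC s) Q.t| ≤ w

/-- Lemma 9.1 in the form BD5 (`L9xBD`, TrdAbs) on `n` pairs, with an envelope which dominates `K_S - K = b f + d` -/
def xW5 (A K : ℝ) (n : ℕ) : Prop :=
  ∃ env : ℕ → ℝ, (∀ s ≤ Q.N, 0 ≤ env s) ∧ L9xBD (Q.X false) (Q.X true) Q.xSm env n (A * (Q.E3 Mj K / Q.lam)) ∧
    ∀ s ≤ Q.N, |l9xKS (Q.I.P Q.p) Q.xSm s - llCumK (Q.I.P Q.p) s| ≤ A * env s

/-- the true Taylor remainder of degree `k` at the reference `K_S` (T3 + T4), both ensembles; `c = C_0 δ'` -/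
def xT34 (A c : ℝ) (k : ℕ) : Prop :=
  ∀ (en : Bool) (W : ℕ → ℝ) (w : ℝ), (∀ j, 0 ≤ W j) → (∀ j ≤ Q.N, W j ≤ w) →
    (Q.xXS en).errW W k ≤ A * w * (Q.x ^ (6 : ℝ) + Q.x ^ (-c) * Q.z0 1 * Q.Y Mj ^ 2 * Q.Z Mj ^ 2)

end L9Q

/-- **IMPORT (156, `L09/FamInst`)**: `l9x_core` + `l9e_e1x` at an instance `I : L9I`, family `pf`; `m + 1` = the direct Taylor degree -/
def L9xInst (m : ℕ) (M0 : ℝ) : Prop :=
  ∃ C : ℝ, 0 ≤ C ∧ ∀ (I : L9I) (pf : ℝ → LlPt) (t : ℝ) (Sm env : ℕ → ℝ) (Bd w M : ℝ),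
    1 ≤ I.m → (∀ t', (pf t').a = (pf t).a) → 1 ≤ (pf t).a → (pf t).a ≤ 4 →
    (∀ᶠ t' in nhds t, LlStpAdm (pf t').a (I.P (pf t')) ∧ LlTiltOk (I.P (pf t')) (some (I.js (pf t')))) →
    I.Dif pf t → LlBd M0 (I.P (pf t)) → L9xCen (I.P (pf t)) Sm →
    L9xBD (I.X false (pf t)) (I.X true (pf t)) Sm env (m + 2) Bd → M0 ≤ M →
    (∀ s ≤ (I.P (pf t)).length, |deriv (fun t' => (I.X0 (pf t')).hC s) t| ≤ w ∧ |deriv (fun t' => (I.X0 (pf t')).bC s) t| ≤ w ∧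
      |deriv (fun t' => (I.X0 (pf t')).KC s) t| ≤ w) →
    (∀ s ≤ (I.P (pf t)).length, |l9xKS (I.P (pf t)) Sm s - llCumK (I.P (pf t)) s| ≤ M * env s) →
    ∃ W : ℕ → ℝ, (∀ j, 0 ≤ W j) ∧ (∀ j ≤ (I.P (pf t)).length, W j ≤ C * w) ∧
      |deriv (fun t' => I.psi (pf t') I.m) t - I.DOE1 pf 0 0 (m + 1) t|
        ≤ C * ((llJs I.m (pf t).a (l9xPS (I.P (pf t)) Sm) (some (I.js (pf t)))).errW W (m + 1)
            + (llJs I.m (pf t).a (l9xPS (I.P (pf t)) Sm) none).errW W (m + 1) + w / I.m + w * M ^ (m + 1) * Bd)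

end

theorem l9x_trd_eqns_cite : True := by
  have := @L9Q.xSm.eq_1
  have := @L9Q.xXS.eq_1
  have := @L9Q.xDot.eq_1
  have := @L9Q.xW5.eq_1
  have := @L9Q.xT34.eq_1
  have := @L9xInst.eq_1
  trivial

/-! ### 2. power count -/

/-- the power count of (E3) on the strength sweep (09 l.296-306): `λ Y⁵ (x / Y + g_B) + x⁶ ≤ 3 x^(5 + p g) Z⁴`, `g = (1 - η)/2 - s_*` -/
theorem l9x_num_e3 {x lam U Z eta s p : ℝ} (hx : 0 < x) (hx1 : x ≤ 1) (hl : 0 < lam) (hlp : lam ≤ x ^ p) (hp : 0 ≤ p)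
    (hU0 : 0 < U) (hU : U ≤ x * lam ^ (-(s / 2))) (hZ : 1 ≤ Z) (hg : 0 ≤ (1 - eta) / 2 - s) (hs : s ≤ 1 / 2 + eta / 2)
    (hpg : p * ((1 - eta) / 2 - s) ≤ 1) :
    lam * (U * Z) ^ 5 * (x / (U * Z) + lam ^ ((3 * s - 1 - eta) / 2) / Z ^ (3 / 2 : ℝ)) + x ^ (6 : ℝ)
      ≤ 3 * x ^ (5 + p * ((1 - eta) / 2 - s)) * Z ^ 4 := by
  set g : ℝ := (1 - eta) / 2 - s with hgd
  have hZ0 : 0 < Z := by linarith
  have hl1 : lam ≤ 1 := hlp.trans (Real.rpow_le_one hx.le hx1 hp)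
  have hLg : lam ^ g ≤ x ^ (p * g) := by
    rw [Real.rpow_mul hx.le]
    exact Real.rpow_le_rpow hl.le hlp hg
  have hV0 : 0 < lam ^ (-(s / 2)) := Real.rpow_pos_of_pos hl _
  have e5 : x ^ (5 + p * g) = x ^ 5 * x ^ (p * g) := by
    rw [Real.rpow_add hx, show (5 : ℝ) = ((5 : ℕ) : ℝ) by norm_num, Real.rpow_natCast]
  have hxg0 : 0 < x ^ (p * g) := Real.rpow_pos_of_pos hx _
  have hZ4 : 1 ≤ Z ^ 4 := one_le_pow₀ hZ
  -- first term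
  have a1 : lam * (U * Z) ^ 5 * (x / (U * Z)) = lam * U ^ 4 * x * Z ^ 4 := by
    field_simp
  have a2 : lam * (lam ^ (-(s / 2))) ^ 4 = lam ^ (1 - 2 * s) := by
    rw [← Real.rpow_natCast (lam ^ (-(s / 2))) 4, ← Real.rpow_mul hl.le]
    nth_rewrite 1 [← Real.rpow_one lam]
    rw [← Real.rpow_add hl]
    congr 1
    push_cast
    ring
  have a3 : lam ^ (1 - 2 * s) ≤ lam ^ g := Real.rpow_le_rpow_of_exponent_ge hl hl1 (by rw [hgd]; linarith)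
  have a4 : lam * U ^ 4 ≤ x ^ 4 * x ^ (p * g) := by
    calc lam * U ^ 4 ≤ lam * (x * lam ^ (-(s / 2))) ^ 4 := mul_le_mul_of_nonneg_left (pow_le_pow_left₀ hU0.le hU 4) hl.le
      _ = x ^ 4 * (lam * (lam ^ (-(s / 2))) ^ 4) := by ring
      _ ≤ x ^ 4 * x ^ (p * g) := by
        rw [a2]
        exact mul_le_mul_of_nonneg_left (a3.trans hLg) (by positivity)
  have A : lam * (U * Z) ^ 5 * (x / (U * Z)) ≤ x ^ (5 + p * g) * Z ^ 4 := by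
    rw [a1, e5]
    calc lam * U ^ 4 * x * Z ^ 4 ≤ x ^ 4 * x ^ (p * g) * x * Z ^ 4 := by gcongr
      _ = x ^ 5 * x ^ (p * g) * Z ^ 4 := by ring
  -- second term
  have b1 : lam * (lam ^ (-(s / 2))) ^ 5 * lam ^ ((3 * s - 1 - eta) / 2) = lam ^ g := by
    rw [← Real.rpow_natCast (lam ^ (-(s / 2))) 5, ← Real.rpow_mul hl.le]
    nth_rewrite 1 [← Real.rpow_one lam]
    rw [← Real.rpow_add hl, ← Real.rpow_add hl]
    congr 1
    rw [hgd]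
    push_cast
    ring
  have hZr : Z ≤ Z ^ (3 / 2 : ℝ) := by
    nth_rewrite 1 [← Real.rpow_one Z]
    exact Real.rpow_le_rpow_of_exponent_le hZ (by norm_num)
  have hZr0 : 0 < Z ^ (3 / 2 : ℝ) := Real.rpow_pos_of_pos hZ0 _
  have b2 : Z ^ 5 / Z ^ (3 / 2 : ℝ) ≤ Z ^ 4 := by
    rw [div_le_iff₀ hZr0]
    calc Z ^ 5 = Z ^ 4 * Z := by ring
      _ ≤ Z ^ 4 * Z ^ (3 / 2 : ℝ) := mul_le_mul_of_nonneg_left hZr (by positivity)
  have hW0 : 0 < lam ^ ((3 * s - 1 - eta) / 2) := Real.rpow_pos_of_pos hl _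
  have B : lam * (U * Z) ^ 5 * (lam ^ ((3 * s - 1 - eta) / 2) / Z ^ (3 / 2 : ℝ)) ≤ x ^ (5 + p * g) * Z ^ 4 := by
    have e : lam * (U * Z) ^ 5 * (lam ^ ((3 * s - 1 - eta) / 2) / Z ^ (3 / 2 : ℝ))
        = (lam * U ^ 5 * lam ^ ((3 * s - 1 - eta) / 2)) * (Z ^ 5 / Z ^ (3 / 2 : ℝ)) := by
      rw [mul_pow]; ring
    have h1 : lam * U ^ 5 * lam ^ ((3 * s - 1 - eta) / 2) ≤ x ^ 5 * x ^ (p * g) := by
      calc lam * U ^ 5 * lam ^ ((3 * s - 1 - eta) / 2)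
          ≤ lam * (x * lam ^ (-(s / 2))) ^ 5 * lam ^ ((3 * s - 1 - eta) / 2) := by
            gcongr
        _ = x ^ 5 * (lam * (lam ^ (-(s / 2))) ^ 5 * lam ^ ((3 * s - 1 - eta) / 2)) := by ring
        _ ≤ x ^ 5 * x ^ (p * g) := by
            rw [b1]
            exact mul_le_mul_of_nonneg_left hLg (by positivity)
    rw [e, e5]
    exact mul_le_mul h1 b2 (by positivity) (by positivity)
  -- third term
  have Cc : x ^ (6 : ℝ) ≤ x ^ (5 + p * g) * Z ^ 4 := by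
    calc x ^ (6 : ℝ) ≤ x ^ (5 + p * g) := Real.rpow_le_rpow_of_exponent_ge hx hx1 (by linarith)
      _ ≤ x ^ (5 + p * g) * Z ^ 4 := le_mul_of_one_le_right (Real.rpow_pos_of_pos hx _).le hZ4
  rw [mul_add]
  linarith

/-- the final arithmetic of TRD: three error terms, losses `a = x^(-δ)` -/
theorem l9x_fin_arith {a X Ci CT Cd Cw M0 D E1 E2 w im lam R E3 x6 : ℝ} {J : ℕ}
    (ha : 1 ≤ a) (hX : 0 ≤ X) (hCi : 0 ≤ Ci) (hCT : 0 ≤ CT) (hCd : 0 ≤ Cd) (hCw : 0 ≤ Cw) (hM0 : 0 ≤ M0)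
    (hl : 0 < lam) (hl1 : lam ≤ 1) (hR0 : 0 ≤ R) (hE30 : 0 ≤ E3)
    (hD : D ≤ Ci * (E1 + E2 + w * im + w * (M0 + Cw * a) ^ J * (Cw * a * (E3 / lam))))
    (hw : w = Cd * a * lam)
    (h1 : E1 ≤ CT * a * (Ci * w) * R) (h2 : E2 ≤ CT * a * (Ci * w) * R)
    (him : im ≤ 2 * x6) (hR : lam * R ≤ 2 * X) (hE3 : E3 ≤ 3 * X) (hx6X : x6 ≤ X) :
    D ≤ Ci * (4 * CT * Ci * Cd + 2 * Cd + 3 * Cd * (M0 + Cw) ^ J * Cw) * a ^ (J + 2) * X := by
  have ha0 : 0 ≤ a := by linarith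
  have hp1 : a ≤ a ^ (J + 2) := le_self_pow₀ ha (by omega)
  have hp2 : a ^ 2 ≤ a ^ (J + 2) := pow_le_pow_right₀ ha (by omega)
  have hpJ : 0 ≤ a ^ (J + 2) := by positivity
  have t1 : CT * a * (Ci * w) * R ≤ 2 * CT * Ci * Cd * (a ^ (J + 2) * X) := by
    have e : CT * a * (Ci * w) * R = CT * Ci * Cd * (a ^ 2 * (lam * R)) := by rw [hw]; ring
    rw [e]
    have : a ^ 2 * (lam * R) ≤ a ^ (J + 2) * (2 * X) := mul_le_mul hp2 hR (by positivity) hpJ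
    calc CT * Ci * Cd * (a ^ 2 * (lam * R)) ≤ CT * Ci * Cd * (a ^ (J + 2) * (2 * X)) :=
          mul_le_mul_of_nonneg_left this (by positivity)
      _ = _ := by ring
  have t2 : w * im ≤ 2 * Cd * (a ^ (J + 2) * X) := by
    have hw0 : 0 ≤ w := by rw [hw]; positivity
    calc w * im ≤ w * (2 * X) := mul_le_mul_of_nonneg_left (him.trans (by linarith)) hw0
      _ = Cd * (a * lam) * (2 * X) := by rw [hw]; ring
      _ ≤ Cd * (a ^ (J + 2) * 1) * (2 * X) := by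
          refine mul_le_mul_of_nonneg_right (mul_le_mul_of_nonneg_left ?_ hCd) (by positivity)
          exact mul_le_mul hp1 hl1 hl.le hpJ
      _ = _ := by ring
  have t3 : w * (M0 + Cw * a) ^ J * (Cw * a * (E3 / lam)) ≤ 3 * Cd * (M0 + Cw) ^ J * Cw * (a ^ (J + 2) * X) := by
    have e : w * (M0 + Cw * a) ^ J * (Cw * a * (E3 / lam)) = Cd * Cw * (a ^ 2 * (M0 + Cw * a) ^ J * E3) := by
      rw [hw]; field_simp
    have h3 : (M0 + Cw * a) ^ J ≤ ((M0 + Cw) * a) ^ J := by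
      refine pow_le_pow_left₀ (by positivity) ?_ J
      nlinarith [mul_nonneg hM0 (sub_nonneg.2 ha)]
    rw [e]
    calc Cd * Cw * (a ^ 2 * (M0 + Cw * a) ^ J * E3) ≤ Cd * Cw * (a ^ 2 * ((M0 + Cw) * a) ^ J * (3 * X)) := by
          refine mul_le_mul_of_nonneg_left ?_ (by positivity)
          exact mul_le_mul (mul_le_mul_of_nonneg_left h3 (by positivity)) hE3 hE30 (by positivity)
      _ = _ := by rw [mul_pow]; ring
  calc D ≤ Ci * (E1 + E2 + w * im + w * (M0 + Cw * a) ^ J * (Cw * a * (E3 / lam))) := hD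
    _ ≤ Ci * (2 * CT * Ci * Cd * (a ^ (J + 2) * X) + 2 * CT * Ci * Cd * (a ^ (J + 2) * X) + 2 * Cd * (a ^ (J + 2) * X)
          + 3 * Cd * (M0 + Cw) ^ J * Cw * (a ^ (J + 2) * X)) := by
        refine mul_le_mul_of_nonneg_left ?_ hCi
        linarith [h1.trans t1, h2.trans t1]
    _ = _ := by ring

/-- 09 l.277-285 with `U ≤ x λ^(-s/2)`: `λ (x⁶ + x^(-c) z₁⁰ Y² Z²) ≤ 2 x^(5 + p g - c) Z⁴` -/
theorem l9x_num_R {x lam U Z eta s p c : ℝ} (hx : 0 < x) (hx1 : x ≤ 1) (hl : 0 < lam) (hlp : lam ≤ x ^ p) (hp : 0 ≤ p)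
    (hU0 : 0 < U) (hU : U ≤ x * lam ^ (-(s / 2))) (hZ : 1 ≤ Z) (hg : 0 ≤ (1 - eta) / 2 - s) (hc1 : p * ((1 - eta) / 2 - s) - c ≤ 1) :
    lam * (x ^ (6 : ℝ) + x ^ (-c) * (x ^ 3 / (Real.sqrt (lam ^ (1 + eta)) * 1 ^ 3)) * (U * Z) ^ 2 * Z ^ 2)
      ≤ 2 * (x ^ (5 + (p * ((1 - eta) / 2 - s) - c)) * Z ^ 4) := by
  have hZ0 : 0 < Z := by linarith
  have hl1 : lam ≤ 1 := hlp.trans (Real.rpow_le_one hx.le hx1 hp)
  have hZ4 : 1 ≤ Z ^ 4 := one_le_pow₀ hZ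
  have hX0 : 0 < x ^ (5 + (p * ((1 - eta) / 2 - s) - c)) := Real.rpow_pos_of_pos hx _
  have h6 : 0 < x ^ (6 : ℝ) := Real.rpow_pos_of_pos hx _
  have a1 : lam * x ^ (6 : ℝ) ≤ x ^ (5 + (p * ((1 - eta) / 2 - s) - c)) * Z ^ 4 := by
    calc lam * x ^ (6 : ℝ) ≤ 1 * x ^ (6 : ℝ) := mul_le_mul_of_nonneg_right hl1 h6.le
      _ = x ^ (6 : ℝ) := one_mul _
      _ ≤ x ^ (5 + (p * ((1 - eta) / 2 - s) - c)) := Real.rpow_le_rpow_of_exponent_ge hx hx1 (by linarith)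
      _ ≤ _ := le_mul_of_one_le_right hX0.le hZ4
  have a2 := l9t_num_d8_le (x := x) (lam := lam) (Z := Z) (eta := eta) (s := s) (c := c) (p := p) hx hl hlp hg
  have hs0 : 0 < Real.sqrt (lam ^ (1 + eta)) := Real.sqrt_pos.2 (Real.rpow_pos_of_pos hl _)
  have a3 : lam * (x ^ (-c) * (x ^ 3 / (Real.sqrt (lam ^ (1 + eta)) * 1 ^ 3)) * (U * Z) ^ 2 * Z ^ 2)
      ≤ lam * (x ^ (-c) * (x ^ 3 / Real.sqrt (lam ^ (1 + eta))) * (x * lam ^ (-(s / 2)) * Z) ^ 2 * Z ^ 2) := by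
    rw [one_pow, mul_one]
    have hc0 : 0 < x ^ (-c) := Real.rpow_pos_of_pos hx _
    have : (U * Z) ^ 2 ≤ (x * lam ^ (-(s / 2)) * Z) ^ 2 :=
      pow_le_pow_left₀ (by positivity) (mul_le_mul_of_nonneg_right hU hZ0.le) 2
    gcongr
  rw [mul_add]
  linarith [a3.trans a2]

/-! ### 3. the node from the four supplies -/

theorem l9x_cen (Q : L9Q) (hm : 1 ≤ Q.I.m) (ha : 0 < Q.p.a) (hadm : LlStpAdm Q.p.a (Q.I.P Q.p)) : L9xCen (Q.I.P Q.p) Q.xSm where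
  nn := fun _ => (fd_S_range hm ha _ hadm.1 0 _).1
  le := fun _ => (fd_S_range hm ha _ hadm.1 0 _).2
  mono := fun s => fd_S_mono hm ha _ hadm.1 0 (min_le_min_right _ (Nat.le_succ s))
  top := fun s hs => by
    unfold L9Q.xSm
    have hs' : Q.N ≤ s := hs
    rw [min_eq_right hs']
    congr 1
    exact (min_eq_right (le_refl Q.N)).symm

theorem l9x_ptL_a (N : ℕ) (ell : ℝ) (γ : Fin (N + 1) → ℝ) (t : ℝ) : (l9PtL N ell γ t).a = ell := by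
  simp [l9PtL, ll04Pt, LlPt.a]

theorem l9x_ell_le : (2 : ℝ) ^ (1 / 6 : ℝ) ≤ 4 := by
  calc (2 : ℝ) ^ (1 / 6 : ℝ) ≤ (2 : ℝ) ^ (1 : ℝ) := Real.rpow_le_rpow_of_exponent_le (by norm_num) (by norm_num)
    _ ≤ 4 := by norm_num

/-- the strength in the range (P1) -/
theorem l9x_lam_le {F : LlFix} {N : ℕ} (hN : 0 < N) {t : ℝ} (ht : t ∈ l9LamRg F N) : Real.exp t ≤ skX N ^ F.pS := by
  have h2 : t ≤ F.pS * Real.log (skX N) := by
    have := ht.2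
    linarith
  rw [Real.rpow_def_of_pos (l9t_skX_pos hN), mul_comm]
  exact Real.exp_le_exp.2 h2

/-- the conclusion of `L9xInst` for a fixed constant -/
def L9xInstC (m : ℕ) (M0 C : ℝ) : Prop :=
  ∀ (I : L9I) (pf : ℝ → LlPt) (t : ℝ) (Sm env : ℕ → ℝ) (Bd w M : ℝ),
    1 ≤ I.m → (∀ t', (pf t').a = (pf t).a) → 1 ≤ (pf t).a → (pf t).a ≤ 4 →
    (∀ᶠ t' in nhds t, LlStpAdm (pf t').a (I.P (pf t')) ∧ LlTiltOk (I.P (pf t')) (some (I.js (pf t')))) →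
    I.Dif pf t → LlBd M0 (I.P (pf t)) → L9xCen (I.P (pf t)) Sm →
    L9xBD (I.X false (pf t)) (I.X true (pf t)) Sm env (m + 2) Bd → M0 ≤ M →
    (∀ s ≤ (I.P (pf t)).length, |deriv (fun t' => (I.X0 (pf t')).hC s) t| ≤ w ∧ |deriv (fun t' => (I.X0 (pf t')).bC s) t| ≤ w ∧
      |deriv (fun t' => (I.X0 (pf t')).KC s) t| ≤ w) →
    (∀ s ≤ (I.P (pf t)).length, |l9xKS (I.P (pf t)) Sm s - llCumK (I.P (pf t)) s| ≤ M * env s) →
    ∃ W : ℕ → ℝ, (∀ j, 0 ≤ W j) ∧ (∀ j ≤ (I.P (pf t)).length, W j ≤ C * w) ∧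
      |deriv (fun t' => I.psi (pf t') I.m) t - I.DOE1 pf 0 0 (m + 1) t|
        ≤ C * ((llJs I.m (pf t).a (l9xPS (I.P (pf t)) Sm) (some (I.js (pf t)))).errW W (m + 1)
            + (llJs I.m (pf t).a (l9xPS (I.P (pf t)) Sm) none).errW W (m + 1) + w / I.m + w * M ^ (m + 1) * Bd)

/-- **TRD at one point** from the four supplies at that point, losses `a = x^(-δ)` -/
theorem l9x_pt {J : ℕ} {M0 Ci : ℝ} (hM0 : 0 ≤ M0) (hCi : 0 ≤ Ci) (hI : L9xInstC J M0 Ci) (Q : L9Q) (Mj : L9Mj) {c δ CT Cd Cw : ℝ}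
    (hsm : Q.p.sm = false) (hN0 : 0 < Q.p.N) (hm1 : Q.p.N ≤ 2 * Q.I.m) (hpa : ∀ t', (Q.pf t').a = Q.p.a) (ha1 : 1 ≤ Q.p.a) (ha4 : Q.p.a ≤ 4)
    (hl : 0 < Q.lam) (hlp : Q.lam ≤ Q.x ^ Q.I.F.pS) (hZ1 : 1 ≤ Q.Z Mj) (hp0 : 0 < Q.I.F.pS) (hc : 0 ≤ c) (hδ : 0 ≤ δ)
    (hg0 : 0 ≤ (1 - Q.I.F.eta) / 2 - Q.I.F.sS) (hs : Q.I.F.sS ≤ 1 / 2 + Q.I.F.eta / 2) (hg1 : Q.I.F.pS * ((1 - Q.I.F.eta) / 2 - Q.I.F.sS) ≤ 1)
    (hDif : Q.I.Dif Q.pf Q.t) (k1 : Q.xOk M0) (k2 : Q.xDot (Cd * Q.x ^ (-δ) * Q.lam)) (k3 : Q.xW5 Mj (Cw * Q.x ^ (-δ)) 6 (J + 2))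
    (k4 : Q.xT34 Mj (CT * Q.x ^ (-δ)) c (J + 1)) :
    |deriv (fun t' => Q.I.psi (Q.pf t') Q.I.m) Q.t - Q.I.DOE1 Q.pf 0 0 (J + 1) Q.t|
      ≤ Ci * (4 * |CT| * Ci * |Cd| + 2 * |Cd| + 3 * |Cd| * (M0 + |Cw|) ^ (J + 1) * |Cw|) * (Q.x ^ (-δ)) ^ (J + 1 + 2)
          * (Q.x ^ (5 + (Q.I.F.pS * ((1 - Q.I.F.eta) / 2 - Q.I.F.sS) - c)) * Q.Z Mj ^ 4) := by
  obtain ⟨env, henv, hBD, hphi⟩ := k3
  have hxe : Q.x = skX Q.p.N := rfl
  have hx : 0 < Q.x := l9t_skX_pos hN0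
  have hx1 : Q.x ≤ 1 := l9t_skX_le_one hN0
  have hm0 : 1 ≤ Q.I.m := by omega
  have hadm : LlStpAdm Q.p.a (Q.I.P Q.p) := k1.ev.self_of_nhds.1
  have hCen : L9xCen (Q.I.P Q.p) Q.xSm := l9x_cen Q hm0 (lt_of_lt_of_le one_pos ha1) hadm
  obtain ⟨a, had⟩ : ∃ a : ℝ, a = Q.x ^ (-δ) := ⟨_, rfl⟩
  rw [← had] at k2 k4 hBD hphi ⊢
  have ha : 1 ≤ a := by rw [had]; exact Real.one_le_rpow_of_pos_of_le_one_of_nonpos hx hx1 (by linarith)
  have ha0 : 0 < a := by linarith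
  have hl1 : Q.lam ≤ 1 := hlp.trans (Real.rpow_le_one hx.le hx1 hp0.le)
  obtain ⟨w, hw⟩ : ∃ w : ℝ, w = |Cd| * a * Q.lam := ⟨_, rfl⟩
  have hAle : ∀ C : ℝ, C * a ≤ |C| * a := fun C => mul_le_mul_of_nonneg_right (le_abs_self C) ha0.le
  have hdot : Q.xDot w := fun s hs => by
    have h := k2 s hs
    have e : Cd * a * Q.lam ≤ w := by rw [hw]; exact mul_le_mul_of_nonneg_right (hAle Cd) hl.le
    exact ⟨h.1.trans e, h.2.1.trans e, h.2.2.trans e⟩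
  have hZc : Q.Zc Mj = Q.Z Mj := by unfold L9Q.Zc; rw [hsm]; rfl
  have hV0 : 0 < Q.x * Q.lam ^ (-(Q.I.F.sS / 2)) := mul_pos hx (Real.rpow_pos_of_pos hl _)
  have hU0 : 0 < Q.U := lt_min one_pos hV0
  have hU : Q.U ≤ Q.x * Q.lam ^ (-(Q.I.F.sS / 2)) := min_le_right _ _
  have hYe : Q.Y Mj = Q.U * Q.Z Mj := by unfold L9Q.Y; rw [hZc]
  have hE3e : Q.E3 Mj 6 = Q.lam * (Q.U * Q.Z Mj) ^ 5 * (Q.x / (Q.U * Q.Z Mj)
      + Q.lam ^ ((3 * Q.I.F.sS - 1 - Q.I.F.eta) / 2) / Q.Z Mj ^ (3 / 2 : ℝ)) + Q.x ^ (6 : ℝ) := by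
    unfold L9Q.E3 L9Q.gB
    rw [hYe, hZc]
  have hZ0 : 0 < Q.Z Mj := by linarith
  have hE3p : 0 ≤ Q.E3 Mj 6 := by
    rw [hE3e]
    have h1 : 0 < Q.lam ^ ((3 * Q.I.F.sS - 1 - Q.I.F.eta) / 2) := Real.rpow_pos_of_pos hl _
    have h2 : 0 < Q.Z Mj ^ (3 / 2 : ℝ) := Real.rpow_pos_of_pos hZ0 _
    have h3 : 0 < Q.x ^ (6 : ℝ) := Real.rpow_pos_of_pos hx _
    positivity
  have hE30 : 0 ≤ Q.E3 Mj 6 / Q.lam := div_nonneg hE3p hl.le
  have hBD' : L9xBD (Q.X false) (Q.X true) Q.xSm env (J + 2) (|Cw| * a * (Q.E3 Mj 6 / Q.lam)) := by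
    intro A B G Λ hA hB hAB h5 hΛ hG
    refine (hBD A B G Λ hA hB hAB h5 hΛ hG).trans (mul_le_mul_of_nonneg_left ?_ hΛ)
    exact mul_le_mul_of_nonneg_right (hAle Cw) hE30
  have hphi' : ∀ s ≤ Q.N, |l9xKS (Q.I.P Q.p) Q.xSm s - llCumK (Q.I.P Q.p) s| ≤ (M0 + |Cw| * a) * env s := fun s hs => by
    refine (hphi s hs).trans (mul_le_mul_of_nonneg_right ?_ (henv s hs))
    linarith [hAle Cw]
  have hMM : M0 ≤ M0 + |Cw| * a := le_add_of_nonneg_right (mul_nonneg (abs_nonneg _) ha0.le)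
  obtain ⟨W, hW0, hWle, key⟩ := hI Q.I Q.pf Q.t Q.xSm env (|Cw| * a * (Q.E3 Mj 6 / Q.lam)) w (M0 + |Cw| * a) hm0
    hpa ha1 ha4 k1.ev hDif k1.bd hCen hBD' hMM hdot hphi'
  have hw0 : 0 ≤ w := by rw [hw]; positivity
  obtain ⟨R, hR⟩ : ∃ R : ℝ, R = Q.x ^ (6 : ℝ) + Q.x ^ (-c) * Q.z0 1 * Q.Y Mj ^ 2 * Q.Z Mj ^ 2 := ⟨_, rfl⟩
  have hR0 : 0 ≤ R := by
    have h1 : 0 < Q.x ^ (6 : ℝ) := Real.rpow_pos_of_pos hx _
    have h2 : 0 < Q.x ^ (-c) := Real.rpow_pos_of_pos hx _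
    have h3 : 0 ≤ Q.z0 1 := div_nonneg (pow_nonneg hx.le _) (mul_nonneg (Real.sqrt_nonneg _) (by norm_num))
    rw [hR]; positivity
  have hTle : ∀ en : Bool, (Q.xXS en).errW W (J + 1) ≤ |CT| * a * (Ci * w) * R := fun en => by
    refine (k4 en W (Ci * w) hW0 hWle).trans ?_
    rw [← hR]
    exact mul_le_mul_of_nonneg_right (mul_le_mul_of_nonneg_right (hAle CT) (by positivity)) hR0
  obtain ⟨X, hX⟩ : ∃ X : ℝ, X = Q.x ^ (5 + (Q.I.F.pS * ((1 - Q.I.F.eta) / 2 - Q.I.F.sS) - c)) * Q.Z Mj ^ 4 := ⟨_, rfl⟩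
  rw [← hX]
  have hX0 : 0 ≤ X := by
    have : 0 < Q.x ^ (5 + (Q.I.F.pS * ((1 - Q.I.F.eta) / 2 - Q.I.F.sS) - c)) := Real.rpow_pos_of_pos hx _
    rw [hX]; positivity
  have hRX : Q.lam * R ≤ 2 * X := by
    have := l9x_num_R (x := Q.x) (lam := Q.lam) (U := Q.U) (Z := Q.Z Mj) (eta := Q.I.F.eta) (s := Q.I.F.sS) (p := Q.I.F.pS) (c := c)
      hx hx1 hl hlp hp0.le hU0 hU hZ1 hg0 (by linarith)
    rw [hR, hYe, hX]
    exact this
  have hE3X : Q.E3 Mj 6 ≤ 3 * X := by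
    have := l9x_num_e3 (x := Q.x) (lam := Q.lam) (U := Q.U) (Z := Q.Z Mj) (eta := Q.I.F.eta) (s := Q.I.F.sS) (p := Q.I.F.pS)
      hx hx1 hl hlp hp0.le hU0 hU hZ1 hg0 hs hg1
    rw [hE3e]
    refine this.trans ?_
    have h4 : 0 ≤ Q.Z Mj ^ 4 := by positivity
    have h5 : Q.x ^ (5 + Q.I.F.pS * ((1 - Q.I.F.eta) / 2 - Q.I.F.sS)) ≤ Q.x ^ (5 + (Q.I.F.pS * ((1 - Q.I.F.eta) / 2 - Q.I.F.sS) - c)) :=
      Real.rpow_le_rpow_of_exponent_ge hx hx1 (by linarith)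
    rw [hX, mul_assoc]
    exact mul_le_mul_of_nonneg_left (mul_le_mul_of_nonneg_right h5 h4) (by norm_num)
  have hx6X : Q.x ^ 6 ≤ X := by
    have e : Q.x ^ 6 = Q.x ^ (6 : ℝ) := by rw [show (6 : ℝ) = ((6 : ℕ) : ℝ) by norm_num, Real.rpow_natCast]
    rw [e, hX]
    calc Q.x ^ (6 : ℝ) ≤ Q.x ^ (5 + (Q.I.F.pS * ((1 - Q.I.F.eta) / 2 - Q.I.F.sS) - c)) :=
          Real.rpow_le_rpow_of_exponent_ge hx hx1 (by linarith)
      _ ≤ _ := le_mul_of_one_le_right (Real.rpow_pos_of_pos hx _).le (one_le_pow₀ hZ1)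
  exact l9x_fin_arith (a := a) (X := X) (Ci := Ci) (CT := |CT|) (Cd := |Cd|) (Cw := |Cw|) (M0 := M0) (w := w) (im := (Q.I.m : ℝ)⁻¹)
    (lam := Q.lam) (R := R) (E3 := Q.E3 Mj 6) (x6 := Q.x ^ 6) (J := J + 1) ha hX0 hCi (abs_nonneg _) (abs_nonneg _) (abs_nonneg _) hM0
    hl hl1 hR0 hE3p (by rw [← div_eq_mul_inv]; exact key) hw (hTle true) (hTle false) (l9t_num_contact hN0 hm1) hRX hE3X hx6X

/-- **NODE TRD from the four supplies** (09 l.252-330).      `J + 1` = the direct Taylor degree, `c = C_0 δ'`. -/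
theorem l9x_trd (𝔹 : LlBase) (Mj : L9Mj) (κ : ℝ) (F : LlFix) (J : ℕ) (M0 c : ℝ) (hM0 : 0 ≤ M0)
    (hZ : ∀ Fs p m, 1 ≤ Mj.Z F 𝔹 Fs p m) (hp0 : 0 < F.pS) (hc : 0 ≤ c) (hg : c < F.pS * ((1 - F.eta) / 2 - F.sS))
    (hs : F.sS ≤ 1 / 2 + F.eta / 2) (hg1 : F.pS * ((1 - F.eta) / 2 - F.sS) ≤ 1)
    (hInst : L9xInst J M0)
    (hOk : L9SbD 𝔹 Mj κ F fun _ Q => Q.xOk M0)
    (hDot : L9SbD 𝔹 Mj κ F fun A Q => Q.xDot (A * Q.lam))
    (hW5 : L9SbD 𝔹 Mj κ F fun A Q => Q.xW5 Mj A 6 (J + 2))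
    (hT : L9SbD 𝔹 Mj κ F fun A Q => Q.xT34 Mj A c (J + 1)) :
    L9TRD 𝔹 Mj κ (J + 1) F := by
  obtain ⟨Ci, hCi, hI⟩ := hInst
  have hg0 : 0 ≤ (1 - F.eta) / 2 - F.sS := by
    by_contra h
    have : F.pS * ((1 - F.eta) / 2 - F.sS) < 0 := mul_neg_of_pos_of_neg hp0 (not_le.1 h)
    linarith
  obtain ⟨c0, hc0d⟩ : ∃ c0 : ℝ, c0 = (F.pS * ((1 - F.eta) / 2 - F.sS) - c) / 2 := ⟨_, rfl⟩
  have hc0 : 0 < c0 := by rw [hc0d]; linarith
  obtain ⟨δ, hδd⟩ : ∃ δ : ℝ, δ = c0 / ((J : ℝ) + 3) := ⟨_, rfl⟩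
  have hδ : 0 < δ := by rw [hδd]; positivity
  refine ⟨c0, hc0, 1, one_pos, fun ε hε _ q hq => ?_⟩
  obtain ⟨C1, N1, h1⟩ := hOk δ hδ ε hε q hq
  obtain ⟨Cd, N2, h2⟩ := hDot δ hδ ε hε q hq
  obtain ⟨Cw, N3, h3⟩ := hW5 δ hδ ε hε q hq
  obtain ⟨CT, N4, h4⟩ := hT δ hδ ε hε q hq
  refine ⟨Ci * (4 * |CT| * Ci * |Cd| + 2 * |Cd| + 3 * |Cd| * (M0 + |Cw|) ^ (J + 1) * |Cw|), N1 + N2 + N3 + N4 + 1, fun N hN => ?_⟩
  filter_upwards [h1 N (by omega), h2 N (by omega), h3 N (by omega), h4 N (by omega)] with Fs g1 g2 g3 g4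
  intro m hm1 hm2 ell hell γ t ht hDif hstop hY
  have hy : L9HyD F 𝔹 Mj κ N (q * skX N ^ (1 + ε)) (skX N ^ ε) Fs m ell γ t := ⟨hm1, hm2, hell, ht, hDif, hstop, hY⟩
  have hN0 : 0 < N := by omega
  have hx : 0 < skX N := l9t_skX_pos hN0
  have hpa : ∀ t', (l9PtL N ell γ t').a = ell := fun t' => l9x_ptL_a N ell γ t'
  have key := l9x_pt hM0 hCi hI (l9QD F 𝔹 (q * skX N ^ (1 + ε)) Fs m N ell γ t) Mj (c := c) (δ := δ) (CT := CT) (Cd := Cd) (Cw := Cw)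
    rfl hN0 hm1 (fun t' => (hpa t').trans (hpa t).symm) (by rw [show (l9QD F 𝔹 (q * skX N ^ (1 + ε)) Fs m N ell γ t).p.a = ell from hpa t]; exact hell.1)
    (by rw [show (l9QD F 𝔹 (q * skX N ^ (1 + ε)) Fs m N ell γ t).p.a = ell from hpa t]; exact hell.2.trans l9x_ell_le)
    (Real.exp_pos t) (l9x_lam_le hN0 ht) (hZ _ _ _) hp0 hc hδ.le hg0 hs hg1 hDif (g1 m ell γ t hy) (g2 m ell γ t hy) (g3 m ell γ t hy)
    (g4 m ell γ t hy)
  have key' : |deriv (fun t' => (⟨F, 𝔹, q * skX N ^ (1 + ε), Fs, m⟩ : L9I).psi (l9PtL N ell γ t') m) t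
      - (⟨F, 𝔹, q * skX N ^ (1 + ε), Fs, m⟩ : L9I).DOE1 (l9PtL N ell γ) 0 0 (J + 1) t|
      ≤ Ci * (4 * |CT| * Ci * |Cd| + 2 * |Cd| + 3 * |Cd| * (M0 + |Cw|) ^ (J + 1) * |Cw|) * (skX N ^ (-δ)) ^ (J + 1 + 2)
          * (skX N ^ (5 + (F.pS * ((1 - F.eta) / 2 - F.sS) - c)) * Mj.Z F 𝔹 Fs (l9PtL N ell γ t) m ^ 4) := key
  refine key'.trans (le_of_eq ?_)
  have ea : (skX N ^ (-δ)) ^ (J + 1 + 2) * skX N ^ (5 + (F.pS * ((1 - F.eta) / 2 - F.sS) - c)) = skX N ^ (5 + c0) := by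
    rw [← Real.rpow_natCast, ← Real.rpow_mul hx.le, ← Real.rpow_add hx]
    congr 1
    have hJ3 : ((J : ℝ) + 3) ≠ 0 := by positivity
    rw [hδd, hc0d]
    push_cast
    field_simp
    ring
  rw [← ea]
  ring

/-! ### 4. the node in the form `LLGood`

The four supplies in the form `LLGood` (thresholds on `par` are allowed) + the instance theorem.      `hG` = (G1) in the exit form (`exit_l9_g1` of `L09/Nodes`): the legal prefix of 224 for the suppliers which need it. -/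

/-- the shape of a supply of TRD at the parameters `par` -/
def L9xSup (F0 : LlFix) (par : LLPar) (Φ : ℝ → L9Q → Prop) : Prop :=
  L9SbD llBase (l8Mj par.cC) par.kappa (F0.wExp par.sStar par.eta par.pStar) Φ

/-- **SUPPLY OK** (LL03 + fine chains; same content as `L9SizOk` of TRS at the points of the strength sweep).      OWNER: open.
ROUTE: `L8Ev`-form at ALL points of the class `l8Dir` (`I.Fine`: `adm`, `js_lt`; `LlBd`: `b ≤ b_∘ + C λ`, `|h - K| ≤ b q + |d|`), then `l9LamRg` is a neighbourhood of `t` (Contract v5: open range). -/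
theorem exit_l9x_ok (T : ℝ) (hT : 1 < T) (hG : LlcG1Exit llBase T) (F0 : LlFix) (h0 : L8Fix llBase T F0) :
    LLGood fun par => ∃ M0 : ℝ, 0 ≤ M0 ∧ L9xSup F0 par fun _ Q => Q.xOk M0 := by
  refine LLGood.of_forall fun par => ?_
  have hE := l9q_expOk par
  have h3 := (h0.2.2 _ _ _ hE).sec3
  have hB : LlBaseProfile llBase (F0.wExp par.sStar par.eta par.pStar).T := by
    show LlBaseProfile llBase F0.T
    rw [h0.1]
    exact h0.2.1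
  obtain ⟨M0, N1, hM0, hc⟩ := l8cl_caller (F0.wExp par.sStar par.eta par.pStar) llBase hB h3
  obtain ⟨N2, hf⟩ := l8g_fine T hT F0 h0 par.toLLParB par.pStar par.pStar_pos (by have := hE.p_hi; linarith) (fun _ => 1) (fun _ _ => one_pos)
  refine ⟨M0, hM0, ?_⟩
  intro δ _ ε hε q hq
  obtain ⟨N4, hN4⟩ := l9ca_small ε q hε hq
  refine ⟨0, N1 + N2 + N4 + 2, fun N hN => ?_⟩
  filter_upwards [hf N (q * skX N ^ (1 + ε)) (by omega)] with Fs hFs m ell γ t hy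
  obtain ⟨hm1, hm2, hell, ht, -, -, -⟩ := hy
  obtain ⟨hs0, hs1⟩ := l9ca_s_mem (N := N) (by omega) hq (hN4 N (by omega))
  have hOk : ∀ t' ∈ l9LamRg (F0.wExp par.sStar par.eta par.pStar) N,
      (L8In.mk (F0.wExp par.sStar par.eta par.pStar) llBase (l9PtL N ell γ t') m (q * skX N ^ (1 + ε)) Fs).Ok := fun t' ht' =>
    ⟨l9ca_ptL_ok _ (by omega) hell γ ht', hm1, hm2, hs0, hs1⟩
  refine ⟨?_, (hc _ rfl rfl (hOk t ht) (show N1 ≤ N by omega)).2.2.2.2⟩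
  filter_upwards [isOpen_Ioo.mem_nhds (show t ∈ Set.Ioo _ _ from ht)] with t' ht'
  have hF := hFs ell (Real.exp t') 0 1 false γ m trivial (hOk t' ht')
  exact ⟨(hc _ rfl rfl (hOk t' ht') (show N1 ≤ N by omega)).2.2.2.1, l8cl_tilt _ (hOk t' ht') hF.js_lt hF.js_m⟩

/-- **SUPPLY DOT** (09 l.250-251: "On direct paths the differentiated weights carry the additional factor `O_∘(λ)`").      OWNER: 159 / 69 (`Q.Dots`, `L09/Dots.lean`). -/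
theorem exit_l9x_dot (T : ℝ) (hT : 1 < T) (hG : LlcG1Exit llBase T) (F0 : LlFix) (h0 : L8Fix llBase T F0) :
    LLGood fun par => L9xSup F0 par fun A Q => Q.xDot (A * Q.lam) := by
  refine LLGood.of_forall fun par => ?_
  have hp1 : par.pStar ≤ 1 := by
    have h1 := par.pStar_le_cP
    have h2 := par.cP_le
    have h3 := par.pStar_pos
    linarith
  have hE : LlExpOk par.sStar par.eta par.pStar := llc_expOk par.toLLParB par.pStar_pos hp1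
  have h3 : LlSec3 llBase (F0.wExp par.sStar par.eta par.pStar) := (h0.2.2 _ _ _ hE).sec3
  have hP : LlBaseProfile llBase (F0.wExp par.sStar par.eta par.pStar).T := by
    rw [show (F0.wExp par.sStar par.eta par.pStar).T = T from h0.1]
    exact h0.2.1
  have H := l9dd_exit llBase (l8Mj par.cC) par.kappa (F0.wExp par.sStar par.eta par.pStar) hE hP h3
  intro δ hδ ε hε q hq
  obtain ⟨C, N0, h⟩ := H δ hδ ε hε q hq
  refine ⟨2 * C, N0, fun N hN => ?_⟩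
  filter_upwards [h N hN] with Fs hFs m ell γ t hy
  have hD := hFs m ell γ t hy
  obtain ⟨Q, hQ⟩ : ∃ Q : L9Q, Q = l9QD (F0.wExp par.sStar par.eta par.pStar) llBase (q * skX N ^ (1 + ε)) Fs m N ell γ t := ⟨_, rfl⟩
  rw [← hQ] at hD ⊢
  have hell : ell ∈ Set.Icc (1 : ℝ) ((2 : ℝ) ^ (1 / 6 : ℝ)) := hy.2.2.1
  have hl2 : ell ≤ 2 := by
    refine hell.2.trans ?_
    calc (2 : ℝ) ^ (1 / 6 : ℝ) ≤ (2 : ℝ) ^ (1 : ℝ) := Real.rpow_le_rpow_of_exponent_le (by norm_num) (by norm_num)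
      _ = 2 := Real.rpow_one _
  have hpa : Q.p.a = ell := by rw [hQ]; exact l9t_L_a N ell γ t
  have hA : 0 ≤ C * skX N ^ (-δ) * Q.lam := (abs_nonneg _).trans (hD.bD 0)
  intro s _
  have hm : trPm Q.ms s ≤ 2 := by
    have h5 : trPm Q.ms s ≤ Q.p.a := l9t_mc_le Q.I Q.p (by rw [hpa]; linarith [hell.1]) s
    rw [hpa] at h5
    exact h5.trans hl2
  refine ⟨(hD.hD s).trans (by linarith), (hD.bD s).trans (by linarith), (hD.KD s).trans ?_⟩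
  calc C * skX N ^ (-δ) * Q.lam * trPm Q.ms s ≤ C * skX N ^ (-δ) * Q.lam * 2 := mul_le_mul_of_nonneg_left hm hA
    _ = 2 * C * skX N ^ (-δ) * Q.lam := by ring

/-- **SUPPLY W5** (09 l.286-306 = Lemma 9.1 + weight check).      OWNER: 299 (`l9w_xbd`, `L09/W5.lean`). -/
theorem exit_l9x_w5 (T : ℝ) (hT : 1 < T) (hG : LlcG1Exit llBase T) (F0 : LlFix) (h0 : L8Fix llBase T F0) :
    LLGood fun par => L9xSup F0 par fun A Q => Q.xW5 (l8Mj par.cC) A 6 (par.J0 + 1) :=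
  l9ti_w5 T hT F0 h0 ((exit_l9_ccwD T hT F0 h0 hG).mono fun par h C0 d0 v0 cE a b c d => h (par.J0 + 1) C0 d0 v0 cE a b c d)

/-- **SUPPLY T34** (09 l.252-285).      `l9y_t34` (TrdCore) + (D2), (D8), tilt transfer.      OWNER: 101 (sec. 5 below). -/
theorem exit_l9x_t34 (T : ℝ) (hT : 1 < T) (hG : LlcG1Exit llBase T) (F0 : LlFix) (h0 : L8Fix llBase T F0) :
    LLGood fun par => L9xSup F0 par fun A Q => Q.xT34 (l8Mj par.cC) A (par.C0 * par.dPr) par.J0 := by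
  refine l9x_t34_good (exit_ddir T hT) (l8g_fine T hT) h0 ((exit_l9x_ok T hT hG F0 h0).mono ?_)
  rintro par ⟨M0, -, h⟩
  refine ⟨M0, fun δ hδ ε hε q hq => ?_⟩
  obtain ⟨C, N0, hh⟩ := h δ hδ ε hε q hq
  exact ⟨C, N0, fun N hN => (hh N hN).mono fun Fs a m ell γ t hy => (a m ell γ t hy).bd⟩

/-- **INSTANCE** (`l9x_core` + `l9e_e1x` + `l9s_fam`).      OWNER: 156 (`l9w_trd_inst`, `L09/FamInst.lean`). -/
theorem l9x_inst (m : ℕ) (hm : 4 ≤ m) (M0 : ℝ) (hM0 : 0 ≤ M0) : L9xInst m M0 := by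
  exact l9u_trd_inst m hm M0 hM0

theorem l9x_Z_ge (c : ℝ) (F : LlFix) (𝔹 : LlBase) (Fs : Finset GhPos) (p : LlPt) (m : ℕ) : 1 ≤ (l8Mj c).Z F 𝔹 Fs p m := by
  show 1 ≤ 1 + _
  exact le_add_of_nonneg_right (tlk_rpow_quarter _)

/-- the direct Taylor degree is large -/
theorem l9x_J0_ge (par : LLPar) : 9 ≤ par.J0 := by
  have h1 := par.J0_ge
  have h2 := par.dPr_le
  have h3 := par.C0_ge
  have h4 := par.dPr_pos
  have h5 := par.kappa_le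
  have h6 := par.toLLParD.pStar_lt
  have h7 := par.toLLParB.eta_lt_tau
  have h8 := par.toLLParB.tau_lt
  have h9 := par.pStar_pos
  have h10 := par.eta_pos
  have hd : par.dPr ≤ 1 := by nlinarith
  have : (7 : ℝ) ≤ (par.J0 : ℝ) - 2 := by
    by_contra h
    push_neg at h
    rcases le_or_gt 0 ((par.J0 : ℝ) - 2) with h0 | h0
    · nlinarith
    · nlinarith
  have h' : (9 : ℝ) ≤ (par.J0 : ℝ) := by linarith
  exact_mod_cast h'

/-- **NODE TRD** in the form of `L09/Nodes.lean` (`l9qMj par = l8Mj par.cC`, `l9qF F0 par = F0.wExp ..` by `rfl`) -/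
theorem l9x_node (T : ℝ) (hT : 1 < T) (hG : LlcG1Exit llBase T) (F0 : LlFix) (h0 : L8Fix llBase T F0) :
    LLGood fun par => L9TRD llBase (l8Mj par.cC) par.kappa par.J0 (F0.wExp par.sStar par.eta par.pStar) := by
  refine ((((exit_l9x_ok T hT hG F0 h0).and (exit_l9x_dot T hT hG F0 h0)).and (exit_l9x_w5 T hT hG F0 h0)).and
    (exit_l9x_t34 T hT hG F0 h0)).mono ?_
  rintro par ⟨⟨⟨⟨M0, hM0, h1⟩, h2⟩, h3⟩, h4⟩
  obtain ⟨J, hJ⟩ : ∃ J, par.J0 = J + 1 := ⟨par.J0 - 1, by have := l9x_J0_ge par; omega⟩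
  have hJ4 : 4 ≤ J := by have := l9x_J0_ge par; omega
  rw [hJ] at h3 h4 ⊢
  have g1 := par.toLLParB.gain2
  have g2 := par.toLLParB.eta_lt_tau
  have g3 := par.toLLParB.tau_lt
  have g4 := par.pStar_pos
  have g5 := par.eta_pos
  have g6 := par.toLLParD.pStar_lt
  have g7 := par.dPr_le
  have g8 := par.kappa_le
  have g9 := par.dPr_pos
  have g10 := par.C0_ge
  have g11 := par.toLLParB.sStar_lt
  have g12 := par.toLLParB.tau_pos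
  have hgg : (1 - par.eta) / 2 - par.sStar = par.tau - par.eta / 2 := g1
  refine l9x_trd llBase (l8Mj par.cC) par.kappa (F0.wExp par.sStar par.eta par.pStar) J M0 (par.C0 * par.dPr) hM0
    (fun Fs p m => l9x_Z_ge _ _ _ Fs p m) g4 (by positivity) ?_ ?_ ?_ (l9x_inst J hJ4 M0 hM0) h1 h2 h3 h4
  · show par.C0 * par.dPr < par.pStar * ((1 - par.eta) / 2 - par.sStar)
    rw [hgg]
    nlinarith
  · show par.sStar ≤ 1 / 2 + par.eta / 2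
    linarith
  · show par.pStar * ((1 - par.eta) / 2 - par.sStar) ≤ 1
    rw [hgg]
    nlinarith

end Claimed.Agent.R286
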