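import Claimed.Agent.R286.L09.ParChain
import Claimed.Agent.R286.Defs.L9Pre
import Claimed.Agent.R286.L09.BndExit
import Claimed.Agent.R286.L09.Contract
import Claimed.Agent.R286.L09.Fin
import Claimed.Agent.R286.L09.RegIn
import Claimed.Agent.R286.L08.Defs
import Claimed.Agent.R286.Exit.DZ
import Claimed.Agent.R286.Exit.DCS
import Claimed.Agent.R286.Exit.G1
import Claimed.Agent.R286.L09.TrsQ
import Claimed.Agent.R286.L09.Trd
import Claimed.Agent.R286.Exit.LL02A9
import Claimed.Agent.R286.Exit.D11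

/-!
# Row 286 (S0533), unit L09, file Nodes: THE EIGHT NODE EXITS OF THE BODY IN THE FORM `LLGood`, AND THE BODY      (typed by helper70 on the spec of helper60 `notes/R286/PARCHAIN_60.md`; prefix `l9q`, `exit_l9_`)

    exit_inc (Exit/Inc.lean)  <=  l9q_body : LLGood fun par => L9Inc llBase (l9qF F0 par)      [PROVED here from the 8 nodes + `l9_fin` (216)]
                              +   LLGood.exists (L09/ParChain, PROVED)  +  l9g_inc (L09/IncGlue, 60, PROVED)  +  exit_a1l

ALL the nodes speak about the SAME data: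
 * `F0 : LlFix` = the record of cut-offs of LL Sec. 3, hypothesis `L8Fix llBase T F0` (`= F0.T = T ∧ LlBaseProfile llBase T ∧ LlcP llBase F0`, `L08/Defs`, 75);
 * `l9qF F0 par = F0.wExp par.sStar par.eta par.pStar`;
 * `l9qMj par = l8Mj par.cC` = THE concrete majorants `Z`, `Z_g` of LL 08 (75), `c` = the saving `cC` of (C2);
 * size Taylor degree `par.kPr`, direct degree `par.J0`, cut `Y ≤ x^κ` with `κ = par.kappa`.
| node              | statement                                                          | owner           | status                                   |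
| `exit_l9_trs`     | `L9TRS llBase par.kPr (F par)`                                      | 65              | PROVED from `exit_a9, exit_size, exit_d11, l8g_fine` (`L09/TrsQ`) |
| `exit_l9_bndS`    | `L9BndS llBase (Mj par) par.kPr (F par)`                            | 282             | GLUE from the producers of `L09/BndExit` |
| `exit_l9_trd`     | `L9TRD llBase (Mj par) par.kappa par.J0 (F par)`                    | 101             | GLUE `l9x_node` (`L09/Trd`)              |
| `exit_l9_bndD`    | `L9BndD llBase (Mj par) par.kappa par.J0 (F par)`                   | 282             | GLUE from the producers of `L09/BndExit` |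
| `exit_l9_reg`     | `L9Reg llBase (F par)`                                              | 260             | PROVED (`l9rx_exit`, `L09/RegIn.lean`)   |
| `exit_l9_g1`      | `LlcG1Exit llBase T` (NOT an `LLGood`: the exit form of (G1), 224)  | 291             | CITES `exit_g1_llc` (`Exit/G1.lean`)     |
| `exit_l9_coarse`  | `L9Coarse llBase (Mj par) par.kappa (F par)`                        | (228)           | PROVED from `exit_dcs`                   |
| `exit_l9_switch`  | `L9Switch llBase (F par)`                                           | (228, 187)      | PROVED from `exit_dcs`                   |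
| `exit_l9_mom`     | `L9Mom llBase (Mj par) (F par)`                                     | (75, 246)       | PROVED from `exit_dz` (+ `l9q_mom_mono`: the saving of `Z_g` may be decreased) |
LEGAL PREFIX (ruling M2 of 224): `l9q_of_stB : (∀ pB, LlcStB 𝔹 F0 pB → ∀ᶠ par in l9qFilB pB, Φ par) → LLGood Φ` (from (G1)); so an exit with the prefix `∀ pB : LLParB, LlcStB 𝔹 F0 pB → ..` enters the chain in one line.
An owner proves his node in his own files (which import `L09/ParChain`), adds the import here and replaces the `sorry` by the citation.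
-/

set_option autoImplicit false

namespace Claimed.Agent.R286

open MeasureTheory Set Filter
open scoped ENNReal

noncomputable section

/-! ### 1. the five open nodes -/

/-- **NODE (G1)** in the exit form of `LL/Chain` (224) (`= Ll06G1Exit llBase T` of `LL06/Contract`; owner helper291): to be replaced by the citation of the exit of LL 06 -/
theorem exit_l9_g1 (T : ℝ) (_hT : 1 < T) : LlcG1Exit llBase T := exit_g1_llc T

/-- **NODE TRS** (owner helper65): `l9s_trs_good` (`L09/TrsQ.lean`, 0 sorry) at the exits (A9) `exit_a9`, size increments `exit_size` (LL 02), (G1), (D11) `exit_d11`, fine chains `l8g_fine` (LL 08) -/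
theorem exit_l9_trs (T : ℝ) (hT : 1 < T) (F0 : LlFix) (h0 : L8Fix llBase T F0) :
    LLGood fun par => L9TRS llBase par.kPr (l9qF F0 par) :=
  l9s_trs_good exit_a9 exit_size (exit_l9_g1 T hT) (exit_d11 T hT) (l8g_fine T hT) h0

/-- **NODE BndS** (architect helper282: `L09/BndExit.lean` = one producer per region and per supply) -/
theorem exit_l9_bndS (T : ℝ) (hT : 1 < T) (F0 : LlFix) (h0 : L8Fix llBase T F0) :
    LLGood fun par => L9BndS llBase (l9qMj par) par.kPr (l9qF F0 par) :=
  l9x_bndS T hT F0 h0 (exit_l9_g1 T hT)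

/-- **NODE TRD** (owner helper101): `l9x_node` (`L09/Trd.lean`: PROVED glue over the supplies `exit_l9x_ok, _dot, _w5, _t34` + `l9x_inst`) -/
theorem exit_l9_trd (T : ℝ) (hT : 1 < T) (F0 : LlFix) (h0 : L8Fix llBase T F0) :
    LLGood fun par => L9TRD llBase (l9qMj par) par.kappa par.J0 (l9qF F0 par) :=
  l9x_node T hT (exit_l9_g1 T hT) F0 h0

/-- **NODE BndD** (architect helper282: `L09/BndExit.lean`) -/
theorem exit_l9_bndD (T : ℝ) (hT : 1 < T) (F0 : LlFix) (h0 : L8Fix llBase T F0) :
    LLGood fun par => L9BndD llBase (l9qMj par) par.kappa par.J0 (l9qF F0 par) :=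
  l9x_bndD T hT F0 h0 (exit_l9_g1 T hT)

/-- **NODE Reg**: PROVED (helper260, `L09/Reg.lean` + `L09/RegIn.lean`: `l9rx_exit`, from the P-list; with 151 (step calculus, leaf Q), 216 (Contract v5), 258 (pointwise clock lemmas)); for ALL `par` -/
theorem exit_l9_reg (T : ℝ) (_hT : 1 < T) (F0 : LlFix) (h0 : L8Fix llBase T F0) :
    LLGood fun par => L9Reg llBase (l9qF F0 par) := by
  refine LLGood.of_forall fun par => ?_
  have hE := l9q_expOk par
  have hP : LlBaseProfile llBase (l9qF F0 par).T := by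
    show LlBaseProfile llBase F0.T
    rw [h0.1]; exact h0.2.1
  exact l9rx_exit llBase (l9qF F0 par) hP hE (h0.2.2 _ _ _ hE).sec3

/-! ### 3. the three nodes of LL 08, from the exits of 75      (when `LlcStB llBase F0 pB →` enters `L8xZ`, `L8xCS`: insert `hSt` after `pB`) -/

/-- **NODE Switch**, from `exit_dcs` -/
theorem exit_l9_switch (T : ℝ) (hT : 1 < T) (F0 : LlFix) (h0 : L8Fix llBase T F0) :
    LLGood fun par => L9Switch llBase (l9qF F0 par) := by
  refine l9q_of_stB (exit_l9_g1 T hT) h0 fun pB hSt => ?_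
  obtain ⟨p0, hp0, H⟩ := exit_dcs T hT F0 h0 pB hSt
  refine l9q_FilB_intro fun pC e => ?_
  filter_upwards [l9q_FilC_to pC, l9q_FilC_of (l9q_FD_pStar pC hp0)] with par e1 hp
  have h := (H par.pStar par.pStar_pos hp).1
  subst e
  subst e1
  exact h

/-- **NODE Coarse**, from `exit_dcs` -/
theorem exit_l9_coarse (T : ℝ) (hT : 1 < T) (F0 : LlFix) (h0 : L8Fix llBase T F0) :
    LLGood fun par => L9Coarse llBase (l9qMj par) par.kappa (l9qF F0 par) := by
  refine l9q_of_stB (exit_l9_g1 T hT) h0 fun pB hSt => ?_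
  obtain ⟨p0, hp0, H⟩ := exit_dcs T hT F0 h0 pB hSt
  refine l9q_FilB_intro fun pC eC => ?_
  rw [l9q_FilC_iff]
  filter_upwards [l9q_FD_pStar pC hp0, l9q_FD_to pC] with pD hp e
  obtain ⟨-, κ0, hκ0, Hc⟩ := H pD.pStar pD.pStar_pos hp
  refine l9q_FilD_intro fun pE eE => ?_
  rw [l9q_FilE_iff]
  filter_upwards [l9q_FF_kappa pE hκ0, l9q_FF_to pE] with par hk e2
  have h := Hc par.kappa par.kappa_pos hk par.cC
  subst eC
  subst e
  subst eE
  subst e2
  exact h

/-- `max 1 (κ w) = max 1 (κ max(1, w))` for `0 ≤ κ ≤ 1` -/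
theorem l9q_max_aux {κ w : ℝ} (h0 : 0 ≤ κ) (h1 : κ ≤ 1) : max 1 (κ * w) = max 1 (κ * max 1 w) := by
  rcases le_total w 1 with h | h
  · rw [max_eq_left h, mul_one, max_eq_left h1, max_eq_left]
    calc κ * w ≤ κ * 1 := mul_le_mul_of_nonneg_left h h0
      _ ≤ 1 := by linarith
  · rw [max_eq_right h]

/-- the majorant `Z_g` with a smaller saving -/
theorem l9q_Zg_eq (I : L8In) {c c' : ℝ} (hx : 0 < I.x) (hx1 : I.x ≤ 1) (hc : c' ≤ c) :
    I.Zg c' = max 1 (I.x ^ ((c - c') / 2) * I.Zg c) := by
  unfold L8In.Zg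
  rw [← l9q_max_aux (Real.rpow_nonneg hx.le _) (Real.rpow_le_one hx.le hx1 (by linarith)), ← mul_assoc, ← Real.rpow_add hx]
  congr 3
  ring

/-- **the saving of `Z_g` may be decreased** -/
theorem l9q_mom_mono (𝔹 : LlBase) (F : LlFix) {c c' : ℝ} (hc : c' ≤ c) (h : L9Mom 𝔹 (l8Mj c) F) : L9Mom 𝔹 (l8Mj c') F := by
  intro δ hδ
  obtain ⟨C, N0, H⟩ := h δ hδ
  refine ⟨C, max N0 1, fun N hN => ?_⟩
  have hN1 : (1 : ℝ) ≤ (N : ℝ) := by exact_mod_cast le_of_max_le_right hN
  have hx : (0 : ℝ) < (N : ℝ) ^ (-(1 / 6) : ℝ) := Real.rpow_pos_of_pos (by linarith) _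
  have hx1 : (N : ℝ) ^ (-(1 / 6) : ℝ) ≤ 1 := Real.rpow_le_one_of_one_le_of_nonpos hN1 (by norm_num)
  filter_upwards [H N (le_of_max_le_left hN)] with Fs HF
  intro m h1 h2
  obtain ⟨hA, hB, hC, hD⟩ := HF m h1 h2
  have key : ∀ (γ : Fin (N + 1) → ℝ) (θ : ℝ), (l8Mj c').Zg F 𝔹 Fs (ll04Siz F N (Real.log 2) γ θ) m
      = max 1 (((N : ℝ) ^ (-(1 / 6) : ℝ)) ^ ((c - c') / 2) * (l8Mj c).Zg F 𝔹 Fs (ll04Siz F N (Real.log 2) γ θ) m) :=
    fun γ θ => l9q_Zg_eq ⟨F, 𝔹, l8Cl F (ll04Siz F N (Real.log 2) γ θ), m, 0, Fs⟩ hx hx1 hc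
  have hκ0 : 0 ≤ ((N : ℝ) ^ (-(1 / 6) : ℝ)) ^ ((c - c') / 2) := Real.rpow_nonneg hx.le _
  have hκ1 : ((N : ℝ) ^ (-(1 / 6) : ℝ)) ^ ((c - c') / 2) ≤ 1 := Real.rpow_le_one hx.le hx1 (by linarith)
  refine ⟨hA, hB, ?_, fun θ hθ => ?_⟩
  · simp only [key]
    exact measurable_const.max (measurable_const.mul hC)
  · obtain ⟨g1, g2, g3⟩ := hD θ hθ
    refine ⟨fun γ => ⟨(g1 γ).1, by rw [key]; exact le_max_left _ _⟩, g2, le_trans (lintegral_mono fun γ => ?_) g3⟩
    refine ENNReal.ofReal_le_ofReal (pow_le_pow_left₀ (by rw [key]; exact le_trans zero_le_one (le_max_left _ _)) ?_ 2)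
    rw [key]
    have g := (g1 γ).2
    refine max_le g ?_
    calc _ ≤ 1 * (l8Mj c).Zg F 𝔹 Fs (ll04Siz F N (Real.log 2) γ θ) m := mul_le_mul_of_nonneg_right hκ1 (by linarith)
      _ = _ := one_mul _

/-- **NODE Mom**, from `exit_dz` -/
theorem exit_l9_mom (T : ℝ) (hT : 1 < T) (F0 : LlFix) (h0 : L8Fix llBase T F0) :
    LLGood fun par => L9Mom llBase (l9qMj par) (l9qF F0 par) := by
  refine l9q_of_stB (exit_l9_g1 T hT) h0 fun pB hSt => ?_
  obtain ⟨c, p0, hc, hp0, H⟩ := exit_dz T hT F0 h0 pB hSt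
  rw [l9q_FilB_iff]
  filter_upwards [l9q_FC_cC pB hc, l9q_FC_to pB] with pC hcC e
  filter_upwards [l9q_FilC_to pC, l9q_FilC_of (l9q_FD_pStar pC hp0)] with par e1 hp
  have h := (H par.pStar par.pStar_pos hp).1
  subst e1
  subst e
  exact l9q_mom_mono llBase _ hcC h

/-! ### 4. the body -/

/-- **THE BODY** (LL Sec. 10): the core on one chain, for all sufficiently small exponents -/
theorem l9q_body (T : ℝ) (hT : 1 < T) (F0 : LlFix) (h0 : L8Fix llBase T F0) :
    LLGood fun par => L9Inc llBase (l9qF F0 par) := by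
  filter_upwards [exit_l9_trs T hT F0 h0, exit_l9_bndS T hT F0 h0, exit_l9_trd T hT F0 h0, exit_l9_bndD T hT F0 h0,
    exit_l9_coarse T hT F0 h0, exit_l9_switch T hT F0 h0, exit_l9_mom T hT F0 h0, exit_l9_reg T hT F0 h0]
    with par h1 h2 h3 h4 h5 h6 h7 h8
  exact l9_fin llBase (l9qMj par) (l9qF F0 par) (h0.2.2 _ _ _ (l9q_expOk par)).sec3.ok
    (by have := (l9q_expOk par).p_hi; show par.pStar ≤ 12; linarith) par.kappa par.kPr par.J0 h1 h2 h3 h4 h5 h6 h7 h8

end

end Claimed.Agent.R286
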