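import Claimed.Agent.R286.Base.Tm
import Claimed.Agent.R286.Fd.ObsC
import Claimed.Agent.R286.Fd.NuApi

/-!
# Row 286 (S0533), unit L09, file ChD : THE STEP FORM OF LL (A1) ALONG A CURVE, ON ONE CHAIN      (owner helper151; prefix `l9d_`, `l9d`, `L9d`)      no sorry of its own

Closes R4 of `origin/helper70:notes/R286/L01_adv_70.md` at the CHAIN level (ruling of 60, 02:56Z): "`deriv ψ` = the formula".   Cites only K4 `ob_pressure_deriv` (Fd/ObsC), K2, and the Gaussian BASE of 11.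
VOCABULARY: step paths `SkStp` with FIXED masses; cumulative clocks on the cuts `skCumB P j`, `skCumH P j` (`= JtCtx.bC j, hC j` of `llJt`).
* `l9d_tame`              GENERIC (any `GhB`, features): `(θ, z) ↦ ghF B (levels with variances c + l θ) z` is `SkTame` on `Θ ×ˢ univ` (jointly smooth in ALL parameters, zero variances allowed)
* `l9dA1 n a P z β η`     THE FORMULA `-1/4 ∑_j gap_j B_j β_j - 1/2 ∑_j gap_j S_j η_j`  (`β j, η j` = speeds of the cumulative clocks on the cut `j`)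
* `l9dN1 a P β η`         `1/4 ∑ gap_j |β_j| + 1/2 ∑ gap_j |η_j|`
* **A** `l9d_hasDerivWithinAt`, `l9d_hasDerivAt` : `t ↦ P t` admissible, same masses, cumulative clocks differentiable at `t0`  ⟹  `HasDerivAt (t ↦ skPrS n a (P t) z) (l9dA1 n a (P t0) z β η) t0`
* `l9d_A1_abs`            `|l9dA1| ≤ l9dN1`   (crude bound of the speed)
* **B** `l9d_lip`         `|skPrS Q - skPrS P| ≤ l9dN1 a P (ΔcumB) (ΔcumH)`, same masses;      `l9d_continuous` (continuity in a parameter of any topological space)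
* **C** `l9d_ac`          absolute continuity along a curve whose cumulative clocks are absolutely continuous;   `l9d_ac_of_le` (domination criterion, Mathlib only)
ROUTE of A: Frechet differentiability WITHIN the orthant of the increments (`l9d_diff`, from `l9d_tame`) + K4 along the segments to identify the derivative (`l9d_fderiv`); no continuity of `S, B` is needed.
-/

set_option autoImplicit false
set_option linter.unusedSectionVars false

namespace Claimed.Agent.R286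

open MeasureTheory ProbabilityTheory

section generic
variable {S ι : Type} [Fintype S] [Fintype ι] {Pm : Type} [NormedAddCommGroup Pm] [NormedSpace ℝ Pm]

/-- the features as a continuous linear map -/
noncomputable def l9dFt (Φ : S → ι → ℝ) : (ι → ℝ) →L[ℝ] (S → ℝ) :=
  ContinuousLinearMap.pi fun s => ∑ i, Φ s i • (ContinuousLinearMap.proj i : (ι → ℝ) →L[ℝ] ℝ)

theorem l9d_Ft_apply (Φ : S → ι → ℝ) (g : ι → ℝ) (s : S) : l9dFt Φ g s = ∑ i, Φ s i * g i := by
  simp [l9dFt]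

/-- the hierarchy with features `Φ`, masses `h.1` and variances `h.2.1 + h.2.2 θ` affine in the parameter `θ` -/
noncomputable def l9dLs (Φ : S → ι → ℝ) (hs : List (ℝ × (ι → ℝ) × (Pm →L[ℝ] (ι → ℝ)))) (θ : Pm) : List (GhLv S ι) :=
  hs.map fun h => ghLvF Φ h.1 (h.2.1 + h.2.2 θ)

theorem l9d_inc (Φ : S → ι → ℝ) (m : ℝ) (dv ξ : ι → ℝ) : (ghLvF Φ m dv).inc ξ = l9dFt Φ (skSd dv * ξ) := by
  funext s
  rw [l9d_Ft_apply]
  unfold GhLv.inc ghLvF skSd
  refine Finset.sum_congr rfl fun i _ => ?_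
  simp only [Pi.mul_apply]
  ring

theorem l9d_F_cons (B : GhB S) (Φ : S → ι → ℝ) (h : ℝ × (ι → ℝ) × (Pm →L[ℝ] (ι → ℝ)))
    (hs : List (ℝ × (ι → ℝ) × (Pm →L[ℝ] (ι → ℝ)))) (θ : Pm) (z : S → ℝ) :
    ghF B (l9dLs Φ (h :: hs) θ) z
      = skT h.1 (skStP (l9dFt Φ) h.2.1 h.2.2) (fun x : Pm × (S → ℝ) => ghF B (l9dLs Φ hs x.1) x.2) (θ, z) := by
  show ghT (ghStd ι) h.1 (fun ξ => ghF B (l9dLs Φ hs θ) (z + (ghLvF Φ h.1 (h.2.1 + h.2.2 θ)).inc ξ)) = _
  unfold ghT skT
  rw [sk_b_S_StP, sk_b_S_StP]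
  simp only [l9d_inc]
  rfl

/-- **joint tameness**: the continuation is smooth, with bounded derivatives, JOINTLY in the parameters of the variances (zero variances allowed) and in the field -/
theorem l9d_tame {B : GhB S} (hB : B.Ok) (Φ : S → ι → ℝ) {Θ : Set Pm} [SkDom Θ] :
    ∀ hs : List (ℝ × (ι → ℝ) × (Pm →L[ℝ] (ι → ℝ))), (∀ h ∈ hs, ∀ θ ∈ Θ, ∀ k, 0 ≤ h.2.1 k + h.2.2 θ k) →
      SkTame (Θ ×ˢ (Set.univ : Set (S → ℝ))) (fun x : Pm × (S → ℝ) => ghF B (l9dLs Φ hs x.1) x.2)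
  | [], _ => by
      have hw : ∃ s, 0 < B.w s := by
        by_contra hcon
        have : ∑ s, B.w s ≤ 0 := Finset.sum_nonpos fun s _ => not_lt.1 fun h => hcon ⟨s, h⟩
        rw [hB.sum] at this
        linarith
      exact sk_b_tame_lse B.w hB.nonneg hw B.a
        fun s => (ContinuousLinearMap.proj s : (S → ℝ) →L[ℝ] ℝ).comp (ContinuousLinearMap.snd ℝ Pm (S → ℝ))
  | h :: hs, hh => by
      have ih := l9d_tame hB Φ hs fun h' hh' => hh h' (List.mem_cons_of_mem _ hh')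
      have hok := sk_b_StP_ok (E := S → ℝ) (l9dFt Φ) h.2.1 h.2.2 (hh h List.mem_cons_self)
      refine sk_b_tame_congr (sk_b_T_tame hok ih h.1) fun x _ => ?_
      exact l9d_F_cons B Φ h hs x.1 x.2

end generic

section sk
variable {n L : ℕ}

/-- the increments of the two clocks on a chain of `L` revelations -/
abbrev L9dPm (L : ℕ) : Type := (Fin L → ℝ) × (Fin L → ℝ)

/-- the step path with the masses `ms` and the increments `θ` -/
def l9dMake (ms : Fin L → ℝ) (θ : L9dPm L) : SkStp := List.ofFn fun j => (⟨ms j, θ.1 j, θ.2 j⟩ : SkInc)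

/-- the orthant of the nonnegative increments -/
def l9dOr (L : ℕ) : Set (L9dPm L) :=
  (Set.pi Set.univ fun _ => Set.Ici (0 : ℝ)) ×ˢ (Set.pi Set.univ fun _ => Set.Ici (0 : ℝ))

instance l9d_dom_pi : SkDom (Set.pi Set.univ fun _ : Fin L => Set.Ici (0 : ℝ)) :=
  ⟨convex_pi fun _ _ => convex_Ici 0, UniqueDiffOn.univ_pi fun _ => uniqueDiffOn_Ici 0⟩

instance l9d_dom : SkDom (l9dOr L) := sk_b_dom_prod _ _

theorem l9d_mem_or {θ : L9dPm L} : θ ∈ l9dOr L ↔ (∀ j, 0 ≤ θ.1 j) ∧ ∀ j, 0 ≤ θ.2 j := by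
  unfold l9dOr
  rw [Set.mem_prod, Set.mem_pi, Set.mem_pi]
  exact ⟨fun h => ⟨fun j => h.1 j trivial, fun j => h.2 j trivial⟩, fun h => ⟨fun j _ => h.1 j, fun j _ => h.2 j⟩⟩

/-- the variances of the level `j` as a linear function of the increments -/
noncomputable def l9dLj (n : ℕ) (j : Fin L) : L9dPm L →L[ℝ] (SkDr n → ℝ) :=
  ContinuousLinearMap.pi fun e => Sum.elim
    (fun _ => (ContinuousLinearMap.proj j : (Fin L → ℝ) →L[ℝ] ℝ).comp (ContinuousLinearMap.fst ℝ (Fin L → ℝ) (Fin L → ℝ)))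
    (fun _ => (ContinuousLinearMap.proj j : (Fin L → ℝ) →L[ℝ] ℝ).comp (ContinuousLinearMap.snd ℝ (Fin L → ℝ) (Fin L → ℝ))) e

theorem l9d_Lj_apply (j : Fin L) (θ : L9dPm L) : l9dLj n j θ = Sum.elim (fun _ => θ.1 j) (fun _ => θ.2 j) := by
  funext e
  cases e <;> rfl

noncomputable def l9dHs (n : ℕ) (ms : Fin L → ℝ) : List (ℝ × (SkDr n → ℝ) × (L9dPm L →L[ℝ] (SkDr n → ℝ))) :=
  List.ofFn fun j => (ms j, 0, l9dLj n j)

theorem l9d_lvs (ms : Fin L → ℝ) (θ : L9dPm L) : skLvs n (l9dMake ms θ) = l9dLs (skPhi n) (l9dHs n ms) θ := by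
  unfold skLvs l9dMake l9dLs l9dHs
  rw [List.map_ofFn, List.map_ofFn]
  congr 1
  funext j
  simp [SkInc.lv, l9d_Lj_apply]

theorem l9d_totB (ms : Fin L → ℝ) (θ : L9dPm L) : skTotB (l9dMake ms θ) = ∑ j, θ.1 j := by
  unfold skTotB l9dMake
  rw [List.map_ofFn, List.sum_ofFn]
  rfl

theorem l9d_totH (ms : Fin L → ℝ) (θ : L9dPm L) : skTotH (l9dMake ms θ) = ∑ j, θ.2 j := by
  unfold skTotH l9dMake
  rw [List.map_ofFn, List.sum_ofFn]
  rfl

theorem l9d_cumB (ms : Fin L → ℝ) (θ : L9dPm L) (j : ℕ) : skCumB (l9dMake ms θ) j = ∑ i with i.val < j, θ.1 i := by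
  unfold skCumB l9dMake
  rw [List.map_take, List.map_ofFn, List.sum_take_ofFn]
  rfl

theorem l9d_cumH (ms : Fin L → ℝ) (θ : L9dPm L) (j : ℕ) : skCumH (l9dMake ms θ) j = ∑ i with i.val < j, θ.2 i := by
  unfold skCumH l9dMake
  rw [List.map_take, List.map_ofFn, List.sum_take_ofFn]
  rfl

theorem l9d_mk_length (ms : Fin L → ℝ) (θ : L9dPm L) : (l9dMake ms θ).length = L := by
  simp [l9dMake]

theorem l9d_mk_m (ms : Fin L → ℝ) (θ : L9dPm L) : (l9dMake ms θ).map SkInc.m = List.ofFn ms := by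
  unfold l9dMake
  rw [List.map_ofFn]
  rfl

theorem l9d_seg (ms : Fin L → ℝ) (θ θ' : L9dPm L) (s : ℝ) :
    skSeg s (l9dMake ms θ) (l9dMake ms θ') = l9dMake ms (θ + s • (θ' - θ)) := by
  unfold skSeg l9dMake
  refine List.ext_getElem (by simp) fun i h1 h2 => ?_
  simp only [List.getElem_zipWith, List.getElem_ofFn, Prod.fst_add, Prod.snd_add, Prod.smul_fst, Prod.smul_snd,
    Prod.fst_sub, Prod.snd_sub, Pi.add_apply, Pi.smul_apply, Pi.sub_apply, smul_eq_mul, SkInc.mk.injEq, true_and]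
  constructor <;> ring

/-- admissibility of `l9dMake` -/
theorem l9d_adm {a : ℝ} {ms : Fin L → ℝ} (hms : Monotone ms) (h0 : ∀ j, 0 ≤ ms j ∧ ms j ≤ a) {θ : L9dPm L} (hθ : θ ∈ l9dOr L) :
    SkAdm a (l9dMake ms θ) := by
  rw [l9d_mem_or] at hθ
  refine ⟨?_, ?_⟩
  · unfold l9dMake
    rw [List.pairwise_ofFn]
    exact fun i j hij => hms hij.le
  · intro e he
    unfold l9dMake at he
    rw [List.mem_ofFn] at he
    obtain ⟨j, rfl⟩ := he
    exact ⟨(h0 j).1, (h0 j).2, hθ.1 j, hθ.2 j⟩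

/-- **the step form of LL (A1) / PE (1) line 1**: the speed of the pressure when the cumulative clocks on the cuts move with the speeds `β j`, `η j` -/
noncomputable def l9dA1 (n : ℕ) (a : ℝ) (P : SkStp) (z : SkCfg n → ℝ) (β η : ℕ → ℝ) : ℝ :=
  -(1 / 4) * ∑ j ∈ Finset.range (P.length + 1), skGap a P j * obB n a P z j * β j
    - (1 / 2) * ∑ j ∈ Finset.range (P.length + 1), skGap a P j * obS n a P z j * η j

theorem l9d_A1_sub (a : ℝ) (P : SkStp) (z : SkCfg n → ℝ) (β η β' η' : ℕ → ℝ) :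
    l9dA1 n a P z (fun j => β j - β' j) (fun j => η j - η' j) = l9dA1 n a P z β η - l9dA1 n a P z β' η' := by
  unfold l9dA1
  simp only [mul_sub, Finset.sum_sub_distrib]
  ring

theorem l9d_A1_congr (a : ℝ) (P : SkStp) (z : SkCfg n → ℝ) {β η β' η' : ℕ → ℝ}
    (hβ : ∀ j ≤ P.length, β j = β' j) (hη : ∀ j ≤ P.length, η j = η' j) :
    l9dA1 n a P z β η = l9dA1 n a P z β' η' := by
  unfold l9dA1
  congr 2
  · exact Finset.sum_congr rfl fun j hj => by rw [hβ j (by simpa [Nat.lt_succ_iff] using hj)]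
  · exact Finset.sum_congr rfl fun j hj => by rw [hη j (by simpa [Nat.lt_succ_iff] using hj)]

theorem l9d_hs_nonneg (ms : Fin L → ℝ) : ∀ h ∈ l9dHs n ms, ∀ θ ∈ l9dOr L, ∀ k, 0 ≤ h.2.1 k + h.2.2 θ k := by
  intro h hh θ hθ k
  unfold l9dHs at hh
  rw [List.mem_ofFn] at hh
  obtain ⟨j, rfl⟩ := hh
  rw [l9d_mem_or] at hθ
  simp only [Pi.zero_apply, zero_add, l9d_Lj_apply]
  cases k
  · exact hθ.1 j
  · exact hθ.2 j

theorem l9d_diff_tot (a : ℝ) : Differentiable ℝ (fun θ : (Fin L → ℝ) × (Fin L → ℝ) => a * ((∑ j, θ.1 j) / 4 + (∑ j, θ.2 j) / 2)) := by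
  fun_prop

theorem l9d_diff_aux {X Y : Type} [NormedAddCommGroup X] [NormedSpace ℝ X] [NormedAddCommGroup Y] [NormedSpace ℝ Y]
    (G : X × Y → ℝ) {D : Set X} {z : Y} {θ0 : X} (h : DifferentiableWithinAt ℝ G (D ×ˢ Set.univ) (θ0, z)) :
    DifferentiableWithinAt ℝ (fun θ => G (θ, z)) D θ0 := by
  have h2 : DifferentiableWithinAt ℝ (fun θ : X => (θ, z)) D θ0 := by fun_prop
  exact h.comp θ0 h2 (show Set.MapsTo (fun θ : X => (θ, z)) D (D ×ˢ Set.univ) from
    fun θ hθ => Set.mk_mem_prod hθ (Set.mem_univ _))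

/-- the pressure is differentiable in the increments, within the orthant -/
theorem l9d_diff {a : ℝ} (ha : 0 < a) (ms : Fin L → ℝ) (z : SkCfg n → ℝ) {θ0 : L9dPm L} (h0 : θ0 ∈ l9dOr L) :
    DifferentiableWithinAt ℝ (fun θ => skPrS n a (l9dMake ms θ) z) (l9dOr L) θ0 := by
  have ht := l9d_tame (obt_base_ok n ha) (skPhi n) (Θ := l9dOr L) (l9dHs n ms) (l9d_hs_nonneg ms)
  have h1 : DifferentiableWithinAt ℝ
      (fun x : L9dPm L × (SkCfg n → ℝ) => ghF (skBase n a) (l9dLs (skPhi n) (l9dHs n ms) x.1) x.2)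
      (l9dOr L ×ˢ Set.univ) (θ0, z) := sk_b_tame_diff ht (θ0, z) ⟨h0, trivial⟩
  have h3 : DifferentiableWithinAt ℝ (fun θ : L9dPm L => ghF (skBase n a) (l9dLs (skPhi n) (l9dHs n ms) θ) z)
      (l9dOr L) θ0 := l9d_diff_aux _ h1
  have h4 : DifferentiableWithinAt ℝ (fun θ : L9dPm L => ghF (skBase n a) (l9dLs (skPhi n) (l9dHs n ms) θ) z * (n : ℝ)⁻¹)
      (l9dOr L) θ0 := h3.mul_const ((n : ℝ)⁻¹)
  have h5 : DifferentiableWithinAt ℝ (fun θ : L9dPm L => a * ((∑ j, θ.1 j) / 4 + (∑ j, θ.2 j) / 2)) (l9dOr L) θ0 :=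
    (l9d_diff_tot a θ0).differentiableWithinAt
  refine (h4.sub h5).congr (fun θ _ => ?_) ?_
  · unfold skPrS skF
    rw [l9d_lvs, l9d_totB, l9d_totH, div_eq_mul_inv]
    rfl
  · unfold skPrS skF
    rw [l9d_lvs, l9d_totB, l9d_totH, div_eq_mul_inv]
    rfl

/-- identification of the derivative in an admissible direction, by K4 -/
theorem l9d_fderiv_dir (hn : 0 < n) {a : ℝ} (ha : 0 < a) {ms : Fin L → ℝ} (hms : Monotone ms)
    (hm0 : ∀ j, 0 ≤ ms j ∧ ms j ≤ a) (z : SkCfg n → ℝ) {θ0 θ1 : L9dPm L} (h0 : θ0 ∈ l9dOr L) (h1 : θ1 ∈ l9dOr L) :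
    fderivWithin ℝ (fun θ => skPrS n a (l9dMake ms θ) z) (l9dOr L) θ0 (θ1 - θ0)
      = l9dA1 n a (l9dMake ms θ0) z (fun j => ∑ i with i.val < j, (θ1 - θ0).1 i) (fun j => ∑ i with i.val < j, (θ1 - θ0).2 i) := by
  have hG := (l9d_diff (n := n) ha ms z h0).hasFDerivWithinAt
  have hline : HasDerivWithinAt (fun s : ℝ => θ0 + s • (θ1 - θ0)) (θ1 - θ0) (Set.Icc 0 1) 0 := by
    have := ((hasDerivAt_id (0 : ℝ)).smul_const (θ1 - θ0)).const_add θ0
    simpa using this.hasDerivWithinAt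
  have hmaps : Set.MapsTo (fun s : ℝ => θ0 + s • (θ1 - θ0)) (Set.Icc 0 1) (l9dOr L) :=
    fun s hs => (SkDom.cvx (D := l9dOr L)).add_smul_sub_mem h0 h1 hs
  have hG' : HasFDerivWithinAt (fun θ => skPrS n a (l9dMake ms θ) z)
      (fderivWithin ℝ (fun θ => skPrS n a (l9dMake ms θ) z) (l9dOr L) θ0) (l9dOr L) (θ0 + (0 : ℝ) • (θ1 - θ0)) := by
    simpa using hG
  have hc := hG'.comp_hasDerivWithinAt (0 : ℝ) hline hmaps
  have hK := ob_pressure_deriv hn ha (l9dMake ms θ0) (l9dMake ms θ1) (l9d_adm hms hm0 h0) (l9d_adm hms hm0 h1)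
    (by rw [l9d_mk_m, l9d_mk_m]) z (t := 0) ⟨le_rfl, zero_le_one⟩
  simp only [l9d_seg, zero_smul, add_zero] at hK
  have := (uniqueDiffOn_Icc (zero_lt_one' ℝ) 0 ⟨le_rfl, zero_le_one⟩).eq_deriv _ hc hK
  rw [this]
  unfold l9dA1
  simp only [l9d_cumB, l9d_cumH, Prod.fst_sub, Prod.snd_sub, Pi.sub_apply, Finset.sum_sub_distrib]

/-- identification of the derivative: it is the step form of (A1) -/
theorem l9d_fderiv (hn : 0 < n) {a : ℝ} (ha : 0 < a) {ms : Fin L → ℝ} (hms : Monotone ms)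
    (hm0 : ∀ j, 0 ≤ ms j ∧ ms j ≤ a) (z : SkCfg n → ℝ) {θ0 : L9dPm L} (h0 : θ0 ∈ l9dOr L) (v : L9dPm L) :
    fderivWithin ℝ (fun θ => skPrS n a (l9dMake ms θ) z) (l9dOr L) θ0 v
      = l9dA1 n a (l9dMake ms θ0) z (fun j => ∑ i with i.val < j, v.1 i) (fun j => ∑ i with i.val < j, v.2 i) := by
  set vp : L9dPm L := (fun j => max (v.1 j) 0, fun j => max (v.2 j) 0) with hvp
  set vm : L9dPm L := (fun j => max (-v.1 j) 0, fun j => max (-v.2 j) 0) with hvm
  have hv : v = (θ0 + vp - θ0) - (θ0 + vm - θ0) := by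
    rw [add_sub_cancel_left, add_sub_cancel_left]
    ext j
    · exact (max_zero_sub_max_neg_zero_eq_self (v.1 j)).symm
    · exact (max_zero_sub_max_neg_zero_eq_self (v.2 j)).symm
  rw [l9d_mem_or] at h0
  have hp : θ0 + vp ∈ l9dOr L := l9d_mem_or.2
    ⟨fun j => add_nonneg (h0.1 j) (le_max_right _ _), fun j => add_nonneg (h0.2 j) (le_max_right _ _)⟩
  have hm : θ0 + vm ∈ l9dOr L := l9d_mem_or.2
    ⟨fun j => add_nonneg (h0.1 j) (le_max_right _ _), fun j => add_nonneg (h0.2 j) (le_max_right _ _)⟩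
  have h0' : θ0 ∈ l9dOr L := l9d_mem_or.2 h0
  conv_lhs => rw [hv]
  rw [map_sub, l9d_fderiv_dir hn ha hms hm0 z h0' hp, l9d_fderiv_dir hn ha hms hm0 z h0' hm, ← l9d_A1_sub]
  congr 1
  · funext j
    rw [← Finset.sum_sub_distrib]
    refine Finset.sum_congr rfl fun i _ => ?_
    simp only [add_sub_cancel_left]
    exact max_zero_sub_max_neg_zero_eq_self (v.1 i)
  · funext j
    rw [← Finset.sum_sub_distrib]
    refine Finset.sum_congr rfl fun i _ => ?_
    simp only [add_sub_cancel_left]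
    exact max_zero_sub_max_neg_zero_eq_self (v.2 i)

/-- chain rule along a curve of increments -/
theorem l9d_curve_mk (hn : 0 < n) {a : ℝ} (ha : 0 < a) {ms : Fin L → ℝ} (hms : Monotone ms)
    (hm0 : ∀ j, 0 ≤ ms j ∧ ms j ≤ a) (z : SkCfg n → ℝ) (θ : ℝ → L9dPm L) {s : Set ℝ} {t0 : ℝ}
    (h0 : θ t0 ∈ l9dOr L) (hs : ∀ t ∈ s, θ t ∈ l9dOr L) {v : L9dPm L} (hθ : HasDerivWithinAt θ v s t0) :
    HasDerivWithinAt (fun t => skPrS n a (l9dMake ms (θ t)) z)
      (l9dA1 n a (l9dMake ms (θ t0)) z (fun j => ∑ i with i.val < j, v.1 i) (fun j => ∑ i with i.val < j, v.2 i)) s t0 := by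
  have hG := (l9d_diff (n := n) ha ms z h0).hasFDerivWithinAt
  have hc := hG.comp_hasDerivWithinAt t0 hθ (fun t ht => hs t ht)
  rw [l9d_fderiv hn ha hms hm0 z h0 v] at hc
  exact hc

/-- the increments of a step path, read from its cumulative clocks -/
def l9dTh (L : ℕ) (Q : SkStp) : L9dPm L :=
  (fun j => skCumB Q (j.val + 1) - skCumB Q j.val, fun j => skCumH Q (j.val + 1) - skCumH Q j.val)

theorem l9d_cumB_succ (Q : SkStp) (i : ℕ) (h : i < Q.length) : skCumB Q (i + 1) - skCumB Q i = Q[i].db := by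
  unfold skCumB
  rw [List.map_take, List.map_take, List.sum_take_succ _ _ (by simpa using h)]
  simp

theorem l9d_cumH_succ (Q : SkStp) (i : ℕ) (h : i < Q.length) : skCumH Q (i + 1) - skCumH Q i = Q[i].dh := by
  unfold skCumH
  rw [List.map_take, List.map_take, List.sum_take_succ _ _ (by simpa using h)]
  simp

theorem l9d_rebuild {ms : Fin L → ℝ} {Q : SkStp} (h : Q.map SkInc.m = List.ofFn ms) : Q = l9dMake ms (l9dTh L Q) := by
  have hl : Q.length = L := by
    have := congrArg List.length h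
    simpa using this
  refine List.ext_getElem (by simp [l9dMake, hl]) fun i h1 h2 => ?_
  have hm : Q[i].m = ms ⟨i, hl ▸ h1⟩ := by
    have h3 : (Q.map SkInc.m)[i]'(by simpa using h1) = (List.ofFn ms)[i]'(by simpa [hl] using h1) := by
      simp only [h]
    simpa using h3
  simp only [l9dMake, List.getElem_ofFn, l9dTh, l9d_cumB_succ Q i h1, l9d_cumH_succ Q i h1, ← hm]

theorem l9d_th_mem {a : ℝ} {Q : SkStp} (hQ : SkAdm a Q) (hl : Q.length = L) : l9dTh L Q ∈ l9dOr L := by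
  refine l9d_mem_or.2 ⟨fun j => ?_, fun j => ?_⟩
  · show 0 ≤ skCumB Q (j.val + 1) - skCumB Q j.val
    rw [l9d_cumB_succ Q j.val (hl ▸ j.isLt)]
    exact (hQ.2 _ (List.getElem_mem _)).2.2.1
  · show 0 ≤ skCumH Q (j.val + 1) - skCumH Q j.val
    rw [l9d_cumH_succ Q j.val (hl ▸ j.isLt)]
    exact (hQ.2 _ (List.getElem_mem _)).2.2.2

theorem l9d_tele (β : ℕ → ℝ) {j : ℕ} (hj : j ≤ L) :
    ∑ i : Fin L with i.val < j, (β (i.val + 1) - β i.val) = β j - β 0 := by
  rw [Finset.sum_filter, Fin.sum_univ_eq_sum_range (fun i => if i < j then β (i + 1) - β i else 0) L,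
    ← Finset.sum_filter]
  have : (Finset.range L).filter (fun i => i < j) = Finset.range j := by
    ext i
    simp only [Finset.mem_filter, Finset.mem_range]
    omega
  rw [this, Finset.sum_range_sub]

/-- **THEOREM A** (step form of LL (A1) along a CURVE of step paths with fixed masses).   `s` = the set of the parameters where the path is admissible. -/
theorem l9d_hasDerivWithinAt (hn : 0 < n) {a : ℝ} (ha : 0 < a) (P : ℝ → SkStp) {s : Set ℝ} {t0 : ℝ}
    (h0 : SkAdm a (P t0)) (hadm : ∀ t ∈ s, SkAdm a (P t)) (hm : ∀ t ∈ s, (P t).map SkInc.m = (P t0).map SkInc.m)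
    (z : SkCfg n → ℝ) {β η : ℕ → ℝ} (hβ0 : β 0 = 0) (hη0 : η 0 = 0)
    (hβ : ∀ j ≤ (P t0).length, HasDerivWithinAt (fun t => skCumB (P t) j) (β j) s t0)
    (hη : ∀ j ≤ (P t0).length, HasDerivWithinAt (fun t => skCumH (P t) j) (η j) s t0) :
    HasDerivWithinAt (fun t => skPrS n a (P t) z) (l9dA1 n a (P t0) z β η) s t0 := by
  obtain ⟨L, hL⟩ : ∃ L, (P t0).length = L := ⟨_, rfl⟩
  obtain ⟨ms, hms0⟩ : ∃ ms : Fin L → ℝ, (P t0).map SkInc.m = List.ofFn ms := by
    subst hL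
    exact ⟨fun j => (P t0)[j.val].m, (List.ofFn_getElem_eq_map _ _).symm⟩
  have hget : ∀ j : Fin L, ms j = ((P t0)[j.val]'(hL ▸ j.isLt)).m := by
    intro j
    have h3 : ((P t0).map SkInc.m)[j.val]'(by simpa [hL] using j.isLt) = (List.ofFn ms)[j.val]'(by simpa using j.isLt) := by
      simp only [hms0]
    simpa using h3.symm
  have hmono : Monotone ms := by
    intro i j hij
    rcases hij.lt_or_eq with h | h
    · rw [hget i, hget j]
      exact List.pairwise_iff_getElem.1 h0.1 i.val j.val _ _ h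
    · rw [h]
  have hm0 : ∀ j, 0 ≤ ms j ∧ ms j ≤ a := by
    intro j
    rw [hget j]
    exact ⟨(h0.2 _ (List.getElem_mem _)).1, (h0.2 _ (List.getElem_mem _)).2.1⟩
  have hlen : ∀ t ∈ s, (P t).length = L := by
    intro t ht
    have := congrArg List.length (hm t ht)
    simpa [hL] using this
  have hθ : HasDerivWithinAt (fun t => l9dTh L (P t))
      ((fun j : Fin L => β (j.val + 1) - β j.val, fun j : Fin L => η (j.val + 1) - η j.val) : L9dPm L) s t0 := by
    refine HasDerivWithinAt.prodMk (hasDerivWithinAt_pi.2 fun j => ?_) (hasDerivWithinAt_pi.2 fun j => ?_)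
    · exact (hβ _ (by have := j.isLt; omega)).sub (hβ _ (by have := j.isLt; omega))
    · exact (hη _ (by have := j.isLt; omega)).sub (hη _ (by have := j.isLt; omega))
  have hc := l9d_curve_mk hn ha hmono hm0 z (fun t => l9dTh L (P t)) (l9d_th_mem h0 hL)
    (fun t ht => l9d_th_mem (hadm t ht) (hlen t ht)) hθ
  rw [← l9d_rebuild hms0] at hc
  have hval : l9dA1 n a (P t0) z (fun j => ∑ i : Fin L with i.val < j, (β (i.val + 1) - β i.val))
      (fun j => ∑ i : Fin L with i.val < j, (η (i.val + 1) - η i.val)) = l9dA1 n a (P t0) z β η :=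
    l9d_A1_congr a (P t0) z (fun j hj => by rw [l9d_tele β (hL ▸ hj), hβ0, sub_zero])
      (fun j hj => by rw [l9d_tele η (hL ▸ hj), hη0, sub_zero])
  rw [← hval]
  refine hc.congr (fun t ht => ?_) ?_
  · rw [← l9d_rebuild ((hm t ht).trans hms0)]
  · rw [← l9d_rebuild hms0]

/-- Theorem A at an interior point -/
theorem l9d_hasDerivAt (hn : 0 < n) {a : ℝ} (ha : 0 < a) (P : ℝ → SkStp) {t0 : ℝ}
    (hadm : ∀ᶠ t in nhds t0, SkAdm a (P t)) (hm : ∀ᶠ t in nhds t0, (P t).map SkInc.m = (P t0).map SkInc.m)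
    (z : SkCfg n → ℝ) {β η : ℕ → ℝ}
    (hβ : ∀ j ≤ (P t0).length, HasDerivAt (fun t => skCumB (P t) j) (β j) t0)
    (hη : ∀ j ≤ (P t0).length, HasDerivAt (fun t => skCumH (P t) j) (η j) t0) :
    HasDerivAt (fun t => skPrS n a (P t) z) (l9dA1 n a (P t0) z β η) t0 := by
  have hβ0 : β 0 = 0 := by
    have h1 := hβ 0 (Nat.zero_le _)
    have h2 : (fun t => skCumB (P t) 0) = fun _ => (0 : ℝ) := by
      funext t
      simp [skCumB]
    rw [h2] at h1
    exact h1.unique (hasDerivAt_const t0 (0 : ℝ))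
  have hη0 : η 0 = 0 := by
    have h1 := hη 0 (Nat.zero_le _)
    have h2 : (fun t => skCumH (P t) 0) = fun _ => (0 : ℝ) := by
      funext t
      simp [skCumH]
    rw [h2] at h1
    exact h1.unique (hasDerivAt_const t0 (0 : ℝ))
  have hs : {t | SkAdm a (P t) ∧ (P t).map SkInc.m = (P t0).map SkInc.m} ∈ nhds t0 := hadm.and hm
  refine (l9d_hasDerivWithinAt hn ha P (s := {t | SkAdm a (P t) ∧ (P t).map SkInc.m = (P t0).map SkInc.m})
    hadm.self_of_nhds (fun t ht => ht.1) (fun t ht => ht.2) z hβ0 hη0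
    (fun j hj => (hβ j hj).hasDerivWithinAt) (fun j hj => (hη j hj).hasDerivWithinAt)).hasDerivAt hs

/-! ### bounds -/

theorem l9d_sp_abs (σ : SkCfg n) (i : Fin n) : |skSp σ i| = 1 := by
  unfold skSp Claims.C0461.pmSpin
  split_ifs <;> simp

theorem l9d_ov_abs (σ τ : SkCfg n) : |skOv σ τ| ≤ 1 := by
  unfold skOv
  rcases Nat.eq_zero_or_pos n with rfl | hn
  · simp
  have hn' : (0 : ℝ) < n := by exact_mod_cast hn
  rw [abs_div, abs_of_pos hn', div_le_one hn']
  calc |∑ i, skSp σ i * skSp τ i| ≤ ∑ i, |skSp σ i * skSp τ i| := Finset.abs_sum_le_sum_abs _ _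
    _ = ∑ _i : Fin n, (1 : ℝ) := by
        refine Finset.sum_congr rfl fun i _ => ?_
        rw [abs_mul, l9d_sp_abs, l9d_sp_abs, one_mul]
    _ = n := by simp

theorem l9d_obS_abs (hn : 0 < n) {a : ℝ} (ha : 0 < a) {P : SkStp} (hP : SkAdm a P) (z : SkCfg n → ℝ) {j : ℕ}
    (hj : j ≤ P.length) : |obS n a P z j| ≤ 1 := by
  rw [← ob_S_two hn ha P hP z j hj]
  exact gh_n_abs_le (skBase n a) (obt_base_ok n ha) 1 (skLvs n P) (obu_lvs_nn n hP) _ _ _
    fun _ σ => l9d_ov_abs (σ 0) (σ 1)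

theorem l9d_obB_abs (hn : 0 < n) {a : ℝ} (ha : 0 < a) {P : SkStp} (hP : SkAdm a P) (z : SkCfg n → ℝ) {j : ℕ}
    (hj : j ≤ P.length) : |obB n a P z j| ≤ 1 := by
  rw [← ob_B_two hn ha P hP z j hj]
  refine gh_n_abs_le (skBase n a) (obt_base_ok n ha) 1 (skLvs n P) (obu_lvs_nn n hP) _ _ _ fun _ σ => ?_
  rw [abs_pow]
  exact pow_le_one₀ (abs_nonneg _) (l9d_ov_abs (σ 0) (σ 1))

/-- the `L¹(dv)` norm on the cuts of the chain of the speeds of the two clocks, with the weights `1/4`, `1/2` of (A1) -/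
noncomputable def l9dN1 (a : ℝ) (P : SkStp) (β η : ℕ → ℝ) : ℝ :=
  (1 / 4) * ∑ j ∈ Finset.range (P.length + 1), skGap a P j * |β j|
    + (1 / 2) * ∑ j ∈ Finset.range (P.length + 1), skGap a P j * |η j|

/-- general form of the crude bound (the statistics may be those of another path `R` of the same length) -/
theorem l9d_A1_abs_gen (hn : 0 < n) {a : ℝ} (ha : 0 < a) {P R : SkStp} (hP : SkAdm a P) (hR : SkAdm a R)
    (hl : R.length = P.length) (z : SkCfg n → ℝ) (β η : ℕ → ℝ) :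
    |-(1 / 4) * ∑ j ∈ Finset.range (P.length + 1), skGap a P j * obB n a R z j * β j
      - (1 / 2) * ∑ j ∈ Finset.range (P.length + 1), skGap a P j * obS n a R z j * η j| ≤ l9dN1 a P β η := by
  have h1 : |∑ j ∈ Finset.range (P.length + 1), skGap a P j * obB n a R z j * β j|
      ≤ ∑ j ∈ Finset.range (P.length + 1), skGap a P j * |β j| := by
    refine (Finset.abs_sum_le_sum_abs _ _).trans (Finset.sum_le_sum fun j hj => ?_)
    have hj' : j ≤ R.length := by rw [hl]; simpa [Nat.lt_succ_iff] using hj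
    have hg := pin_gap_nonneg ha P hP j
    rw [abs_mul, abs_mul, abs_of_nonneg hg]
    calc skGap a P j * |obB n a R z j| * |β j| ≤ skGap a P j * 1 * |β j| := by
          gcongr
          exact l9d_obB_abs hn ha hR z hj'
      _ = skGap a P j * |β j| := by ring
  have h2 : |∑ j ∈ Finset.range (P.length + 1), skGap a P j * obS n a R z j * η j|
      ≤ ∑ j ∈ Finset.range (P.length + 1), skGap a P j * |η j| := by
    refine (Finset.abs_sum_le_sum_abs _ _).trans (Finset.sum_le_sum fun j hj => ?_)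
    have hj' : j ≤ R.length := by rw [hl]; simpa [Nat.lt_succ_iff] using hj
    have hg := pin_gap_nonneg ha P hP j
    rw [abs_mul, abs_mul, abs_of_nonneg hg]
    calc skGap a P j * |obS n a R z j| * |η j| ≤ skGap a P j * 1 * |η j| := by
          gcongr
          exact l9d_obS_abs hn ha hR z hj'
      _ = skGap a P j * |η j| := by ring
  unfold l9dN1
  refine (abs_sub _ _).trans ?_
  rw [abs_mul, abs_mul, abs_neg, abs_of_pos (by norm_num : (0 : ℝ) < 1 / 4), abs_of_pos (by norm_num : (0 : ℝ) < 1 / 2)]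
  gcongr

/-- **crude bound of the speed** -/
theorem l9d_A1_abs (hn : 0 < n) {a : ℝ} (ha : 0 < a) {P : SkStp} (hP : SkAdm a P) (z : SkCfg n → ℝ) (β η : ℕ → ℝ) :
    |l9dA1 n a P z β η| ≤ l9dN1 a P β η := l9d_A1_abs_gen hn ha hP hP rfl z β η

/-! ### Lipschitz bound on one chain -/

theorem l9d_exists_mk {a : ℝ} {P : SkStp} (h0 : SkAdm a P) :
    ∃ (L : ℕ) (ms : Fin L → ℝ), P.length = L ∧ P.map SkInc.m = List.ofFn ms ∧ Monotone ms ∧ ∀ j, 0 ≤ ms j ∧ ms j ≤ a := by
  obtain ⟨L, hL⟩ : ∃ L, P.length = L := ⟨_, rfl⟩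
  obtain ⟨ms, hms0⟩ : ∃ ms : Fin L → ℝ, P.map SkInc.m = List.ofFn ms := by
    subst hL
    exact ⟨fun j => P[j.val].m, (List.ofFn_getElem_eq_map _ _).symm⟩
  have hget : ∀ j : Fin L, ms j = (P[j.val]'(hL ▸ j.isLt)).m := by
    intro j
    have h3 : (P.map SkInc.m)[j.val]'(by simp [hL]) = (List.ofFn ms)[j.val]'(by simp) := by
      simp only [hms0]
    simpa using h3.symm
  refine ⟨L, ms, hL, hms0, ?_, ?_⟩
  · intro i j hij
    rcases hij.lt_or_eq with h | h
    · rw [hget i, hget j]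
      exact List.pairwise_iff_getElem.1 h0.1 i.val j.val _ _ h
    · rw [h]
  · intro j
    rw [hget j]
    exact ⟨(h0.2 _ (List.getElem_mem _)).1, (h0.2 _ (List.getElem_mem _)).2.1⟩

/-- the segment of two admissible step paths with the same masses -/
theorem l9d_seg_facts {a : ℝ} {P Q : SkStp} (hP : SkAdm a P) (hQ : SkAdm a Q) (hm : P.map SkInc.m = Q.map SkInc.m) :
    skSeg 0 P Q = P ∧ skSeg 1 P Q = Q ∧ ∀ t ∈ Set.Icc (0 : ℝ) 1, SkAdm a (skSeg t P Q) ∧ (skSeg t P Q).length = P.length := by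
  obtain ⟨L, ms, hL, hms, hmono, hm0⟩ := l9d_exists_mk hP
  have hLQ : Q.length = L := by
    have := congrArg List.length hm
    simp only [List.length_map] at this
    omega
  have eP := l9d_rebuild hms
  have eQ := l9d_rebuild (hm.symm.trans hms)
  have oP := l9d_th_mem hP hL
  have oQ := l9d_th_mem hQ hLQ
  refine ⟨?_, ?_, fun t ht => ?_⟩
  · conv_lhs => rw [eP, eQ, l9d_seg]
    rw [zero_smul, add_zero, ← eP]
  · conv_lhs => rw [eP, eQ, l9d_seg]
    rw [one_smul, add_sub_cancel, ← eQ]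
  · rw [eP, eQ, l9d_seg]
    exact ⟨l9d_adm hmono hm0 ((SkDom.cvx (D := l9dOr L)).add_smul_sub_mem oP oQ ht), by
      rw [l9d_mk_length, l9d_mk_length]⟩

/-- **THEOREM B**: on one chain the pressure is Lipschitz in the cumulative clocks, in the `L¹(dv)` norm of the cuts (any source) -/
theorem l9d_lip (hn : 0 < n) {a : ℝ} (ha : 0 < a) {P Q : SkStp} (hP : SkAdm a P) (hQ : SkAdm a Q)
    (hm : P.map SkInc.m = Q.map SkInc.m) (z : SkCfg n → ℝ) :
    |skPrS n a Q z - skPrS n a P z|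
      ≤ l9dN1 a P (fun j => skCumB Q j - skCumB P j) (fun j => skCumH Q j - skCumH P j) := by
  obtain ⟨e0, e1, hseg⟩ := l9d_seg_facts hP hQ hm
  have hmv := Convex.norm_image_sub_le_of_norm_hasDerivWithin_le (f := fun s => skPrS n a (skSeg s P Q) z)
    (C := l9dN1 a P (fun j => skCumB Q j - skCumB P j) (fun j => skCumH Q j - skCumH P j))
    (s := Set.Icc (0 : ℝ) 1) (x := 0) (y := 1)
    (fun t ht => ob_pressure_deriv hn ha P Q hP hQ hm z ht)
    (fun t ht => by
      rw [Real.norm_eq_abs]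
      exact l9d_A1_abs_gen hn ha hP (hseg t ht).1 (hseg t ht).2 z _ _)
    (convex_Icc 0 1) ⟨le_rfl, zero_le_one⟩ ⟨zero_le_one, le_rfl⟩
  simpa [e0, e1] using hmv

/-- continuity in a parameter -/
theorem l9d_continuous (hn : 0 < n) {a : ℝ} (ha : 0 < a) {X : Type} [TopologicalSpace X] (P : X → SkStp)
    (hadm : ∀ x, SkAdm a (P x)) (hm : ∀ x y, (P x).map SkInc.m = (P y).map SkInc.m) (z : SkCfg n → ℝ)
    (hB : ∀ j, Continuous fun x => skCumB (P x) j) (hH : ∀ j, Continuous fun x => skCumH (P x) j) :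
    Continuous fun x => skPrS n a (P x) z := by
  rw [continuous_iff_continuousAt]
  intro x0
  have hlim : Filter.Tendsto (fun x => l9dN1 a (P x0) (fun j => skCumB (P x) j - skCumB (P x0) j)
      (fun j => skCumH (P x) j - skCumH (P x0) j)) (nhds x0) (nhds 0) := by
    have hc : Continuous fun x => l9dN1 a (P x0) (fun j => skCumB (P x) j - skCumB (P x0) j)
        (fun j => skCumH (P x) j - skCumH (P x0) j) := by
      unfold l9dN1
      refine ((continuous_finsetSum _ fun j _ => ?_).const_mul _).add ((continuous_finsetSum _ fun j _ => ?_).const_mul _)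
      · exact (((hB j).sub continuous_const).abs).const_mul _
      · exact (((hH j).sub continuous_const).abs).const_mul _
    have := hc.tendsto x0
    simpa [l9dN1] using this
  rw [ContinuousAt, tendsto_iff_dist_tendsto_zero]
  refine squeeze_zero (fun _ => dist_nonneg) (fun x => ?_) hlim
  rw [Real.dist_eq]
  exact l9d_lip hn ha (hadm x0) (hadm x) (hm x0 x) z

/-- domination criterion for absolute continuity -/
theorem l9d_ac_of_le {κ : Type} (K : Finset κ) (c : κ → ℝ) (g : κ → ℝ → ℝ) {F : ℝ → ℝ} {t0 t1 : ℝ}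
    (hg : ∀ k ∈ K, AbsolutelyContinuousOnInterval (g k) t0 t1)
    (h : ∀ x ∈ Set.uIcc t0 t1, ∀ y ∈ Set.uIcc t0 t1, |F x - F y| ≤ ∑ k ∈ K, c k * |g k x - g k y|) :
    AbsolutelyContinuousOnInterval F t0 t1 := by
  have hsum : Filter.Tendsto (fun E : ℕ × (ℕ → ℝ × ℝ) => ∑ k ∈ K, c k * ∑ i ∈ Finset.range E.1, dist (g k (E.2 i).1) (g k (E.2 i).2))
      (AbsolutelyContinuousOnInterval.totalLengthFilter ⊓ Filter.principal (AbsolutelyContinuousOnInterval.disjWithin t0 t1))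
      (nhds 0) := by
    have := tendsto_finsetSum K fun k hk => Filter.Tendsto.const_mul (c k) (hg k hk)
    simpa using this
  refine squeeze_zero' (Filter.Eventually.of_forall fun E => Finset.sum_nonneg fun _ _ => dist_nonneg) ?_ hsum
  filter_upwards [Filter.mem_inf_of_right (Filter.mem_principal_self _)] with E hE
  calc ∑ i ∈ Finset.range E.1, dist (F (E.2 i).1) (F (E.2 i).2)
      ≤ ∑ i ∈ Finset.range E.1, ∑ k ∈ K, c k * dist (g k (E.2 i).1) (g k (E.2 i).2) :=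
        Finset.sum_le_sum fun i hi => by
          simp only [Real.dist_eq]
          exact h _ (hE.1 i hi).1 _ (hE.1 i hi).2
    _ = ∑ k ∈ K, c k * ∑ i ∈ Finset.range E.1, dist (g k (E.2 i).1) (g k (E.2 i).2) := by
        rw [Finset.sum_comm]
        simp only [Finset.mul_sum]

/-- **THEOREM C**: absolute continuity along a curve on one chain -/
theorem l9d_ac (hn : 0 < n) {a : ℝ} (ha : 0 < a) (P : ℝ → SkStp) {t0 t1 : ℝ}
    (hadm : ∀ t ∈ Set.uIcc t0 t1, SkAdm a (P t)) (hm : ∀ t ∈ Set.uIcc t0 t1, (P t).map SkInc.m = (P t0).map SkInc.m)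
    (z : SkCfg n → ℝ)
    (hB : ∀ j ≤ (P t0).length, AbsolutelyContinuousOnInterval (fun t => skCumB (P t) j) t0 t1)
    (hH : ∀ j ≤ (P t0).length, AbsolutelyContinuousOnInterval (fun t => skCumH (P t) j) t0 t1) :
    AbsolutelyContinuousOnInterval (fun t => skPrS n a (P t) z) t0 t1 := by
  refine l9d_ac_of_le (κ := ℕ ⊕ ℕ)
    ((Finset.range ((P t0).length + 1)).disjSum (Finset.range ((P t0).length + 1)))
    (Sum.elim (fun j => 1 / 4 * skGap a (P t0) j) (fun j => 1 / 2 * skGap a (P t0) j))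
    (Sum.elim (fun j t => skCumB (P t) j) (fun j t => skCumH (P t) j)) ?_ ?_
  · intro k hk
    rcases k with j | j
    · exact hB j (by simpa [Nat.lt_succ_iff] using hk)
    · exact hH j (by simpa [Nat.lt_succ_iff] using hk)
  · intro x hx y hy
    have hxy : (P y).map SkInc.m = (P x).map SkInc.m := (hm y hy).trans (hm x hx).symm
    have hl := l9d_lip hn ha (hadm y hy) (hadm x hx) hxy z
    have hlen : (P y).length = (P t0).length := by
      have := congrArg List.length (hm y hy)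
      simpa using this
    have hgap : ∀ j, skGap a (P y) j = skGap a (P t0) j := by
      intro j
      unfold skGap skMs
      rw [hm y hy]
    refine hl.trans (le_of_eq ?_)
    unfold l9dN1
    rw [Finset.sum_disjSum, hlen]
    simp only [Sum.elim_inl, Sum.elim_inr, hgap, Finset.mul_sum, mul_assoc]

end sk

theorem l9d_chd_eqns_cite : True := by
  have := @l9dFt.eq_1
  have := @l9dLs.eq_1
  have := @L9dPm.eq_1
  have := @l9dMake.eq_1
  have := @l9dOr.eq_1
  have := @l9dLj.eq_1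
  have := @l9dHs.eq_1
  have := @l9dA1.eq_1
  have := @l9dTh.eq_1
  have := @l9dN1.eq_1
  trivial

end Claimed.Agent.R286
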