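import Claimed.Agent.R286.Fd.TrA2

/-!
# Row 286, LL Sec. 9 (and 08-LS, HI): FLAT FORM of the signed allocation sums      (owner: helper276; prefix `l9a`)

Vocabulary = N-tables of `Defs/Tr` (helper150).  Ordered by helper60 (DAG of LL09, L5, D4).
* `L9aAg r τ τ'`  : the tables agree on the labels `< r`;   `l9aNm r τ` : normalisation (`0` outside the labels `< r`);
* `l9aTab N r`    : the FINITE SET of the normalised trees on `r` labels;
* `l9aBj τ s`, `l9aBx τ s` : birth depth and birth anchor of the label `s` (its attachment to the tree of the labels `< s`);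
* `l9aW1 ms N τ s` : the weight of that attachment;   `l9aWt ms N q r τ = ∏_{q ≤ s < r} l9aW1`;
* `l9a_flat`      : `trSumK ms N k 1 τ Φ = ∑ τ' ∈ l9aTab N (k+1), l9aWt ms N 1 (k+1) τ' * Φ τ'`.
-/

set_option autoImplicit false

namespace Claimed.Agent.R286

/-- the tables agree on the labels `< r` -/
def L9aAg (r : ℕ) (τ τ' : ℕ → ℕ → ℕ) : Prop := ∀ y z, y < r → z < r → τ y z = τ' y z

/-- normalisation: `0` outside the labels `< r` -/
def l9aNm (r : ℕ) (τ : ℕ → ℕ → ℕ) : ℕ → ℕ → ℕ := fun y z => if y < r ∧ z < r then τ y z else 0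

theorem L9aAg.symm {r : ℕ} {τ τ' : ℕ → ℕ → ℕ} (h : L9aAg r τ τ') : L9aAg r τ' τ :=
  fun y z hy hz => (h y z hy hz).symm

theorem L9aAg.trans {r : ℕ} {τ τ' τ'' : ℕ → ℕ → ℕ} (h : L9aAg r τ τ') (h' : L9aAg r τ' τ'') : L9aAg r τ τ'' :=
  fun y z hy hz => (h y z hy hz).trans (h' y z hy hz)

theorem L9aAg.mono {r r' : ℕ} {τ τ' : ℕ → ℕ → ℕ} (h : L9aAg r τ τ') (hr : r' ≤ r) : L9aAg r' τ τ' :=
  fun y z hy hz => h y z (by omega) (by omega)

theorem l9a_ag_refl (r : ℕ) (τ : ℕ → ℕ → ℕ) : L9aAg r τ τ := fun _ _ _ _ => rfl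

theorem l9a_nm_ag (r : ℕ) (τ : ℕ → ℕ → ℕ) : L9aAg r (l9aNm r τ) τ := by
  intro y z hy hz
  simp [l9aNm, hy, hz]

theorem l9a_nm_nm (r : ℕ) (τ : ℕ → ℕ → ℕ) : l9aNm r (l9aNm r τ) = l9aNm r τ := by
  funext y z
  by_cases h : y < r ∧ z < r <;> simp [l9aNm, h]

/-- two normalised tables which agree are equal -/
theorem l9a_nm_eq {r : ℕ} {τ τ' : ℕ → ℕ → ℕ} (h : L9aAg r τ τ') : l9aNm r τ = l9aNm r τ' := by
  funext y z
  by_cases hh : y < r ∧ z < r
  · simp [l9aNm, hh, h y z hh.1 hh.2]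
  · simp [l9aNm, hh]

theorem L9aAg.isTr {N r : ℕ} {τ τ' : ℕ → ℕ → ℕ} (h : L9aAg r τ τ') (hτ : IsTr N r τ) : IsTr N r τ' := by
  refine ⟨?_, ?_, ?_, ?_⟩
  · intro x y hx hy; rw [← h x y hx hy]; exact hτ.le x y hx hy
  · intro x hx; rw [← h x x hx hx]; exact hτ.diag x hx
  · intro x y hx hy; rw [← h x y hx hy, ← h y x hy hx]; exact hτ.symm x y hx hy
  · intro x y z hx hy hz
    rw [← h x y hx hy, ← h y z hy hz, ← h x z hx hz]; exact hτ.ultra x y z hx hy hz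

theorem L9aAg.isMin {r : ℕ} {τ τ' : ℕ → ℕ → ℕ} (h : L9aAg r τ τ') {x : ℕ} (hx : x < r) (j : ℕ) :
    trIsMin τ j x ↔ trIsMin τ' j x := by
  unfold trIsMin
  refine forall_congr' fun y => forall_congr' fun hy => ?_
  rw [h x y hx (by omega)]

theorem L9aAg.deg {r : ℕ} {τ τ' : ℕ → ℕ → ℕ} (h : L9aAg r τ τ') {x : ℕ} (hx : x < r) (j : ℕ) :
    trDeg r τ j x = trDeg r τ' j x := by
  unfold trDeg
  congr 1
  refine Finset.filter_congr fun y hy => ?_
  rw [Finset.mem_range] at hy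
  rw [h x y hx hy, h.isMin hy]

theorem L9aAg.wt {r : ℕ} {τ τ' : ℕ → ℕ → ℕ} (h : L9aAg r τ τ') (ms : ℕ → ℝ) (N : ℕ) {x : ℕ} (hx : x < r) (j : ℕ) :
    trWt ms N r τ x j = trWt ms N r τ' x j := by
  unfold trWt
  rw [h.deg hx]
  simp only [h.isMin hx]

/-! ### the finite set of the normalised trees -/

/-- the table with natural labels of a table on `Fin r` -/
def l9aUp {N r : ℕ} (t : Fin r → Fin r → Fin (N + 2)) : ℕ → ℕ → ℕ :=
  fun y z => if h : y < r ∧ z < r then (t ⟨y, h.1⟩ ⟨z, h.2⟩ : ℕ) else 0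

open Classical in
/-- the finite set of the normalised trees on `r` labels over `N` Gaussian levels -/
noncomputable def l9aTab (N r : ℕ) : Finset (ℕ → ℕ → ℕ) :=
  ((Finset.univ : Finset (Fin r → Fin r → Fin (N + 2))).image l9aUp).filter fun τ => IsTr N r τ

theorem l9a_mem_tab {N r : ℕ} {τ : ℕ → ℕ → ℕ} : τ ∈ l9aTab N r ↔ (IsTr N r τ ∧ l9aNm r τ = τ) := by
  classical
  unfold l9aTab
  rw [Finset.mem_filter, Finset.mem_image]
  constructor
  · rintro ⟨⟨t, _, rfl⟩, h⟩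
    refine ⟨h, ?_⟩
    funext y z
    by_cases hh : y < r ∧ z < r <;> simp [l9aNm, l9aUp, hh]
  · rintro ⟨h, hn⟩
    refine ⟨⟨fun a b => ⟨τ a.1 b.1, by have := h.le a.1 b.1 a.2 b.2; omega⟩, Finset.mem_univ _, ?_⟩, h⟩
    refine Eq.trans ?_ hn
    funext y z
    by_cases hh : y < r ∧ z < r <;> simp [l9aNm, l9aUp, hh]

theorem l9a_nm_mem_tab {N r : ℕ} {τ : ℕ → ℕ → ℕ} (h : IsTr N r τ) : l9aNm r τ ∈ l9aTab N r :=
  l9a_mem_tab.mpr ⟨(l9a_nm_ag r τ).symm.isTr h, l9a_nm_nm r τ⟩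

/-! ### birth data of a label -/

/-- birth depth of the label `s`: the number of stages which it shares with the tree of the labels `< s` -/
def l9aBj (τ : ℕ → ℕ → ℕ) (s : ℕ) : ℕ := (Finset.range s).sup fun y => τ s y

/-- birth anchor of the label `s`: the least label `< s` which shares `l9aBj τ s` stages with `s` -/
noncomputable def l9aBx (τ : ℕ → ℕ → ℕ) (s : ℕ) : ℕ := tra2Rp τ (l9aBj τ s) s

theorem l9a_birth {N s : ℕ} {τ : ℕ → ℕ → ℕ} (hτ : IsTr N (s + 1) τ) (hs : 1 ≤ s) :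
    l9aBx τ s < s ∧ l9aBj τ s ≤ N + 1 ∧ trIsMin τ (l9aBj τ s) (l9aBx τ s) ∧ τ s (l9aBx τ s) = l9aBj τ s
      ∧ L9aAg (s + 1) τ (trAtt N s τ (l9aBx τ s) (l9aBj τ s)) := by
  have hle : ∀ y, y < s → τ s y ≤ l9aBj τ s := fun y hy =>
    Finset.le_sup (f := fun y => τ s y) (Finset.mem_range.mpr hy)
  have hj : l9aBj τ s ≤ N + 1 := Finset.sup_le fun y hy => hτ.le s y (by omega) (by rw [Finset.mem_range] at hy; omega)
  obtain ⟨y0, hy0, hy0e⟩ := Finset.exists_mem_eq_sup (Finset.range s) ⟨0, Finset.mem_range.mpr hs⟩ (fun y => τ s y)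
  rw [Finset.mem_range] at hy0
  obtain ⟨a1, a2, a3⟩ := tra2_rp_spec hτ (y := s) (by omega) hj
  have hx0 : l9aBx τ s ≤ y0 := Nat.sInf_le (by show l9aBj τ s ≤ τ s y0; exact hy0e.le)
  have hx : l9aBx τ s < s := by omega
  have he : τ s (l9aBx τ s) = l9aBj τ s := le_antisymm (hle _ hx) a2
  refine ⟨hx, hj, a3, he, ?_⟩
  have key : ∀ z, z < s → τ s z = min (l9aBj τ s) (τ (l9aBx τ s) z) := by
    intro z hz
    have u1 := hτ.ultra s (l9aBx τ s) z (by omega) (by omega) (by omega)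
    have u2 := hτ.ultra (l9aBx τ s) s z (by omega) (by omega) (by omega)
    have u3 := hτ.symm s (l9aBx τ s) (by omega) (by omega)
    have u4 := hle z hz
    omega
  intro y z hy hz
  unfold trAtt
  split_ifs with h1 h2 h2
  · rw [h1, h2]; exact hτ.diag s (by omega)
  · rw [h1]; exact key z (by omega)
  · rw [h2, hτ.symm y s (by omega) (by omega), key y (by omega),
      hτ.symm (l9aBx τ s) y (by omega) (by omega)]
  · rfl

theorem l9a_birth_att {N q : ℕ} {τ τ' : ℕ → ℕ → ℕ} (hτ : IsTr N q τ) {x j : ℕ} (hx : x < q) (hj : j ≤ N + 1)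
    (hm : trIsMin τ j x) (h : L9aAg (q + 1) τ' (trAtt N q τ x j)) : l9aBj τ' q = j ∧ l9aBx τ' q = x := by
  have hxq : x ≠ q := by omega
  have hval : ∀ y, y < q → τ' q y = min j (τ x y) := by
    intro y hy
    have hyq : y ≠ q := by omega
    rw [h q y (by omega) (by omega)]
    simp [trAtt, hyq]
  have hbj : l9aBj τ' q = j := by
    apply le_antisymm
    · refine Finset.sup_le fun y hy => ?_
      rw [Finset.mem_range] at hy
      rw [hval y hy]; exact min_le_left _ _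
    · have := Finset.le_sup (f := fun y => τ' q y) (Finset.mem_range.mpr hx)
      have e : τ' q x = j := by rw [hval x hx, hτ.diag x hx]; omega
      simp only [e] at this
      exact this
  refine ⟨hbj, ?_⟩
  have hτ' : IsTr N (q + 1) τ' := h.symm.isTr (tr_att_isTr hτ hx hj)
  unfold l9aBx
  rw [hbj]
  apply tra2_rp_eq hτ' (by omega) (by omega) hj
  · rw [hτ'.symm x q (by omega) (by omega), hval x hx, hτ.diag x hx]; omega
  · have hag : L9aAg q τ' τ := by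
      intro y z hy hz
      have hyq : y ≠ q := by omega
      have hzq : z ≠ q := by omega
      rw [h y z (by omega) (by omega)]
      simp [trAtt, hyq, hzq]
    exact (hag.isMin hx j).mpr hm

theorem l9a_att_ag (N q : ℕ) (τ : ℕ → ℕ → ℕ) (x j : ℕ) : L9aAg q (trAtt N q τ x j) τ := by
  intro y z hy hz
  have hyq : y ≠ q := by omega
  have hzq : z ≠ q := by omega
  simp [trAtt, hyq, hzq]

/-! ### generic weights -/

/-- successive attachments of `k` labels with a generic weight `w q τ x j` of the attachment `(x, j)` to the tree `τ` on `q` labels -/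
def l9aGK (w : ℕ → (ℕ → ℕ → ℕ) → ℕ → ℕ → ℝ) (N : ℕ) : ℕ → ℕ → (ℕ → ℕ → ℕ) → ((ℕ → ℕ → ℕ) → ℝ) → ℝ
  | 0, _, τ, Φ => Φ τ
  | k + 1, q, τ, Φ => ∑ x ∈ Finset.range q, ∑ j ∈ Finset.range (N + 2), w q τ x j * l9aGK w N k (q + 1) (trAtt N q τ x j) Φ

/-- admissible generic weight: it sees the labels `< q` only and vanishes unless the anchor is the least leaf of its class -/
structure L9aW (w : ℕ → (ℕ → ℕ → ℕ) → ℕ → ℕ → ℝ) : Prop where
  congr : ∀ q τ τ' x j, L9aAg q τ τ' → x < q → w q τ x j = w q τ' x j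
  zero : ∀ q τ x j, ¬ trIsMin τ j x → w q τ x j = 0

/-- the product of the generic weights of the births of the labels `q ≤ s < r` -/
noncomputable def l9aGW (w : ℕ → (ℕ → ℕ → ℕ) → ℕ → ℕ → ℝ) (q r : ℕ) (τ : ℕ → ℕ → ℕ) : ℝ :=
  ∏ s ∈ Finset.Ico q r, w s τ (l9aBx τ s) (l9aBj τ s)

theorem l9a_gw_self (w : ℕ → (ℕ → ℕ → ℕ) → ℕ → ℕ → ℝ) (q : ℕ) (τ : ℕ → ℕ → ℕ) : l9aGW w q q τ = 1 := by
  simp [l9aGW]

theorem l9a_gw_bot (w : ℕ → (ℕ → ℕ → ℕ) → ℕ → ℕ → ℝ) {q r : ℕ} (h : q < r) (τ : ℕ → ℕ → ℕ) :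
    l9aGW w q r τ = w q τ (l9aBx τ q) (l9aBj τ q) * l9aGW w (q + 1) r τ := by
  unfold l9aGW
  rw [Finset.prod_eq_prod_Ico_succ_bot h]

open Classical in
/-- **FLAT FORM**, generic weights: the sum over the successive attachments of `k` labels to the tree `τ` on `q ≥ 1` labels is a sum over
the finite set of the normalised trees on `q + k` labels which extend `τ`. -/
theorem l9a_flat_gk {N : ℕ} {w : ℕ → (ℕ → ℕ → ℕ) → ℕ → ℕ → ℝ} (hw : L9aW w) (k : ℕ) :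
    ∀ {q : ℕ} {τ : ℕ → ℕ → ℕ}, IsTr N q τ → 1 ≤ q →
    ∀ Φ : (ℕ → ℕ → ℕ) → ℝ, (∀ τ₁ τ₂, L9aAg (q + k) τ₁ τ₂ → Φ τ₁ = Φ τ₂) →
    l9aGK w N k q τ Φ
      = ∑ τ' ∈ (l9aTab N (q + k)).filter (fun τ' => L9aAg q τ' τ), l9aGW w q (q + k) τ' * Φ τ' := by
  induction k with
  | zero =>
    intro q τ hτ _ Φ hΦ
    simp only [l9aGK, add_zero]
    rw [Finset.sum_eq_single (l9aNm q τ)]
    · rw [l9a_gw_self, one_mul]
      exact hΦ _ _ (l9a_nm_ag q τ).symm
    · intro τ' h' hne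
      exfalso
      rw [Finset.mem_filter, l9a_mem_tab] at h'
      apply hne
      rw [← h'.1.2]
      exact l9a_nm_eq h'.2
    · intro hn
      exfalso
      apply hn
      rw [Finset.mem_filter]
      exact ⟨l9a_nm_mem_tab hτ, l9a_nm_ag q τ⟩
  | succ k ih =>
    intro q τ hτ hq Φ hΦ
    have hqk : q + (k + 1) = q + 1 + k := by omega
    simp only [l9aGK]
    rw [hqk]
    rw [hqk] at hΦ
    set S := (l9aTab N (q + 1 + k)).filter (fun τ' => L9aAg q τ' τ) with hS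
    -- facts on the members of `S`
    have hmem : ∀ τ' ∈ S, IsTr N (q + 1) τ' ∧ L9aAg q τ' τ := by
      intro τ' h'
      rw [hS, Finset.mem_filter, l9a_mem_tab] at h'
      exact ⟨tr_isTr_mono h'.1.1 (by omega), h'.2⟩
    have hmx : ∀ τ' ∈ S, l9aBx τ' q ∈ Finset.range q := by
      intro τ' h'
      exact Finset.mem_range.mpr (l9a_birth (hmem τ' h').1 hq).1
    rw [← Finset.sum_fiberwise_of_maps_to hmx]
    refine Finset.sum_congr rfl fun x hx => ?_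
    rw [Finset.mem_range] at hx
    have hmj : ∀ τ' ∈ S.filter (fun τ' => l9aBx τ' q = x), l9aBj τ' q ∈ Finset.range (N + 2) := by
      intro τ' h'
      rw [Finset.mem_filter] at h'
      have := (l9a_birth (hmem τ' h'.1).1 hq).2.1
      exact Finset.mem_range.mpr (by omega)
    rw [← Finset.sum_fiberwise_of_maps_to hmj]
    refine Finset.sum_congr rfl fun j hj => ?_
    rw [Finset.mem_range] at hj
    by_cases hm : trIsMin τ j x
    · rw [ih (tr_att_isTr hτ hx (by omega)) (by omega) Φ hΦ, Finset.mul_sum]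
      refine Finset.sum_congr ?_ ?_
      · ext τ'
        simp only [Finset.mem_filter, hS]
        constructor
        · rintro ⟨h1, h2⟩
          obtain ⟨e1, e2⟩ := l9a_birth_att hτ hx (by omega) hm h2
          exact ⟨⟨⟨h1, (h2.mono (by omega)).trans (l9a_att_ag N q τ x j)⟩, e2⟩, e1⟩
        · rintro ⟨⟨⟨h1, h2⟩, e2⟩, e1⟩
          refine ⟨h1, ?_⟩
          have hb := (l9a_birth (tr_isTr_mono (l9a_mem_tab.mp h1).1 (by omega)) hq).2.2.2.2
          rw [e1, e2] at hb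
          refine hb.trans ?_
          intro y z hy hz
          unfold trAtt
          split_ifs with c1 c2 c2
          · rfl
          · rw [h2 x z hx (by omega)]
          · rw [h2 y x (by omega) hx]
          · exact h2 y z (by omega) (by omega)
      · intro τ' h'
        simp only [Finset.mem_filter] at h'
        obtain ⟨⟨h1, e2⟩, e1⟩ := h'
        rw [l9a_gw_bot w (by omega : q < q + 1 + k), mul_assoc]
        congr 1
        rw [e1, e2]
        exact (hw.congr q τ' τ x j (hmem τ' h1).2 hx).symm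
    · rw [hw.zero q τ x j hm, zero_mul]
      symm
      apply Finset.sum_eq_zero
      intro τ' h'
      exfalso
      simp only [Finset.mem_filter] at h'
      obtain ⟨⟨h1, e2⟩, e1⟩ := h'
      have hb := (l9a_birth (hmem τ' h1).1 hq).2.2.1
      rw [e1, e2] at hb
      exact hm (((hmem τ' h1).2.isMin hx j).mp hb)

/-! ### the weight of a tree -/

/-- the weight of the attachment of the label `s` to the tree of the labels `< s` -/
noncomputable def l9aW1 (ms : ℕ → ℝ) (N : ℕ) (τ : ℕ → ℕ → ℕ) (s : ℕ) : ℝ := trWt ms N s τ (l9aBx τ s) (l9aBj τ s)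

/-- the weight of the successive attachments of the labels `q ≤ s < r` -/
noncomputable def l9aWt (ms : ℕ → ℝ) (N q r : ℕ) (τ : ℕ → ℕ → ℕ) : ℝ := ∏ s ∈ Finset.Ico q r, l9aW1 ms N τ s

theorem l9a_wt_self (ms : ℕ → ℝ) (N q : ℕ) (τ : ℕ → ℕ → ℕ) : l9aWt ms N q q τ = 1 := by
  simp [l9aWt]

theorem l9a_wt_bot (ms : ℕ → ℝ) (N : ℕ) {q r : ℕ} (h : q < r) (τ : ℕ → ℕ → ℕ) :
    l9aWt ms N q r τ = l9aW1 ms N τ q * l9aWt ms N (q + 1) r τ := by
  unfold l9aWt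
  rw [Finset.prod_eq_prod_Ico_succ_bot h]

theorem l9a_wt_top (ms : ℕ → ℝ) (N : ℕ) {q r : ℕ} (h : q ≤ r) (τ : ℕ → ℕ → ℕ) :
    l9aWt ms N q (r + 1) τ = l9aWt ms N q r τ * l9aW1 ms N τ r := by
  unfold l9aWt
  rw [Finset.prod_Ico_succ_top h]

theorem l9a_w_wt (ms : ℕ → ℝ) (N : ℕ) : L9aW fun q τ x j => trWt ms N q τ x j :=
  ⟨fun _ _ _ _ j h hx => h.wt ms N hx j, fun q τ x j h => by unfold trWt; rw [if_neg h]⟩

theorem l9a_w_abs (ms : ℕ → ℝ) (N : ℕ) : L9aW fun q τ x j => |trWt ms N q τ x j| :=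
  ⟨fun _ _ _ _ j h hx => by rw [h.wt ms N hx j], fun q τ x j h => by unfold trWt; rw [if_neg h, abs_zero]⟩

theorem l9a_sumK_eq (ms : ℕ → ℝ) (N k q : ℕ) (τ : ℕ → ℕ → ℕ) (Φ : (ℕ → ℕ → ℕ) → ℝ) :
    trSumK ms N k q τ Φ = l9aGK (fun q τ x j => trWt ms N q τ x j) N k q τ Φ := by
  induction k generalizing q τ with
  | zero => rfl
  | succ k ih => simp only [trSumK, trSum, l9aGK, ih]

theorem l9a_absK_eq (ms : ℕ → ℝ) (N k q : ℕ) (τ : ℕ → ℕ → ℕ) (Φ : (ℕ → ℕ → ℕ) → ℝ) :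
    trAbsK ms N k q τ Φ = l9aGK (fun q τ x j => |trWt ms N q τ x j|) N k q τ Φ := by
  induction k generalizing q τ with
  | zero => rfl
  | succ k ih => simp only [trAbsK, trAbs, l9aGK, ih]

/-! ### the flat form -/

open Classical in
/-- **FLAT FORM** of the signed sums over the extensions of a tree on `q ≥ 1` labels -/
theorem l9a_flat_gen {N : ℕ} {ms : ℕ → ℝ} (k : ℕ) {q : ℕ} {τ : ℕ → ℕ → ℕ} (hτ : IsTr N q τ) (hq : 1 ≤ q)
    (Φ : (ℕ → ℕ → ℕ) → ℝ) (hΦ : ∀ τ₁ τ₂, L9aAg (q + k) τ₁ τ₂ → Φ τ₁ = Φ τ₂) :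
    trSumK ms N k q τ Φ
      = ∑ τ' ∈ (l9aTab N (q + k)).filter (fun τ' => L9aAg q τ' τ), l9aWt ms N q (q + k) τ' * Φ τ' := by
  rw [l9a_sumK_eq, l9a_flat_gk (l9a_w_wt ms N) k hτ hq Φ hΦ]
  rfl

open Classical in
/-- **FLAT FORM** of the total variation sums -/
theorem l9a_flat_abs_gen {N : ℕ} {ms : ℕ → ℝ} (k : ℕ) {q : ℕ} {τ : ℕ → ℕ → ℕ} (hτ : IsTr N q τ) (hq : 1 ≤ q)
    (Φ : (ℕ → ℕ → ℕ) → ℝ) (hΦ : ∀ τ₁ τ₂, L9aAg (q + k) τ₁ τ₂ → Φ τ₁ = Φ τ₂) :
    trAbsK ms N k q τ Φ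
      = ∑ τ' ∈ (l9aTab N (q + k)).filter (fun τ' => L9aAg q τ' τ), |l9aWt ms N q (q + k) τ'| * Φ τ' := by
  rw [l9a_absK_eq, l9a_flat_gk (l9a_w_abs ms N) k hτ hq Φ hΦ]
  refine Finset.sum_congr rfl fun τ' _ => ?_
  unfold l9aGW l9aWt l9aW1
  rw [Finset.abs_prod]

theorem l9a_tab_filter_one {N r : ℕ} (hr : 1 ≤ r) {τ : ℕ → ℕ → ℕ} (hτ : IsTr N 1 τ) [DecidablePred fun τ' => L9aAg 1 τ' τ] :
    (l9aTab N r).filter (fun τ' => L9aAg 1 τ' τ) = l9aTab N r := by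
  ext τ'
  rw [Finset.mem_filter]
  constructor
  · exact fun h => h.1
  · intro h
    refine ⟨h, ?_⟩
    intro y z hy hz
    have hy0 : y = 0 := by omega
    have hz0 : z = 0 := by omega
    subst hy0; subst hz0
    rw [(l9a_mem_tab.mp h).1.diag 0 (by omega), hτ.diag 0 (by omega)]

/-- **FLAT FORM** per root: the first label is an ordinary observation, `k` labels are allocated. -/
theorem l9a_flat {N : ℕ} {ms : ℕ → ℝ} (k : ℕ) {τ : ℕ → ℕ → ℕ} (hτ : IsTr N 1 τ)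
    (Φ : (ℕ → ℕ → ℕ) → ℝ) (hΦ : ∀ τ₁ τ₂, L9aAg (1 + k) τ₁ τ₂ → Φ τ₁ = Φ τ₂) :
    trSumK ms N k 1 τ Φ = ∑ τ' ∈ l9aTab N (1 + k), l9aWt ms N 1 (1 + k) τ' * Φ τ' := by
  classical
  rw [l9a_flat_gen k hτ le_rfl Φ hΦ, l9a_tab_filter_one (by omega) hτ]

/-- **FLAT FORM** per root, total variation -/
theorem l9a_flat_abs {N : ℕ} {ms : ℕ → ℝ} (k : ℕ) {τ : ℕ → ℕ → ℕ} (hτ : IsTr N 1 τ)
    (Φ : (ℕ → ℕ → ℕ) → ℝ) (hΦ : ∀ τ₁ τ₂, L9aAg (1 + k) τ₁ τ₂ → Φ τ₁ = Φ τ₂) :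
    trAbsK ms N k 1 τ Φ = ∑ τ' ∈ l9aTab N (1 + k), |l9aWt ms N 1 (1 + k) τ'| * Φ τ' := by
  classical
  rw [l9a_flat_abs_gen k hτ le_rfl Φ hΦ, l9a_tab_filter_one (by omega) hτ]

theorem l9a_eqns_cite : True := by
  have := @L9aAg.eq_1
  have := @l9aNm.eq_1
  have := @l9aUp.eq_1
  have := @l9aTab.eq_1
  have := @l9aBj.eq_1
  have := @l9aBx.eq_1
  have := @l9aGK.eq_1
  have := @l9aGK.eq_2
  have := @l9aGK.eq_def
  have := @l9aGK.induct
  have := @l9aGW.eq_1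
  have := @l9aW1.eq_1
  have := @l9aWt.eq_1
  trivial

end Claimed.Agent.R286
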