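import Claimed.Agent.R286.L09.Proj
import Claimed.Agent.R286.L09.CutG
import Claimed.Agent.R286.L09.Cumul

/-!
# Row 286 (S0533), LL Sec. 9, node LC1: SIGNED SUMS AT A CUT      (owner: helper285; names `l9c_*`, `l9Sh`, `l9Cs`, `l9Wk`, `L9Mt`, `L9Tg`, `L9Gh`, ..)

Pure combinatorics on `Defs/Tr` + `L09/Proj`.   0 sorry.   `t` = depth of the cut, `c = trPm ms t` its mass.   LL 09 l.505-597 ("The finite signed identity").

* `l9c_it_proj` : S1, k-fold PROJ: iterated block sums may be computed in the pulled-back table.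
* `L9Tg N t n σ` : TARGET (= skeleton table `τ ∧ t`): a tree whose distinct labels share at most `t` stages (value `t` = same block);   `L9Mt t q τ σ` : `τ ∧ t = σ` off the diagonal.
* `l9Bj σ s`, `l9Bx σ s` : birth depth / birth anchor of the label `s`;   the label `s` STARTS a block iff `l9Bj σ s < t`, JOINS an earlier block iff `t ≤ l9Bj σ s`.
* `l9Cs ms N t σ k q τ Φ` : CONSTRAINED SUM (internal placements): joining labels are summed over their block (`l9In`), starting labels have one attachment, without weight.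
* `l9Wk ms N t σ k q` : SKELETON WEIGHT = product of the signed weights of the starting labels (computed in `σ`).
* `l9c_fibre`   : S2:  `trSumK ms N k q τ (fun τ' => if L9Mt t (q+k) τ' σ then Φ τ' else 0) = l9Wk ms N t σ k q * l9Cs ms N t σ k q τ Φ`.
* `l9c_forget`  : FORGET: old labels which the summand does not see may be deleted; factor `c` for each new label whose block loses all its earlier labels.
* `L9Gh N t D n σ a` : GHOST DATA: target on `D + n` labels, ghosts `A < D` in pairwise different blocks, the slot `s` (= label `D + s`) in the block of the ghost `a s`.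
* `l9c_ghost`   : S3:  `l9It ms N t (map a (range n)) D sk (Φ ∘ forget the ghosts) = c ^ (number of blocks) * l9Cs ms N t (σ on the slots) n 0 τ₀ Φ`;   `L9Gh.nb`: number of blocks `= D`;
                  `l9c_cs_first`: `l9Cs .. (m+1) 0 τ₀ Φ = l9Cs .. m 1 τ₁ Φ`.
* `l9c_ind_slots` : S4: ghost anchors, summand `∏_P G P (table on the slots)`, `G P` sees only the slots `s` with `pt s = P`:  the iterated block sum is `∏_P` (iterated block sum of the slots of `P` alone,
                  renumbered `D, D+1, ..` by `l9Rk`).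
* `l9Mo ms N c D n skG β e M P` : INTERNAL MOMENT of a set of edges `P` (`e s` = edge of the slot `s`; `M P τ` = moment of `P` at the table `τ`).   `l9c_it_parts` : one partition.
* **`l9c_lc1_cum`** : END FORM (with `l9k_cut` of 276, `l9Cum` of 271):
      `l9aWt ms N 1 D skG * l9Cum (l9Mo ms N c D n skG β e M) A = c ^ D * ∑_{τ ∈ l9aTab N n, l9rTc n c τ = sk} l9aWt ms N 1 n τ * l9Cum (fun P => M P τ) A`.
  What is left of LC1 = KEY: `l9Mo .. P = Γ.mom L c s P` for `M P τ = nuK[∏ spins of the slots of P]`.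
-/

set_option autoImplicit false

namespace Claimed.Agent.R286

/-- the map of labels extended to all the new labels: `p + i ↦ q + i` -/
def l9Sh (L : ℕ → ℕ) (p q : ℕ) : ℕ → ℕ := fun i => if i < p then L i else i - p + q

theorem l9c_sh_up (L : ℕ → ℕ) (p q : ℕ) : l9Sh (l9Up L p q) (p + 1) (q + 1) = l9Sh L p q := by
  funext i
  unfold l9Sh l9Up
  by_cases h1 : i < p
  · rw [if_pos (by omega), if_neg (by omega), if_pos h1]
  · by_cases h2 : i = p
    · rw [if_pos (by omega), if_pos h2, if_neg h1]; omega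
    · rw [if_neg (by omega), if_neg h1]; omega

/-- **S1, k-fold PROJ** -/
theorem l9c_it_proj (ms : ℕ → ℝ) {N t : ℕ} (ht : t ≤ N + 1) (As : List ℕ) :
    ∀ (p q : ℕ) (τ : ℕ → ℕ → ℕ) (L : ℕ → ℕ) (Ψ : (ℕ → ℕ → ℕ) → ℝ),
      IsTr N q τ → L9Emb p q L → (∀ A ∈ As, A < p) → L9Loc (p + As.length) Ψ →
      l9It ms N t (As.map L) q τ (fun τ' => Ψ (l9Pb τ' (l9Sh L p q))) = l9It ms N t As p (l9Pb τ L) Ψ := by
  induction As with
  | nil =>
    intro p q τ L Ψ _ _ _ hΨ
    simp only [List.map_nil, l9It]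
    apply hΨ
    intro y z hy hz
    simp only [List.length_nil, add_zero] at hy hz
    simp [l9Pb, l9Sh, hy, hz]
  | cons A As ih =>
    intro p q τ L Ψ hτ hL hAs hΨ
    have hA : A < p := hAs A (by simp)
    have hAs' : ∀ A' ∈ As, A' < p := fun A' h => hAs A' (by simp [h])
    have hlen : p + 1 + As.length = p + (A :: As).length := by simp; omega
    have hΨ' : L9Loc (p + 1 + As.length) Ψ := by rw [hlen]; exact hΨ
    set Ψ₁ : (ℕ → ℕ → ℕ) → ℝ := fun σ => l9It ms N t As (p + 1) σ Ψ with hΨ₁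
    have hloc : L9Loc (p + 1) Ψ₁ := by
      intro σ₁ σ₂ h
      exact l9p_it_loc ms N t As (p + 1) σ₁ σ₂ Ψ h (fun x hx => lt_trans (hAs' x hx) (Nat.lt_succ_self p)) hΨ'
    have hmap : As.map (l9Up L p q) = As.map L := by
      apply List.map_congr_left
      intro A' hA'
      have := hAs' A' hA'
      unfold l9Up
      rw [if_neg (by omega)]
    have hstep : ∀ j y, t ≤ j → j ≤ N + 1 → y < q → t ≤ τ (L A) y →
        l9It ms N t (As.map L) (q + 1) (trAtt N q τ y j) (fun τ' => Ψ (l9Pb τ' (l9Sh L p q)))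
          = Ψ₁ (l9Pb (trAtt N q τ y j) (l9Up L p q)) := by
      intro j y _ hj hy _
      rw [← hmap, ← l9c_sh_up L p q]
      exact ih (p + 1) (q + 1) (trAtt N q τ y j) (l9Up L p q) Ψ (l9p_att_isTr hτ hy hj) (l9p_up_emb hL)
        (fun A' h => lt_trans (hAs' A' h) (Nat.lt_succ_self p)) hΨ'
    simp only [List.map_cons, l9It]
    rw [l9p_in_congr ms N q τ t (L A) hstep, l9p_proj hτ hL ms ht hA Ψ₁ hloc]

/-! ### birth data, tables matching a target at the cut -/

/-- birth depth of the label `q` in the table `σ`: the number of stages which it shares with the labels `< q` -/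
def l9Bj (σ : ℕ → ℕ → ℕ) (q : ℕ) : ℕ := (Finset.range q).sup fun y => σ q y

/-- birth anchor: the least label which shares `l9Bj σ q` stages with `q` -/
noncomputable def l9Bx (σ : ℕ → ℕ → ℕ) (q : ℕ) : ℕ := l9Anc σ (l9Bj σ q) q

theorem l9c_le_bj (σ : ℕ → ℕ → ℕ) {q y : ℕ} (hy : y < q) : σ q y ≤ l9Bj σ q :=
  Finset.le_sup (f := fun y => σ q y) (Finset.mem_range.mpr hy)

/-- the birth data of the label `q ≥ 1` -/
theorem l9c_birth {N q : ℕ} {σ : ℕ → ℕ → ℕ} (hσ : IsTr N (q + 1) σ) (hq : 1 ≤ q) :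
    l9Bx σ q < q ∧ l9Bj σ q ≤ N + 1 ∧ σ q (l9Bx σ q) = l9Bj σ q ∧ (∀ y, y < l9Bx σ q → σ q y < l9Bj σ q) ∧
      ∀ z, z < q → σ q z = min (l9Bj σ q) (σ (l9Bx σ q) z) := by
  have hj : l9Bj σ q ≤ N + 1 :=
    Finset.sup_le fun y hy => hσ.le q y (by omega) (by rw [Finset.mem_range] at hy; omega)
  obtain ⟨y0, hy0, hy0e⟩ := Finset.exists_mem_eq_sup (Finset.range q) ⟨0, Finset.mem_range.mpr hq⟩ (fun y => σ q y)
  rw [Finset.mem_range] at hy0
  have hx0 : l9Bx σ q ≤ y0 := Nat.sInf_le (show l9Bj σ q ≤ σ q y0 from hy0e.le)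
  have hx : l9Bx σ q < q := by omega
  obtain ⟨_, a2, _⟩ := l9p_anc_spec hσ hj (Nat.lt_succ_self q)
  have he : σ q (l9Bx σ q) = l9Bj σ q := le_antisymm (l9c_le_bj σ hx) a2
  refine ⟨hx, hj, he, ?_, ?_⟩
  · intro y hy
    by_contra hcon
    exact Nat.notMem_of_lt_sInf hy (show l9Bj σ q ≤ σ q y from not_lt.mp hcon)
  · intro z hz
    have u1 := hσ.ultra q (l9Bx σ q) z (by omega) (by omega) (by omega)
    have u2 := hσ.ultra (l9Bx σ q) q z (by omega) (by omega) (by omega)
    have u3 := hσ.symm q (l9Bx σ q) (by omega) (by omega)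
    have u4 := l9c_le_bj σ hz
    omega

/-- `τ` matches the target `σ` at the cut of depth `t` on the labels `< q` -/
def L9Mt (t q : ℕ) (τ σ : ℕ → ℕ → ℕ) : Prop := ∀ y z, y < q → z < q → y ≠ z → min (τ y z) t = σ y z

/-- a target: a tree whose distinct labels share at most `t` stages -/
structure L9Tg (N t n : ℕ) (σ : ℕ → ℕ → ℕ) : Prop where
  tr : IsTr N n σ
  cap : ∀ y z, y < n → z < n → y ≠ z → σ y z ≤ t

theorem L9Tg.mono {N t n n' : ℕ} {σ : ℕ → ℕ → ℕ} (h : L9Tg N t n σ) (hn : n' ≤ n) : L9Tg N t n' σ where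
  tr := ⟨fun x y hx hy => h.tr.le x y (by omega) (by omega), fun x hx => h.tr.diag x (by omega),
    fun x y hx hy => h.tr.symm x y (by omega) (by omega),
    fun x y z hx hy hz => h.tr.ultra x y z (by omega) (by omega) (by omega)⟩
  cap := fun y z hy hz => h.cap y z (by omega) (by omega)

theorem l9c_bj_le {N t q : ℕ} {σ : ℕ → ℕ → ℕ} (h : L9Tg N t (q + 1) σ) : l9Bj σ q ≤ t :=
  Finset.sup_le fun y hy => h.cap q y (by omega) (by rw [Finset.mem_range] at hy; omega)
    (by rw [Finset.mem_range] at hy; omega)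

/-- attachment inside the block of the birth anchor: the enlarged table matches the target -/
theorem l9c_mt_join {N t q : ℕ} {τ σ : ℕ → ℕ → ℕ} (hτ : IsTr N q τ) (hσ : L9Tg N t (q + 1) σ) (hm : L9Mt t q τ σ)
    (ht : t ≤ N + 1) (hq : 1 ≤ q) (hb : t ≤ l9Bj σ q) {y j : ℕ} (hy : y < q) (hj : t ≤ j) (hyb : t ≤ τ (l9Bx σ q) y) :
    L9Mt t (q + 1) (trAtt N q τ y j) σ := by
  obtain ⟨b1, _, b3, _, _⟩ := l9c_birth hσ.tr hq
  have hbj : l9Bj σ q = t := le_antisymm (l9c_bj_le hσ) hb
  -- `σ q y = t`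
  have hqy : σ q y = t := by
    by_cases hxy : l9Bx σ q = y
    · rw [← hxy, b3, hbj]
    · have h1 := hm (l9Bx σ q) y b1 hy hxy
      have h2 := hσ.tr.ultra q (l9Bx σ q) y (by omega) (by omega) (by omega)
      have h3 := hσ.cap q y (by omega) (by omega) (by omega)
      omega
  have hrow : ∀ z, z < q → min (min j (τ y z)) t = σ q z := by
    intro z hz
    by_cases hyz : y = z
    · subst hyz
      rw [hτ.diag y hy, hqy]; omega
    · have h1 := hm y z hy hz hyz
      have h2 := hσ.tr.ultra q y z (by omega) (by omega) (by omega)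
      have h3 := hσ.tr.ultra y q z (by omega) (by omega) (by omega)
      have h4 := hσ.tr.symm q y (by omega) (by omega)
      have h5 := hσ.cap q z (by omega) (by omega) (by omega)
      have h6 := hσ.cap y z (by omega) (by omega) hyz
      omega
  intro a b ha hb' hab
  unfold trAtt
  by_cases h1 : a = q
  · have h2 : b ≠ q := fun h => hab (h1.trans h.symm)
    rw [if_pos h1, if_neg h2, h1]
    exact hrow b (by omega)
  · by_cases h2 : b = q
    · rw [if_neg h1, if_pos h2, h2, hτ.symm a y (by omega) hy, hσ.tr.symm a q (by omega) (by omega)]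
      exact hrow a (by omega)
    · rw [if_neg h1, if_neg h2]
      exact hm a b (by omega) (by omega) hab

/-- the fixed attachment of a label which starts a new block: the enlarged table matches the target -/
theorem l9c_mt_new {N t q : ℕ} {τ σ : ℕ → ℕ → ℕ} (hτ : IsTr N q τ) (hσ : L9Tg N t (q + 1) σ) (hm : L9Mt t q τ σ)
    (hb : l9Bj σ q < t) : L9Mt t (q + 1) (trAtt N q τ (l9Bx σ q) (l9Bj σ q)) σ := by
  rcases Nat.eq_zero_or_pos q with rfl | hq
  · intro a b ha hb' hab; omega
  obtain ⟨b1, b2, b3, _, b5⟩ := l9c_birth hσ.tr hq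
  have hrow : ∀ z, z < q → min (min (l9Bj σ q) (τ (l9Bx σ q) z)) t = σ q z := by
    intro z hz
    rw [b5 z hz]
    by_cases hxz : l9Bx σ q = z
    · rw [← hxz, hτ.diag _ b1, hσ.tr.diag _ (by omega)]; omega
    · have h1 := hm (l9Bx σ q) z b1 hz hxz
      omega
  intro a b ha hb' hab
  unfold trAtt
  by_cases h1 : a = q
  · have h2 : b ≠ q := fun h => hab (h1.trans h.symm)
    rw [if_pos h1, if_neg h2, h1]
    exact hrow b (by omega)
  · by_cases h2 : b = q
    · rw [if_neg h1, if_pos h2, h2, hτ.symm a _ (by omega) b1, hσ.tr.symm a q (by omega) (by omega)]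
      exact hrow a (by omega)
    · rw [if_neg h1, if_neg h2]
      exact hm a b (by omega) (by omega) hab

/-! ### the constrained sums -/

/-- **constrained sum**: the labels `q, .., q + k - 1` are attached successively so that the table matches the target `σ` at the cut of depth `t`:
a label which joins an earlier block is summed over all the attachments inside this block (with the signed weights);
a label which starts a new block has ONE attachment (its weight, which depends on `σ` only, is NOT included). -/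
noncomputable def l9Cs (ms : ℕ → ℝ) (N t : ℕ) (σ : ℕ → ℕ → ℕ) : ℕ → ℕ → (ℕ → ℕ → ℕ) → ((ℕ → ℕ → ℕ) → ℝ) → ℝ
  | 0, _, τ, Φ => Φ τ
  | k + 1, q, τ, Φ =>
      if t ≤ l9Bj σ q then l9In ms N q τ t (l9Bx σ q) fun j y => l9Cs ms N t σ k (q + 1) (trAtt N q τ y j) Φ
      else l9Cs ms N t σ k (q + 1) (trAtt N q τ (l9Bx σ q) (l9Bj σ q)) Φ

theorem l9c_isTr_mono {N n n' : ℕ} {σ : ℕ → ℕ → ℕ} (h : IsTr N n σ) (hn : n' ≤ n) : IsTr N n' σ :=
  ⟨fun x y hx hy => h.le x y (by omega) (by omega), fun x hx => h.diag x (by omega),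
    fun x y hx hy => h.symm x y (by omega) (by omega),
    fun x y z hx hy hz => h.ultra x y z (by omega) (by omega) (by omega)⟩

theorem l9c_att_loc (N : ℕ) {q : ℕ} {τ τ' : ℕ → ℕ → ℕ} (h : ∀ y z, y < q → z < q → τ y z = τ' y z) (j : ℕ) {x : ℕ}
    (hx : x < q ∨ q = 0) {y z : ℕ} (hy : y < q + 1) (hz : z < q + 1) : trAtt N q τ x j y z = trAtt N q τ' x j y z := by
  rcases hx with hx | rfl
  · exact l9p_att_loc N h j hx hy hz
  · have h1 : y = 0 := by omega
    have h2 : z = 0 := by omega
    simp [trAtt, h1, h2]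

theorem l9c_att_isTr {N q : ℕ} {τ : ℕ → ℕ → ℕ} (hτ : IsTr N q τ) {x j : ℕ} (hx : x < q ∨ q = 0) (hj : j ≤ N + 1) :
    IsTr N (q + 1) (trAtt N q τ x j) := by
  rcases hx with hx | rfl
  · exact l9p_att_isTr hτ hx hj
  · refine ⟨?_, ?_, ?_, ?_⟩
    · intro y z hy hz
      have h1 : y = 0 := by omega
      have h2 : z = 0 := by omega
      simp [trAtt, h1, h2]
    · intro y hy
      have h1 : y = 0 := by omega
      simp [trAtt, h1]
    · intro y z hy hz
      have h1 : y = 0 := by omega
      have h2 : z = 0 := by omega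
      simp [h1, h2]
    · intro y z w hy hz hw
      have h1 : y = 0 := by omega
      have h2 : z = 0 := by omega
      have h3 : w = 0 := by omega
      simp [h1, h2, h3]

theorem l9c_bx_lt {N q : ℕ} {σ : ℕ → ℕ → ℕ} (hσ : IsTr N (q + 1) σ) : l9Bx σ q < q ∨ q = 0 := by
  rcases Nat.eq_zero_or_pos q with h | h
  · exact Or.inr h
  · exact Or.inl (l9c_birth hσ h).1

theorem l9c_bj_zero (σ : ℕ → ℕ → ℕ) : l9Bj σ 0 = 0 := by simp [l9Bj]

/-- locality of the constrained sums -/
theorem l9c_cs_loc (ms : ℕ → ℝ) {N t : ℕ} (ht1 : 1 ≤ t) (σ : ℕ → ℕ → ℕ) (k : ℕ) :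
    ∀ (q : ℕ) (τ τ' : ℕ → ℕ → ℕ) (Φ : (ℕ → ℕ → ℕ) → ℝ), IsTr N (q + k) σ →
      (∀ y z, y < q → z < q → τ y z = τ' y z) → L9Loc (q + k) Φ →
      l9Cs ms N t σ k q τ Φ = l9Cs ms N t σ k q τ' Φ := by
  induction k with
  | zero =>
    intro q τ τ' Φ _ h hΦ
    exact hΦ τ τ' (by simpa using h)
  | succ k ih =>
    intro q τ τ' Φ hσ h hΦ
    have hσ1 : IsTr N (q + 1) σ := l9c_isTr_mono hσ (by omega)
    have hσ' : IsTr N (q + 1 + k) σ := by rw [show q + 1 + k = q + (k + 1) by omega]; exact hσ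
    have hΦ' : L9Loc (q + 1 + k) Φ := by rw [show q + 1 + k = q + (k + 1) by omega]; exact hΦ
    unfold l9Cs
    by_cases hb : t ≤ l9Bj σ q
    · rw [if_pos hb, if_pos hb]
      have hq : 1 ≤ q := by
        rcases Nat.eq_zero_or_pos q with rfl | hq
        · rw [l9c_bj_zero] at hb; omega
        · exact hq
      apply l9p_in_loc ms N h t (l9c_birth hσ1 hq).1
      intro j y _ _ hy _
      exact ih (q + 1) _ _ Φ hσ' (fun y' z' hy' hz' => l9p_att_loc N h j hy hy' hz') hΦ'
    · rw [if_neg hb, if_neg hb]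
      exact ih (q + 1) _ _ Φ hσ' (fun y' z' hy' hz' => l9c_att_loc N h _ (l9c_bx_lt hσ1) hy' hz') hΦ'

/-! ### positions of the labels of the parts -/

section parts
variable {κ : Type} [DecidableEq κ]

/-- final positions of the labels of the parts: the successive new labels `q, q + 1, ..` belong to the parts `sl`;
`p P` labels of the part `P` are already placed, at the positions `L P` -/
def l9Ps : List κ → ℕ → (κ → ℕ) → (κ → ℕ → ℕ) → κ → ℕ → ℕ
  | [], _, _, L => L
  | P :: sl, q, p, L => l9Ps sl (q + 1) (Function.update p P (p P + 1)) (Function.update L P (l9Up (L P) (p P) q))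

theorem l9c_ps_old (sl : List κ) : ∀ (q : ℕ) (p : κ → ℕ) (L : κ → ℕ → ℕ) (P : κ) (i : ℕ), i < p P →
    l9Ps sl q p L P i = L P i := by
  induction sl with
  | nil => intro q p L P i _; rfl
  | cons P0 sl ih =>
    intro q p L P i hi
    unfold l9Ps
    by_cases hP : P = P0
    · subst hP
      rw [ih _ _ _ P i (by simp; omega)]
      simp only [Function.update_self, l9Up]
      rw [if_neg (by omega)]
    · rw [ih _ _ _ P i (by simpa [Function.update_of_ne hP] using hi)]
      simp [Function.update_of_ne hP]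

theorem l9c_ps_head (P0 : κ) (sl : List κ) (q : ℕ) (p : κ → ℕ) (L : κ → ℕ → ℕ) :
    l9Ps (P0 :: sl) q p L P0 (p P0) = q := by
  unfold l9Ps
  rw [l9c_ps_old sl _ _ _ P0 (p P0) (by simp)]
  simp [l9Up]

theorem l9c_ps_emb (sl : List κ) : ∀ (q : ℕ) (p : κ → ℕ) (L : κ → ℕ → ℕ), (∀ P, L9Emb (p P) q (L P)) →
    ∀ P, L9Emb (p P + sl.count P) (q + sl.length) (l9Ps sl q p L P) := by
  induction sl with
  | nil => intro q p L h P; simpa [l9Ps] using h P
  | cons P0 sl ih =>
    intro q p L h P
    unfold l9Ps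
    have h' : ∀ P', L9Emb (Function.update p P0 (p P0 + 1) P') (q + 1)
        (Function.update L P0 (l9Up (L P0) (p P0) q) P') := by
      intro P'
      by_cases hP : P' = P0
      · subst hP
        simp only [Function.update_self]
        exact l9p_up_emb (h P')
      · simp only [Function.update_of_ne hP]
        exact ⟨fun i hi => lt_trans ((h P').lt i hi) (Nat.lt_succ_self q), (h P').inj⟩
    have := ih (q + 1) _ _ h' P
    have e1 : q + 1 + sl.length = q + (P0 :: sl).length := by simp; omega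
    rw [e1] at this
    by_cases hP : P = P0
    · subst hP
      simp only [Function.update_self] at this
      rw [List.count_cons_self, show p P + (sl.count P + 1) = p P + 1 + sl.count P by omega]
      exact this
    · simp only [Function.update_of_ne hP] at this
      rw [List.count_cons_of_ne (fun h => hP h.symm)]
      exact this

/-- number of the labels which join an earlier block of the whole table but start a new block of their part -/
def l9Ex (t : ℕ) (σ : ℕ → ℕ → ℕ) : List κ → ℕ → (κ → ℕ) → (κ → ℕ → ℕ) → ℕ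
  | [], _, _, _ => 0
  | P :: sl, q, p, L =>
      (if t ≤ l9Bj σ q ∧ ¬ t ≤ (Finset.range (p P)).sup (fun i => σ q (L P i)) then 1 else 0)
        + l9Ex t σ sl (q + 1) (Function.update p P (p P + 1)) (Function.update L P (l9Up (L P) (p P) q))

end parts

/-- ROW: the new label starts a new block of the part: its row in the restricted table is prescribed by the target -/
theorem l9c_row {N t q pp : ℕ} {τ τ₁ σ : ℕ → ℕ → ℕ} {L M : ℕ → ℕ} (hτ : IsTr N q τ) (hτ₁ : IsTr N (q + 1) τ₁)
    (hold : ∀ y z, y < q → z < q → τ₁ y z = τ y z) (hm : L9Mt t (q + 1) τ₁ σ) (hL : L9Emb pp q L)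
    (hσ₀ : IsTr N (pp + 1) (l9Pb σ M)) (hM1 : ∀ i, i < pp → M i = L i) (hM2 : M pp = q)
    (hb : l9Bj (l9Pb σ M) pp < t) {i k : ℕ} (hi : i < pp + 1) (hk : k < pp + 1) :
    l9Pb τ₁ (l9Up L pp q) i k = trAtt N pp (l9Pb τ L) (l9Bx (l9Pb σ M) pp) (l9Bj (l9Pb σ M) pp) i k := by
  set σ₀ := l9Pb σ M with hσ₀d
  have hrow : ∀ k, k < pp → τ₁ q (L k) = min (l9Bj σ₀ pp) (τ (L (l9Bx σ₀ pp)) (L k)) := by
    intro k hk
    have hpp : 1 ≤ pp := by omega
    obtain ⟨b1, b2, b3, _, b5⟩ := l9c_birth hσ₀ hpp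
    have hLk := hL.lt k hk
    have h1 := hm q (L k) (by omega) (by omega) (by omega)
    have h2 : σ₀ pp k = σ q (L k) := by simp only [hσ₀d, l9Pb]; rw [hM2, hM1 k hk]
    have h3 := l9c_le_bj σ₀ hk
    have h4 := b5 k hk
    by_cases hxk : l9Bx σ₀ pp = k
    · rw [hxk, hτ.diag _ hLk]
      rw [hxk, hσ₀.diag k (by omega)] at h4
      omega
    · have hLx := hL.lt _ b1
      have hne : L (l9Bx σ₀ pp) ≠ L k := fun h => hxk (hL.inj _ _ b1 hk h)
      have h5 := hm (L (l9Bx σ₀ pp)) (L k) (by omega) (by omega) hne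
      rw [hold _ _ hLx hLk] at h5
      have h6 : σ₀ (l9Bx σ₀ pp) k = σ (L (l9Bx σ₀ pp)) (L k) := by
        simp only [hσ₀d, l9Pb]; rw [hM1 _ b1, hM1 k hk]
      omega
  unfold l9Pb l9Up trAtt
  by_cases h1 : i = pp
  · by_cases h2 : k = pp
    · simp only [h1, h2, if_true]
      exact hτ₁.diag q (by omega)
    · simp only [h1, h2, if_true, if_false]
      exact hrow k (by omega)
  · by_cases h2 : k = pp
    · simp only [h1, h2, if_true, if_false]
      have hi' : i < pp := by omega
      have hpp : 1 ≤ pp := by omega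
      have b1 := (l9c_birth hσ₀ hpp).1
      rw [hτ₁.symm (L i) q (by have := hL.lt i hi'; omega) (by omega), hrow i hi',
        hτ.symm (L i) _ (hL.lt i hi') (hL.lt _ b1)]
    · simp only [h1, h2, if_false]
      exact hold _ _ (hL.lt i (by omega)) (hL.lt k (by omega))

theorem l9c_pb_tg {N t n m : ℕ} {σ : ℕ → ℕ → ℕ} {M : ℕ → ℕ} (hσ : L9Tg N t n σ) (hM : L9Emb m n M) : L9Tg N t m (l9Pb σ M) where
  tr := l9p_pb_isTr hσ.tr hM
  cap := fun y z hy hz hyz => hσ.cap _ _ (hM.lt y hy) (hM.lt z hz) (fun h => hyz (hM.inj y z hy hz h))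

/-! ### FORGET: constrained sums of a summand which sees only a part of the old labels -/

theorem l9c_sh_emb {p q : ℕ} {L : ℕ → ℕ} (hL : L9Emb p q L) (k : ℕ) : L9Emb (p + k) (q + k) (l9Sh L p q) where
  lt := by
    intro i hi
    unfold l9Sh
    by_cases h : i < p
    · rw [if_pos h]; have := hL.lt i h; omega
    · rw [if_neg h]; omega
  inj := by
    intro i k' hi hk h
    unfold l9Sh at h
    by_cases h1 : i < p
    · by_cases h2 : k' < p
      · rw [if_pos h1, if_pos h2] at h; exact hL.inj i k' h1 h2 h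
      · rw [if_pos h1, if_neg h2] at h; have := hL.lt i h1; omega
    · by_cases h2 : k' < p
      · rw [if_neg h1, if_pos h2] at h; have := hL.lt k' h2; omega
      · rw [if_neg h1, if_neg h2] at h; omega

/-- number of the new labels which join an earlier block of the whole table but start a new block of the retained part -/
def l9Ex1 (t : ℕ) (σ : ℕ → ℕ → ℕ) : ℕ → ℕ → ℕ → (ℕ → ℕ) → ℕ
  | 0, _, _, _ => 0
  | k + 1, q, p, L =>
      (if t ≤ l9Bj σ q ∧ ¬ t ≤ l9Bj (l9Pb σ (l9Sh L p q)) p then 1 else 0) + l9Ex1 t σ k (q + 1) (p + 1) (l9Up L p q)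

/-- **FORGET**.  The old labels `L 0, .., L (p-1)` are retained, the other old labels are forgotten, all the new labels are retained.
The constrained sum of a summand which sees the retained labels only is the constrained sum in the restricted table (with the restricted target), times
one factor `c = trPm ms t` for each new label which joins a block all of whose earlier labels are forgotten. -/
theorem l9c_forget (ms : ℕ → ℝ) {N t : ℕ} (ht : t ≤ N + 1) (ht1 : 1 ≤ t) (σ : ℕ → ℕ → ℕ) (k : ℕ) :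
    ∀ (q p : ℕ) (τ : ℕ → ℕ → ℕ) (L : ℕ → ℕ) (F : (ℕ → ℕ → ℕ) → ℝ),
      IsTr N q τ → L9Tg N t (q + k) σ → L9Mt t q τ σ → L9Emb p q L → L9Loc (p + k) F →
      l9Cs ms N t σ k q τ (fun τ' => F (l9Pb τ' (l9Sh L p q)))
        = trPm ms t ^ l9Ex1 t σ k q p L * l9Cs ms N t (l9Pb σ (l9Sh L p q)) k p (l9Pb τ L) F := by
  induction k with
  | zero =>
    intro q p τ L F _ _ _ _ hF
    simp only [l9Cs, l9Ex1, pow_zero, one_mul]
    apply hF
    intro y z hy hz
    simp only [add_zero] at hy hz
    simp [l9Pb, l9Sh, hy, hz]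
  | succ k ih =>
    intro q p τ L F hτ hσ hm hL hF
    set M := l9Sh L p q with hM
    set σ₀ := l9Pb σ M with hσ₀d
    have hMemb : L9Emb (p + (k + 1)) (q + (k + 1)) M := l9c_sh_emb hL (k + 1)
    have hσ₀ : L9Tg N t (p + (k + 1)) σ₀ := l9c_pb_tg hσ hMemb
    have hσ₀1 : IsTr N (p + 1) σ₀ := l9c_isTr_mono hσ₀.tr (by omega)
    have hσ1 : L9Tg N t (q + 1) σ := hσ.mono (by omega)
    have hσ' : L9Tg N t (q + 1 + k) σ := by rw [show q + 1 + k = q + (k + 1) by omega]; exact hσ
    have hF' : L9Loc (p + 1 + k) F := by rw [show p + 1 + k = p + (k + 1) by omega]; exact hF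
    have hM1 : ∀ i, i < p → M i = L i := by intro i hi; simp [hM, l9Sh, hi]
    have hM2 : M p = q := by simp [hM, l9Sh]
    set Ψ₁ : (ℕ → ℕ → ℕ) → ℝ := fun ρ => l9Cs ms N t σ₀ k (p + 1) ρ F with hΨ₁
    have hΨloc : L9Loc (p + 1) Ψ₁ := by
      intro ρ₁ ρ₂ h
      exact l9c_cs_loc ms ht1 σ₀ k (p + 1) ρ₁ ρ₂ F
        (by rw [show p + 1 + k = p + (k + 1) by omega]; exact hσ₀.tr) h hF'
    set e' := l9Ex1 t σ k (q + 1) (p + 1) (l9Up L p q) with he'
    -- the induction hypothesis at an enlarged table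
    have hih : ∀ τ₁, IsTr N (q + 1) τ₁ → L9Mt t (q + 1) τ₁ σ →
        l9Cs ms N t σ k (q + 1) τ₁ (fun τ' => F (l9Pb τ' M)) = trPm ms t ^ e' * Ψ₁ (l9Pb τ₁ (l9Up L p q)) := by
      intro τ₁ h1 h2
      have := ih (q + 1) (p + 1) τ₁ (l9Up L p q) F h1 hσ' h2 (l9p_up_emb hL) hF'
      rw [l9c_sh_up L p q] at this
      exact this
    -- birth depth of the new label in the part
    have hbjle : l9Bj σ₀ p ≤ l9Bj σ q := by
      apply Finset.sup_le
      intro i hi
      rw [Finset.mem_range] at hi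
      have : σ₀ p i = σ q (L i) := by simp only [hσ₀d, l9Pb]; rw [hM2, hM1 i hi]
      rw [this]
      exact l9c_le_bj σ (hL.lt i hi)
    have hLHS : l9Cs ms N t σ (k + 1) q τ (fun τ' => F (l9Pb τ' M))
        = if t ≤ l9Bj σ q then l9In ms N q τ t (l9Bx σ q) fun j y => l9Cs ms N t σ k (q + 1) (trAtt N q τ y j) (fun τ' => F (l9Pb τ' M))
          else l9Cs ms N t σ k (q + 1) (trAtt N q τ (l9Bx σ q) (l9Bj σ q)) (fun τ' => F (l9Pb τ' M)) := by
      rw [l9Cs]
    have hRHS : l9Cs ms N t σ₀ (k + 1) p (l9Pb τ L) F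
        = if t ≤ l9Bj σ₀ p then l9In ms N p (l9Pb τ L) t (l9Bx σ₀ p) fun j y => Ψ₁ (trAtt N p (l9Pb τ L) y j)
          else Ψ₁ (trAtt N p (l9Pb τ L) (l9Bx σ₀ p) (l9Bj σ₀ p)) := by
      rw [l9Cs]
    have hEx : l9Ex1 t σ (k + 1) q p L = (if t ≤ l9Bj σ q ∧ ¬ t ≤ l9Bj σ₀ p then 1 else 0) + e' := by
      rw [l9Ex1]
    rw [hLHS, hRHS, hEx]
    by_cases hb : t ≤ l9Bj σ q
    · -- the new label joins an earlier block of the whole table
      rw [if_pos hb]
      have hq : 1 ≤ q := by
        rcases Nat.eq_zero_or_pos q with rfl | hq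
        · rw [l9c_bj_zero] at hb; omega
        · exact hq
      obtain ⟨b1, _, b3, _, _⟩ := l9c_birth hσ1.tr hq
      have hbj : l9Bj σ q = t := le_antisymm (l9c_bj_le hσ1) hb
      have hstep : ∀ j y, t ≤ j → j ≤ N + 1 → y < q → t ≤ τ (l9Bx σ q) y →
          l9Cs ms N t σ k (q + 1) (trAtt N q τ y j) (fun τ' => F (l9Pb τ' M))
            = Ψ₁ (l9Pb (trAtt N q τ y j) (l9Up L p q)) * trPm ms t ^ e' := by
        intro j y hj1 hj2 hy hyb
        rw [hih _ (l9p_att_isTr hτ hy hj2) (l9c_mt_join hτ hσ1 hm ht hq hb hy hj1 hyb), mul_comm]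
      rw [l9p_in_congr ms N q τ t (l9Bx σ q) hstep, l9p_in_mul_const]
      by_cases hbP : t ≤ l9Bj σ₀ p
      · -- (a) it joins an earlier block of the part
        rw [if_pos hbP, if_neg (fun h => h.2 hbP), zero_add]
        have hp : 1 ≤ p := by
          rcases Nat.eq_zero_or_pos p with rfl | hp
          · rw [l9c_bj_zero] at hbP; omega
          · exact hp
        obtain ⟨c1, _, c3, _, _⟩ := l9c_birth hσ₀1 hp
        have hbjP : l9Bj σ₀ p = t := le_antisymm (le_trans hbjle (l9c_bj_le hσ1)) hbP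
        have hc3 : σ q (L (l9Bx σ₀ p)) = t := by
          have : σ₀ p (l9Bx σ₀ p) = σ q (L (l9Bx σ₀ p)) := by simp only [hσ₀d, l9Pb]; rw [hM2, hM1 _ c1]
          rw [← this, c3, hbjP]
        have hLx := hL.lt _ c1
        have hanch : t ≤ τ (l9Bx σ q) (L (l9Bx σ₀ p)) := by
          by_cases hxx : l9Bx σ q = L (l9Bx σ₀ p)
          · rw [← hxx, hτ.diag _ b1]; exact ht
          · have h1 := hm _ _ b1 hLx hxx
            have h2 := hσ1.tr.ultra (l9Bx σ q) q (L (l9Bx σ₀ p)) (by omega) (by omega) (by omega)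
            have h3 := hσ1.tr.symm q (l9Bx σ q) (by omega) (by omega)
            omega
        rw [← l9p_in_anchor hτ ms b1 hLx hanch, l9p_proj hτ hL ms ht c1 Ψ₁ hΨloc, mul_comm]
      · -- (b) all the earlier labels of its block are forgotten
        rw [if_neg hbP, if_pos ⟨hb, hbP⟩]
        have hconst : ∀ j y, t ≤ j → j ≤ N + 1 → y < q → t ≤ τ (l9Bx σ q) y →
            Ψ₁ (l9Pb (trAtt N q τ y j) (l9Up L p q)) = Ψ₁ (trAtt N p (l9Pb τ L) (l9Bx σ₀ p) (l9Bj σ₀ p)) := by
          intro j y hj1 hj2 hy hyb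
          apply hΨloc
          intro i k' hi hk'
          exact l9c_row hτ (l9p_att_isTr hτ hy hj2) (fun a b ha hb' => l9p_att_old N q τ y j ha hb')
            (l9c_mt_join hτ hσ1 hm ht hq hb hy hj1 hyb) hL hσ₀1 hM1 hM2 (not_le.1 hbP) hi hk'
        rw [l9p_in_const hτ ms ht b1 _ _ hconst]
        ring
    · -- (c) the new label starts a new block
      have hbP : ¬ t ≤ l9Bj σ₀ p := fun h => hb (le_trans h hbjle)
      rw [if_neg hb, if_neg hbP, if_neg (fun h => hb h.1), zero_add]
      have hj2 : l9Bj σ q ≤ N + 1 := le_trans (l9c_bj_le hσ1) ht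
      have hτ₁ : IsTr N (q + 1) (trAtt N q τ (l9Bx σ q) (l9Bj σ q)) := l9c_att_isTr hτ (l9c_bx_lt hσ1.tr) hj2
      have hm₁ := l9c_mt_new hτ hσ1 hm (not_le.1 hb)
      rw [hih _ hτ₁ hm₁]
      congr 1
      apply hΨloc
      intro i k' hi hk'
      exact l9c_row hτ hτ₁ (fun a b ha hb' => l9p_att_old N q τ _ _ ha hb') hm₁ hL hσ₀1 hM1 hM2 (not_le.1 hbP) hi hk'

/-! ### S2: the fibre of the signed sum over a target -/

theorem l9c_sumK_zero (ms : ℕ → ℝ) (N k : ℕ) : ∀ (q : ℕ) (τ : ℕ → ℕ → ℕ), trSumK ms N k q τ (fun _ => 0) = 0 := by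
  induction k with
  | zero => intro q τ; rfl
  | succ k ih =>
    intro q τ
    simp only [trSumK, trSum, ih, mul_zero, Finset.sum_const_zero]

/-- the signed sum sees the summand only at the trees which extend the old table -/
theorem l9c_sumK_congr (ms : ℕ → ℝ) (N k : ℕ) : ∀ (q : ℕ) (τ : ℕ → ℕ → ℕ) (Ξ Ξ' : (ℕ → ℕ → ℕ) → ℝ), IsTr N q τ →
    (∀ τ', IsTr N (q + k) τ' → (∀ y z, y < q → z < q → τ' y z = τ y z) → Ξ τ' = Ξ' τ') →
    trSumK ms N k q τ Ξ = trSumK ms N k q τ Ξ' := by
  induction k with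
  | zero => intro q τ Ξ Ξ' hτ h; exact h τ hτ (fun _ _ _ _ => rfl)
  | succ k ih =>
    intro q τ Ξ Ξ' hτ h
    simp only [trSumK, trSum]
    apply Finset.sum_congr rfl
    intro x hx
    apply Finset.sum_congr rfl
    intro j hj
    rw [Finset.mem_range] at hx hj
    congr 1
    apply ih (q + 1) _ _ _ (l9p_att_isTr hτ hx (by omega))
    intro τ' h1 h2
    apply h τ' (by rw [show q + (k + 1) = q + 1 + k by omega]; exact h1)
    intro y z hy hz
    rw [h2 y z (by omega) (by omega), l9p_att_old N q τ x j hy hz]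

theorem l9c_isMin_mt {t q : ℕ} {τ σ : ℕ → ℕ → ℕ} (hm : L9Mt t q τ σ) {j x : ℕ} (hj : j ≤ t) (hx : x < q) :
    trIsMin τ j x ↔ trIsMin σ j x := by
  unfold trIsMin
  constructor
  · intro h y hy
    have h1 := h y hy
    have h2 := hm x y hx (by omega) (by omega)
    omega
  · intro h y hy
    have h1 := h y hy
    have h2 := hm x y hx (by omega) (by omega)
    omega

/-- WT: below the cut the signed weights depend on the truncated table only -/
theorem l9c_wt_mt (ms : ℕ → ℝ) {N t q : ℕ} {τ σ : ℕ → ℕ → ℕ} (hτ : IsTr N q τ) (hσ : IsTr N q σ) (hm : L9Mt t q τ σ) {j x : ℕ}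
    (hj : j < t) (hx : x < q) : trWt ms N q τ x j = trWt ms N q σ x j := by
  have h1 : trDeg q τ j x = trDeg q σ j x := by
    unfold trDeg
    congr 1
    apply Finset.filter_congr
    intro y hy
    have hy := Finset.mem_range.1 hy
    rw [l9c_isMin_mt hm (by omega) hy]
    by_cases hxy : x = y
    · subst hxy; rw [hτ.diag x hx, hσ.diag x hx]
    · have := hm x y hx hy hxy
      constructor <;> rintro ⟨a, b⟩ <;> exact ⟨by omega, b⟩
  unfold trWt
  simp only [l9c_isMin_mt hm hj.le hx, h1]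

/-- an attachment which matches a target whose new label joins an earlier block lies inside this block -/
theorem l9c_mt_join_inv {N t q : ℕ} {τ σ : ℕ → ℕ → ℕ} (hτ : IsTr N q τ) (hσ : L9Tg N t (q + 1) σ) (hq : 1 ≤ q) (hb : t ≤ l9Bj σ q)
    {y j : ℕ} (hy : y < q) (hM : L9Mt t (q + 1) (trAtt N q τ y j) σ) : t ≤ j ∧ t ≤ τ (l9Bx σ q) y := by
  obtain ⟨b1, _, b3, _, _⟩ := l9c_birth hσ.tr hq
  have e := hM q (l9Bx σ q) (by omega) (by omega) (by omega)
  have e' : trAtt N q τ y j q (l9Bx σ q) = min j (τ y (l9Bx σ q)) := by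
    unfold trAtt; rw [if_pos rfl, if_neg (by omega)]
  rw [e', b3] at e
  have := hτ.symm y (l9Bx σ q) hy b1
  omega

/-- the only attachment (at the least label of a node) which matches a target whose new label starts a new block -/
theorem l9c_mt_new_inv {N t q : ℕ} {τ σ : ℕ → ℕ → ℕ} (hτ : IsTr N q τ) (hσ : L9Tg N t (q + 1) σ) (hq : 1 ≤ q) (hb : l9Bj σ q < t)
    {x j : ℕ} (hx : x < q) (hj : j ≤ N + 1) (hmin : trIsMin τ j x) (hM : L9Mt t (q + 1) (trAtt N q τ x j) σ) :
    x = l9Bx σ q ∧ j = l9Bj σ q := by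
  obtain ⟨b1, _, b3, b4, _⟩ := l9c_birth hσ.tr hq
  have e1 := hM q x (by omega) (by omega) (by omega)
  have e1' : trAtt N q τ x j q x = min j (τ x x) := by
    unfold trAtt; rw [if_pos rfl, if_neg (by omega)]
  rw [e1', hτ.diag x hx] at e1
  have e2 := hM q (l9Bx σ q) (by omega) (by omega) (by omega)
  have e2' : trAtt N q τ x j q (l9Bx σ q) = min j (τ x (l9Bx σ q)) := by
    unfold trAtt; rw [if_pos rfl, if_neg (by omega)]
  rw [e2', b3] at e2
  have h3 := l9c_le_bj σ hx
  have hjj : j = l9Bj σ q := by omega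
  refine ⟨?_, hjj⟩
  rcases lt_trichotomy x (l9Bx σ q) with h | h | h
  · have := b4 x h; omega
  · exact h
  · have := hmin _ h; omega

/-- the birth anchor of a label which starts a new block is the least label of its node in every matching table -/
theorem l9c_min_new {N t q : ℕ} {τ σ : ℕ → ℕ → ℕ} (hσ : L9Tg N t (q + 1) σ) (hm : L9Mt t q τ σ) (hq : 1 ≤ q) (hb : l9Bj σ q < t) :
    trIsMin τ (l9Bj σ q) (l9Bx σ q) := by
  obtain ⟨b1, _, _, b4, b5⟩ := l9c_birth hσ.tr hq
  intro y hy
  have h1 := b4 y hy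
  have h2 := b5 y (by omega)
  have h3 := hm (l9Bx σ q) y b1 (by omega) (by omega)
  omega

/-- **skeleton weight**: the product of the signed weights of the labels `q, .., q + k - 1` which start a new block -/
noncomputable def l9Wk (ms : ℕ → ℝ) (N t : ℕ) (σ : ℕ → ℕ → ℕ) : ℕ → ℕ → ℝ
  | 0, _ => 1
  | k + 1, q => (if t ≤ l9Bj σ q then 1 else trWt ms N q σ (l9Bx σ q) (l9Bj σ q)) * l9Wk ms N t σ k (q + 1)

open Classical in
/-- **S2, the fibre over a target**: the part of the signed sum carried by the tables which match the target `σ` at the cut of depth `t` is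
(skeleton weight) x (constrained sum). -/
theorem l9c_fibre (ms : ℕ → ℝ) {N t : ℕ} (ht : t ≤ N + 1) (σ : ℕ → ℕ → ℕ) (k : ℕ) :
    ∀ (q : ℕ) (τ : ℕ → ℕ → ℕ) (Φ : (ℕ → ℕ → ℕ) → ℝ), 1 ≤ q → IsTr N q τ → L9Tg N t (q + k) σ → L9Mt t q τ σ →
      trSumK ms N k q τ (fun τ' => if L9Mt t (q + k) τ' σ then Φ τ' else 0) = l9Wk ms N t σ k q * l9Cs ms N t σ k q τ Φ := by
  induction k with
  | zero =>
    intro q τ Φ _ _ _ hm
    simp only [trSumK, l9Wk, l9Cs, one_mul, add_zero]
    rw [if_pos hm]
  | succ k ih =>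
    intro q τ Φ hq hτ hσ hm
    have hσ1 : L9Tg N t (q + 1) σ := hσ.mono (by omega)
    have hσ' : L9Tg N t (q + 1 + k) σ := by rw [show q + 1 + k = q + (k + 1) by omega]; exact hσ
    obtain ⟨b1, b2, b3, b4, b5⟩ := l9c_birth hσ1.tr hq
    set W' := l9Wk ms N t σ k (q + 1) with hW'
    set C : ℕ → ℕ → ℝ := fun x j => l9Cs ms N t σ k (q + 1) (trAtt N q τ x j) Φ with hC
    have hstep : ∀ x j, x < q → j ≤ N + 1 →
        trSumK ms N k (q + 1) (trAtt N q τ x j) (fun τ' => if L9Mt t (q + (k + 1)) τ' σ then Φ τ' else 0)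
          = if L9Mt t (q + 1) (trAtt N q τ x j) σ then W' * C x j else 0 := by
      intro x j hx hj
      have hτ₁ := l9p_att_isTr hτ hx hj
      rw [show q + (k + 1) = q + 1 + k by omega]
      by_cases hM : L9Mt t (q + 1) (trAtt N q τ x j) σ
      · rw [if_pos hM]
        exact ih (q + 1) _ Φ (by omega) hτ₁ hσ' hM
      · rw [if_neg hM]
        refine (l9c_sumK_congr ms N k (q + 1) _ _ (fun _ => 0) hτ₁ ?_).trans (l9c_sumK_zero ms N k (q + 1) _)
        intro τ' _ h2
        rw [if_neg]
        intro hM'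
        apply hM
        intro y z hy hz hyz
        rw [← h2 y z hy hz]
        exact hM' y z (by omega) (by omega) hyz
    have hL : trSumK ms N (k + 1) q τ (fun τ' => if L9Mt t (q + (k + 1)) τ' σ then Φ τ' else 0)
        = ∑ x ∈ Finset.range q, ∑ j ∈ Finset.range (N + 2),
            trWt ms N q τ x j * (if L9Mt t (q + 1) (trAtt N q τ x j) σ then W' * C x j else 0) := by
      simp only [trSumK, trSum]
      apply Finset.sum_congr rfl
      intro x hx
      apply Finset.sum_congr rfl
      intro j hj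
      rw [Finset.mem_range] at hx hj
      rw [hstep x j hx (by omega)]
    have hWk : l9Wk ms N t σ (k + 1) q = (if t ≤ l9Bj σ q then 1 else trWt ms N q σ (l9Bx σ q) (l9Bj σ q)) * W' := by
      rw [l9Wk]
    have hCs : l9Cs ms N t σ (k + 1) q τ Φ
        = if t ≤ l9Bj σ q then l9In ms N q τ t (l9Bx σ q) fun j y => C y j else C (l9Bx σ q) (l9Bj σ q) := by
      rw [l9Cs]
    rw [hL, hWk, hCs]
    by_cases hb : t ≤ l9Bj σ q
    · rw [if_pos hb, if_pos hb, one_mul]
      unfold l9In
      rw [Finset.mul_sum, Finset.sum_filter]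
      apply Finset.sum_congr rfl
      intro x hx
      rw [Finset.mem_range] at hx
      have hIcc : Finset.Icc t (N + 1) = (Finset.range (N + 2)).filter fun j => t ≤ j := by
        ext j; simp only [Finset.mem_Icc, Finset.mem_filter, Finset.mem_range]; omega
      by_cases hbx : t ≤ τ (l9Bx σ q) x
      · rw [if_pos hbx, Finset.mul_sum, hIcc, Finset.sum_filter]
        apply Finset.sum_congr rfl
        intro j hj
        rw [Finset.mem_range] at hj
        by_cases hjt : t ≤ j
        · rw [if_pos hjt, if_pos (l9c_mt_join hτ hσ1 hm ht hq hb hx hjt hbx)]; ring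
        · rw [if_neg hjt, if_neg (fun hM => hjt (l9c_mt_join_inv hτ hσ1 hq hb hx hM).1), mul_zero]
      · rw [if_neg hbx]
        apply Finset.sum_eq_zero
        intro j _
        rw [if_neg (fun hM => hbx (l9c_mt_join_inv hτ hσ1 hq hb hx hM).2), mul_zero]
    · rw [if_neg hb, if_neg hb]
      have hb' : l9Bj σ q < t := not_le.1 hb
      have hzero : ∀ x j, x < q → j ≤ N + 1 → ¬ (x = l9Bx σ q ∧ j = l9Bj σ q) →
          trWt ms N q τ x j * (if L9Mt t (q + 1) (trAtt N q τ x j) σ then W' * C x j else 0) = 0 := by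
        intro x j hx hj hne
        by_cases hM : L9Mt t (q + 1) (trAtt N q τ x j) σ
        · have hmin : ¬ trIsMin τ j x := fun hmin => hne (l9c_mt_new_inv hτ hσ1 hq hb' hx hj hmin hM)
          unfold trWt
          rw [if_neg hmin, zero_mul]
        · rw [if_neg hM, mul_zero]
      rw [Finset.sum_eq_single (l9Bx σ q), Finset.sum_eq_single (l9Bj σ q)]
      · rw [if_pos (l9c_mt_new hτ hσ1 hm hb'), l9c_wt_mt ms hτ (l9c_isTr_mono hσ1.tr (by omega)) hm hb' b1]
        ring
      · intro j hj hne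
        rw [Finset.mem_range] at hj
        exact hzero _ j b1 (by omega) (fun h => hne h.2)
      · intro h; exact absurd (Finset.mem_range.2 (by omega)) h
      · intro x hx hne
        rw [Finset.mem_range] at hx
        apply Finset.sum_eq_zero
        intro j hj
        rw [Finset.mem_range] at hj
        exact hzero x j hx (by omega) (fun h => hne h.1)
      · intro h; exact absurd (Finset.mem_range.2 b1) h

/-! ### S3: ghosts -/

/-- if all the new labels join earlier blocks the constrained sum is an iterated block sum -/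
theorem l9c_cs_eq_it (ms : ℕ → ℝ) (N t : ℕ) (σ : ℕ → ℕ → ℕ) (k : ℕ) :
    ∀ (q : ℕ) (τ : ℕ → ℕ → ℕ) (Φ : (ℕ → ℕ → ℕ) → ℝ), (∀ i, i < k → t ≤ l9Bj σ (q + i)) →
      l9Cs ms N t σ k q τ Φ = l9It ms N t ((List.range k).map fun i => l9Bx σ (q + i)) q τ Φ := by
  induction k with
  | zero => intro q τ Φ _; simp [l9Cs, l9It]
  | succ k ih =>
    intro q τ Φ h
    have h0 : t ≤ l9Bj σ q := by simpa using h 0 (by omega)
    have hl : (List.range (k + 1)).map (fun i => l9Bx σ (q + i))
        = l9Bx σ q :: (List.range k).map fun i => l9Bx σ (q + 1 + i) := by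
      rw [List.range_succ_eq_map, List.map_cons, List.map_map]
      congr 1
      apply List.map_congr_left
      intro i _
      simp only [Function.comp, Nat.succ_eq_add_one]
      rw [show q + (i + 1) = q + 1 + i by omega]
    rw [hl, l9Cs, if_pos h0, l9It]
    apply l9p_in_congr
    intro j y _ _ _ _
    apply ih (q + 1)
    intro i hi
    rw [show q + 1 + i = q + (i + 1) by omega]
    exact h (i + 1) (by omega)

theorem l9c_ex1_sum (t : ℕ) (σ : ℕ → ℕ → ℕ) (k : ℕ) : ∀ (q p : ℕ) (L : ℕ → ℕ),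
    l9Ex1 t σ k q p L
      = ∑ i ∈ Finset.range k, if t ≤ l9Bj σ (q + i) ∧ ¬ t ≤ l9Bj (l9Pb σ (l9Sh L p q)) (p + i) then 1 else 0 := by
  induction k with
  | zero => intro q p L; simp [l9Ex1]
  | succ k ih =>
    intro q p L
    rw [l9Ex1, ih, l9c_sh_up, Finset.sum_range_succ', add_comm]
    congr 1
    apply Finset.sum_congr rfl
    intro i _
    rw [show q + 1 + i = q + (i + 1) by omega, show p + 1 + i = p + (i + 1) by omega]

/-- number of blocks of the labels `< n` = number of the labels which start a new block -/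
def l9Nb (t : ℕ) (σ : ℕ → ℕ → ℕ) (n : ℕ) : ℕ := ((Finset.range n).filter fun i => ¬ t ≤ l9Bj σ i).card

/-- **ghost data** for a target on the labels `D + s`, `s < n`: the labels `A < D` (ghosts) lie in pairwise different blocks, the slot `s` lies in the block
of the ghost `a s` -/
structure L9Gh (N t D n : ℕ) (σ : ℕ → ℕ → ℕ) (a : ℕ → ℕ) : Prop where
  tg : L9Tg N t (D + n) σ
  sep : ∀ A B, A < D → B < D → A ≠ B → σ A B < t
  lt : ∀ s, s < n → a s < D
  blk : ∀ s, s < n → t ≤ σ (D + s) (a s)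

theorem L9Gh.birth {N t D n : ℕ} {σ : ℕ → ℕ → ℕ} {a : ℕ → ℕ} (h : L9Gh N t D n σ a) {s : ℕ} (hs : s < n) :
    l9Bj σ (D + s) = t ∧ l9Bx σ (D + s) = a s := by
  have ha := h.lt s hs
  have hb := h.blk s hs
  have htg : L9Tg N t (D + s + 1) σ := h.tg.mono (by omega)
  have hbj : l9Bj σ (D + s) = t :=
    le_antisymm (l9c_bj_le htg) (le_trans hb (l9c_le_bj σ (by omega)))
  refine ⟨hbj, ?_⟩
  obtain ⟨b1, _, b3, b4, _⟩ := l9c_birth htg.tr (by omega)
  rcases lt_trichotomy (l9Bx σ (D + s)) (a s) with h1 | h1 | h1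
  · exfalso
    have h2 := h.sep _ _ (lt_trans h1 ha) ha (by omega)
    have h3 := htg.tr.ultra (l9Bx σ (D + s)) (D + s) (a s) (by omega) (by omega) (by omega)
    have h4 := htg.tr.symm (l9Bx σ (D + s)) (D + s) (by omega) (by omega)
    omega
  · exact h1
  · exfalso
    have := b4 _ h1
    omega

theorem l9c_sh_zero (L : ℕ → ℕ) (D : ℕ) : l9Sh L 0 D = fun i => i + D := by
  funext i; simp [l9Sh]

/-- **S3, ghost form of the constrained sums**: the iterated block sum with the ghosts as anchors, of a summand which does not see the ghosts, is the constrained sum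
on the slots alone, times one factor `c = trPm ms t` per block. -/
theorem l9c_ghost (ms : ℕ → ℝ) {N t D n : ℕ} (ht : t ≤ N + 1) (ht1 : 1 ≤ t) {σ sk : ℕ → ℕ → ℕ} {a : ℕ → ℕ} (h : L9Gh N t D n σ a)
    (hsk : IsTr N D sk) (hm : L9Mt t D sk σ) (Φ : (ℕ → ℕ → ℕ) → ℝ) (hΦ : L9Loc n Φ) (τ₀ : ℕ → ℕ → ℕ) :
    l9It ms N t ((List.range n).map a) D sk (fun τ' => Φ (l9Pb τ' fun i => i + D))
      = trPm ms t ^ l9Nb t (l9Pb σ fun i => i + D) n * l9Cs ms N t (l9Pb σ fun i => i + D) n 0 τ₀ Φ := by
  have hE : L9Emb 0 D id := ⟨fun i hi => by omega, fun i k hi => by omega⟩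
  have hF := l9c_forget ms ht ht1 σ n D 0 sk id Φ hsk h.tg hm hE (by simpa using hΦ)
  rw [l9c_sh_zero] at hF
  have h1 : l9Cs ms N t σ n D sk (fun τ' => Φ (l9Pb τ' fun i => i + D))
      = l9It ms N t ((List.range n).map a) D sk (fun τ' => Φ (l9Pb τ' fun i => i + D)) := by
    rw [l9c_cs_eq_it ms N t σ n D sk _ (fun i hi => (h.birth hi).1.ge)]
    congr 1
    apply List.map_congr_left
    intro i hi
    exact (h.birth (List.mem_range.1 hi)).2
  have h2 : l9Ex1 t σ n D 0 id = l9Nb t (l9Pb σ fun i => i + D) n := by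
    rw [l9c_ex1_sum, l9c_sh_zero, l9Nb, Finset.card_filter]
    apply Finset.sum_congr rfl
    intro i hi
    have := (h.birth (Finset.mem_range.1 hi)).1
    simp only [zero_add, this, le_refl, true_and]
  have htr : IsTr N (0 + n) (l9Pb σ fun i => i + D) := by
    rw [zero_add]
    exact l9p_pb_isTr h.tg.tr ⟨fun i hi => by omega, fun i k _ _ hik => by omega⟩
  rw [← h1, hF, h2, l9c_cs_loc ms ht1 _ n 0 (l9Pb sk id) τ₀ Φ htr (fun y z hy => by omega) (by simpa using hΦ)]

/-- the first label starts the first block -/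
theorem l9c_cs_first (ms : ℕ → ℝ) {N t : ℕ} (ht1 : 1 ≤ t) (σ : ℕ → ℕ → ℕ) (m : ℕ) (hσ : IsTr N (m + 1) σ) (τ₀ τ₁ : ℕ → ℕ → ℕ)
    (h1 : τ₁ 0 0 = N + 1) (Φ : (ℕ → ℕ → ℕ) → ℝ) (hΦ : L9Loc (m + 1) Φ) :
    l9Cs ms N t σ (m + 1) 0 τ₀ Φ = l9Cs ms N t σ m 1 τ₁ Φ := by
  rw [l9Cs, if_neg (by rw [l9c_bj_zero]; omega)]
  apply l9c_cs_loc ms ht1 σ m (0 + 1) _ _ Φ (by rw [show 0 + 1 + m = m + 1 by omega]; exact hσ)
  · intro y z hy hz
    have e1 : y = 0 := by omega
    have e2 : z = 0 := by omega
    subst e1 e2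
    simp [trAtt, h1]
  · rw [show 0 + 1 + m = m + 1 by omega]; exact hΦ

/-- if every ghost is used the number of blocks is the number of ghosts -/
theorem L9Gh.nb {N t D n : ℕ} {σ : ℕ → ℕ → ℕ} {a : ℕ → ℕ} (h : L9Gh N t D n σ a) (ht1 : 1 ≤ t) (hu : ∀ A, A < D → ∃ s, s < n ∧ a s = A) :
    l9Nb t (l9Pb σ fun i => i + D) n = D := by
  set ρ := l9Pb σ fun i => i + D with hρ
  have hρe : ∀ s s', ρ s s' = σ (D + s) (D + s') := by
    intro s s'; simp only [hρ, l9Pb]; rw [add_comm s D, add_comm s' D]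
  have hρtr : IsTr N n ρ := l9p_pb_isTr h.tg.tr ⟨fun i hi => by omega, fun i k _ _ hik => by omega⟩
  -- two slots with the same ghost share `t` stages
  have hsame : ∀ s s', s < n → s' < n → a s = a s' → t ≤ ρ s s' := by
    intro s s' hs hs' he
    have h1 := h.blk s hs
    have h2 := h.blk s' hs'
    have h3 := h.lt s hs
    have h4 := h.tg.tr.ultra (D + s) (a s) (D + s') (by omega) (by omega) (by omega)
    have h5 := h.tg.tr.symm (a s) (D + s') (by omega) (by omega)
    rw [hρe]
    rw [← he] at h2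
    omega
  have hdiff : ∀ s s', s < n → s' < n → t ≤ ρ s s' → a s = a s' := by
    intro s s' hs hs' hss
    by_contra hne
    have h1 := h.blk s hs
    have h2 := h.blk s' hs'
    have h3 := h.lt s hs
    have h3' := h.lt s' hs'
    have h4 := h.sep _ _ h3 h3' hne
    have h5 := h.tg.tr.ultra (a s) (D + s) (D + s') (by omega) (by omega) (by omega)
    have h6 := h.tg.tr.ultra (a s) (D + s') (a s') (by omega) (by omega) (by omega)
    have h7 := h.tg.tr.symm (a s) (D + s) (by omega) (by omega)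
    rw [hρe] at hss
    omega
  have hcard : l9Nb t ρ n = (Finset.range D).card := by
    unfold l9Nb
    apply Finset.card_bij (fun s _ => a s)
    · intro s hs
      rw [Finset.mem_filter, Finset.mem_range] at hs
      exact Finset.mem_range.2 (h.lt s hs.1)
    · intro s hs s' hs' he
      rw [Finset.mem_filter, Finset.mem_range] at hs hs'
      rcases lt_trichotomy s s' with hlt | heq | hlt
      · exfalso
        exact hs'.2 (le_trans (hsame s' s hs'.1 hs.1 he.symm) (l9c_le_bj ρ hlt))
      · exact heq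
      · exfalso
        exact hs.2 (le_trans (hsame s s' hs.1 hs'.1 he) (l9c_le_bj ρ hlt))
    · intro A hA
      rw [Finset.mem_range] at hA
      classical
      have hex : ∃ s, s < n ∧ a s = A := hu A hA
      refine ⟨Nat.find hex, ?_, (Nat.find_spec hex).2⟩
      rw [Finset.mem_filter, Finset.mem_range]
      refine ⟨(Nat.find_spec hex).1, ?_⟩
      intro hb
      set s₀ := Nat.find hex with hs₀
      have hs₀n : s₀ < n := (Nat.find_spec hex).1
      have hpos : 1 ≤ s₀ := by
        rcases Nat.eq_zero_or_pos s₀ with h0 | h0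
        · rw [h0, l9c_bj_zero] at hb; omega
        · exact h0
      obtain ⟨b1, _, b3, _, _⟩ := l9c_birth (l9c_isTr_mono hρtr (show s₀ + 1 ≤ n by omega)) hpos
      have h8 : a s₀ = a (l9Bx ρ s₀) := hdiff _ _ hs₀n (by omega) (by rw [b3]; exact hb)
      exact Nat.find_min hex b1 ⟨by omega, by rw [← h8]; exact (Nat.find_spec hex).2⟩
  rw [hcard, Finset.card_range]

/-! ### S4: the parts of a product are summed separately -/

section slots
variable {κ : Type} [DecidableEq κ]

theorem l9c_pos_eq_ps (sl : List (κ × ℕ)) : ∀ (q : ℕ) (p : κ → ℕ) (L : κ → ℕ → ℕ),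
    l9Pos sl q p L = l9Ps (sl.map Prod.fst) q p L := by
  induction sl with
  | nil => intro q p L; rfl
  | cons e sl ih => intro q p L; simp only [l9Pos, List.map_cons, l9Ps]; exact ih _ _ _

/-- position of the `s`-th new label inside its part -/
theorem l9c_ps_get (ps : List κ) : ∀ (q : ℕ) (p : κ → ℕ) (L : κ → ℕ → ℕ) (s : ℕ) (P : κ), ps[s]? = some P →
    l9Ps ps q p L P (p P + (ps.take s).count P) = q + s := by
  induction ps with
  | nil => intro q p L s P h; simp at h
  | cons P0 ps ih =>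
    intro q p L s P h
    cases s with
    | zero =>
      simp only [List.getElem?_cons_zero, Option.some.injEq] at h
      subst h
      simpa using l9c_ps_head P0 ps q p L
    | succ s =>
      simp only [List.getElem?_cons_succ] at h
      have := ih (q + 1) (Function.update p P0 (p P0 + 1)) (Function.update L P0 (l9Up (L P0) (p P0) q)) s P h
      unfold l9Ps
      rw [List.take_succ_cons]
      by_cases hP : P = P0
      · subst hP
        simp only [Function.update_self] at this
        rw [List.count_cons_self, show p P + ((ps.take s).count P + 1) = p P + 1 + (ps.take s).count P by omega, this]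
        omega
      · simp only [Function.update_of_ne hP] at this
        rw [List.count_cons_of_ne (fun h => hP h.symm), this]
        omega

/-- rank of the slot `s` among the slots of its part, after `D` ghosts (junk `0` for the slots of the other parts) -/
def l9Rk (pt : ℕ → κ) (D : ℕ) (P : κ) (s : ℕ) : ℕ := if pt s = P then D + ((List.range s).map pt).count P else 0

theorem l9c_count_lt (pt : ℕ → κ) {s n : ℕ} (hs : s < n) :
    ((List.range s).map pt).count (pt s) < ((List.range n).map pt).count (pt s) := by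
  obtain ⟨d, rfl⟩ : ∃ d, n = s + 1 + d := ⟨n - (s + 1), by omega⟩
  clear hs
  induction d with
  | zero => simp [List.range_succ]
  | succ d ih =>
    refine lt_of_lt_of_le ih ?_
    rw [show s + 1 + (d + 1) = (s + 1 + d) + 1 by omega, List.range_succ, List.map_append, List.count_append]
    omega

theorem l9c_count_eq (pt : ℕ → κ) (P : κ) (s : ℕ) :
    ((List.range s).map pt).count P = ((List.range s).filter fun s' => pt s' = P).length := by
  rw [List.count_eq_countP, List.countP_map, List.countP_eq_length_filter]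
  congr 1

variable [Fintype κ]

/-- **S4**: with ghost anchors, the iterated block sum of a product over the parts of functions which see only the slots of their part is the product of the iterated
block sums of the parts, each one summed alone (slots of the part `P` renumbered `D, D + 1, ..` in increasing order). -/
theorem l9c_ind_slots (ms : ℕ → ℝ) {N t D n : ℕ} (ht : t ≤ N + 1) {sk : ℕ → ℕ → ℕ} (hsk : IsTr N D sk) (a : ℕ → ℕ)
    (ha : ∀ s, s < n → a s < D) (pt : ℕ → κ) (G : κ → (ℕ → ℕ → ℕ) → ℝ)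
    (hG : ∀ P τ₁ τ₂, (∀ s s', s < n → s' < n → pt s = P → pt s' = P → τ₁ s s' = τ₂ s s') → G P τ₁ = G P τ₂) :
    l9It ms N t ((List.range n).map a) D sk (fun τ' => ∏ P, G P (l9Pb τ' fun i => i + D))
      = ∏ P, l9It ms N t (((List.range n).filter fun s => pt s = P).map a) D sk (fun ρ => G P (l9Pb ρ (l9Rk pt D P))) := by
  set sl : List (κ × ℕ) := (List.range n).map fun s => (pt s, a s) with hsl
  have hfst : sl.map Prod.fst = (List.range n).map pt := by
    simp [hsl, List.map_map, Function.comp_def]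
  have hlen : ∀ P, (sl.filter fun e => e.1 = P).length = ((List.range n).map pt).count P := by
    intro P
    rw [← hfst, List.count_eq_countP, List.countP_map, List.countP_eq_length_filter]
    congr 1
  have hrk : ∀ P s, s < n → pt s = P → l9Rk pt D P s < D + (sl.filter fun e => e.1 = P).length := by
    intro P s hs hP
    unfold l9Rk
    rw [if_pos hP, hlen, ← hP]
    have := l9c_count_lt pt hs
    omega
  have hind := l9p_ind ms ht D id sl D sk (fun _ => D) (fun _ => id) (fun P ρ => G P (l9Pb ρ (l9Rk pt D P))) hsk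
    (fun _ => ⟨fun i hi => hi, fun i k _ _ h => h⟩) (fun _ A hA => ⟨hA, rfl⟩)
    (by
      intro e he
      rw [hsl, List.mem_map] at he
      obtain ⟨s, hs, rfl⟩ := he
      exact ha s (List.mem_range.1 hs))
    (by
      intro P ρ₁ ρ₂ h
      apply hG
      intro s s' hs hs' h1 h2
      exact h _ _ (hrk P s hs h1) (hrk P s' hs' h2))
  have h1 : (sl.map fun e => id e.2) = (List.range n).map a := by
    simp [hsl, List.map_map, Function.comp_def]
  have h2 : ∀ P, (sl.filter fun e => e.1 = P).map Prod.snd = ((List.range n).filter fun s => pt s = P).map a := by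
    intro P
    simp [hsl, List.filter_map, List.map_map, Function.comp_def]
  have h3 : ∀ τ' : ℕ → ℕ → ℕ, ∏ P, G P (l9Pb (l9Pb τ' (l9Pos sl D (fun _ => D) (fun _ => id) P)) (l9Rk pt D P))
      = ∏ P, G P (l9Pb τ' fun i => i + D) := by
    intro τ'
    apply Finset.prod_congr rfl
    intro P _
    apply hG
    have hpos : ∀ s, s < n → pt s = P → l9Pos sl D (fun _ => D) (fun _ => id) P (l9Rk pt D P s) = s + D := by
      intro s hs hP
      rw [l9c_pos_eq_ps, hfst]
      unfold l9Rk
      rw [if_pos hP]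
      have hget : ((List.range n).map pt)[s]? = some P := by
        simp [hs, hP]
      have := l9c_ps_get ((List.range n).map pt) D (fun _ => D) (fun _ => id) s P hget
      rw [← List.map_take, List.take_range, min_eq_left hs.le] at this
      rw [this, add_comm]
    intro s s' hs hs' h1 h2
    simp only [l9Pb]
    rw [hpos s hs h1, hpos s' hs' h2]
  rw [h1] at hind
  simp only [h2, h3] at hind
  exact hind

end slots

/-! ### LC1, combinatorial end form: grouped coefficients of products and of cumulants -/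

section cum
variable {α : Type} [DecidableEq α]

/-- rank of the slot `s` among the slots whose edge lies in `P`, after `D` ghosts (junk `0` for the other slots);   `e s` = the edge of the slot `s` -/
def l9Re (e : ℕ → α) (D : ℕ) (P : Finset α) (s : ℕ) : ℕ :=
  if e s ∈ P then D + ((List.range s).filter fun s' => e s' ∈ P).length else 0

/-- **internal moment of the part `P`**: the slots of `P` alone are attached to the ghosts of their blocks and summed with the signed weights -/
def l9Mo (ms : ℕ → ℝ) (N c D n : ℕ) (skG : ℕ → ℕ → ℕ) (β : ℕ → ℕ) (e : ℕ → α) (M : Finset α → (ℕ → ℕ → ℕ) → ℝ) (P : Finset α) : ℝ :=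
  l9It ms N c (((List.range n).filter fun s => e s ∈ P).map β) D skG (fun T => M P (l9Pb T (l9Re e D P)))

/-- one partition: the iterated block sum of the product of the moments of the parts is the product of the internal moments -/
theorem l9c_it_parts (ms : ℕ → ℝ) {N c D n : ℕ} (hc : c ≤ N + 1) {skG : ℕ → ℕ → ℕ} (hsk : IsTr N D skG) (β : ℕ → ℕ)
    (hβ : ∀ s, s < n → β s < D) {A : Finset α} (e : ℕ → α) (he : ∀ s, s < n → e s ∈ A) (M : Finset α → (ℕ → ℕ → ℕ) → ℝ)
    (hM : ∀ P τ₁ τ₂, (∀ s s', s < n → s' < n → e s ∈ P → e s' ∈ P → τ₁ s s' = τ₂ s s') → M P τ₁ = M P τ₂) (π : Finpartition A) :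
    l9It ms N c ((List.range n).map β) D skG (fun T => ∏ P ∈ π.parts, M P fun y z => T (D + y) (D + z))
      = ∏ P ∈ π.parts, l9Mo ms N c D n skG β e M P := by
  classical
  set pt : ℕ → {P // P ∈ A.powerset} := fun s => ⟨π.part (e s), Finset.mem_powerset.2 (π.part_subset _)⟩ with hpt
  set G : {P // P ∈ A.powerset} → (ℕ → ℕ → ℕ) → ℝ := fun P τ => if P.1 ∈ π.parts then M P.1 τ else 1 with hGd
  have hiff : ∀ (P : {P // P ∈ A.powerset}), P.1 ∈ π.parts → ∀ s, pt s = P ↔ e s ∈ P.1 := by
    intro P hP s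
    rw [hpt, Subtype.ext_iff]
    exact π.part_eq_iff_mem hP
  have hG : ∀ P τ₁ τ₂, (∀ s s', s < n → s' < n → pt s = P → pt s' = P → τ₁ s s' = τ₂ s s') → G P τ₁ = G P τ₂ := by
    intro P τ₁ τ₂ h
    simp only [hGd]
    by_cases hP : P.1 ∈ π.parts
    · rw [if_pos hP, if_pos hP]
      apply hM
      intro s s' hs hs' h1 h2
      exact h s s' hs hs' ((hiff P hP s).2 h1) ((hiff P hP s').2 h2)
    · rw [if_neg hP, if_neg hP]
  have hS := l9c_ind_slots ms hc hsk β hβ pt G hG
  have hprod : ∀ f : Finset α → ℝ, (∏ P : {P // P ∈ A.powerset}, if P.1 ∈ π.parts then f P.1 else 1) = ∏ P ∈ π.parts, f P := by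
    intro f
    rw [Finset.prod_coe_sort A.powerset (fun P => if P ∈ π.parts then f P else 1), Finset.prod_ite_mem]
    congr 1
    ext P
    simp only [Finset.mem_inter, Finset.mem_powerset]
    exact ⟨fun h => h.2, fun h => ⟨π.le h, h⟩⟩
  have hL : (fun T : ℕ → ℕ → ℕ => ∏ P, G P (l9Pb T fun i => i + D))
      = fun T => ∏ P ∈ π.parts, M P fun y z => T (D + y) (D + z) := by
    funext T
    simp only [hGd]
    rw [hprod (fun P => M P (l9Pb T fun i => i + D))]
    apply Finset.prod_congr rfl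
    intro P _
    congr 1
    funext y z
    simp only [l9Pb]
    rw [add_comm y D, add_comm z D]
  rw [hL] at hS
  rw [hS, ← hprod]
  apply Finset.prod_congr rfl
  intro P _
  by_cases hP : P.1 ∈ π.parts
  · rw [if_pos hP]
    unfold l9Mo
    have hfil : ∀ m, (List.range m).filter (fun s => pt s = P) = (List.range m).filter fun s => e s ∈ P.1 := by
      intro m
      apply List.filter_congr
      intro s _
      simp only [hiff P hP s]
    rw [hfil]
    congr 1
    funext T
    simp only [hGd]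
    rw [if_pos hP]
    apply hM
    intro s s' _ _ h1 h2
    have hrk : ∀ s, e s ∈ P.1 → l9Rk pt D P s = l9Re e D P.1 s := by
      intro s hs
      unfold l9Rk l9Re
      rw [if_pos ((hiff P hP s).2 hs), if_pos hs, ← hfil, l9c_count_eq]
    simp only [l9Pb]
    rw [hrk s h1, hrk s' h2]
  · rw [if_neg hP]
    have hnil : (List.range n).filter (fun s => pt s = P) = [] := by
      rw [List.filter_eq_nil_iff]
      intro s hs
      have hs := List.mem_range.1 hs
      simp only [decide_eq_true_eq]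
      intro h
      apply hP
      rw [← h]
      exact π.part_mem.2 (he s hs)
    rw [hnil]
    simp [l9It, hGd, hP]

open Classical in
/-- **LC1, combinatorial end form**.   `sk` = truncated table on `n` slots with its `D` blocks (276: `L9kBlk`), `e s` = the edge of the slot `s`, `M P τ` = moment of the set of edges `P` at the table `τ`
(it sees only the slots of `P`).   The coefficient of the cumulant grouped by the skeleton is (weight of the skeleton on the ghosts) x `c^(-D)` x (cumulant of the internal moments). -/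
theorem l9c_lc1_cum (ms : ℕ → ℝ) {N n D c : ℕ} {sk : ℕ → ℕ → ℕ} {β ρ : ℕ → ℕ} (h : L9kBlk N n D c sk β ρ) (hc : c ≤ N + 1)
    (hn : 1 ≤ n) (hD : 1 ≤ D) (A : Finset α) (e : ℕ → α) (he : ∀ s, s < n → e s ∈ A) (M : Finset α → (ℕ → ℕ → ℕ) → ℝ)
    (hM : ∀ P τ₁ τ₂, (∀ s s', s < n → s' < n → e s ∈ P → e s' ∈ P → τ₁ s s' = τ₂ s s') → M P τ₁ = M P τ₂) :
    l9aWt ms N 1 D (l9kG sk ρ) * l9Cum (l9Mo ms N c D n (l9kG sk ρ) β e M) A
      = trPm ms c ^ D * ∑ τ ∈ (l9aTab N n).filter (fun τ => l9rTc n c τ = sk), l9aWt ms N 1 n τ * l9Cum (fun P => M P τ) A := by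
  simp only [l9Cum_eq_sum]
  have hone : ∀ π : Finpartition A,
      l9aWt ms N 1 D (l9kG sk ρ) * ∏ P ∈ π.parts, l9Mo ms N c D n (l9kG sk ρ) β e M P
        = trPm ms c ^ D * ∑ τ ∈ (l9aTab N n).filter (fun τ => l9rTc n c τ = sk), l9aWt ms N 1 n τ * ∏ P ∈ π.parts, M P τ := by
    intro π
    rw [← l9c_it_parts ms hc h.g_isTr β h.bl e he M hM π]
    apply l9k_cut ms h hc hn hD (fun τ => ∏ P ∈ π.parts, M P τ)
    intro τ₁ τ₂ hτ
    apply Finset.prod_congr rfl
    intro P _
    apply hM
    intro s s' hs hs' _ _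
    exact hτ s s' hs hs'
  rw [Finset.mul_sum]
  simp only [Finset.mul_sum]
  rw [Finset.sum_comm]
  apply Finset.sum_congr rfl
  intro π _
  have := hone π
  rw [Finset.mul_sum] at this
  calc l9aWt ms N 1 D (l9kG sk ρ) * ((-1) ^ (π.parts.card - 1) * ((π.parts.card - 1).factorial : ℝ)
          * ∏ P ∈ π.parts, l9Mo ms N c D n (l9kG sk ρ) β e M P)
      = ((-1) ^ (π.parts.card - 1) * ((π.parts.card - 1).factorial : ℝ))
          * (l9aWt ms N 1 D (l9kG sk ρ) * ∏ P ∈ π.parts, l9Mo ms N c D n (l9kG sk ρ) β e M P) := by ring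
    _ = _ := by
      rw [this, Finset.mul_sum]
      apply Finset.sum_congr rfl
      intro τ _
      ring

end cum

end Claimed.Agent.R286
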