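/-
Row 286 (S0533), package L14.      OWNER: helper242.
Proofs of the contracts K1 (two factor collapse) and K6 (second order collapse of the root fork).
-/
import Claimed.Agent.R286.L09.Stm

set_option autoImplicit false

namespace Claimed.Agent.R286

section

variable {bd : L14Bd} {𝕂 𝓕 : Type} [CommRing 𝕂] [CommRing 𝓕]

/-- generator of a product of two backward solutions. -/
theorem L14Calc.gen_back2 (L : L14Calc bd 𝕂 𝓕) {u v m1 m2 : ℝ} (Φ1 Φ2 : 𝓕) (hu : 0 ≤ u) (huv : u ≤ v)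
    (h1 : v ≤ m1) (h2 : v ≤ m2) (hm1 : m1 ≤ bd.c0) (hm2 : m2 ≤ bd.c0) :
    L.Gen u v (fun r => L.T r m1 Φ1 * L.T r m2 Φ2)
      (fun r => L.cst (L.kap r) * (L.D (L.T r m1 Φ1) * L.D (L.T r m2 Φ2))) := by
  have g1 := L.gen_sub (L.gen_back u m1 Φ1 hu (le_trans huv h1) hm1) (le_refl u) huv h1
  have g2 := L.gen_sub (L.gen_back u m2 Φ2 hu (le_trans huv h2) hm2) (le_refl u) huv h2
  have g := L.gen_mul g1 g2
  have e : (fun r => L.T r m1 Φ1 * 0 + 0 * L.T r m2 Φ2
      + L.cst (L.kap r) * (L.D (L.T r m1 Φ1) * L.D (L.T r m2 Φ2)))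
      = (fun r => L.cst (L.kap r) * (L.D (L.T r m1 Φ1) * L.D (L.T r m2 Φ2))) := by
    funext r; ring
  rw [e] at g
  exact g

end

theorem l14_K1_pf : l14_K1 := by
  intro bd k
  refine ⟨bd.C k * (bd.C k * (bd.C 0 * (bd.C k * (bd.C k * bd.C (k + 1) * (bd.C k * bd.C (k + 1)))))),
    ?_, ?_⟩
  · have h0 := bd.C_nonneg 0
    have h1 := bd.C_nonneg k
    have h2 := bd.C_nonneg (k + 1)
    positivity
  intro 𝕂 𝓕 _ _ L u v m1 m2 K1 K2 Φ1 Φ2 hu huv h1 h2 hm1 hm2 hB1 hB2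
  have hG := L.gen_back2 Φ1 Φ2 hu huv h1 h2 hm1 hm2
  have hK1 := L.B_nonneg hB1
  have hK2 := L.B_nonneg hB2
  have hb : ∀ r, u ≤ r → r ≤ v →
      L.B k (bd.C k * (bd.C 0 * (bd.C k * (bd.C k * (bd.C (k + 1) * K1) *
        (bd.C k * (bd.C (k + 1) * K2))))))
        (L.cst (L.kap r) * (L.D (L.T r m1 Φ1) * L.D (L.T r m2 Φ2))) := by
    intro r hr1 hr2
    have hr0 : 0 ≤ r := le_trans hu hr1
    have a1 := L.B_D (L.T_B r m1 hr0 (le_trans hr2 h1) hm1 hB1)
    have a2 := L.B_D (L.T_B r m2 hr0 (le_trans hr2 h2) hm2 hB2)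
    have a3 := L.B_mul a1 a2
    have a4 := L.B_mul (L.B_cst k (L.kap r)) a3
    refine L.B_mono ?_ a4
    have hk := L.kap_bd r hr0 (le_trans hr2 (le_trans h1 hm1))
    have hn := L.B_nonneg a3
    exact mul_le_mul_of_nonneg_left (mul_le_mul_of_nonneg_right hk hn) (bd.C_nonneg k)
  have := L.dynB hu huv (le_trans h1 hm1) hG hb
  refine L.B_mono (le_of_eq ?_) this
  ring

theorem l14_K6_pf : l14_K6 := by
  intro bd 𝕂 𝓕 _ _ ι L v m1 m2 A1 A2 Φ1 Φ2 hv h1 h2 hm1 hm2 hA1 hA2 hΦ1 hΦ2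
  have hvc : ∀ i, v i ≤ bd.c0 := fun i => le_trans (h1 i) (hm1 i)
  -- the number `x = ev (D w1 (0)) ev (D w2 (0))`
  set x : ι → 𝕂 := fun i => (L i).ev ((L i).D ((L i).T 0 (m1 i) (Φ1 i))) *
      (L i).ev ((L i).D ((L i).T 0 (m2 i) (Φ2 i))) with hx
  -- `Y = D w1 D w2` and its generator
  have hGY : ∀ (i : ι) (r : ℝ), 0 ≤ r → r ≤ v i → (L i).Gen 0 r
      (fun u => (L i).D ((L i).T u (m1 i) (Φ1 i)) * (L i).D ((L i).T u (m2 i) (Φ2 i)))
      (fun u => (L i).D ((L i).T u (m1 i) (Φ1 i)) *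
          ((L i).D 0 - (L i).cst ((L i).re ((L i).mu u) * (L i).kap u) *
            ((L i).g 2 u * (L i).D ((L i).T u (m2 i) (Φ2 i))))
        + ((L i).D 0 - (L i).cst ((L i).re ((L i).mu u) * (L i).kap u) *
            ((L i).g 2 u * (L i).D ((L i).T u (m1 i) (Φ1 i)))) * (L i).D ((L i).T u (m2 i) (Φ2 i))
        + (L i).cst ((L i).kap u) * ((L i).D ((L i).D ((L i).T u (m1 i) (Φ1 i))) *
            (L i).D ((L i).D ((L i).T u (m2 i) (Φ2 i))))) := by
    intro i r hr0 hr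
    have g1 := (L i).gen_sub ((L i).gen_back 0 (m1 i) (Φ1 i) (le_refl 0)
      (le_trans (hv i) (h1 i)) (hm1 i)) (le_refl 0) hr0 (le_trans hr (h1 i))
    have g2 := (L i).gen_sub ((L i).gen_back 0 (m2 i) (Φ2 i) (le_refl 0)
      (le_trans (hv i) (h2 i)) (hm2 i)) (le_refl 0) hr0 (le_trans hr (h2 i))
    exact (L i).gen_mul ((L i).gen_D g1) ((L i).gen_D g2)
  -- step 1: `e_Y(r) - x = O(r A1 A2)` uniformly in `(i, r)`
  have step1 : l14ON (fun p : L14Ix (fun _ => 0) v => L p.1.1)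
      (fun p => (L p.1.1).ev ((L p.1.1).T 0 p.1.2
          ((L p.1.1).D ((L p.1.1).T p.1.2 (m1 p.1.1) (Φ1 p.1.1)) *
            (L p.1.1).D ((L p.1.1).T p.1.2 (m2 p.1.1) (Φ2 p.1.1)))) - x p.1.1)
      (fun p => p.1.2 * (A1 p.1.1 * A2 p.1.1)) := by
    have key := l14_dynE1 (L := fun p : L14Ix (fun _ => 0) v => L p.1.1)
      (A := fun p => A1 p.1.1 * A2 p.1.1) (b := fun p => p.1.2)
      (f := fun p u => (L p.1.1).D ((L p.1.1).T u (m1 p.1.1) (Φ1 p.1.1)) *
            (L p.1.1).D ((L p.1.1).T u (m2 p.1.1) (Φ2 p.1.1)))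
      (fun p => p.2.1) (fun p => le_trans p.2.2 (hvc p.1.1))
      (fun p => hGY p.1.1 p.1.2 p.2.1 p.2.2) ?_
    · refine key.congr (fun p => ?_)
      simp only [hx, map_mul]
    · -- bound of the generator image, family over `(i, r, u)`
      set L' := fun q : L14Ix (fun _ : L14Ix (fun _ => 0) v => 0) (fun p => p.1.2) => L q.1.1.1.1
        with hL'
      have hu0 : ∀ q : L14Ix (fun _ : L14Ix (fun _ => 0) v => 0) (fun p => p.1.2), 0 ≤ q.1.2 :=
        fun q => q.2.1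
      have huv : ∀ q : L14Ix (fun _ : L14Ix (fun _ => 0) v => 0) (fun p => p.1.2),
          q.1.2 ≤ v q.1.1.1.1 := fun q => le_trans q.2.2 q.1.1.2.2
      have w1 : l14OB L' 2 (fun q => (L' q).T q.1.2 (m1 q.1.1.1.1) (Φ1 q.1.1.1.1))
          (fun q => A1 q.1.1.1.1) :=
        (hΦ1.comp (fun q : L14Ix (fun _ : L14Ix (fun _ => 0) v => 0) (fun p => p.1.2) =>
          q.1.1.1.1)).T hu0 (fun q => le_trans (huv q) (h1 _)) (fun q => hm1 _)
      have w2 : l14OB L' 2 (fun q => (L' q).T q.1.2 (m2 q.1.1.1.1) (Φ2 q.1.1.1.1))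
          (fun q => A2 q.1.1.1.1) :=
        (hΦ2.comp (fun q : L14Ix (fun _ : L14Ix (fun _ => 0) v => 0) (fun p => p.1.2) =>
          q.1.1.1.1)).T hu0 (fun q => le_trans (huv q) (h2 _)) (fun q => hm2 _)
      have d1 := (w1.D).down
      have d2 := (w2.D).down
      have dd1 := w1.D.D
      have dd2 := w2.D.D
      have hk : l14ON L' (fun q => (L' q).kap q.1.2) (fun _ => 1) :=
        l14ON_kap L' hu0 (fun q => le_trans (huv q) (hvc _))
      have hr : l14ON L' (fun q => (L' q).re ((L' q).mu q.1.2)) (fun _ => 1) :=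
        l14ON_mu L' hu0 (fun q => le_trans (huv q) (hvc _))
      have hg2 : l14OB L' 0 (fun q => (L' q).g 2 q.1.2) (fun _ => 1) :=
        l14OB_g L' 2 0 (by norm_num) hu0 (fun q => le_trans (huv q) (hvc _))
      have c1 := ((hr.mul hk).cst 0).mul (hg2.mul d2)
      have c2 := ((hr.mul hk).cst 0).mul (hg2.mul d1)
      have t1 := d1.mul c1
      have t2 := c2.mul d2
      have t3 := (hk.cst 0).mul (dd1.mul dd2)
      have t1' := t1.mono1 (A' := fun q => A1 q.1.1.1.1 * A2 q.1.1.1.1)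
        (fun q => le_of_eq (by ring))
      have t2' := t2.mono1 (A' := fun q => A1 q.1.1.1.1 * A2 q.1.1.1.1)
        (fun q => le_of_eq (by ring))
      have t3' := t3.mono1 (A' := fun q => A1 q.1.1.1.1 * A2 q.1.1.1.1)
        (fun q => le_of_eq (by ring))
      refine ((t3'.sub t1').sub t2').congr (fun q => ?_)
      simp only [hL', L14Calc.D_zero]
      ring
  -- step 2: Dynkin at the root for the corrected product
  have hG : ∀ i, (L i).Gen 0 (v i)
      (fun u => (L i).T u (m1 i) (Φ1 i) * (L i).T u (m2 i) (Φ2 i)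
        + (L i).cst (-((L i).k0 * x i)) * (L i).cst ((L i).re u))
      (fun u => (L i).cst ((L i).kap u) * ((L i).D ((L i).T u (m1 i) (Φ1 i)) *
          (L i).D ((L i).T u (m2 i) (Φ2 i))) + (L i).cst (-((L i).k0 * x i))) := by
    intro i
    have g1 := (L i).gen_back2 (Φ1 i) (Φ2 i) (le_refl 0) (hv i) (h1 i) (h2 i) (hm1 i) (hm2 i)
    have g2 := (L i).gen_mul ((L i).gen_cst 0 (v i) (-((L i).k0 * x i)) (le_refl 0) (hv i) (hvc i))
      ((L i).gen_time 0 (v i) (le_refl 0) (hv i) (hvc i))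
    have g := (L i).gen_add g1 g2
    have e : (fun u => (L i).cst ((L i).kap u) * ((L i).D ((L i).T u (m1 i) (Φ1 i)) *
          (L i).D ((L i).T u (m2 i) (Φ2 i))) + ((L i).cst (-((L i).k0 * x i)) * 1
          + 0 * (L i).cst ((L i).re u) + (L i).cst ((L i).kap u) *
            ((L i).D ((L i).cst (-((L i).k0 * x i))) * (L i).D ((L i).cst ((L i).re u)))))
        = (fun u => (L i).cst ((L i).kap u) * ((L i).D ((L i).T u (m1 i) (Φ1 i)) *
          (L i).D ((L i).T u (m2 i) (Φ2 i))) + (L i).cst (-((L i).k0 * x i))) := by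
      funext u
      rw [(L i).D_cst, (L i).D_cst]; ring
    rw [e] at g
    exact g
  have hxb : l14ON L x (fun i => A1 i * A2 i) := by
    have a1 := ((hΦ1.T (u := fun _ => 0) (v := m1) (fun _ => le_refl 0)
      (fun i => le_trans (hv i) (h1 i)) hm1).D).down.ev
    have a2 := ((hΦ2.T (u := fun _ => 0) (v := m2) (fun _ => le_refl 0)
      (fun i => le_trans (hv i) (h2 i)) hm2).D).down.ev
    exact a1.mul a2
  have key := l14_dynE (L := L) (A := fun i => (v i + (L i).eps) * (A1 i * A2 i)) hv hvc hG ?_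
  · refine (key.mono1 (A' := fun i => v i * (v i + (L i).eps) * (A1 i * A2 i))
      (fun i => le_of_eq (by ring))).congr (fun i => ?_)
    simp only [L14Calc.T_add, L14Calc.T_cst_mul, L14Calc.T_cst, map_add, map_mul, L14Calc.ev_cst,
      map_zero, hx, L14Calc.k0]
    ring
  · -- `e_{A f}(r) = (kap r - k0) e_Y(r) + k0 (e_Y(r) - x)`
    set L' := fun p : L14Ix (fun _ => 0) v => L p.1.1 with hL'
    have hr0 : ∀ p : L14Ix (fun _ => 0) v, 0 ≤ p.1.2 := fun p => p.2.1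
    have hrc : ∀ p : L14Ix (fun _ => 0) v, p.1.2 ≤ bd.c0 := fun p => le_trans p.2.2 (hvc _)
    have hks := l14ON_kap_sub L' hr0 hrc
    have hk0 : l14ON L' (fun p => (L' p).k0) (fun _ => 1) :=
      l14ON_kap L' (u := fun _ => 0) (fun _ => le_refl 0) (fun _ => bd.c0_pos.le)
    have hY : l14ON L' (fun p => (L' p).ev ((L' p).T 0 p.1.2
          ((L' p).D ((L' p).T p.1.2 (m1 p.1.1) (Φ1 p.1.1)) *
            (L' p).D ((L' p).T p.1.2 (m2 p.1.1) (Φ2 p.1.1))))) (fun p => A1 p.1.1 * A2 p.1.1) := by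
      have w1 := ((hΦ1.comp (fun p : L14Ix (fun _ => 0) v => p.1.1)).T (u := fun p => p.1.2)
        (v := fun p => m1 p.1.1) hr0 (fun p => le_trans p.2.2 (h1 _)) (fun p => hm1 _)).D.down
      have w2 := ((hΦ2.comp (fun p : L14Ix (fun _ => 0) v => p.1.1)).T (u := fun p => p.1.2)
        (v := fun p => m2 p.1.1) hr0 (fun p => le_trans p.2.2 (h2 _)) (fun p => hm2 _)).D.down
      exact ((w1.mul w2).T (u := fun _ => 0) (v := fun p => p.1.2) (fun _ => le_refl 0) hr0 hrc).ev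
    have t1 := hks.mul hY
    have t2 := hk0.mul step1
    have t2' := t2.mono1 (A' := fun p => (p.1.2 + (L' p).eps) * (A1 p.1.1 * A2 p.1.1))
      (fun p => by
        have h1 := (L' p).eps_nonneg
        have h2 := mul_nonneg (hA1 p.1.1) (hA2 p.1.1)
        nlinarith)
    refine ((t1.add t2').mono1 (fun p => ?_)).congr (fun p => ?_)
    · exact mul_le_mul_of_nonneg_right (by have := p.2.2; simp only [hL']; linarith)
        (mul_nonneg (hA1 _) (hA2 _))
    · simp only [hL', L14Calc.T_add, L14Calc.T_cst_mul, L14Calc.T_cst]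
      simp only [map_add, map_mul, L14Calc.ev_cst, L14Calc.k0]
      ring

end Claimed.Agent.R286
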