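/-
Row 286 (S0533), package L14 (head helper242).      OWNER: helper274.
PROOFS of the contracts **K7**, **K7e** of `L09/Stm.lean` (block functions `st c k u = s_{k+1}` on the abstract calculus `L14Calc`):
parity, bounds at every level, generator image `l14k7H` (`Gen a b (st c k) (l14k7H c k)`), first order transport, jets at `(0,0)`.
Also exported: `l14k7_st_sub_g` (`s_{k+1} - ∂_z^{k+1} G = O(c)` at every level).
-/
import Claimed.Agent.R286.L09.Stm

set_option autoImplicit false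

namespace Claimed.Agent.R286

section one

variable {bd : L14Bd} {𝕂 𝓕 : Type} [CommRing 𝕂] [CommRing 𝓕] (L : L14Calc bd 𝕂 𝓕)

theorem l14k7_st_zero (c u : ℝ) : L.st c 0 u = L.g 1 u := rfl

theorem l14k7_st_succ (c : ℝ) (k : ℕ) (u : ℝ) :
    L.st c (k + 1) u = L.D (L.st c k u) + L.cst (L.re c) * (L.g 1 u * L.st c k u) := rfl

/-- the generator image of `u ↦ st c k u` (in the raw form produced by `gen_D`, `gen_mul`, `gen_add`) -/
def l14k7H (c : ℝ) : ℕ → ℝ → 𝓕
  | 0, _ => 0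
  | k + 1, u =>
      (L.D (l14k7H c k u) - L.cst (L.re (L.mu u) * L.kap u) * (L.g 2 u * L.D (L.st c k u)))
      + (L.cst (L.re c) * (L.g 1 u * l14k7H c k u + 0 * L.st c k u + L.cst (L.kap u) * (L.D (L.g 1 u) * L.D (L.st c k u)))
          + 0 * (L.g 1 u * L.st c k u) + L.cst (L.kap u) * (L.D (L.cst (L.re c)) * L.D (L.g 1 u * L.st c k u)))

theorem l14k7_H_succ (c : ℝ) (k : ℕ) (u : ℝ) : l14k7H L c (k + 1) u =
      (L.D (l14k7H L c k u) - L.cst (L.re (L.mu u) * L.kap u) * (L.g 2 u * L.D (L.st c k u)))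
      + (L.cst (L.re c) * (L.g 1 u * l14k7H L c k u + 0 * L.st c k u + L.cst (L.kap u) * (L.D (L.g 1 u) * L.D (L.st c k u)))
          + 0 * (L.g 1 u * L.st c k u) + L.cst (L.kap u) * (L.D (L.cst (L.re c)) * L.D (L.g 1 u * L.st c k u))) := rfl

theorem l14k7_gen (c : ℝ) (k : ℕ) {a b : ℝ} (ha : 0 ≤ a) (hab : a ≤ b) (hb : b ≤ bd.c0) :
    L.Gen a b (L.st c k) (l14k7H L c k) := by
  induction k with
  | zero => exact L.gen_g1 a b ha hab hb
  | succ k ih =>
    have h1 := L.gen_D ih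
    have h2 := L.gen_mul (L.gen_g1 a b ha hab hb) ih
    have h3 := L.gen_mul (L.gen_cst a b (L.re c) ha hab hb) h2
    exact L.gen_add h1 h3

/-- parity of the block functions -/
theorem l14k7_sg (c u : ℝ) (k : ℕ) : L.sg (L.st c k u) = L.cst (L.re ((-1) ^ (k + 1))) * L.st c k u := by
  induction k with
  | zero => exact L.g_sg 1 u
  | succ k ih =>
    rw [l14k7_st_succ, map_add, map_mul, map_mul, L.sg_D, ih, L.sg_cst, L.g_sg, L.D_cst_mul]
    have e : L.cst (L.re ((-1) ^ (k + 1 + 1))) = - L.cst (L.re ((-1) ^ (k + 1))) := by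
      rw [pow_succ, mul_neg_one, map_neg, map_neg]
    have e1 : L.cst (L.re ((-1) ^ 1)) = -1 := by simp
    rw [e, e1]
    ring

end one

section fam

variable {bd : L14Bd} {𝕂 𝓕 : Type} [CommRing 𝕂] [CommRing 𝓕]

theorem l14k7_mul1 {ι : Type} {L : ι → L14Calc bd 𝕂 𝓕} {k : ℕ} {φ ψ : ι → 𝓕} {A : ι → ℝ}
    (h : l14OB L k φ (fun _ => 1)) (h' : l14OB L k ψ A) : l14OB L k (fun i => φ i * ψ i) A :=
  (h.mul h').mono1 (fun i => by simp)

theorem l14k7_cst_re {ι : Type} (L : ι → L14Calc bd 𝕂 𝓕) (r : ι → ℝ) {A : ι → ℝ} (h : ∀ i, |r i| ≤ A i) (k : ℕ) :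
    l14OB L k (fun i => (L i).cst ((L i).re (r i))) A := (l14ON_re_le L r h).cst k

/-- bounds of the block functions at every level -/
theorem l14k7_st_B {ι : Type} (L : ι → L14Calc bd 𝕂 𝓕) (c u : ι → ℝ) (hu : ∀ i, 0 ≤ u i) (hu' : ∀ i, u i ≤ bd.c0)
    (hc : ∀ i, |c i| ≤ 1) (k : ℕ) : ∀ n, l14OB L n (fun i => (L i).st (c i) k (u i)) (fun _ => 1) := by
  induction k with
  | zero => exact fun n => l14OB_g L 1 n le_rfl hu hu'
  | succ k ih =>
    intro n
    exact (ih (n + 1)).D.add (l14k7_mul1 (l14k7_cst_re L c hc n) (l14k7_mul1 (l14OB_g L 1 n le_rfl hu hu') (ih n)))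

/-- `s_{k+1} = ∂_z^{k+1} G + O(c)` at every level -/
theorem l14k7_st_sub_g {ι : Type} (L : ι → L14Calc bd 𝕂 𝓕) (c u : ι → ℝ) (hu : ∀ i, 0 ≤ u i) (hu' : ∀ i, u i ≤ bd.c0)
    (hc0 : ∀ i, 0 ≤ c i) (hc : ∀ i, c i ≤ 1) (k : ℕ) :
    ∀ n, l14OB L n (fun i => (L i).st (c i) k (u i) - (L i).g (k + 1) (u i)) c := by
  have hc' : ∀ i, |c i| ≤ 1 := fun i => by rw [abs_of_nonneg (hc0 i)]; exact hc i
  induction k with
  | zero => exact fun n => (l14OB_zero L n c).congr (fun i => by rw [l14k7_st_zero]; simp)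
  | succ k ih =>
    intro n
    have h1 := (ih (n + 1)).D
    have h2 : l14OB L n (fun i => (L i).cst ((L i).re (c i)) * ((L i).g 1 (u i) * (L i).st (c i) k (u i))) c := by
      have a := l14k7_cst_re L c (A := c) (fun i => by rw [abs_of_nonneg (hc0 i)]) n
      have b := l14k7_mul1 (l14OB_g L 1 n le_rfl hu hu') (l14k7_st_B L c u hu hu' hc' k n)
      exact (a.mul b).mono1 (fun i => by simp)
    refine (h1.add h2).congr (fun i => ?_)
    rw [l14k7_st_succ, (L i).D_sub, (L i).g_D _ _ (Nat.succ_le_succ (Nat.zero_le k))]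
    ring

/-- bounds of the generator images at every level -/
theorem l14k7_H_B {ι : Type} (L : ι → L14Calc bd 𝕂 𝓕) (c u : ι → ℝ) (hu : ∀ i, 0 ≤ u i) (hu' : ∀ i, u i ≤ bd.c0)
    (hc : ∀ i, |c i| ≤ 1) (k : ℕ) : ∀ n, l14OB L n (fun i => l14k7H (L i) (c i) k (u i)) (fun _ => 1) := by
  have hu1 : ∀ i, |u i| ≤ 1 := fun i => by rw [abs_of_nonneg (hu i)]; exact (hu' i).trans bd.c0_le
  induction k with
  | zero => exact fun n => l14OB_zero L n _
  | succ k ih =>
    intro n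
    have st := l14k7_st_B L c u hu hu' hc k
    have g1 := fun n => l14OB_g L 1 n le_rfl hu hu'
    have g2 := fun n => l14OB_g L 2 n (by norm_num) hu hu'
    have kp : l14OB L n (fun i => (L i).cst ((L i).kap (u i))) (fun _ => 1) := (l14ON_kap L hu hu').cst n
    have cc := fun n => l14k7_cst_re L c hc n
    have uk : l14OB L n (fun i => (L i).cst ((L i).re ((L i).mu (u i)) * (L i).kap (u i))) (fun _ => 1) :=
      (((l14ON_mu L hu hu').mul (l14ON_kap L hu hu')).mono1 (fun i => by simp)).cst n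
    have z : l14OB L n (fun _ => (0 : 𝓕)) (fun _ => 1) := l14OB_zero L n _
    have a1 := (ih (n + 1)).D.sub (l14k7_mul1 uk (l14k7_mul1 (g2 n) (st (n + 1)).D))
    have a2 := ((l14k7_mul1 (g1 n) (ih n)).add (l14k7_mul1 z (st n))).add (l14k7_mul1 kp (l14k7_mul1 (g1 (n + 1)).D (st (n + 1)).D))
    have a3 := ((l14k7_mul1 (cc n) a2).add (l14k7_mul1 z (l14k7_mul1 (g1 n) (st n)))).add
      (l14k7_mul1 kp (l14k7_mul1 (cc (n + 1)).D (l14k7_mul1 (g1 (n + 1)) (st (n + 1))).D))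
    exact a1.add a3

/-- first order transport of a block function to an earlier mass -/
theorem l14k7_transport {ι : Type} (L : ι → L14Calc bd 𝕂 𝓕) (c u : ι → ℝ) (hu : ∀ i, 0 ≤ u i) (huc : ∀ i, u i ≤ c i)
    (hc : ∀ i, c i ≤ bd.c0) (k n : ℕ) :
    l14OB L n (fun i => (L i).T (u i) (c i) ((L i).st (c i) k (c i)) - (L i).st (c i) k (u i)) c := by
  have hh : l14OB (fun p : L14Ix u c => L p.1.1) n (fun p => l14k7H (L p.1.1) (c p.1.1) k p.1.2) (fun _ => 1) :=
    l14k7_H_B (fun p : L14Ix u c => L p.1.1) (fun p => c p.1.1) (fun p => p.1.2) (fun p => (hu p.1.1).trans p.2.1)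
      (fun p => p.2.2.trans (hc p.1.1))
      (fun p => by rw [abs_of_nonneg ((hu p.1.1).trans (huc p.1.1))]; exact (hc p.1.1).trans bd.c0_le) k n
  have := l14_dynB (L := L) (a := u) (b := c) (f := fun i => (L i).st (c i) k) (h := fun i => l14k7H (L i) (c i) k)
    (A := fun _ => 1) hu huc hc (fun i => l14k7_gen (L i) (c i) k (hu i) (huc i) (hc i)) hh
  exact this.mono1 (fun i => by have := hu i; simp only [mul_one]; linarith)

end fam

theorem l14_K7_pf : l14_K7 := by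
  intro bd 𝕂 𝓕 _ _
  refine ⟨fun L c u k => l14k7_sg L c u k, fun ι L c u k n hu huc hc => ⟨?_, l14k7_transport L c u hu huc hc k n⟩⟩
  exact l14k7_st_B L c u hu (fun i => (huc i).trans (hc i))
    (fun i => by rw [abs_of_nonneg ((hu i).trans (huc i))]; exact (hc i).trans bd.c0_le) k n

theorem l14_K7e_pf : l14_K7e := by
  intro bd 𝕂 𝓕 _ _ ι L c hc0 hc
  have z0 : ∀ _ : ι, (0 : ℝ) ≤ 0 := fun _ => le_rfl
  have zc : ∀ _ : ι, (0 : ℝ) ≤ bd.c0 := fun _ => bd.c0_pos.le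
  have hc1 : ∀ i, c i ≤ 1 := fun i => (hc i).trans bd.c0_le
  have tr := fun k n => l14k7_transport L c (fun _ => 0) z0 hc0 hc k n
  have sg := fun k n => l14k7_st_sub_g L c (fun _ => 0) z0 zc hc0 hc1 k n
  refine ⟨?_, ?_, ?_, ?_⟩
  · refine ((tr 1 0).add (sg 1 0)).ev.congr (fun i => ?_)
    simp only [L14Calc.chi, map_add, map_sub]
    ring
  · refine ((tr 3 0).add (sg 3 0)).ev.congr (fun i => ?_)
    simp only [L14Calc.gg, map_add, map_sub]
    ring
  · refine ((tr 0 1).add (sg 0 1)).D.ev.congr (fun i => ?_)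
    simp only [L14Calc.chi, (L i).D_add, (L i).D_sub, (L i).g_D 1 0 le_rfl, map_add, map_sub]
    ring
  · refine ((tr 2 1).add (sg 2 1)).D.ev.congr (fun i => ?_)
    simp only [L14Calc.gg, (L i).D_add, (L i).D_sub, (L i).g_D 3 0 (by norm_num), map_add, map_sub]
    ring

end Claimed.Agent.R286
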