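/-
Row 286 (S0533), package L14, node MAIN = contracts K8, K8r, K8d, K8dr of `L09/StmM.lean`.      ARCHITECT / OWNER: helper219 (head helper242).
TEX[LL:exp:prop-low-coefficients] l.750-889 ("The low-degree cases").      DEFINITIONS of the cut + elementary facts (no sorry here).

* `L.om c k = ev (T 0 c (sig c k))`, `L.et c k = ev (D (T 0 c (sig c k)))` : value / slope at the root of the block function of degree `k`;
* `s.EL L c d = E_low ∏_A σ_{d A}` : the scalar moment of a DEGREE VECTOR `d : Fin D → ℕ`  (`Γ.mom L c s P = s.EL L c (Γ.deg P)` by `rfl`);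
* `l9cNz d` : number of used blocks;      `L9cFam L c s` : standing hypotheses on a family.
-/
import Claimed.Agent.R286.L09.StmM

set_option autoImplicit false

namespace Claimed.Agent.R286

open Finset

section defs

variable {bd : L14Bd} {𝕂 𝓕 : Type} [CommRing 𝕂] [CommRing 𝓕]

/-- value at the root of the block function of degree `k` -/
def L14Calc.om (L : L14Calc bd 𝕂 𝓕) (c : ℝ) (k : ℕ) : 𝕂 := L.ev (L.T 0 c (L.sig c k))

/-- slope at the root of the block function of degree `k` -/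
def L14Calc.et (L : L14Calc bd 𝕂 𝓕) (c : ℝ) (k : ℕ) : 𝕂 := L.ev (L.D (L.T 0 c (L.sig c k)))

/-- the block functions of a degree vector -/
def L14Calc.ph (L : L14Calc bd 𝕂 𝓕) {D : ℕ} (c : ℝ) (d : Fin D → ℕ) : Fin D → 𝓕 := fun A => L.sig c (d A)

/-- the scalar moment of a degree vector -/
def L14Sk.EL {D : ℕ} (L : L14Calc bd 𝕂 𝓕) (c : ℝ) (s : L14Sk D) (d : Fin D → ℕ) : 𝕂 := s.Elow L c (L.ph c d)

/-- number of used blocks -/
def l9cNz {D : ℕ} (d : Fin D → ℕ) : ℕ := (univ.filter fun A => 0 < d A).card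

/-- standing hypotheses on a family of skeletons -/
structure L9cFam {ι : Type} {D : ℕ} (L : ι → L14Calc bd 𝕂 𝓕) (c : ι → ℝ) (s : ι → L14Sk D) : Prop where
  c_pos : ∀ i, 0 < c i
  c_le : ∀ i, c i ≤ bd.c0
  ok : ∀ i, (s i).Ok (c i)
  full : ∀ i, (s i).labels = univ

theorem l9c_defs_eqns_cite : True := by
  have := @L14Calc.om.eq_1
  have := @L14Calc.et.eq_1
  have := @L14Calc.ph.eq_1
  have := @L14Sk.EL.eq_1
  have := @l9cNz.eq_1
  trivial

theorem L14Gr.mom_eq {j D : ℕ} (Γ : L14Gr j D) (L : L14Calc bd 𝕂 𝓕) (c : ℝ) (s : L14Sk D) (P : Finset (Fin j)) :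
    Γ.mom L c s P = s.EL L c (Γ.deg P) := rfl

theorem L14Hyp.fam {ι : Type} {j D : ℕ} {L : ι → L14Calc bd 𝕂 𝓕} {Γ : ι → L14Gr j D} {c ε : ι → ℝ} {s : ι → L14Sk D}
    {b : ι → Fin j → 𝕂} {bc : ι → 𝕂} (h : L14Hyp L Γ c ε s b bc) : L9cFam L c s :=
  ⟨h.c_pos, h.c_le, h.ok, h.full⟩

theorem L9cFam.c_le_one {ι : Type} {D : ℕ} {L : ι → L14Calc bd 𝕂 𝓕} {c : ι → ℝ} {s : ι → L14Sk D} (F : L9cFam L c s) (i : ι) :
    c i ≤ 1 := (F.c_le i).trans bd.c0_le

theorem L9cFam.comp {ι ι' : Type} {D : ℕ} {L : ι → L14Calc bd 𝕂 𝓕} {c : ι → ℝ} {s : ι → L14Sk D} (F : L9cFam L c s) (e : ι' → ι) :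
    L9cFam (fun p => L (e p)) (fun p => c (e p)) (fun p => s (e p)) :=
  ⟨fun p => F.c_pos _, fun p => F.c_le _, fun p => F.ok _, fun p => F.full _⟩

end defs

end Claimed.Agent.R286
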