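/-
Row 286 (S0533), package L14.      OWNER of this file: helper276 (leaf ordered by helper242).
API of `L14Sk` (labels, size, mass, `split`) for `Ok` trees, parity of `Psi` / `W`, proofs of the contracts `l14_K3p`, `l14_K4e`.
Prefix `l14s_`.
-/
import Claimed.Agent.R286.L09.Stm

set_option autoImplicit false

namespace Claimed.Agent.R286

namespace L14Sk

variable {D : ℕ}

/-! ### labels, size, mass -/

theorem l14s_labels_nonempty (s : L14Sk D) : s.labels.Nonempty := by
  induction s with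
  | leaf A => exact ⟨A, by simp [labels]⟩
  | fork v l r ihl _ => exact ihl.mono (by simp [labels])

theorem l14s_size_pos (s : L14Sk D) : 1 ≤ s.size := by
  induction s with
  | leaf A => simp [size]
  | fork v l r ihl _ => simp only [size]; omega

theorem l14s_size_eq_card {c : ℝ} {s : L14Sk D} (h : s.Ok c) : s.size = s.labels.card := by
  induction s with
  | leaf A => simp [size, labels]
  | fork v l r ihl ihr =>
    obtain ⟨_, _, _, hd, hl, hr⟩ := h
    simp only [size, labels]
    rw [Finset.card_union_of_disjoint hd, ihl hl, ihr hr]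

/-- a tree with one leaf is a leaf -/
theorem l14s_leaf_of_size {s : L14Sk D} (h : s.size = 1) : ∃ A, s = leaf A := by
  cases s with
  | leaf A => exact ⟨A, rfl⟩
  | fork v l r =>
    simp only [size] at h
    have := l14s_size_pos l
    have := l14s_size_pos r
    omega

/-- an `Ok` tree with one label is a leaf -/
theorem l14s_leaf_of_card {c : ℝ} {s : L14Sk D} (h : s.Ok c) (h1 : s.labels.card = 1) : ∃ A, s = leaf A :=
  l14s_leaf_of_size (by rw [l14s_size_eq_card h, h1])

theorem l14s_mass_le {c : ℝ} {s : L14Sk D} (h : s.Ok c) : s.mass c ≤ c := by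
  induction s with
  | leaf A => simp [mass]
  | fork v l r ihl _ =>
    obtain ⟨_, h1, _, _, hl, _⟩ := h
    exact le_trans h1 (ihl hl)

theorem l14s_mass_nonneg {c : ℝ} (hc : 0 ≤ c) {s : L14Sk D} (h : s.Ok c) : 0 ≤ s.mass c := by
  cases s with
  | leaf A => exact hc
  | fork v l r => exact h.1

/-! ### `split` -/

theorem l14s_split_comm (c : ℝ) (s : L14Sk D) (A B : Fin D) : s.split c A B = s.split c B A := by
  induction s with
  | leaf X => rfl
  | fork v l r ihl ihr =>
    by_cases cAl : A ∈ l.labels <;> by_cases cBl : B ∈ l.labels <;> by_cases cAr : A ∈ r.labels <;>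
      by_cases cBr : B ∈ r.labels <;>
      simp only [split, cAl, cBl, cAr, cBr, and_self, and_true, and_false, if_true, if_false,
        ihl, ihr]

theorem l14s_mass_le_split {c : ℝ} {s : L14Sk D} (h : s.Ok c) (A B : Fin D) : s.mass c ≤ s.split c A B := by
  induction s with
  | leaf X => simp [mass, split]
  | fork v l r ihl ihr =>
    obtain ⟨_, h1, h2, _, hl, hr⟩ := h
    simp only [split, mass]
    split_ifs
    · exact le_trans h1 (ihl hl)
    · exact le_trans h2 (ihr hr)
    · exact le_rfl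

theorem l14s_split_le {c : ℝ} {s : L14Sk D} (h : s.Ok c) (A B : Fin D) : s.split c A B ≤ c := by
  induction s with
  | leaf X => simp [split]
  | fork v l r ihl ihr =>
    have hm := l14s_mass_le h
    obtain ⟨_, _, _, _, hl, hr⟩ := h
    simp only [split]
    split_ifs
    · exact ihl hl
    · exact ihr hr
    · exact hm

theorem l14s_split_nonneg {c : ℝ} (hc : 0 ≤ c) {s : L14Sk D} (h : s.Ok c) (A B : Fin D) : 0 ≤ s.split c A B :=
  le_trans (l14s_mass_nonneg hc h) (l14s_mass_le_split h A B)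

theorem l14s_split_self {c : ℝ} {s : L14Sk D} (h : s.Ok c) {A : Fin D} (hA : A ∈ s.labels) : s.split c A A = c := by
  induction s with
  | leaf X => rfl
  | fork v l r ihl ihr =>
    obtain ⟨_, _, _, _, hl, hr⟩ := h
    simp only [split, and_self]
    simp only [labels, Finset.mem_union] at hA
    split_ifs with c1 c2
    · exact ihl hl c1
    · exact ihr hr c2
    · exact absurd hA (by tauto)

theorem l14s_split_ll {c v : ℝ} {l r : L14Sk D} {A B : Fin D} (hA : A ∈ l.labels) (hB : B ∈ l.labels) :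
    (fork v l r).split c A B = l.split c A B := by
  simp only [split]
  rw [if_pos ⟨hA, hB⟩]

theorem l14s_split_rr {c v : ℝ} {l r : L14Sk D} (hd : Disjoint l.labels r.labels) {A B : Fin D} (hA : A ∈ r.labels)
    (hB : B ∈ r.labels) : (fork v l r).split c A B = r.split c A B := by
  simp only [split]
  rw [if_neg (fun h => Finset.disjoint_left.mp hd h.1 hA), if_pos ⟨hA, hB⟩]

theorem l14s_split_lr {c v : ℝ} {l r : L14Sk D} (hd : Disjoint l.labels r.labels) {A B : Fin D} (hA : A ∈ l.labels)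
    (hB : B ∈ r.labels) : (fork v l r).split c A B = v := by
  simp only [split]
  rw [if_neg (fun h => Finset.disjoint_left.mp hd h.2 hB), if_neg (fun h => Finset.disjoint_left.mp hd hA h.1)]

theorem l14s_split_rl {c v : ℝ} {l r : L14Sk D} (hd : Disjoint l.labels r.labels) {A B : Fin D} (hA : A ∈ r.labels)
    (hB : B ∈ l.labels) : (fork v l r).split c A B = v := by
  rw [l14s_split_comm, l14s_split_lr hd hB hA]

/-- ultrametric inequality (all `A B C`, present or not) -/
theorem l14s_split_ultra {c : ℝ} {s : L14Sk D} (h : s.Ok c) (A B C : Fin D) :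
    min (s.split c A B) (s.split c B C) ≤ s.split c A C := by
  induction s with
  | leaf X => simp [split]
  | fork v l r ihl ihr =>
    obtain ⟨_, h1, h2, hd, hl, hr⟩ := h
    have dl : ∀ X, X ∈ l.labels → X ∉ r.labels := fun X a b => Finset.disjoint_left.mp hd a b
    have ml := fun X Y => le_trans h1 (l14s_mass_le_split hl X Y)
    have mr := fun X Y => le_trans h2 (l14s_mass_le_split hr X Y)
    by_cases cAl : A ∈ l.labels <;> by_cases cBl : B ∈ l.labels <;> by_cases cCl : C ∈ l.labels <;>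
      by_cases cAr : A ∈ r.labels <;> by_cases cBr : B ∈ r.labels <;> by_cases cCr : C ∈ r.labels <;>
      simp only [split, cAl, cBl, cCl, cAr, cBr, cCr, and_self, and_true, and_false, if_true, if_false] <;>
      first
        | exact ihl hl
        | exact ihr hr
        | exact min_le_left _ _
        | exact min_le_right _ _
        | exact le_trans (min_le_left _ _) (ml _ _)
        | exact le_trans (min_le_right _ _) (ml _ _)
        | exact le_trans (min_le_left _ _) (mr _ _)
        | exact le_trans (min_le_right _ _) (mr _ _)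
        | exact absurd cAr (dl _ cAl)
        | exact absurd cBr (dl _ cBl)

/-! ### parity of `Psi`, `W` -/

variable {bd : L14Bd} {𝕂 𝓕 : Type} [CommRing 𝕂] [CommRing 𝓕]

theorem l14s_psi_sg (L : L14Calc bd 𝕂 𝓕) {c : ℝ} {φ : Fin D → 𝓕} {d : Fin D → ℕ}
    (hφ : ∀ X, L.sg (φ X) = L.cst (L.re ((-1) ^ d X)) * φ X) {s : L14Sk D} (h : s.Ok c) :
    L.sg (s.Psi L c φ) = L.cst (L.re ((-1) ^ (∑ X ∈ s.labels, d X))) * s.Psi L c φ := by
  induction s with
  | leaf A => simp [Psi, labels, hφ]
  | fork v l r ihl ihr =>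
    obtain ⟨_, _, _, hd, hl, hr⟩ := h
    simp only [Psi, labels, map_mul, L.T_sg, ihl hl, ihr hr, L.T_cst_mul, Finset.sum_union hd, pow_add]
    ring

theorem l14s_w_sg (L : L14Calc bd 𝕂 𝓕) {c : ℝ} {φ : Fin D → 𝓕} {d : Fin D → ℕ}
    (hφ : ∀ X, L.sg (φ X) = L.cst (L.re ((-1) ^ d X)) * φ X) {s : L14Sk D} (h : s.Ok c) (u : ℝ) :
    L.sg (s.W L c φ u) = L.cst (L.re ((-1) ^ (∑ X ∈ s.labels, d X))) * s.W L c φ u := by
  simp only [W, L.T_sg, l14s_psi_sg L hφ h, L.T_cst_mul]

/-- a tree of odd total degree vanishes at `z = 0` -/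
theorem l14s_ev_w_odd (L : L14Calc bd 𝕂 𝓕) {c : ℝ} {φ : Fin D → 𝓕} {d : Fin D → ℕ}
    (hφ : ∀ X, L.sg (φ X) = L.cst (L.re ((-1) ^ d X)) * φ X) {s : L14Sk D} (h : s.Ok c) (u : ℝ)
    (ho : Odd (∑ X ∈ s.labels, d X)) : L.ev (s.W L c φ u) = 0 := by
  apply L.ev_of_odd
  rw [l14s_w_sg L hφ h u, ho.neg_one_pow]
  simp

end L14Sk

open L14Sk in
/-- proof of the contract **K3p** -/
theorem l14_K3p_pf : l14_K3p := by
  intro bd 𝕂 𝓕 _ _ L D c h φ d s
  induction s with
  | leaf B =>
    intro A hOk hφ hA ho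
    have hAB : A = B := by simpa [labels] using hA
    subst hAB
    have e : (labels (leaf A : L14Sk D)).filter (fun X => X = A ∨ h < (leaf A : L14Sk D).split c A X)
        = (leaf A : L14Sk D).labels := by
      apply Finset.filter_true_of_mem
      intro X hX
      left
      simpa [labels] using hX
    rw [e] at ho
    exact l14s_ev_w_odd L hφ hOk 0 ho
  | fork v l r ihl ihr =>
    intro A hOk hφ hA ho
    have hOk' := hOk
    obtain ⟨_, h1, h2, hd, hl, hr⟩ := hOk
    by_cases hv : v ≤ h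
    · simp only [Wc, if_pos hv, map_mul]
      simp only [labels, Finset.mem_union] at hA
      rcases hA with hA | hA
      · have e : (labels (fork v l r)).filter (fun X => X = A ∨ h < (fork v l r).split c A X)
            = l.labels.filter (fun X => X = A ∨ h < l.split c A X) := by
          ext X
          simp only [labels, Finset.mem_filter, Finset.mem_union]
          constructor
          · rintro ⟨hX | hX, hc⟩
            · rw [l14s_split_ll hA hX] at hc
              exact ⟨hX, hc⟩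
            · rw [l14s_split_lr hd hA hX] at hc
              rcases hc with hc | hc
              · subst hc
                exact absurd hX (Finset.disjoint_left.mp hd hA)
              · exact absurd hc (not_lt.mpr hv)
          · rintro ⟨hX, hc⟩
            rw [l14s_split_ll hA hX]
            exact ⟨Or.inl hX, hc⟩
        rw [e] at ho
        rw [ihl A hl hφ hA ho, zero_mul]
      · have e : (labels (fork v l r)).filter (fun X => X = A ∨ h < (fork v l r).split c A X)
            = r.labels.filter (fun X => X = A ∨ h < r.split c A X) := by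
          ext X
          simp only [labels, Finset.mem_filter, Finset.mem_union]
          constructor
          · rintro ⟨hX | hX, hc⟩
            · rw [l14s_split_rl hd hA hX] at hc
              rcases hc with hc | hc
              · subst hc
                exact absurd hA (Finset.disjoint_left.mp hd hX)
              · exact absurd hc (not_lt.mpr hv)
            · rw [l14s_split_rr hd hA hX] at hc
              exact ⟨hX, hc⟩
          · rintro ⟨hX, hc⟩
            rw [l14s_split_rr hd hA hX]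
            exact ⟨Or.inr hX, hc⟩
        rw [e] at ho
        rw [ihr A hr hφ hA ho, mul_zero]
    · simp only [Wc, if_neg hv]
      have e : (labels (fork v l r)).filter (fun X => X = A ∨ h < (fork v l r).split c A X)
          = (fork v l r).labels := by
        apply Finset.filter_true_of_mem
        intro X _
        right
        exact lt_of_lt_of_le (not_le.mp hv) (l14s_mass_le_split hOk' A X)
      rw [e] at ho
      exact l14s_ev_w_odd L hφ hOk' 0 ho

namespace L14Sk

variable {D : ℕ} {bd : L14Bd} {𝕂 𝓕 : Type} [CommRing 𝕂] [CommRing 𝓕]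

/-! ### evaluation of `Pt`, `D Pt`, `Qt` at `(0,0)` -/

theorem l14s_prod_erase_l {α M : Type} [DecidableEq α] [CommMonoid M] {a b : Finset α} (hd : Disjoint a b)
    (f : α → M) {x : α} (hx : x ∈ a) :
    ∏ z ∈ (a ∪ b).erase x, f z = (∏ z ∈ a.erase x, f z) * ∏ z ∈ b, f z := by
  rw [Finset.erase_union_distrib, Finset.erase_eq_of_notMem (Finset.disjoint_left.mp hd hx),
    Finset.prod_union (hd.mono_left (Finset.erase_subset _ _))]

theorem l14s_prod_erase_r {α M : Type} [DecidableEq α] [CommMonoid M] {a b : Finset α} (hd : Disjoint a b)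
    (f : α → M) {x : α} (hx : x ∈ b) :
    ∏ z ∈ (a ∪ b).erase x, f z = (∏ z ∈ a, f z) * ∏ z ∈ b.erase x, f z := by
  rw [Finset.erase_union_distrib, Finset.erase_eq_of_notMem (Finset.disjoint_right.mp hd hx),
    Finset.prod_union (hd.mono_right (Finset.erase_subset _ _))]

theorem l14s_ev_pt (L : L14Calc bd 𝕂 𝓕) {c : ℝ} (φ : Fin D → 𝓕) {s : L14Sk D} (h : s.Ok c) :
    L.ev (s.Pt L c φ 0) = ∏ Z ∈ s.labels, L.ev (L.T 0 c (φ Z)) := by
  induction s with
  | leaf A => simp [Pt, labels]
  | fork v l r ihl ihr =>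
    obtain ⟨_, _, _, hd, hl, hr⟩ := h
    simp only [Pt, labels, map_mul, ihl hl, ihr hr, Finset.prod_union hd]

theorem l14s_ev_dpt (L : L14Calc bd 𝕂 𝓕) {c : ℝ} (φ : Fin D → 𝓕) {s : L14Sk D} (h : s.Ok c) :
    L.ev (L.D (s.Pt L c φ 0)) = ∑ X ∈ s.labels, L.ev (L.D (L.T 0 c (φ X))) *
      ∏ Z ∈ s.labels.erase X, L.ev (L.T 0 c (φ Z)) := by
  induction s with
  | leaf A => simp [Pt, labels]
  | fork v l r ihl ihr =>
    obtain ⟨_, _, _, hd, hl, hr⟩ := h
    simp only [Pt, labels, L.D_mul, map_add, map_mul, ihl hl, ihr hr, l14s_ev_pt L φ hl, l14s_ev_pt L φ hr,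
      Finset.sum_union hd]
    rw [Finset.mul_sum, Finset.sum_mul, add_comm]
    congr 1
    · exact Finset.sum_congr rfl (fun X hX => by rw [l14s_prod_erase_l hd _ hX]; ring)
    · exact Finset.sum_congr rfl (fun X hX => by rw [l14s_prod_erase_r hd _ hX]; ring)

/-- no odd block: `∂_z ∏ w` vanishes at `0` -/
theorem l14s_ev_dpt_zero (L : L14Calc bd 𝕂 𝓕) {c : ℝ} (φ : Fin D → 𝓕) {s : L14Sk D} (h : s.Ok c)
    (h0 : ∀ Z ∈ s.labels, L.ev (L.D (L.T 0 c (φ Z))) = 0) : L.ev (L.D (s.Pt L c φ 0)) = 0 := by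
  rw [l14s_ev_dpt L φ h]
  exact Finset.sum_eq_zero (fun X hX => by rw [h0 X hX, zero_mul])

/-- one odd block -/
theorem l14s_ev_dpt_one (L : L14Calc bd 𝕂 𝓕) {c : ℝ} (φ : Fin D → 𝓕) {s : L14Sk D} (h : s.Ok c) {W : Fin D}
    (hW : W ∈ s.labels) (h0 : ∀ Z ∈ s.labels, Z ≠ W → L.ev (L.D (L.T 0 c (φ Z))) = 0) :
    L.ev (L.D (s.Pt L c φ 0)) = L.ev (L.D (L.T 0 c (φ W))) * ∏ Z ∈ s.labels.erase W, L.ev (L.T 0 c (φ Z)) := by
  rw [l14s_ev_dpt L φ h]
  exact Finset.sum_eq_single_of_mem W hW (fun X hX hne => by rw [h0 X hX hne, zero_mul])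

/-- at most one odd block: the first order term vanishes at `0` -/
theorem l14s_ev_qt_zero (L : L14Calc bd 𝕂 𝓕) {c : ℝ} (φ : Fin D → 𝓕) {s : L14Sk D} (h : s.Ok c) (W : Fin D)
    (h0 : ∀ Z ∈ s.labels, Z ≠ W → L.ev (L.D (L.T 0 c (φ Z))) = 0) : L.ev (s.Qt L c φ 0) = 0 := by
  induction s with
  | leaf A => simp [Qt]
  | fork v l r ihl ihr =>
    obtain ⟨_, _, _, hd, hl, hr⟩ := h
    have h0l : ∀ Z ∈ l.labels, Z ≠ W → L.ev (L.D (L.T 0 c (φ Z))) = 0 :=
      fun Z hZ => h0 Z (by simp only [labels, Finset.mem_union]; exact Or.inl hZ)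
    have h0r : ∀ Z ∈ r.labels, Z ≠ W → L.ev (L.D (L.T 0 c (φ Z))) = 0 :=
      fun Z hZ => h0 Z (by simp only [labels, Finset.mem_union]; exact Or.inr hZ)
    simp only [Qt, map_add, map_mul, ihl hl h0l, ihr hr h0r, zero_mul, mul_zero, zero_add]
    by_cases hW : W ∈ l.labels
    · rw [l14s_ev_dpt_zero L φ hr (fun Z hZ => h0r Z hZ (fun e => Finset.disjoint_left.mp hd hW (e ▸ hZ)))]
      simp
    · rw [l14s_ev_dpt_zero L φ hl (fun Z hZ => h0l Z hZ (fun e => hW (e ▸ hZ)))]
      simp

theorem l14s_erase_union_l {α : Type} [DecidableEq α] {a b : Finset α} (hd : Disjoint a b) {x : α} (hx : x ∈ a) :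
    (a ∪ b).erase x = a.erase x ∪ b := by
  rw [Finset.erase_union_distrib, Finset.erase_eq_of_notMem (Finset.disjoint_left.mp hd hx)]

theorem l14s_erase_union_r {α : Type} [DecidableEq α] {a b : Finset α} (hd : Disjoint a b) {x : α} (hx : x ∈ b) :
    (a ∪ b).erase x = a ∪ b.erase x := by
  rw [Finset.erase_union_distrib, Finset.erase_eq_of_notMem (Finset.disjoint_right.mp hd hx)]

/-- exactly two odd blocks, both present -/
theorem l14s_ev_qt_two (L : L14Calc bd 𝕂 𝓕) {c : ℝ} (φ : Fin D → 𝓕) {s : L14Sk D} (h : s.Ok c) {X0 Y0 : Fin D}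
    (hne : X0 ≠ Y0) (hX : X0 ∈ s.labels) (hY : Y0 ∈ s.labels)
    (eX : L.ev (L.T 0 c (φ X0)) = 0)
    (h0 : ∀ Z ∈ s.labels, Z ≠ X0 → Z ≠ Y0 → L.ev (L.D (L.T 0 c (φ Z))) = 0) :
    L.ev (s.Qt L c φ 0) = L.re (s.split c X0 Y0) * (L.ev (L.D (L.T 0 c (φ X0))) *
      L.ev (L.D (L.T 0 c (φ Y0)))) * ∏ Z ∈ (s.labels.erase X0).erase Y0, L.ev (L.T 0 c (φ Z)) := by
  induction s with
  | leaf A =>
    simp only [labels, Finset.mem_singleton] at hX hY
    exact absurd (hX.trans hY.symm) hne
  | fork v l r ihl ihr =>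
    obtain ⟨_, _, _, hd, hl, hr⟩ := h
    have h0l : ∀ Z ∈ l.labels, Z ≠ X0 → Z ≠ Y0 → L.ev (L.D (L.T 0 c (φ Z))) = 0 :=
      fun Z hZ => h0 Z (by simp only [labels, Finset.mem_union]; exact Or.inl hZ)
    have h0r : ∀ Z ∈ r.labels, Z ≠ X0 → Z ≠ Y0 → L.ev (L.D (L.T 0 c (φ Z))) = 0 :=
      fun Z hZ => h0 Z (by simp only [labels, Finset.mem_union]; exact Or.inr hZ)
    have nl : ∀ {Z W : Fin D}, Z ∈ l.labels → W ∈ r.labels → Z ≠ W :=
      fun hZ hW e => Finset.disjoint_left.mp hd hZ (e ▸ hW)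
    simp only [labels, Finset.mem_union] at hX hY
    simp only [Qt, labels, map_add, map_mul, L.ev_cst, sub_zero]
    rcases hX with hX | hX <;> rcases hY with hY | hY
    · rw [l14s_split_ll hX hY, ihl hl hX hY h0l, l14s_ev_pt L φ hl, l14s_ev_pt L φ hr,
        Finset.prod_eq_zero hX eX,
        l14s_ev_dpt_zero L φ hr (fun Z hZ => h0r Z hZ (nl hX hZ).symm (nl hY hZ).symm),
        l14s_erase_union_l hd hX,
        l14s_prod_erase_l (hd.mono_left (Finset.erase_subset _ _)) _ (Finset.mem_erase.mpr ⟨hne.symm, hY⟩)]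
      ring
    · rw [l14s_split_lr hd hX hY,
        l14s_ev_qt_zero L φ hl X0 (fun Z hZ hz => h0l Z hZ hz (nl hZ hY)),
        l14s_ev_qt_zero L φ hr Y0 (fun Z hZ hz => h0r Z hZ (nl hX hZ).symm hz),
        l14s_ev_dpt_one L φ hl hX (fun Z hZ hz => h0l Z hZ hz (nl hZ hY)),
        l14s_ev_dpt_one L φ hr hY (fun Z hZ hz => h0r Z hZ (nl hX hZ).symm hz),
        l14s_erase_union_l hd hX,
        l14s_prod_erase_r (hd.mono_left (Finset.erase_subset _ _)) _ hY]
      ring
    · rw [l14s_split_rl hd hX hY,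
        l14s_ev_qt_zero L φ hl Y0 (fun Z hZ hz => h0l Z hZ (nl hZ hX) hz),
        l14s_ev_qt_zero L φ hr X0 (fun Z hZ hz => h0r Z hZ hz (nl hY hZ).symm),
        l14s_ev_dpt_one L φ hl hY (fun Z hZ hz => h0l Z hZ (nl hZ hX) hz),
        l14s_ev_dpt_one L φ hr hX (fun Z hZ hz => h0r Z hZ hz (nl hY hZ).symm),
        l14s_erase_union_r hd hX,
        l14s_prod_erase_l (hd.mono_right (Finset.erase_subset _ _)) _ hY]
      ring
    · rw [l14s_split_rr hd hX hY, ihr hr hX hY h0r, l14s_ev_pt L φ hl, l14s_ev_pt L φ hr,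
        Finset.prod_eq_zero hX eX,
        l14s_ev_dpt_zero L φ hl (fun Z hZ => h0l Z hZ (nl hZ hX) (nl hZ hY)),
        l14s_erase_union_r hd hX,
        l14s_prod_erase_r (hd.mono_right (Finset.erase_subset _ _)) _ (Finset.mem_erase.mpr ⟨hne.symm, hY⟩)]
      ring

end L14Sk

/-- proof of the contract **K4e** -/
theorem l14_K4e_pf : l14_K4e := by
  intro bd 𝕂 𝓕 _ _ L D c φ s X0 Y0 hOk hne hX hY eX _ h0
  refine ⟨?_, L14Sk.l14s_ev_qt_two L φ hOk hne hX hY eX h0⟩
  rw [L14Sk.l14s_ev_pt L φ hOk]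
  exact Finset.prod_eq_zero hX eX

end Claimed.Agent.R286
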