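/-
Row 286 (S0533), package L14 (head helper242).      OWNER: helper274.
PROOFS of the contracts **K8m**, **K8mr** of `L09/StmM.lean` (size of the mass factors `ma`, `mb`), and the SPLIT LEMMAS of `L14Sk`:
`k8_mass_le`, `k8_mass_nonneg`, `k8_mass_le_split`, `k8_split_le`, `k8_split_nonneg`, `k8_split_comm`, `k8_split_ultra` (ultrametric inequality), `k8_split_iso` (isosceles).
-/
import Claimed.Agent.R286.L09.StmM
import Claimed.Agent.R286.L09.Split

set_option autoImplicit false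

namespace Claimed.Agent.R286

namespace L14Sk

variable {D : ℕ} {c : ℝ}

theorem k8_mass_le : ∀ (s : L14Sk D), s.Ok c → s.mass c ≤ c
  | leaf _, _ => le_rfl
  | fork _ l _, h => h.2.1.trans (k8_mass_le l h.2.2.2.2.1)

theorem k8_mass_nonneg (hc : 0 ≤ c) : ∀ (s : L14Sk D), s.Ok c → 0 ≤ s.mass c
  | leaf _, _ => hc
  | fork _ _ _, h => h.1

theorem k8_mass_le_split : ∀ (s : L14Sk D), s.Ok c → ∀ A B, s.mass c ≤ s.split c A B
  | leaf _, _, _, _ => le_rfl
  | fork v l r, h, A, B => by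
    simp only [split, mass]
    split_ifs
    · exact h.2.1.trans (k8_mass_le_split l h.2.2.2.2.1 A B)
    · exact h.2.2.1.trans (k8_mass_le_split r h.2.2.2.2.2 A B)
    · exact le_rfl

theorem k8_split_le : ∀ (s : L14Sk D), s.Ok c → ∀ A B, s.split c A B ≤ c
  | leaf _, _, _, _ => le_rfl
  | fork v l r, h, A, B => by
    simp only [split]
    split_ifs
    · exact k8_split_le l h.2.2.2.2.1 A B
    · exact k8_split_le r h.2.2.2.2.2 A B
    · exact h.2.1.trans (k8_mass_le l h.2.2.2.2.1)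

theorem k8_split_nonneg (hc : 0 ≤ c) (s : L14Sk D) (h : s.Ok c) (A B : Fin D) : 0 ≤ s.split c A B :=
  (k8_mass_nonneg hc s h).trans (k8_mass_le_split s h A B)

theorem k8_split_comm : ∀ (s : L14Sk D) (A B : Fin D), s.split c A B = s.split c B A
  | leaf _, _, _ => rfl
  | fork v l r, A, B => by
    simp only [split]
    rw [k8_split_comm l A B, k8_split_comm r A B]
    simp only [and_comm]

/-- the ultrametric inequality -/
theorem k8_split_ultra : ∀ (s : L14Sk D), s.Ok c → ∀ A B C, A ∈ s.labels → B ∈ s.labels → C ∈ s.labels →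
    min (s.split c A B) (s.split c A C) ≤ s.split c B C
  | leaf _, _, _, _, _, _, _, _ => by simp [split]
  | fork v l r, h, A, B, C, hA, hB, hC => by
    have hd := Finset.disjoint_left.1 h.2.2.2.1
    have hd' := Finset.disjoint_right.1 h.2.2.2.1
    have hl := k8_mass_le_split l h.2.2.2.2.1
    have hr := k8_mass_le_split r h.2.2.2.2.2
    simp only [labels, Finset.mem_union] at hA hB hC
    rcases hA with hA | hA <;> rcases hB with hB | hB <;> rcases hC with hC | hC
    · simp only [split, hA, hB, hC, and_self, if_true]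
      exact k8_split_ultra l h.2.2.2.2.1 A B C hA hB hC
    · have hC' := hd' hC
      simp only [split, hA, hB, hC, hC', and_self, and_false, and_true, if_true, if_false, hd hA, hd hB]
      exact min_le_right _ _
    · have hB' := hd' hB
      simp only [split, hA, hB, hC, hB', and_self, and_false, and_true, if_true, if_false, hd hA, hd hC]
      exact min_le_left _ _
    · have hB' := hd' hB
      have hC' := hd' hC
      simp only [split, hA, hB, hC, hB', hC', and_self, and_false, and_true, if_true, if_false, hd hA, min_self]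
      exact h.2.2.1.trans (hr B C)
    · have hA' := hd' hA
      simp only [split, hA, hB, hC, hA', and_self, and_false, and_true, if_true, if_false, hd hB, hd hC, min_self]
      exact h.2.1.trans (hl B C)
    · have hA' := hd' hA
      have hC' := hd' hC
      simp only [split, hA, hB, hC, hA', hC', and_self, and_false, and_true, if_true, if_false, hd hB]
      exact min_le_left _ _
    · have hA' := hd' hA
      have hB' := hd' hB
      simp only [split, hA, hB, hC, hA', hB', and_self, and_false, and_true, if_true, if_false, hd hC]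
      exact min_le_right _ _
    · have hA' := hd' hA
      have hB' := hd' hB
      have hC' := hd' hC
      simp only [split, hA, hB, hC, hA', hB', hC', and_self, if_true, if_false]
      exact k8_split_ultra r h.2.2.2.2.2 A B C hA hB hC

/-- isosceles: if two of the three splits differ, the third equals the smaller one -/
theorem k8_split_iso (s : L14Sk D) (h : s.Ok c) {A B C : Fin D} (hA : A ∈ s.labels) (hB : B ∈ s.labels) (hC : C ∈ s.labels)
    (hne : s.split c A B ≠ s.split c A C) : s.split c B C = min (s.split c A B) (s.split c A C) := by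
  have h1 := k8_split_ultra s h A B C hA hB hC
  have h2 := k8_split_ultra s h B A C hB hA hC
  have h3 := k8_split_ultra s h C A B hC hA hB
  rw [k8_split_comm s B A] at h2
  rw [k8_split_comm s C A, k8_split_comm s C B] at h3
  rcases lt_or_gt_of_ne hne with hlt | hlt
  · rw [min_eq_left hlt.le] at h1 ⊢
    rcases min_le_iff.1 h3 with h4 | h4
    · exact absurd h4 (not_le.2 hlt)
    · exact le_antisymm h4 h1
  · rw [min_eq_right hlt.le] at h1 ⊢
    rcases min_le_iff.1 h2 with h4 | h4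
    · exact absurd h4 (not_le.2 hlt)
    · exact le_antisymm h4 h1

end L14Sk

/-! ### the sums `ps` -/

namespace L14Gr

/-- two blocks: one pair -/
theorem k8_ps_two {j : ℕ} (Γ : L14Gr j 2) (c : ℝ) (s : L14Sk 2) (p : ℕ) :
    Γ.ps c s p = if Γ.deg Finset.univ 0 = p ∧ Γ.deg Finset.univ 1 = p then s.split c 0 1 else 0 := by
  unfold ps
  simp [Fin.sum_univ_two]

theorem k8_ps_two_mem {j : ℕ} (Γ : L14Gr j 2) {c : ℝ} (hc : 0 ≤ c) (s : L14Sk 2) (h : s.Ok c) (p : ℕ) :
    0 ≤ Γ.ps c s p ∧ Γ.ps c s p ≤ c := by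
  rw [k8_ps_two]
  split_ifs
  · exact ⟨s.k8_split_nonneg hc h 0 1, s.k8_split_le h 0 1⟩
  · exact ⟨le_rfl, hc⟩

/-- degrees for two edges -/
theorem k8_deg_two {D : ℕ} (Γ : L14Gr 2 D) (A : Fin D) :
    Γ.deg Finset.univ A = ((if (Γ.e 0).1 = A then 1 else 0) + (if (Γ.e 1).1 = A then 1 else 0))
      + ((if (Γ.e 0).2 = A then 1 else 0) + (if (Γ.e 1).2 = A then 1 else 0)) := by
  unfold deg
  rw [Finset.card_filter, Finset.card_filter, Fin.sum_univ_two, Fin.sum_univ_two]

/-- combinatorics of two edges on three blocks: a common block `A`, the other ends `B ≠ C` are exactly the blocks of degree `1` -/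
theorem k8_enum : ∀ (a0 b0 a1 b1 : Fin 3), a0 ≠ b0 → a1 ≠ b1 → (∀ X : Fin 3, (a0 = X ∨ b0 = X) ∨ (a1 = X ∨ b1 = X)) →
    ∃ A B C : Fin 3, B ≠ C ∧ ((a0 = A ∧ b0 = B) ∨ (a0 = B ∧ b0 = A)) ∧ ((a1 = A ∧ b1 = C) ∨ (a1 = C ∧ b1 = A)) ∧
      ∀ X : Fin 3, (((if a0 = X then 1 else 0) + (if a1 = X then 1 else 0)) + ((if b0 = X then 1 else 0) + (if b1 = X then 1 else 0)) = 1
        ↔ (X = B ∨ X = C)) := by
  decide

/-- the sum over the ordered pairs inside `{B, C}` -/
theorem k8_pair_sum (σ : Fin 3 → Fin 3 → ℝ) (hσ : ∀ X Y, σ X Y = σ Y X) : ∀ (B C : Fin 3), B ≠ C →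
    (∑ X : Fin 3, ∑ Y : Fin 3, if X < Y ∧ (X = B ∨ X = C) ∧ (Y = B ∨ Y = C) then σ X Y else 0) = σ B C := by
  intro B C h
  fin_cases B <;> fin_cases C <;> first | exact absurd rfl h | skip
  all_goals simp [Fin.sum_univ_three]
  all_goals first | rfl | exact hσ _ _

/-- two edges on three blocks, with the position of the end points -/
theorem k8_three' (Γ : L14Gr 2 3) (c : ℝ) (s : L14Sk 3) :
    ∃ A B C : Fin 3, (((Γ.e 0).1 = A ∧ (Γ.e 0).2 = B) ∨ ((Γ.e 0).1 = B ∧ (Γ.e 0).2 = A)) ∧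
      (((Γ.e 1).1 = A ∧ (Γ.e 1).2 = C) ∨ ((Γ.e 1).1 = C ∧ (Γ.e 1).2 = A)) ∧
      Γ.vs c s 0 = s.split c A B ∧ Γ.vs c s 1 = s.split c A C ∧ Γ.ps c s 1 = s.split c B C := by
  obtain ⟨A, B, C, hBC, h0, h1, hd⟩ := k8_enum (Γ.e 0).1 (Γ.e 0).2 (Γ.e 1).1 (Γ.e 1).2 (Γ.ne 0) (Γ.ne 1) (by
    intro X
    obtain ⟨i, hi⟩ := Γ.used X
    fin_cases i
    · exact Or.inl hi
    · exact Or.inr hi)
  refine ⟨A, B, C, h0, h1, ?_, ?_, ?_⟩
  · unfold vs
    rcases h0 with ⟨h, h'⟩ | ⟨h, h'⟩
    · rw [h, h']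
    · rw [h, h', L14Sk.k8_split_comm]
  · unfold vs
    rcases h1 with ⟨h, h'⟩ | ⟨h, h'⟩
    · rw [h, h']
    · rw [h, h', L14Sk.k8_split_comm]
  · unfold ps
    rw [← k8_pair_sum (fun X Y => s.split c X Y) (fun X Y => s.k8_split_comm X Y) B C hBC]
    refine Finset.sum_congr rfl fun X _ => Finset.sum_congr rfl fun Y _ => ?_
    have eX : Γ.deg Finset.univ X = 1 ↔ (X = B ∨ X = C) := by rw [k8_deg_two]; exact hd X
    have eY : Γ.deg Finset.univ Y = 1 ↔ (Y = B ∨ Y = C) := by rw [k8_deg_two]; exact hd Y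
    simp only [eX, eY]

/-- two edges on three blocks -/
theorem k8_three (Γ : L14Gr 2 3) (c : ℝ) (s : L14Sk 3) :
    ∃ A B C : Fin 3, Γ.vs c s 0 = s.split c A B ∧ Γ.vs c s 1 = s.split c A C ∧ Γ.ps c s 1 = s.split c B C := by
  obtain ⟨A, B, C, -, -, h⟩ := Γ.k8_three' c s
  exact ⟨A, B, C, h⟩

/-- two edges on two blocks have the same designated fork -/
theorem k8_two_vs (Γ : L14Gr 2 2) (c : ℝ) (s : L14Sk 2) : Γ.vs c s 0 = Γ.vs c s 1 := by
  have key : ∀ a b : Fin 2, a ≠ b → s.split c a b = s.split c 0 1 := by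
    intro a b h
    fin_cases a <;> fin_cases b <;> first | exact absurd rfl h | skip
    · rfl
    · exact s.k8_split_comm 1 0
  unfold vs
  rw [key _ _ (Γ.ne 0), key _ _ (Γ.ne 1)]

end L14Gr

theorem l14_K8m_pf : l14_K8m := by
  intro j D Γ c s hj2 hj4 hc hc1 hs _
  have hp : ∀ n : ℕ, 0 ≤ c ^ n := fun n => pow_nonneg hc.le n
  refine ⟨?_, ?_, ?_, ?_⟩
  · unfold L14Gr.ma
    split_ifs with h1 h2 h3 h4
    · exact hp 4
    · obtain ⟨rfl, rfl⟩ := h2
      obtain ⟨A, B, C, -, -, h⟩ := Γ.k8_three c s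
      rw [h]
      exact mul_nonneg (hp 3) (s.k8_split_nonneg hc.le hs B C)
    · exact hp 3
    · exact hp 2
    · exact le_rfl
  · unfold L14Gr.ma
    split_ifs with h1 h2 h3 h4
    · obtain ⟨rfl, rfl⟩ := h1
      exact le_rfl
    · obtain ⟨rfl, rfl⟩ := h2
      obtain ⟨A, B, C, -, -, h⟩ := Γ.k8_three c s
      rw [h]
      have := mul_le_mul_of_nonneg_left (s.k8_split_le hs B C) (hp 3)
      calc c ^ 3 * s.split c B C ≤ c ^ 3 * c := this
        _ = c ^ (6 - 2) := by norm_num; ring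
    · obtain ⟨rfl, -, -⟩ := h3
      exact le_rfl
    · obtain ⟨rfl, -⟩ := h4
      exact le_rfl
    · exact hp _
  · unfold L14Gr.mb
    split_ifs with h1 h2
    · exact div_nonneg (mul_nonneg (hp 2) (sq_nonneg _)) (by norm_num)
    · obtain ⟨rfl, rfl⟩ := h2
      exact mul_nonneg (hp 2) (Γ.k8_ps_two_mem hc.le s hs 3).1
    · exact le_rfl
  · unfold L14Gr.mb
    split_ifs with h1 h2
    · obtain ⟨rfl, rfl⟩ := h1
      obtain ⟨a, b⟩ := Γ.k8_ps_two_mem hc.le s hs 2
      have h2 : (Γ.ps c s 2) ^ 2 ≤ c ^ 2 := pow_le_pow_left₀ a b 2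
      have h3 := mul_le_mul_of_nonneg_left h2 (hp 2)
      have h4 : c ^ (6 - 2) = c ^ 2 * c ^ 2 := by norm_num; ring
      rw [h4]
      have h5 := mul_nonneg (hp 2) (sq_nonneg (Γ.ps c s 2))
      linarith
    · obtain ⟨rfl, rfl⟩ := h2
      obtain ⟨_, b⟩ := Γ.k8_ps_two_mem hc.le s hs 3
      have h3 := mul_le_mul_of_nonneg_left b (hp 2)
      have h4 : c ^ (6 - 3) = c ^ 2 * c := by norm_num; ring
      rw [h4]
      exact h3
    · exact hp _

/-- K8mr in the case of different masses (242, 03:20Z: the contract `l14_K8mr` now has `Γ.Dist c s`;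
the second case of `Dist` forces four distinct blocks: to be added). -/
theorem l14_K8mr_ne : ∀ (D : ℕ) (Γ : L14Gr 2 D) (c : ℝ) (s : L14Sk D), 0 < c → c ≤ 1 → s.Ok c →
    s.labels = Finset.univ → Γ.vs c s 0 ≠ Γ.vs c s 1 →
    (Γ.ma c s ≤ c ^ 3 * min (Γ.vs c s 0) (Γ.vs c s 1) ∧ Γ.mb c s = 0) := by
  intro D Γ c s hc _ hs hl hne
  have hp : ∀ n : ℕ, 0 ≤ c ^ n := fun n => pow_nonneg hc.le n
  have hD2 : D ≠ 2 := by
    rintro rfl
    exact hne (Γ.k8_two_vs c s)
  constructor
  · unfold L14Gr.ma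
    split_ifs with h1 h2 h3 h4
    · exact absurd h1.2 hD2
    · obtain ⟨-, rfl⟩ := h2
      obtain ⟨A, B, C, e0, e1, h⟩ := Γ.k8_three c s
      rw [h, e0, e1]
      rw [e0, e1] at hne
      have hm : ∀ X : Fin 3, X ∈ s.labels := fun X => by rw [hl]; exact Finset.mem_univ X
      rw [s.k8_split_iso hs (hm A) (hm B) (hm C) hne]
    · exact absurd h3.1 (by norm_num)
    · exact absurd h4.1 (by norm_num)
    · exact mul_nonneg (hp 3) (le_min (s.k8_split_nonneg hc.le hs _ _) (s.k8_split_nonneg hc.le hs _ _))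
  · unfold L14Gr.mb
    split_ifs with h1 h2
    · exact absurd h1.2 hD2
    · exact absurd h2.1 (by norm_num)
    · rfl

theorem l14_K8mr_pf : l14_K8mr := by
  intro D Γ c s hc hc1 hs hl hdist
  rcases hdist with hne | hlt
  · exact l14_K8mr_ne D Γ c s hc hc1 hs hl hne
  have hp : ∀ n : ℕ, 0 ≤ c ^ n := fun n => pow_nonneg hc.le n
  have hm : ∀ X : Fin D, X ∈ s.labels := fun X => by rw [hl]; exact Finset.mem_univ X
  have hself : ∀ X : Fin D, s.split c X X = c := fun X => L14Sk.l14s_split_self hs (hm X)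
  have hv0 : Γ.vs c s 0 ≤ c := s.k8_split_le hs _ _
  have hD2 : D ≠ 2 := by
    rintro rfl
    have key : ∀ a b : Fin 2, a ≠ b → s.split c a b = Γ.vs c s 0 := by
      intro a b h
      have k1 : ∀ a b : Fin 2, a ≠ b → s.split c a b = s.split c 0 1 := by
        intro a b h
        fin_cases a <;> fin_cases b <;> first | exact absurd rfl h | skip
        · rfl
        · exact s.k8_split_comm 1 0
      unfold L14Gr.vs
      rw [k1 _ _ h, k1 _ _ (Γ.ne 0)]
    by_cases h : (Γ.e 0).1 = (Γ.e 1).1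
    · rw [h, hself] at hlt
      exact absurd (hlt.trans_le ((min_le_left _ _).trans hv0)) (lt_irrefl _)
    · rw [key _ _ h] at hlt
      exact absurd (hlt.trans_le (min_le_left _ _)) (lt_irrefl _)
  constructor
  · unfold L14Gr.ma
    split_ifs with h1 h2 h3 h4
    · exact absurd h1.2 hD2
    · obtain ⟨-, rfl⟩ := h2
      obtain ⟨A, B, C, p0, p1, e0, e1, h⟩ := Γ.k8_three' c s
      rw [h]
      refine mul_le_mul_of_nonneg_left ?_ (hp 3)
      rcases p0 with ⟨a0, -⟩ | ⟨a0, -⟩ <;> rcases p1 with ⟨a1, -⟩ | ⟨a1, -⟩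
      · rw [a0, a1, hself] at hlt
        exact absurd (hlt.trans_le ((min_le_left _ _).trans hv0)) (lt_irrefl _)
      · rw [a0, a1, ← e1] at hlt
        exact absurd (hlt.trans_le (min_le_right _ _)) (lt_irrefl _)
      · rw [a0, a1, s.k8_split_comm B A, ← e0] at hlt
        exact absurd (hlt.trans_le (min_le_left _ _)) (lt_irrefl _)
      · rw [a0, a1] at hlt
        exact hlt.le
    · exact absurd h3.1 (by norm_num)
    · exact absurd h4.1 (by norm_num)
    · exact mul_nonneg (hp 3) (le_min (s.k8_split_nonneg hc.le hs _ _) (s.k8_split_nonneg hc.le hs _ _))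
  · unfold L14Gr.mb
    split_ifs with h1 h2
    · exact absurd h1.2 hD2
    · exact absurd h2.1 (by norm_num)
    · rfl

end Claimed.Agent.R286
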