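/-
Row 286 (S0533), package L14, node MAIN (K8, K8r, K8d, K8dr of `L09/StmM.lean`).      ARCHITECT: helper219 (head helper242).
TEX[LL:exp:prop-low-coefficients] l.750-889.      LEAVES of the cut: moments of a DEGREE VECTOR on an arbitrary skeleton.

A prover replaces ONLY his `sorry` (helper lemmas immediately above his theorem, names = theorem name + suffix), keeps the statement; a false statement = one line to helper219.
API available: `L09/Split.lean` (276: labels, size, mass, split), `L09/K8m.lean` (274: split, graphs), `L09/SkelCum.lean` (271: `coef_two/three/four`, `Elow_cst_mul`, `sig_eq`), `L09/K7.lean` (274), `L09/CalcO.lean`.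

 LV1 `l9c_sig_B`    bounds of the block functions                        (K7)
 LV2 `l9c_sig_sg`, `l9c_om_odd`, `l9c_et_even`, `l9c_om_zero`   parity          (K7)
 LV3 `l9c_jets`     `ω_2, ω_4, η_1, η_3`                                  (K7e)
 LV4 `l9c_amp`      amplitude of a degree vector
 LV5 `l9c_PQ`       parity count for `Pt`, `D Pt`, `Qt` at the root          (induction on the skeleton)
 LV6 `l9c_M0`       crude bound `EL d = O(c^nz)`                           (K2)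
 LV7 `l9c_K4ev`     `EL d = ev Pt + k0 ev Qt + O(c^(nz+2))`                  (K4)
 LV8 `l9c_M4`       odd component above `h`: `EL d = O(h c^nz)`              (K3, K3p)
 LV9 `l9c_M5`       (E8) on a skeleton with two blocks                      (K5)
 LV10 `l9c_M6`      refined (E9) on a skeleton with three blocks             (K1, K6, K7, K7e)
v2 (03:55Z, calculus with a mesh): LV7, LV9, LV10 take `(hm : ∀ i, (L i).eps ≤ c i ^ 4)` (field `mesh` of `L14Hyp`); LV6, LV8 do NOT (they feed K8d, K8dr which have no mesh hypothesis).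
-/
import Claimed.Agent.R286.L09.K8Def
import Claimed.Agent.R286.L09.Split
import Claimed.Agent.R286.L09.K8m
import Claimed.Agent.R286.L09.SkelCum
import Claimed.Agent.R286.L09.K7
import Claimed.Agent.R286.L09.K16

set_option autoImplicit false

namespace Claimed.Agent.R286

open Finset

variable {bd : L14Bd} {𝕂 𝓕 : Type} [CommRing 𝕂] [CommRing 𝓕] {ι : Type}

/-- LV1: bounds of the block functions, uniform in the degree `k ≤ m` -/
theorem l9c_sig_B (L : ι → L14Calc bd 𝕂 𝓕) (c : ι → ℝ) (hc0 : ∀ i, 0 ≤ c i) (hc : ∀ i, c i ≤ bd.c0) (n m : ℕ) :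
    ∃ C₁ : ℝ, 1 ≤ C₁ ∧ ∀ i k, k ≤ m → (L i).B n (if k = 0 then 1 else C₁ * c i) ((L i).sig (c i) k) := by
  have hst : ∀ k : ℕ, ∃ C : ℝ, 0 ≤ C ∧ ∀ i, (L i).B n (C * 1) ((L i).st (c i) k (c i)) := fun k =>
    l14k7_st_B L c c hc0 hc (fun i => by rw [abs_of_nonneg (hc0 i)]; exact (hc i).trans bd.c0_le) k n
  choose C hC0 hC using hst
  have hnn : ∀ k ∈ range m, 0 ≤ bd.C n * C k := fun k _ => mul_nonneg (bd.C_nonneg n) (hC0 k)
  refine ⟨1 + ∑ k ∈ range m, bd.C n * C k, by linarith [sum_nonneg hnn], fun i k hk => ?_⟩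
  cases k with
  | zero => rw [if_pos rfl]; exact (L i).B_one n
  | succ k =>
    have h1 : (L i).B n (c i) ((L i).cst ((L i).re (c i))) :=
      (L i).B_mono (by simpa [abs_of_nonneg (hc0 i)] using (L i).nrm_re (c i)) ((L i).B_cst n _)
    have h2 := (L i).B_mul h1 (hC k i)
    have h3 : bd.C n * C k ≤ ∑ k ∈ range m, bd.C n * C k := single_le_sum hnn (mem_range.2 hk)
    rw [if_neg (Nat.succ_ne_zero k)]
    refine (L i).B_mono ?_ h2
    have := mul_le_mul_of_nonneg_right h3 (hc0 i)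
    nlinarith [hc0 i]

/-- LV2: parity of the block functions -/
theorem l9c_sig_sg (L : L14Calc bd 𝕂 𝓕) (c : ℝ) (k : ℕ) : L.sg (L.sig c k) = L.cst (L.re ((-1) ^ k)) * L.sig c k := by
  cases k with
  | zero =>
    show L.sg 1 = L.cst (L.re ((-1) ^ 0)) * 1
    simp
  | succ k =>
    show L.sg (L.cst (L.re c) * L.st c k c) = L.cst (L.re ((-1) ^ (k + 1))) * (L.cst (L.re c) * L.st c k c)
    rw [map_mul, L.sg_cst, l14k7_sg]
    ring

theorem l9c_om_odd (L : L14Calc bd 𝕂 𝓕) (c : ℝ) {k : ℕ} (hk : Odd k) : L.om c k = 0 := by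
  apply L.ev_of_odd
  rw [L.T_sg, l9c_sig_sg, hk.neg_one_pow, L.T_cst_mul]
  simp

theorem l9c_et_even (L : L14Calc bd 𝕂 𝓕) (c : ℝ) {k : ℕ} (hk : Even k) : L.et c k = 0 := by
  apply L.ev_of_odd
  rw [L.sg_D, L.T_sg, l9c_sig_sg, hk.neg_one_pow, L.T_cst_mul]
  simp

theorem l9c_om_zero (L : L14Calc bd 𝕂 𝓕) (c : ℝ) : L.om c 0 = 1 := by
  show L.ev (L.T 0 c 1) = 1
  rw [L.T_one, map_one]

/-- LV3: jets of the block functions -/
theorem l9c_jets (L : ι → L14Calc bd 𝕂 𝓕) (c : ι → ℝ) (hc0 : ∀ i, 0 ≤ c i) (hc : ∀ i, c i ≤ bd.c0) :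
    l14ON L (fun i => (L i).om (c i) 2 - (L i).re (c i) * (L i).chi) (fun i => c i ^ 2) ∧
    l14ON L (fun i => (L i).om (c i) 4 - (L i).re (c i) * (L i).gg) (fun i => c i ^ 2) ∧
    l14ON L (fun i => (L i).et (c i) 1 - (L i).re (c i) * (L i).chi) (fun i => c i ^ 2) ∧
    l14ON L (fun i => (L i).et (c i) 3 - (L i).re (c i) * (L i).gg) (fun i => c i ^ 2) := by
  obtain ⟨h1, h2, h3, h4⟩ := l14_K7e_pf bd 𝕂 𝓕 ι L c hc0 hc
  have hr : l14ON L (fun i => (L i).re (c i)) c := l14ON_re_le L c (fun i => by rw [abs_of_nonneg (hc0 i)])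
  have e : ∀ i, c i * c i ≤ c i ^ 2 := fun i => by rw [sq]
  refine ⟨((hr.mul h1).mono1 e).congr fun i => ?_, ((hr.mul h2).mono1 e).congr fun i => ?_,
    ((hr.mul h3).mono1 e).congr fun i => ?_, ((hr.mul h4).mono1 e).congr fun i => ?_⟩
  · show _ = (L i).ev ((L i).T 0 (c i) ((L i).cst ((L i).re (c i)) * (L i).st (c i) 1 (c i))) - _
    rw [(L i).T_cst_mul, map_mul, (L i).ev_cst]
    ring
  · show _ = (L i).ev ((L i).T 0 (c i) ((L i).cst ((L i).re (c i)) * (L i).st (c i) 3 (c i))) - _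
    rw [(L i).T_cst_mul, map_mul, (L i).ev_cst]
    ring
  · show _ = (L i).ev ((L i).D ((L i).T 0 (c i) ((L i).cst ((L i).re (c i)) * (L i).st (c i) 0 (c i)))) - _
    rw [(L i).T_cst_mul, (L i).D_cst_mul, map_mul, (L i).ev_cst]
    ring
  · show _ = (L i).ev ((L i).D ((L i).T 0 (c i) ((L i).cst ((L i).re (c i)) * (L i).st (c i) 2 (c i)))) - _
    rw [(L i).T_cst_mul, (L i).D_cst_mul, map_mul, (L i).ev_cst]
    ring

theorem l9c_amp_prod {D : ℕ} {c : ℝ} (K : Fin D → ℝ) {s : L14Sk D} (hs : s.Ok c) :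
    s.amp K = ∏ A ∈ s.labels, K A := by
  induction s with
  | leaf A => simp [L14Sk.amp, L14Sk.labels]
  | fork v l r ihl ihr =>
    obtain ⟨_, _, _, hd, hl, hr⟩ := hs
    simp only [L14Sk.amp, L14Sk.labels, ihl hl, ihr hr, Finset.prod_union hd]

theorem l9c_amp_nz_le {D : ℕ} (d : Fin D → ℕ) : l9cNz d ≤ D := by
  have h := Finset.card_filter_le (univ : Finset (Fin D)) (fun A => 0 < d A)
  simpa [l9cNz] using h

/-- LV4: the amplitude of a degree vector on a full skeleton -/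
theorem l9c_amp {D : ℕ} {c : ℝ} {s : L14Sk D} (hs : s.Ok c) (hl : s.labels = univ) (d : Fin D → ℕ) (x : ℝ) :
    s.amp (fun A => if d A = 0 then 1 else x) = x ^ l9cNz d := by
  rw [l9c_amp_prod _ hs, hl, Finset.prod_ite, Finset.prod_const_one, one_mul, Finset.prod_const, l9cNz]
  congr 2
  ext A
  simp [Nat.pos_iff_ne_zero]

theorem l9c_PQ_P {D : ℕ} (L : L14Calc bd 𝕂 𝓕) (c : ℝ) (φ : Fin D → 𝓕) (o : Fin D → Prop) [DecidablePred o]
    (ho : ∀ Z, o Z → L.ev (L.T 0 c (φ Z)) = 0) (s : L14Sk D) (hs : s.Ok c)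
    (h0 : (s.labels.filter o).card ≠ 0) : L.ev (s.Pt L c φ 0) = 0 := by
  obtain ⟨Y, hY⟩ := Finset.card_pos.1 (Nat.pos_of_ne_zero h0)
  rw [L14Sk.l14s_ev_pt L φ hs]
  exact Finset.prod_eq_zero (Finset.mem_filter.1 hY).1 (ho Y (Finset.mem_filter.1 hY).2)

theorem l9c_PQ_D {D : ℕ} (L : L14Calc bd 𝕂 𝓕) (c : ℝ) (φ : Fin D → 𝓕) (o : Fin D → Prop) [DecidablePred o]
    (ho : ∀ Z, o Z → L.ev (L.T 0 c (φ Z)) = 0) (he : ∀ Z, ¬ o Z → L.ev (L.D (L.T 0 c (φ Z))) = 0)
    (s : L14Sk D) (hs : s.Ok c) (h1 : (s.labels.filter o).card ≠ 1) : L.ev (L.D (s.Pt L c φ 0)) = 0 := by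
  rw [L14Sk.l14s_ev_dpt L φ hs]
  refine Finset.sum_eq_zero fun X hX => ?_
  by_cases hoX : o X
  · have hXm : X ∈ s.labels.filter o := Finset.mem_filter.2 ⟨hX, hoX⟩
    have hex : ∃ Y ∈ s.labels.filter o, Y ≠ X := by
      by_contra hcon
      push_neg at hcon
      exact h1 (Finset.card_eq_one.2 ⟨X, Finset.eq_singleton_iff_unique_mem.2 ⟨hXm, hcon⟩⟩)
    obtain ⟨Y, hY, hne⟩ := hex
    rw [Finset.prod_eq_zero (Finset.mem_erase.2 ⟨hne, (Finset.mem_filter.1 hY).1⟩)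
      (ho Y (Finset.mem_filter.1 hY).2), mul_zero]
  · rw [he X hoX, zero_mul]

theorem l9c_PQ_Q {D : ℕ} (L : L14Calc bd 𝕂 𝓕) (c : ℝ) (φ : Fin D → 𝓕) (o : Fin D → Prop) [DecidablePred o]
    (ho : ∀ Z, o Z → L.ev (L.T 0 c (φ Z)) = 0) (he : ∀ Z, ¬ o Z → L.ev (L.D (L.T 0 c (φ Z))) = 0)
    (s : L14Sk D) (hs : s.Ok c) (h2 : (s.labels.filter o).card ≠ 2) : L.ev (s.Qt L c φ 0) = 0 := by
  induction s with
  | leaf A => simp [L14Sk.Qt]
  | fork v l r ihl ihr =>
    obtain ⟨_, _, _, hd, hl, hr⟩ := hs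
    have hcard : ((L14Sk.fork v l r).labels.filter o).card
        = (l.labels.filter o).card + (r.labels.filter o).card := by
      simp only [L14Sk.labels]
      rw [Finset.filter_union, Finset.card_union_of_disjoint (Finset.disjoint_filter_filter hd)]
    rw [hcard] at h2
    have t1 : L.ev (l.Qt L c φ 0) * L.ev (r.Pt L c φ 0) = 0 := by
      by_cases ha : (l.labels.filter o).card = 2
      · rw [l9c_PQ_P L c φ o ho r hr (by omega), mul_zero]
      · rw [ihl hl ha, zero_mul]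
    have t2 : L.ev (l.Pt L c φ 0) * L.ev (r.Qt L c φ 0) = 0 := by
      by_cases hb : (r.labels.filter o).card = 2
      · rw [l9c_PQ_P L c φ o ho l hl (by omega), zero_mul]
      · rw [ihr hr hb, mul_zero]
    have t3 : L.ev (L.D (l.Pt L c φ 0)) * L.ev (L.D (r.Pt L c φ 0)) = 0 := by
      by_cases ha : (l.labels.filter o).card = 1
      · rw [l9c_PQ_D L c φ o ho he r hr (by omega), mul_zero]
      · rw [l9c_PQ_D L c φ o ho he l hl ha, zero_mul]
    simp only [L14Sk.Qt, map_add, map_mul, t1, t2, t3, mul_zero, add_zero]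

/-- LV5: parity count at the root.  `o Z`: the block `Z` is odd (its value vanishes), otherwise its slope vanishes. -/
theorem l9c_PQ {D : ℕ} (L : L14Calc bd 𝕂 𝓕) (c : ℝ) (φ : Fin D → 𝓕) (o : Fin D → Prop) [DecidablePred o]
    (ho : ∀ Z, o Z → L.ev (L.T 0 c (φ Z)) = 0) (he : ∀ Z, ¬ o Z → L.ev (L.D (L.T 0 c (φ Z))) = 0)
    (s : L14Sk D) (hs : s.Ok c) :
    L.ev (s.Pt L c φ 0) = ∏ Z ∈ s.labels, L.ev (L.T 0 c (φ Z)) ∧
    ((s.labels.filter o).card ≠ 1 → L.ev (L.D (s.Pt L c φ 0)) = 0) ∧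
    ((s.labels.filter o).card ≠ 2 → L.ev (s.Qt L c φ 0) = 0) :=
  ⟨L14Sk.l14s_ev_pt L φ hs, l9c_PQ_D L c φ o ho he s hs, l9c_PQ_Q L c φ o ho he s hs⟩

theorem l9c_M0_size {D : ℕ} {L : ι → L14Calc bd 𝕂 𝓕} {c : ι → ℝ} {s : ι → L14Sk D} (F : L9cFam L c s) (i : ι) :
    (s i).size ≤ D := by
  rw [L14Sk.l14s_size_eq_card (F.ok i), F.full i]
  simp

theorem l9c_M0_pow {D : ℕ} {C₁ x : ℝ} (hC1 : 1 ≤ C₁) (hx : 0 ≤ x) (d : Fin D → ℕ) :
    (C₁ * x) ^ l9cNz d ≤ C₁ ^ D * x ^ l9cNz d := by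
  rw [mul_pow]
  exact mul_le_mul_of_nonneg_right (pow_le_pow_right₀ hC1 (l9c_amp_nz_le d)) (pow_nonneg hx _)

/-- LV6: crude bound -/
theorem l9c_M0 (h2 : l14_K2) {D : ℕ} {L : ι → L14Calc bd 𝕂 𝓕} {c : ι → ℝ} {s : ι → L14Sk D} (F : L9cFam L c s)
    (d : ι → Fin D → ℕ) (m : ℕ) (hd : ∀ i A, d i A ≤ m) :
    l14ON L (fun i => (s i).EL (L i) (c i) (d i)) (fun i => c i ^ l9cNz (d i)) := by
  obtain ⟨C₁, hC1, hB⟩ := l9c_sig_B L c (fun i => (F.c_pos i).le) F.c_le 0 m
  obtain ⟨C, hC, hK⟩ := h2 bd 0 D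
  have hC10 : (0 : ℝ) ≤ C₁ := by linarith
  refine ⟨bd.C 0 * (C * C₁ ^ D), mul_nonneg (bd.C_nonneg 0) (mul_nonneg hC (pow_nonneg hC10 D)), fun i => ?_⟩
  have h := hK 𝕂 𝓕 (L i) D (c i) ((L i).ph (c i) (d i)) (fun A => if d i A = 0 then 1 else C₁ * c i) (s i)
    (l9c_M0_size F i) (F.ok i) (F.c_le i) (fun A => hB i (d i A) (hd i A)) 0 le_rfl
    (L14Sk.l14s_mass_nonneg (F.c_pos i).le (F.ok i))
  rw [l9c_amp (F.ok i) (F.full i)] at h
  have h' := (L i).ev_B h
  refine le_trans h' ?_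
  have h3 := l9c_M0_pow hC1 (F.c_pos i).le (d i)
  have h4 : C * (C₁ * c i) ^ l9cNz (d i) ≤ C * (C₁ ^ D * c i ^ l9cNz (d i)) := mul_le_mul_of_nonneg_left h3 hC
  have h5 := mul_le_mul_of_nonneg_left h4 (bd.C_nonneg 0)
  calc bd.C 0 * (C * (C₁ * c i) ^ l9cNz (d i)) ≤ bd.C 0 * (C * (C₁ ^ D * c i ^ l9cNz (d i))) := h5
    _ = bd.C 0 * (C * C₁ ^ D) * c i ^ l9cNz (d i) := by ring

/-- LV7: first order cluster expansion at the root -/
theorem l9c_K4ev (h4 : l14_K4) {D : ℕ} {L : ι → L14Calc bd 𝕂 𝓕} {c : ι → ℝ} {s : ι → L14Sk D} (F : L9cFam L c s)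
    (hm : ∀ i, (L i).eps ≤ c i ^ 4) (d : ι → Fin D → ℕ) (m : ℕ) (hd : ∀ i A, d i A ≤ m) :
    l14ON L (fun i => (s i).EL (L i) (c i) (d i) - (L i).ev ((s i).Pt (L i) (c i) ((L i).ph (c i) (d i)) 0)
        - (L i).k0 * (L i).ev ((s i).Qt (L i) (c i) ((L i).ph (c i) (d i)) 0))
      (fun i => c i ^ (l9cNz (d i) + 2)) := by
  obtain ⟨C₁, hC1, hB⟩ := l9c_sig_B L c (fun i => (F.c_pos i).le) F.c_le 3 m
  obtain ⟨C, hC, hK⟩ := h4 bd 0 D
  have hC10 : (0 : ℝ) ≤ C₁ := by linarith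
  refine ⟨bd.C 0 * (C * C₁ ^ D), mul_nonneg (bd.C_nonneg 0) (mul_nonneg hC (pow_nonneg hC10 D)), fun i => ?_⟩
  have he : (L i).eps ≤ c i := (hm i).trans (pow_le_of_le_one (F.c_pos i).le (F.c_le_one i) (by norm_num))
  have hk := hK 𝕂 𝓕 (L i) D (c i) ((L i).ph (c i) (d i)) (fun A => if d i A = 0 then 1 else C₁ * c i) (s i)
    (l9c_M0_size F i) (F.ok i) (F.c_le i) he (fun A => hB i (d i A) (hd i A)) 0 le_rfl
    (L14Sk.l14s_mass_nonneg (F.c_pos i).le (F.ok i))
  rw [l9c_amp (F.ok i) (F.full i)] at hk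
  have h' := (L i).ev_B hk
  rw [map_sub, map_sub, map_mul, (L i).ev_cst] at h'
  refine le_trans h' ?_
  have h3' := l9c_M0_pow hC1 (F.c_pos i).le (d i)
  have h4' : c i ^ 2 * (C₁ * c i) ^ l9cNz (d i) ≤ c i ^ 2 * (C₁ ^ D * c i ^ l9cNz (d i)) :=
    mul_le_mul_of_nonneg_left h3' (sq_nonneg _)
  have h5 := mul_le_mul_of_nonneg_left (mul_le_mul_of_nonneg_left h4' hC) (bd.C_nonneg 0)
  calc bd.C 0 * (C * (c i ^ 2 * (C₁ * c i) ^ l9cNz (d i))) ≤ bd.C 0 * (C * (c i ^ 2 * (C₁ ^ D * c i ^ l9cNz (d i)))) := h5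
    _ = bd.C 0 * (C * C₁ ^ D) * c i ^ (l9cNz (d i) + 2) := by ring

/-- LV8: if the component above `h` of the block `A` has odd total degree, the moment is `O(h c^nz)` -/
theorem l9c_M4 (h3 : l14_K3) (h3p : l14_K3p) {D : ℕ} {L : ι → L14Calc bd 𝕂 𝓕} {c : ι → ℝ} {s : ι → L14Sk D}
    (F : L9cFam L c s) (d : ι → Fin D → ℕ) (m : ℕ) (hd : ∀ i A, d i A ≤ m) (h : ι → ℝ) (hh0 : ∀ i, 0 ≤ h i)
    (hh1 : ∀ i, h i ≤ 1) (A : ι → Fin D)
    (hodd : ∀ i, Odd (∑ X ∈ univ.filter (fun X => X = A i ∨ h i < (s i).split (c i) (A i) X), d i X)) :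
    l14ON L (fun i => (s i).EL (L i) (c i) (d i)) (fun i => h i * c i ^ l9cNz (d i)) := by
  obtain ⟨C₁, hC1, hB⟩ := l9c_sig_B L c (fun i => (F.c_pos i).le) F.c_le 1 m
  obtain ⟨C, hC, hK⟩ := h3 bd 0 D
  have hC10 : (0 : ℝ) ≤ C₁ := by linarith
  refine ⟨bd.C 0 * (C * C₁ ^ D), mul_nonneg (bd.C_nonneg 0) (mul_nonneg hC (pow_nonneg hC10 D)), fun i => ?_⟩
  have hk := hK 𝕂 𝓕 (L i) D (c i) (h i) ((L i).ph (c i) (d i)) (fun A => if d i A = 0 then 1 else C₁ * c i) (s i)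
    (l9c_M0_size F i) (F.ok i) (F.c_le i) (hh0 i) (hh1 i) (fun A => hB i (d i A) (hd i A)) 0 le_rfl
    (L14Sk.l14s_mass_nonneg (F.c_pos i).le (F.ok i))
  rw [l9c_amp (F.ok i) (F.full i)] at hk
  have hz : (L i).ev ((s i).Wc (L i) (c i) ((L i).ph (c i) (d i)) (h i) 0) = 0 :=
    h3p bd 𝕂 𝓕 (L i) D (c i) (h i) ((L i).ph (c i) (d i)) (d i) (s i) (A i) (F.ok i)
      (fun X => l9c_sig_sg (L i) (c i) (d i X)) (by rw [F.full i]; exact mem_univ _) (by rw [F.full i]; exact hodd i)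
  have h' := (L i).ev_B hk
  rw [map_sub, hz, sub_zero] at h'
  refine le_trans h' ?_
  have h3' := l9c_M0_pow hC1 (F.c_pos i).le (d i)
  have h4 : h i * (C₁ * c i) ^ l9cNz (d i) ≤ h i * (C₁ ^ D * c i ^ l9cNz (d i)) :=
    mul_le_mul_of_nonneg_left h3' (hh0 i)
  have h5 := mul_le_mul_of_nonneg_left (mul_le_mul_of_nonneg_left h4 hC) (bd.C_nonneg 0)
  calc bd.C 0 * (C * (h i * (C₁ * c i) ^ l9cNz (d i))) ≤ bd.C 0 * (C * (h i * (C₁ ^ D * c i ^ l9cNz (d i)))) := h5
    _ = bd.C 0 * (C * C₁ ^ D) * (h i * c i ^ l9cNz (d i)) := by ring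

/-- a skeleton with exactly two blocks -/
theorem l9c_M5_two {D : ℕ} (L : L14Calc bd 𝕂 𝓕) {c : ℝ} (φ : Fin D → 𝓕) {t : L14Sk D} (ht : t.Ok c) {A C : Fin D} (hAC : A ≠ C)
    (hl : t.labels = {A, C}) :
    t.mass c = t.split c A C ∧ t.Psi L c φ = L.T (t.split c A C) c (φ A) * L.T (t.split c A C) c (φ C) := by
  cases t with
  | leaf X =>
    exfalso
    have h := congrArg Finset.card hl
    rw [Finset.card_pair hAC] at h
    simp [L14Sk.labels] at h
  | fork w t1 t2 =>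
    obtain ⟨_, _, _, hd, ht1, ht2⟩ := ht
    have hcard : t1.labels.card + t2.labels.card = 2 := by
      have h := congrArg Finset.card hl
      simp only [L14Sk.labels] at h
      rwa [Finset.card_union_of_disjoint hd, Finset.card_pair hAC] at h
    have p1 := Finset.card_pos.2 (L14Sk.l14s_labels_nonempty t1)
    have p2 := Finset.card_pos.2 (L14Sk.l14s_labels_nonempty t2)
    obtain ⟨Y, rfl⟩ := L14Sk.l14s_leaf_of_card ht1 (by omega)
    obtain ⟨Z, rfl⟩ := L14Sk.l14s_leaf_of_card ht2 (by omega)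
    have mY : Y ∈ (L14Sk.leaf Y : L14Sk D).labels := by simp [L14Sk.labels]
    have mZ : Z ∈ (L14Sk.leaf Z : L14Sk D).labels := by simp [L14Sk.labels]
    have hA : A = Y ∨ A = Z := by
      have : A ∈ (L14Sk.fork w (L14Sk.leaf Y) (L14Sk.leaf Z)).labels := by rw [hl]; simp
      simpa [L14Sk.labels] using this
    have hC : C = Y ∨ C = Z := by
      have : C ∈ (L14Sk.fork w (L14Sk.leaf Y) (L14Sk.leaf Z)).labels := by rw [hl]; simp
      simpa [L14Sk.labels] using this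
    rcases hA with rfl | rfl <;> rcases hC with rfl | rfl
    · exact absurd rfl hAC
    · rw [L14Sk.l14s_split_lr hd mY mZ]
      exact ⟨rfl, rfl⟩
    · rw [L14Sk.l14s_split_rl hd mZ mY]
      exact ⟨rfl, mul_comm _ _⟩
    · exact absurd rfl hAC

/-- LV9: (E8) on a skeleton with two blocks -/
theorem l9c_M5 (h5 : l14_K5) {L : ι → L14Calc bd 𝕂 𝓕} {c : ι → ℝ} {s : ι → L14Sk 2} (F : L9cFam L c s)
    (hm : ∀ i, (L i).eps ≤ c i ^ 4) (d : ι → Fin 2 → ℕ) (hd : ∀ i A, d i A = 2) :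
    l14ON L (fun i => (s i).EL (L i) (c i) (d i) - (L i).re (c i ^ 2) * ((L i).chi ^ 2
        + (L i).chi ^ 3 * (L i).k0 * (L i).re (c i ^ 2)
        + (L i).re (1 / 2) * (L i).gg ^ 2 * (L i).k0 ^ 2 * (L i).re ((s i).split (c i) 0 1 ^ 2)))
      (fun i => c i ^ 5) := by
  have hc0 : ∀ i, 0 ≤ c i := fun i => (F.c_pos i).le
  have h := h5 bd 𝕂 𝓕 ι L c (fun i => (s i).split (c i) 0 1) (fun i => L14Sk.l14s_split_nonneg (hc0 i) (F.ok i) 0 1)
    (fun i => L14Sk.l14s_split_le (F.ok i) 0 1) F.c_le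
    (fun i => (hm i).trans (pow_le_pow_of_le_one (hc0 i) (F.c_le_one i) (by norm_num)))
  have hr : l14ON L (fun i => (L i).re (c i ^ 2)) (fun i => c i ^ 2) :=
    l14ON_re_le L _ (fun i => by rw [abs_of_nonneg (sq_nonneg _)])
  refine ((hr.mul h).mono1 (fun i => le_of_eq (by ring))).congr (fun i => ?_)
  have hu : (univ : Finset (Fin 2)) = {0, 1} := by decide
  obtain ⟨e1, e2⟩ := l9c_M5_two (L i) ((L i).ph (c i) (d i)) (F.ok i) (A := 0) (C := 1) (by decide) ((F.full i).trans hu)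
  have e3 : (s i).EL (L i) (c i) (d i) = (L i).ev ((L i).T 0 ((s i).mass (c i)) ((s i).Psi (L i) (c i) ((L i).ph (c i) (d i)))) := rfl
  have e4 : ∀ X, (L i).ph (c i) (d i) X = (L i).cst ((L i).re (c i)) * (L i).st (c i) 1 (c i) := fun X => by
    show (L i).sig (c i) (d i X) = _
    rw [hd i X]
    rfl
  rw [e3, e1, e2, e4, e4, (L i).T_cst_mul]
  have e5 : ∀ a : 𝓕, (L i).cst ((L i).re (c i)) * a * ((L i).cst ((L i).re (c i)) * a) = (L i).cst ((L i).re (c i ^ 2)) * (a * a) := fun a => by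
    rw [map_pow, map_pow]; ring
  rw [e5, (L i).T_cst_mul, map_mul, (L i).ev_cst]
  ring

theorem l9c_M6_cover : ∀ A B C : Fin 3, A ≠ B → A ≠ C → B ≠ C → ∀ X : Fin 3, X = A ∨ X = B ∨ X = C := by decide

/-- shape of a skeleton with three blocks in which `B` leaves first -/
theorem l9c_M6_shape (L : L14Calc bd 𝕂 𝓕) {c : ℝ} (φ : Fin 3 → 𝓕) {s : L14Sk 3} (hs : s.Ok c) (hl : s.labels = univ)
    {A B C : Fin 3} (hAB : A ≠ B) (hAC : A ≠ C) (hlt : s.split c A B < s.split c A C) :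
    s.Elow L c φ = L.ev (L.T 0 (s.split c A B) (L.T (s.split c A B) c (φ B) *
      L.T (s.split c A B) (s.split c A C) (L.T (s.split c A C) c (φ A) * L.T (s.split c A C) c (φ C)))) := by
  have hBC : B ≠ C := by rintro rfl; exact lt_irrefl _ hlt
  have hcov := l9c_M6_cover A B C hAB hAC hBC
  cases s with
  | leaf X =>
    exfalso
    have h := congrArg Finset.card hl
    simp [L14Sk.labels] at h
  | fork v l r =>
    obtain ⟨_, h1, h2, hd, hl', hr'⟩ := hs
    have hdl := Finset.disjoint_left.1 hd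
    have hdr := Finset.disjoint_right.1 hd
    have hmem : ∀ X : Fin 3, X ∈ l.labels ∨ X ∈ r.labels := fun X => by
      have : X ∈ (L14Sk.fork v l r).labels := by rw [hl]; exact mem_univ X
      simpa [L14Sk.labels] using this
    rcases hmem A with hA | hA <;> rcases hmem B with hB | hB <;> rcases hmem C with hC | hC
    · exfalso
      obtain ⟨X, hX⟩ := L14Sk.l14s_labels_nonempty r
      rcases hcov X with rfl | rfl | rfl
      · exact hdl hA hX
      · exact hdl hB hX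
      · exact hdl hC hX
    · exfalso
      rw [L14Sk.l14s_split_ll hA hB, L14Sk.l14s_split_lr hd hA hC] at hlt
      exact absurd (h1.trans (L14Sk.l14s_mass_le_split hl' A B)) (not_le.2 hlt)
    · have er : r.labels = {B} := by
        ext X
        rw [Finset.mem_singleton]
        constructor
        · intro hX
          rcases hcov X with rfl | rfl | rfl
          · exact absurd hX (hdl hA)
          · rfl
          · exact absurd hX (hdl hC)
        · rintro rfl; exact hB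
      have el : l.labels = {A, C} := by
        ext X
        rw [Finset.mem_insert, Finset.mem_singleton]
        constructor
        · intro hX
          rcases hcov X with rfl | rfl | rfl
          · exact Or.inl rfl
          · exact absurd hB (hdl hX)
          · exact Or.inr rfl
        · rintro (rfl | rfl)
          · exact hA
          · exact hC
      obtain ⟨Y, rfl⟩ := L14Sk.l14s_leaf_of_card hr' (by rw [er]; simp)
      have hY : Y = B := by simpa [L14Sk.labels] using er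
      subst hY
      obtain ⟨e1, e2⟩ := l9c_M5_two L φ hl' hAC el
      rw [L14Sk.l14s_split_lr hd hA hB, L14Sk.l14s_split_ll hA hC]
      show L.ev (L.T 0 v (L.T v (l.mass c) (l.Psi L c φ) * L.T v c (φ Y))) = _
      rw [e1, e2, mul_comm]
    · exfalso
      rw [L14Sk.l14s_split_lr hd hA hB, L14Sk.l14s_split_lr hd hA hC] at hlt
      exact lt_irrefl _ hlt
    · exfalso
      rw [L14Sk.l14s_split_rl hd hA hB, L14Sk.l14s_split_rl hd hA hC] at hlt
      exact lt_irrefl _ hlt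
    · have el : l.labels = {B} := by
        ext X
        rw [Finset.mem_singleton]
        constructor
        · intro hX
          rcases hcov X with rfl | rfl | rfl
          · exact absurd hA (hdl hX)
          · rfl
          · exact absurd hC (hdl hX)
        · rintro rfl; exact hB
      have er : r.labels = {A, C} := by
        ext X
        rw [Finset.mem_insert, Finset.mem_singleton]
        constructor
        · intro hX
          rcases hcov X with rfl | rfl | rfl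
          · exact Or.inl rfl
          · exact absurd hX (hdl hB)
          · exact Or.inr rfl
        · rintro (rfl | rfl)
          · exact hA
          · exact hC
      obtain ⟨Y, rfl⟩ := L14Sk.l14s_leaf_of_card hl' (by rw [el]; simp)
      have hY : Y = B := by simpa [L14Sk.labels] using el
      subst hY
      obtain ⟨e1, e2⟩ := l9c_M5_two L φ hr' hAC er
      rw [L14Sk.l14s_split_rl hd hA hB, L14Sk.l14s_split_rr hd hA hC]
      show L.ev (L.T 0 v (L.T v c (φ Y) * L.T v (r.mass c) (r.Psi L c φ))) = _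
      rw [e1, e2]
    · exfalso
      rw [L14Sk.l14s_split_rr hd hA hB, L14Sk.l14s_split_rl hd hA hC] at hlt
      exact absurd (h2.trans (L14Sk.l14s_mass_le_split hr' A B)) (not_le.2 hlt)
    · exfalso
      obtain ⟨X, hX⟩ := L14Sk.l14s_labels_nonempty l
      rcases hcov X with rfl | rfl | rfl
      · exact hdl hX hA
      · exact hdl hX hB
      · exact hdl hX hC

/-- LV10: refined (E9) on a skeleton with three blocks: `d A = 2`, `d B = d C = 1`, `B` leaves first -/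
theorem l9c_M6 {L : ι → L14Calc bd 𝕂 𝓕} {c : ι → ℝ} {s : ι → L14Sk 3} (F : L9cFam L c s)
    (hm : ∀ i, (L i).eps ≤ c i ^ 4) (d : ι → Fin 3 → ℕ) (A B C : ι → Fin 3) (hA : ∀ i, d i (A i) = 2) (hB : ∀ i, d i (B i) = 1) (hC : ∀ i, d i (C i) = 1)
    (hlt : ∀ i, (s i).split (c i) (A i) (B i) < (s i).split (c i) (A i) (C i)) :
    l14ON L (fun i => (s i).EL (L i) (c i) (d i)
        - (L i).re (c i ^ 3 * (s i).split (c i) (A i) (B i)) * ((L i).chi ^ 3 * (L i).k0))
      (fun i => c i ^ 4 * (s i).split (c i) (A i) (B i)) := by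
  have hc0 : ∀ i, 0 ≤ c i := fun i => (F.c_pos i).le
  have hc1 : ∀ i, c i ≤ 1 := F.c_le_one
  set v : ι → ℝ := fun i => (s i).split (c i) (A i) (B i) with hv
  set w : ι → ℝ := fun i => (s i).split (c i) (A i) (C i) with hw
  have hv0 : ∀ i, 0 ≤ v i := fun i => L14Sk.l14s_split_nonneg (hc0 i) (F.ok i) _ _
  have hvw : ∀ i, v i ≤ w i := fun i => (hlt i).le
  have hwc : ∀ i, w i ≤ c i := fun i => L14Sk.l14s_split_le (F.ok i) _ _
  have hvc : ∀ i, v i ≤ c i := fun i => (hvw i).trans (hwc i)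
  have hw0 : ∀ i, 0 ≤ w i := fun i => (hv0 i).trans (hvw i)
  -- the block functions
  obtain ⟨C₁, hC1, hB2⟩ := l9c_sig_B L c hc0 F.c_le 2 2
  have hC10 : (0 : ℝ) ≤ C₁ := by linarith
  have s1 : l14OB L 2 (fun i => (L i).sig (c i) 1) c := ⟨C₁, hC10, fun i => by simpa using hB2 i 1 (by norm_num)⟩
  have s2 : l14OB L 2 (fun i => (L i).sig (c i) 2) c := ⟨C₁, hC10, fun i => by simpa using hB2 i 2 (by norm_num)⟩
  have hΦ2 : l14OB L 2 (fun i => (L i).T (w i) (c i) ((L i).sig (c i) 2) * (L i).T (w i) (c i) ((L i).sig (c i) 1))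
      (fun i => c i * c i) := (s2.T hw0 hwc F.c_le).mul (s1.T hw0 hwc F.c_le)
  -- K6 at the root fork
  have k6 := l14_K6_pf bd 𝕂 𝓕 ι L v c w c (fun i => c i * c i) (fun i => (L i).sig (c i) 1)
    (fun i => (L i).T (w i) (c i) ((L i).sig (c i) 2) * (L i).T (w i) (c i) ((L i).sig (c i) 1))
    hv0 hvc hvw F.c_le (fun i => (hwc i).trans (F.c_le i)) hc0 (fun i => mul_nonneg (hc0 i) (hc0 i)) s1 hΦ2
  -- K1 at level 1 for the inner fork
  obtain ⟨CK, hCK, hK1⟩ := l14_K1_pf bd 1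
  have k1 : l14OB L 1 (fun i => (L i).T 0 (w i) ((L i).T (w i) (c i) ((L i).sig (c i) 2) * (L i).T (w i) (c i) ((L i).sig (c i) 1))
      - (L i).T 0 (c i) ((L i).sig (c i) 2) * (L i).T 0 (c i) ((L i).sig (c i) 1)) (fun i => c i ^ 3) := by
    refine ⟨CK * C₁ ^ 2, mul_nonneg hCK (sq_nonneg _), fun i => ?_⟩
    have h := hK1 𝕂 𝓕 (L i) 0 (w i) (c i) (c i) (C₁ * c i) (C₁ * c i) ((L i).sig (c i) 2) ((L i).sig (c i) 1) le_rfl (hw0 i)
      (hwc i) (hwc i) (F.c_le i) (F.c_le i) (by simpa using hB2 i 2 (by norm_num)) (by simpa using hB2 i 1 (by norm_num))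
    refine (L i).B_mono ?_ h
    have e : CK * ((w i - 0) * (C₁ * c i * (C₁ * c i))) = CK * C₁ ^ 2 * (w i * c i ^ 2) := by ring
    rw [e]
    refine mul_le_mul_of_nonneg_left ?_ (mul_nonneg hCK (sq_nonneg _))
    calc w i * c i ^ 2 ≤ c i * c i ^ 2 := mul_le_mul_of_nonneg_right (hwc i) (sq_nonneg _)
      _ = c i ^ 3 := by ring
  -- jets
  obtain ⟨j2, -, j1, -⟩ := l9c_jets L c hc0 F.c_le
  have rc : l14ON L (fun i => (L i).re (c i)) c := l14ON_re_le L c (fun i => by rw [abs_of_nonneg (hc0 i)])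
  have hchi : l14ON L (fun i => (L i).chi) (fun _ => 1) :=
    (l14OB_g L 2 0 (by norm_num) (u := fun _ => 0) (fun _ => le_rfl) (fun _ => bd.c0_pos.le)).ev
  have hk0 : l14ON L (fun i => (L i).k0) (fun _ => 1) := l14ON_kap L (u := fun _ => 0) (fun _ => le_rfl) (fun _ => bd.c0_pos.le)
  have rx : l14ON L (fun i => (L i).re (c i) * (L i).chi) c := (rc.mul hchi).mono1 (fun i => by simp)
  have csq : ∀ i, c i ^ 2 ≤ c i := fun i => pow_le_of_le_one (hc0 i) (hc1 i) (by norm_num)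
  have et1 : l14ON L (fun i => (L i).et (c i) 1) c := ((j1.mono1 csq).add rx).congr (fun i => by ring)
  -- `e2 = ev (D (T 0 w Φ2)) = (c χ)² + O(c³)`
  have a1 : l14ON L (fun i => (L i).ev ((L i).D ((L i).T 0 (w i)
      ((L i).T (w i) (c i) ((L i).sig (c i) 2) * (L i).T (w i) (c i) ((L i).sig (c i) 1)))) - (L i).om (c i) 2 * (L i).et (c i) 1)
      (fun i => c i ^ 3) := by
    refine k1.D.ev.congr (fun i => ?_)
    rw [(L i).D_sub, (L i).D_mul, map_sub, map_add, map_mul, map_mul]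
    have z : (L i).ev ((L i).T 0 (c i) ((L i).sig (c i) 1)) = 0 := l9c_om_odd (L i) (c i) (by decide)
    rw [z, mul_zero, add_zero]
    rfl
  have a2 : l14ON L (fun i => (L i).om (c i) 2 * (L i).et (c i) 1 - ((L i).re (c i) * (L i).chi) ^ 2) (fun i => c i ^ 3) := by
    refine (((j2.mul et1).mono1 (fun i => le_of_eq (by ring))).add ((rx.mul j1).mono1 (fun i => le_of_eq (by ring)))).congr
      (fun i => by ring)
  have a3 : l14ON L (fun i => (L i).ev ((L i).D ((L i).T 0 (w i)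
      ((L i).T (w i) (c i) ((L i).sig (c i) 2) * (L i).T (w i) (c i) ((L i).sig (c i) 1)))) - ((L i).re (c i) * (L i).chi) ^ 2)
      (fun i => c i ^ 3) := (a1.add a2).congr (fun i => by ring)
  have rx2 : l14ON L (fun i => ((L i).re (c i) * (L i).chi) ^ 2) (fun i => c i ^ 2) := by
    refine ((rx.mul rx).mono1 (fun i => le_of_eq (by ring))).congr (fun i => by ring)
  have e2 : l14ON L (fun i => (L i).ev ((L i).D ((L i).T 0 (w i)
      ((L i).T (w i) (c i) ((L i).sig (c i) 2) * (L i).T (w i) (c i) ((L i).sig (c i) 1))))) (fun i => c i ^ 2) := by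
    refine ((a3.mono1 (fun i => ?_)).add rx2).congr (fun i => by ring)
    calc c i ^ 3 = c i ^ 2 * c i := by ring
      _ ≤ c i ^ 2 * 1 := mul_le_mul_of_nonneg_left (hc1 i) (sq_nonneg _)
      _ = c i ^ 2 := by ring
  -- `e1 e2 = (c χ)³ + O(c⁴)`
  have a4 : l14ON L (fun i => (L i).et (c i) 1 * (L i).ev ((L i).D ((L i).T 0 (w i)
      ((L i).T (w i) (c i) ((L i).sig (c i) 2) * (L i).T (w i) (c i) ((L i).sig (c i) 1)))) - ((L i).re (c i) * (L i).chi) ^ 3)
      (fun i => c i ^ 4) := by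
    refine (((j1.mul e2).mono1 (fun i => le_of_eq (by ring))).add ((rx.mul a3).mono1 (fun i => le_of_eq (by ring)))).congr
      (fun i => by ring)
  have rv : l14ON L (fun i => (L i).re (v i)) v := l14ON_re_le L v (fun i => by rw [abs_of_nonneg (hv0 i)])
  have a5 := ((hk0.mul rv).mul a4).mono1 (A' := fun i => c i ^ 4 * v i) (fun i => le_of_eq (by ring))
  have a6 := k6.mono 2 (by norm_num) (A' := fun i => c i ^ 4 * v i) (fun i => by
    have he : (L i).eps ≤ c i := (hm i).trans (pow_le_of_le_one (hc0 i) (hc1 i) (by norm_num))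
    have h1 : v i + (L i).eps ≤ 2 * c i := by linarith [hvc i]
    have h2 : v i * (v i + (L i).eps) ≤ v i * (2 * c i) := mul_le_mul_of_nonneg_left h1 (hv0 i)
    have h3 : 0 ≤ c i * (c i * c i) := mul_nonneg (hc0 i) (mul_nonneg (hc0 i) (hc0 i))
    calc v i * (v i + (L i).eps) * (c i * (c i * c i)) ≤ v i * (2 * c i) * (c i * (c i * c i)) := mul_le_mul_of_nonneg_right h2 h3
      _ = 2 * (c i ^ 4 * v i) := by ring)
  refine (a6.add a5).congr (fun i => ?_)
  have hAB : A i ≠ B i := fun h => by have := hA i; rw [h, hB i] at this; omega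
  have hAC : A i ≠ C i := fun h => by have := hA i; rw [h, hC i] at this; omega
  have sh := l9c_M6_shape (L i) ((L i).ph (c i) (d i)) (F.ok i) (F.full i) hAB hAC (hlt i)
  have pA : (L i).ph (c i) (d i) (A i) = (L i).sig (c i) 2 := by show (L i).sig (c i) (d i (A i)) = _; rw [hA i]
  have pB : (L i).ph (c i) (d i) (B i) = (L i).sig (c i) 1 := by show (L i).sig (c i) (d i (B i)) = _; rw [hB i]
  have pC : (L i).ph (c i) (d i) (C i) = (L i).sig (c i) 1 := by show (L i).sig (c i) (d i (C i)) = _; rw [hC i]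
  rw [pA, pB, pC] at sh
  have sh' : (s i).EL (L i) (c i) (d i) = _ := sh
  rw [sh']
  have z : (L i).ev ((L i).T 0 (c i) ((L i).sig (c i) 1)) = 0 := l9c_om_odd (L i) (c i) (by decide)
  have et : (L i).ev ((L i).D ((L i).T 0 (c i) ((L i).sig (c i) 1))) = (L i).et (c i) 1 := rfl
  rw [z, et, map_mul, map_pow]
  ring

end Claimed.Agent.R286
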