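/-
Row 286 (S0533), package L14 (head helper242).      OWNER: helper274.
TOOLS for the contract K8: more of the uniform `O`-calculus of `L09/CalcO.lean`.
* `l14ON.mul1, .pow, .pow1, .sum, .prod1, .of_cases, .of_le`;   `l14ON_chi, _gg, _k0, _re_pow`;
* `l14EQ L x y A` : `x = y + O(A)`, with `refl, trans, mono, add, sub, mul, mul_left, mul_right, pow1` (rewriting modulo `O(A)`).
-/
import Claimed.Agent.R286.L09.StmM

set_option autoImplicit false

namespace Claimed.Agent.R286

section tools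

variable {bd : L14Bd} {𝕂 𝓕 : Type} [CommRing 𝕂] [CommRing 𝓕] {ι : Type} {L : ι → L14Calc bd 𝕂 𝓕}
  {x y z x' y' : ι → 𝕂} {A A' B B' : ι → ℝ}

theorem l14ON.of_le {C : ℝ} (hC : 0 ≤ C) (h : ∀ i, (L i).nrm (x i) ≤ C * A i) : l14ON L x A := ⟨C, hC, h⟩

theorem l14ON.mul1 (h : l14ON L x (fun _ => 1)) (h' : l14ON L y A) : l14ON L (fun i => x i * y i) A :=
  (h.mul h').mono1 (fun i => by simp)

theorem l14ON.mul1' (h : l14ON L x A) (h' : l14ON L y (fun _ => 1)) : l14ON L (fun i => x i * y i) A :=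
  (h.mul h').mono1 (fun i => by simp)

theorem l14ON_one (L : ι → L14Calc bd 𝕂 𝓕) : l14ON L (fun _ => 1) (fun _ => 1) :=
  ⟨1, zero_le_one, fun i => by simpa using (L i).nrm_one_le⟩

theorem l14ON.pow (h : l14ON L x A) (n : ℕ) : l14ON L (fun i => x i ^ n) (fun i => A i ^ n) := by
  induction n with
  | zero => simpa using l14ON_one L
  | succ n ih => simpa [pow_succ] using ih.mul h

theorem l14ON.pow1 (h : l14ON L x (fun _ => 1)) (n : ℕ) : l14ON L (fun i => x i ^ n) (fun _ => 1) := by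
  simpa using h.pow n

theorem l14ON_chi (L : ι → L14Calc bd 𝕂 𝓕) : l14ON L (fun i => (L i).chi) (fun _ => 1) :=
  (l14OB_g L 2 0 (by norm_num) (u := fun _ => 0) (fun _ => le_rfl) (fun _ => bd.c0_pos.le)).ev

theorem l14ON_gg (L : ι → L14Calc bd 𝕂 𝓕) : l14ON L (fun i => (L i).gg) (fun _ => 1) :=
  (l14OB_g L 4 0 (by norm_num) (u := fun _ => 0) (fun _ => le_rfl) (fun _ => bd.c0_pos.le)).ev

theorem l14ON_k0 (L : ι → L14Calc bd 𝕂 𝓕) : l14ON L (fun i => (L i).k0) (fun _ => 1) :=
  l14ON_kap L (u := fun _ => 0) (fun _ => le_rfl) (fun _ => bd.c0_pos.le)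

theorem l14ON_re_nn (L : ι → L14Calc bd 𝕂 𝓕) (r : ι → ℝ) (h : ∀ i, 0 ≤ r i) : l14ON L (fun i => (L i).re (r i)) r :=
  l14ON_re_le L r (fun i => by rw [abs_of_nonneg (h i)])

theorem l14ON_re_const (L : ι → L14Calc bd 𝕂 𝓕) (r : ℝ) : l14ON L (fun i => (L i).re r) (fun _ => 1) :=
  ⟨|r|, abs_nonneg r, fun i => by simpa using (L i).nrm_re r⟩

theorem l14ON.sum {κ : Type} (S : Finset κ) {X : κ → ι → 𝕂} (h : ∀ a ∈ S, l14ON L (X a) A) :
    l14ON L (fun i => ∑ a ∈ S, X a i) A := by
  classical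
  induction S using Finset.induction_on with
  | empty => simpa using l14ON_zero L A
  | insert a S ha ih =>
    have h1 := h a (Finset.mem_insert_self a S)
    have h2 := ih (fun b hb => h b (Finset.mem_insert_of_mem hb))
    refine (h1.add h2).congr (fun i => ?_)
    rw [Finset.sum_insert ha]

theorem l14ON.prod1 {κ : Type} (S : Finset κ) {X : κ → ι → 𝕂} (h : ∀ a ∈ S, l14ON L (X a) (fun _ => 1)) :
    l14ON L (fun i => ∏ a ∈ S, X a i) (fun _ => 1) := by
  classical
  induction S using Finset.induction_on with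
  | empty => simpa using l14ON_one L
  | insert a S ha ih =>
    have h1 := h a (Finset.mem_insert_self a S)
    have h2 := ih (fun b hb => h b (Finset.mem_insert_of_mem hb))
    refine (h1.mul1 h2).congr (fun i => ?_)
    rw [Finset.prod_insert ha]

/-- a family may be cut in two -/
theorem l14ON.of_cases (p : ι → Prop)
    (h1 : l14ON (fun q : {i // p i} => L q.1) (fun q => x q.1) (fun q => A q.1))
    (h2 : l14ON (fun q : {i // ¬ p i} => L q.1) (fun q => x q.1) (fun q => A q.1))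
    (hA : ∀ i, 0 ≤ A i) : l14ON L x A := by
  classical
  obtain ⟨C1, hC1, b1⟩ := h1
  obtain ⟨C2, hC2, b2⟩ := h2
  refine ⟨C1 + C2, add_nonneg hC1 hC2, fun i => ?_⟩
  have e1 := mul_nonneg hC1 (hA i)
  have e2 := mul_nonneg hC2 (hA i)
  by_cases hp : p i
  · have := b1 ⟨i, hp⟩
    simp only at this
    nlinarith
  · have := b2 ⟨i, hp⟩
    simp only at this
    nlinarith

/-- `x = y + O(A)` -/
def l14EQ (L : ι → L14Calc bd 𝕂 𝓕) (x y : ι → 𝕂) (A : ι → ℝ) : Prop := l14ON L (fun i => x i - y i) A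

theorem l14EQ.on (h : l14EQ L x y A) : l14ON L (fun i => x i - y i) A := h

theorem l14EQ.refl (L : ι → L14Calc bd 𝕂 𝓕) (x : ι → 𝕂) (A : ι → ℝ) : l14EQ L x x A :=
  (l14ON_zero L A).congr (fun i => by ring)

theorem l14EQ.of_eq (h : ∀ i, x i = y i) (A : ι → ℝ) : l14EQ L x y A :=
  (l14ON_zero L A).congr (fun i => by rw [h i]; ring)

theorem l14EQ.symm (h : l14EQ L x y A) : l14EQ L y x A := h.on.neg.congr (fun i => by ring)

theorem l14EQ.trans (h : l14EQ L x y A) (h' : l14EQ L y z A) : l14EQ L x z A :=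
  (h.on.add h'.on).congr (fun i => by ring)

theorem l14EQ.mono1 (h : l14EQ L x y A) (e : ∀ i, A i ≤ A' i) : l14EQ L x y A' := l14ON.mono1 h e

theorem l14EQ.mono (h : l14EQ L x y A) (C' : ℝ) (hC' : 0 ≤ C') (e : ∀ i, A i ≤ C' * A' i) : l14EQ L x y A' :=
  l14ON.mono h C' hC' e

theorem l14EQ.congr_left (h : l14EQ L x y A) (e : ∀ i, x i = x' i) : l14EQ L x' y A :=
  h.on.congr (fun i => by rw [e i])

theorem l14EQ.congr_right (h : l14EQ L x y A) (e : ∀ i, y i = y' i) : l14EQ L x y' A :=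
  h.on.congr (fun i => by rw [e i])

theorem l14EQ.add (h : l14EQ L x x' A) (h' : l14EQ L y y' A) : l14EQ L (fun i => x i + y i) (fun i => x' i + y' i) A :=
  (h.on.add h'.on).congr (fun i => by ring)

theorem l14EQ.sub (h : l14EQ L x x' A) (h' : l14EQ L y y' A) : l14EQ L (fun i => x i - y i) (fun i => x' i - y' i) A :=
  (h.on.sub h'.on).congr (fun i => by ring)

theorem l14EQ.mul_left (hz : l14ON L z B) (h : l14EQ L x y A) :
    l14EQ L (fun i => z i * x i) (fun i => z i * y i) (fun i => B i * A i) :=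
  (hz.mul h.on).congr (fun i => by ring)

theorem l14EQ.mul_right (h : l14EQ L x y A) (hz : l14ON L z B) :
    l14EQ L (fun i => x i * z i) (fun i => y i * z i) (fun i => A i * B i) :=
  (h.on.mul hz).congr (fun i => by ring)

/-- the right hand side inherits the size -/
theorem l14EQ.on_left (h : l14EQ L x y A) (hy : l14ON L y A) : l14ON L x A :=
  (h.on.add hy).congr (fun i => by ring)

theorem l14EQ.on_right (h : l14EQ L x y A) (hx : l14ON L x A) : l14ON L y A :=
  (hx.sub h.on).congr (fun i => by ring)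

/-- product of two approximations of bounded quantities -/
theorem l14EQ.mul1 (h : l14EQ L x x' A) (h' : l14EQ L y y' A) (hy : l14ON L y (fun _ => 1)) (hx' : l14ON L x' (fun _ => 1)) :
    l14EQ L (fun i => x i * y i) (fun i => x' i * y' i) A :=
  ((h.on.mul1' hy).add (hx'.mul1 h'.on)).congr (fun i => by ring)

/-- a quantity close (within `A ≤ 1`) to a bounded one is bounded -/
theorem l14EQ.bdd (h : l14EQ L x y A) (hy : l14ON L y (fun _ => 1)) (hA : ∀ i, A i ≤ 1) : l14ON L x (fun _ => 1) :=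
  (h.mono1 hA).on_left hy

theorem l14EQ.pow1 (h : l14EQ L x y A) (hx : l14ON L x (fun _ => 1)) (hy : l14ON L y (fun _ => 1)) (n : ℕ) :
    l14EQ L (fun i => x i ^ n) (fun i => y i ^ n) A := by
  induction n with
  | zero => exact l14EQ.of_eq (fun i => by simp) A
  | succ n ih =>
    have := ih.mul1 h hx (hy.pow1 n)
    simpa [pow_succ] using this

theorem l14EQ.prod1 {κ : Type} (S : Finset κ) {X Y : κ → ι → 𝕂} (h : ∀ a ∈ S, l14EQ L (X a) (Y a) A)
    (hX : ∀ a ∈ S, l14ON L (X a) (fun _ => 1)) (hY : ∀ a ∈ S, l14ON L (Y a) (fun _ => 1)) :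
    l14EQ L (fun i => ∏ a ∈ S, X a i) (fun i => ∏ a ∈ S, Y a i) A := by
  classical
  induction S using Finset.induction_on with
  | empty => exact l14EQ.of_eq (fun i => by simp) A
  | insert a S ha ih =>
    have h1 := h a (Finset.mem_insert_self a S)
    have h2 := ih (fun b hb => h b (Finset.mem_insert_of_mem hb)) (fun b hb => hX b (Finset.mem_insert_of_mem hb))
      (fun b hb => hY b (Finset.mem_insert_of_mem hb))
    have h3 := h1.mul1 h2 (l14ON.prod1 S (fun b hb => hX b (Finset.mem_insert_of_mem hb))) (hY a (Finset.mem_insert_self a S))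
    refine (h3.congr_left (fun i => ?_)).congr_right (fun i => ?_)
    · rw [Finset.prod_insert ha]
    · rw [Finset.prod_insert ha]

theorem l14k8a_eqns_cite : True := by
  have := @l14EQ.eq_1
  trivial

end tools

end Claimed.Agent.R286
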