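/-
Row 286 (S0533), package L14, node MAIN = contracts K8, K8r, K8d, K8dr of `L09/StmM.lean`.      OWNER: helper219 (head helper242).
TEX[LL:exp:prop-low-coefficients] l.750-889.      THE GLUE above the leaves of `L09/K8Lv.lean` (no sorry of its own).
 1. tools: `O`-calculus complements (the rest is `L09/K8a.lean` of 274), edge weights;
 2. moments of a degree vector by the number of odd blocks (M1: none, M2: two, M3: at least three), pair moments, the partitions with at least two parts;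
 3. classification of the block graphs, the low-degree cases `coef - (leading part) = O(c^(7-j))`;
 4. `l14_K8_pf`, `l14_K8d_pf`;      5. refined cases, `l14_K8r_pf`, `l14_K8dr_pf`.
-/
import Claimed.Agent.R286.L09.K8Lv
import Claimed.Agent.R286.L09.K8a

set_option autoImplicit false

namespace Claimed.Agent.R286

open Finset

variable {bd : L14Bd} {𝕂 𝓕 : Type} [CommRing 𝕂] [CommRing 𝓕] {ι : Type}

section tools

variable {L : ι → L14Calc bd 𝕂 𝓕} {x y x₀ y₀ : ι → 𝕂} {A A' a a' : ι → ℝ}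

/-- case distinction inside a family -/
theorem l14ON.of_or (p : ι → Prop) (hA : ∀ i, 0 ≤ A i)
    (h1 : l14ON (fun q : {i // p i} => L q.1) (fun q => x q.1) (fun q => A q.1))
    (h2 : l14ON (fun q : {i // ¬ p i} => L q.1) (fun q => x q.1) (fun q => A q.1)) : l14ON L x A := by
  obtain ⟨C, hC, hB⟩ := h1
  obtain ⟨C', hC', hB'⟩ := h2
  refine ⟨C + C', add_nonneg hC hC', fun i => ?_⟩
  by_cases hp : p i
  · have := hB ⟨i, hp⟩
    nlinarith [hA i, mul_nonneg hC' (hA i)]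
  · have := hB' ⟨i, hp⟩
    nlinarith [hA i, mul_nonneg hC (hA i)]

/-- an empty family -/
theorem l14ON.of_false (h : ι → False) : l14ON L x A := ⟨0, le_rfl, fun i => (h i).elim⟩

theorem l14ON.add' (h : l14ON L x A) (h' : l14ON L y A') (hA : ∀ i, 0 ≤ A i) (hA' : ∀ i, 0 ≤ A' i) :
    l14ON L (fun i => x i + y i) (fun i => A i + A' i) :=
  (h.mono1 fun i => by linarith [hA' i]).add (h'.mono1 fun i => by linarith [hA i])

/-- product of two approximations -/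
theorem l14ON.approx_mul (hx : l14ON L (fun i => x i - x₀ i) a) (hy : l14ON L (fun i => y i - y₀ i) a')
    (hx0 : l14ON L x₀ A) (hy0 : l14ON L y₀ A') {E : ι → ℝ}
    (h1 : ∀ i, a i * A' i ≤ E i) (h2 : ∀ i, A i * a' i ≤ E i) (h3 : ∀ i, a i * a' i ≤ E i) :
    l14ON L (fun i => x i * y i - x₀ i * y₀ i) E :=
  ((((hx.mul hy0).mono1 h1).add ((hx0.mul hy).mono1 h2)).add ((hx.mul hy).mono1 h3)).congr fun i => by ring

/-- from an approximation to a bound -/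
theorem l14ON.of_approx (hx : l14ON L (fun i => x i - x₀ i) A) (hx0 : l14ON L x₀ A) : l14ON L x A :=
  (hx.add hx0).congr fun i => by ring

theorem l14ON.prod {κ : Type} (S : Finset κ) {X : κ → ι → 𝕂} {B : κ → ι → ℝ} (h : ∀ k ∈ S, l14ON L (X k) (B k)) :
    l14ON L (fun i => ∏ k ∈ S, X k i) (fun i => ∏ k ∈ S, B k i) := by
  classical
  induction S using Finset.induction_on with
  | empty => simpa using l14ON_one L
  | insert k S hk ih =>
    have h1 := (h k (mem_insert_self k S)).mul (ih fun k' hk' => h k' (mem_insert_of_mem hk'))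
    refine (h1.congr fun i => by rw [prod_insert hk]).mono1 fun i => by rw [prod_insert hk]

theorem l14ON_nat (L : ι → L14Calc bd 𝕂 𝓕) (n : ℕ) : l14ON L (fun _ => (n : 𝕂)) (fun _ => 1) :=
  ⟨n, Nat.cast_nonneg n, fun i => by
    have := (L i).nrm_re n
    rw [map_natCast] at this
    simpa using this⟩

/-- `O(1) * O(A) = O(A)` -/
theorem l14ON.one_mul (h1 : l14ON L x (fun _ => 1)) (h : l14ON L y A) : l14ON L (fun i => x i * y i) A :=
  (h1.mul h).mono1 fun i => by simp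

theorem l14ON.mul_one (h : l14ON L y A) (h1 : l14ON L x (fun _ => 1)) : l14ON L (fun i => y i * x i) A :=
  (h.mul h1).mono1 fun i => by simp

end tools

/-! ### edge weights -/

section weights

variable {j D : ℕ} {L : ι → L14Calc bd 𝕂 𝓕} {Γ : ι → L14Gr j D} {c ε : ι → ℝ} {s : ι → L14Sk D}
  {b : ι → Fin j → 𝕂} {bc : ι → 𝕂}

theorem L14Hyp.e_nonneg (h : L14Hyp L Γ c ε s b bc) (i : ι) : 0 ≤ ε i :=
  ((L i).nrm_nonneg _).trans (h.bc_bd i)

theorem L14Hyp.b_sub (h : L14Hyp L Γ c ε s b bc) (e : Fin j) : l14ON L (fun i => b i e - (L i).bo) ε :=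
  ⟨1, zero_le_one, fun i => by simpa using h.b_bd i e⟩

theorem L14Hyp.bc_sub (h : L14Hyp L Γ c ε s b bc) : l14ON L (fun i => bc i - (L i).bo) ε :=
  ⟨1, zero_le_one, fun i => by simpa using h.bc_bd i⟩

theorem L14Hyp.b_one (h : L14Hyp L Γ c ε s b bc) (e : Fin j) : l14ON L (fun i => b i e) (fun _ => 1) :=
  ((h.b_sub e).mono1 h.e_le).of_approx (l14ON_bo L)

theorem L14Hyp.prod_aux (h : L14Hyp L Γ c ε s b bc) (S : Finset (Fin j)) :
    l14ON L (fun i => ∏ e ∈ S, b i e) (fun _ => 1) ∧ l14ON L (fun i => ∏ e ∈ S, b i e - (L i).bo ^ S.card) ε := by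
  induction S using Finset.induction_on with
  | empty => exact ⟨by simpa using l14ON_one L, by simpa using l14ON_zero L ε⟩
  | insert e S he ih =>
    refine ⟨((h.b_one e).one_mul ih.1).congr fun i => by rw [prod_insert he], ?_⟩
    have h1 := ((h.b_sub e).mul_one ih.1).add ((l14ON_bo L).one_mul ih.2)
    refine h1.congr fun i => ?_
    rw [prod_insert he, card_insert_of_notMem he]
    ring

theorem L14Hyp.prod_one (h : L14Hyp L Γ c ε s b bc) : l14ON L (fun i => ∏ e, b i e) (fun _ => 1) := (h.prod_aux univ).1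

theorem L14Hyp.prod_sub (h : L14Hyp L Γ c ε s b bc) : l14ON L (fun i => ∏ e, b i e - (L i).bo ^ j) ε := by
  simpa using (h.prod_aux univ).2

end weights


section moments

variable {D : ℕ} {L : ι → L14Calc bd 𝕂 𝓕} {c : ι → ℝ} {s : ι → L14Sk D}

theorem l9c_ho (L : L14Calc bd 𝕂 𝓕) (c : ℝ) (d : Fin D → ℕ) (Z : Fin D) (h : Odd (d Z)) :
    L.ev (L.T 0 c (L.ph c d Z)) = 0 := l9c_om_odd L c h

theorem l9c_he (L : L14Calc bd 𝕂 𝓕) (c : ℝ) (d : Fin D → ℕ) (Z : Fin D) (h : ¬ Odd (d Z)) :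
    L.ev (L.D (L.T 0 c (L.ph c d Z))) = 0 := l9c_et_even L c (Nat.not_odd_iff_even.1 h)

/-- M1: all blocks even -/
theorem l9c_M1 (h4 : l14_K4) (F : L9cFam L c s) (hm : ∀ i, (L i).eps ≤ c i ^ 4) (d : ι → Fin D → ℕ) (m : ℕ) (hd : ∀ i A, d i A ≤ m)
    (hev : ∀ i A, Even (d i A)) :
    l14ON L (fun i => (s i).EL (L i) (c i) (d i) - ∏ A, (L i).om (c i) (d i A)) (fun i => c i ^ (l9cNz (d i) + 2)) := by
  refine (l9c_K4ev h4 F hm d m hd).congr fun i => ?_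
  obtain ⟨h1, -, h3⟩ := l9c_PQ (L i) (c i) ((L i).ph (c i) (d i)) (fun Z => Odd (d i Z)) (l9c_ho _ _ _) (l9c_he _ _ _)
    (s i) (F.ok i)
  have h0 : ((s i).labels.filter fun Z => Odd (d i Z)).card = 0 := by
    rw [card_eq_zero, filter_eq_empty_iff]
    intro Z _
    exact Nat.not_odd_iff_even.2 (hev i Z)
  rw [h1, h3 (by omega), F.full i, mul_zero, sub_zero]
  rfl

/-- M3: at least three odd blocks -/
theorem l9c_M3 (h4 : l14_K4) (F : L9cFam L c s) (hm : ∀ i, (L i).eps ≤ c i ^ 4) (d : ι → Fin D → ℕ) (m : ℕ) (hd : ∀ i A, d i A ≤ m)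
    (hodd : ∀ i, 3 ≤ (univ.filter fun Z => Odd (d i Z)).card) :
    l14ON L (fun i => (s i).EL (L i) (c i) (d i)) (fun i => c i ^ (l9cNz (d i) + 2)) := by
  refine (l9c_K4ev h4 F hm d m hd).congr fun i => ?_
  obtain ⟨h1, -, h3⟩ := l9c_PQ (L i) (c i) ((L i).ph (c i) (d i)) (fun Z => Odd (d i Z)) (l9c_ho _ _ _) (l9c_he _ _ _)
    (s i) (F.ok i)
  have h0 := hodd i
  rw [← F.full i] at h0
  obtain ⟨Z, hZ⟩ : ((s i).labels.filter fun Z => Odd (d i Z)).Nonempty := card_pos.1 (by omega)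
  rw [mem_filter] at hZ
  rw [h1, h3 (by omega), prod_eq_zero hZ.1 (l9c_ho _ _ _ Z hZ.2), mul_zero, sub_zero, sub_zero]

/-- M2: exactly two odd blocks `X`, `Y` -/
theorem l9c_M2 (h4 : l14_K4) (h4e : l14_K4e) (F : L9cFam L c s) (hm : ∀ i, (L i).eps ≤ c i ^ 4) (d : ι → Fin D → ℕ) (m : ℕ)
    (hd : ∀ i A, d i A ≤ m)
    (X Y : ι → Fin D) (hXY : ∀ i, X i ≠ Y i) (hX : ∀ i, Odd (d i (X i))) (hY : ∀ i, Odd (d i (Y i)))
    (hZ : ∀ i Z, Z ≠ X i → Z ≠ Y i → Even (d i Z)) :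
    l14ON L (fun i => (s i).EL (L i) (c i) (d i) - (L i).k0 * ((L i).re ((s i).split (c i) (X i) (Y i))
        * ((L i).et (c i) (d i (X i)) * (L i).et (c i) (d i (Y i))) * ∏ Z ∈ (univ.erase (X i)).erase (Y i), (L i).om (c i) (d i Z)))
      (fun i => c i ^ (l9cNz (d i) + 2)) := by
  refine (l9c_K4ev h4 F hm d m hd).congr fun i => ?_
  have hmem : ∀ Z, Z ∈ (s i).labels := fun Z => by rw [F.full i]; exact mem_univ Z
  obtain ⟨h1, h2⟩ := h4e bd 𝕂 𝓕 (L i) D (c i) ((L i).ph (c i) (d i)) (s i) (X i) (Y i) (F.ok i) (hXY i) (hmem _) (hmem _)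
    (l9c_ho _ _ _ _ (hX i)) (l9c_ho _ _ _ _ (hY i))
    (fun Z _ h1 h2 => l9c_he _ _ _ _ (Nat.not_odd_iff_even.2 (hZ i Z h1 h2)))
  rw [h1, h2, F.full i, sub_zero]
  rfl

end moments

/-! ### block graphs -/

section graphs

variable {j D : ℕ}

theorem L14Gr.nz_deg (Γ : L14Gr j D) (P : Finset (Fin j)) : l9cNz (Γ.deg P) = (Γ.toL9.used P).card := rfl

theorem L14Gr.deg_le (Γ : L14Gr j D) (P : Finset (Fin j)) (A : Fin D) : Γ.deg P A ≤ j :=
  (Γ.toL9.k_le A P).trans (by simpa using card_le_univ P)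

theorem L14Gr.nz_univ (Γ : L14Gr j D) : l9cNz (Γ.deg univ) = D := by
  rw [Γ.nz_deg, Γ.toL9.used_univ_card]

theorem L14Gr.two_le_nz (Γ : L14Gr j D) {P : Finset (Fin j)} (hP : P.Nonempty) : 2 ≤ l9cNz (Γ.deg P) := by
  rw [Γ.nz_deg]; exact Γ.toL9.two_le_used hP

/-- degrees of a single edge -/
theorem L14Gr.deg_single (Γ : L14Gr j D) (e : Fin j) (A : Fin D) :
    Γ.deg {e} A = if A = (Γ.e e).1 ∨ A = (Γ.e e).2 then 1 else 0 := by
  have hne := Γ.ne e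
  unfold L14Gr.deg
  rw [filter_singleton, filter_singleton]
  by_cases h1 : (Γ.e e).1 = A
  · have h2 : (Γ.e e).2 ≠ A := fun h => hne (h1.trans h.symm)
    simp [h1, h2]
  · by_cases h2 : (Γ.e e).2 = A
    · simp [h1, h2]
    · simp [h1, h2, Ne.symm h1, Ne.symm h2]

theorem L14Gr.nz_single (Γ : L14Gr j D) (e : Fin j) : l9cNz (Γ.deg {e}) = 2 := by
  unfold l9cNz
  have : (univ.filter fun A => 0 < Γ.deg {e} A) = {(Γ.e e).1, (Γ.e e).2} := by
    ext A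
    rw [mem_filter, Γ.deg_single, mem_insert, mem_singleton]
    by_cases h : A = (Γ.e e).1 ∨ A = (Γ.e e).2 <;> simp [h]
  rw [this, card_pair (Γ.ne e)]

end graphs

section coef

variable {j D : ℕ} {L : ι → L14Calc bd 𝕂 𝓕} {Γ : ι → L14Gr j D} {c : ι → ℝ} {s : ι → L14Sk D}

/-- crude bound of a moment -/
theorem l9c_mom0 (h2 : l14_K2) (F : L9cFam L c s) (P : Finset (Fin j)) :
    l14ON L (fun i => (Γ i).mom (L i) (c i) (s i) P) (fun i => c i ^ l9cNz ((Γ i).deg P)) :=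
  l9c_M0 h2 F (fun i => (Γ i).deg P) j fun i A => (Γ i).deg_le P A

theorem l9c_pow_le {x : ℝ} (h0 : 0 < x) (h1 : x ≤ 1) {m n : ℕ} (h : m ≤ n) : x ^ n ≤ x ^ m :=
  pow_le_pow_of_le_one h0.le h1 h

/-- crude bound of a moment of a nonempty part -/
theorem l9c_mom2 (h2 : l14_K2) (F : L9cFam L c s) {P : Finset (Fin j)} (hP : P.Nonempty) :
    l14ON L (fun i => (Γ i).mom (L i) (c i) (s i) P) (fun i => c i ^ 2) :=
  (l9c_mom0 h2 F P).mono1 fun i => l9c_pow_le (F.c_pos i) (F.c_le_one i) ((Γ i).two_le_nz hP)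

/-- G: the partitions with at least two parts -/
theorem l9c_G (h2 : l14_K2) (hj : 0 < j) (F : L9cFam L c s) :
    l14ON L (fun i => (Γ i).coef (L i) (c i) (s i) - (Γ i).mom (L i) (c i) (s i) univ) (fun i => c i ^ 4) := by
  have key : l14ON L (fun i => ∑ π ∈ (univ : Finset (Finpartition (univ : Finset (Fin j)))).erase ⊤,
      (-1 : 𝕂) ^ (π.parts.card - 1) * ((π.parts.card - 1).factorial : 𝕂) * ∏ P ∈ π.parts, (Γ i).mom (L i) (c i) (s i) P)
      (fun i => c i ^ 4) := by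
    refine l14ON.sum _ fun π hπ => ?_
    have hπ' : π ≠ ⊤ := (mem_erase.1 hπ).1
    have h1 : l14ON L (fun _ => (-1 : 𝕂) ^ (π.parts.card - 1)) (fun _ => 1) := by
      simpa using ((l14ON_one L).neg.pow (π.parts.card - 1))
    have h3 := l14ON.prod (L := L) π.parts (X := fun P i => (Γ i).mom (L i) (c i) (s i) P)
      (B := fun P i => c i ^ l9cNz ((Γ i).deg P)) fun P _ => l9c_mom0 h2 F P
    refine ((h1.one_mul (l14ON_nat L _)).one_mul h3).mono1 fun i => ?_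
    rw [prod_pow_eq_pow_sum]
    exact l9c_pow_le (F.c_pos i) (F.c_le_one i) ((Γ i).toL9.four_le_dpi ⟨⟨0, hj⟩, mem_univ _⟩ π hπ')
  refine key.congr fun i => ?_
  rw [(Γ i).coef_top hj]
  ring

/-- pair moments -/
theorem l9c_PM (h4 : l14_K4) (h4e : l14_K4e) (F : L9cFam L c s) (hm : ∀ i, (L i).eps ≤ c i ^ 4) (e : Fin j) :
    l14ON L (fun i => (Γ i).mom (L i) (c i) (s i) {e}) (fun i => c i ^ 3) := by
  have hodd1 : ∀ i, Odd ((Γ i).deg {e} ((Γ i).e e).1) := fun i => by rw [(Γ i).deg_single]; simp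
  have hodd2 : ∀ i, Odd ((Γ i).deg {e} ((Γ i).e e).2) := fun i => by rw [(Γ i).deg_single]; simp
  have hM := l9c_M2 h4 h4e F hm (fun i => (Γ i).deg {e}) j (fun i A => (Γ i).deg_le _ A) (fun i => ((Γ i).e e).1)
    (fun i => ((Γ i).e e).2) (fun i => (Γ i).ne e) hodd1 hodd2 (fun i Z h1 h2 => by
      rw [(Γ i).deg_single]; simp [h1, h2])
  obtain ⟨-, -, hj1, -⟩ := l9c_jets L c (fun i => (F.c_pos i).le) F.c_le
  have hc : l14ON L (fun i => (L i).re (c i)) c := l14ON_re_le L c fun i => by rw [abs_of_pos (F.c_pos i)]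
  have het : l14ON L (fun i => (L i).et (c i) 1) c :=
    (hj1.mono1 fun i => by nlinarith [F.c_pos i, F.c_le_one i]).of_approx (hc.mul_one (l14ON_chi L))
  have hv : l14ON L (fun i => (L i).re ((s i).split (c i) ((Γ i).e e).1 ((Γ i).e e).2)) c :=
    l14ON_re_le L _ fun i => by
      rw [abs_of_nonneg ((s i).k8_split_nonneg (F.c_pos i).le (F.ok i) _ _)]
      exact (s i).k8_split_le (F.ok i) _ _
  have hmain : l14ON L (fun i => (L i).k0 * ((L i).re ((s i).split (c i) ((Γ i).e e).1 ((Γ i).e e).2)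
      * ((L i).et (c i) 1 * (L i).et (c i) 1))) (fun i => c i ^ 3) :=
    ((l14ON_k0 L).one_mul (hv.mul (het.mul het))).mono1 fun i => le_of_eq (by ring)
  refine ((hM.mono1 fun i => ?_).of_approx (hmain.congr fun i => ?_))
  · rw [(Γ i).nz_single]
    exact l9c_pow_le (F.c_pos i) (F.c_le_one i) (by norm_num)
  · have h1 : (Γ i).deg {e} ((Γ i).e e).1 = 1 := by rw [(Γ i).deg_single]; simp
    have h2 : (Γ i).deg {e} ((Γ i).e e).2 = 1 := by rw [(Γ i).deg_single]; simp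
    have h3 : ∏ Z ∈ (univ.erase ((Γ i).e e).1).erase ((Γ i).e e).2, (L i).om (c i) ((Γ i).deg {e} Z) = 1 := by
      refine prod_eq_one fun Z hZ => ?_
      rw [mem_erase, mem_erase] at hZ
      rw [(Γ i).deg_single, if_neg (by tauto)]
      exact l9c_om_zero _ _
    simp only [h1, h2, h3, mul_one]

end coef


/-! ### classification of the block graphs -/

section cls

theorem L14Gr.deg_two_blocks {j : ℕ} (Γ : L14Gr j 2) (P : Finset (Fin j)) (A : Fin 2) : Γ.deg P A = P.card :=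
  Γ.toL9.k_of_two rfl A P

theorem L14Gr.one_le_deg {j D : ℕ} (Γ : L14Gr j D) (A : Fin D) : 1 ≤ Γ.deg univ A := Γ.toL9.one_le_k_univ A

theorem L14Gr.sum_deg {j D : ℕ} (Γ : L14Gr j D) : ∑ A, Γ.deg univ A = 2 * j := by
  have := Γ.toL9.sum_k univ
  rw [card_univ, Fintype.card_fin] at this
  exact this

/-- two edges on three blocks -/
theorem L14Gr.cls23 (Γ : L14Gr 2 3) (c : ℝ) (s : L14Sk 3) :
    ∃ A B C : Fin 3, A ≠ B ∧ A ≠ C ∧ B ≠ C ∧ Γ.deg univ A = 2 ∧ Γ.deg univ B = 1 ∧ Γ.deg univ C = 1 ∧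
      Γ.vs c s 0 = s.split c A B ∧ Γ.vs c s 1 = s.split c A C ∧ Γ.ps c s 1 = s.split c B C ∧
      (∀ X, Γ.deg {0} X = if X = A ∨ X = B then 1 else 0) ∧ (∀ X, Γ.deg {1} X = if X = A ∨ X = C then 1 else 0) := by
  obtain ⟨A, B, C, hBC, h0, h1, hd⟩ := L14Gr.k8_enum (Γ.e 0).1 (Γ.e 0).2 (Γ.e 1).1 (Γ.e 1).2 (Γ.ne 0) (Γ.ne 1) (by
    intro X
    obtain ⟨i, hi⟩ := Γ.used X
    fin_cases i
    · exact Or.inl hi
    · exact Or.inr hi)
  have eX : ∀ X, Γ.deg univ X = 1 ↔ (X = B ∨ X = C) := fun X => by rw [L14Gr.k8_deg_two]; exact hd X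
  have hAB : A ≠ B := by
    rcases h0 with ⟨h, h'⟩ | ⟨h, h'⟩
    · rw [← h, ← h']; exact Γ.ne 0
    · rw [← h, ← h']; exact (Γ.ne 0).symm
  have hAC : A ≠ C := by
    rcases h1 with ⟨h, h'⟩ | ⟨h, h'⟩
    · rw [← h, ← h']; exact Γ.ne 1
    · rw [← h, ← h']; exact (Γ.ne 1).symm
  have hA2 : Γ.deg univ A = 2 := by
    have h1 := Γ.one_le_deg A
    have h2 := Γ.deg_le univ A
    have h3 : Γ.deg univ A ≠ 1 := fun h => by
      rcases (eX A).1 h with h | h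
      · exact hAB h
      · exact hAC h
    omega
  refine ⟨A, B, C, hAB, hAC, hBC, hA2, (eX B).2 (Or.inl rfl), (eX C).2 (Or.inr rfl), ?_, ?_, ?_, ?_, ?_⟩
  · unfold L14Gr.vs
    rcases h0 with ⟨h, h'⟩ | ⟨h, h'⟩
    · rw [h, h']
    · rw [h, h', L14Sk.k8_split_comm]
  · unfold L14Gr.vs
    rcases h1 with ⟨h, h'⟩ | ⟨h, h'⟩
    · rw [h, h']
    · rw [h, h', L14Sk.k8_split_comm]
  · unfold L14Gr.ps
    rw [← L14Gr.k8_pair_sum (fun X Y => s.split c X Y) (fun X Y => s.k8_split_comm X Y) B C hBC]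
    refine Finset.sum_congr rfl fun X _ => Finset.sum_congr rfl fun Y _ => ?_
    simp only [eX]
  · intro X
    rw [Γ.deg_single]
    rcases h0 with ⟨h, h'⟩ | ⟨h, h'⟩
    · rw [h, h']
    · rw [h, h']; simp only [or_comm]
  · intro X
    rw [Γ.deg_single]
    rcases h1 with ⟨h, h'⟩ | ⟨h, h'⟩
    · rw [h, h']
    · rw [h, h']; simp only [or_comm]

theorem l9c_erase3 : ∀ A B C : Fin 3, A ≠ B → A ≠ C → B ≠ C → ((univ : Finset (Fin 3)).erase B).erase C = {A} := by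
  decide

theorem l9c_erase2 : ((univ : Finset (Fin 2)).erase 0).erase 1 = ∅ := by decide

/-- two edges on four blocks: all degrees are one -/
theorem L14Gr.cls24 (Γ : L14Gr 2 4) (A : Fin 4) : Γ.deg univ A = 1 := by
  have h1 : ∑ A : Fin 4, 1 = ∑ A, Γ.deg univ A := by rw [Γ.sum_deg]; simp
  exact ((Finset.sum_eq_sum_iff_of_le fun A _ => Γ.one_le_deg A).1 h1 A (mem_univ A)).symm

/-- three edges on three blocks: all degrees are two or some degree is odd -/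
theorem L14Gr.cls33 (Γ : L14Gr 3 3) (h : ¬ ∀ A, Γ.deg univ A = 2) : ∃ X, Odd (Γ.deg univ X) := by
  by_contra hc
  refine h fun A => ?_
  rcases Γ.toL9.k_three A with h1 | h1
  · exact h1
  · exact absurd ⟨A, h1⟩ hc

end cls

/-! ### the moments of the cases -/

section cases

variable {L : ι → L14Calc bd 𝕂 𝓕} {c : ι → ℝ}

theorem L9cFam.re_c {D : ℕ} {s : ι → L14Sk D} (F : L9cFam L c s) : l14ON L (fun i => (L i).re (c i)) c :=
  l14ON_re_le L c fun i => by rw [abs_of_pos (F.c_pos i)]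

theorem L9cFam.re_split {D : ℕ} {s : ι → L14Sk D} (F : L9cFam L c s) (X Y : ι → Fin D) :
    l14ON L (fun i => (L i).re ((s i).split (c i) (X i) (Y i))) c :=
  l14ON_re_le L _ fun i => by
    rw [abs_of_nonneg ((s i).k8_split_nonneg (F.c_pos i).le (F.ok i) _ _)]
    exact (s i).k8_split_le (F.ok i) _ _

theorem L9cFam.cchi {D : ℕ} {s : ι → L14Sk D} (F : L9cFam L c s) : l14ON L (fun i => (L i).re (c i) * (L i).chi) c :=
  F.re_c.mul_one (l14ON_chi L)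

theorem L9cFam.cgg {D : ℕ} {s : ι → L14Sk D} (F : L9cFam L c s) : l14ON L (fun i => (L i).re (c i) * (L i).gg) c :=
  F.re_c.mul_one (l14ON_gg L)

/-- a block of odd degree: one more power of `c` -/
theorem l9c_odd (h3 : l14_K3) (h3p : l14_K3p) {D : ℕ} {s : ι → L14Sk D} (F : L9cFam L c s) (d : ι → Fin D → ℕ) (m : ℕ)
    (hd : ∀ i A, d i A ≤ m) (X : ι → Fin D) (hX : ∀ i, Odd (d i (X i))) :
    l14ON L (fun i => (s i).EL (L i) (c i) (d i)) (fun i => c i ^ (l9cNz (d i) + 1)) := by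
  refine (l9c_M4 h3 h3p F d m hd c (fun i => (F.c_pos i).le) F.c_le_one X fun i => ?_).mono1 fun i => le_of_eq (by ring)
  have : (univ.filter fun Z => Z = X i ∨ c i < (s i).split (c i) (X i) Z) = {X i} := by
    ext Z
    rw [mem_filter, mem_singleton]
    constructor
    · rintro ⟨-, h | h⟩
      · exact h
      · exact absurd ((s i).k8_split_le (F.ok i) _ _) (not_le.2 h)
    · intro h; exact ⟨mem_univ _, Or.inl h⟩
  rw [this, sum_singleton]
  exact hX i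


theorem l9c_z3 (A B C Z : Fin 3) (h1 : A ≠ B) (h2 : A ≠ C) (h3 : B ≠ C) (h4 : Z ≠ B) (h5 : Z ≠ C) : Z = A := by
  simp only [ne_eq, Fin.ext_iff] at *
  omega

theorem l9c_u2 : (univ : Finset (Fin 2)) = {0, 1} := by decide

/-- `coef = O(c²)` -/
theorem l9c_coef2 (h2 : l14_K2) {j D : ℕ} (hj : 0 < j) {Γ : ι → L14Gr j D} {s : ι → L14Sk D} (F : L9cFam L c s) :
    l14ON L (fun i => (Γ i).coef (L i) (c i) (s i)) (fun i => c i ^ 2) :=
  ((l9c_G (Γ := Γ) h2 hj F).mono1 fun i => l9c_pow_le (F.c_pos i) (F.c_le_one i) (by norm_num)).of_approx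
    (l9c_mom2 (Γ := Γ) h2 F ⟨⟨0, hj⟩, mem_univ _⟩)

/-- product of two pair moments -/
theorem l9c_PM2 (h4 : l14_K4) (h4e : l14_K4e) {D : ℕ} (Γ : ι → L14Gr 2 D) {s : ι → L14Sk D} (F : L9cFam L c s)
    (hm : ∀ i, (L i).eps ≤ c i ^ 4) :
    l14ON L (fun i => (Γ i).mom (L i) (c i) (s i) {0} * (Γ i).mom (L i) (c i) (s i) {1}) (fun i => c i ^ 5) :=
  ((l9c_PM (Γ := Γ) h4 h4e F hm 0).mul (l9c_PM (Γ := Γ) h4 h4e F hm 1)).mono1 fun i => by
    have := l9c_pow_le (F.c_pos i) (F.c_le_one i) (show 5 ≤ 6 by norm_num)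
    calc c i ^ 3 * c i ^ 3 = c i ^ 6 := by ring
      _ ≤ _ := this

/-- case `j = 2`, `D = 2` -/
theorem l9c_C22 (h4 : l14_K4) (h4e : l14_K4e) (h5 : l14_K5) {Γ : ι → L14Gr 2 2} {s : ι → L14Sk 2} (F : L9cFam L c s)
    (hm : ∀ i, (L i).eps ≤ c i ^ 4) :
    l14ON L (fun i => (Γ i).coef (L i) (c i) (s i) - (L i).re (c i ^ 2) * ((L i).chi ^ 2
        + (L i).chi ^ 3 * (L i).k0 * (L i).re (c i ^ 2)
        + (L i).re (1 / 2) * (L i).gg ^ 2 * (L i).k0 ^ 2 * (L i).re ((s i).split (c i) 0 1 ^ 2)))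
      (fun i => c i ^ 5) := by
  have hM5 := l9c_M5 h5 F hm (fun i => (Γ i).deg {0, 1}) (fun i A => by rw [(Γ i).deg_two_blocks]; rfl)
  refine (hM5.sub (l9c_PM2 h4 h4e Γ F hm)).congr fun i => ?_
  rw [(Γ i).coef_two, (Γ i).mom_eq _ _ _ {0, 1}]
  ring

/-- the three approximations `η₁² ω₂`, `η₃²`, `ω₂³`, `ω₄²` -/
theorem l9c_appr {D : ℕ} {s : ι → L14Sk D} (F : L9cFam L c s) :
    l14ON L (fun i => (L i).et (c i) 1 * (L i).et (c i) 1 * (L i).om (c i) 2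
      - (L i).re (c i) * (L i).chi * ((L i).re (c i) * (L i).chi) * ((L i).re (c i) * (L i).chi)) (fun i => c i ^ 4) ∧
    l14ON L (fun i => (L i).et (c i) 3 * (L i).et (c i) 3
      - (L i).re (c i) * (L i).gg * ((L i).re (c i) * (L i).gg)) (fun i => c i ^ 3) ∧
    l14ON L (fun i => (L i).om (c i) 2 * (L i).om (c i) 2 * (L i).om (c i) 2
      - (L i).re (c i) * (L i).chi * ((L i).re (c i) * (L i).chi) * ((L i).re (c i) * (L i).chi)) (fun i => c i ^ 4) ∧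
    l14ON L (fun i => (L i).om (c i) 4 * (L i).om (c i) 4
      - (L i).re (c i) * (L i).gg * ((L i).re (c i) * (L i).gg)) (fun i => c i ^ 3) := by
  obtain ⟨ho2, ho4, he1, he3⟩ := l9c_jets L c (fun i => (F.c_pos i).le) F.c_le
  have e1 : ∀ i, c i ^ 2 * c i ≤ c i ^ 3 := fun i => le_of_eq (by ring)
  have e2 : ∀ i, c i * c i ^ 2 ≤ c i ^ 3 := fun i => le_of_eq (by ring)
  have e3 : ∀ i, c i ^ 2 * c i ^ 2 ≤ c i ^ 3 := fun i => by
    have := l9c_pow_le (F.c_pos i) (F.c_le_one i) (show 3 ≤ 4 by norm_num)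
    calc c i ^ 2 * c i ^ 2 = c i ^ 4 := by ring
      _ ≤ _ := this
  have f1 : ∀ i, c i ^ 3 * c i ≤ c i ^ 4 := fun i => le_of_eq (by ring)
  have f2 : ∀ i, c i * c i * c i ^ 2 ≤ c i ^ 4 := fun i => le_of_eq (by ring)
  have f3 : ∀ i, c i ^ 3 * c i ^ 2 ≤ c i ^ 4 := fun i => by
    have := l9c_pow_le (F.c_pos i) (F.c_le_one i) (show 4 ≤ 5 by norm_num)
    calc c i ^ 3 * c i ^ 2 = c i ^ 5 := by ring
      _ ≤ _ := this
  refine ⟨?_, he3.approx_mul he3 F.cgg F.cgg e1 e2 e3, ?_, ho4.approx_mul ho4 F.cgg F.cgg e1 e2 e3⟩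
  · exact (he1.approx_mul he1 F.cchi F.cchi e1 e2 e3).approx_mul ho2 (F.cchi.mul F.cchi) F.cchi f1 f2 f3
  · exact (ho2.approx_mul ho2 F.cchi F.cchi e1 e2 e3).approx_mul ho2 (F.cchi.mul F.cchi) F.cchi f1 f2 f3

/-- case `j = 2`, `D = 3` -/
theorem l9c_C23 (h4 : l14_K4) (h4e : l14_K4e) {Γ : ι → L14Gr 2 3} {s : ι → L14Sk 3} (F : L9cFam L c s)
    (hm : ∀ i, (L i).eps ≤ c i ^ 4) :
    l14ON L (fun i => (Γ i).coef (L i) (c i) (s i)
      - (L i).re (c i ^ 3 * (Γ i).ps (c i) (s i) 1) * ((L i).chi ^ 3 * (L i).k0)) (fun i => c i ^ 5) := by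
  choose A B C hAB hAC hBC hdA hdB hdC _ _ hps _ _ using fun i => (Γ i).cls23 (c i) (s i)
  have hM := l9c_M2 h4 h4e F hm (fun i => (Γ i).deg univ) 2 (fun i X => (Γ i).deg_le _ X) B C hBC
    (fun i => by rw [hdB]; decide) (fun i => by rw [hdC]; decide) (fun i Z h1 h2 => by
      rw [l9c_z3 _ _ _ Z (hAB i) (hAC i) (hBC i) h1 h2, hdA]; decide)
  have h1 : l14ON L (fun i => (L i).k0 * ((L i).re ((s i).split (c i) (B i) (C i))
      * ((L i).et (c i) 1 * (L i).et (c i) 1 * (L i).om (c i) 2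
      - (L i).re (c i) * (L i).chi * ((L i).re (c i) * (L i).chi) * ((L i).re (c i) * (L i).chi)))) (fun i => c i ^ 5) :=
    ((l14ON_k0 L).one_mul ((F.re_split B C).mul (l9c_appr F).1)).mono1 fun i => le_of_eq (by ring)
  refine (((hM.mono1 fun i => le_of_eq (by rw [(Γ i).nz_univ])).add h1).sub (l9c_PM2 h4 h4e Γ F hm)).congr fun i => ?_
  rw [(Γ i).coef_two, ← l9c_u2, (Γ i).mom_eq _ _ _ univ, hdB, hdC, l9c_erase3 _ _ _ (hAB i) (hAC i) (hBC i), prod_singleton,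
    hdA, hps, map_mul, map_pow]
  ring

/-- case `j = 2`, `D = 4` -/
theorem l9c_C24 (h3 : l14_K3) (h3p : l14_K3p) (h4 : l14_K4) (h4e : l14_K4e) {Γ : ι → L14Gr 2 4} {s : ι → L14Sk 4}
    (F : L9cFam L c s) (hm : ∀ i, (L i).eps ≤ c i ^ 4) : l14ON L (fun i => (Γ i).coef (L i) (c i) (s i)) (fun i => c i ^ 5) := by
  have hM := l9c_odd h3 h3p F (fun i => (Γ i).deg univ) 2 (fun i X => (Γ i).deg_le _ X) (fun _ => 0)
    (fun i => by rw [(Γ i).cls24]; decide)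
  refine ((hM.mono1 fun i => le_of_eq (by rw [(Γ i).nz_univ])).sub (l9c_PM2 h4 h4e Γ F hm)).congr fun i => ?_
  rw [(Γ i).coef_two, ← l9c_u2, (Γ i).mom_eq _ _ _ univ]

/-- case `j = 3`, `D = 2` -/
theorem l9c_C32 (h2 : l14_K2) (h4 : l14_K4) (h4e : l14_K4e) {Γ : ι → L14Gr 3 2} {s : ι → L14Sk 2} (F : L9cFam L c s)
    (hm : ∀ i, (L i).eps ≤ c i ^ 4) :
    l14ON L (fun i => (Γ i).coef (L i) (c i) (s i)
      - (L i).re (c i ^ 2 * (s i).split (c i) 0 1) * ((L i).gg ^ 2 * (L i).k0)) (fun i => c i ^ 4) := by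
  have hd : ∀ i X, (Γ i).deg univ X = 3 := fun i X => by rw [(Γ i).deg_two_blocks]; rfl
  have hM := l9c_M2 h4 h4e F hm (fun i => (Γ i).deg univ) 3 (fun i X => (Γ i).deg_le _ X) (fun _ => 0) (fun _ => 1)
    (fun _ => by decide) (fun i => by rw [hd]; decide) (fun i => by rw [hd]; decide) (fun i Z h1 h2 => by
      exfalso; revert h1 h2; revert Z; decide)
  have h1 : l14ON L (fun i => (L i).k0 * ((L i).re ((s i).split (c i) 0 1)
      * ((L i).et (c i) 3 * (L i).et (c i) 3 - (L i).re (c i) * (L i).gg * ((L i).re (c i) * (L i).gg)))) (fun i => c i ^ 4) :=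
    ((l14ON_k0 L).one_mul ((F.re_split (fun _ => 0) (fun _ => 1)).mul (l9c_appr F).2.1)).mono1 fun i => le_of_eq (by ring)
  refine (((l9c_G (Γ := Γ) h2 (by norm_num) F).add (hM.mono1 fun i => le_of_eq (by rw [(Γ i).nz_univ]))).add h1).congr fun i => ?_
  rw [(Γ i).mom_eq _ _ _ univ, hd, hd, l9c_erase2, prod_empty, map_mul, map_pow]
  ring

/-- case `j = 3`, `D = 3`, all degrees two -/
theorem l9c_C33a (h2 : l14_K2) (h4 : l14_K4) {Γ : ι → L14Gr 3 3} {s : ι → L14Sk 3} (F : L9cFam L c s)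
    (hm : ∀ i, (L i).eps ≤ c i ^ 4)
    (hd : ∀ i X, (Γ i).deg univ X = 2) :
    l14ON L (fun i => (Γ i).coef (L i) (c i) (s i) - (L i).re (c i ^ 3) * (L i).chi ^ 3) (fun i => c i ^ 4) := by
  have hM := l9c_M1 h4 F hm (fun i => (Γ i).deg univ) 3 (fun i X => (Γ i).deg_le _ X) (fun i X => by rw [hd]; decide)
  refine (((l9c_G (Γ := Γ) h2 (by norm_num) F).add (hM.mono1 fun i => ?_)).add (l9c_appr F).2.2.1).congr fun i => ?_
  · rw [(Γ i).nz_univ]
    exact l9c_pow_le (F.c_pos i) (F.c_le_one i) (by norm_num)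
  · rw [(Γ i).mom_eq _ _ _ univ, Fin.prod_univ_three, hd, hd, hd, map_pow]
    ring

/-- case `j = 3`, `D = 3`, some degree is odd -/
theorem l9c_C33b (h2 : l14_K2) (h3 : l14_K3) (h3p : l14_K3p) {Γ : ι → L14Gr 3 3} {s : ι → L14Sk 3} (F : L9cFam L c s)
    (hd : ∀ i, ¬ ∀ X, (Γ i).deg univ X = 2) :
    l14ON L (fun i => (Γ i).coef (L i) (c i) (s i)) (fun i => c i ^ 4) := by
  choose X hX using fun i => (Γ i).cls33 (hd i)
  have hM := l9c_odd h3 h3p F (fun i => (Γ i).deg univ) 3 (fun i X => (Γ i).deg_le _ X) X hX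
  refine ((l9c_G (Γ := Γ) h2 (by norm_num) F).add (hM.mono1 fun i => le_of_eq (by rw [(Γ i).nz_univ]))).congr fun i => ?_
  rw [(Γ i).mom_eq _ _ _ univ]
  ring

/-- many blocks: `coef = O(c^n)`, `n ≤ 4`, `n ≤ D` -/
theorem l9c_CD (h2 : l14_K2) {j D n : ℕ} (hj : 0 < j) (hn : n ≤ 4) (hD : n ≤ D) {Γ : ι → L14Gr j D} {s : ι → L14Sk D}
    (F : L9cFam L c s) : l14ON L (fun i => (Γ i).coef (L i) (c i) (s i)) (fun i => c i ^ n) := by
  refine (((l9c_G (Γ := Γ) h2 hj F).mono1 fun i => l9c_pow_le (F.c_pos i) (F.c_le_one i) hn).add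
    ((l9c_mom0 (Γ := Γ) h2 F univ).mono1 fun i => ?_)).congr fun i => by ring
  rw [(Γ i).nz_univ]
  exact l9c_pow_le (F.c_pos i) (F.c_le_one i) hD

/-- case `j = 4`, `D = 2` -/
theorem l9c_C42 (h2 : l14_K2) (h4 : l14_K4) {Γ : ι → L14Gr 4 2} {s : ι → L14Sk 2} (F : L9cFam L c s)
    (hm : ∀ i, (L i).eps ≤ c i ^ 4) :
    l14ON L (fun i => (Γ i).coef (L i) (c i) (s i) - (L i).re (c i ^ 2) * (L i).gg ^ 2) (fun i => c i ^ 3) := by
  have hd : ∀ i X, (Γ i).deg univ X = 4 := fun i X => by rw [(Γ i).deg_two_blocks]; rfl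
  have hM := l9c_M1 h4 F hm (fun i => (Γ i).deg univ) 4 (fun i X => (Γ i).deg_le _ X) (fun i X => by rw [hd]; decide)
  refine ((((l9c_G (Γ := Γ) h2 (by norm_num) F).mono1 fun i => l9c_pow_le (F.c_pos i) (F.c_le_one i) (by norm_num)).add
    (hM.mono1 fun i => ?_)).add (l9c_appr F).2.2.2).congr fun i => ?_
  · rw [(Γ i).nz_univ]
    exact l9c_pow_le (F.c_pos i) (F.c_le_one i) (by norm_num)
  · rw [(Γ i).mom_eq _ _ _ univ, Fin.prod_univ_two, hd, hd, map_pow]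
    ring

end cases

/-! ### K8, K8d -/

section main

variable {L : ι → L14Calc bd 𝕂 𝓕} {c ε : ι → ℝ}

/-- the edge weights: from `coef = Lc + O(E)` to `∏ b · coef = b∘^j Lc + O(E + ε c²)` -/
theorem l9c_R (h2 : l14_K2) {j D : ℕ} (hj : 0 < j) {Γ : ι → L14Gr j D} {s : ι → L14Sk D} {b : ι → Fin j → 𝕂} {bc : ι → 𝕂}
    (H : L14Hyp L Γ c ε s b bc) {Lc : ι → 𝕂} {E : ι → ℝ} (hE0 : ∀ i, 0 ≤ E i)
    (hE : l14ON L (fun i => (Γ i).coef (L i) (c i) (s i) - Lc i) E) :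
    l14ON L (fun i => (∏ e, b i e) * (Γ i).coef (L i) (c i) (s i) - (L i).bo ^ j * Lc i) (fun i => E i + ε i * c i ^ 2) := by
  have h1 := H.prod_sub.mul (l9c_coef2 (Γ := Γ) h2 hj H.fam)
  have h3 := ((l14ON_bo L).pow1 j).one_mul hE
  refine (h3.add' h1 hE0 fun i => mul_nonneg (H.e_nonneg i) (pow_nonneg (H.c_pos i).le 2)).congr fun i => ?_
  ring

theorem L14Calc.bo_chi (L : L14Calc bd 𝕂 𝓕) : L.bo * L.chi ^ 2 = 1 := L.bo_mul

end main

section main2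

variable {L : ι → L14Calc bd 𝕂 𝓕} {c ε : ι → ℝ}

/-- the statement of K8 for one pair `(j, D)` -/
def l9cK8 {j D : ℕ} (L : ι → L14Calc bd 𝕂 𝓕) (Γ : ι → L14Gr j D) (c : ι → ℝ) (s : ι → L14Sk D) (b : ι → Fin j → 𝕂)
    (bc : ι → 𝕂) (E : ι → ℝ) : Prop :=
  l14ON L (fun i => l14X (L i) (Γ i) (c i) (s i) (b i) (bc i)
        - ((L i).re ((Γ i).ma (c i) (s i)) * (L i).mono1 j + (L i).re ((Γ i).mb (c i) (s i)) * (L i).mono2 j)) E

theorem l9c_K22 (h2 : l14_K2) (h4 : l14_K4) (h4e : l14_K4e) (h5 : l14_K5) {Γ : ι → L14Gr 2 2} {s : ι → L14Sk 2}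
    {b : ι → Fin 2 → 𝕂} {bc : ι → 𝕂} (H : L14Hyp L Γ c ε s b bc) :
    l9cK8 L Γ c s b bc (fun i => c i ^ 5 + ε i * c i ^ 2) := by
  have h := l9c_R h2 (by norm_num) H (fun i => pow_nonneg (H.c_pos i).le 5) (l9c_C22 h4 h4e h5 H.fam H.mesh)
  have hc2 : l14ON L (fun i => (L i).re (c i ^ 2)) (fun i => c i ^ 2) :=
    l14ON_re_nn L _ fun i => pow_nonneg (H.c_pos i).le 2
  have hb : l14ON L (fun i => (L i).re (c i ^ 2) * (bc i - (L i).bo)) (fun i => c i ^ 5 + ε i * c i ^ 2) :=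
    (hc2.mul H.bc_sub).mono1 fun i => by nlinarith [pow_nonneg (H.c_pos i).le 5]
  refine (h.sub hb).congr fun i => ?_
  have hma : (Γ i).ma (c i) (s i) = c i ^ 4 := by unfold L14Gr.ma; rw [if_pos ⟨rfl, rfl⟩]
  have hmb : (Γ i).mb (c i) (s i) = 1 / 2 * (c i ^ 2 * (s i).split (c i) 0 1 ^ 2) := by
    unfold L14Gr.mb
    rw [if_pos ⟨rfl, rfl⟩, L14Gr.k8_ps_two, if_pos ⟨by rw [(Γ i).deg_two_blocks]; rfl, by rw [(Γ i).deg_two_blocks]; rfl⟩]
    ring
  unfold l14X L14Calc.mono1 L14Calc.mono2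
  rw [if_pos ⟨rfl, rfl⟩, if_pos rfl, if_pos rfl, hma, hmb]
  simp only [map_mul, map_pow]
  linear_combination (-(L i).re (c i) ^ 2 * (L i).bo) * (L i).bo_chi

theorem l9c_K23 (h2 : l14_K2) (h4 : l14_K4) (h4e : l14_K4e) {Γ : ι → L14Gr 2 3} {s : ι → L14Sk 3}
    {b : ι → Fin 2 → 𝕂} {bc : ι → 𝕂} (H : L14Hyp L Γ c ε s b bc) :
    l9cK8 L Γ c s b bc (fun i => c i ^ 5 + ε i * c i ^ 2) := by
  have h := l9c_R h2 (by norm_num) H (fun i => pow_nonneg (H.c_pos i).le 5) (l9c_C23 h4 h4e H.fam H.mesh)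
  refine h.congr fun i => ?_
  have hma : (Γ i).ma (c i) (s i) = c i ^ 3 * (Γ i).ps (c i) (s i) 1 := by
    unfold L14Gr.ma; rw [if_neg (by norm_num), if_pos ⟨rfl, rfl⟩]
  have hmb : (Γ i).mb (c i) (s i) = 0 := by
    unfold L14Gr.mb; rw [if_neg (by norm_num), if_neg (by norm_num)]
  unfold l14X L14Calc.mono1
  rw [if_neg (by norm_num), if_pos rfl, hma, hmb, map_zero]
  ring

/-- no main term -/
theorem l9c_K0 (h2 : l14_K2) {j D : ℕ} (hj : 0 < j) {Γ : ι → L14Gr j D} {s : ι → L14Sk D}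
    {b : ι → Fin j → 𝕂} {bc : ι → 𝕂} (H : L14Hyp L Γ c ε s b bc) (hjD : ¬ (j = 2 ∧ D = 2))
    (hma : ∀ i, (Γ i).ma (c i) (s i) = 0) (hmb : ∀ i, (Γ i).mb (c i) (s i) = 0) {E : ι → ℝ} (hE0 : ∀ i, 0 ≤ E i)
    (hE : l14ON L (fun i => (Γ i).coef (L i) (c i) (s i)) E) :
    l9cK8 L Γ c s b bc (fun i => E i + ε i * c i ^ 2) := by
  have h := l9c_R h2 hj H (Lc := fun _ => 0) hE0 (hE.congr fun i => by ring)
  refine h.congr fun i => ?_
  unfold l14X
  rw [if_neg hjD, hma, hmb, map_zero]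
  ring

theorem l9c_K32 (h2 : l14_K2) (h4 : l14_K4) (h4e : l14_K4e) {Γ : ι → L14Gr 3 2} {s : ι → L14Sk 2}
    {b : ι → Fin 3 → 𝕂} {bc : ι → 𝕂} (H : L14Hyp L Γ c ε s b bc) :
    l9cK8 L Γ c s b bc (fun i => c i ^ 4 + ε i * c i ^ 2) := by
  have h := l9c_R h2 (by norm_num) H (fun i => pow_nonneg (H.c_pos i).le 4) (l9c_C32 h2 h4 h4e H.fam H.mesh)
  refine h.congr fun i => ?_
  have hma : (Γ i).ma (c i) (s i) = 0 := by
    unfold L14Gr.ma; rw [if_neg (by norm_num), if_neg (by norm_num), if_neg (by norm_num), if_neg (by norm_num)]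
  have hmb : (Γ i).mb (c i) (s i) = c i ^ 2 * (s i).split (c i) 0 1 := by
    unfold L14Gr.mb
    rw [if_neg (by norm_num), if_pos ⟨rfl, rfl⟩, L14Gr.k8_ps_two,
      if_pos ⟨by rw [(Γ i).deg_two_blocks]; rfl, by rw [(Γ i).deg_two_blocks]; rfl⟩]
  unfold l14X L14Calc.mono2
  rw [if_neg (by norm_num), if_neg (by norm_num), if_pos rfl, hma, hmb, map_zero]
  ring

theorem l9c_K33a (h2 : l14_K2) (h4 : l14_K4) {Γ : ι → L14Gr 3 3} {s : ι → L14Sk 3}
    {b : ι → Fin 3 → 𝕂} {bc : ι → 𝕂} (H : L14Hyp L Γ c ε s b bc) (hd : ∀ i X, (Γ i).deg univ X = 2) :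
    l9cK8 L Γ c s b bc (fun i => c i ^ 4 + ε i * c i ^ 2) := by
  have h := l9c_R h2 (by norm_num) H (fun i => pow_nonneg (H.c_pos i).le 4) (l9c_C33a h2 h4 H.fam H.mesh hd)
  refine h.congr fun i => ?_
  have hma : (Γ i).ma (c i) (s i) = c i ^ 3 := by
    unfold L14Gr.ma; rw [if_neg (by norm_num), if_neg (by norm_num), if_pos ⟨rfl, rfl, hd i⟩]
  have hmb : (Γ i).mb (c i) (s i) = 0 := by
    unfold L14Gr.mb; rw [if_neg (by norm_num), if_neg (by norm_num)]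
  unfold l14X L14Calc.mono1
  rw [if_neg (by norm_num), if_neg (by norm_num), if_pos rfl, hma, hmb, map_zero]
  ring

theorem l9c_K42 (h2 : l14_K2) (h4 : l14_K4) {Γ : ι → L14Gr 4 2} {s : ι → L14Sk 2}
    {b : ι → Fin 4 → 𝕂} {bc : ι → 𝕂} (H : L14Hyp L Γ c ε s b bc) :
    l9cK8 L Γ c s b bc (fun i => c i ^ 3 + ε i * c i ^ 2) := by
  have h := l9c_R h2 (by norm_num) H (fun i => pow_nonneg (H.c_pos i).le 3) (l9c_C42 h2 h4 H.fam H.mesh)
  refine h.congr fun i => ?_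
  have hma : (Γ i).ma (c i) (s i) = c i ^ 2 := by
    unfold L14Gr.ma; rw [if_neg (by norm_num), if_neg (by norm_num), if_neg (by norm_num), if_pos ⟨rfl, rfl⟩]
  have hmb : (Γ i).mb (c i) (s i) = 0 := by
    unfold L14Gr.mb; rw [if_neg (by norm_num), if_neg (by norm_num)]
  unfold l14X L14Calc.mono1
  rw [if_neg (by norm_num), if_neg (by norm_num), if_neg (by norm_num), hma, hmb, map_zero]
  ring

theorem l9c_glue_eqns_cite : True := by
  have := @l9cK8.eq_1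
  trivial

theorem L14Hyp.comp {ι' : Type} {j D : ℕ} {Γ : ι → L14Gr j D} {s : ι → L14Sk D} {b : ι → Fin j → 𝕂} {bc : ι → 𝕂}
    (H : L14Hyp L Γ c ε s b bc) (e : ι' → ι) :
    L14Hyp (fun p => L (e p)) (fun p => Γ (e p)) (fun p => c (e p)) (fun p => ε (e p)) (fun p => s (e p)) (fun p => b (e p))
      (fun p => bc (e p)) :=
  ⟨fun _ => H.c_pos _, fun _ => H.c_le _, fun _ => H.mesh _, fun _ => H.ok _, fun _ => H.full _, fun _ => H.e_le _,
    fun _ => H.b_bd _, fun _ => H.bc_bd _⟩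

theorem l9c_K33 (h2 : l14_K2) (h3 : l14_K3) (h3p : l14_K3p) (h4 : l14_K4) {Γ : ι → L14Gr 3 3} {s : ι → L14Sk 3}
    {b : ι → Fin 3 → 𝕂} {bc : ι → 𝕂} (H : L14Hyp L Γ c ε s b bc) :
    l9cK8 L Γ c s b bc (fun i => c i ^ 4 + ε i * c i ^ 2) := by
  refine l14ON.of_or (fun i => ∀ X, (Γ i).deg univ X = 2)
    (fun i => add_nonneg (pow_nonneg (H.c_pos i).le 4) (mul_nonneg (H.e_nonneg i) (pow_nonneg (H.c_pos i).le 2))) ?_ ?_
  · exact l9c_K33a h2 h4 (H.comp fun q : {i // ∀ X, (Γ i).deg univ X = 2} => q.1) fun q => q.2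
  · have H' := H.comp fun q : {i // ¬ ∀ X, (Γ i).deg univ X = 2} => q.1
    refine l9c_K0 h2 (by norm_num) H' (by norm_num) (fun q => ?_) (fun q => ?_) (fun q => pow_nonneg (H'.c_pos q).le 4)
      (l9c_C33b h2 h3 h3p H'.fam fun q => q.2)
    · unfold L14Gr.ma
      rw [if_neg (by norm_num), if_neg (by norm_num), if_neg (fun h => q.2 h.2.2), if_neg (by norm_num)]
    · unfold L14Gr.mb; rw [if_neg (by norm_num), if_neg (by norm_num)]

/-- **K8** -/
theorem l14_K8_pf (h2 : l14_K2) (h3 : l14_K3) (h3p : l14_K3p) (h4 : l14_K4) (h4e : l14_K4e) (h5 : l14_K5) : l14_K8 := by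
  intro bd 𝕂 𝓕 _ _ ι j D L Γ c ε s b bc hj2 hj4 H
  by_cases hι : Nonempty ι
  swap
  · exact l14ON.of_false fun i => hι ⟨i⟩
  obtain ⟨i0⟩ := hι
  have hD2 : 2 ≤ D := (Γ i0).toL9.two_le_D (by omega)
  have hc0 : ∀ i (n : ℕ), 0 ≤ c i ^ n := fun i n => pow_nonneg (H.c_pos i).le n
  have hpw : ∀ i {m n : ℕ}, m ≤ n → c i ^ n ≤ c i ^ m := fun i _ _ h => l9c_pow_le (H.c_pos i) (H.fam.c_le_one i) h
  have hfin : ∀ {E : ι → ℝ}, l9cK8 L Γ c s b bc (fun i => E i + ε i * c i ^ 2) → (∀ i, E i ≤ c i ^ (7 - j)) →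
      l14ON L (fun i => l14X (L i) (Γ i) (c i) (s i) (b i) (bc i)
        - ((L i).re ((Γ i).ma (c i) (s i)) * (L i).mono1 j + (L i).re ((Γ i).mb (c i) (s i)) * (L i).mono2 j))
      (fun i => c i ^ (7 - j) + ε i * c i ^ (4 - j)) := fun h hE => l14ON.mono1 h fun i =>
    add_le_add (hE i) (mul_le_mul_of_nonneg_left (hpw i (by omega)) (H.e_nonneg i))
  obtain rfl | rfl | rfl : j = 2 ∨ j = 3 ∨ j = 4 := by omega
  · obtain rfl | rfl | hD : D = 2 ∨ D = 3 ∨ 4 ≤ D := by omega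
    · exact hfin (l9c_K22 h2 h4 h4e h5 H) fun i => le_rfl
    · exact hfin (l9c_K23 h2 h4 h4e H) fun i => le_rfl
    · obtain rfl : D = 4 := by have := (Γ i0).toL9.D_le; omega
      refine hfin (l9c_K0 h2 (by norm_num) H (by norm_num) (fun i => ?_) (fun i => ?_) (fun i => hc0 i 5)
        (l9c_C24 h3 h3p h4 h4e H.fam H.mesh)) fun i => le_rfl
      · unfold L14Gr.ma
        rw [if_neg (by norm_num), if_neg (by norm_num), if_neg (by norm_num), if_neg (by norm_num)]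
      · unfold L14Gr.mb; rw [if_neg (by norm_num), if_neg (by norm_num)]
  · obtain rfl | rfl | hD : D = 2 ∨ D = 3 ∨ 4 ≤ D := by omega
    · exact hfin (l9c_K32 h2 h4 h4e H) fun i => le_rfl
    · exact hfin (l9c_K33 h2 h3 h3p h4 H) fun i => le_rfl
    · refine hfin (l9c_K0 h2 (by norm_num) H (by norm_num) (fun i => ?_) (fun i => ?_) (fun i => hc0 i 4)
        (l9c_CD h2 (by norm_num) le_rfl hD H.fam)) fun i => le_rfl
      · unfold L14Gr.ma
        rw [if_neg (by norm_num), if_neg (by norm_num), if_neg (by omega), if_neg (by norm_num)]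
      · unfold L14Gr.mb; rw [if_neg (by norm_num), if_neg (by omega)]
  · obtain rfl | hD : D = 2 ∨ 3 ≤ D := by omega
    · exact hfin (l9c_K42 h2 h4 H) fun i => le_rfl
    · refine hfin (l9c_K0 h2 (by norm_num) H (by norm_num) (fun i => ?_) (fun i => ?_) (fun i => hc0 i 3)
        (l9c_CD h2 (by norm_num) (by norm_num) hD H.fam)) fun i => le_rfl
      · unfold L14Gr.ma
        rw [if_neg (by norm_num), if_neg (by norm_num), if_neg (by norm_num), if_neg (by omega)]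
      · unfold L14Gr.mb; rw [if_neg (by norm_num), if_neg (by norm_num)]

/-- **K8d** -/
theorem l14_K8d_pf (h2 : l14_K2) : l14_K8d := by
  intro bd 𝕂 𝓕 _ _ ι j D L Γ c s hj hc0 hc hok hfull
  exact l9c_coef2 h2 (by omega) ⟨hc0, hc, hok, hfull⟩

end main2

/-! ### distinct designated forks: combinatorics -/

section dist

variable {D : ℕ}

/-- the total degree of a set of blocks counts the end points in the set -/
theorem L14Gr.sum_deg2 (Γ : L14Gr 2 D) (S : Finset (Fin D)) :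
    ∑ X ∈ S, Γ.deg univ X = ((if (Γ.e 0).1 ∈ S then 1 else 0) + (if (Γ.e 1).1 ∈ S then 1 else 0))
      + ((if (Γ.e 0).2 ∈ S then 1 else 0) + (if (Γ.e 1).2 ∈ S then 1 else 0)) := by
  simp only [L14Gr.k8_deg_two, sum_add_distrib, sum_ite_eq]

/-- distinct designated forks: the component above the earlier one of a suitable block has odd total degree -/
theorem L14Gr.dist_odd (Γ : L14Gr 2 D) {c : ℝ} {s : L14Sk D} (hs : s.Ok c) (hl : s.labels = univ) (hd : Γ.Dist c s) :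
    ∃ A, Odd (∑ X ∈ univ.filter (fun X => X = A ∨ min (Γ.vs c s 0) (Γ.vs c s 1) < s.split c A X), Γ.deg univ X) := by
  have hm : ∀ X : Fin D, X ∈ s.labels := fun X => by rw [hl]; exact mem_univ X
  have hself : ∀ X : Fin D, s.split c X X = c := fun X => L14Sk.l14s_split_self hs (hm X)
  have hle : ∀ X Y : Fin D, s.split c X Y ≤ c := fun X Y => s.k8_split_le hs X Y
  have hcomm : ∀ X Y : Fin D, s.split c X Y = s.split c Y X := fun X Y => s.k8_split_comm X Y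
  have hu : ∀ X Y Z : Fin D, min (s.split c X Y) (s.split c Y Z) ≤ s.split c X Z := fun X Y Z => L14Sk.l14s_split_ultra hs X Y Z
  -- one strict case, used twice
  have key : ∀ a b a' b' : Fin D, a ≠ b → s.split c a b < s.split c a' b' →
      (a ∈ univ.filter (fun X => X = a ∨ s.split c a b < s.split c a X)) ∧
      (b ∉ univ.filter (fun X => X = a ∨ s.split c a b < s.split c a X)) ∧
      (a' ∈ univ.filter (fun X => X = a ∨ s.split c a b < s.split c a X) ↔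
        b' ∈ univ.filter (fun X => X = a ∨ s.split c a b < s.split c a X)) := by
    intro a b a' b' hab hlt
    have hc : s.split c a b < c := hlt.trans_le (hle _ _)
    have hmem : ∀ X, X ∈ univ.filter (fun X => X = a ∨ s.split c a b < s.split c a X) ↔ s.split c a b < s.split c a X := by
      intro X
      rw [mem_filter]
      constructor
      · rintro ⟨-, rfl | h⟩
        · rw [hself]; exact hc
        · exact h
      · intro h; exact ⟨mem_univ _, Or.inr h⟩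
    refine ⟨(hmem a).2 (by rw [hself]; exact hc), fun h => lt_irrefl _ ((hmem b).1 h), ?_⟩
    rw [hmem, hmem]
    constructor
    · intro h
      exact (lt_min h hlt).trans_le (hu a a' b')
    · intro h
      have := hu a b' a'
      rw [hcomm b' a'] at this
      exact (lt_min h hlt).trans_le this
  unfold L14Gr.Dist L14Gr.vs at hd
  unfold L14Gr.vs
  rcases lt_trichotomy (s.split c (Γ.e 0).1 (Γ.e 0).2) (s.split c (Γ.e 1).1 (Γ.e 1).2) with hlt | heq | hlt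
  · obtain ⟨k1, k2, k3⟩ := key _ _ _ _ (Γ.ne 0) hlt
    refine ⟨(Γ.e 0).1, ?_⟩
    rw [min_eq_left hlt.le, Γ.sum_deg2, if_pos k1, if_neg k2]
    by_cases h : (Γ.e 1).1 ∈ univ.filter (fun X => X = (Γ.e 0).1 ∨ s.split c (Γ.e 0).1 (Γ.e 0).2 < s.split c (Γ.e 0).1 X)
    · rw [if_pos h, if_pos (k3.1 h)]; decide
    · rw [if_neg h, if_neg (fun h' => h (k3.2 h'))]; decide
  · have hlt : s.split c (Γ.e 0).1 (Γ.e 1).1 < s.split c (Γ.e 0).1 (Γ.e 0).2 := by
      rcases hd with h | h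
      · exact absurd heq h
      · rw [← heq, min_self] at h; exact h
    refine ⟨(Γ.e 0).1, ?_⟩
    rw [← heq, min_self, Γ.sum_deg2, if_pos (by rw [mem_filter]; exact ⟨mem_univ _, Or.inl rfl⟩), if_neg, if_neg, if_neg]
    · decide
    · rw [mem_filter]
      rintro ⟨-, h | h⟩
      · have e1 : s.split c (Γ.e 0).1 (Γ.e 1).1 = s.split c (Γ.e 1).1 (Γ.e 1).2 := by rw [← h, hcomm]
        rw [e1, ← heq] at hlt
        exact lt_irrefl _ hlt
      · have h1 := hu (Γ.e 0).1 (Γ.e 1).2 (Γ.e 1).1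
        rw [hcomm (Γ.e 1).2 (Γ.e 1).1, ← heq, min_eq_right h.le] at h1
        exact absurd hlt (not_lt.2 h1)
    · rw [mem_filter]
      rintro ⟨-, h | h⟩
      · exact Γ.ne 0 h.symm
      · exact lt_irrefl _ h
    · rw [mem_filter]
      rintro ⟨-, h | h⟩
      · rw [h, hself] at hlt
        exact absurd (hle _ _) (not_le.2 hlt)
      · exact lt_asymm h hlt
  · obtain ⟨k1, k2, k3⟩ := key _ _ _ _ (Γ.ne 1) hlt
    refine ⟨(Γ.e 1).1, ?_⟩
    rw [min_eq_right hlt.le, Γ.sum_deg2, if_pos k1, if_neg k2]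
    by_cases h : (Γ.e 0).1 ∈ univ.filter (fun X => X = (Γ.e 1).1 ∨ s.split c (Γ.e 1).1 (Γ.e 1).2 < s.split c (Γ.e 1).1 X)
    · rw [if_pos h, if_pos (k3.1 h)]; decide
    · rw [if_neg h, if_neg (fun h' => h (k3.2 h'))]; decide

theorem l9c_four3 (a b a' b' : Fin 3) (h1 : a ≠ b) (h2 : a' ≠ b') (h3 : a ≠ a') (h4 : a ≠ b') (h5 : b ≠ a') (h6 : b ≠ b') :
    False := by
  simp only [ne_eq, Fin.ext_iff] at *
  omega

/-- the second case of `Dist` needs four blocks -/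
theorem L14Gr.dist_four (Γ : L14Gr 2 D) {c : ℝ} {s : L14Sk D} (hs : s.Ok c) (hl : s.labels = univ)
    (hd : s.split c (Γ.e 0).1 (Γ.e 1).1 < min (Γ.vs c s 0) (Γ.vs c s 1)) :
    (Γ.e 0).1 ≠ (Γ.e 1).1 ∧ (Γ.e 0).1 ≠ (Γ.e 1).2 ∧ (Γ.e 0).2 ≠ (Γ.e 1).1 ∧ (Γ.e 0).2 ≠ (Γ.e 1).2 := by
  have hm : ∀ X : Fin D, X ∈ s.labels := fun X => by rw [hl]; exact mem_univ X
  have hself : ∀ X : Fin D, s.split c X X = c := fun X => L14Sk.l14s_split_self hs (hm X)
  have hle : ∀ X Y : Fin D, s.split c X Y ≤ c := fun X Y => s.k8_split_le hs X Y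
  have hcomm : ∀ X Y : Fin D, s.split c X Y = s.split c Y X := fun X Y => s.k8_split_comm X Y
  unfold L14Gr.vs at hd
  obtain ⟨h0, h1⟩ := lt_min_iff.1 hd
  refine ⟨fun h => ?_, fun h => ?_, fun h => ?_, fun h => ?_⟩
  · rw [h, hself] at h1
    exact absurd (hle _ _) (not_le.2 h1)
  · rw [h, hcomm] at h1
    exact lt_irrefl _ h1
  · rw [← h] at h0
    exact lt_irrefl _ h0
  · have h2 := L14Sk.l14s_split_ultra hs (Γ.e 0).1 (Γ.e 0).2 (Γ.e 1).1
    have e1 : s.split c (Γ.e 0).2 (Γ.e 1).1 = s.split c (Γ.e 1).1 (Γ.e 1).2 := by rw [h, hcomm]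
    rw [e1] at h2
    exact absurd hd (not_lt.2 h2)

theorem L14Gr.dist_three (Γ : L14Gr 2 3) {c : ℝ} {s : L14Sk 3} (hs : s.Ok c) (hl : s.labels = univ) (hd : Γ.Dist c s) :
    Γ.vs c s 0 ≠ Γ.vs c s 1 := by
  rcases hd with h | h
  · exact h
  · obtain ⟨h1, h2, h3, h4⟩ := Γ.dist_four hs hl h
    exact (l9c_four3 _ _ _ _ (Γ.ne 0) (Γ.ne 1) h1 h2 h3 h4).elim

theorem l9c_four2 : ∀ a b a' : Fin 2, a ≠ b → a ≠ a' → b ≠ a' → False := by decide

theorem L14Gr.dist_two (Γ : L14Gr 2 2) {c : ℝ} {s : L14Sk 2} (hs : s.Ok c) (hl : s.labels = univ) (hd : Γ.Dist c s) : False := by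
  rcases hd with h | h
  · exact h (Γ.k8_two_vs c s)
  · obtain ⟨h1, -, h3, -⟩ := Γ.dist_four hs hl h
    exact l9c_four2 _ _ _ (Γ.ne 0) h1 h3

/-- two edges on three blocks, distinct designated forks: `B` leaves first -/
theorem L14Gr.cls23r (Γ : L14Gr 2 3) {c : ℝ} {s : L14Sk 3} (hs : s.Ok c) (hl : s.labels = univ) (hd : Γ.Dist c s) :
    ∃ A B C : Fin 3, Γ.deg univ A = 2 ∧ Γ.deg univ B = 1 ∧ Γ.deg univ C = 1 ∧ s.split c A B < s.split c A C ∧
      s.split c A B = min (Γ.vs c s 0) (Γ.vs c s 1) ∧ Γ.ps c s 1 = s.split c A B := by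
  have hm : ∀ X : Fin 3, X ∈ s.labels := fun X => by rw [hl]; exact mem_univ X
  have hne := Γ.dist_three hs hl hd
  obtain ⟨A, B, C, -, -, -, hA, hB, hC, h0, h1, hps, -, -⟩ := Γ.cls23 c s
  rw [h0, h1] at hne ⊢
  have hiso := s.k8_split_iso hs (hm A) (hm B) (hm C) hne
  rcases lt_or_gt_of_ne hne with hlt | hlt
  · exact ⟨A, B, C, hA, hB, hC, hlt, (min_eq_left hlt.le).symm, by rw [hps, hiso, min_eq_left hlt.le]⟩
  · exact ⟨A, C, B, hA, hC, hB, hlt, (min_eq_right hlt.le).symm, by rw [hps, hiso, min_eq_right hlt.le]⟩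

end dist

/-! ### K8r, K8dr -/

section refined

variable {L : ι → L14Calc bd 𝕂 𝓕} {c ε : ι → ℝ}

theorem L9cFam.vs_nonneg {j D : ℕ} {s : ι → L14Sk D} (F : L9cFam L c s) (Γ : ι → L14Gr j D) (e : Fin j) (i : ι) :
    0 ≤ (Γ i).vs (c i) (s i) e := (s i).k8_split_nonneg (F.c_pos i).le (F.ok i) _ _

theorem L9cFam.vs_le {j D : ℕ} {s : ι → L14Sk D} (F : L9cFam L c s) (Γ : ι → L14Gr j D) (e : Fin j) (i : ι) :
    (Γ i).vs (c i) (s i) e ≤ 1 := ((s i).k8_split_le (F.ok i) _ _).trans (F.c_le_one i)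

/-- pair moments, refined: `O(v_e c²)` -/
theorem l9c_PMr (h3 : l14_K3) (h3p : l14_K3p) {j D : ℕ} (Γ : ι → L14Gr j D) {s : ι → L14Sk D} (F : L9cFam L c s) (e : Fin j) :
    l14ON L (fun i => (Γ i).mom (L i) (c i) (s i) {e}) (fun i => (Γ i).vs (c i) (s i) e * c i ^ 2) := by
  refine (l9c_M4 h3 h3p F (fun i => (Γ i).deg {e}) j (fun i A => (Γ i).deg_le _ A) (fun i => (Γ i).vs (c i) (s i) e)
    (F.vs_nonneg Γ e) (F.vs_le Γ e) (fun i => ((Γ i).e e).1) fun i => ?_).mono1 fun i => le_of_eq (by rw [(Γ i).nz_single])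
  rw [sum_eq_single_of_mem ((Γ i).e e).1 (by rw [mem_filter]; exact ⟨mem_univ _, Or.inl rfl⟩)]
  · rw [(Γ i).deg_single]; simp
  · intro X hX hne
    rw [(Γ i).deg_single, if_neg]
    rintro (h | h)
    · exact hne h
    · rw [mem_filter] at hX
      rcases hX.2 with h' | h'
      · exact hne h'
      · rw [h] at h'; exact lt_irrefl _ h'

/-- product of the two pair moments, refined -/
theorem l9c_PMr2 (h3 : l14_K3) (h3p : l14_K3p) {D : ℕ} (Γ : ι → L14Gr 2 D) {s : ι → L14Sk D} (F : L9cFam L c s) :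
    l14ON L (fun i => (Γ i).mom (L i) (c i) (s i) {0} * (Γ i).mom (L i) (c i) (s i) {1})
      (fun i => c i ^ 4 * min ((Γ i).vs (c i) (s i) 0) ((Γ i).vs (c i) (s i) 1)) := by
  refine ((l9c_PMr h3 h3p Γ F 0).mul (l9c_PMr h3 h3p Γ F 1)).mono1 fun i => ?_
  have a0 := F.vs_nonneg Γ 0 i
  have a1 := F.vs_nonneg Γ 1 i
  have b0 := F.vs_le Γ 0 i
  have b1 := F.vs_le Γ 1 i
  have hc := pow_nonneg (F.c_pos i).le 4
  have key : (Γ i).vs (c i) (s i) 0 * (Γ i).vs (c i) (s i) 1 ≤ min ((Γ i).vs (c i) (s i) 0) ((Γ i).vs (c i) (s i) 1) := by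
    rcases le_total ((Γ i).vs (c i) (s i) 0) ((Γ i).vs (c i) (s i) 1) with h | h
    · rw [min_eq_left h]; nlinarith
    · rw [min_eq_right h]; nlinarith
  calc (Γ i).vs (c i) (s i) 0 * c i ^ 2 * ((Γ i).vs (c i) (s i) 1 * c i ^ 2)
      = c i ^ 4 * ((Γ i).vs (c i) (s i) 0 * (Γ i).vs (c i) (s i) 1) := by ring
    _ ≤ _ := mul_le_mul_of_nonneg_left key hc

/-- the full moment, refined -/
theorem l9c_momr (h3 : l14_K3) (h3p : l14_K3p) {D : ℕ} (Γ : ι → L14Gr 2 D) {s : ι → L14Sk D} (F : L9cFam L c s)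
    (hd : ∀ i, (Γ i).Dist (c i) (s i)) :
    l14ON L (fun i => (Γ i).mom (L i) (c i) (s i) univ)
      (fun i => min ((Γ i).vs (c i) (s i) 0) ((Γ i).vs (c i) (s i) 1) * c i ^ D) := by
  choose A hA using fun i => (Γ i).dist_odd (F.ok i) (F.full i) (hd i)
  exact (l9c_M4 h3 h3p F (fun i => (Γ i).deg univ) 2 (fun i A => (Γ i).deg_le _ A)
    (fun i => min ((Γ i).vs (c i) (s i) 0) ((Γ i).vs (c i) (s i) 1)) (fun i => le_min (F.vs_nonneg Γ 0 i) (F.vs_nonneg Γ 1 i))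
    (fun i => (min_le_left _ _).trans (F.vs_le Γ 0 i)) A hA).mono1 fun i => le_of_eq (by rw [(Γ i).nz_univ])

/-- `coef = O(c^n h')`, `n ≤ 4`, `n ≤ D` -/
theorem l9c_coefr (h3 : l14_K3) (h3p : l14_K3p) {D n : ℕ} (hn : n ≤ 4) (hD : n ≤ D) (Γ : ι → L14Gr 2 D) {s : ι → L14Sk D}
    (F : L9cFam L c s) (hd : ∀ i, (Γ i).Dist (c i) (s i)) :
    l14ON L (fun i => (Γ i).coef (L i) (c i) (s i))
      (fun i => c i ^ n * min ((Γ i).vs (c i) (s i) 0) ((Γ i).vs (c i) (s i) 1)) := by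
  have hmin : ∀ i, 0 ≤ min ((Γ i).vs (c i) (s i) 0) ((Γ i).vs (c i) (s i) 1) := fun i =>
    le_min (F.vs_nonneg Γ 0 i) (F.vs_nonneg Γ 1 i)
  refine (((l9c_momr h3 h3p Γ F hd).mono1 fun i => ?_).sub ((l9c_PMr2 h3 h3p Γ F).mono1 fun i => ?_)).congr fun i => ?_
  · rw [mul_comm]
    exact mul_le_mul_of_nonneg_right (l9c_pow_le (F.c_pos i) (F.c_le_one i) hD) (hmin i)
  · exact mul_le_mul_of_nonneg_right (l9c_pow_le (F.c_pos i) (F.c_le_one i) hn) (hmin i)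
  · rw [(Γ i).coef_two, ← l9c_u2]

/-- **K8dr** -/
theorem l14_K8dr_pf (h3 : l14_K3) (h3p : l14_K3p) : l14_K8dr := by
  intro bd 𝕂 𝓕 _ _ ι D L Γ c s hc0 hc hok hfull hd
  by_cases hι : Nonempty ι
  swap
  · exact l14ON.of_false fun i => hι ⟨i⟩
  obtain ⟨i0⟩ := hι
  have hD2 : 2 ≤ D := (Γ i0).toL9.two_le_D (by omega)
  obtain rfl | hD : D = 2 ∨ 3 ≤ D := by omega
  · exact ((Γ i0).dist_two (hok i0) (hfull i0) (hd i0)).elim
  · exact l9c_coefr h3 h3p (by norm_num) hD Γ ⟨hc0, hc, hok, hfull⟩ hd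

/-- case `j = 2`, `D = 3`, refined -/
theorem l9c_C23r (h3 : l14_K3) (h3p : l14_K3p) {Γ : ι → L14Gr 2 3} {s : ι → L14Sk 3} (F : L9cFam L c s)
    (hm : ∀ i, (L i).eps ≤ c i ^ 4) (hd : ∀ i, (Γ i).Dist (c i) (s i)) :
    l14ON L (fun i => (Γ i).coef (L i) (c i) (s i)
      - (L i).re (c i ^ 3 * (Γ i).ps (c i) (s i) 1) * ((L i).chi ^ 3 * (L i).k0))
      (fun i => c i ^ 4 * min ((Γ i).vs (c i) (s i) 0) ((Γ i).vs (c i) (s i) 1)) := by
  choose A B C hA hB hC hlt hmin hps using fun i => (Γ i).cls23r (F.ok i) (F.full i) (hd i)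
  have hM := l9c_M6 F hm (fun i => (Γ i).deg univ) A B C hA hB hC hlt
  refine ((hM.mono1 fun i => le_of_eq (by rw [hmin])).sub (l9c_PMr2 h3 h3p Γ F)).congr fun i => ?_
  rw [(Γ i).coef_two, ← l9c_u2, (Γ i).mom_eq _ _ _ univ, hps]
  ring

/-- the edge weights, refined -/
theorem l9c_Rr {D : ℕ} {Γ : ι → L14Gr 2 D} {s : ι → L14Sk D} {b : ι → Fin 2 → 𝕂} {bc : ι → 𝕂}
    (H : L14Hyp L Γ c ε s b bc) {Lc : ι → 𝕂} {h' : ι → ℝ} (hh : ∀ i, 0 ≤ h' i)
    (hcoef : l14ON L (fun i => (Γ i).coef (L i) (c i) (s i)) (fun i => c i ^ 3 * h' i))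
    (hE : l14ON L (fun i => (Γ i).coef (L i) (c i) (s i) - Lc i) (fun i => c i ^ 4 * h' i)) :
    l14ON L (fun i => (∏ e, b i e) * (Γ i).coef (L i) (c i) (s i) - (L i).bo ^ 2 * Lc i)
      (fun i => c i ^ 4 * h' i + ε i * (c i * h' i)) := by
  have h1 := (H.prod_sub.mul hcoef).mono1 (A' := fun i => ε i * (c i * h' i)) fun i =>
    mul_le_mul_of_nonneg_left (mul_le_mul_of_nonneg_right (by
      simpa using l9c_pow_le (H.c_pos i) (H.fam.c_le_one i) (show 1 ≤ 3 by norm_num)) (hh i)) (H.e_nonneg i)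
  have h3 := ((l14ON_bo L).pow1 2).one_mul hE
  refine (h3.add' h1 (fun i => mul_nonneg (pow_nonneg (H.c_pos i).le 4) (hh i))
    fun i => mul_nonneg (H.e_nonneg i) (mul_nonneg (H.c_pos i).le (hh i))).congr fun i => ?_
  ring

/-- **K8r** -/
theorem l14_K8r_pf (h3 : l14_K3) (h3p : l14_K3p) : l14_K8r := by
  intro bd 𝕂 𝓕 _ _ ι D L Γ c ε h' s b bc H hd hh
  by_cases hι : Nonempty ι
  swap
  · exact l14ON.of_false fun i => hι ⟨i⟩
  obtain ⟨i0⟩ := hι
  have hD2 : 2 ≤ D := (Γ i0).toL9.two_le_D (by omega)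
  obtain rfl : h' = fun i => min ((Γ i).vs (c i) (s i) 0) ((Γ i).vs (c i) (s i) 1) := funext hh
  have hmin : ∀ i, 0 ≤ min ((Γ i).vs (c i) (s i) 0) ((Γ i).vs (c i) (s i) 1) := fun i =>
    le_min (H.fam.vs_nonneg Γ 0 i) (H.fam.vs_nonneg Γ 1 i)
  obtain rfl | rfl | hD : D = 2 ∨ D = 3 ∨ 4 ≤ D := by omega
  · exact ((Γ i0).dist_two (H.ok i0) (H.full i0) (hd i0)).elim
  · refine (l9c_Rr H hmin (l9c_coefr h3 h3p (by norm_num) le_rfl Γ H.fam hd) (l9c_C23r h3 h3p H.fam H.mesh hd)).congr fun i => ?_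
    have hma : (Γ i).ma (c i) (s i) = c i ^ 3 * (Γ i).ps (c i) (s i) 1 := by
      unfold L14Gr.ma; rw [if_neg (by norm_num), if_pos ⟨rfl, rfl⟩]
    have hmb : (Γ i).mb (c i) (s i) = 0 := by
      unfold L14Gr.mb; rw [if_neg (by norm_num), if_neg (by norm_num)]
    unfold l14X L14Calc.mono1
    rw [if_neg (by norm_num), if_pos rfl, hma, hmb, map_zero]
    ring
  · refine (l9c_Rr H (Lc := fun _ => 0) hmin (l9c_coefr h3 h3p (by norm_num) (by omega) Γ H.fam hd)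
      ((l9c_coefr h3 h3p le_rfl hD Γ H.fam hd).congr fun i => by ring)).congr fun i => ?_
    have hma : (Γ i).ma (c i) (s i) = 0 := by
      unfold L14Gr.ma; rw [if_neg (by omega), if_neg (by omega), if_neg (by norm_num), if_neg (by norm_num)]
    have hmb : (Γ i).mb (c i) (s i) = 0 := by
      unfold L14Gr.mb; rw [if_neg (by omega), if_neg (by norm_num)]
    unfold l14X
    rw [if_neg (by omega), hma, hmb, map_zero]
    ring

end refined

end Claimed.Agent.R286
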