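/-
Row 286 (S0533), package L14.      OWNER: helper242.
CLOSING FILE of the abstract part of the package: every contract of `L09/Stm.lean`, `L09/StmM.lean` is a THEOREM (no K-hypotheses left).

 §1  `l14_main_K8, _K8r, _K8d, _K8dr, _K8m, _K8mr`            the closed contracts (provers: 219 K8G, 270 K4 K5, 271 K2 K3, 274 K7 K8m, 276 K3p K4e, 242 K1 K6).
 §2  `l14_main_X`, `l14_main_Xr`                               DIRECT PATH: `ε ≤ K c²`  ⇒  `X = O(c^(6-j))`,  refined `X = O(c³ h')`.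
 §3  `l14_main_pair, _pair_r, _pair_d, _pair_dr, _pair_X, _pair_Xr`   the same read on the two references of a pair model (`L14Pair`, `L09/Hom.lean`):
       `|x_a|, |x_b| ≤ C A`, `|x_a - x_b| ≤ C δ A`  (`O_*` of LL 09 in finite difference form; food of GRID, δ = h).
 §4  `l14_fd_*`   the finite difference operator `r x_a + (x_b - x_a)/h` on a pair: remainder, monomials of the scaling table.
-/
import Claimed.Agent.R286.L09.K8G
import Claimed.Agent.R286.L09.K4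
import Claimed.Agent.R286.L09.Hom

set_option autoImplicit false

namespace Claimed.Agent.R286

/-! ### §1 the closed contracts -/

theorem l14_main_K8 : l14_K8 := l14_K8_pf l14_K2_pf l14_K3_pf l14_K3p_pf l14_K4_pf l14_K4e_pf l14_K5_pf

theorem l14_main_K8r : l14_K8r := l14_K8r_pf l14_K3_pf l14_K3p_pf

theorem l14_main_K8d : l14_K8d := l14_K8d_pf l14_K2_pf

theorem l14_main_K8dr : l14_K8dr := l14_K8dr_pf l14_K3_pf l14_K3p_pf

theorem l14_main_K8m : l14_K8m := l14_K8m_pf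

theorem l14_main_K8mr : l14_K8mr := l14_K8mr_pf

/-! ### §2 the direct path -/

section direct

variable {bd : L14Bd} {𝕂 𝓕 : Type} [CommRing 𝕂] [CommRing 𝓕] {ι : Type}

theorem l14ON_mono1 (L : ι → L14Calc bd 𝕂 𝓕) (j : ℕ) : l14ON L (fun i => (L i).mono1 j) (fun _ => 1) := by
  have hb := l14ON_bo L
  have hx := l14ON_chi L
  have hg := l14ON_gg L
  have hk := l14ON_k0 L
  unfold L14Calc.mono1
  split_ifs
  · exact ((hb.pow1 2).mul1 (hx.pow1 3)).mul1 hk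
  · exact (hb.pow1 3).mul1 (hx.pow1 3)
  · exact (hb.pow1 4).mul1 (hg.pow1 2)

theorem l14ON_mono2 (L : ι → L14Calc bd 𝕂 𝓕) (j : ℕ) : l14ON L (fun i => (L i).mono2 j) (fun _ => 1) := by
  have hb := l14ON_bo L
  have hg := l14ON_gg L
  have hk := l14ON_k0 L
  unfold L14Calc.mono2
  split_ifs
  · exact ((hb.pow1 2).mul1 (hg.pow1 2)).mul1 (hk.pow1 2)
  · exact ((hb.pow1 3).mul1 (hg.pow1 2)).mul1 hk
  · exact l14ON_zero L _

/-- **direct path**: `ε ≤ K c²` ⇒ `X = O(c^(6-j))`. -/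
theorem l14_main_X {j D : ℕ} (hj2 : 2 ≤ j) (hj4 : j ≤ 4) {L : ι → L14Calc bd 𝕂 𝓕} {Γ : ι → L14Gr j D} {c ε : ι → ℝ}
    {s : ι → L14Sk D} {b : ι → Fin j → 𝕂} {bc : ι → 𝕂} (H : L14Hyp L Γ c ε s b bc) (K : ℝ) (hK : 0 ≤ K)
    (hε : ∀ i, ε i ≤ K * c i ^ 2) :
    l14ON L (fun i => l14X (L i) (Γ i) (c i) (s i) (b i) (bc i)) (fun i => c i ^ (6 - j)) := by
  have hc1 : ∀ i, c i ≤ 1 := fun i => (H.c_le i).trans bd.c0_le
  have hp : ∀ i (n : ℕ), 0 ≤ c i ^ n := fun i n => pow_nonneg (H.c_pos i).le n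
  have h8 := l14_main_K8 bd 𝕂 𝓕 ι j D L Γ c ε s b bc hj2 hj4 H
  have hm := fun i => l14_main_K8m j D (Γ i) (c i) (s i) hj2 hj4 (H.c_pos i) (hc1 i) (H.ok i) (H.full i)
  have r1 : l14ON L (fun i => l14X (L i) (Γ i) (c i) (s i) (b i) (bc i)
        - ((L i).re ((Γ i).ma (c i) (s i)) * (L i).mono1 j + (L i).re ((Γ i).mb (c i) (s i)) * (L i).mono2 j))
      (fun i => c i ^ (6 - j)) := by
    refine h8.mono (1 + K) (by linarith) (fun i => ?_)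
    have e1 : c i ^ (7 - j) ≤ c i ^ (6 - j) := pow_le_pow_of_le_one (H.c_pos i).le (hc1 i) (by omega)
    have e2 : ε i * c i ^ (4 - j) ≤ K * c i ^ (6 - j) := by
      have : c i ^ (6 - j) = c i ^ 2 * c i ^ (4 - j) := by rw [← pow_add]; congr 1; omega
      rw [this, ← mul_assoc]
      exact mul_le_mul_of_nonneg_right (hε i) (hp i _)
    linarith
  have r2 : l14ON L (fun i => (L i).re ((Γ i).ma (c i) (s i)) * (L i).mono1 j) (fun i => c i ^ (6 - j)) :=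
    (l14ON_re_le L _ (fun i => by rw [abs_of_nonneg (hm i).1]; exact (hm i).2.1)).mul1' (l14ON_mono1 L j)
  have r3 : l14ON L (fun i => (L i).re ((Γ i).mb (c i) (s i)) * (L i).mono2 j) (fun i => c i ^ (6 - j)) :=
    (l14ON_re_le L _ (fun i => by rw [abs_of_nonneg (hm i).2.2.1]; exact (hm i).2.2.2)).mul1' (l14ON_mono2 L j)
  exact (r1.add (r2.add r3)).congr (fun i => by ring)

/-- **direct path, refined**: `j = 2`, distinct designated forks, `ε ≤ K c²` ⇒ `X = O(c³ h')`. -/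
theorem l14_main_Xr {D : ℕ} {L : ι → L14Calc bd 𝕂 𝓕} {Γ : ι → L14Gr 2 D} {c ε : ι → ℝ}
    {s : ι → L14Sk D} {b : ι → Fin 2 → 𝕂} {bc : ι → 𝕂} (H : L14Hyp L Γ c ε s b bc) (K : ℝ) (hK : 0 ≤ K)
    (hε : ∀ i, ε i ≤ K * c i ^ 2) (hd : ∀ i, (Γ i).Dist (c i) (s i)) :
    l14ON L (fun i => l14X (L i) (Γ i) (c i) (s i) (b i) (bc i))
      (fun i => c i ^ 3 * min ((Γ i).vs (c i) (s i) 0) ((Γ i).vs (c i) (s i) 1)) := by
  have hc1 : ∀ i, c i ≤ 1 := fun i => (H.c_le i).trans bd.c0_le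
  have hp : ∀ i (n : ℕ), 0 ≤ c i ^ n := fun i n => pow_nonneg (H.c_pos i).le n
  have hh0 : ∀ i, 0 ≤ min ((Γ i).vs (c i) (s i) 0) ((Γ i).vs (c i) (s i) 1) := fun i =>
    le_min (L14Sk.l14s_split_nonneg (H.c_pos i).le (H.ok i) _ _) (L14Sk.l14s_split_nonneg (H.c_pos i).le (H.ok i) _ _)
  have h8 := l14_main_K8r bd 𝕂 𝓕 ι D L Γ c ε _ s b bc H hd (fun _ => rfl)
  have hm := fun i => l14_main_K8m 2 D (Γ i) (c i) (s i) le_rfl (by norm_num) (H.c_pos i) (hc1 i) (H.ok i) (H.full i)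
  have hmr := fun i => l14_main_K8mr D (Γ i) (c i) (s i) (H.c_pos i) (hc1 i) (H.ok i) (H.full i) (hd i)
  have r1 := h8.mono (A' := fun i => c i ^ 3 * min ((Γ i).vs (c i) (s i) 0) ((Γ i).vs (c i) (s i) 1)) (1 + K)
    (by linarith) (fun i => by
      have e1 : c i ^ 4 ≤ c i ^ 3 := pow_le_pow_of_le_one (H.c_pos i).le (hc1 i) (by norm_num)
      have e2 : ε i * c i ≤ K * c i ^ 3 := by
        have : c i ^ 3 = c i ^ 2 * c i := by ring
        rw [this, ← mul_assoc]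
        exact mul_le_mul_of_nonneg_right (hε i) (H.c_pos i).le
      have f1 := mul_le_mul_of_nonneg_right e1 (hh0 i)
      have f2 := mul_le_mul_of_nonneg_right e2 (hh0 i)
      nlinarith)
  have r2 : l14ON L (fun i => (L i).re ((Γ i).ma (c i) (s i)) * (L i).mono1 2)
      (fun i => c i ^ 3 * min ((Γ i).vs (c i) (s i) 0) ((Γ i).vs (c i) (s i) 1)) :=
    (l14ON_re_le L _ (fun i => by rw [abs_of_nonneg (hm i).1]; exact (hmr i).1)).mul1' (l14ON_mono1 L 2)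
  refine (r1.add r2).congr (fun i => ?_)
  rw [(hmr i).2, map_zero]
  ring

end direct

/-! ### §3 the two references of a pair model -/

/-- `x = O_*(A)` on a pair of references at distance `δ`: values and finite difference. -/
def l14PO {ι : Type} (xa xb δ A : ι → ℝ) : Prop :=
  ∃ C : ℝ, 0 ≤ C ∧ ∀ i, |xa i| ≤ C * A i ∧ |xb i| ≤ C * A i ∧ |xa i - xb i| ≤ C * (δ i * A i)

section pair

variable {bd bda bdb : L14Bd} {𝕂 𝓕 𝓕a 𝓕b : Type} [CommRing 𝕂] [CommRing 𝓕] [CommRing 𝓕a] [CommRing 𝓕b]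
  {ι : Type} {L2 : ι → L14Calc bd 𝕂 𝓕} {La : ι → L14Calc bda ℝ 𝓕a} {Lb : ι → L14Calc bdb ℝ 𝓕b} {δ : ι → ℝ}

theorem l14PO_of_ON (P : ∀ i, L14Pair (L2 i) (La i) (Lb i) (δ i)) {x : ι → 𝕂} {A : ι → ℝ} (h : l14ON L2 x A) :
    l14PO (fun i => (P i).pa.hK (x i)) (fun i => (P i).pb.hK (x i)) δ A := l14_pair_extract P h

/-- K8 on a pair, closed. -/
theorem l14_main_pair {j D : ℕ} (hj2 : 2 ≤ j) (hj4 : j ≤ 4)
    (P : ∀ i, L14Pair (L2 i) (La i) (Lb i) (δ i)) {Γ : ι → L14Gr j D} {c ε : ι → ℝ} {s : ι → L14Sk D}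
    {b : ι → Fin j → 𝕂} {bc : ι → 𝕂} (H : L14Hyp L2 Γ c ε s b bc) :
    l14PO (fun i => l14R (La i) (Γ i) (c i) (s i) (fun e => (P i).pa.hK (b i e)) ((P i).pa.hK (bc i)))
      (fun i => l14R (Lb i) (Γ i) (c i) (s i) (fun e => (P i).pb.hK (b i e)) ((P i).pb.hK (bc i))) δ
      (fun i => c i ^ (7 - j) + ε i * c i ^ (4 - j)) :=
  l14_K8_pair l14_main_K8 hj2 hj4 P H

/-- K8r on a pair, closed. -/
theorem l14_main_pair_r {D : ℕ}
    (P : ∀ i, L14Pair (L2 i) (La i) (Lb i) (δ i)) {Γ : ι → L14Gr 2 D} {c ε : ι → ℝ} {s : ι → L14Sk D}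
    {b : ι → Fin 2 → 𝕂} {bc : ι → 𝕂} (H : L14Hyp L2 Γ c ε s b bc) (hd : ∀ i, (Γ i).Dist (c i) (s i)) :
    l14PO (fun i => l14R (La i) (Γ i) (c i) (s i) (fun e => (P i).pa.hK (b i e)) ((P i).pa.hK (bc i)))
      (fun i => l14R (Lb i) (Γ i) (c i) (s i) (fun e => (P i).pb.hK (b i e)) ((P i).pb.hK (bc i))) δ
      (fun i => c i ^ 4 * min ((Γ i).vs (c i) (s i) 0) ((Γ i).vs (c i) (s i) 1)
        + ε i * (c i * min ((Γ i).vs (c i) (s i) 0) ((Γ i).vs (c i) (s i) 1))) :=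
  l14_K8r_pair l14_main_K8r P H hd (fun _ => rfl)

/-- K8d on a pair, closed. -/
theorem l14_main_pair_d {j D : ℕ} (hj : 1 ≤ j)
    (P : ∀ i, L14Pair (L2 i) (La i) (Lb i) (δ i)) {Γ : ι → L14Gr j D} {c : ι → ℝ} {s : ι → L14Sk D}
    (hc0 : ∀ i, 0 < c i) (hc : ∀ i, c i ≤ bd.c0) (hs : ∀ i, (s i).Ok (c i))
    (hl : ∀ i, (s i).labels = Finset.univ) :
    l14PO (fun i => (Γ i).coef (La i) (c i) (s i)) (fun i => (Γ i).coef (Lb i) (c i) (s i)) δ (fun i => c i ^ 2) :=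
  l14_K8d_pair l14_main_K8d hj P hc0 hc hs hl

/-- K8dr on a pair, closed. -/
theorem l14_main_pair_dr {D : ℕ}
    (P : ∀ i, L14Pair (L2 i) (La i) (Lb i) (δ i)) {Γ : ι → L14Gr 2 D} {c : ι → ℝ} {s : ι → L14Sk D}
    (hc0 : ∀ i, 0 < c i) (hc : ∀ i, c i ≤ bd.c0) (hs : ∀ i, (s i).Ok (c i))
    (hl : ∀ i, (s i).labels = Finset.univ) (hd : ∀ i, (Γ i).Dist (c i) (s i)) :
    l14PO (fun i => (Γ i).coef (La i) (c i) (s i)) (fun i => (Γ i).coef (Lb i) (c i) (s i)) δ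
      (fun i => c i ^ 3 * min ((Γ i).vs (c i) (s i) 0) ((Γ i).vs (c i) (s i) 1)) :=
  l14_K8dr_pair l14_main_K8dr P hc0 hc hs hl hd

/-- direct path on a pair. -/
theorem l14_main_pair_X {j D : ℕ} (hj2 : 2 ≤ j) (hj4 : j ≤ 4)
    (P : ∀ i, L14Pair (L2 i) (La i) (Lb i) (δ i)) {Γ : ι → L14Gr j D} {c ε : ι → ℝ} {s : ι → L14Sk D}
    {b : ι → Fin j → 𝕂} {bc : ι → 𝕂} (H : L14Hyp L2 Γ c ε s b bc) (K : ℝ) (hK : 0 ≤ K)
    (hε : ∀ i, ε i ≤ K * c i ^ 2) :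
    l14PO (fun i => l14X (La i) (Γ i) (c i) (s i) (fun e => (P i).pa.hK (b i e)) ((P i).pa.hK (bc i)))
      (fun i => l14X (Lb i) (Γ i) (c i) (s i) (fun e => (P i).pb.hK (b i e)) ((P i).pb.hK (bc i))) δ
      (fun i => c i ^ (6 - j)) := by
  have h := l14PO_of_ON P (l14_main_X hj2 hj4 H K hK hε)
  simp only [L14Hom.X] at h
  exact h

/-- direct path on a pair, refined. -/
theorem l14_main_pair_Xr {D : ℕ}
    (P : ∀ i, L14Pair (L2 i) (La i) (Lb i) (δ i)) {Γ : ι → L14Gr 2 D} {c ε : ι → ℝ} {s : ι → L14Sk D}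
    {b : ι → Fin 2 → 𝕂} {bc : ι → 𝕂} (H : L14Hyp L2 Γ c ε s b bc) (K : ℝ) (hK : 0 ≤ K)
    (hε : ∀ i, ε i ≤ K * c i ^ 2) (hd : ∀ i, (Γ i).Dist (c i) (s i)) :
    l14PO (fun i => l14X (La i) (Γ i) (c i) (s i) (fun e => (P i).pa.hK (b i e)) ((P i).pa.hK (bc i)))
      (fun i => l14X (Lb i) (Γ i) (c i) (s i) (fun e => (P i).pb.hK (b i e)) ((P i).pb.hK (bc i))) δ
      (fun i => c i ^ 3 * min ((Γ i).vs (c i) (s i) 0) ((Γ i).vs (c i) (s i) 1)) := by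
  have h := l14PO_of_ON P (l14_main_Xr H K hK hε hd)
  simp only [L14Hom.X] at h
  exact h

end pair

/-! ### §4 the finite difference operator and the scaling table on a pair (SIGNED step `h ≠ 0`, `|h| ≤ 1`) -/

/-- finite difference form of `r + ∂_θ` at the step `h`. -/
noncomputable def l14FD (r h xa xb : ℝ) : ℝ := r * xa + (xb - xa) / h

theorem l14FD_add (r h xa xb ya yb : ℝ) : l14FD r h (xa + ya) (xb + yb) = l14FD r h xa xb + l14FD r h ya yb := by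
  unfold l14FD; ring

theorem l14FD_smul (r h m xa xb : ℝ) : l14FD r h (m * xa) (m * xb) = m * l14FD r h xa xb := by
  unfold l14FD; ring

/-- a quantity `O_*(A)` at the distance `δ`: `|r x_a + (x_b - x_a)/h| ≤ (|r| + δ/|h|) C A`. -/
theorem l14FD_rem {r h δ xa xb C A : ℝ} (hh : h ≠ 0) (ha : |xa| ≤ C * A) (hd : |xa - xb| ≤ C * (δ * A)) :
    |l14FD r h xa xb| ≤ (|r| + δ / |h|) * (C * A) := by
  unfold l14FD
  have hp : 0 < |h| := abs_pos.2 hh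
  have h1 : |r * xa| ≤ |r| * (C * A) := by
    rw [abs_mul]; exact mul_le_mul_of_nonneg_left ha (abs_nonneg r)
  have h2 : |(xb - xa) / h| ≤ δ / |h| * (C * A) := by
    rw [abs_div, div_le_iff₀ hp, abs_sub_comm]
    refine hd.trans (le_of_eq ?_)
    field_simp
  have h3 := abs_add_le (r * xa) ((xb - xa) / h)
  linarith

/-- a quantity of weight `-r` is killed up to `O(|h|) + E/|h|`. -/
theorem l14FD_scal {r h xa xb M E : ℝ} (hh : h ≠ 0) (hh1 : |h| ≤ 1) (hr0 : 0 ≤ r) (hr1 : r ≤ 1)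
    (hM : |xa| ≤ M) (hE : |xb - Real.exp (-r * h) * xa| ≤ E) : |l14FD r h xa xb| ≤ M * |h| + E / |h| := by
  have hp : 0 < |h| := abs_pos.2 hh
  have habs : |-r * h| = r * |h| := by rw [abs_mul, abs_neg, abs_of_nonneg hr0]
  have hrh1 : r * |h| ≤ 1 := by nlinarith
  have e1 : |Real.exp (-r * h) - 1 - (-r * h)| ≤ (-r * h) ^ 2 :=
    Real.abs_exp_sub_one_sub_id_le (by rw [habs]; exact hrh1)
  have e2 : (-r * h) ^ 2 ≤ |h| * |h| := by
    rw [← sq_abs, habs]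
    have : r * |h| ≤ |h| := by nlinarith
    nlinarith [mul_nonneg hr0 hp.le]
  have key : l14FD r h xa xb = xa * ((Real.exp (-r * h) - 1 - (-r * h)) / h) + (xb - Real.exp (-r * h) * xa) / h := by
    unfold l14FD
    field_simp
    ring
  rw [key]
  have f1 : |xa * ((Real.exp (-r * h) - 1 - (-r * h)) / h)| ≤ M * |h| := by
    rw [abs_mul]
    refine mul_le_mul hM ?_ (abs_nonneg _) (le_trans (abs_nonneg _) hM)
    rw [abs_div, div_le_iff₀ hp]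
    exact e1.trans e2
  have f2 : |(xb - Real.exp (-r * h) * xa) / h| ≤ E / |h| := by
    rw [abs_div]
    exact div_le_div_of_nonneg_right hE hp.le
  exact (abs_add_le _ _).trans (add_le_add f1 f2)

/-- `x = O(1)` and `x_b = e^{w h} x_a + O(η)`, uniformly. -/
def l14SC {ι : Type} (h η : ι → ℝ) (w : ℝ) (xa xb : ι → ℝ) : Prop :=
  ∃ C : ℝ, 0 ≤ C ∧ ∀ i, |xa i| ≤ C ∧ |xb i| ≤ C ∧ |xb i - Real.exp (w * h i) * xa i| ≤ C * η i

theorem l14_main_eqns_cite : True := by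
  have := @l14PO.eq_1; have := @l14FD.eq_1; have := @l14SC.eq_1
  trivial

theorem l14_exp_le {w h : ℝ} (hh1 : |h| ≤ 1) : Real.exp (w * h) ≤ Real.exp |w| := by
  apply Real.exp_le_exp.2
  have a1 : w * h ≤ |w * h| := le_abs_self _
  rw [abs_mul] at a1
  have a2 : |w| * |h| ≤ |w| * 1 := mul_le_mul_of_nonneg_left hh1 (abs_nonneg w)
  linarith

section table

variable {ι : Type} {h η : ι → ℝ} {w w' : ℝ} {xa xb ya yb : ι → ℝ}

theorem l14SC.of_eq (H : l14SC h η w xa xb) (e : w = w') : l14SC h η w' xa xb := e ▸ H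

theorem l14SC_one (h : ι → ℝ) {η : ι → ℝ} (hη : ∀ i, 0 ≤ η i) : l14SC h η 0 (fun _ => 1) (fun _ => 1) :=
  ⟨1, zero_le_one, fun i => ⟨by simp, by simp, by simpa using hη i⟩⟩

theorem l14SC.mul (hh1 : ∀ i, |h i| ≤ 1) (hη : ∀ i, 0 ≤ η i)
    (H : l14SC h η w xa xb) (H' : l14SC h η w' ya yb) :
    l14SC h η (w + w') (fun i => xa i * ya i) (fun i => xb i * yb i) := by
  obtain ⟨C, hC, hx⟩ := H
  obtain ⟨C', hC', hy⟩ := H'
  have hE : 0 < Real.exp |w| := Real.exp_pos _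
  have hCC := mul_nonneg hC hC'
  refine ⟨C * C' * (1 + Real.exp |w|), mul_nonneg hCC (by linarith), fun i => ?_⟩
  obtain ⟨x1, x2, x3⟩ := hx i
  obtain ⟨y1, y2, y3⟩ := hy i
  have hle : C * C' ≤ C * C' * (1 + Real.exp |w|) := by nlinarith
  refine ⟨?_, ?_, ?_⟩
  · rw [abs_mul]; exact (mul_le_mul x1 y1 (abs_nonneg _) hC).trans hle
  · rw [abs_mul]; exact (mul_le_mul x2 y2 (abs_nonneg _) hC).trans hle
  · have hexp : Real.exp (w * h i) ≤ Real.exp |w| := l14_exp_le (hh1 i)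
    have key : xb i * yb i - Real.exp ((w + w') * h i) * (xa i * ya i)
        = (xb i - Real.exp (w * h i) * xa i) * yb i
          + Real.exp (w * h i) * xa i * (yb i - Real.exp (w' * h i) * ya i) := by
      rw [add_mul, Real.exp_add]; ring
    rw [key]
    have g1 : |(xb i - Real.exp (w * h i) * xa i) * yb i| ≤ C * η i * C' := by
      rw [abs_mul]; exact mul_le_mul x3 y2 (abs_nonneg _) (mul_nonneg hC (hη i))
    have g2 : |Real.exp (w * h i) * xa i * (yb i - Real.exp (w' * h i) * ya i)| ≤ Real.exp |w| * C * (C' * η i) := by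
      rw [abs_mul, abs_mul, abs_of_pos (Real.exp_pos _)]
      exact mul_le_mul (mul_le_mul hexp x1 (abs_nonneg _) hE.le) y3 (abs_nonneg _) (mul_nonneg hE.le hC)
    have := abs_add_le ((xb i - Real.exp (w * h i) * xa i) * yb i)
      (Real.exp (w * h i) * xa i * (yb i - Real.exp (w' * h i) * ya i))
    calc _ ≤ C * η i * C' + Real.exp |w| * C * (C' * η i) := this.trans (add_le_add g1 g2)
      _ = C * C' * (1 + Real.exp |w|) * η i := by ring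

theorem l14SC.pow (hh1 : ∀ i, |h i| ≤ 1) (hη : ∀ i, 0 ≤ η i) (H : l14SC h η w xa xb) (n : ℕ) :
    l14SC h η (n * w) (fun i => xa i ^ n) (fun i => xb i ^ n) := by
  induction n with
  | zero => simpa using l14SC_one h hη
  | succ n ih =>
    have := (l14SC.mul hh1 hη ih H).of_eq (w' := ((n + 1 : ℕ) : ℝ) * w) (by push_cast; ring)
    simpa [pow_succ] using this

/-- `b∘ = χ⁻²` has the weight `-2 w`. -/
theorem l14SC.inv_sq (hh1 : ∀ i, |h i| ≤ 1) (hη : ∀ i, 0 ≤ η i)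
    (H : l14SC h η w xa xb) {C0 : ℝ} (ha : ∀ i, |ya i| ≤ C0) (hb : ∀ i, |yb i| ≤ C0)
    (ea : ∀ i, ya i * xa i ^ 2 = 1) (eb : ∀ i, yb i * xb i ^ 2 = 1) :
    l14SC h η (-(2 * w)) ya yb := by
  obtain ⟨C, hC, hx⟩ := H.pow hh1 hη 2
  by_cases hι : Nonempty ι
  swap
  · exact ⟨0, le_rfl, fun i => absurd ⟨i⟩ hι⟩
  obtain ⟨i0⟩ := hι
  have hC0 : 0 ≤ C0 := le_trans (abs_nonneg _) (ha i0)
  have hE : 0 < Real.exp |-(2 * w)| := Real.exp_pos _
  refine ⟨C0 + Real.exp |-(2 * w)| * (C0 * C0) * C, by positivity, fun i => ?_⟩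
  have hpos : 0 ≤ Real.exp |-(2 * w)| * (C0 * C0) * C := by positivity
  refine ⟨(ha i).trans (by linarith), (hb i).trans (by linarith), ?_⟩
  obtain ⟨-, -, x3⟩ := hx i
  have hexp : Real.exp (-(2 * w) * h i) ≤ Real.exp |-(2 * w)| := l14_exp_le (hh1 i)
  have hinv : Real.exp (-(2 * w) * h i) * Real.exp (((2 : ℕ) : ℝ) * w * h i) = 1 := by
    rw [← Real.exp_add]; simp
  have key : yb i - Real.exp (-(2 * w) * h i) * ya i
      = - (Real.exp (-(2 * w) * h i) * (ya i * yb i) * (xb i ^ 2 - Real.exp (((2 : ℕ) : ℝ) * w * h i) * xa i ^ 2)) := by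
    have t1 : Real.exp (-(2 * w) * h i) * (ya i * yb i) * (xb i ^ 2 - Real.exp (((2 : ℕ) : ℝ) * w * h i) * xa i ^ 2)
        = Real.exp (-(2 * w) * h i) * ya i * (yb i * xb i ^ 2)
          - (Real.exp (-(2 * w) * h i) * Real.exp (((2 : ℕ) : ℝ) * w * h i)) * yb i * (ya i * xa i ^ 2) := by ring
    rw [t1, ea, eb, hinv]; ring
  rw [key, abs_neg, abs_mul, abs_mul, abs_mul, abs_of_pos (Real.exp_pos _)]
  have g1 : Real.exp (-(2 * w) * h i) * (|ya i| * |yb i|) ≤ Real.exp |-(2 * w)| * (C0 * C0) :=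
    mul_le_mul hexp (mul_le_mul (ha i) (hb i) (abs_nonneg _) hC0) (by positivity) hE.le
  have g2 := mul_le_mul g1 x3 (abs_nonneg _) (by positivity)
  have g3 : 0 ≤ C0 * η i := mul_nonneg hC0 (hη i)
  calc _ ≤ Real.exp |-(2 * w)| * (C0 * C0) * (C * η i) := g2
    _ ≤ (C0 + Real.exp |-(2 * w)| * (C0 * C0) * C) * η i := by nlinarith

end table

/-- the scaling relations (E6) at the SIGNED step `h`, up to `η` (`χ`: weight `1/6`, `g`: `1/2`, `k_0`: `-1/2`). -/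
structure L14E6 {bda bdb : L14Bd} {𝓕a 𝓕b : Type} [CommRing 𝓕a] [CommRing 𝓕b] {ι : Type}
    (La : ι → L14Calc bda ℝ 𝓕a) (Lb : ι → L14Calc bdb ℝ 𝓕b) (h η : ι → ℝ) : Prop where
  h_ne : ∀ i, h i ≠ 0
  h_le : ∀ i, |h i| ≤ 1
  eta_nonneg : ∀ i, 0 ≤ η i
  chi : ∀ i, |(Lb i).chi - Real.exp (1 / 6 * h i) * (La i).chi| ≤ η i
  gg : ∀ i, |(Lb i).gg - Real.exp (1 / 2 * h i) * (La i).gg| ≤ η i
  k0 : ∀ i, |(Lb i).k0 - Real.exp (-(1 / 2) * h i) * (La i).k0| ≤ η i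

theorem L14Calc.re_real {bd : L14Bd} {𝓕 : Type} [CommRing 𝓕] (L : L14Calc bd ℝ 𝓕) (x : ℝ) : L.re x = x := by
  have := Subsingleton.elim L.re (RingHom.id ℝ)
  rw [this]; rfl

section fdmain

variable {bd bda bdb : L14Bd} {𝕂 𝓕 𝓕a 𝓕b : Type} [CommRing 𝕂] [CommRing 𝓕] [CommRing 𝓕a] [CommRing 𝓕b]
  {ι : Type} {L2 : ι → L14Calc bd 𝕂 𝓕} {La : ι → L14Calc bda ℝ 𝓕a} {Lb : ι → L14Calc bdb ℝ 𝓕b} {h η δ : ι → ℝ}

theorem l14SC_of_pair (P : ∀ i, L14Pair (L2 i) (La i) (Lb i) (δ i)) {x : ι → 𝕂} (hx : l14ON L2 x (fun _ => 1))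
    {w : ℝ} (hη : ∀ i, 0 ≤ η i)
    (e : ∀ i, |(P i).pb.hK (x i) - Real.exp (w * h i) * (P i).pa.hK (x i)| ≤ η i) :
    l14SC h η w (fun i => (P i).pa.hK (x i)) (fun i => (P i).pb.hK (x i)) := by
  obtain ⟨C, hC, hB⟩ := l14PO_of_ON P hx
  refine ⟨C + 1, by linarith, fun i => ?_⟩
  obtain ⟨b1, b2, -⟩ := hB i
  refine ⟨by linarith, by linarith, (e i).trans ?_⟩
  nlinarith [hη i]

/-- the four jets on a pair. -/
theorem l14SC_jets (P : ∀ i, L14Pair (L2 i) (La i) (Lb i) (δ i)) (E : L14E6 La Lb h η) :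
    l14SC h η (1 / 6) (fun i => (La i).chi) (fun i => (Lb i).chi) ∧
    l14SC h η (1 / 2) (fun i => (La i).gg) (fun i => (Lb i).gg) ∧
    l14SC h η (-(1 / 2)) (fun i => (La i).k0) (fun i => (Lb i).k0) ∧
    l14SC h η (-(1 / 3)) (fun i => (La i).bo) (fun i => (Lb i).bo) := by
  have s1 : l14SC h η (1 / 6) (fun i => (La i).chi) (fun i => (Lb i).chi) := by
    have := l14SC_of_pair (h := h) (w := 1 / 6) P (l14ON_chi L2) E.eta_nonneg (fun i => by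
      rw [(P i).pa.chi, (P i).pb.chi]; exact E.chi i)
    simpa only [L14Hom.chi] using this
  have s2 : l14SC h η (1 / 2) (fun i => (La i).gg) (fun i => (Lb i).gg) := by
    have := l14SC_of_pair (h := h) (w := 1 / 2) P (l14ON_gg L2) E.eta_nonneg (fun i => by
      rw [(P i).pa.gg, (P i).pb.gg]; exact E.gg i)
    simpa only [L14Hom.gg] using this
  have s3 : l14SC h η (-(1 / 2)) (fun i => (La i).k0) (fun i => (Lb i).k0) := by
    have := l14SC_of_pair (h := h) (w := -(1 / 2)) P (l14ON_k0 L2) E.eta_nonneg (fun i => by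
      rw [(P i).pa.k0, (P i).pb.k0]; exact E.k0 i)
    simpa only [L14Hom.k0] using this
  refine ⟨s1, s2, s3, ?_⟩
  obtain ⟨C, hC, hB⟩ := l14PO_of_ON P (l14ON_bo L2)
  have := s1.inv_sq E.h_le E.eta_nonneg (C0 := C * 1) (ya := fun i => (La i).bo)
    (yb := fun i => (Lb i).bo) (fun i => by have := (hB i).1; simp only [(P i).pa.bo] at this; exact this)
    (fun i => by have := (hB i).2.1; simp only [(P i).pb.bo] at this; exact this) (fun i => (La i).bo_mul) (fun i => (Lb i).bo_mul)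
  exact this.of_eq (by norm_num)

theorem l14SC_zero (h : ι → ℝ) (η : ι → ℝ) (w : ℝ) : l14SC h η w (fun _ => 0) (fun _ => 0) :=
  ⟨0, le_rfl, fun i => by simp⟩

/-- **the scaling table on a pair**: the five monomials have the weight `-(1 - j/6)`. -/
theorem l14SC_mono (P : ∀ i, L14Pair (L2 i) (La i) (Lb i) (δ i)) (E : L14E6 La Lb h η) {j : ℕ} (hj2 : 2 ≤ j)
    (hj4 : j ≤ 4) :
    l14SC h η (-(1 - (j : ℝ) / 6)) (fun i => (La i).mono1 j) (fun i => (Lb i).mono1 j) ∧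
    l14SC h η (-(1 - (j : ℝ) / 6)) (fun i => (La i).mono2 j) (fun i => (Lb i).mono2 j) := by
  obtain ⟨sx, sg, sk, sb⟩ := l14SC_jets P E
  have m := fun {w w' : ℝ} {xa xb ya yb : ι → ℝ} => @l14SC.mul ι h η w w' xa xb ya yb E.h_le E.eta_nonneg
  have p := fun {w : ℝ} {xa xb : ι → ℝ} => @l14SC.pow ι h η w xa xb E.h_le E.eta_nonneg
  interval_cases j
  · refine ⟨?_, ?_⟩
    · have := (m (m (p sb 2) (p sx 3)) sk).of_eq (w' := -(1 - ((2 : ℕ) : ℝ) / 6)) (by push_cast; norm_num)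
      simpa [L14Calc.mono1] using this
    · have := (m (m (p sb 2) (p sg 2)) (p sk 2)).of_eq (w' := -(1 - ((2 : ℕ) : ℝ) / 6)) (by push_cast; norm_num)
      simpa [L14Calc.mono2] using this
  · refine ⟨?_, ?_⟩
    · have := (m (p sb 3) (p sx 3)).of_eq (w' := -(1 - ((3 : ℕ) : ℝ) / 6)) (by push_cast; norm_num)
      simpa [L14Calc.mono1] using this
    · have := (m (m (p sb 3) (p sg 2)) sk).of_eq (w' := -(1 - ((3 : ℕ) : ℝ) / 6)) (by push_cast; norm_num)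
      simpa [L14Calc.mono2] using this
  · refine ⟨?_, ?_⟩
    · have := (m (p sb 4) (p sg 2)).of_eq (w' := -(1 - ((4 : ℕ) : ℝ) / 6)) (by push_cast; norm_num)
      simpa [L14Calc.mono1] using this
    · simpa [L14Calc.mono2] using l14SC_zero h η (-(1 - ((4 : ℕ) : ℝ) / 6))

end fdmain

theorem l14X_eq_R {bd : L14Bd} {𝓕 : Type} [CommRing 𝓕] {j D : ℕ} (L : L14Calc bd ℝ 𝓕) (Γ : L14Gr j D) (c : ℝ)
    (s : L14Sk D) (b : Fin j → ℝ) (bc : ℝ) :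
    l14X L Γ c s b bc = l14R L Γ c s b bc + (Γ.ma c s * L.mono1 j + Γ.mb c s * L.mono2 j) := by
  unfold l14R
  rw [L.re_real, L.re_real]
  ring

/-- one instance of the finite difference step. -/
theorem l14FD_step {r h Ra Rb ma mb m1a m1b m2a m2b C1 C2 C3 A η Q : ℝ} (hh : h ≠ 0) (hh1 : |h| ≤ 1) (hr0 : 0 ≤ r)
    (hr1 : r ≤ 1) (hC1 : 0 ≤ C1) (hC2 : 0 ≤ C2) (hC3 : 0 ≤ C3) (hη : 0 ≤ η) (hA : 0 ≤ A)
    (ha : |Ra| ≤ C1 * A) (hd : |Ra - Rb| ≤ C1 * (|h| * A))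
    (h1 : |m1a| ≤ C2) (h1' : |m1b - Real.exp (-r * h) * m1a| ≤ C2 * η)
    (h2 : |m2a| ≤ C3) (h2' : |m2b - Real.exp (-r * h) * m2a| ≤ C3 * η)
    (hma : |ma| ≤ Q) (hmb : |mb| ≤ Q) :
    |l14FD r h (Ra + (ma * m1a + mb * m2a)) (Rb + (ma * m1b + mb * m2b))|
      ≤ (2 * C1 + C2 + C3) * (A + Q * (|h| + η / |h|)) := by
  rw [l14FD_add, l14FD_add, l14FD_smul, l14FD_smul]
  have hp : 0 < |h| := abs_pos.2 hh
  have hQ : 0 ≤ Q := le_trans (abs_nonneg _) hma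
  have hCA : 0 ≤ C1 * A := mul_nonneg hC1 hA
  have hq : 0 ≤ |h| + η / |h| := add_nonneg hp.le (div_nonneg hη hp.le)
  have e0 : |l14FD r h Ra Rb| ≤ 2 * (C1 * A) := by
    refine (l14FD_rem hh ha hd).trans ?_
    rw [abs_of_nonneg hr0, div_self hp.ne']
    nlinarith
  have e1 : |l14FD r h m1a m1b| ≤ C2 * (|h| + η / |h|) := by
    refine (l14FD_scal hh hh1 hr0 hr1 h1 h1').trans (le_of_eq ?_)
    ring
  have e2 : |l14FD r h m2a m2b| ≤ C3 * (|h| + η / |h|) := by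
    refine (l14FD_scal hh hh1 hr0 hr1 h2 h2').trans (le_of_eq ?_)
    ring
  have f1 : |ma * l14FD r h m1a m1b| ≤ Q * (C2 * (|h| + η / |h|)) := by
    rw [abs_mul]; exact mul_le_mul hma e1 (abs_nonneg _) hQ
  have f2 : |mb * l14FD r h m2a m2b| ≤ Q * (C3 * (|h| + η / |h|)) := by
    rw [abs_mul]; exact mul_le_mul hmb e2 (abs_nonneg _) hQ
  have t1 := abs_add_le (l14FD r h Ra Rb) (ma * l14FD r h m1a m1b + mb * l14FD r h m2a m2b)
  have t2 := abs_add_le (ma * l14FD r h m1a m1b) (mb * l14FD r h m2a m2b)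
  have hQq : 0 ≤ Q * (|h| + η / |h|) := mul_nonneg hQ hq
  have z1 : 0 ≤ (C2 + C3) * A := mul_nonneg (add_nonneg hC2 hC3) hA
  have z2 : 0 ≤ 2 * C1 * (Q * (|h| + η / |h|)) := mul_nonneg (by linarith) hQq
  calc _ ≤ 2 * (C1 * A) + (Q * (C2 * (|h| + η / |h|)) + Q * (C3 * (|h| + η / |h|))) := by linarith
    _ ≤ (2 * C1 + C2 + C3) * (A + Q * (|h| + η / |h|)) := by nlinarith

section fdmain2

variable {bd bda bdb : L14Bd} {𝕂 𝓕 𝓕a 𝓕b : Type} [CommRing 𝕂] [CommRing 𝓕] [CommRing 𝓕a] [CommRing 𝓕b]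
  {ι : Type} {L2 : ι → L14Calc bd 𝕂 𝓕} {La : ι → L14Calc bda ℝ 𝓕a} {Lb : ι → L14Calc bdb ℝ 𝓕b} {h η : ι → ℝ}

/-- **SIZE PATH: (E4) in finite difference form.**   `(1 - j/6) X_a + (X_b - X_a)/h = O(c^(7-j) + ε c^(4-j) + c^(6-j) (|h| + η/|h|))`. -/
theorem l14_fd_main {j D : ℕ} (hj2 : 2 ≤ j) (hj4 : j ≤ 4) (P : ∀ i, L14Pair (L2 i) (La i) (Lb i) |h i|)
    (E : L14E6 La Lb h η) {Γ : ι → L14Gr j D} {c ε : ι → ℝ} {s : ι → L14Sk D} {b : ι → Fin j → 𝕂} {bc : ι → 𝕂}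
    (H : L14Hyp L2 Γ c ε s b bc) :
    ∃ C : ℝ, 0 ≤ C ∧ ∀ i,
      |l14FD (1 - (j : ℝ) / 6) (h i)
          (l14X (La i) (Γ i) (c i) (s i) (fun e => (P i).pa.hK (b i e)) ((P i).pa.hK (bc i)))
          (l14X (Lb i) (Γ i) (c i) (s i) (fun e => (P i).pb.hK (b i e)) ((P i).pb.hK (bc i)))|
        ≤ C * (c i ^ (7 - j) + ε i * c i ^ (4 - j) + c i ^ (6 - j) * (|h i| + η i / |h i|)) := by
  obtain ⟨C1, hC1, hR⟩ := l14_main_pair hj2 hj4 P H
  obtain ⟨⟨C2, hC2, h1⟩, ⟨C3, hC3, h2⟩⟩ := l14SC_mono P E hj2 hj4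
  have hj2' : (2 : ℝ) ≤ j := by exact_mod_cast hj2
  have hj4' : (j : ℝ) ≤ 4 := by exact_mod_cast hj4
  refine ⟨2 * C1 + C2 + C3, by positivity, fun i => ?_⟩
  have hc1 : c i ≤ 1 := (H.c_le i).trans bd.c0_le
  have hp : ∀ n : ℕ, 0 ≤ c i ^ n := fun n => pow_nonneg (H.c_pos i).le n
  obtain ⟨m1, m2, m3, m4⟩ := l14_main_K8m j D (Γ i) (c i) (s i) hj2 hj4 (H.c_pos i) hc1 (H.ok i) (H.full i)
  rw [l14X_eq_R, l14X_eq_R]
  exact l14FD_step (E.h_ne i) (E.h_le i) (by linarith) (by linarith) hC1 hC2 hC3 (E.eta_nonneg i)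
    (add_nonneg (hp _) (mul_nonneg (H.e_nonneg i) (hp _))) (hR i).1 (hR i).2.2 (h1 i).1 (h1 i).2.2 (h2 i).1 (h2 i).2.2
    (by rw [abs_of_nonneg m1]; exact m2) (by rw [abs_of_nonneg m3]; exact m4)

/-- **SIZE PATH, refined** (`j = 2`, distinct designated forks, `h' = min (vs 0) (vs 1)`). -/
theorem l14_fd_main_r {D : ℕ} (P : ∀ i, L14Pair (L2 i) (La i) (Lb i) |h i|)
    (E : L14E6 La Lb h η) {Γ : ι → L14Gr 2 D} {c ε : ι → ℝ} {s : ι → L14Sk D} {b : ι → Fin 2 → 𝕂} {bc : ι → 𝕂}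
    (H : L14Hyp L2 Γ c ε s b bc) (hd : ∀ i, (Γ i).Dist (c i) (s i)) :
    ∃ C : ℝ, 0 ≤ C ∧ ∀ i,
      |l14FD (1 - ((2 : ℕ) : ℝ) / 6) (h i)
          (l14X (La i) (Γ i) (c i) (s i) (fun e => (P i).pa.hK (b i e)) ((P i).pa.hK (bc i)))
          (l14X (Lb i) (Γ i) (c i) (s i) (fun e => (P i).pb.hK (b i e)) ((P i).pb.hK (bc i)))|
        ≤ C * (c i ^ 4 * min ((Γ i).vs (c i) (s i) 0) ((Γ i).vs (c i) (s i) 1)
            + ε i * (c i * min ((Γ i).vs (c i) (s i) 0) ((Γ i).vs (c i) (s i) 1))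
            + c i ^ 3 * min ((Γ i).vs (c i) (s i) 0) ((Γ i).vs (c i) (s i) 1) * (|h i| + η i / |h i|)) := by
  obtain ⟨C1, hC1, hR⟩ := l14_main_pair_r P H hd
  obtain ⟨⟨C2, hC2, h1⟩, ⟨C3, hC3, h2⟩⟩ := l14SC_mono P E (j := 2) le_rfl (by norm_num)
  refine ⟨2 * C1 + C2 + C3, by positivity, fun i => ?_⟩
  have hc1 : c i ≤ 1 := (H.c_le i).trans bd.c0_le
  have hp : ∀ n : ℕ, 0 ≤ c i ^ n := fun n => pow_nonneg (H.c_pos i).le n
  have hh0 : 0 ≤ min ((Γ i).vs (c i) (s i) 0) ((Γ i).vs (c i) (s i) 1) :=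
    le_min (L14Sk.l14s_split_nonneg (H.c_pos i).le (H.ok i) _ _) (L14Sk.l14s_split_nonneg (H.c_pos i).le (H.ok i) _ _)
  obtain ⟨m1, -, -, -⟩ := l14_main_K8m 2 D (Γ i) (c i) (s i) le_rfl (by norm_num) (H.c_pos i) hc1 (H.ok i) (H.full i)
  obtain ⟨r1, r2⟩ := l14_main_K8mr D (Γ i) (c i) (s i) (H.c_pos i) hc1 (H.ok i) (H.full i) (hd i)
  rw [l14X_eq_R, l14X_eq_R]
  exact l14FD_step (E.h_ne i) (E.h_le i) (by norm_num) (by norm_num) hC1 hC2 hC3 (E.eta_nonneg i)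
    (add_nonneg (mul_nonneg (hp _) hh0) (mul_nonneg (H.e_nonneg i) (mul_nonneg (H.c_pos i).le hh0)))
    (hR i).1 (hR i).2.2 (h1 i).1 (h1 i).2.2 (h2 i).1 (h2 i).2.2
    (by rw [abs_of_nonneg m1]; exact r1) (by rw [r2, abs_zero]; exact mul_nonneg (hp _) hh0)

/-- a quantity `O_*(A)` on a pair at the distance `δ`, under the finite difference operator. -/
theorem l14PO.fd {xa xb δ A : ι → ℝ} (H : l14PO xa xb δ A) (r : ℝ) (hh : ∀ i, h i ≠ 0) :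
    ∃ C : ℝ, 0 ≤ C ∧ ∀ i, |l14FD r (h i) (xa i) (xb i)| ≤ C * ((|r| + δ i / |h i|) * A i) := by
  obtain ⟨C, hC, hB⟩ := H
  refine ⟨C, hC, fun i => (l14FD_rem (hh i) (hB i).1 (hB i).2.2).trans (le_of_eq ?_)⟩
  ring

end fdmain2

end Claimed.Agent.R286
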