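/-
Row 286 (S0533), unit L09, node **E4 PRODUCER** (= use site of the package L14).      OWNER / HEAD: helper242 (ruling of 60, 04:50Z).      Prefix `l9u`, `L9u`.
TARGET: `L9Q.E4`, `L9cE4S`, `L9cE4D` of `L09/RedC.lean` (282) = LL Prop. 9.2 (E4) on the REAL grouped coefficients `l9rB (l9aTab N (2n)) (Q.Ht n R) (2n) c sk`.
TEX[LL:exp:prop-low-coefficients]

ROUTE, one skeleton `sk` at the cut of depth `c` (mass `m_c`), all the designated splits `< c`: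
  on the fibre `τ ∧ c = sk`:   `cf_{t'} n R τ = y_{t'}(τ) * Df(t')`,   `y = Kap * ∏_{i ∈ R} b(v_i)` (`l9uy`), `Df = ∏_{i ∉ R} d(v_i)` (`l9uDf`), `v_i = sk (2i) (2i+1)`;
  LEIBNIZ, exact (`l9u_B_eq`):      `B_c(sk) = Df(t) * ∑ (ρ Ht° + Hd°) + Df'(t) * ∑ Ht°`,      `Ht° = l9uHt`, `Hd° = l9uHd` = the flat coefficient WITHOUT defect factors (value, dotted number);
  `|Df| + |Df'| ≤ ∏_{i ∉ R} (|d| + |ḋ|)`      (`l9u_prod_deriv`);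
  LC1 + KEY (276 `L09/Lc1`, 219, 285):  `∑ Ht°_{t'} = W * l14X L Γ m_c s b° bc` at `t' = t` (model `La`) and `t' = t + h` (model `Lb`), `b° = b` on `R`, `1` off `R` (`l9u_lc1`);      SKW (276): `l9l_W_le`;
  (M°) (263):  `|∑ (Ht°_{t+h} - Ht°_t - h Hd°)| ≤ |h| η Vol`;      then `∑ (ρ Ht° + Hd°) = W * l14FD ρ h X_a X_b + O(η Vol)` (`l9u_glue`, `l9u_fd`) and `L09/Main.lean` bounds `l14FD`.
§1 real numbers | §2 the fibre algebra | §3 the point of the package L14 (`L9uPt`) and the uniform bounds | §4 the link record `L9uLk` and (E4) at one skeleton | §5 `Q.E4` | §6 the physical supplies.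
-/
import Claimed.Agent.R286.L09.RedC
import Claimed.Agent.R286.L09.Main
import Claimed.Agent.R286.L09.Lc1

set_option autoImplicit false

namespace Claimed.Agent.R286

open scoped BigOperators Nat

/-! ## 1. real numbers -/

/-- scalar form of the glue: LC at the two parameters + (M) + SKW + bound of the finite difference. -/
theorem l9u_glue {F0 F1 F' W X0 X1 ρ h η E CW Vol : ℝ} (hh : h ≠ 0) (hCW : 0 ≤ CW) (hVol : 0 ≤ Vol)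
    (h0 : F0 = W * X0) (h1 : F1 = W * X1) (hM : |F1 - F0 - h * F'| ≤ |h| * (η * Vol)) (hW : |W| ≤ CW * Vol)
    (hX : |l14FD ρ h X0 X1| ≤ E) : |ρ * F0 + F'| ≤ (CW * E + η) * Vol := by
  have hp : 0 < |h| := abs_pos.2 hh
  have key : ρ * F0 + F' = W * l14FD ρ h X0 X1 - (F1 - F0 - h * F') / h := by
    rw [h0, h1]; unfold l14FD; field_simp; ring
  have e1 : |W * l14FD ρ h X0 X1| ≤ CW * Vol * E := by
    rw [abs_mul]; exact mul_le_mul hW hX (abs_nonneg _) (mul_nonneg hCW hVol)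
  have e2 : |(F1 - F0 - h * F') / h| ≤ η * Vol := by
    rw [abs_div, div_le_iff₀ hp]; linarith
  rw [key]
  calc _ ≤ |W * l14FD ρ h X0 X1| + |(F1 - F0 - h * F') / h| := abs_sub _ _
    _ ≤ CW * Vol * E + η * Vol := add_le_add e1 e2
    _ = _ := by ring

/-- a finite product and its derivative -/
theorem l9u_prod_deriv (s : Finset ℕ) (f : ℕ → ℝ → ℝ) (t : ℝ) (hf : ∀ i ∈ s, DifferentiableAt ℝ (f i) t) :
    DifferentiableAt ℝ (fun t' => ∏ i ∈ s, f i t') t ∧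
    |∏ i ∈ s, f i t| + |deriv (fun t' => ∏ i ∈ s, f i t') t| ≤ ∏ i ∈ s, (|f i t| + |deriv (f i) t|) := by
  classical
  induction s using Finset.induction_on with
  | empty => simp
  | insert a s ha ih =>
    obtain ⟨d1, b1⟩ := ih (fun i hi => hf i (Finset.mem_insert_of_mem hi))
    have da := hf a (Finset.mem_insert_self a s)
    have e : (fun t' => ∏ i ∈ insert a s, f i t') = fun t' => f a t' * ∏ i ∈ s, f i t' := by
      funext t'; rw [Finset.prod_insert ha]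
    rw [e, Finset.prod_insert ha, Finset.prod_insert ha]
    refine ⟨da.mul d1, ?_⟩
    have hd : deriv (fun t' => f a t' * ∏ i ∈ s, f i t') t
        = deriv (f a) t * ∏ i ∈ s, f i t + f a t * deriv (fun t' => ∏ i ∈ s, f i t') t := deriv_fun_mul da d1
    rw [hd]
    have t1 := abs_add_le (deriv (f a) t * ∏ i ∈ s, f i t) (f a t * deriv (fun t' => ∏ i ∈ s, f i t') t)
    rw [abs_mul, abs_mul] at t1
    rw [abs_mul]
    have n1 := abs_nonneg (f a t)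
    have n2 := abs_nonneg (deriv (f a) t)
    have n3 := abs_nonneg (∏ i ∈ s, f i t)
    have n4 := abs_nonneg (deriv (fun t' => ∏ i ∈ s, f i t') t)
    have t2 := mul_le_mul_of_nonneg_left b1 (add_nonneg n1 n2)
    nlinarith [mul_nonneg n2 n4]

/-- `|d B1 + d' B0| ≤ (|d| + |d'|) max` -/
theorem l9u_comb {d d' B1 B0 P M : ℝ} (hP : |d| + |d'| ≤ P) (h1 : |B1| ≤ M) (h0 : |B0| ≤ M) : |d * B1 + d' * B0| ≤ P * M := by
  have hM : 0 ≤ M := (abs_nonneg _).trans h1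
  have e1 : |d * B1| ≤ |d| * M := by rw [abs_mul]; exact mul_le_mul_of_nonneg_left h1 (abs_nonneg _)
  have e2 : |d' * B0| ≤ |d'| * M := by rw [abs_mul]; exact mul_le_mul_of_nonneg_left h0 (abs_nonneg _)
  calc _ ≤ |d * B1| + |d' * B0| := abs_add_le _ _
    _ ≤ (|d| + |d'|) * M := by linarith
    _ ≤ P * M := mul_le_mul_of_nonneg_right hP hM

/-! ## 2. the fibre algebra -/

section ctx
variable {S : Type}

/-- the context with the same laws and the same `b`, and `d ≡ 1` (a device: LC1 of 276 is applied to it) -/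
def l9uOne (Y : JtCtx S) : JtCtx S := { Y with hC := fun v => 1 + Y.KC v - Y.bC v * Y.qC v }

/-- the coefficient WITHOUT the defect factors -/
noncomputable def l9uy (Y : JtCtx S) (n : ℕ) (R : Finset ℕ) (τ : JtTopo) : ℝ :=
  Y.Kap (2 * n) 0 τ (Finset.range n) * ∏ i ∈ R, Y.bC (τ (2 * i) (2 * i + 1))

/-- the total flat coefficient without the defect factors: VALUE at the context `Y` -/
noncomputable def l9uHt (ms : ℕ → ℝ) (N : ℕ) (Y : JtCtx S) (n : ℕ) (R : Finset ℕ) (τ : JtTopo) : ℝ :=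
  l9lA ms N n τ * l9uy Y n R τ + if n = 2 ∧ R = {0, 1} then l9lHq ms N Y τ else 0

/-- the total flat coefficient without the defect factors: DOTTED NUMBER along the family `Yf`, at `t` -/
noncomputable def l9uHd (ms : ℕ → ℝ) (N : ℕ) (Yf : ℝ → JtCtx S) (t : ℝ) (n : ℕ) (R : Finset ℕ) (τ : JtTopo) : ℝ :=
  l9lA ms N n τ * deriv (fun t' => l9uy (Yf t') n R τ) t
    + if n = 2 ∧ R = {0, 1} then l9lAq ms N τ * deriv (fun t' => (Yf t').bC (τ 0 1)) t else 0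

/-- the edge weights without the defect factors: `b` on `R`, `1` off `R` -/
def l9uB (Y : JtCtx S) (sk : JtTopo) (R : Finset ℕ) {j : ℕ} (i : Fin j) : ℝ :=
  if (i : ℕ) ∈ R then Y.bC (sk (2 * i) (2 * i + 1)) else 1

/-- the product of the defect factors on the skeleton -/
def l9uDf (Yf : ℝ → JtCtx S) (n : ℕ) (R : Finset ℕ) (sk : JtTopo) (t' : ℝ) : ℝ :=
  ∏ i ∈ Finset.range n \ R, (Yf t').dC (sk (2 * i) (2 * i + 1))

theorem l9u_ctx_eqns_cite : True := by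
  have := @l9uOne.eq_1; have := @l9uy.eq_1; have := @l9uHt.eq_1; have := @l9uHd.eq_1; have := @l9uB.eq_1; have := @l9uDf.eq_1
  trivial

theorem l9uOne_dC (Y : JtCtx S) (v : ℕ) : (l9uOne Y).dC v = 1 := by
  show (1 + Y.KC v - Y.bC v * Y.qC v) - Y.KC v + Y.bC v * Y.qC v = 1
  ring

theorem l9uOne_cf (Y : JtCtx S) (n : ℕ) (R : Finset ℕ) (τ : JtTopo) : (l9uOne Y).cf n R τ = l9uy Y n R τ := by
  unfold JtCtx.cf l9uy
  simp only [l9uOne_dC, Finset.prod_const_one, mul_one, jtC, jtD, zero_add]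
  rfl

theorem l9uHt_eq (ms : ℕ → ℝ) (N : ℕ) (Y : JtCtx S) (n : ℕ) (R : Finset ℕ) (τ : JtTopo) :
    l9lHt ms N (l9uOne Y) n R τ = l9uHt ms N Y n R τ := by
  unfold l9lHt l9uHt l9lH
  rw [l9uOne_cf]
  rfl

theorem l9uB_eq (Y : JtCtx S) (sk : JtTopo) (R : Finset ℕ) {j : ℕ} : (l9lB (l9uOne Y) sk R : Fin j → ℝ) = l9uB Y sk R := by
  funext i
  unfold l9lB l9uB
  rw [l9uOne_dC]
  rfl

open Classical in
/-- **LC1 without defect factors** (`l9l_lc1` of 276 at the context `l9uOne Y`) -/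
theorem l9u_lc1 {N j D c : ℕ} {sk : JtTopo} {β ρ : ℕ → ℕ} (ms : ℕ → ℝ) (h : L9kBlk N (2 * j) D c sk β ρ) (hc : c ≤ N + 1)
    (hpos : trPm ms c ≠ 0) (hj : 1 ≤ j) (hD : 1 ≤ D) (hsp : ∀ i, i < j → sk (2 * i) (2 * i + 1) < c) {Y : JtCtx S} (hY : L9lK N Y)
    {R : Finset ℕ} (hR : R ⊆ Finset.range j) {bd : L14Bd} {𝓕 : Type} [CommRing 𝓕] {L : L14Calc bd ℝ 𝓕} {s : L14Sk D}
    (KEY : L9lKey ms N c D (l9kG sk ρ) Y L (trPm ms c) s) :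
    ∑ τ ∈ (l9aTab N (2 * j)).filter (fun τ => l9rTc (2 * j) c τ = sk), l9uHt ms N Y j R τ
      = l9lW ms N j D c (l9kG sk ρ) * l14X L (l9lGr h hsp) (trPm ms c) s (l9uB Y sk R) (l9lBc Y sk R) := by
  have hY' : L9lK N (l9uOne Y) := ⟨hY.comap⟩
  have KEY' : L9lKey ms N c D (l9kG sk ρ) (l9uOne Y) L (trPm ms c) s := KEY
  have := l9l_lc1 ms h hc hpos hj hD hsp hY' hR KEY'
  simp only [l9uHt_eq, l9uB_eq] at this
  exact this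

open Classical in
/-- **the finite difference step at one skeleton**, any family of contexts: (M°) + LC1 at `t`, `t + hh` + SKW + bounds of `l14X` -/
theorem l9u_fd {N n D c : ℕ} {sk : JtTopo} {β ρ : ℕ → ℕ} {ms : ℕ → ℝ} (hms : IsMs N ms) (h : L9kBlk N (2 * n) D c sk β ρ) (hc : c ≤ N + 1)
    (hpos : 0 < trPm ms c) (hn : 1 ≤ n) (hD : 1 ≤ D) (hsp : ∀ i, i < n → sk (2 * i) (2 * i + 1) < c) {R : Finset ℕ}
    (hR : R ⊆ Finset.range n) (Yf : ℝ → JtCtx S) (t : ℝ) {hh η E E0 r : ℝ} (hh0 : hh ≠ 0) (hK0 : L9lK N (Yf t)) (hK1 : L9lK N (Yf (t + hh)))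
    {bda bdb : L14Bd} {𝓕a 𝓕b : Type} [CommRing 𝓕a] [CommRing 𝓕b] {La : L14Calc bda ℝ 𝓕a} {Lb : L14Calc bdb ℝ 𝓕b} {s : L14Sk D}
    (KEY0 : L9lKey ms N c D (l9kG sk ρ) (Yf t) La (trPm ms c) s) (KEY1 : L9lKey ms N c D (l9kG sk ρ) (Yf (t + hh)) Lb (trPm ms c) s)
    (hM : |∑ τ ∈ (l9aTab N (2 * n)).filter (fun τ => l9rTc (2 * n) c τ = sk),
        (l9uHt ms N (Yf (t + hh)) n R τ - l9uHt ms N (Yf t) n R τ - hh * l9uHd ms N Yf t n R τ)| ≤ |hh| * (η * l9rVol ms (2 * n) c sk))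
    (hX : |l14FD r hh (l14X La (l9lGr h hsp) (trPm ms c) s (l9uB (Yf t) sk R) (l9lBc (Yf t) sk R))
        (l14X Lb (l9lGr h hsp) (trPm ms c) s (l9uB (Yf (t + hh)) sk R) (l9lBc (Yf (t + hh)) sk R))| ≤ E)
    (hX0 : |l14X La (l9lGr h hsp) (trPm ms c) s (l9uB (Yf t) sk R) (l9lBc (Yf t) sk R)| ≤ E0) :
    |∑ τ ∈ (l9aTab N (2 * n)).filter (fun τ => l9rTc (2 * n) c τ = sk), (r * l9uHt ms N (Yf t) n R τ + l9uHd ms N Yf t n R τ)|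
        ≤ ((((2 : ℝ) ^ n * (n ! : ℝ))⁻¹ * (D : ℝ) ^ (D - 1) / trPm ms c) * E + η) * l9rVol ms (2 * n) c sk ∧
    |∑ τ ∈ (l9aTab N (2 * n)).filter (fun τ => l9rTc (2 * n) c τ = sk), l9uHt ms N (Yf t) n R τ|
        ≤ ((((2 : ℝ) ^ n * (n ! : ℝ))⁻¹ * (D : ℝ) ^ (D - 1) / trPm ms c) * E0) * l9rVol ms (2 * n) c sk := by
  have l0 := l9u_lc1 ms h hc hpos.ne' hn hD hsp hK0 hR KEY0
  have l1 := l9u_lc1 ms h hc hpos.ne' hn hD hsp hK1 hR KEY1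
  have hW := l9l_W_le hms h hc hpos hD
  have hVol := l9r_vol_nonneg hms (2 * n) hc sk
  have hCW : 0 ≤ ((2 : ℝ) ^ n * (n ! : ℝ))⁻¹ * (D : ℝ) ^ (D - 1) / trPm ms c := by positivity
  constructor
  · rw [Finset.sum_add_distrib, ← Finset.mul_sum]
    refine l9u_glue hh0 hCW hVol l0 l1 ?_ hW hX
    rw [Finset.sum_sub_distrib, Finset.sum_sub_distrib, ← Finset.mul_sum] at hM
    exact hM
  · rw [l0, abs_mul]
    calc _ ≤ ((((2 : ℝ) ^ n * (n ! : ℝ))⁻¹ * (D : ℝ) ^ (D - 1) / trPm ms c) * l9rVol ms (2 * n) c sk) * E0 :=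
          mul_le_mul hW hX0 (abs_nonneg _) (mul_nonneg hCW hVol)
      _ = _ := by ring

end ctx

/-! ### the point `Q` -/

/-- the family of the contexts of the point `Q` -/
noncomputable def l9uYf (Q : L9Q) (t' : ℝ) : JtCtx (SkCfg Q.I.m) := Q.I.X0 (Q.pf t')

theorem l9u_Yf_eqns_cite : True := by
  have := @l9uYf.eq_1
  trivial

/-- on the fibre of `sk` the defect factors are those of the skeleton -/
theorem l9u_cf_fibre {S : Type} {N n c : ℕ} {sk τ : JtTopo} (hτ : τ ∈ l9aTab N (2 * n)) (hsk : l9rTc (2 * n) c τ = sk)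
    (hsp : ∀ i, i < n → sk (2 * i) (2 * i + 1) < c) (Y : JtCtx S) (R : Finset ℕ) :
    Y.cf n R τ = l9uy Y n R τ * ∏ i ∈ Finset.range n \ R, Y.dC (sk (2 * i) (2 * i + 1)) := by
  unfold JtCtx.cf l9uy
  simp only [jtC, jtD, zero_add, l9l_pair hτ hsk hsp]

/-- **LEIBNIZ on one table of the fibre** -/
theorem l9u_Ht_fibre (Q : L9Q) {n c : ℕ} {sk τ : JtTopo} (hτ : τ ∈ l9aTab Q.N (2 * n)) (hsk : l9rTc (2 * n) c τ = sk)
    (hsp : ∀ i, i < n → sk (2 * i) (2 * i + 1) < c) (R : Finset ℕ)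
    (dy : DifferentiableAt ℝ (fun t' => l9uy (l9uYf Q t') n R τ) Q.t) (dd : ∀ v, DifferentiableAt ℝ (fun t' => (l9uYf Q t').dC v) Q.t) :
    Q.Ht n R τ = l9uDf (l9uYf Q) n R sk Q.t * ((Q.u - Q.e * R.card) * l9uHt Q.ms Q.N (l9uYf Q Q.t) n R τ + l9uHd Q.ms Q.N (l9uYf Q) Q.t n R τ)
      + deriv (l9uDf (l9uYf Q) n R sk) Q.t * l9uHt Q.ms Q.N (l9uYf Q Q.t) n R τ := by
  have hcf : ∀ t', (Q.I.X0 (Q.pf t')).cf n R τ = l9uy (l9uYf Q t') n R τ * l9uDf (l9uYf Q) n R sk t' := fun t' =>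
    l9u_cf_fibre hτ hsk hsp _ R
  have dD : DifferentiableAt ℝ (l9uDf (l9uYf Q) n R sk) Q.t :=
    (l9u_prod_deriv (Finset.range n \ R) (fun i t' => (l9uYf Q t').dC (sk (2 * i) (2 * i + 1))) Q.t (fun i _ => dd _)).1
  have hder : deriv (fun t' => (Q.I.X0 (Q.pf t')).cf n R τ) Q.t
      = deriv (fun t' => l9uy (l9uYf Q t') n R τ) Q.t * l9uDf (l9uYf Q) n R sk Q.t
        + l9uy (l9uYf Q Q.t) n R τ * deriv (l9uDf (l9uYf Q) n R sk) Q.t := by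
    rw [show (fun t' => (Q.I.X0 (Q.pf t')).cf n R τ) = fun t' => l9uy (l9uYf Q t') n R τ * l9uDf (l9uYf Q) n R sk t' from funext hcf]
    exact deriv_fun_mul dy dD
  rw [l9l_Ht_eq]
  unfold l9lHt l9lHd l9lH l9uHt l9uHd
  rw [hder, hcf Q.t]
  by_cases hq : n = 2 ∧ R = {0, 1}
  · have h1 : l9uDf (l9uYf Q) n R sk = fun _ => 1 := by
      funext t'
      unfold l9uDf
      obtain ⟨rfl, rfl⟩ := hq
      have : Finset.range 2 \ ({0, 1} : Finset ℕ) = ∅ := by decide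
      rw [this, Finset.prod_empty]
    rw [if_pos hq, if_pos hq, if_pos hq, if_pos hq, h1]
    simp only [deriv_const', mul_one, mul_zero, zero_mul, add_zero, one_mul]
    rfl
  · rw [if_neg hq, if_neg hq, if_neg hq, if_neg hq]
    ring

open Classical in
/-- **LEIBNIZ for the grouped coefficient** -/
theorem l9u_B_eq (Q : L9Q) {n c : ℕ} {sk : JtTopo} (hsp : ∀ i, i < n → sk (2 * i) (2 * i + 1) < c) (R : Finset ℕ)
    (dy : ∀ τ ∈ l9aTab Q.N (2 * n), DifferentiableAt ℝ (fun t' => l9uy (l9uYf Q t') n R τ) Q.t)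
    (dd : ∀ v, DifferentiableAt ℝ (fun t' => (l9uYf Q t').dC v) Q.t) :
    l9rB (l9aTab Q.N (2 * n)) (Q.Ht n R) (2 * n) c sk
      = l9uDf (l9uYf Q) n R sk Q.t * ∑ τ ∈ (l9aTab Q.N (2 * n)).filter (fun τ => l9rTc (2 * n) c τ = sk),
            ((Q.u - Q.e * R.card) * l9uHt Q.ms Q.N (l9uYf Q Q.t) n R τ + l9uHd Q.ms Q.N (l9uYf Q) Q.t n R τ)
        + deriv (l9uDf (l9uYf Q) n R sk) Q.t * ∑ τ ∈ (l9aTab Q.N (2 * n)).filter (fun τ => l9rTc (2 * n) c τ = sk),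
            l9uHt Q.ms Q.N (l9uYf Q Q.t) n R τ := by
  unfold l9rB
  rw [Finset.mul_sum, Finset.mul_sum, ← Finset.sum_add_distrib]
  refine Finset.sum_congr rfl fun τ hτ => ?_
  rw [Finset.mem_filter] at hτ
  exact l9u_Ht_fibre Q hτ.1 hτ.2 hsp R (dy τ hτ.1) dd

/-- the defect factors are bounded by `∏ (|d| + |ḋ|)` -/
theorem l9u_Df_le (Q : L9Q) (n : ℕ) (R : Finset ℕ) (sk : JtTopo) (dd : ∀ v, DifferentiableAt ℝ (fun t' => (l9uYf Q t').dC v) Q.t) :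
    |l9uDf (l9uYf Q) n R sk Q.t| + |deriv (l9uDf (l9uYf Q) n R sk) Q.t| ≤ ∏ i ∈ Finset.range n \ R, Q.dA (sk (2 * i) (2 * i + 1)) :=
  (l9u_prod_deriv (Finset.range n \ R) (fun i t' => (l9uYf Q t').dC (sk (2 * i) (2 * i + 1))) Q.t (fun _ _ => dd _)).2

/-- no defect factor -/
theorem l9u_Df_all (Q : L9Q) (n : ℕ) (sk : JtTopo) : l9uDf (l9uYf Q) n (Finset.range n) sk = fun _ => 1 := by
  funext t'
  unfold l9uDf
  rw [Finset.sdiff_self, Finset.prod_empty]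

/-! ## 3. the point of the package L14 and the uniform bounds -/

/-- **one point of the package L14 on a pair of references**: pair model `L2` over the real models `La` (parameter `t`), `Lb` (parameter `t + h`) at the distance `del`, block graph, cut mass,
skeleton, edge weights `b` (pairs of numbers), the set `R` of the edges which carry `b` (the others carry `1`), signed step `h`, defect `η` of (E6).      The TYPE is used as the index of the families of `L09/Main`: the constants are uniform. -/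
structure L9uPt (bd bda bdb : L14Bd) (𝕂 𝓕 𝓕a 𝓕b : Type) [CommRing 𝕂] [CommRing 𝓕] [CommRing 𝓕a] [CommRing 𝓕b] (j D : ℕ) where
  L2 : L14Calc bd 𝕂 𝓕
  La : L14Calc bda ℝ 𝓕a
  Lb : L14Calc bdb ℝ 𝓕b
  del : ℝ
  P : L14Pair L2 La Lb del
  Γ : L14Gr j D
  c : ℝ
  ε : ℝ
  s : L14Sk D
  b : Fin j → 𝕂
  bc : 𝕂
  R : Finset ℕ
  h : ℝ
  η : ℝ
  c_pos : 0 < c
  c_le : c ≤ bd.c0
  mesh : L2.eps ≤ c ^ 4
  ok : s.Ok c
  full : s.labels = Finset.univ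
  e_le : ε ≤ 1
  b_bd : ∀ e, L2.nrm (b e - L2.bo) ≤ ε
  bc_bd : L2.nrm (bc - L2.bo) ≤ ε
  h_ne : h ≠ 0
  h_le : |h| ≤ 1

namespace L9uPt

variable {bd bda bdb : L14Bd} {𝕂 𝓕 𝓕a 𝓕b : Type} [CommRing 𝕂] [CommRing 𝓕] [CommRing 𝓕a] [CommRing 𝓕b] {j D : ℕ}
  (i : L9uPt bd bda bdb 𝕂 𝓕 𝓕a 𝓕b j D)

/-- `b` on `R`, `1` off `R` -/
def bR (e : Fin j) : 𝕂 := if (e : ℕ) ∈ i.R then i.b e else 1
/-- the weight of the square counterterm -/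
def bcR : 𝕂 := if i.R = {0, 1} then i.bc else 0
/-- the combined coefficient in the pair model -/
noncomputable def X : 𝕂 := l14X i.L2 i.Γ i.c i.s i.bR i.bcR
/-- the combined coefficient at the first reference -/
noncomputable def Xa : ℝ := i.P.pa.hK i.X
/-- the combined coefficient at the second reference -/
noncomputable def Xb : ℝ := i.P.pb.hK i.X

/-- SIZE PATH: distance `≤ |h|`, (E6) at the step `h` up to `η` -/
structure Siz : Prop where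
  del_le : i.del ≤ |i.h|
  eta_nonneg : 0 ≤ i.η
  chi : |i.Lb.chi - Real.exp (1 / 6 * i.h) * i.La.chi| ≤ i.η
  gg : |i.Lb.gg - Real.exp (1 / 2 * i.h) * i.La.gg| ≤ i.η
  k0 : |i.Lb.k0 - Real.exp (-(1 / 2) * i.h) * i.La.k0| ≤ i.η

theorem e_nonneg : 0 ≤ i.ε := (i.L2.nrm_nonneg _).trans i.bc_bd

theorem c_le_one : i.c ≤ 1 := i.c_le.trans bd.c0_le

theorem Xa_eq : i.Xa = l14X i.La i.Γ i.c i.s (fun e => i.P.pa.hK (i.bR e)) (i.P.pa.hK i.bcR) := L14Hom.X _ _ _ _ _ _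

theorem Xb_eq : i.Xb = l14X i.Lb i.Γ i.c i.s (fun e => i.P.pb.hK (i.bR e)) (i.P.pb.hK i.bcR) := L14Hom.X _ _ _ _ _ _

/-- all the edges carry `b` -/
theorem X_all (hR : i.R = Finset.range j) : i.X = l14X i.L2 i.Γ i.c i.s i.b i.bc := by
  have h1 : i.bR = i.b := by
    funext e
    unfold bR
    rw [if_pos (by rw [hR]; exact Finset.mem_range.2 e.2)]
  unfold X l14X
  rw [h1]
  congr 1
  by_cases hq : j = 2 ∧ D = 2
  · rw [if_pos hq, if_pos hq]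
    unfold bcR
    rw [if_pos (by rw [hR, hq.1]; decide)]
  · rw [if_neg hq, if_neg hq]

end L9uPt

theorem l9u_pt_eqns_cite : True := by
  have := @L9uPt.bR.eq_1; have := @L9uPt.bcR.eq_1; have := @L9uPt.X.eq_1; have := @L9uPt.Xa.eq_1; have := @L9uPt.Xb.eq_1
  trivial

section unif

variable {bd bda bdb : L14Bd} {𝕂 𝓕 𝓕a 𝓕b : Type} [CommRing 𝕂] [CommRing 𝓕] [CommRing 𝓕a] [CommRing 𝓕b] {j D : ℕ}

/-- the hypotheses of K8 on a family of points -/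
theorem l9u_hyp {ι : Type} (f : ι → L9uPt bd bda bdb 𝕂 𝓕 𝓕a 𝓕b j D) :
    L14Hyp (fun i => (f i).L2) (fun i => (f i).Γ) (fun i => (f i).c) (fun i => (f i).ε) (fun i => (f i).s) (fun i => (f i).b)
      (fun i => (f i).bc) :=
  ⟨fun i => (f i).c_pos, fun i => (f i).c_le, fun i => (f i).mesh, fun i => (f i).ok, fun i => (f i).full, fun i => (f i).e_le,
    fun i => (f i).b_bd, fun i => (f i).bc_bd⟩

/-- K8 + size of the monomials, no condition on `ε`: `X = O(c^(6-j) + ε c^(4-j))` -/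
theorem l9u_X_ON {ι : Type} (hj2 : 2 ≤ j) (hj4 : j ≤ 4) {L : ι → L14Calc bd 𝕂 𝓕} {Γ : ι → L14Gr j D} {c ε : ι → ℝ}
    {s : ι → L14Sk D} {b : ι → Fin j → 𝕂} {bc : ι → 𝕂} (H : L14Hyp L Γ c ε s b bc) :
    l14ON L (fun i => l14X (L i) (Γ i) (c i) (s i) (b i) (bc i)) (fun i => c i ^ (6 - j) + ε i * c i ^ (4 - j)) := by
  have hc1 : ∀ i, c i ≤ 1 := fun i => (H.c_le i).trans bd.c0_le
  have hp : ∀ i (n : ℕ), 0 ≤ c i ^ n := fun i n => pow_nonneg (H.c_pos i).le n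
  have he : ∀ i, 0 ≤ ε i * c i ^ (4 - j) := fun i => mul_nonneg (H.e_nonneg i) (hp i _)
  have h8 := l14_main_K8 bd 𝕂 𝓕 ι j D L Γ c ε s b bc hj2 hj4 H
  have hm := fun i => l14_main_K8m j D (Γ i) (c i) (s i) hj2 hj4 (H.c_pos i) (hc1 i) (H.ok i) (H.full i)
  have r1 := h8.mono1 (A' := fun i => c i ^ (6 - j) + ε i * c i ^ (4 - j)) (fun i => by
    have e1 : c i ^ (7 - j) ≤ c i ^ (6 - j) := pow_le_pow_of_le_one (H.c_pos i).le (hc1 i) (by omega)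
    linarith)
  have r2 : l14ON L (fun i => (L i).re ((Γ i).ma (c i) (s i)) * (L i).mono1 j) (fun i => c i ^ (6 - j) + ε i * c i ^ (4 - j)) :=
    (l14ON_re_le L _ (fun i => by rw [abs_of_nonneg (hm i).1]; linarith [(hm i).2.1, he i])).mul1' (l14ON_mono1 L j)
  have r3 : l14ON L (fun i => (L i).re ((Γ i).mb (c i) (s i)) * (L i).mono2 j) (fun i => c i ^ (6 - j) + ε i * c i ^ (4 - j)) :=
    (l14ON_re_le L _ (fun i => by rw [abs_of_nonneg (hm i).2.2.1]; linarith [(hm i).2.2.2, he i])).mul1' (l14ON_mono2 L j)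
  exact (r1.add (r2.add r3)).congr (fun i => by ring)

/-- the same, refined (`j = 2`, distinct designated forks): `X = O((c³ + ε c) h')` -/
theorem l9u_Xr_ON {ι : Type} {L : ι → L14Calc bd 𝕂 𝓕} {Γ : ι → L14Gr 2 D} {c ε : ι → ℝ}
    {s : ι → L14Sk D} {b : ι → Fin 2 → 𝕂} {bc : ι → 𝕂} (H : L14Hyp L Γ c ε s b bc) (hd : ∀ i, (Γ i).Dist (c i) (s i)) :
    l14ON L (fun i => l14X (L i) (Γ i) (c i) (s i) (b i) (bc i))
      (fun i => (c i ^ 3 + ε i * c i) * min ((Γ i).vs (c i) (s i) 0) ((Γ i).vs (c i) (s i) 1)) := by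
  have hc1 : ∀ i, c i ≤ 1 := fun i => (H.c_le i).trans bd.c0_le
  have hp : ∀ i (n : ℕ), 0 ≤ c i ^ n := fun i n => pow_nonneg (H.c_pos i).le n
  have hh0 : ∀ i, 0 ≤ min ((Γ i).vs (c i) (s i) 0) ((Γ i).vs (c i) (s i) 1) := fun i =>
    le_min (L14Sk.l14s_split_nonneg (H.c_pos i).le (H.ok i) _ _) (L14Sk.l14s_split_nonneg (H.c_pos i).le (H.ok i) _ _)
  have he : ∀ i, 0 ≤ ε i * c i := fun i => mul_nonneg (H.e_nonneg i) (H.c_pos i).le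
  have h8 := l14_main_K8r bd 𝕂 𝓕 ι D L Γ c ε _ s b bc H hd (fun _ => rfl)
  have hm := fun i => l14_main_K8m 2 D (Γ i) (c i) (s i) le_rfl (by norm_num) (H.c_pos i) (hc1 i) (H.ok i) (H.full i)
  have hmr := fun i => l14_main_K8mr D (Γ i) (c i) (s i) (H.c_pos i) (hc1 i) (H.ok i) (H.full i) (hd i)
  have r1 := h8.mono1 (A' := fun i => (c i ^ 3 + ε i * c i) * min ((Γ i).vs (c i) (s i) 0) ((Γ i).vs (c i) (s i) 1)) (fun i => by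
      have e1 : c i ^ 4 ≤ c i ^ 3 := pow_le_pow_of_le_one (H.c_pos i).le (hc1 i) (by norm_num)
      have f1 := mul_le_mul_of_nonneg_right e1 (hh0 i)
      nlinarith)
  have r2 : l14ON L (fun i => (L i).re ((Γ i).ma (c i) (s i)) * (L i).mono1 2)
      (fun i => (c i ^ 3 + ε i * c i) * min ((Γ i).vs (c i) (s i) 0) ((Γ i).vs (c i) (s i) 1)) :=
    (l14ON_re_le L _ (fun i => by
      rw [abs_of_nonneg (hm i).1]
      have := mul_nonneg (he i) (hh0 i)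
      nlinarith [(hmr i).1])).mul1' (l14ON_mono1 L 2)
  refine (r1.add r2).congr (fun i => ?_)
  rw [(hmr i).2, map_zero]
  ring

/-- the edge weights are `O(1)` -/
theorem l9u_bR_ON {ι : Type} (f : ι → L9uPt bd bda bdb 𝕂 𝓕 𝓕a 𝓕b j D) (e : Fin j) :
    l14ON (fun i => (f i).L2) (fun i => (f i).bR e) (fun _ => 1) := by
  obtain ⟨C, hC, hB⟩ := l14ON_bo (fun i => (f i).L2)
  refine ⟨C + 1, by linarith, fun i => ?_⟩
  have hBi : (f i).L2.nrm (f i).L2.bo ≤ C * 1 := hB i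
  show (f i).L2.nrm (if (e : ℕ) ∈ (f i).R then (f i).b e else 1) ≤ (C + 1) * 1
  split_ifs
  · have h1 := (f i).L2.nrm_add ((f i).b e - (f i).L2.bo) (f i).L2.bo
    rw [sub_add_cancel] at h1
    linarith [(f i).b_bd e, (f i).e_le]
  · linarith [(f i).L2.nrm_one_le]

theorem l9u_bcR_ON {ι : Type} (f : ι → L9uPt bd bda bdb 𝕂 𝓕 𝓕a 𝓕b j D) :
    l14ON (fun i => (f i).L2) (fun i => (f i).bcR) (fun _ => 1) := by
  obtain ⟨C, hC, hB⟩ := l14ON_bo (fun i => (f i).L2)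
  refine ⟨C + 1, by linarith, fun i => ?_⟩
  have hBi : (f i).L2.nrm (f i).L2.bo ≤ C * 1 := hB i
  show (f i).L2.nrm (if (f i).R = {0, 1} then (f i).bc else 0) ≤ (C + 1) * 1
  split_ifs
  · have h1 := (f i).L2.nrm_add ((f i).bc - (f i).L2.bo) (f i).L2.bo
    rw [sub_add_cancel] at h1
    linarith [(f i).bc_bd, (f i).e_le]
  · rw [(f i).L2.nrm_zero]; linarith

/-- **U1 crude bound** (K8d), any `R`: `X = O_*(c²)` -/
theorem l9u_U1 (bd bda bdb : L14Bd) (𝕂 𝓕 𝓕a 𝓕b : Type) [CommRing 𝕂] [CommRing 𝓕] [CommRing 𝓕a] [CommRing 𝓕b] (j D : ℕ) (hj : 1 ≤ j) :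
    ∃ C : ℝ, 0 ≤ C ∧ ∀ i : L9uPt bd bda bdb 𝕂 𝓕 𝓕a 𝓕b j D,
      |i.Xa| ≤ C * i.c ^ 2 ∧ |i.Xb| ≤ C * i.c ^ 2 ∧ |i.Xa - i.Xb| ≤ C * (i.del * i.c ^ 2) := by
  have h1 : l14ON (fun i : L9uPt bd bda bdb 𝕂 𝓕 𝓕a 𝓕b j D => i.L2) (fun i => ∏ e, i.bR e) (fun _ => 1) :=
    l14ON.prod1 Finset.univ (fun e _ => l9u_bR_ON id e)
  have h2 := l14_main_K8d bd 𝕂 𝓕 (L9uPt bd bda bdb 𝕂 𝓕 𝓕a 𝓕b j D) j D (fun i => i.L2) (fun i => i.Γ) (fun i => i.c) (fun i => i.s) hj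
    (fun i => i.c_pos) (fun i => i.c_le) (fun i => i.ok) (fun i => i.full)
  have h3 : l14ON (fun i : L9uPt bd bda bdb 𝕂 𝓕 𝓕a 𝓕b j D => i.L2)
      (fun i => if j = 2 ∧ D = 2 then i.L2.re (i.c ^ 2) * i.bcR else 0) (fun i => i.c ^ 2) := by
    by_cases hq : j = 2 ∧ D = 2
    · simp only [if_pos hq]
      exact (l14ON_re_le _ _ (fun i => by rw [abs_of_nonneg (sq_nonneg _)])).mul1' (l9u_bcR_ON id)
    · simp only [if_neg hq]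
      exact l14ON_zero _ _
  exact l14PO_of_ON (fun i : L9uPt bd bda bdb 𝕂 𝓕 𝓕a 𝓕b j D => i.P) ((h1.mul1 h2).sub h3)

end unif

namespace L9uPt

variable {bd bda bdb : L14Bd} {𝕂 𝓕 𝓕a 𝓕b : Type} [CommRing 𝕂] [CommRing 𝓕] [CommRing 𝓕a] [CommRing 𝓕b] {j D : ℕ}
  (i : L9uPt bd bda bdb 𝕂 𝓕 𝓕a 𝓕b j D)

theorem Xa_all (hR : i.R = Finset.range j) : i.Xa = l14X i.La i.Γ i.c i.s (fun e => i.P.pa.hK (i.b e)) (i.P.pa.hK i.bc) := by
  unfold Xa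
  rw [i.X_all hR]
  exact L14Hom.X _ _ _ _ _ _

theorem Xb_all (hR : i.R = Finset.range j) : i.Xb = l14X i.Lb i.Γ i.c i.s (fun e => i.P.pb.hK (i.b e)) (i.P.pb.hK i.bc) := by
  unfold Xb
  rw [i.X_all hR]
  exact L14Hom.X _ _ _ _ _ _

/-- the earlier of the two designated forks -/
noncomputable def hp (i : L9uPt bd bda bdb 𝕂 𝓕 𝓕a 𝓕b 2 D) : ℝ := min (i.Γ.vs i.c i.s 0) (i.Γ.vs i.c i.s 1)

theorem hp_nonneg (i : L9uPt bd bda bdb 𝕂 𝓕 𝓕a 𝓕b 2 D) : 0 ≤ i.hp :=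
  le_min (L14Sk.l14s_split_nonneg i.c_pos.le i.ok _ _) (L14Sk.l14s_split_nonneg i.c_pos.le i.ok _ _)

/-- numerical conditions, SIZE path (`lam = λ`, `A` = loss) -/
structure NumS (lam A : ℝ) : Prop where
  siz : i.Siz
  c_lam : i.c ≤ A * lam
  e_lam : i.ε ≤ A * lam * i.c ^ 2
  h_lam : |i.h| + i.η / |i.h| ≤ A * lam

/-- numerical conditions, DIRECT path -/
structure NumD (lam A : ℝ) : Prop where
  del_lam : i.del ≤ A * lam * |i.h|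
  e_c : i.ε ≤ A * i.c ^ 2

end L9uPt

theorem l9u_pt2_eqns_cite : True := by
  have := @L9uPt.hp.eq_1
  trivial

section unif2

variable (bd bda bdb : L14Bd) (𝕂 𝓕 𝓕a 𝓕b : Type) [CommRing 𝕂] [CommRing 𝓕] [CommRing 𝓕a] [CommRing 𝓕b]

/-- **U1r crude bound, refined** (K8dr): `j = 2`, one defect factor, distinct designated forks: `X = O_*(c³ h')` -/
theorem l9u_U1r (D : ℕ) : ∃ C : ℝ, 0 ≤ C ∧ ∀ i : L9uPt bd bda bdb 𝕂 𝓕 𝓕a 𝓕b 2 D, i.Γ.Dist i.c i.s → i.R ≠ {0, 1} →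
      |i.Xa| ≤ C * (i.c ^ 3 * i.hp) ∧ |i.Xb| ≤ C * (i.c ^ 3 * i.hp) ∧ |i.Xa - i.Xb| ≤ C * (i.del * (i.c ^ 3 * i.hp)) := by
  let ι := {i : L9uPt bd bda bdb 𝕂 𝓕 𝓕a 𝓕b 2 D // i.Γ.Dist i.c i.s ∧ i.R ≠ {0, 1}}
  have h1 : l14ON (fun i : ι => i.1.L2) (fun i => ∏ e, i.1.bR e) (fun _ => 1) :=
    l14ON.prod1 Finset.univ (fun e _ => l9u_bR_ON Subtype.val e)
  have h2 := l14_main_K8dr bd 𝕂 𝓕 ι D (fun i => i.1.L2) (fun i => i.1.Γ) (fun i => i.1.c) (fun i => i.1.s)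
    (fun i => i.1.c_pos) (fun i => i.1.c_le) (fun i => i.1.ok) (fun i => i.1.full) (fun i => i.2.1)
  have h3 : l14ON (fun i : ι => i.1.L2) (fun i => i.1.X) (fun i => i.1.c ^ 3 * i.1.hp) :=
    (h1.mul1 h2).congr (fun i => by
      unfold L9uPt.X l14X L9uPt.bcR
      rw [if_neg i.2.2]
      simp)
  obtain ⟨C, hC, hB⟩ := l14PO_of_ON (fun i : ι => i.1.P) h3
  exact ⟨C, hC, fun i h1 h2 => hB ⟨i, h1, h2⟩⟩

/-- **U2** all the edges carry `b`: `X = O_*(c^(6-j) + ε c^(4-j))` -/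
theorem l9u_U2 (j D : ℕ) (hj2 : 2 ≤ j) (hj4 : j ≤ 4) : ∃ C : ℝ, 0 ≤ C ∧ ∀ i : L9uPt bd bda bdb 𝕂 𝓕 𝓕a 𝓕b j D, i.R = Finset.range j →
      |i.Xa| ≤ C * (i.c ^ (6 - j) + i.ε * i.c ^ (4 - j)) ∧ |i.Xb| ≤ C * (i.c ^ (6 - j) + i.ε * i.c ^ (4 - j)) ∧
      |i.Xa - i.Xb| ≤ C * (i.del * (i.c ^ (6 - j) + i.ε * i.c ^ (4 - j))) := by
  let ι := {i : L9uPt bd bda bdb 𝕂 𝓕 𝓕a 𝓕b j D // i.R = Finset.range j}
  have h3 : l14ON (fun i : ι => i.1.L2) (fun i => i.1.X) (fun i => i.1.c ^ (6 - j) + i.1.ε * i.1.c ^ (4 - j)) :=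
    (l9u_X_ON hj2 hj4 (l9u_hyp (Subtype.val : ι → _))).congr (fun i => (i.1.X_all i.2).symm)
  obtain ⟨C, hC, hB⟩ := l14PO_of_ON (fun i : ι => i.1.P) h3
  exact ⟨C, hC, fun i h1 => hB ⟨i, h1⟩⟩

/-- **U2r** the same, refined -/
theorem l9u_U2r (D : ℕ) : ∃ C : ℝ, 0 ≤ C ∧ ∀ i : L9uPt bd bda bdb 𝕂 𝓕 𝓕a 𝓕b 2 D, i.R = Finset.range 2 → i.Γ.Dist i.c i.s →
      |i.Xa| ≤ C * ((i.c ^ 3 + i.ε * i.c) * i.hp) ∧ |i.Xb| ≤ C * ((i.c ^ 3 + i.ε * i.c) * i.hp) ∧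
      |i.Xa - i.Xb| ≤ C * (i.del * ((i.c ^ 3 + i.ε * i.c) * i.hp)) := by
  let ι := {i : L9uPt bd bda bdb 𝕂 𝓕 𝓕a 𝓕b 2 D // i.R = Finset.range 2 ∧ i.Γ.Dist i.c i.s}
  have h3 : l14ON (fun i : ι => i.1.L2) (fun i => i.1.X) (fun i => (i.1.c ^ 3 + i.1.ε * i.1.c) * i.1.hp) :=
    (l9u_Xr_ON (l9u_hyp (Subtype.val : ι → _)) (fun i => i.2.2)).congr (fun i => (i.1.X_all i.2.1).symm)
  obtain ⟨C, hC, hB⟩ := l14PO_of_ON (fun i : ι => i.1.P) h3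
  exact ⟨C, hC, fun i h1 h2 => hB ⟨i, h1, h2⟩⟩

/-- **U3** size path, all the edges carry `b`: the finite difference operator of the weight `1 - j/6` -/
theorem l9u_U3 (j D : ℕ) (hj2 : 2 ≤ j) (hj4 : j ≤ 4) : ∃ C : ℝ, 0 ≤ C ∧ ∀ i : L9uPt bd bda bdb 𝕂 𝓕 𝓕a 𝓕b j D, i.R = Finset.range j → i.Siz →
      |l14FD (1 - (j : ℝ) / 6) i.h i.Xa i.Xb| ≤ C * (i.c ^ (7 - j) + i.ε * i.c ^ (4 - j) + i.c ^ (6 - j) * (|i.h| + i.η / |i.h|)) := by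
  let ι := {i : L9uPt bd bda bdb 𝕂 𝓕 𝓕a 𝓕b j D // i.R = Finset.range j ∧ i.Siz}
  have E : L14E6 (fun i : ι => i.1.La) (fun i => i.1.Lb) (fun i => i.1.h) (fun i => i.1.η) :=
    ⟨fun i => i.1.h_ne, fun i => i.1.h_le, fun i => i.2.2.eta_nonneg, fun i => i.2.2.chi, fun i => i.2.2.gg, fun i => i.2.2.k0⟩
  obtain ⟨C, hC, hB⟩ := l14_fd_main hj2 hj4 (fun i : ι => i.1.P.mono i.2.2.del_le) E (l9u_hyp (Subtype.val : ι → _))
  refine ⟨C, hC, fun i h1 h2 => ?_⟩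
  rw [i.Xa_all h1, i.Xb_all h1]
  exact hB ⟨i, h1, h2⟩

/-- **U3r** the same, refined -/
theorem l9u_U3r (D : ℕ) : ∃ C : ℝ, 0 ≤ C ∧ ∀ i : L9uPt bd bda bdb 𝕂 𝓕 𝓕a 𝓕b 2 D, i.R = Finset.range 2 → i.Siz → i.Γ.Dist i.c i.s →
      |l14FD (1 - ((2 : ℕ) : ℝ) / 6) i.h i.Xa i.Xb|
        ≤ C * (i.c ^ 4 * i.hp + i.ε * (i.c * i.hp) + i.c ^ 3 * i.hp * (|i.h| + i.η / |i.h|)) := by
  let ι := {i : L9uPt bd bda bdb 𝕂 𝓕 𝓕a 𝓕b 2 D // i.R = Finset.range 2 ∧ i.Siz ∧ i.Γ.Dist i.c i.s}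
  have E : L14E6 (fun i : ι => i.1.La) (fun i => i.1.Lb) (fun i => i.1.h) (fun i => i.1.η) :=
    ⟨fun i => i.1.h_ne, fun i => i.1.h_le, fun i => i.2.2.1.eta_nonneg, fun i => i.2.2.1.chi, fun i => i.2.2.1.gg, fun i => i.2.2.1.k0⟩
  obtain ⟨C, hC, hB⟩ := l14_fd_main_r (fun i : ι => i.1.P.mono i.2.2.1.del_le) E (l9u_hyp (Subtype.val : ι → _)) (fun i => i.2.2.2)
  refine ⟨C, hC, fun i h1 h2 h3 => ?_⟩
  rw [i.Xa_all h1, i.Xb_all h1]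
  exact hB ⟨i, h1, h2, h3⟩

end unif2

/-! ### the two paths in one statement -/

section modes

variable (bd bda bdb : L14Bd) (𝕂 𝓕 𝓕a 𝓕b : Type) [CommRing 𝕂] [CommRing 𝓕] [CommRing 𝓕a] [CommRing 𝓕b]

/-- **all the edges carry `b`**: `|FD X| ≤ C A² λ c^(6-j)` on both paths -/
theorem l9u_FD_all (j D : ℕ) (hj2 : 2 ≤ j) (hj4 : j ≤ 4) : ∃ C : ℝ, 0 ≤ C ∧ ∀ (i : L9uPt bd bda bdb 𝕂 𝓕 𝓕a 𝓕b j D) (lam A r : ℝ),
    1 ≤ A → 0 ≤ lam → i.R = Finset.range j → ((r = 1 - (j : ℝ) / 6 ∧ i.NumS lam A) ∨ (r = 0 ∧ i.NumD lam A)) →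
      |l14FD r i.h i.Xa i.Xb| ≤ C * A ^ 2 * lam * i.c ^ (6 - j) := by
  obtain ⟨C2, hC2, h2⟩ := l9u_U2 bd bda bdb 𝕂 𝓕 𝓕a 𝓕b j D hj2 hj4
  obtain ⟨C3, hC3, h3⟩ := l9u_U3 bd bda bdb 𝕂 𝓕 𝓕a 𝓕b j D hj2 hj4
  refine ⟨3 * C3 + 2 * C2, by positivity, fun i lam A r hA hl hR hm => ?_⟩
  have hc := i.c_pos
  have hp : 0 ≤ i.c ^ (6 - j) := pow_nonneg hc.le _
  have e6 : i.c ^ (6 - j) = i.c ^ 2 * i.c ^ (4 - j) := by rw [← pow_add]; congr 1; omega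
  have e7 : i.c ^ (7 - j) = i.c * i.c ^ (6 - j) := by rw [← pow_succ']; congr 1; omega
  have hAA : A ≤ A ^ 2 := by nlinarith
  have hq : 0 ≤ lam * i.c ^ (6 - j) := mul_nonneg hl hp
  rcases hm with ⟨rfl, hS⟩ | ⟨rfl, hD⟩
  · refine (h3 i hR hS.siz).trans ?_
    have a1 : i.c ^ (7 - j) ≤ A * lam * i.c ^ (6 - j) := by rw [e7]; exact mul_le_mul_of_nonneg_right hS.c_lam hp
    have a2 : i.ε * i.c ^ (4 - j) ≤ A * lam * i.c ^ (6 - j) := by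
      rw [e6, ← mul_assoc]; exact mul_le_mul_of_nonneg_right hS.e_lam (pow_nonneg hc.le _)
    have a3 : i.c ^ (6 - j) * (|i.h| + i.η / |i.h|) ≤ A * lam * i.c ^ (6 - j) := by
      rw [mul_comm]; exact mul_le_mul_of_nonneg_right hS.h_lam hp
    have a4 : A * lam * i.c ^ (6 - j) ≤ A ^ 2 * lam * i.c ^ (6 - j) := by
      rw [mul_assoc, mul_assoc]; exact mul_le_mul_of_nonneg_right hAA hq
    have a5 : 0 ≤ A ^ 2 * lam * i.c ^ (6 - j) := by rw [mul_assoc]; exact mul_nonneg (sq_nonneg _) hq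
    calc _ ≤ C3 * (3 * (A ^ 2 * lam * i.c ^ (6 - j))) := mul_le_mul_of_nonneg_left (by linarith) hC3
      _ ≤ (3 * C3 + 2 * C2) * A ^ 2 * lam * i.c ^ (6 - j) := by nlinarith
  · obtain ⟨b1, -, b3⟩ := h2 i hR
    refine (l14FD_rem i.h_ne b1 b3).trans ?_
    have hh : 0 < |i.h| := abs_pos.2 i.h_ne
    have a1 : |(0 : ℝ)| + i.del / |i.h| ≤ A * lam := by
      rw [abs_zero, zero_add, div_le_iff₀ hh]; exact hD.del_lam
    have a2 : i.ε * i.c ^ (4 - j) ≤ A * i.c ^ (6 - j) := by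
      rw [e6, ← mul_assoc]; exact mul_le_mul_of_nonneg_right hD.e_c (pow_nonneg hc.le _)
    have a3 : i.c ^ (6 - j) + i.ε * i.c ^ (4 - j) ≤ 2 * A * i.c ^ (6 - j) := by nlinarith
    have a4 : 0 ≤ i.c ^ (6 - j) + i.ε * i.c ^ (4 - j) := add_nonneg hp (mul_nonneg i.e_nonneg (pow_nonneg hc.le _))
    have a5 : 0 ≤ A * lam := mul_nonneg (by linarith) hl
    calc _ ≤ (A * lam) * (C2 * (2 * A * i.c ^ (6 - j))) :=
          mul_le_mul a1 (mul_le_mul_of_nonneg_left a3 hC2) (mul_nonneg hC2 a4) a5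
      _ = 2 * C2 * (A ^ 2 * (lam * i.c ^ (6 - j))) := by ring
      _ ≤ (3 * C3 + 2 * C2) * A ^ 2 * lam * i.c ^ (6 - j) := by
          have : 0 ≤ A ^ 2 * (lam * i.c ^ (6 - j)) := mul_nonneg (sq_nonneg _) hq
          nlinarith

/-- **the same, refined**: `|FD X| ≤ C A² λ c³ h'` -/
theorem l9u_FD_all_r (D : ℕ) : ∃ C : ℝ, 0 ≤ C ∧ ∀ (i : L9uPt bd bda bdb 𝕂 𝓕 𝓕a 𝓕b 2 D) (lam A r : ℝ),
    1 ≤ A → 0 ≤ lam → i.R = Finset.range 2 → i.Γ.Dist i.c i.s → ((r = 1 - ((2 : ℕ) : ℝ) / 6 ∧ i.NumS lam A) ∨ (r = 0 ∧ i.NumD lam A)) →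
      |l14FD r i.h i.Xa i.Xb| ≤ C * A ^ 2 * lam * (i.c ^ 3 * i.hp) := by
  obtain ⟨C2, hC2, h2⟩ := l9u_U2r bd bda bdb 𝕂 𝓕 𝓕a 𝓕b D
  obtain ⟨C3, hC3, h3⟩ := l9u_U3r bd bda bdb 𝕂 𝓕 𝓕a 𝓕b D
  refine ⟨3 * C3 + 2 * C2, by positivity, fun i lam A r hA hl hR hd hm => ?_⟩
  have hc := i.c_pos
  have hh' := i.hp_nonneg
  have hp : 0 ≤ i.c ^ 3 * i.hp := mul_nonneg (pow_nonneg hc.le _) hh'
  have hAA : A ≤ A ^ 2 := by nlinarith
  have hq : 0 ≤ lam * (i.c ^ 3 * i.hp) := mul_nonneg hl hp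
  rcases hm with ⟨rfl, hS⟩ | ⟨rfl, hD⟩
  · refine (h3 i hR hS.siz hd).trans ?_
    have a1 : i.c ^ 4 * i.hp ≤ A * lam * (i.c ^ 3 * i.hp) := by
      have : i.c ^ 4 * i.hp = i.c * (i.c ^ 3 * i.hp) := by ring
      rw [this]; exact mul_le_mul_of_nonneg_right hS.c_lam hp
    have a2 : i.ε * (i.c * i.hp) ≤ A * lam * (i.c ^ 3 * i.hp) := by
      have : A * lam * (i.c ^ 3 * i.hp) = (A * lam * i.c ^ 2) * (i.c * i.hp) := by ring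
      rw [this]; exact mul_le_mul_of_nonneg_right hS.e_lam (mul_nonneg hc.le hh')
    have a3 : i.c ^ 3 * i.hp * (|i.h| + i.η / |i.h|) ≤ A * lam * (i.c ^ 3 * i.hp) := by
      rw [mul_comm]; exact mul_le_mul_of_nonneg_right hS.h_lam hp
    have a4 : A * lam * (i.c ^ 3 * i.hp) ≤ A ^ 2 * lam * (i.c ^ 3 * i.hp) := by
      rw [mul_assoc, mul_assoc]; exact mul_le_mul_of_nonneg_right hAA hq
    have a5 : 0 ≤ A ^ 2 * lam * (i.c ^ 3 * i.hp) := by rw [mul_assoc]; exact mul_nonneg (sq_nonneg _) hq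
    calc _ ≤ C3 * (3 * (A ^ 2 * lam * (i.c ^ 3 * i.hp))) := mul_le_mul_of_nonneg_left (by linarith) hC3
      _ ≤ (3 * C3 + 2 * C2) * A ^ 2 * lam * (i.c ^ 3 * i.hp) := by nlinarith
  · obtain ⟨b1, -, b3⟩ := h2 i hR hd
    refine (l14FD_rem i.h_ne b1 b3).trans ?_
    have hh : 0 < |i.h| := abs_pos.2 i.h_ne
    have a1 : |(0 : ℝ)| + i.del / |i.h| ≤ A * lam := by
      rw [abs_zero, zero_add, div_le_iff₀ hh]; exact hD.del_lam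
    have a2 : i.ε * i.c ≤ A * i.c ^ 3 := by
      have : A * i.c ^ 3 = (A * i.c ^ 2) * i.c := by ring
      rw [this]; exact mul_le_mul_of_nonneg_right hD.e_c hc.le
    have a3 : (i.c ^ 3 + i.ε * i.c) * i.hp ≤ 2 * A * (i.c ^ 3 * i.hp) := by
      have : i.c ^ 3 + i.ε * i.c ≤ 2 * A * i.c ^ 3 := by nlinarith [pow_nonneg hc.le 3]
      calc _ ≤ (2 * A * i.c ^ 3) * i.hp := mul_le_mul_of_nonneg_right this hh'
        _ = _ := by ring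
    have a4 : 0 ≤ (i.c ^ 3 + i.ε * i.c) * i.hp :=
      mul_nonneg (add_nonneg (pow_nonneg hc.le _) (mul_nonneg i.e_nonneg hc.le)) hh'
    have a5 : 0 ≤ A * lam := mul_nonneg (by linarith) hl
    calc _ ≤ (A * lam) * (C2 * (2 * A * (i.c ^ 3 * i.hp))) :=
          mul_le_mul a1 (mul_le_mul_of_nonneg_left a3 hC2) (mul_nonneg hC2 a4) a5
      _ = 2 * C2 * (A ^ 2 * (lam * (i.c ^ 3 * i.hp))) := by ring
      _ ≤ (3 * C3 + 2 * C2) * A ^ 2 * lam * (i.c ^ 3 * i.hp) := by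
          have : 0 ≤ A ^ 2 * (lam * (i.c ^ 3 * i.hp)) := mul_nonneg (sq_nonneg _) hq
          nlinarith

/-- the factor `|r| + del / |h|` on both paths -/
theorem l9u_rd_le {bd bda bdb : L14Bd} {𝕂 𝓕 𝓕a 𝓕b : Type} [CommRing 𝕂] [CommRing 𝓕] [CommRing 𝓕a] [CommRing 𝓕b] {j D : ℕ}
    (i : L9uPt bd bda bdb 𝕂 𝓕 𝓕a 𝓕b j D) {lam A r : ℝ} (hA : 1 ≤ A) (hl1 : lam ≤ 1)
    (hm : (|r| ≤ 1 ∧ i.NumS lam A) ∨ (r = 0 ∧ i.NumD lam A)) : |r| + i.del / |i.h| ≤ 2 * A := by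
  have hh : 0 < |i.h| := abs_pos.2 i.h_ne
  rcases hm with ⟨hr, hS⟩ | ⟨rfl, hD⟩
  · have : i.del / |i.h| ≤ 1 := by rw [div_le_iff₀ hh, one_mul]; exact hS.siz.del_le
    linarith
  · have : i.del / |i.h| ≤ A * lam := by rw [div_le_iff₀ hh]; exact hD.del_lam
    rw [abs_zero]
    nlinarith

/-- **crude bound** (some defect factor): `|FD X| ≤ C A c²`, `|X| ≤ C A c²` -/
theorem l9u_FD_crude (j D : ℕ) (hj : 1 ≤ j) : ∃ C : ℝ, 0 ≤ C ∧ ∀ (i : L9uPt bd bda bdb 𝕂 𝓕 𝓕a 𝓕b j D) (lam A r : ℝ),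
    1 ≤ A → 0 ≤ lam → lam ≤ 1 → ((|r| ≤ 1 ∧ i.NumS lam A) ∨ (r = 0 ∧ i.NumD lam A)) →
      |l14FD r i.h i.Xa i.Xb| ≤ C * A * i.c ^ 2 ∧ |i.Xa| ≤ C * A * i.c ^ 2 := by
  obtain ⟨C1, hC1, h1⟩ := l9u_U1 bd bda bdb 𝕂 𝓕 𝓕a 𝓕b j D hj
  refine ⟨2 * C1, by positivity, fun i lam A r hA hl hl1 hm => ?_⟩
  obtain ⟨b1, -, b3⟩ := h1 i
  have hq : 0 ≤ C1 * i.c ^ 2 := mul_nonneg hC1 (sq_nonneg _)
  constructor
  · refine (l14FD_rem i.h_ne b1 b3).trans ?_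
    calc _ ≤ (2 * A) * (C1 * i.c ^ 2) := mul_le_mul_of_nonneg_right (l9u_rd_le i hA hl1 hm) hq
      _ = _ := by ring
  · refine b1.trans ?_
    nlinarith

/-- **crude bound, refined**: `|FD X| ≤ C A c³ h'`, `|X| ≤ C A c³ h'` -/
theorem l9u_FD_crude_r (D : ℕ) : ∃ C : ℝ, 0 ≤ C ∧ ∀ (i : L9uPt bd bda bdb 𝕂 𝓕 𝓕a 𝓕b 2 D) (lam A r : ℝ),
    1 ≤ A → 0 ≤ lam → lam ≤ 1 → i.Γ.Dist i.c i.s → i.R ≠ {0, 1} → ((|r| ≤ 1 ∧ i.NumS lam A) ∨ (r = 0 ∧ i.NumD lam A)) →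
      |l14FD r i.h i.Xa i.Xb| ≤ C * A * (i.c ^ 3 * i.hp) ∧ |i.Xa| ≤ C * A * (i.c ^ 3 * i.hp) := by
  obtain ⟨C1, hC1, h1⟩ := l9u_U1r bd bda bdb 𝕂 𝓕 𝓕a 𝓕b D
  refine ⟨2 * C1, by positivity, fun i lam A r hA hl hl1 hd hR hm => ?_⟩
  obtain ⟨b1, -, b3⟩ := h1 i hd hR
  have hq : 0 ≤ C1 * (i.c ^ 3 * i.hp) := mul_nonneg hC1 (mul_nonneg (pow_nonneg i.c_pos.le _) i.hp_nonneg)
  constructor
  · refine (l14FD_rem i.h_ne b1 b3).trans ?_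
    calc _ ≤ (2 * A) * (C1 * (i.c ^ 3 * i.hp)) := mul_le_mul_of_nonneg_right (l9u_rd_le i hA hl1 hm) hq
      _ = _ := by ring
  · refine b1.trans ?_
    nlinarith

end modes

/-! ## 4. the link record, (E4) at one skeleton -/

/-- **(E4)**, form produced here: `main` = `L9Q.E4.main`;   `ref` with the factor `max (min v_i) U / m_c` (the error of (M) is additive: it is not relative to `min v_i`; the consumer uses `max (min v_i) Y / w`, `Y ≥ U`) -/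
structure L9uE4 (Q : L9Q) (A Cs cmax : ℝ) : Prop where
  main : ∀ n, 2 ≤ n → n ≤ 4 → ∀ R, R ⊆ Finset.range n → R.Nonempty → ∀ c, c ≤ Q.N + 1 → Q.U ≤ Q.mc c → Q.mc c ≤ cmax →
    ∀ sk, Q.Sep Cs n c sk →
      |l9rB (l9aTab Q.N (2 * n)) (Q.Ht n R) (2 * n) c sk| ≤ A * (Q.mc c ^ 3 / Q.mc c ^ n) * Q.G4 n R c sk * l9rVol Q.ms (2 * n) c sk
  ref : ∀ R, R ⊆ Finset.range 2 → R.Nonempty → ∀ c, c ≤ Q.N + 1 → Q.U ≤ Q.mc c → Q.mc c ≤ cmax →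
    ∀ sk, Q.Sep Cs 2 c sk → ¬ l9Same sk →
      |l9rB (l9aTab Q.N 4) (Q.Ht 2 R) 4 c sk|
        ≤ A * Q.mc c * Q.G4 2 R c sk * (max (min (Q.vm sk 0) (Q.vm sk 1)) Q.U / Q.mc c) * l9rVol Q.ms 4 c sk

open Classical in
/-- **THE LINK** between the point `Q`, one skeleton `sk` at the cut of depth `c` (blocks `β`, representatives `ρ`), the set `R`, and a point `i` of the package L14.      `A` = loss.
SUPPLIERS: `gr, sp` + `keya, keyb` 219 (`L9kyDic`, `L09/Key`: `i.s = l9kySk Q.ms hD b`), `Ka, Kb` 276 (`l9l_K_llJs`), `ba .. bcb` definitional in model 2 (`i.b e = (b_t(v_e), b_{t+h}(v_e))`),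
`m` 263 (`L09/GridM`, (M°) WITHOUT defect factors), `md` 120 (`GridE6`: (E6), `b_bd`), 47 / 288 (the pair model itself = the fields of `i`). -/
structure L9uLk {bd bda bdb : L14Bd} {𝕂 𝓕 𝓕a 𝓕b : Type} [CommRing 𝕂] [CommRing 𝓕] [CommRing 𝓕a] [CommRing 𝓕b] (Q : L9Q) (A : ℝ) {n D c : ℕ}
    {sk : JtTopo} {β ρ : ℕ → ℕ} (hb : L9kBlk Q.N (2 * n) D c sk β ρ) (hsp : ∀ i, i < n → sk (2 * i) (2 * i + 1) < c) (R : Finset ℕ)
    (i : L9uPt bd bda bdb 𝕂 𝓕 𝓕a 𝓕b n D) : Prop where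
  R_eq : i.R = R
  c_eq : i.c = trPm Q.ms c
  gr : i.Γ = l9lGr hb hsp
  sp : ∀ x y, x < 2 * n → y < 2 * n → sk x y < c → ∀ X Y : Fin D, X.1 = β x → Y.1 = β y → i.s.split (trPm Q.ms c) X Y = trPm Q.ms (sk x y)
  Ka : L9lK Q.N (l9uYf Q Q.t)
  Kb : L9lK Q.N (l9uYf Q (Q.t + i.h))
  keya : L9lKey Q.ms Q.N c D (l9kG sk ρ) (l9uYf Q Q.t) i.La (trPm Q.ms c) i.s
  keyb : L9lKey Q.ms Q.N c D (l9kG sk ρ) (l9uYf Q (Q.t + i.h)) i.Lb (trPm Q.ms c) i.s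
  ba : ∀ e : Fin n, i.P.pa.hK (i.b e) = (l9uYf Q Q.t).bC (sk (2 * e) (2 * e + 1))
  bb : ∀ e : Fin n, i.P.pb.hK (i.b e) = (l9uYf Q (Q.t + i.h)).bC (sk (2 * e) (2 * e + 1))
  bca : i.P.pa.hK i.bc = (l9uYf Q Q.t).bC (sk 0 1)
  bcb : i.P.pb.hK i.bc = (l9uYf Q (Q.t + i.h)).bC (sk 0 1)
  m : ∃ η : ℝ, 0 ≤ η ∧ η ≤ A * (Q.lam * Q.U ^ 3) ∧
    |∑ τ ∈ (l9aTab Q.N (2 * n)).filter (fun τ => l9rTc (2 * n) c τ = sk),
        (l9uHt Q.ms Q.N (l9uYf Q (Q.t + i.h)) n R τ - l9uHt Q.ms Q.N (l9uYf Q Q.t) n R τ - i.h * l9uHd Q.ms Q.N (l9uYf Q) Q.t n R τ)|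
      ≤ |i.h| * (η * l9rVol Q.ms (2 * n) c sk)
  md : (Q.u = 1 ∧ Q.e = 1 / 6 ∧ i.NumS Q.lam A) ∨ (Q.u = 0 ∧ Q.e = 0 ∧ i.NumD Q.lam A)

/-- **THE SUPPLIES AT ONE POINT**.      `pt`: only the skeletons of POSITIVE volume (a depth `v` with `b(v)` far from `b∘` has `μ_v = 0`: remark of 11);   `deg`: zero volume ⟹ the grouped coefficient vanishes (pure combinatorics: SKW; 11 `l9es_deg`) -/
structure L9uSup (bd bda bdb : L14Bd) (𝕂 𝓕 𝓕a 𝓕b : Type) [CommRing 𝕂] [CommRing 𝓕] [CommRing 𝓕a] [CommRing 𝓕b] (Q : L9Q) (A Cs cmax : ℝ) : Prop where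
  A1 : 1 ≤ A
  Cs1 : 1 < Cs
  lam_pos : 0 < Q.lam
  lam_le : Q.lam ≤ 1
  U_pos : 0 < Q.U
  cmax_le : cmax ≤ 1
  ms : IsMs Q.N Q.ms
  dd : ∀ v, DifferentiableAt ℝ (fun t' => (l9uYf Q t').dC v) Q.t
  dy : ∀ (n : ℕ) (R : Finset ℕ) (τ : JtTopo), τ ∈ l9aTab Q.N (2 * n) → DifferentiableAt ℝ (fun t' => l9uy (l9uYf Q t') n R τ) Q.t
  pt : ∀ (n D c : ℕ) (sk : JtTopo) (β ρ : ℕ → ℕ) (R : Finset ℕ) (hb : L9kBlk Q.N (2 * n) D c sk β ρ)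
    (hsp : ∀ i, i < n → sk (2 * i) (2 * i + 1) < c), 2 ≤ n → n ≤ 4 → 1 ≤ D → R ⊆ Finset.range n → R.Nonempty → c ≤ Q.N + 1 →
    Q.U ≤ Q.mc c → Q.mc c ≤ cmax → Q.Sep Cs n c sk → l9rVol Q.ms (2 * n) c sk ≠ 0 → ∃ i : L9uPt bd bda bdb 𝕂 𝓕 𝓕a 𝓕b n D, L9uLk Q A hb hsp R i
  deg : ∀ (n c : ℕ) (sk : JtTopo) (R : Finset ℕ), 2 ≤ n → n ≤ 4 → c ≤ Q.N + 1 → 0 < Q.mc c → Q.Sep Cs n c sk → l9rVol Q.ms (2 * n) c sk = 0 →
    l9rB (l9aTab Q.N (2 * n)) (Q.Ht n R) (2 * n) c sk = 0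

/-! ### masses, forks -/

theorem l9u_ms_top (Q : L9Q) : Q.ms (Q.N + 1) = Q.ms Q.N := by
  unfold L9Q.ms L9Q.N llMs
  rw [List.getElem?_eq_none (by simp), List.getElem?_eq_none (by simp)]

/-- the incoming mass of a depth is at most the mass of the stage -/
theorem l9u_pm_le (Q : L9Q) (hms : IsMs Q.N Q.ms) {v : ℕ} (hv : v ≤ Q.N + 1) : trPm Q.ms v ≤ Q.ms v := by
  unfold trPm
  split_ifs with h0
  · exact hms.nonneg v
  · rcases Nat.lt_or_ge v (Q.N + 1) with h1 | h1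
    · exact hms.mono _ _ (by omega) (by omega)
    · have : v = Q.N + 1 := by omega
      subst this
      rw [l9u_ms_top]
      exact le_of_eq rfl

/-- **separation ⟹ the designated splits are strictly below the cut** -/
theorem l9u_sep_hsp (Q : L9Q) (hms : IsMs Q.N Q.ms) {Cs : ℝ} {n c : ℕ} {sk : JtTopo} (hCs : 1 < Cs) (hpos : 0 < Q.mc c) (hc : c ≤ Q.N + 1)
    (hle : ∀ i, i < n → sk (2 * i) (2 * i + 1) ≤ c) (h : Q.Sep Cs n c sk) : ∀ i, i < n → sk (2 * i) (2 * i + 1) < c := by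
  intro i hi
  by_contra hcon
  have e : sk (2 * i) (2 * i + 1) = c := le_antisymm (hle i hi) (not_lt.1 hcon)
  have h1 := h i hi
  unfold L9Q.vm at h1
  rw [e] at h1
  have h2 : Q.mc c ≤ Q.ms c := l9u_pm_le Q hms hc
  nlinarith

/-- every split value below the cut is the depth of a skeleton fork -/
theorem l9u_fork {N n c : ℕ} {sk : JtTopo} (hsk : IsTr N n sk) {x y t : ℕ} (hx : x < n) (hy : y < n) (hxy : sk x y = t) (ht : t < c)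
    (hc : c ≤ N + 1) : ∃ x', (x', t) ∈ l9rFk n c sk := by
  obtain ⟨a1, a2, a3⟩ := tra2_rp_spec hsk hx (j := t) (by omega)
  have hx' : tra2Rp sk t x < n := by omega
  refine ⟨tra2Rp sk t x, ?_⟩
  unfold l9rFk
  rw [Finset.mem_filter, Finset.mem_product, Finset.mem_range, Finset.mem_range]
  refine ⟨⟨hx', ht⟩, a3, ?_⟩
  rcases Nat.lt_or_ge t (sk x (tra2Rp sk t x)) with h1 | h1
  · refine ⟨y, Finset.mem_range.2 hy, ?_⟩
    have u1 := hsk.ultra (tra2Rp sk t x) x y hx' hx hy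
    have u2 := hsk.ultra x (tra2Rp sk t x) y hx hx' hy
    have s1 := hsk.symm x (tra2Rp sk t x) hx hx'
    show sk (tra2Rp sk t x) y = t
    omega
  · refine ⟨x, Finset.mem_range.2 hx, ?_⟩
    have s1 := hsk.symm x (tra2Rp sk t x) hx hx'
    show sk (tra2Rp sk t x) x = t
    omega

/-- a skeleton of positive volume: the stages of its splits have positive mass -/
theorem l9u_mu_pos {N n c : ℕ} {ms : ℕ → ℝ} {sk : JtTopo} (hsk : IsTr N n sk) (hc : c ≤ N + 1) (hV : l9rVol ms n c sk ≠ 0)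
    {x y : ℕ} (hx : x < n) (hy : y < n) (ht : sk x y < c) : l9rMu ms (sk x y) ≠ 0 := by
  obtain ⟨x', hm⟩ := l9u_fork hsk hx hy rfl ht hc
  unfold l9rVol at hV
  have := (Finset.prod_ne_zero_iff.1 hV) _ hm
  intro h0
  apply this
  show l9rMu ms (sk x y) / trPm ms c = 0
  rw [h0, zero_div]

/-- strict monotonicity of the incoming masses above a stage of positive mass -/
theorem l9u_pm_lt {N : ℕ} {ms : ℕ → ℝ} (hms : IsMs N ms) {a b : ℕ} (hab : a < b) (hb : b ≤ N + 1) (hmu : l9rMu ms a ≠ 0) :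
    trPm ms a < trPm ms b := by
  have h1 : trPm ms b = ms (b - 1) := by unfold trPm; rw [if_neg (by omega)]
  have h2 : ms a ≤ ms (b - 1) := hms.mono _ _ (by omega) (by omega)
  have h3 : trPm ms a ≤ ms a := by
    unfold trPm
    split_ifs
    · exact hms.nonneg a
    · exact hms.mono _ _ (by omega) (by omega)
  have h4 : trPm ms a ≠ ms a := by
    intro e
    apply hmu
    unfold l9rMu
    rw [e, sub_self]
  rw [h1]
  exact lt_of_lt_of_le (lt_of_le_of_ne h3 h4) h2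

/-- **distinct designated vertices, positive volume ⟹ distinct forks of the skeleton (in masses)** -/
theorem l9u_dist_ms {N c : ℕ} {ms : ℕ → ℝ} (hms : IsMs N ms) {sk : JtTopo} (hsk : IsTr N 4 sk) (hc : c ≤ N + 1) (hV : l9rVol ms 4 c sk ≠ 0)
    (h01 : sk 0 1 < c) (h23 : sk 2 3 < c) (hd : ¬ l9Same sk) :
    trPm ms (sk 0 1) ≠ trPm ms (sk 2 3) ∨ (sk 0 2 < c ∧ trPm ms (sk 0 2) < min (trPm ms (sk 0 1)) (trPm ms (sk 2 3))) := by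
  unfold l9Same at hd
  rcases Nat.lt_trichotomy (sk 0 1) (sk 2 3) with h | h | h
  · exact Or.inl (l9u_pm_lt hms h (by omega) (l9u_mu_pos hsk hc hV (by norm_num) (by norm_num) h01)).ne
  · have h2 : sk 0 2 < sk 0 1 := by
      by_contra hcon
      exact hd ⟨h, not_lt.1 hcon⟩
    right
    have h3 := l9u_pm_lt hms h2 (by omega) (l9u_mu_pos hsk hc hV (by norm_num) (by norm_num) (by omega))
    refine ⟨by omega, ?_⟩
    rw [← h, min_self]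
    exact h3
  · exact Or.inl (l9u_pm_lt hms h (by omega) (l9u_mu_pos hsk hc hV (by norm_num) (by norm_num) h23)).ne'

/-! ### the link in the words of `l9u_fd` -/

section link

variable {bd bda bdb : L14Bd} {𝕂 𝓕 𝓕a 𝓕b : Type} [CommRing 𝕂] [CommRing 𝓕] [CommRing 𝓕a] [CommRing 𝓕b] {Q : L9Q} {A : ℝ} {n D c : ℕ}
  {sk : JtTopo} {β ρ : ℕ → ℕ} {hb : L9kBlk Q.N (2 * n) D c sk β ρ} {hsp : ∀ i, i < n → sk (2 * i) (2 * i + 1) < c} {R : Finset ℕ}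
  {i : L9uPt bd bda bdb 𝕂 𝓕 𝓕a 𝓕b n D}

theorem L9uLk.Xa (l : L9uLk Q A hb hsp R i) :
    i.Xa = l14X i.La (l9lGr hb hsp) (trPm Q.ms c) i.s (l9uB (l9uYf Q Q.t) sk R) (l9lBc (l9uYf Q Q.t) sk R) := by
  rw [i.Xa_eq, l.gr, l.c_eq]
  congr 1
  · funext e
    unfold L9uPt.bR l9uB
    rw [l.R_eq]
    split_ifs
    · exact l.ba e
    · exact map_one _
  · unfold L9uPt.bcR l9lBc
    rw [l.R_eq]
    split_ifs
    · exact l.bca
    · exact map_zero _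

theorem L9uLk.Xb (l : L9uLk Q A hb hsp R i) :
    i.Xb = l14X i.Lb (l9lGr hb hsp) (trPm Q.ms c) i.s (l9uB (l9uYf Q (Q.t + i.h)) sk R) (l9lBc (l9uYf Q (Q.t + i.h)) sk R) := by
  rw [i.Xb_eq, l.gr, l.c_eq]
  congr 1
  · funext e
    unfold L9uPt.bR l9uB
    rw [l.R_eq]
    split_ifs
    · exact l.bb e
    · exact map_one _
  · unfold L9uPt.bcR l9lBc
    rw [l.R_eq]
    split_ifs
    · exact l.bcb
    · exact map_zero _

/-- **(E4) at one skeleton, `E`-form**: `E` = bound of the finite difference of `X` (and of `X` itself if there is a defect factor) -/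
theorem l9u_skel (l : L9uLk Q A hb hsp R i) (hms : IsMs Q.N Q.ms) (hc : c ≤ Q.N + 1) (hpos : 0 < trPm Q.ms c) (hn : 1 ≤ n) (hD : 1 ≤ D)
    (hR : R ⊆ Finset.range n) (dd : ∀ v, DifferentiableAt ℝ (fun t' => (l9uYf Q t').dC v) Q.t)
    (dy : ∀ τ ∈ l9aTab Q.N (2 * n), DifferentiableAt ℝ (fun t' => l9uy (l9uYf Q t') n R τ) Q.t) {E : ℝ}
    (hX : |l14FD (Q.u - Q.e * R.card) i.h i.Xa i.Xb| ≤ E) (hX0 : R ≠ Finset.range n → |i.Xa| ≤ E) :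
    ∃ η : ℝ, 0 ≤ η ∧ η ≤ A * (Q.lam * Q.U ^ 3) ∧
      |l9rB (l9aTab Q.N (2 * n)) (Q.Ht n R) (2 * n) c sk|
        ≤ (∏ k ∈ Finset.range n \ R, Q.dA (sk (2 * k) (2 * k + 1)))
          * (((((2 : ℝ) ^ n * (n ! : ℝ))⁻¹ * (D : ℝ) ^ (D - 1) / trPm Q.ms c) * E + η) * l9rVol Q.ms (2 * n) c sk) := by
  obtain ⟨η, hη0, hη, hM⟩ := l.m
  refine ⟨η, hη0, hη, ?_⟩
  have hVol := l9r_vol_nonneg hms (2 * n) hc sk
  have hCW : 0 ≤ ((2 : ℝ) ^ n * (n ! : ℝ))⁻¹ * (D : ℝ) ^ (D - 1) / trPm Q.ms c := by positivity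
  rw [l.Xa, l.Xb] at hX
  rw [l9u_B_eq Q hsp R dy dd]
  by_cases hRa : R = Finset.range n
  · obtain ⟨f1, -⟩ := l9u_fd hms hb hc hpos hn hD hsp hR (l9uYf Q) Q.t i.h_ne l.Ka l.Kb l.keya l.keyb hM hX le_rfl
    subst hRa
    rw [l9u_Df_all, Finset.sdiff_self, Finset.prod_empty]
    simp only [deriv_const', zero_mul, add_zero, one_mul]
    exact f1
  · have hX0' := hX0 hRa
    rw [l.Xa] at hX0'
    obtain ⟨f1, f0⟩ := l9u_fd hms hb hc hpos hn hD hsp hR (l9uYf Q) Q.t i.h_ne l.Ka l.Kb l.keya l.keyb hM hX hX0'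
    refine l9u_comb (l9u_Df_le Q n R sk dd) f1 (f0.trans ?_)
    exact mul_le_mul_of_nonneg_right (by linarith) hVol

end link


/-! ### the power counting -/

theorem l9u_CW {n D : ℕ} (hD : D ≤ 8) {cm : ℝ} (hcm : 0 < cm) :
    ((2 : ℝ) ^ n * (n ! : ℝ))⁻¹ * (D : ℝ) ^ (D - 1) / cm ≤ 8 ^ 7 / cm := by
  have h1 : ((2 : ℝ) ^ n * (n ! : ℝ))⁻¹ ≤ 1 := by
    apply inv_le_one_of_one_le₀
    have a1 : (1 : ℝ) ≤ 2 ^ n := one_le_pow₀ (by norm_num)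
    have a2 : (1 : ℝ) ≤ (n ! : ℝ) := by exact_mod_cast Nat.factorial_pos n
    nlinarith
  have h0 : 0 ≤ ((2 : ℝ) ^ n * (n ! : ℝ))⁻¹ := by positivity
  have h2 : (D : ℝ) ^ (D - 1) ≤ 8 ^ 7 := by
    have hD' : (D : ℝ) ≤ 8 := by exact_mod_cast hD
    calc (D : ℝ) ^ (D - 1) ≤ (8 : ℝ) ^ (D - 1) := pow_le_pow_left₀ (Nat.cast_nonneg _) hD' _
      _ ≤ 8 ^ 7 := pow_le_pow_right₀ (by norm_num) (by omega)
  have h3 : 0 ≤ (D : ℝ) ^ (D - 1) := by positivity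
  apply div_le_div_of_nonneg_right _ hcm.le
  nlinarith

theorem l9u_num_all {CW κ C A lam c U η : ℝ} {n : ℕ} (hn2 : 2 ≤ n) (hn4 : n ≤ 4) (hCW : CW ≤ κ / c) (hC : 0 ≤ C) (hA : 1 ≤ A)
    (hl : 0 ≤ lam) (hU : 0 ≤ U) (hUc : U ≤ c) (hc0 : 0 < c) (hc1 : c ≤ 1) (hη : η ≤ A * (lam * U ^ 3)) :
    CW * (C * A ^ 2 * lam * c ^ (6 - n)) + η ≤ (κ * C + 1) * A ^ 2 * (c ^ 3 / c ^ n) * (lam * c ^ 2) := by
  have e1 : c ^ (6 - n) = c * c ^ (5 - n) := by rw [← pow_succ']; congr 1; omega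
  have e2 : c ^ 3 / c ^ n * c ^ 2 = c ^ (5 - n) := by
    rw [div_mul_eq_mul_div, ← pow_add, div_eq_iff (pow_ne_zero _ hc0.ne'), ← pow_add]; congr 1; omega
  have hq0 : 0 ≤ c ^ (5 - n) := pow_nonneg hc0.le _
  have hUq : U ^ 3 ≤ c ^ (5 - n) :=
    (pow_le_pow_left₀ hU hUc 3).trans (pow_le_pow_of_le_one hc0.le hc1 (by omega))
  have hX : 0 ≤ C * A ^ 2 * lam * (c * c ^ (5 - n)) := by positivity
  have t1 : CW * (C * A ^ 2 * lam * (c * c ^ (5 - n))) ≤ κ * C * A ^ 2 * lam * c ^ (5 - n) := by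
    calc _ ≤ κ / c * (C * A ^ 2 * lam * (c * c ^ (5 - n))) := mul_le_mul_of_nonneg_right hCW hX
      _ = _ := by field_simp
  have t2 : η ≤ A ^ 2 * lam * c ^ (5 - n) := by
    have a1 : A * (lam * U ^ 3) ≤ A * (lam * c ^ (5 - n)) :=
      mul_le_mul_of_nonneg_left (mul_le_mul_of_nonneg_left hUq hl) (by linarith)
    have a2 : A * (lam * c ^ (5 - n)) ≤ A ^ 2 * (lam * c ^ (5 - n)) :=
      mul_le_mul_of_nonneg_right (by nlinarith) (mul_nonneg hl hq0)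
    linarith
  have e3 : (κ * C + 1) * A ^ 2 * (c ^ 3 / c ^ n) * (lam * c ^ 2) = (κ * C + 1) * A ^ 2 * lam * (c ^ 3 / c ^ n * c ^ 2) := by ring
  rw [e1, e3, e2]
  linarith

theorem l9u_num_d {CW κ C A lam c U η : ℝ} {n : ℕ} (hn2 : 2 ≤ n) (hκ : 0 ≤ κ) (hCW : CW ≤ κ / c) (hC : 0 ≤ C) (hA : 1 ≤ A)
    (hl1 : lam ≤ 1) (hU : 0 ≤ U) (hUc : U ≤ c) (hc0 : 0 < c) (hc1 : c ≤ 1) (hη : η ≤ A * (lam * U ^ 3)) :
    CW * (C * A * c ^ 2) + η ≤ (κ * C + 1) * A ^ 2 * (c ^ 3 / c ^ n) := by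
  have hp : c ≤ c ^ 3 / c ^ n := by
    rw [le_div_iff₀ (pow_pos hc0 _), ← pow_succ']
    exact pow_le_pow_of_le_one hc0.le hc1 (by omega)
  have hAA : A ≤ A ^ 2 := by nlinarith
  have hX : 0 ≤ C * A * c ^ 2 := by positivity
  have t1 : CW * (C * A * c ^ 2) ≤ κ * C * A ^ 2 * (c ^ 3 / c ^ n) := by
    calc _ ≤ κ / c * (C * A * c ^ 2) := mul_le_mul_of_nonneg_right hCW hX
      _ = κ * C * (A * c) := by field_simp
      _ ≤ κ * C * (A ^ 2 * (c ^ 3 / c ^ n)) :=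
          mul_le_mul_of_nonneg_left (mul_le_mul hAA hp hc0.le (sq_nonneg _)) (mul_nonneg hκ hC)
      _ = _ := by ring
  have hU1 : U ≤ 1 := hUc.trans hc1
  have hU3 : U ^ 3 ≤ U := by
    have : U ^ 3 = U ^ 2 * U := by ring
    rw [this]
    exact mul_le_of_le_one_left hU (pow_le_one₀ hU hU1)
  have t2 : η ≤ A ^ 2 * (c ^ 3 / c ^ n) := by
    have a1 : lam * U ^ 3 ≤ 1 * c := mul_le_mul hl1 (hU3.trans hUc) (pow_nonneg hU _) zero_le_one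
    have a2 : A * (lam * U ^ 3) ≤ A * c := by
      have := mul_le_mul_of_nonneg_left a1 (show 0 ≤ A by linarith)
      linarith
    have a3 : A * c ≤ A ^ 2 * (c ^ 3 / c ^ n) := mul_le_mul hAA hp hc0.le (sq_nonneg _)
    linarith
  linarith

theorem l9u_num_all_r {CW κ C A lam c U η hp M : ℝ} (hκ : 0 ≤ κ) (hCW : CW ≤ κ / c) (hC : 0 ≤ C) (hA : 1 ≤ A)
    (hl : 0 ≤ lam) (hU : 0 ≤ U) (hUc : U ≤ c) (hc0 : 0 < c) (hη : η ≤ A * (lam * U ^ 3)) (hp0 : 0 ≤ hp) (hpM : hp ≤ M) (hUM : U ≤ M) :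
    CW * (C * A ^ 2 * lam * (c ^ 3 * hp)) + η ≤ (κ * C + 1) * A ^ 2 * c * (lam * c ^ 2) * (M / c) := by
  have hM : 0 ≤ M := hp0.trans hpM
  have hX : 0 ≤ C * A ^ 2 * lam * (c ^ 3 * hp) := by positivity
  have t1 : CW * (C * A ^ 2 * lam * (c ^ 3 * hp)) ≤ κ * C * A ^ 2 * lam * c ^ 2 * M := by
    calc _ ≤ κ / c * (C * A ^ 2 * lam * (c ^ 3 * hp)) := mul_le_mul_of_nonneg_right hCW hX
      _ = κ * C * A ^ 2 * lam * c ^ 2 * hp := by field_simp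
      _ ≤ _ := mul_le_mul_of_nonneg_left hpM (by positivity)
  have t2 : η ≤ A ^ 2 * lam * c ^ 2 * M := by
    have a0 : U ^ 3 ≤ c ^ 2 * M := by
      have : U ^ 3 = U ^ 2 * U := by ring
      rw [this]
      exact mul_le_mul (pow_le_pow_left₀ hU hUc 2) hUM hU (sq_nonneg _)
    have a1 : A * (lam * U ^ 3) ≤ A * (lam * (c ^ 2 * M)) :=
      mul_le_mul_of_nonneg_left (mul_le_mul_of_nonneg_left a0 hl) (by linarith)
    have a2 : A * (lam * (c ^ 2 * M)) ≤ A ^ 2 * (lam * (c ^ 2 * M)) :=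
      mul_le_mul_of_nonneg_right (by nlinarith) (by positivity)
    linarith
  have e3 : (κ * C + 1) * A ^ 2 * c * (lam * c ^ 2) * (M / c) = (κ * C + 1) * A ^ 2 * lam * c ^ 2 * M := by field_simp
  rw [e3]
  linarith

theorem l9u_num_d_r {CW κ C A lam c U η hp M : ℝ} (hκ : 0 ≤ κ) (hCW : CW ≤ κ / c) (hC : 0 ≤ C) (hA : 1 ≤ A)
    (hl1 : lam ≤ 1) (hU : 0 ≤ U) (hUc : U ≤ c) (hc0 : 0 < c) (hc1 : c ≤ 1) (hη : η ≤ A * (lam * U ^ 3)) (hp0 : 0 ≤ hp)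
    (hpM : hp ≤ M) (hUM : U ≤ M) :
    CW * (C * A * (c ^ 3 * hp)) + η ≤ (κ * C + 1) * A ^ 2 * c * (M / c) := by
  have hM : 0 ≤ M := hp0.trans hpM
  have hAA : A ≤ A ^ 2 := by nlinarith
  have hX : 0 ≤ C * A * (c ^ 3 * hp) := by positivity
  have hc2 : c ^ 2 ≤ 1 := pow_le_one₀ hc0.le hc1
  have t1 : CW * (C * A * (c ^ 3 * hp)) ≤ κ * C * A ^ 2 * M := by
    calc _ ≤ κ / c * (C * A * (c ^ 3 * hp)) := mul_le_mul_of_nonneg_right hCW hX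
      _ = κ * C * (A * (c ^ 2 * hp)) := by field_simp
      _ ≤ κ * C * (A ^ 2 * M) := by
          refine mul_le_mul_of_nonneg_left (mul_le_mul hAA ?_ (by positivity) (sq_nonneg _)) (mul_nonneg hκ hC)
          calc c ^ 2 * hp ≤ 1 * M := mul_le_mul hc2 hpM hp0 zero_le_one
            _ = M := one_mul _
      _ = _ := by ring
  have hU1 : U ≤ 1 := hUc.trans hc1
  have hU3 : U ^ 3 ≤ U := by
    have : U ^ 3 = U ^ 2 * U := by ring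
    rw [this]
    exact mul_le_of_le_one_left hU (pow_le_one₀ hU hU1)
  have t2 : η ≤ A ^ 2 * M := by
    have a1 : lam * U ^ 3 ≤ 1 * M := mul_le_mul hl1 (hU3.trans hUM) (pow_nonneg hU _) zero_le_one
    have a2 : A * (lam * U ^ 3) ≤ A * M := by
      have := mul_le_mul_of_nonneg_left a1 (show 0 ≤ A by linarith)
      linarith
    have a3 : A * M ≤ A ^ 2 * M := mul_le_mul_of_nonneg_right hAA hM
    linarith
  have e3 : (κ * C + 1) * A ^ 2 * c * (M / c) = (κ * C + 1) * A ^ 2 * M := by field_simp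
  rw [e3]
  linarith

/-! ### (E4) at one skeleton -/

section skel

variable (bd bda bdb : L14Bd) (𝕂 𝓕 𝓕a 𝓕b : Type) [CommRing 𝕂] [CommRing 𝓕] [CommRing 𝓕a] [CommRing 𝓕b]

theorem l9u_dA_nonneg (Q : L9Q) (v : ℕ) : 0 ≤ Q.dA v := add_nonneg (abs_nonneg _) (abs_nonneg _)

/-- the weight of the operator on both paths -/
theorem l9u_mode {bd bda bdb : L14Bd} {𝕂 𝓕 𝓕a 𝓕b : Type} [CommRing 𝕂] [CommRing 𝓕] [CommRing 𝓕a] [CommRing 𝓕b] {n D : ℕ}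
    {i : L9uPt bd bda bdb 𝕂 𝓕 𝓕a 𝓕b n D} {Q : L9Q} {A : ℝ} (hn4 : n ≤ 4) {R : Finset ℕ} (hR : R ⊆ Finset.range n)
    (md : (Q.u = 1 ∧ Q.e = 1 / 6 ∧ i.NumS Q.lam A) ∨ (Q.u = 0 ∧ Q.e = 0 ∧ i.NumD Q.lam A)) :
    ((|Q.u - Q.e * R.card| ≤ 1 ∧ i.NumS Q.lam A) ∨ (Q.u - Q.e * R.card = 0 ∧ i.NumD Q.lam A)) ∧
    (R = Finset.range n → ((Q.u - Q.e * R.card = 1 - (n : ℝ) / 6 ∧ i.NumS Q.lam A) ∨ (Q.u - Q.e * R.card = 0 ∧ i.NumD Q.lam A))) := by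
  have hcard : R.card ≤ n := by simpa using Finset.card_le_card hR
  have h1 : (R.card : ℝ) ≤ 4 := by exact_mod_cast hcard.trans hn4
  have h0 : (0 : ℝ) ≤ R.card := Nat.cast_nonneg _
  rcases md with ⟨hu, he, hS⟩ | ⟨hu, he, hD⟩
  · refine ⟨Or.inl ⟨?_, hS⟩, fun hRa => Or.inl ⟨?_, hS⟩⟩
    · rw [hu, he, abs_le]; constructor <;> linarith
    · rw [hu, he, hRa, Finset.card_range]; ring
  · refine ⟨Or.inr ⟨?_, hD⟩, fun _ => Or.inr ⟨?_, hD⟩⟩ <;> rw [hu, he] <;> ring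

/-- **(E4) main, one skeleton** -/
theorem l9u_skel_main (n D : ℕ) (hn2 : 2 ≤ n) (hn4 : n ≤ 4) (hD1 : 1 ≤ D) (hD8 : D ≤ 8) : ∃ C : ℝ, 0 ≤ C ∧
    ∀ (Q : L9Q) (A Cs cmax : ℝ), L9uSup bd bda bdb 𝕂 𝓕 𝓕a 𝓕b Q A Cs cmax → ∀ (c : ℕ) (sk : JtTopo) (β ρ : ℕ → ℕ) (R : Finset ℕ)
      (hb : L9kBlk Q.N (2 * n) D c sk β ρ) (hsp : ∀ i, i < n → sk (2 * i) (2 * i + 1) < c) (i : L9uPt bd bda bdb 𝕂 𝓕 𝓕a 𝓕b n D),
      L9uLk Q A hb hsp R i → R ⊆ Finset.range n → c ≤ Q.N + 1 → Q.U ≤ Q.mc c → Q.mc c ≤ cmax →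
      |l9rB (l9aTab Q.N (2 * n)) (Q.Ht n R) (2 * n) c sk| ≤ C * A ^ 2 * (Q.mc c ^ 3 / Q.mc c ^ n) * Q.G4 n R c sk * l9rVol Q.ms (2 * n) c sk := by
  obtain ⟨Ca, hCa, Ha⟩ := l9u_FD_all bd bda bdb 𝕂 𝓕 𝓕a 𝓕b n D hn2 hn4
  obtain ⟨Cc, hCc, Hc⟩ := l9u_FD_crude bd bda bdb 𝕂 𝓕 𝓕a 𝓕b n D (by omega)
  refine ⟨8 ^ 7 * (Ca + Cc) + 1, by positivity, fun Q A Cs cmax S c sk β ρ R hb hsp i l hR hc hU hcm => ?_⟩
  have hpos : 0 < trPm Q.ms c := lt_of_lt_of_le S.U_pos hU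
  have hc1 : trPm Q.ms c ≤ 1 := hcm.trans S.cmax_le
  have hVol := l9r_vol_nonneg S.ms (2 * n) hc sk
  have hCW := l9u_CW (n := n) hD8 hpos
  obtain ⟨m1, m2⟩ := l9u_mode hn4 hR l.md
  have hA2 : 0 ≤ A ^ 2 := sq_nonneg _
  by_cases hRa : R = Finset.range n
  · have hX : |l14FD (Q.u - Q.e * R.card) i.h i.Xa i.Xb| ≤ (Ca + Cc) * A ^ 2 * Q.lam * trPm Q.ms c ^ (6 - n) := by
      refine (Ha i Q.lam A _ S.A1 S.lam_pos.le (l.R_eq.trans hRa) (m2 hRa)).trans ?_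
      rw [l.c_eq]
      have : 0 ≤ A ^ 2 * Q.lam * trPm Q.ms c ^ (6 - n) := mul_nonneg (mul_nonneg hA2 S.lam_pos.le) (pow_nonneg hpos.le _)
      nlinarith
    obtain ⟨η, -, hη, hB⟩ := l9u_skel l S.ms hc hpos (by omega) hD1 hR S.dd (fun τ hτ => S.dy n R τ hτ) hX (fun h => absurd hRa h)
    have hnum := l9u_num_all hn2 hn4 hCW (add_nonneg hCa hCc) S.A1 S.lam_pos.le S.U_pos.le hU hpos hc1 hη
    rw [hRa, Finset.sdiff_self, Finset.prod_empty, one_mul, ← hRa] at hB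
    refine hB.trans ?_
    have hG : Q.G4 n R c sk = Q.lam * Q.mc c ^ 2 := by unfold L9Q.G4; rw [if_pos hRa]
    rw [hG]
    exact mul_le_mul_of_nonneg_right hnum hVol
  · obtain ⟨x1, x0⟩ := Hc i Q.lam A _ S.A1 S.lam_pos.le S.lam_le m1
    have up : ∀ z : ℝ, z ≤ Cc * A * i.c ^ 2 → z ≤ (Ca + Cc) * A * trPm Q.ms c ^ 2 := by
      intro z hz
      rw [l.c_eq] at hz
      have : 0 ≤ A * trPm Q.ms c ^ 2 := mul_nonneg (by linarith [S.A1]) (sq_nonneg _)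
      nlinarith
    obtain ⟨η, -, hη, hB⟩ := l9u_skel l S.ms hc hpos (by omega) hD1 hR S.dd (fun τ hτ => S.dy n R τ hτ) (up _ x1) (fun _ => up _ x0)
    have hnum := l9u_num_d hn2 (by norm_num) hCW (add_nonneg hCa hCc) S.A1 S.lam_le S.U_pos.le hU hpos hc1 hη
    have hP : 0 ≤ ∏ k ∈ Finset.range n \ R, Q.dA (sk (2 * k) (2 * k + 1)) := Finset.prod_nonneg fun k _ => l9u_dA_nonneg Q _
    have hG : Q.G4 n R c sk = ∏ k ∈ Finset.range n \ R, Q.dA (sk (2 * k) (2 * k + 1)) := by unfold L9Q.G4; rw [if_neg hRa]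
    rw [hG]
    refine hB.trans ?_
    calc _ ≤ (∏ k ∈ Finset.range n \ R, Q.dA (sk (2 * k) (2 * k + 1)))
          * (((8 ^ 7 * (Ca + Cc) + 1) * A ^ 2 * (trPm Q.ms c ^ 3 / trPm Q.ms c ^ n)) * l9rVol Q.ms (2 * n) c sk) :=
          mul_le_mul_of_nonneg_left (mul_le_mul_of_nonneg_right hnum hVol) hP
      _ = _ := by unfold L9Q.mc; ring

/-- **(E4) refined, one skeleton** -/
theorem l9u_skel_ref (D : ℕ) (hD1 : 1 ≤ D) (hD8 : D ≤ 8) : ∃ C : ℝ, 0 ≤ C ∧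
    ∀ (Q : L9Q) (A Cs cmax : ℝ), L9uSup bd bda bdb 𝕂 𝓕 𝓕a 𝓕b Q A Cs cmax → ∀ (c : ℕ) (sk : JtTopo) (β ρ : ℕ → ℕ) (R : Finset ℕ)
      (hb : L9kBlk Q.N (2 * 2) D c sk β ρ) (hsp : ∀ i, i < 2 → sk (2 * i) (2 * i + 1) < c) (i : L9uPt bd bda bdb 𝕂 𝓕 𝓕a 𝓕b 2 D),
      L9uLk Q A hb hsp R i → R ⊆ Finset.range 2 → c ≤ Q.N + 1 → Q.U ≤ Q.mc c → Q.mc c ≤ cmax → ¬ l9Same sk →
      |l9rB (l9aTab Q.N (2 * 2)) (Q.Ht 2 R) (2 * 2) c sk|
        ≤ C * A ^ 2 * Q.mc c * Q.G4 2 R c sk * (max (min (Q.vm sk 0) (Q.vm sk 1)) Q.U / Q.mc c) * l9rVol Q.ms (2 * 2) c sk := by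
  obtain ⟨Ca, hCa, Ha⟩ := l9u_FD_all_r bd bda bdb 𝕂 𝓕 𝓕a 𝓕b D
  obtain ⟨Cc, hCc, Hc⟩ := l9u_FD_crude_r bd bda bdb 𝕂 𝓕 𝓕a 𝓕b D
  refine ⟨8 ^ 7 * (Ca + Cc) + 1, by positivity, fun Q A Cs cmax S c sk β ρ R hb hsp i l hR hc hU hcm hd => ?_⟩
  have hpos : 0 < trPm Q.ms c := lt_of_lt_of_le S.U_pos hU
  have hc1 : trPm Q.ms c ≤ 1 := hcm.trans S.cmax_le
  have hVol := l9r_vol_nonneg S.ms (2 * 2) hc sk
  have hCW := l9u_CW (n := 2) hD8 hpos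
  obtain ⟨m1, m2⟩ := l9u_mode (by norm_num) hR l.md
  have hA2 : 0 ≤ A ^ 2 := sq_nonneg _
  by_cases hV : l9rVol Q.ms (2 * 2) c sk = 0
  · -- zero volume: everything vanishes
    obtain ⟨η, -, -, hB⟩ := l9u_skel l S.ms hc hpos (by norm_num) hD1 hR S.dd (fun τ hτ => S.dy 2 R τ hτ)
      (le_max_left _ |i.Xa|) (fun _ => le_max_right _ _)
    rw [hV, mul_zero, mul_zero] at hB
    rw [hV, mul_zero]
    exact hB
  -- the designated forks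
  have v : ∀ e : Fin 2, (l9lGr hb hsp).vs (trPm Q.ms c) i.s e = trPm Q.ms (sk (2 * e) (2 * e + 1)) := fun e =>
    l.sp (2 * e) (2 * e + 1) (by have := e.2; omega) (by have := e.2; omega) (hsp e e.2) _ _ rfl rfl
  have v0 : (l9lGr hb hsp).vs (trPm Q.ms c) i.s 0 = trPm Q.ms (sk 0 1) := v 0
  have v1 : (l9lGr hb hsp).vs (trPm Q.ms c) i.s 1 = trPm Q.ms (sk 2 3) := v 1
  have h01 : sk 0 1 < c := hsp 0 (by norm_num)
  have h23 : sk 2 3 < c := hsp 1 (by norm_num)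
  have hdist : i.Γ.Dist i.c i.s := by
    rw [l.gr, l.c_eq]
    unfold L14Gr.Dist
    rw [v0, v1]
    rcases l9u_dist_ms S.ms hb.tr hc hV h01 h23 hd with h | ⟨h1, h2⟩
    · exact Or.inl h
    · right
      rw [l.sp 0 2 (by norm_num) (by norm_num) h1 _ _ rfl rfl]
      exact h2
  have hhp : i.hp = min (trPm Q.ms (sk 0 1)) (trPm Q.ms (sk 2 3)) := by
    unfold L9uPt.hp
    rw [l.gr, l.c_eq, v0, v1]
  have hpM : i.hp ≤ max (min (Q.vm sk 0) (Q.vm sk 1)) Q.U := by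
    refine le_trans ?_ (le_max_left _ _)
    rw [hhp]
    exact min_le_min (l9u_pm_le Q S.ms (by omega)) (l9u_pm_le Q S.ms (by omega))
  have hUM : Q.U ≤ max (min (Q.vm sk 0) (Q.vm sk 1)) Q.U := le_max_right _ _
  by_cases hRa : R = Finset.range 2
  · have hX : |l14FD (Q.u - Q.e * R.card) i.h i.Xa i.Xb| ≤ (Ca + Cc) * A ^ 2 * Q.lam * (trPm Q.ms c ^ 3 * i.hp) := by
      refine (Ha i Q.lam A _ S.A1 S.lam_pos.le (l.R_eq.trans hRa) hdist (m2 hRa)).trans ?_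
      rw [l.c_eq]
      have : 0 ≤ A ^ 2 * Q.lam * (trPm Q.ms c ^ 3 * i.hp) :=
        mul_nonneg (mul_nonneg hA2 S.lam_pos.le) (mul_nonneg (pow_nonneg hpos.le _) i.hp_nonneg)
      nlinarith
    obtain ⟨η, -, hη, hB⟩ := l9u_skel l S.ms hc hpos (by norm_num) hD1 hR S.dd (fun τ hτ => S.dy 2 R τ hτ) hX (fun h => absurd hRa h)
    have hnum := l9u_num_all_r (by norm_num) hCW (add_nonneg hCa hCc) S.A1 S.lam_pos.le S.U_pos.le hU hpos hη i.hp_nonneg hpM hUM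
    rw [hRa, Finset.sdiff_self, Finset.prod_empty, one_mul, ← hRa] at hB
    refine hB.trans ?_
    have hG : Q.G4 2 R c sk = Q.lam * Q.mc c ^ 2 := by unfold L9Q.G4; rw [if_pos hRa]
    rw [hG]
    exact mul_le_mul_of_nonneg_right hnum hVol
  · have hR01 : i.R ≠ {0, 1} := by
      rw [l.R_eq]
      intro h
      exact hRa (h.trans (by decide))
    obtain ⟨x1, x0⟩ := Hc i Q.lam A _ S.A1 S.lam_pos.le S.lam_le hdist hR01 m1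
    have up : ∀ z : ℝ, z ≤ Cc * A * (i.c ^ 3 * i.hp) → z ≤ (Ca + Cc) * A * (trPm Q.ms c ^ 3 * i.hp) := by
      intro z hz
      rw [l.c_eq] at hz
      have : 0 ≤ A * (trPm Q.ms c ^ 3 * i.hp) := mul_nonneg (by linarith [S.A1]) (mul_nonneg (pow_nonneg hpos.le _) i.hp_nonneg)
      nlinarith
    obtain ⟨η, -, hη, hB⟩ := l9u_skel l S.ms hc hpos (by norm_num) hD1 hR S.dd (fun τ hτ => S.dy 2 R τ hτ) (up _ x1) (fun _ => up _ x0)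
    have hnum := l9u_num_d_r (by norm_num) hCW (add_nonneg hCa hCc) S.A1 S.lam_le S.U_pos.le hU hpos hc1 hη i.hp_nonneg hpM hUM
    have hP : 0 ≤ ∏ k ∈ Finset.range 2 \ R, Q.dA (sk (2 * k) (2 * k + 1)) := Finset.prod_nonneg fun k _ => l9u_dA_nonneg Q _
    have hG : Q.G4 2 R c sk = ∏ k ∈ Finset.range 2 \ R, Q.dA (sk (2 * k) (2 * k + 1)) := by unfold L9Q.G4; rw [if_neg hRa]
    rw [hG]
    refine hB.trans ?_
    calc _ ≤ (∏ k ∈ Finset.range 2 \ R, Q.dA (sk (2 * k) (2 * k + 1)))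
          * (((8 ^ 7 * (Ca + Cc) + 1) * A ^ 2 * trPm Q.ms c * (max (min (Q.vm sk 0) (Q.vm sk 1)) Q.U / trPm Q.ms c)) * l9rVol Q.ms (2 * 2) c sk) :=
          mul_le_mul_of_nonneg_left (mul_le_mul_of_nonneg_right hnum hVol) hP
      _ = _ := by unfold L9Q.mc; ring

end skel

/-! ## 5. `Q.E4` -/

theorem l9u_G4_nonneg (Q : L9Q) (hl : 0 ≤ Q.lam) (n : ℕ) (R : Finset ℕ) (c : ℕ) (sk : JtTopo) : 0 ≤ Q.G4 n R c sk := by
  unfold L9Q.G4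
  split_ifs
  · exact mul_nonneg hl (sq_nonneg _)
  · exact Finset.prod_nonneg fun k _ => l9u_dA_nonneg Q _

theorem l9u_mc_nonneg (Q : L9Q) (hms : IsMs Q.N Q.ms) (c : ℕ) : 0 ≤ Q.mc c := by
  unfold L9Q.mc trPm
  split_ifs
  · exact le_rfl
  · exact hms.nonneg _

/-- the right side of `main` without the loss -/
theorem l9u_rhs_main (Q : L9Q) (hms : IsMs Q.N Q.ms) (hl : 0 ≤ Q.lam) (n : ℕ) (R : Finset ℕ) {c : ℕ} (hc : c ≤ Q.N + 1) (sk : JtTopo) :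
    0 ≤ (Q.mc c ^ 3 / Q.mc c ^ n) * Q.G4 n R c sk * l9rVol Q.ms (2 * n) c sk :=
  mul_nonneg (mul_nonneg (div_nonneg (pow_nonneg (l9u_mc_nonneg Q hms c) _) (pow_nonneg (l9u_mc_nonneg Q hms c) _))
    (l9u_G4_nonneg Q hl n R c sk)) (l9r_vol_nonneg hms (2 * n) hc sk)

/-- the right side of `ref` without the loss -/
theorem l9u_rhs_ref (Q : L9Q) (hms : IsMs Q.N Q.ms) (hl : 0 ≤ Q.lam) (hU : 0 ≤ Q.U) (R : Finset ℕ) {c : ℕ} (hc : c ≤ Q.N + 1) (sk : JtTopo) :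
    0 ≤ Q.mc c * Q.G4 2 R c sk * (max (min (Q.vm sk 0) (Q.vm sk 1)) Q.U / Q.mc c) * l9rVol Q.ms 4 c sk :=
  mul_nonneg (mul_nonneg (mul_nonneg (l9u_mc_nonneg Q hms c) (l9u_G4_nonneg Q hl 2 R c sk))
    (div_nonneg (le_max_of_le_right hU) (l9u_mc_nonneg Q hms c))) (l9r_vol_nonneg hms 4 hc sk)

/-- (E4) is monotone in the loss -/
theorem L9uE4.mono {Q : L9Q} {A A' Cs cmax : ℝ} (h : L9uE4 Q A Cs cmax) (hms : IsMs Q.N Q.ms) (hl : 0 ≤ Q.lam) (hU : 0 ≤ Q.U) (hA : A ≤ A') :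
    L9uE4 Q A' Cs cmax := by
  constructor
  · intro n hn2 hn4 R hR hRne c hc hUc hcm sk hsep
    refine (h.main n hn2 hn4 R hR hRne c hc hUc hcm sk hsep).trans ?_
    have := mul_le_mul_of_nonneg_right hA (l9u_rhs_main Q hms hl n R hc sk)
    calc _ = A * ((Q.mc c ^ 3 / Q.mc c ^ n) * Q.G4 n R c sk * l9rVol Q.ms (2 * n) c sk) := by ring
      _ ≤ A' * ((Q.mc c ^ 3 / Q.mc c ^ n) * Q.G4 n R c sk * l9rVol Q.ms (2 * n) c sk) := this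
      _ = _ := by ring
  · intro R hR hRne c hc hUc hcm sk hsep hd
    refine (h.ref R hR hRne c hc hUc hcm sk hsep hd).trans ?_
    have := mul_le_mul_of_nonneg_right hA (l9u_rhs_ref Q hms hl hU R hc sk)
    calc _ = A * (Q.mc c * Q.G4 2 R c sk * (max (min (Q.vm sk 0) (Q.vm sk 1)) Q.U / Q.mc c) * l9rVol Q.ms 4 c sk) := by ring
      _ ≤ A' * (Q.mc c * Q.G4 2 R c sk * (max (min (Q.vm sk 0) (Q.vm sk 1)) Q.U / Q.mc c) * l9rVol Q.ms 4 c sk) := this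
      _ = _ := by ring

open Classical in
/-- a table which is not a skeleton has an empty fibre -/
theorem l9u_B_empty {𝒯 : Finset JtTopo} {H : JtTopo → ℝ} {n c : ℕ} {sk : JtTopo} (h : ¬ ∃ τ₀ ∈ 𝒯, l9rTc n c τ₀ = sk) : l9rB 𝒯 H n c sk = 0 := by
  unfold l9rB
  refine Finset.sum_eq_zero fun τ hτ => ?_
  rw [Finset.mem_filter] at hτ
  exact absurd ⟨τ, hτ.1, hτ.2⟩ h

/-- **(E4) AT ONE POINT**: the constant depends on the bounds `bd, bda, bdb` of the models only -/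
theorem l9u_point (bd bda bdb : L14Bd) (𝕂 𝓕 𝓕a 𝓕b : Type) [CommRing 𝕂] [CommRing 𝓕] [CommRing 𝓕a] [CommRing 𝓕b] :
    ∃ C : ℝ, 0 ≤ C ∧ ∀ (Q : L9Q) (A Cs cmax : ℝ), L9uSup bd bda bdb 𝕂 𝓕 𝓕a 𝓕b Q A Cs cmax → L9uE4 Q (C * A ^ 2) Cs cmax := by
  classical
  have hm : ∀ p : {p : ℕ × ℕ // 2 ≤ p.1 ∧ p.1 ≤ 4 ∧ 1 ≤ p.2 ∧ p.2 ≤ 8}, _ :=
    fun p => l9u_skel_main bd bda bdb 𝕂 𝓕 𝓕a 𝓕b p.1.1 p.1.2 p.2.1 p.2.2.1 p.2.2.2.1 p.2.2.2.2
  have hr : ∀ p : {D : ℕ // 1 ≤ D ∧ D ≤ 8}, _ := fun p => l9u_skel_ref bd bda bdb 𝕂 𝓕 𝓕a 𝓕b p.1 p.2.1 p.2.2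
  choose Cm hCm Hm using hm
  choose Cr hCr Hr using hr
  -- one constant
  let Fm : ℕ × ℕ → ℝ := fun p => if h : 2 ≤ p.1 ∧ p.1 ≤ 4 ∧ 1 ≤ p.2 ∧ p.2 ≤ 8 then Cm ⟨p, h⟩ else 0
  let Fr : ℕ → ℝ := fun D => if h : 1 ≤ D ∧ D ≤ 8 then Cr ⟨D, h⟩ else 0
  have hFm : ∀ p, 0 ≤ Fm p := fun p => by
    show 0 ≤ (if h : 2 ≤ p.1 ∧ p.1 ≤ 4 ∧ 1 ≤ p.2 ∧ p.2 ≤ 8 then Cm ⟨p, h⟩ else 0)
    split_ifs with h
    · exact hCm _
    · exact le_rfl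
  have hFr : ∀ D, 0 ≤ Fr D := fun D => by
    show 0 ≤ (if h : 1 ≤ D ∧ D ≤ 8 then Cr ⟨D, h⟩ else 0)
    split_ifs with h
    · exact hCr _
    · exact le_rfl
  have hSm : 0 ≤ ∑ p ∈ Finset.range 5 ×ˢ Finset.range 9, Fm p := Finset.sum_nonneg fun p _ => hFm p
  have hSr : 0 ≤ ∑ D ∈ Finset.range 9, Fr D := Finset.sum_nonneg fun D _ => hFr D
  have lem : ∀ (p : ℕ × ℕ) (h : 2 ≤ p.1 ∧ p.1 ≤ 4 ∧ 1 ≤ p.2 ∧ p.2 ≤ 8),
      Cm ⟨p, h⟩ ≤ (∑ p ∈ Finset.range 5 ×ˢ Finset.range 9, Fm p) + ∑ D ∈ Finset.range 9, Fr D := by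
    intro p h
    have h1 : Fm p ≤ ∑ p ∈ Finset.range 5 ×ˢ Finset.range 9, Fm p :=
      Finset.single_le_sum (f := Fm) (fun q _ => hFm q) (by
        rw [Finset.mem_product, Finset.mem_range, Finset.mem_range]; omega)
    have h2 : Fm p = Cm ⟨p, h⟩ := dif_pos h
    linarith
  have ler : ∀ (D : ℕ) (h : 1 ≤ D ∧ D ≤ 8),
      Cr ⟨D, h⟩ ≤ (∑ p ∈ Finset.range 5 ×ˢ Finset.range 9, Fm p) + ∑ D ∈ Finset.range 9, Fr D := by
    intro D h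
    have h1 : Fr D ≤ ∑ D ∈ Finset.range 9, Fr D :=
      Finset.single_le_sum (f := Fr) (fun q _ => hFr q) (by rw [Finset.mem_range]; omega)
    have h2 : Fr D = Cr ⟨D, h⟩ := dif_pos h
    linarith
  refine ⟨(∑ p ∈ Finset.range 5 ×ˢ Finset.range 9, Fm p) + ∑ D ∈ Finset.range 9, Fr D, add_nonneg hSm hSr, fun Q A Cs cmax S => ?_⟩
  have hA2 : 0 ≤ A ^ 2 := sq_nonneg _
  constructor
  · intro n hn2 hn4 R hR hRne c hc hU hcm sk hsep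
    have hrhs := l9u_rhs_main Q S.ms S.lam_pos.le n R hc sk
    have hpos : 0 < Q.mc c := lt_of_lt_of_le S.U_pos hU
    by_cases hV : l9rVol Q.ms (2 * n) c sk = 0
    · rw [S.deg n c sk R hn2 hn4 hc hpos hsep hV, abs_zero]
      have := mul_nonneg (mul_nonneg (add_nonneg hSm hSr) hA2) hrhs
      calc (0 : ℝ) ≤ _ := this
        _ = _ := by ring
    by_cases hsk : ∃ τ₀ ∈ l9aTab Q.N (2 * n), l9rTc (2 * n) c τ₀ = sk
    · obtain ⟨τ₀, hτ₀, rfl⟩ := hsk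
      obtain ⟨D, β, ρ, hD1, hDn, hblk⟩ := l9k_blk_exists (l9a_mem_tab.mp hτ₀).1 hc (show 1 ≤ 2 * n by omega)
      have hsp := l9u_sep_hsp Q S.ms S.Cs1 hpos hc (fun i hi => hblk.le _ _ (by omega) (by omega) (by omega)) hsep
      obtain ⟨i, l⟩ := S.pt n D c _ β ρ R hblk hsp hn2 hn4 hD1 hR hRne hc hU hcm hsep hV
      have hp : 2 ≤ n ∧ n ≤ 4 ∧ 1 ≤ D ∧ D ≤ 8 := ⟨hn2, hn4, hD1, by omega⟩
      refine (Hm ⟨(n, D), hp⟩ Q A Cs cmax S c _ β ρ R hblk hsp i l hR hc hU hcm).trans ?_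
      have := mul_le_mul_of_nonneg_right (mul_le_mul_of_nonneg_right (lem (n, D) hp) hA2) hrhs
      calc _ = Cm ⟨(n, D), hp⟩ * A ^ 2 * ((Q.mc c ^ 3 / Q.mc c ^ n) * Q.G4 n R c (l9rTc (2 * n) c τ₀) * l9rVol Q.ms (2 * n) c (l9rTc (2 * n) c τ₀)) := by
            ring
        _ ≤ _ := this
        _ = _ := by ring
    · rw [l9u_B_empty hsk, abs_zero]
      have := mul_nonneg (mul_nonneg (add_nonneg hSm hSr) hA2) hrhs
      calc (0 : ℝ) ≤ _ := this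
        _ = _ := by ring
  · intro R hR hRne c hc hU hcm sk hsep hd
    have hrhs := l9u_rhs_ref Q S.ms S.lam_pos.le S.U_pos.le R hc sk
    have hpos : 0 < Q.mc c := lt_of_lt_of_le S.U_pos hU
    by_cases hV : l9rVol Q.ms (2 * 2) c sk = 0
    · have h0 : l9rB (l9aTab Q.N 4) (Q.Ht 2 R) 4 c sk = 0 := S.deg 2 c sk R le_rfl (by norm_num) hc hpos hsep hV
      rw [h0, abs_zero]
      have := mul_nonneg (mul_nonneg (add_nonneg hSm hSr) hA2) hrhs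
      calc (0 : ℝ) ≤ _ := this
        _ = _ := by ring
    by_cases hsk : ∃ τ₀ ∈ l9aTab Q.N (2 * 2), l9rTc (2 * 2) c τ₀ = sk
    · obtain ⟨τ₀, hτ₀, rfl⟩ := hsk
      obtain ⟨D, β, ρ, hD1, hDn, hblk⟩ := l9k_blk_exists (l9a_mem_tab.mp hτ₀).1 hc (show 1 ≤ 2 * 2 by omega)
      have hsp := l9u_sep_hsp Q S.ms S.Cs1 hpos hc (fun i hi => hblk.le _ _ (by omega) (by omega) (by omega)) hsep
      obtain ⟨i, l⟩ := S.pt 2 D c _ β ρ R hblk hsp le_rfl (by norm_num) hD1 hR hRne hc hU hcm hsep hV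
      have hp : 1 ≤ D ∧ D ≤ 8 := ⟨hD1, by omega⟩
      refine (Hr ⟨D, hp⟩ Q A Cs cmax S c _ β ρ R hblk hsp i l hR hc hU hcm hd).trans ?_
      have := mul_le_mul_of_nonneg_right (mul_le_mul_of_nonneg_right (ler D hp) hA2) hrhs
      calc _ = Cr ⟨D, hp⟩ * A ^ 2 * (Q.mc c * Q.G4 2 R c (l9rTc (2 * 2) c τ₀) * (max (min (Q.vm (l9rTc (2 * 2) c τ₀) 0) (Q.vm (l9rTc (2 * 2) c τ₀) 1)) Q.U / Q.mc c)
              * l9rVol Q.ms 4 c (l9rTc (2 * 2) c τ₀)) := by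
            ring
        _ ≤ _ := this
        _ = _ := by ring
    · have h0 : l9rB (l9aTab Q.N 4) (Q.Ht 2 R) 4 c sk = 0 := l9u_B_empty hsk
      rw [h0, abs_zero]
      have := mul_nonneg (mul_nonneg (add_nonneg hSm hSr) hA2) hrhs
      calc (0 : ℝ) ≤ _ := this
        _ = _ := by ring
/-! ## 6. the shapes -/

/-- (E4), size segment, produced form -/
def L9uE4S (𝔹 : LlBase) (F : LlFix) (Cs Cl : ℝ) : Prop := L9SbS 𝔹 F fun A Q => L9uE4 Q (A * (1 + Q.I.dot Q.pf Q.t)) Cs (Cl * Q.lam)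
/-- (E4), strength sweep, produced form -/
def L9uE4D (𝔹 : LlBase) (Mj : L9Mj) (κ : ℝ) (F : LlFix) (Cs cmax : ℝ) : Prop := L9SbD 𝔹 Mj κ F fun A Q => L9uE4 Q A Cs cmax

theorem l9u_shape_eqns_cite : True := by
  have := @L9uE4S.eq_1; have := @L9uE4D.eq_1
  trivial

/-- **EXIT, size segment** (owner of the physical supply `h`: helper11) -/
theorem l9u_E4S (𝔹 : LlBase) (F : LlFix) (Cs Cl : ℝ) (bd bda bdb : L14Bd) (𝕂 𝓕 𝓕a 𝓕b : Type) [CommRing 𝕂] [CommRing 𝓕] [CommRing 𝓕a] [CommRing 𝓕b]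
    (h : L9SbS 𝔹 F fun A Q => L9uSup bd bda bdb 𝕂 𝓕 𝓕a 𝓕b Q A Cs (Cl * Q.lam) ∧ 0 ≤ Q.I.dot Q.pf Q.t) : L9uE4S 𝔹 F Cs Cl := by
  obtain ⟨C, hC, hpt⟩ := l9u_point bd bda bdb 𝕂 𝓕 𝓕a 𝓕b
  intro δ hδ ε hε q hq
  obtain ⟨C1, N0, hN⟩ := h (δ / 2) (by linarith) ε hε q hq
  refine ⟨C * C1 ^ 2, N0, fun N hN0 => ?_⟩
  filter_upwards [hN N hN0] with Fs hFs m γ θ hy
  obtain ⟨hS, hdot⟩ := hFs m γ θ hy
  have hE := hpt _ _ _ _ hS
  have hx0 : 0 ≤ skX N := by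
    unfold skX
    exact Real.rpow_nonneg (Nat.cast_nonneg N) _
  have e : C * (C1 * skX N ^ (-(δ / 2))) ^ 2 = C * C1 ^ 2 * skX N ^ (-δ) := by
    rw [mul_pow, ← Real.rpow_natCast (skX N ^ (-(δ / 2))) 2, ← Real.rpow_mul hx0]
    have : -(δ / 2) * ((2 : ℕ) : ℝ) = -δ := by push_cast; ring
    rw [this]
    ring
  rw [e] at hE
  refine hE.mono hS.ms hS.lam_pos.le hS.U_pos.le ?_
  have h0 : 0 ≤ C * C1 ^ 2 * skX N ^ (-δ) := mul_nonneg (mul_nonneg hC (sq_nonneg _)) (Real.rpow_nonneg hx0 _)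
  exact le_mul_of_one_le_right h0 (by linarith)

/-- **EXIT, strength sweep** (owner of the physical supply `h`: helper166) -/
theorem l9u_E4D (𝔹 : LlBase) (Mj : L9Mj) (κ : ℝ) (F : LlFix) (Cs cmax : ℝ) (bd bda bdb : L14Bd) (𝕂 𝓕 𝓕a 𝓕b : Type) [CommRing 𝕂] [CommRing 𝓕]
    [CommRing 𝓕a] [CommRing 𝓕b] (h : L9SbD 𝔹 Mj κ F fun A Q => L9uSup bd bda bdb 𝕂 𝓕 𝓕a 𝓕b Q A Cs cmax) : L9uE4D 𝔹 Mj κ F Cs cmax := by
  obtain ⟨C, hC, hpt⟩ := l9u_point bd bda bdb 𝕂 𝓕 𝓕a 𝓕b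
  intro δ hδ ε hε q hq
  obtain ⟨C1, N0, hN⟩ := h (δ / 2) (by linarith) ε hε q hq
  refine ⟨C * C1 ^ 2, N0, fun N hN0 => ?_⟩
  filter_upwards [hN N hN0] with Fs hFs m ell γ t hy
  have hS := hFs m ell γ t hy
  have hE := hpt _ _ _ _ hS
  have hx0 : 0 ≤ skX N := by
    unfold skX
    exact Real.rpow_nonneg (Nat.cast_nonneg N) _
  have e : C * (C1 * skX N ^ (-(δ / 2))) ^ 2 = C * C1 ^ 2 * skX N ^ (-δ) := by
    rw [mul_pow, ← Real.rpow_natCast (skX N ^ (-(δ / 2))) 2, ← Real.rpow_mul hx0]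
    have : -(δ / 2) * ((2 : ℕ) : ℝ) = -δ := by push_cast; ring
    rw [this]
    ring
  rw [e] at hE
  exact hE

/-! ## 7. BRIDGE to the consumed form (`L09/RedC`: `L9Q.E4`, `L9cE4S`, `L9cE4D`; since the patch of 98 the two records have the same fields)      (helper219) -/

theorem L9uE4.e4 {Q : L9Q} {A Cs cmax : ℝ} (h : L9uE4 Q A Cs cmax) : Q.E4 A Cs cmax := ⟨h.main, h.ref⟩

/-- **BRIDGE, size segment** -/
theorem L9uE4S.e4 {𝔹 : LlBase} {F : LlFix} {Cs Cl : ℝ} (h : L9uE4S 𝔹 F Cs Cl) : L9cE4S 𝔹 F Cs Cl := by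
  intro δ hδ ε hε q hq
  obtain ⟨C, N0, H⟩ := h δ hδ ε hε q hq
  exact ⟨C, N0, fun N hN => (H N hN).mono fun _ a m γ θ hy => (a m γ θ hy).e4⟩

/-- **BRIDGE, strength sweep** -/
theorem L9uE4D.e4 {𝔹 : LlBase} {Mj : L9Mj} {κ : ℝ} {F : LlFix} {Cs cmax : ℝ} (h : L9uE4D 𝔹 Mj κ F Cs cmax) : L9cE4D 𝔹 Mj κ F Cs cmax := by
  intro δ hδ ε hε q hq
  obtain ⟨C, N0, H⟩ := h δ hδ ε hε q hq
  exact ⟨C, N0, fun N hN => (H N hN).mono fun _ a m ell γ t hy => (a m ell γ t hy).e4⟩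

end Claimed.Agent.R286
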