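import Claimed.Agent.R286.L09.GridBS
import Claimed.Agent.R286.L09.GridBD
import Claimed.Agent.R286.L09.PhysTD

/-!
# Row 286 (S0533), LL Sec. 9, node GRID, file B0: THE JET OF `b_∘` ON THE STRENGTH SWEEP; EXIT `L9gPhD`      (owner helper263; head of the unit helper60; prefix `l9gw`, `l9g`)

TEX[LL:exp:prop-low-coefficients] TEX[LL:paths:lift] TEX[LL:paths:parameter-regularity]      NO sorry.
`b_∘ = 1 / Γ'(0)`, `Γ'(0) = V_zz(0,0)²` (LL (P2)).      No second order regularity of `b_∘` in the strength is in the P-list of Sec. 3: it is PROVED here from the grid.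
* sec. 1, 2 = `l9gw_sus`, `l9gw_jet` of 209 (`L09/GridBD`): on a chain `V_zz(0,0) = a - ∑_{j ≤ N} μ_j q_j`; under the input `L9gIn` of (M) the number `W(t') = V_zz(0,0)` of the chain has a jet of norm `≤ K` at the scales `(δ, ε)`.
  (my copies of the two are withdrawn: same names, same statements, landed by 209 a few minutes earlier.)      TWIN of sec. 3, 4 for `llBase`: `l9gw_B0D`, `l9gw_BD`, `l9gw_PhD` of 209; sec. 3 here is for EVERY base `𝔹`.
* sec. 3 `l9g_B0D`: `L9gKD` (K-part, on AUXILIARY finer and finer chains) + `L9gVD` ((V) at time `0`) ⟹ `L9gB0D`:   closure of the Taylor bounds under uniform limits (`l9g_closure`, `l9g_closure_inc`), then the inverse jet.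
* sec. 4 **`l9g_PhD`** : `L9gPhD llBase F v1` = the physical layer of (M) on the strength sweep, from `LlSec3`.
-/

set_option autoImplicit false

namespace Claimed.Agent.R286

open Finset Filter Topology

/-! ## 3. the jet of `b_∘` on the strength sweep -/

theorem l9gw_seg {lo hi t h u : ℝ} (ht : t ∈ Set.Ioo lo hi) (hth : t + h ∈ Set.Ioo lo hi) (hu0 : 0 < u) (hu1 : u ≤ 1) : t + u * h ∈ Set.Ioo lo hi := by
  constructor
  · rcases le_total 0 h with hh | hh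
    · have := mul_nonneg hu0.le hh
      linarith [ht.1]
    · have : h ≤ u * h := by nlinarith
      linarith [hth.1]
  · rcases le_total 0 h with hh | hh
    · have : u * h ≤ h := by nlinarith
      linarith [hth.2]
    · have : u * h ≤ 0 := mul_nonpos_of_nonneg_of_nonpos hu0.le hh
      linarith [ht.2]

/-- **jet of `b_∘` on the strength sweep**: the K-part on auxiliary chains + (V) at the time `0` -/
theorem l9g_B0D {𝔹 : LlBase} {F : LlFix} {v1 : ℝ} (hv1 : 0 ≤ v1) (h3 : LlSec3 𝔹 F) (hK : L9gKD 𝔹 F v1) (hV : L9gVD 𝔹 F) : L9gB0D 𝔹 F := by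
  intro K0
  obtain ⟨KW, hKW1, hW⟩ := l9gw_jet 2
  obtain ⟨N1, hK⟩ := hK K0
  obtain ⟨N2, hV⟩ := hV
  obtain ⟨c, C, v0, hc, hv0, N3, hRef⟩ := h3.ref
  set Ag : ℝ := c⁻¹ + KW ^ 2 + 2 * KW ^ 2 with hAg
  have hAg0 : 0 ≤ Ag := by positivity
  set cg : ℝ := (max C c)⁻¹ with hcg
  have hCm : 0 < max C c := hc.trans_le (le_max_right _ _)
  have hcg0 : 0 < cg := inv_pos.2 hCm
  refine ⟨max 1 (cg⁻¹ + Ag / cg ^ 2 + (Ag / cg ^ 2 + Ag ^ 2 / cg ^ 3)), max 2 (max N1 (max N2 N3)), le_max_left _ _, fun N hN => ?_⟩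
  have hNa : 2 ≤ N := (le_max_left _ _).trans hN
  have hNb : N1 ≤ N := (le_max_left _ _).trans ((le_max_right _ _).trans hN)
  have hNc : N2 ≤ N := (le_max_left _ _).trans ((le_max_right _ _).trans ((le_max_right _ _).trans hN))
  have hNd : N3 ≤ N := (le_max_right _ _).trans ((le_max_right _ _).trans ((le_max_right _ _).trans hN))
  obtain ⟨D, h0, hD, hh0, hK⟩ := hK N hNb
  have hV := hV N hNc
  have hx : 0 < skX N ^ K0 := Real.rpow_pos_of_pos (l9g_skX_pos (by omega)) _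
  refine ⟨D, h0, hD, hh0, fun h hne hh ell γ t hell ht hth hd δ hδ hsq => ?_⟩
  have hhp : 0 < |h| := abs_pos.2 hne
  have hδ0 : 0 < δ := lt_of_lt_of_le (by positivity) hδ
  have hε0 : 0 < |h| * skX N ^ K0 := by positivity
  have hell2 : ell ≤ 2 := by
    refine hell.2.trans ?_
    calc (2 : ℝ) ^ (1 / 6 : ℝ) ≤ 2 ^ (1 : ℝ) := Real.rpow_le_rpow_of_exponent_le (by norm_num) (by norm_num)
      _ = 2 := Real.rpow_one 2
  set g : ℝ → ℝ := fun t' => (l9PtL N ell γ t').Gam1 F 𝔹 0 with hg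
  have hb0 : ∀ t', (l9PtL N ell γ t').b0 F 𝔹 = (g t')⁻¹ := fun t' => by
    simp only [hg]
    unfold LlPt.b0
    rw [one_div]
  have hgb : ∀ t', g t' = ((l9PtL N ell γ t').b0 F 𝔹)⁻¹ := fun t' => by rw [hb0, inv_inv]
  have hrg : ∀ t' ∈ l9LamRg F N, cg ≤ g t' ∧ g t' ≤ c⁻¹ := by
    intro t' ht'
    have hR := hRef _ (l9t_L_ok F hNa hell γ ht') hNd
    have hp : 0 < (l9PtL N ell γ t').b0 F 𝔹 := hc.trans_le hR.b0_lo
    rw [hgb]
    exact ⟨inv_anti₀ hp (hR.b0_hi.trans (le_max_left _ _)), inv_anti₀ hc hR.b0_lo⟩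
  have hgd : HasDerivAt g (deriv g t) t := by
    refine DifferentiableAt.hasDerivAt ?_
    have e : g = fun t' => ((l9PtL N ell γ t').b0 F 𝔹)⁻¹ := funext hgb
    rw [e]
    refine hd.fun_inv ?_
    have hR := hRef _ (l9t_L_ok F hNa hell γ ht) hNd
    exact (hc.trans_le hR.b0_lo).ne'
  -- the grid functions
  set G : Finset GhPos → ℝ → ℝ := fun Fs t' => l9gW ell ((⟨F, 𝔹, 0, Fs, 0⟩ : L9I).P (l9PtL N ell γ t')) ^ 2 with hG
  have hjet : ∀ (Fs : Finset GhPos) (k : ℝ), L9gIn ell (l9QD F 𝔹 0 Fs 0 N ell γ t).Pf t k (D * |k|) (|k| * skX N ^ K0) 0 →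
      ∃ G' : ℝ, HasDerivAt (G Fs) G' t ∧ |G Fs (t + k) - G Fs t| ≤ D * |k| * KW ^ 2 ∧ |G Fs (t + k) - G Fs t - k * G'| ≤ |k| * skX N ^ K0 * KW ^ 2 := by
    intro Fs k H
    obtain ⟨X, hX, hn⟩ := hW ell _ t k _ _ 0 hell2 H
    have hXX := hX.mul hX
    have hnn : l9gN k (D * |k|) (|k| * skX N ^ K0) (X * X) ≤ KW ^ 2 := by
      refine (l9gN_mul H.δ_pos H.ε_pos H.sq X X).trans ?_
      rw [sq]
      exact mul_le_mul hn hn (l9gN_nonneg H.δ_pos H.ε_pos X) (by linarith)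
    have eG : G Fs = fun s => l9gW ell ((l9QD F 𝔹 0 Fs 0 N ell γ t).Pf s) * l9gW ell ((l9QD F 𝔹 0 Fs 0 N ell γ t).Pf s) := by
      funext s
      simp only [hG]
      rw [sq]
      rfl
    rw [← eG] at hXX
    refine ⟨l9gDv (X * X), hXX.2.2, ?_, ?_⟩
    · rw [hXX.1, hXX.2.1]
      exact (l9gN_inc H.δ_pos H.ε_pos _).trans (mul_le_mul_of_nonneg_left hnn H.δ_pos.le)
    · rw [hXX.1, hXX.2.1]
      exact (l9gN_def H.δ_pos H.ε_pos _).trans (mul_le_mul_of_nonneg_left hnn H.ε_pos.le)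
  have hc0 : ∀ Fs : Finset GhPos, trPm (l9QD F 𝔹 0 Fs 0 N ell γ t).ms 0 ≤ v1 := fun Fs => by
    simpa [trPm] using hv1
  -- the Taylor defect
  have hdef : |g (t + h) - g t - h * deriv g t| ≤ 2 * (skX N ^ K0 * KW ^ 2) * |h| := by
    refine l9g_closure hgd hne fun u hu0 hu1 η hη => ?_
    have hune : u * h ≠ 0 := mul_ne_zero hu0.ne' hne
    have huabs : |u * h| = u * |h| := by rw [abs_mul, abs_of_pos hu0]
    have huh : |u * h| ≤ h0 := by
      rw [huabs]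
      exact (mul_le_of_le_one_left hhp.le hu1).trans hh
    have htu := l9gw_seg ht hth hu0 hu1
    obtain ⟨Fs, ⟨a1, a2⟩, a3⟩ := (((hK h hne hh).and (hK (u * h) hune huh)).and (hV η hη)).exists
    obtain ⟨G1, d1, -, b1⟩ := hjet Fs h (a1 0 0 ell γ t hell ht hth 0 (hc0 Fs))
    obtain ⟨G2, d2, -, b2⟩ := hjet Fs (u * h) (a2 0 0 ell γ t hell ht htu 0 (hc0 Fs))
    have e12 : G2 = G1 := d2.unique d1
    rw [e12, huabs] at b2
    refine ⟨G Fs, G1, a3 ell γ t hell ht, a3 ell γ _ hell hth, a3 ell γ _ hell htu, ?_, ?_⟩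
    · refine b1.trans (le_of_eq ?_)
      ring
    · refine b2.trans (le_of_eq ?_)
      ring
  -- the increment
  have hinc : |g (t + h) - g t| ≤ D * |h| * KW ^ 2 := by
    refine l9g_closure_inc fun η hη => ?_
    obtain ⟨Fs, a1, a3⟩ := ((hK h hne hh).and (hV η hη)).exists
    obtain ⟨G1, -, b0, -⟩ := hjet Fs h (a1 0 0 ell γ t hell ht hth 0 (hc0 Fs))
    exact ⟨G Fs, a3 ell γ t hell ht, a3 ell γ _ hell hth, b0⟩
  -- the jet of `g`
  have hgt := hrg t ht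
  have hgth := hrg _ hth
  have rg : L9gR t h g (l9gMk (g t) (deriv g t) (g (t + h))) := L9gR.mk' hgd
  have ng : l9gN h δ (|h| * skX N ^ K0) (l9gMk (g t) (deriv g t) (g (t + h))) ≤ Ag := by
    refine l9gN_le hδ0 hε0 ?_ ?_ ?_ ?_
    · rw [l9gV0_mk, abs_of_pos (hcg0.trans_le hgt.1)]; exact hgt.2
    · rw [l9gV1_mk, abs_of_pos (hcg0.trans_le hgth.1)]; exact hgth.2
    · rw [l9gV0_mk, l9gV1_mk]
      refine hinc.trans ?_
      rw [mul_comm]
      exact mul_le_mul_of_nonneg_left hδ (by positivity)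
    · rw [l9gV0_mk, l9gV1_mk, l9gDv_mk]
      refine hdef.trans (le_of_eq ?_)
      ring
  have ri := rg.inv (by rw [l9gV0_mk]; exact (hcg0.trans_le hgt.1).ne')
  refine ⟨_, ri.congr hb0, ?_⟩
  refine (l9gN_inv hδ0 hε0 hsq hcg0 (by rw [l9gV0_mk]; exact hgt.1.trans (le_abs_self _)) (by rw [l9gV1_mk]; exact hgth.1.trans (le_abs_self _))).trans ?_
  refine le_trans ?_ (le_max_right _ _)
  have hn0 := l9gN_nonneg (h := h) hδ0 hε0 (l9gMk (g t) (deriv g t) (g (t + h)))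
  gcongr

/-! ## 4. exits -/

/-- **`L9gB0D` for the base of the paper**: no open input -/
theorem l9g_B0D_base {F : LlFix} (hP : LlBaseProfile llBase F.T) (h3 : LlSec3 llBase F) : L9gB0D llBase F :=
  l9g_B0D le_rfl h3 (l9t2_KD hP h3.ok h3.prof 0) (l9t2_VD h3.ok h3.prof)

/-- **the letters `b` of (M) on the strength sweep** -/
theorem l9g_BD_base {F : LlFix} (hE : LlExpOk F.sS F.eta F.pS) (hP : LlBaseProfile llBase F.T) (h3 : LlSec3 llBase F) : L9gBD llBase F :=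
  l9gb_BD llBase F hE hP h3 (l9g_B0D_base hP h3)

/-- **THE PHYSICAL LAYER OF (M) ON THE STRENGTH SWEEP**, every `v1` -/
theorem l9g_PhD {F : LlFix} (hE : LlExpOk F.sS F.eta F.pS) (hP : LlBaseProfile llBase F.T) (h3 : LlSec3 llBase F) (v1 : ℝ) : L9gPhD llBase F v1 :=
  l9g_phD_of (l9t2_KD hP h3.ok h3.prof v1) (l9g_BD_base hE hP h3)

end Claimed.Agent.R286
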