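import Mathlib

/-!
# Row 286 (S0533), LL Sec. 9, node GRID, file K: SECOND ORDER TAYLOR DEFECT OF THE SIZE CLOCK ON A CHAIN      (architect helper263; head of the unit helper60; prefix `l9k2_`, `L9k2`)

Mathlib only.   ALL FIVE LEAVES PROVED (helper242, 05:20Z), 0 sorry.

The smoothed size clock is `K_θ(v) = ℓ⁻² Ψ(v/ℓ)`, `ℓ = e^{θ/6}`, `Ψ = Â⁻¹` (LL 03 l.119-135): Lipschitz (constant `1/ω`), piecewise smooth, with finitely many KINKS
(images of `ξ_*`, `ξ_* + ω`, `M`).   On a chain the masses `v = m_j` are FIXED and `θ` moves: `θ ↦ K_θ(m_j)` is `C^{1,1}` except when `m_j/ℓ` crosses a kink.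
So `|R''| ≤ C_N` (Landau-Kolmogorov route) is FALSE; the true statement is the weighted bound `l9k2_sum`:
    `∑_j (m_{j+1} - m_j) |K_{θ+h}(m_j) - K_θ(m_j) - h ∂_θ K_θ(m_j)| ≤ C |h| (|h| + mesh)`      (input (B) of (M), `L09/GridM`).
* `L9k2Prof Ψ Ψ' W L0 L1 L2 Kk`   piecewise `C^{1,1}` profile on `[0, W)`, kinks `Kk`;
* `l9k2K Ψ θ v`, `l9k2Kd Ψ Ψ' θ v`  the clock and its `θ`-derivative;   `l9k2T` the Taylor defect at the SIGNED step `h`;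
* `l9k2_deriv` (K1), `l9k2_good` (K2: no kink crossed: `≤ C h²`), `l9k2_bad` (K3: always `≤ C |h|`), `l9k2_window` (K4: mass of the levels in a window), `l9k2_sum` (K5, glue).
TEX[LL:paths:parameter-regularity]
-/

set_option autoImplicit false

namespace Claimed.Agent.R286

open Set

/-- piecewise `C^{1,1}` profile on `[0, W)` with the kinks `Kk` -/
structure L9k2Prof (Ψ Ψ' : ℝ → ℝ) (W L0 L1 L2 : ℝ) (Kk : Finset ℝ) : Prop where
  bd : ∀ w ∈ Ico 0 W, |Ψ w| ≤ L0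
  lip : ∀ w ∈ Ico 0 W, ∀ w' ∈ Ico 0 W, |Ψ w - Ψ w'| ≤ L1 * |w - w'|
  der : ∀ w ∈ Ioo 0 W, w ∉ Kk → HasDerivAt Ψ (Ψ' w) w
  lip' : ∀ w w', 0 < w → w ≤ w' → w' < W → (∀ κ ∈ Kk, κ ∉ Icc w w') → |Ψ' w - Ψ' w'| ≤ L2 * |w - w'|

noncomputable section

/-- the size clock `ℓ⁻² Ψ(v/ℓ)`, `ℓ = e^{θ/6}` -/
def l9k2K (Ψ : ℝ → ℝ) (θ v : ℝ) : ℝ := Real.exp (-θ / 3) * Ψ (v * Real.exp (-θ / 6))

/-- its derivative in `θ` -/
def l9k2Kd (Ψ Ψ' : ℝ → ℝ) (θ v : ℝ) : ℝ :=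
  -(1 / 3) * Real.exp (-θ / 3) * Ψ (v * Real.exp (-θ / 6))
    - 1 / 6 * Real.exp (-θ / 3) * (v * Real.exp (-θ / 6)) * Ψ' (v * Real.exp (-θ / 6))

/-- the second order Taylor defect at the signed step `h` -/
def l9k2T (Ψ Ψ' : ℝ → ℝ) (θ h v : ℝ) : ℝ := l9k2K Ψ (θ + h) v - l9k2K Ψ θ v - h * l9k2Kd Ψ Ψ' θ v

end

theorem l9k2_eqns_cite : True := by
  have := @l9k2K.eq_1
  have := @l9k2Kd.eq_1
  have := @l9k2T.eq_1
  trivial

/-- **K1** the derivative in `θ` (at `v = 0` the clock is `e^{-θ/3} Ψ 0`) -/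
theorem l9k2_deriv {Ψ Ψ' : ℝ → ℝ} {W L0 L1 L2 : ℝ} {Kk : Finset ℝ} (H : L9k2Prof Ψ Ψ' W L0 L1 L2 Kk) {θ v : ℝ} (hv : 0 ≤ v)
    (hW : v * Real.exp (-θ / 6) < W) (hk : v * Real.exp (-θ / 6) ∉ Kk) :
    HasDerivAt (fun θ => l9k2K Ψ θ v) (l9k2Kd Ψ Ψ' θ v) θ := by
  have hE3 : HasDerivAt (fun θ : ℝ => Real.exp (-θ / 3)) (Real.exp (-θ / 3) * (-1 / 3)) θ :=
    ((hasDerivAt_id θ).neg.div_const 3).exp
  have hw : HasDerivAt (fun θ : ℝ => v * Real.exp (-θ / 6)) (v * (Real.exp (-θ / 6) * (-1 / 6))) θ :=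
    (((hasDerivAt_id θ).neg.div_const 6).exp).const_mul v
  unfold l9k2Kd
  rcases hv.eq_or_lt with rfl | hv
  · have e : (fun θ => l9k2K Ψ θ 0) = fun θ : ℝ => Real.exp (-θ / 3) * Ψ 0 := by
      funext s; simp [l9k2K]
    rw [e]
    exact (hE3.mul_const (Ψ 0)).congr_deriv (by simp only [zero_mul]; ring)
  · have hpos : 0 < v * Real.exp (-θ / 6) := mul_pos hv (Real.exp_pos _)
    have hΨ := H.der _ ⟨hpos, hW⟩ hk
    have hc : HasDerivAt (fun θ : ℝ => Ψ (v * Real.exp (-θ / 6)))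
        (Ψ' (v * Real.exp (-θ / 6)) * (v * (Real.exp (-θ / 6) * (-1 / 6)))) θ := hΨ.comp θ hw
    exact (hE3.mul hc).congr_deriv (by ring)

/-! ### helper lemmas for K2, K3 -/

theorem l9k2_good_der_le {Ψ Ψ' : ℝ → ℝ} {W L0 L1 L2 : ℝ} {Kk : Finset ℝ} (H : L9k2Prof Ψ Ψ' W L0 L1 L2 Kk) {w : ℝ}
    (hw : w ∈ Ioo 0 W) (hk : w ∉ Kk) : |Ψ' w| ≤ |L1| := by
  have h := (H.der w hw hk).le_of_lip' (abs_nonneg L1) (by
    filter_upwards [isOpen_Ioo.mem_nhds hw] with x hx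
    have := H.lip x ⟨hx.1.le, hx.2⟩ w ⟨hw.1.le, hw.2⟩
    rw [Real.norm_eq_abs, Real.norm_eq_abs]
    exact this.trans (mul_le_mul_of_nonneg_right (le_abs_self L1) (abs_nonneg _)))
  rwa [Real.norm_eq_abs] at h

theorem l9k2_good_taylor {Ψ Ψ' : ℝ → ℝ} {W L0 L1 L2 : ℝ} {Kk : Finset ℝ} (H : L9k2Prof Ψ Ψ' W L0 L1 L2 Kk) {w0 w1 : ℝ}
    (h0 : w0 ∈ Ioo 0 W) (h1 : w1 ∈ Ioo 0 W) (hk : ∀ κ ∈ Kk, κ ∉ uIcc w0 w1) :
    |Ψ w1 - Ψ w0 - Ψ' w0 * (w1 - w0)| ≤ |L2| * (w1 - w0) ^ 2 := by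
  have hsub : uIcc w0 w1 ⊆ Ioo 0 W := ordConnected_Ioo.uIcc_subset h0 h1
  have hnk : ∀ x ∈ uIcc w0 w1, x ∉ Kk := fun x hx hxk => hk x hxk hx
  have hd : ∀ x ∈ uIcc w0 w1, HasDerivWithinAt (fun x => Ψ x - Ψ' w0 * x) (Ψ' x - Ψ' w0) (uIcc w0 w1) x := by
    intro x hx
    have := (H.der x (hsub hx) (hnk x hx)).sub ((hasDerivAt_id x).const_mul (Ψ' w0))
    simp only [id, mul_one] at this
    exact this.hasDerivWithinAt
  have hb : ∀ x ∈ uIcc w0 w1, ‖Ψ' x - Ψ' w0‖ ≤ |L2| * |w1 - w0| := by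
    intro x hx
    rw [Real.norm_eq_abs]
    have hx0 : |x - w0| ≤ |w1 - w0| := abs_sub_left_of_mem_uIcc hx
    have key : |Ψ' x - Ψ' w0| ≤ L2 * |x - w0| := by
      rcases le_total x w0 with hle | hle
      · refine H.lip' x w0 (hsub hx).1 hle h0.2 (fun κ hκ hin => hk κ hκ ?_)
        exact uIcc_subset_uIcc hx left_mem_uIcc (Icc_subset_uIcc hin)
      · have := H.lip' w0 x h0.1 hle (hsub hx).2 (fun κ hκ hin => hk κ hκ
          (uIcc_subset_uIcc left_mem_uIcc hx (Icc_subset_uIcc hin)))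
        rwa [abs_sub_comm, abs_sub_comm w0 x] at this
    calc |Ψ' x - Ψ' w0| ≤ L2 * |x - w0| := key
      _ ≤ |L2| * |x - w0| := mul_le_mul_of_nonneg_right (le_abs_self L2) (abs_nonneg _)
      _ ≤ |L2| * |w1 - w0| := mul_le_mul_of_nonneg_left hx0 (abs_nonneg _)
  have := Convex.norm_image_sub_le_of_norm_hasDerivWithin_le hd hb (convex_uIcc w0 w1) left_mem_uIcc right_mem_uIcc
  rw [Real.norm_eq_abs, Real.norm_eq_abs] at this
  calc |Ψ w1 - Ψ w0 - Ψ' w0 * (w1 - w0)| = |Ψ w1 - Ψ' w0 * w1 - (Ψ w0 - Ψ' w0 * w0)| := by congr 1; ring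
    _ ≤ |L2| * |w1 - w0| * |w1 - w0| := this
    _ = |L2| * (w1 - w0) ^ 2 := by rw [mul_assoc, ← sq, sq_abs]

/-- the clock at `θ + h` in terms of the data at `θ` -/
theorem l9k2_good_shift (Ψ : ℝ → ℝ) (θ h v : ℝ) :
    l9k2K Ψ (θ + h) v = Real.exp (-θ / 3) * Real.exp (-h / 3) * Ψ (v * Real.exp (-θ / 6) * Real.exp (-h / 6)) := by
  unfold l9k2K
  rw [← Real.exp_add, mul_assoc, ← Real.exp_add]
  congr 2
  · ring
  · congr 2; ring

theorem l9k2_good_w1 (θ h v : ℝ) : v * Real.exp (-(θ + h) / 6) = v * Real.exp (-θ / 6) * Real.exp (-h / 6) := by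
  rw [mul_assoc, ← Real.exp_add]; congr 2; ring

theorem l9k2_good_e3 {θ : ℝ} (hθ : |θ| ≤ 2) : Real.exp (-θ / 3) ≤ Real.exp 1 := by
  apply Real.exp_le_exp.2
  have := (abs_le.1 hθ).1
  linarith

theorem l9k2_good_exp {h : ℝ} (hh : |h| ≤ 1) :
    |Real.exp (-h / 3) - 1 - (-h / 3)| ≤ h ^ 2 ∧ |Real.exp (-h / 6) - 1 - (-h / 6)| ≤ h ^ 2 ∧
    |Real.exp (-h / 3) - 1| ≤ |h| ∧ |Real.exp (-h / 6) - 1| ≤ |h| := by
  have a3 : |-h / 3| = |h| / 3 := by rw [abs_div, abs_neg]; norm_num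
  have a6 : |-h / 6| = |h| / 6 := by rw [abs_div, abs_neg]; norm_num
  have n0 := abs_nonneg h
  have s : h ^ 2 = |h| ^ 2 := (sq_abs h).symm
  refine ⟨?_, ?_, ?_, ?_⟩
  · refine (Real.abs_exp_sub_one_sub_id_le (by rw [a3]; linarith)).trans ?_
    rw [← sq_abs, a3, s]; nlinarith
  · refine (Real.abs_exp_sub_one_sub_id_le (by rw [a6]; linarith)).trans ?_
    rw [← sq_abs, a6, s]; nlinarith
  · refine (Real.abs_exp_sub_one_le (by rw [a3]; linarith)).trans ?_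
    rw [a3]; linarith
  · refine (Real.abs_exp_sub_one_le (by rw [a6]; linarith)).trans ?_
    rw [a6]; linarith

theorem l9k2_good_core {Ψ Ψ' : ℝ → ℝ} {W L0 L1 L2 : ℝ} {Kk : Finset ℝ} (H : L9k2Prof Ψ Ψ' W L0 L1 L2 Kk) {w0 h : ℝ}
    (hh : |h| ≤ 1) (hw0 : 0 ≤ w0) (hW0 : w0 < W) (hW1 : w0 * Real.exp (-h / 6) < W)
    (hk : ∀ κ ∈ Kk, κ ∉ uIcc w0 (w0 * Real.exp (-h / 6))) :
    |(Real.exp (-h / 3) - 1 - (-h / 3)) * Ψ (w0 * Real.exp (-h / 6))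
      - h / 3 * (Ψ (w0 * Real.exp (-h / 6)) - Ψ w0)
      + (Ψ (w0 * Real.exp (-h / 6)) - Ψ w0 - Ψ' w0 * (w0 * Real.exp (-h / 6) - w0))
      + Ψ' w0 * (w0 * (Real.exp (-h / 6) - 1 - (-h / 6)))| ≤ (|L0| + 2 * (|L1| * |W|) + |L2| * W ^ 2) * h ^ 2 := by
  obtain ⟨e1, e2, -, e4⟩ := l9k2_good_exp hh
  have hbpos : 0 < Real.exp (-h / 6) := Real.exp_pos _
  have hw1 : 0 ≤ w0 * Real.exp (-h / 6) := mul_nonneg hw0 hbpos.le
  have hWpos : 0 < W := lt_of_le_of_lt hw0 hW0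
  have hWa : |W| = W := abs_of_pos hWpos
  have s : h ^ 2 = |h| * |h| := by rw [← sq, sq_abs]
  have hdw : |w0 * Real.exp (-h / 6) - w0| ≤ W * |h| := by
    have : w0 * Real.exp (-h / 6) - w0 = w0 * (Real.exp (-h / 6) - 1) := by ring
    rw [this, abs_mul, abs_of_nonneg hw0]
    exact mul_le_mul hW0.le e4 (abs_nonneg _) hWpos.le
  have b1 : |(Real.exp (-h / 3) - 1 - (-h / 3)) * Ψ (w0 * Real.exp (-h / 6))| ≤ |L0| * h ^ 2 := by
    rw [abs_mul, mul_comm]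
    exact mul_le_mul ((H.bd _ ⟨hw1, hW1⟩).trans (le_abs_self _)) e1 (abs_nonneg _) (abs_nonneg _)
  have hlip : |Ψ (w0 * Real.exp (-h / 6)) - Ψ w0| ≤ |L1| * (W * |h|) :=
    (H.lip _ ⟨hw1, hW1⟩ _ ⟨hw0, hW0⟩).trans
      (mul_le_mul (le_abs_self _) hdw (abs_nonneg _) (abs_nonneg _))
  have b2 : |h / 3 * (Ψ (w0 * Real.exp (-h / 6)) - Ψ w0)| ≤ |L1| * W * h ^ 2 := by
    rw [abs_mul, abs_div, s]
    have : |h| / |(3 : ℝ)| ≤ |h| := by
      rw [abs_of_pos (by norm_num : (0 : ℝ) < 3)]; linarith [abs_nonneg h]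
    calc |h| / |(3 : ℝ)| * |Ψ (w0 * Real.exp (-h / 6)) - Ψ w0| ≤ |h| * (|L1| * (W * |h|)) :=
          mul_le_mul this hlip (abs_nonneg _) (abs_nonneg _)
      _ = |L1| * W * (|h| * |h|) := by ring
  rcases hw0.eq_or_lt with rfl | hpos
  · simp only [zero_mul, sub_self, mul_zero, add_zero, sub_zero] at b1 ⊢
    refine b1.trans (mul_le_mul_of_nonneg_right ?_ (sq_nonneg h))
    have : 0 ≤ 2 * (|L1| * |W|) + |L2| * W ^ 2 := by positivity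
    linarith
  · have m0 : w0 ∈ Ioo 0 W := ⟨hpos, hW0⟩
    have m1 : w0 * Real.exp (-h / 6) ∈ Ioo 0 W := ⟨mul_pos hpos hbpos, hW1⟩
    have hnk : w0 ∉ Kk := fun hin => hk w0 hin left_mem_uIcc
    have b3 : |Ψ (w0 * Real.exp (-h / 6)) - Ψ w0 - Ψ' w0 * (w0 * Real.exp (-h / 6) - w0)| ≤ |L2| * W ^ 2 * h ^ 2 := by
      refine (l9k2_good_taylor H m0 m1 hk).trans ?_
      rw [mul_assoc]
      refine mul_le_mul_of_nonneg_left ?_ (abs_nonneg _)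
      rw [← sq_abs (w0 * Real.exp (-h / 6) - w0), ← mul_pow, ← sq_abs (W * h), abs_mul, hWa]
      exact pow_le_pow_left₀ (abs_nonneg _) hdw 2
    have b4 : |Ψ' w0 * (w0 * (Real.exp (-h / 6) - 1 - (-h / 6)))| ≤ |L1| * W * h ^ 2 := by
      rw [abs_mul, abs_mul, abs_of_pos hpos, mul_assoc]
      exact mul_le_mul (l9k2_good_der_le H m0 hnk) (mul_le_mul hW0.le e2 (abs_nonneg _) hWpos.le)
        (by positivity) (abs_nonneg _)
    rw [hWa]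
    have t1 := abs_add_le ((Real.exp (-h / 3) - 1 - (-h / 3)) * Ψ (w0 * Real.exp (-h / 6))
      - h / 3 * (Ψ (w0 * Real.exp (-h / 6)) - Ψ w0)
      + (Ψ (w0 * Real.exp (-h / 6)) - Ψ w0 - Ψ' w0 * (w0 * Real.exp (-h / 6) - w0)))
      (Ψ' w0 * (w0 * (Real.exp (-h / 6) - 1 - (-h / 6))))
    have t2 := abs_add_le ((Real.exp (-h / 3) - 1 - (-h / 3)) * Ψ (w0 * Real.exp (-h / 6))
      - h / 3 * (Ψ (w0 * Real.exp (-h / 6)) - Ψ w0))
      (Ψ (w0 * Real.exp (-h / 6)) - Ψ w0 - Ψ' w0 * (w0 * Real.exp (-h / 6) - w0))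
    have t3 := abs_sub ((Real.exp (-h / 3) - 1 - (-h / 3)) * Ψ (w0 * Real.exp (-h / 6)))
      (h / 3 * (Ψ (w0 * Real.exp (-h / 6)) - Ψ w0))
    nlinarith

/-- **K2** no kink is crossed between `θ` and `θ + h`: second order bound -/
theorem l9k2_good (W L0 L1 L2 : ℝ) : ∃ C : ℝ, 0 ≤ C ∧ ∀ (Ψ Ψ' : ℝ → ℝ) (Kk : Finset ℝ), L9k2Prof Ψ Ψ' W L0 L1 L2 Kk →
    ∀ θ h v : ℝ, |θ| ≤ 2 → |h| ≤ 1 → 0 ≤ v → v * Real.exp (-θ / 6) < W → v * Real.exp (-(θ + h) / 6) < W →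
      (∀ κ ∈ Kk, κ ∉ uIcc (v * Real.exp (-θ / 6)) (v * Real.exp (-(θ + h) / 6))) →
      |l9k2T Ψ Ψ' θ h v| ≤ C * h ^ 2 := by
  refine ⟨Real.exp 1 * (|L0| + 2 * (|L1| * |W|) + |L2| * W ^ 2), by positivity, ?_⟩
  intro Ψ Ψ' Kk H θ h v hθ hh hv hW0 hW1 hk
  rw [l9k2_good_w1] at hW1 hk
  have hT : l9k2T Ψ Ψ' θ h v = Real.exp (-θ / 3) * ((Real.exp (-h / 3) - 1 - (-h / 3)) * Ψ (v * Real.exp (-θ / 6) * Real.exp (-h / 6))
      - h / 3 * (Ψ (v * Real.exp (-θ / 6) * Real.exp (-h / 6)) - Ψ (v * Real.exp (-θ / 6)))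
      + (Ψ (v * Real.exp (-θ / 6) * Real.exp (-h / 6)) - Ψ (v * Real.exp (-θ / 6))
          - Ψ' (v * Real.exp (-θ / 6)) * (v * Real.exp (-θ / 6) * Real.exp (-h / 6) - v * Real.exp (-θ / 6)))
      + Ψ' (v * Real.exp (-θ / 6)) * (v * Real.exp (-θ / 6) * (Real.exp (-h / 6) - 1 - (-h / 6)))) := by
    unfold l9k2T l9k2Kd
    rw [l9k2_good_shift]
    unfold l9k2K
    ring
  rw [hT]
  have hw0 : 0 ≤ v * Real.exp (-θ / 6) := mul_nonneg hv (Real.exp_pos _).le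
  rw [abs_mul, abs_of_pos (Real.exp_pos _), mul_assoc (Real.exp 1)]
  exact mul_le_mul (l9k2_good_e3 hθ) (l9k2_good_core H hh hw0 hW0 hW1 hk) (abs_nonneg _) (Real.exp_pos _).le

/-- **K3** in all cases: first order bound -/
theorem l9k2_bad (W L0 L1 L2 : ℝ) : ∃ C : ℝ, 0 ≤ C ∧ ∀ (Ψ Ψ' : ℝ → ℝ) (Kk : Finset ℝ), L9k2Prof Ψ Ψ' W L0 L1 L2 Kk →
    ∀ θ h v : ℝ, |θ| ≤ 2 → |h| ≤ 1 → 0 ≤ v → v * Real.exp (-θ / 6) < W → v * Real.exp (-(θ + h) / 6) < W →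
      v * Real.exp (-θ / 6) ∉ Kk → |l9k2T Ψ Ψ' θ h v| ≤ C * |h| := by
  refine ⟨Real.exp 1 * (2 * |L0| + 2 * (|L1| * |W|)), by positivity, ?_⟩
  intro Ψ Ψ' Kk H θ h v hθ hh hv hW0 hW1 hk
  rw [l9k2_good_w1] at hW1
  have hT : l9k2T Ψ Ψ' θ h v = Real.exp (-θ / 3) * ((Real.exp (-h / 3) - 1) * Ψ (v * Real.exp (-θ / 6) * Real.exp (-h / 6))
      + (Ψ (v * Real.exp (-θ / 6) * Real.exp (-h / 6)) - Ψ (v * Real.exp (-θ / 6)))
      + h / 3 * Ψ (v * Real.exp (-θ / 6))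
      + h / 6 * (v * Real.exp (-θ / 6) * Ψ' (v * Real.exp (-θ / 6)))) := by
    unfold l9k2T l9k2Kd
    rw [l9k2_good_shift]
    unfold l9k2K
    ring
  rw [hT]
  have hw0 : 0 ≤ v * Real.exp (-θ / 6) := mul_nonneg hv (Real.exp_pos _).le
  rw [abs_mul, abs_of_pos (Real.exp_pos _), mul_assoc (Real.exp 1)]
  refine mul_le_mul (l9k2_good_e3 hθ) ?_ (abs_nonneg _) (Real.exp_pos _).le
  generalize v * Real.exp (-θ / 6) = w0 at hW0 hW1 hk hw0 ⊢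
  obtain ⟨-, -, e3, e4⟩ := l9k2_good_exp hh
  have hbpos : 0 < Real.exp (-h / 6) := Real.exp_pos _
  have hw1 : 0 ≤ w0 * Real.exp (-h / 6) := mul_nonneg hw0 hbpos.le
  have hWpos : 0 < W := lt_of_le_of_lt hw0 hW0
  have hWa : |W| = W := abs_of_pos hWpos
  have n0 := abs_nonneg h
  have hdw : |w0 * Real.exp (-h / 6) - w0| ≤ W * |h| := by
    have : w0 * Real.exp (-h / 6) - w0 = w0 * (Real.exp (-h / 6) - 1) := by ring
    rw [this, abs_mul, abs_of_nonneg hw0]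
    exact mul_le_mul hW0.le e4 (abs_nonneg _) hWpos.le
  have b1 : |(Real.exp (-h / 3) - 1) * Ψ (w0 * Real.exp (-h / 6))| ≤ |L0| * |h| := by
    rw [abs_mul, mul_comm]
    exact mul_le_mul ((H.bd _ ⟨hw1, hW1⟩).trans (le_abs_self _)) e3 (abs_nonneg _) (abs_nonneg _)
  have b2 : |Ψ (w0 * Real.exp (-h / 6)) - Ψ w0| ≤ |L1| * (W * |h|) :=
    (H.lip _ ⟨hw1, hW1⟩ _ ⟨hw0, hW0⟩).trans
      (mul_le_mul (le_abs_self _) hdw (abs_nonneg _) (abs_nonneg _))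
  have b3 : |h / 3 * Ψ w0| ≤ |L0| * |h| := by
    rw [abs_mul, abs_div, mul_comm]
    have : |h| / |(3 : ℝ)| ≤ |h| := by
      rw [abs_of_pos (by norm_num : (0 : ℝ) < 3)]; linarith
    exact mul_le_mul ((H.bd _ ⟨hw0, hW0⟩).trans (le_abs_self _)) this (by positivity) (abs_nonneg _)
  have hP : |w0 * Ψ' w0| ≤ W * |L1| := by
    rcases hw0.eq_or_lt with rfl | hpos
    · simp only [zero_mul, abs_zero]; positivity
    · rw [abs_mul, abs_of_pos hpos]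
      exact mul_le_mul hW0.le (l9k2_good_der_le H ⟨hpos, hW0⟩ hk) (abs_nonneg _) hWpos.le
  have b4 : |h / 6 * (w0 * Ψ' w0)| ≤ |L1| * (W * |h|) := by
    rw [abs_mul, abs_div]
    have : |h| / |(6 : ℝ)| ≤ |h| := by
      rw [abs_of_pos (by norm_num : (0 : ℝ) < 6)]; linarith
    calc |h| / |(6 : ℝ)| * |w0 * Ψ' w0| ≤ |h| * (W * |L1|) := mul_le_mul this hP (abs_nonneg _) n0
      _ = |L1| * (W * |h|) := by ring
  rw [hWa]
  have t1 := abs_add_le ((Real.exp (-h / 3) - 1) * Ψ (w0 * Real.exp (-h / 6)) + (Ψ (w0 * Real.exp (-h / 6)) - Ψ w0)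
    + h / 3 * Ψ w0) (h / 6 * (w0 * Ψ' w0))
  have t2 := abs_add_le ((Real.exp (-h / 3) - 1) * Ψ (w0 * Real.exp (-h / 6)) + (Ψ (w0 * Real.exp (-h / 6)) - Ψ w0))
    (h / 3 * Ψ w0)
  have t3 := abs_add_le ((Real.exp (-h / 3) - 1) * Ψ (w0 * Real.exp (-h / 6))) (Ψ (w0 * Real.exp (-h / 6)) - Ψ w0)
  nlinarith

open Classical in
theorem l9k2_window_aux {m : ℕ → ℝ} (hm : Monotone m) {mesh α β : ℝ} (h0 : 0 ≤ mesh) :
    ∀ N : ℕ, (∀ j, j < N → m (j + 1) - m j ≤ mesh) →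
    ∑ j ∈ (Finset.range N).filter (fun j => m j ∈ Icc α β), (m (j + 1) - m j) ≤ max 0 (min (m N) (β + mesh) - α) := by
  intro N
  induction N with
  | zero => intro _; simp
  | succ n ih =>
    intro hmesh
    have ih' := ih (fun j hj => hmesh j (Nat.lt_succ_of_lt hj))
    rw [Finset.range_add_one, Finset.filter_insert]
    split_ifs with hin
    · rw [Finset.sum_insert (by simp)]
      have h1 : min (m n) (β + mesh) = m n := min_eq_left (by linarith [hin.2])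
      rw [h1, max_eq_right (by linarith [hin.1])] at ih'
      have h2 := hmesh n (Nat.lt_succ_self n)
      have h3 : min (m (n + 1)) (β + mesh) = m (n + 1) := min_eq_left (by linarith [hin.2])
      rw [h3]
      exact le_max_of_le_right (by linarith)
    · refine ih'.trans (max_le_max le_rfl ?_)
      exact sub_le_sub_right (min_le_min (hm (Nat.le_succ n)) le_rfl) α

open Classical in
/-- **K4** mass of the levels of a chain which sit in a window `[α, β]` -/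
theorem l9k2_window {N : ℕ} {m : ℕ → ℝ} (hm : Monotone m) {mesh α β : ℝ} (hmesh : ∀ j, j < N → m (j + 1) - m j ≤ mesh) (h0 : 0 ≤ mesh)
    (hαβ : α ≤ β) :
    ∑ j ∈ (Finset.range N).filter (fun j => m j ∈ Icc α β), (m (j + 1) - m j) ≤ β - α + mesh := by
  refine (l9k2_window_aux hm h0 N hmesh).trans (max_le (by linarith) ?_)
  have := min_le_right (m N) (β + mesh)
  linarith

theorem l9k2_sum_mv {x κ s : ℝ} : (x * Real.exp (-s / 6) ≤ κ → x ≤ κ * Real.exp (s / 6)) ∧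
    (κ ≤ x * Real.exp (-s / 6) → κ * Real.exp (s / 6) ≤ x) := by
  have e : Real.exp (-s / 6) * Real.exp (s / 6) = 1 := by rw [← Real.exp_add]; simp [neg_div]
  have hp : 0 < Real.exp (s / 6) := Real.exp_pos _
  constructor
  · intro h
    have := mul_le_mul_of_nonneg_right h hp.le
    rwa [mul_assoc, e, mul_one] at this
  · intro h
    have := mul_le_mul_of_nonneg_right h hp.le
    rwa [mul_assoc, e, mul_one] at this

open Classical in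
/-- the mass of the levels which cross the kink `κ` between `θ` and `θ + h` -/
theorem l9k2_sum_kink {W : ℝ} {N : ℕ} {m : ℕ → ℝ} {mesh θ h : ℝ} (hm : Monotone m) (hm0 : 0 ≤ m 0)
    (hmesh : ∀ j, j < N → m (j + 1) - m j ≤ mesh) (h0 : 0 ≤ mesh) (hθ : |θ| ≤ 2) (hh : |h| ≤ 1)
    (hW : ∀ j, j ≤ N → m j * Real.exp (-θ / 6) < W ∧ m j * Real.exp (-(θ + h) / 6) < W) (κ : ℝ) :
    ∑ j ∈ (Finset.range N).filter (fun j => κ ∈ uIcc (m j * Real.exp (-θ / 6)) (m j * Real.exp (-(θ + h) / 6))),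
      (m (j + 1) - m j) ≤ |W| * Real.exp 1 * |h| + mesh := by
  have hμ : ∀ j, 0 ≤ m (j + 1) - m j := fun j => sub_nonneg.2 (hm (Nat.le_succ j))
  have hmn : ∀ j, 0 ≤ m j := fun j => hm0.trans (hm (Nat.zero_le j))
  by_cases hne : ∃ j ∈ Finset.range N, κ ∈ uIcc (m j * Real.exp (-θ / 6)) (m j * Real.exp (-(θ + h) / 6))
  swap
  · rw [Finset.filter_false_of_mem (fun j hj hc => hne ⟨j, hj, hc⟩), Finset.sum_empty]
    positivity
  obtain ⟨j0, hj0, hc0⟩ := hne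
  have hj0' : j0 ≤ N := (Finset.mem_range.1 hj0).le
  have hκ : 0 ≤ κ ∧ κ < W := by
    have a0 : 0 ≤ m j0 * Real.exp (-θ / 6) := mul_nonneg (hmn j0) (Real.exp_pos _).le
    have a1 : 0 ≤ m j0 * Real.exp (-(θ + h) / 6) := mul_nonneg (hmn j0) (Real.exp_pos _).le
    rcases mem_uIcc.1 hc0 with ⟨c1, c2⟩ | ⟨c1, c2⟩
    · exact ⟨a0.trans c1, c2.trans_lt (hW j0 hj0').2⟩
    · exact ⟨a1.trans c1, c2.trans_lt (hW j0 hj0').1⟩
  have hsub : (Finset.range N).filter (fun j => κ ∈ uIcc (m j * Real.exp (-θ / 6)) (m j * Real.exp (-(θ + h) / 6)))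
      ⊆ (Finset.range N).filter (fun j => m j ∈ Icc (min (κ * Real.exp (θ / 6)) (κ * Real.exp ((θ + h) / 6)))
          (max (κ * Real.exp (θ / 6)) (κ * Real.exp ((θ + h) / 6)))) := by
    intro j hj
    rw [Finset.mem_filter] at hj ⊢
    refine ⟨hj.1, ?_⟩
    rcases mem_uIcc.1 hj.2 with ⟨c1, c2⟩ | ⟨c1, c2⟩
    · exact ⟨(min_le_right _ _).trans (l9k2_sum_mv.2 c2), (l9k2_sum_mv.1 c1).trans (le_max_left _ _)⟩
    · exact ⟨(min_le_left _ _).trans (l9k2_sum_mv.2 c2), (l9k2_sum_mv.1 c1).trans (le_max_right _ _)⟩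
  refine (Finset.sum_le_sum_of_subset_of_nonneg hsub (fun j _ _ => hμ j)).trans ?_
  refine (l9k2_window hm hmesh h0 min_le_max).trans ?_
  have hlen : max (κ * Real.exp (θ / 6)) (κ * Real.exp ((θ + h) / 6)) - min (κ * Real.exp (θ / 6)) (κ * Real.exp ((θ + h) / 6))
      ≤ |W| * Real.exp 1 * |h| := by
    rw [max_sub_min_eq_abs]
    have e1 : κ * Real.exp ((θ + h) / 6) - κ * Real.exp (θ / 6) = κ * Real.exp (θ / 6) * (Real.exp (h / 6) - 1) := by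
      rw [add_div, Real.exp_add]; ring
    rw [e1, abs_mul, abs_mul, abs_of_nonneg hκ.1, abs_of_pos (Real.exp_pos _)]
    have e2 : |Real.exp (h / 6) - 1| ≤ |h| := by
      have a6 : |h / 6| = |h| / 6 := by rw [abs_div]; norm_num
      refine (Real.abs_exp_sub_one_le (by rw [a6]; linarith [abs_nonneg h])).trans ?_
      rw [a6]; linarith [abs_nonneg h]
    have e3 : Real.exp (θ / 6) ≤ Real.exp 1 := Real.exp_le_exp.2 (by linarith [(abs_le.1 hθ).2])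
    have e4 : κ ≤ |W| := hκ.2.le.trans (le_abs_self W)
    exact mul_le_mul (mul_le_mul e4 e3 (Real.exp_pos _).le (abs_nonneg _)) e2 (abs_nonneg _) (by positivity)
  linarith

/-- **K5** the weighted sum of the Taylor defects on a chain.   `m 0 .. m N` = masses (`m j` = the mass at which the clock value number `j` is read, `m (j+1) - m j` = its weight). -/
theorem l9k2_sum (W L0 L1 L2 : ℝ) (r : ℕ) : ∃ C : ℝ, 0 ≤ C ∧ ∀ (Ψ Ψ' : ℝ → ℝ) (Kk : Finset ℝ), L9k2Prof Ψ Ψ' W L0 L1 L2 Kk → Kk.card ≤ r →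
    ∀ (N : ℕ) (m : ℕ → ℝ) (mesh θ h : ℝ), Monotone m → 0 ≤ m 0 → (∀ j, j < N → m (j + 1) - m j ≤ mesh) → 0 ≤ mesh →
      |θ| ≤ 2 → |h| ≤ 1 → (∀ j, j ≤ N → m j * Real.exp (-θ / 6) < W ∧ m j * Real.exp (-(θ + h) / 6) < W) →
      (∀ j, j < N → m j * Real.exp (-θ / 6) ∉ Kk) →
      ∑ j ∈ Finset.range N, (m (j + 1) - m j) * |l9k2T Ψ Ψ' θ h (m j)| ≤ C * |h| * (|h| + mesh) := by
  classical
  obtain ⟨Cg, hCg, hg⟩ := l9k2_good W L0 L1 L2
  obtain ⟨Cb, hCb, hb⟩ := l9k2_bad W L0 L1 L2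
  refine ⟨Cg * (|W| * Real.exp 1) + Cb * r * (|W| * Real.exp 1 + 1), by positivity, ?_⟩
  intro Ψ Ψ' Kk H hcard N m mesh θ h hm hm0 hmesh h0 hθ hh hW hnk
  have hμ : ∀ j, 0 ≤ m (j + 1) - m j := fun j => sub_nonneg.2 (hm (Nat.le_succ j))
  have hmn : ∀ j, 0 ≤ m j := fun j => hm0.trans (hm (Nat.zero_le j))
  have n0 := abs_nonneg h
  -- pointwise bound
  have hpt : ∀ j ∈ Finset.range N, |l9k2T Ψ Ψ' θ h (m j)| ≤ Cg * h ^ 2
      + ∑ κ ∈ Kk, (if κ ∈ uIcc (m j * Real.exp (-θ / 6)) (m j * Real.exp (-(θ + h) / 6)) then Cb * |h| else 0) := by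
    intro j hj
    have hjN : j < N := Finset.mem_range.1 hj
    have hnn : ∀ κ ∈ Kk, (0 : ℝ) ≤ (if κ ∈ uIcc (m j * Real.exp (-θ / 6)) (m j * Real.exp (-(θ + h) / 6)) then Cb * |h| else 0) := by
      intro κ _
      split_ifs
      · positivity
      · exact le_rfl
    by_cases hgood : ∀ κ ∈ Kk, κ ∉ uIcc (m j * Real.exp (-θ / 6)) (m j * Real.exp (-(θ + h) / 6))
    · have := hg Ψ Ψ' Kk H θ h (m j) hθ hh (hmn j) (hW j hjN.le).1 (hW j hjN.le).2 hgood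
      linarith [Finset.sum_nonneg hnn]
    · push Not at hgood
      obtain ⟨κ, hκ, hc⟩ := hgood
      have h1 := hb Ψ Ψ' Kk H θ h (m j) hθ hh (hmn j) (hW j hjN.le).1 (hW j hjN.le).2 (hnk j hjN)
      have h2 := Finset.single_le_sum hnn hκ
      rw [if_pos hc] at h2
      have h3 : 0 ≤ Cg * h ^ 2 := by positivity
      linarith
  -- total mass
  have hmass : ∑ j ∈ Finset.range N, (m (j + 1) - m j) ≤ |W| * Real.exp 1 := by
    rw [Finset.sum_range_sub]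
    have h1 := l9k2_sum_mv.1 (hW N le_rfl).1.le
    have h2 : W * Real.exp (θ / 6) ≤ |W| * Real.exp 1 :=
      mul_le_mul (le_abs_self W) (Real.exp_le_exp.2 (by linarith [(abs_le.1 hθ).2])) (Real.exp_pos _).le (abs_nonneg _)
    linarith
  have hkink := fun κ => l9k2_sum_kink (W := W) hm hm0 hmesh h0 hθ hh hW κ
  calc ∑ j ∈ Finset.range N, (m (j + 1) - m j) * |l9k2T Ψ Ψ' θ h (m j)|
      ≤ ∑ j ∈ Finset.range N, (m (j + 1) - m j) * (Cg * h ^ 2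
        + ∑ κ ∈ Kk, (if κ ∈ uIcc (m j * Real.exp (-θ / 6)) (m j * Real.exp (-(θ + h) / 6)) then Cb * |h| else 0)) :=
        Finset.sum_le_sum fun j hj => mul_le_mul_of_nonneg_left (hpt j hj) (hμ j)
    _ = Cg * h ^ 2 * ∑ j ∈ Finset.range N, (m (j + 1) - m j)
        + ∑ κ ∈ Kk, Cb * |h| * ∑ j ∈ (Finset.range N).filter
            (fun j => κ ∈ uIcc (m j * Real.exp (-θ / 6)) (m j * Real.exp (-(θ + h) / 6))), (m (j + 1) - m j) := by
        simp only [mul_add, Finset.sum_add_distrib, Finset.mul_sum]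
        congr 1
        · exact Finset.sum_congr rfl fun j _ => by ring
        · rw [Finset.sum_comm]
          refine Finset.sum_congr rfl fun κ _ => ?_
          rw [Finset.sum_filter]
          refine Finset.sum_congr rfl fun j _ => ?_
          split_ifs <;> ring
    _ ≤ Cg * h ^ 2 * (|W| * Real.exp 1) + ∑ κ ∈ Kk, Cb * |h| * (|W| * Real.exp 1 * |h| + mesh) := by
        refine add_le_add (mul_le_mul_of_nonneg_left hmass (by positivity)) (Finset.sum_le_sum fun κ _ => ?_)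
        exact mul_le_mul_of_nonneg_left (by convert hkink κ) (by positivity)
    _ = Cg * h ^ 2 * (|W| * Real.exp 1) + Kk.card * (Cb * |h| * (|W| * Real.exp 1 * |h| + mesh)) := by
        rw [Finset.sum_const, nsmul_eq_mul]
    _ ≤ Cg * h ^ 2 * (|W| * Real.exp 1) + r * (Cb * |h| * (|W| * Real.exp 1 * |h| + mesh)) := by
        have : (Kk.card : ℝ) ≤ r := by exact_mod_cast hcard
        exact add_le_add le_rfl (mul_le_mul_of_nonneg_right this (by positivity))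
    _ ≤ (Cg * (|W| * Real.exp 1) + Cb * r * (|W| * Real.exp 1 + 1)) * |h| * (|h| + mesh) := by
        have s : h ^ 2 = |h| * |h| := by rw [← sq, sq_abs]
        rw [s]
        have hA : 0 ≤ |W| * Real.exp 1 := by positivity
        have hr : (0 : ℝ) ≤ r := Nat.cast_nonneg r
        have z1 : 0 ≤ Cg * (|W| * Real.exp 1) * |h| * mesh := by positivity
        have z2 : 0 ≤ Cb * r * |h| * (|h| + |W| * Real.exp 1 * mesh) := by positivity
        nlinarith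

end Claimed.Agent.R286
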