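import Mathlib

/-!
# Row 286 (S0533), LL sec. 9, node HI (09-expansion.tex l.331-395), file L09/HiAbs : THE H TABLE, ABSTRACT PER-TERM FORM      (owner helper235; prefix `l9h`)

MATHLIB ONLY, 0 sorry.  One instance (fixed `N`, `m`, path point), step hierarchy (design D1 of origin/helper60:notes/R286/LL09_DAG_60.md): `Tr` = finite type of trees,
`lv τ i` = level at which the base pair `i` splits, `ms k` = mass of the level `k`, `H τ` = signed weight (allocation weight x differentiated scalar coefficient x indicator "some base pair ≥ V₂"),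
`aw τ` = its majorant, `X e τ i` = the pair factors in the ensemble `e` (deterministic factors = constant random variables), `A` = the stochastic factors.

* `l9h_cs`, `l9h_two_le_four`, `l9h_h3`, `l9h_prod2`, `l9h_prod3` : Hoelder for products of bounded factors.
* `l9h_raw_pt` : rows 1, 2, 4, 5 pointwise in `τ`;   `l9h_raw` : summed (needs ONLY the total mass and the ONE-pair marginal bound `sm` of the absolute allocation measure).
* `l9h_main`  : the five rows; row 3 (= (D16), conclusion 2) enters as the hypothesis `hLS`.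
Dictionary: `D1, D2` = `D_{H,1}, D_{H,2}` (with the tilt loss, note H1 of origin/helper235:notes/R286/L13_adv_235.md), `PhiH = x^{2+b_H}(Z²+Z_g)`, `sig` = envelope `x^{-ε} e`, `sg = x^{δ_*/2}`,
`E1 ≈ Y²`, `E2 ≈ V₁ Y²`, `CT, CS` = sub-power constants.
-/

set_option autoImplicit false

open MeasureTheory

namespace Claimed.Agent.R286

/-- Cauchy-Schwarz for bounded functions on a probability space, in the form `∫ |f g| ≤ a b`. -/
theorem l9h_cs {Ω : Type*} [MeasurableSpace Ω] (P : Measure Ω) [IsProbabilityMeasure P]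
    {f g : Ω → ℝ} {a b Bf Bg : ℝ} (ha : 0 ≤ a) (hb : 0 ≤ b)
    (hfm : AEStronglyMeasurable f P) (hgm : AEStronglyMeasurable g P)
    (hfB : ∀ ω, |f ω| ≤ Bf) (hgB : ∀ ω, |g ω| ≤ Bg)
    (hf : ∫ ω, f ω ^ 2 ∂P ≤ a ^ 2) (hg : ∫ ω, g ω ^ 2 ∂P ≤ b ^ 2) :
    ∫ ω, |f ω| * |g ω| ∂P ≤ a * b := by
  have hfL : MemLp (fun ω => |f ω|) (ENNReal.ofReal 2) P :=
    MemLp.of_bound hfm.norm Bf (Filter.Eventually.of_forall fun ω => by
      simpa using hfB ω)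
  have hgL : MemLp (fun ω => |g ω|) (ENNReal.ofReal 2) P :=
    MemLp.of_bound hgm.norm Bg (Filter.Eventually.of_forall fun ω => by
      simpa using hgB ω)
  have h1 := integral_mul_le_Lp_mul_Lq_of_nonneg (μ := P) Real.HolderConjugate.two_two
    (Filter.Eventually.of_forall fun ω => abs_nonneg (f ω))
    (Filter.Eventually.of_forall fun ω => abs_nonneg (g ω)) hfL hgL
  have e1 : ∀ h : Ω → ℝ, (∫ ω, |h ω| ^ (2:ℝ) ∂P) = ∫ ω, h ω ^ 2 ∂P := by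
    intro h
    congr 1; funext ω
    rw [Real.rpow_two, sq_abs]
  rw [e1, e1] at h1
  have h2 : ∀ {I c : ℝ}, 0 ≤ c → 0 ≤ I → I ≤ c ^ 2 → I ^ (1 / (2:ℝ)) ≤ c := by
    intro I c hc hI h
    calc I ^ (1 / (2:ℝ)) ≤ (c ^ 2) ^ (1 / (2:ℝ)) := Real.rpow_le_rpow hI h (by norm_num)
      _ = c := by
        rw [← Real.sqrt_eq_rpow, Real.sqrt_sq hc]
  have hf0 : 0 ≤ ∫ ω, f ω ^ 2 ∂P := integral_nonneg fun ω => sq_nonneg _
  have hg0 : 0 ≤ ∫ ω, g ω ^ 2 ∂P := integral_nonneg fun ω => sq_nonneg _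
  exact h1.trans (mul_le_mul (h2 ha hf0 hf) (h2 hb hg0 hg) (Real.rpow_nonneg hg0 _) ha)

/-- `L² ≤ L⁴` on a probability space -/
theorem l9h_two_le_four {Ω : Type*} [MeasurableSpace Ω] (P : Measure Ω) [IsProbabilityMeasure P]
    {g : Ω → ℝ} {b Bg : ℝ} (_hb : 0 ≤ b) (hgm : AEStronglyMeasurable g P)
    (hgB : ∀ ω, |g ω| ≤ Bg) (hg : ∫ ω, g ω ^ 4 ∂P ≤ b ^ 4) : ∫ ω, g ω ^ 2 ∂P ≤ b ^ 2 := by
  have h := l9h_cs P (f := fun ω => g ω ^ 2) (g := fun _ => (1:ℝ)) (a := b ^ 2) (b := 1)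
    (Bf := Bg ^ 2) (Bg := 1) (by positivity) (by norm_num) (hgm.pow 2) aestronglyMeasurable_const
    (fun ω => by rw [abs_pow]; exact pow_le_pow_left₀ (abs_nonneg _) (hgB ω) 2) (fun _ => by simp)
    (by
      have : ∀ ω, (g ω ^ 2) ^ 2 = g ω ^ 4 := fun ω => by ring
      simp only [this]
      calc ∫ ω, g ω ^ 4 ∂P ≤ b ^ 4 := hg
        _ = (b ^ 2) ^ 2 := by ring) (by simp)
  have e : ∀ ω, |g ω ^ 2| * |(1:ℝ)| = g ω ^ 2 := fun ω => by
    rw [abs_of_nonneg (sq_nonneg (g ω)), abs_one, mul_one]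
  simp only [e, mul_one] at h
  exact h

/-- three factors: `L², L⁴, L⁴` -/
theorem l9h_h3 {Ω : Type*} [MeasurableSpace Ω] (P : Measure Ω) [IsProbabilityMeasure P]
    {f g h : Ω → ℝ} {a b c B : ℝ} (ha : 0 ≤ a) (hb : 0 ≤ b) (hc : 0 ≤ c)
    (hfm : AEStronglyMeasurable f P) (hgm : AEStronglyMeasurable g P) (hhm : AEStronglyMeasurable h P)
    (hfB : ∀ ω, |f ω| ≤ B) (hgB : ∀ ω, |g ω| ≤ B) (hhB : ∀ ω, |h ω| ≤ B)
    (hf : ∫ ω, f ω ^ 2 ∂P ≤ a ^ 2) (hg : ∫ ω, g ω ^ 4 ∂P ≤ b ^ 4) (hh : ∫ ω, h ω ^ 4 ∂P ≤ c ^ 4) :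
    ∫ ω, |f ω| * (|g ω| * |h ω|) ∂P ≤ a * (b * c) := by
  have hB0 : 0 ≤ B := (abs_nonneg _).trans (hfB (Classical.choice (by
    by_contra hne
    rw [not_nonempty_iff] at hne
    have : P Set.univ = 0 := by rw [Set.univ_eq_empty_iff.mpr hne]; simp
    simp at this)))
  have h2 : ∫ ω, (g ω * h ω) ^ 2 ∂P ≤ (b * c) ^ 2 := by
    have := l9h_cs P (f := fun ω => g ω ^ 2) (g := fun ω => h ω ^ 2) (a := b ^ 2) (b := c ^ 2)
      (Bf := B ^ 2) (Bg := B ^ 2) (by positivity) (by positivity) (hgm.pow 2) (hhm.pow 2)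
      (fun ω => by rw [abs_pow]; exact pow_le_pow_left₀ (abs_nonneg _) (hgB ω) 2)
      (fun ω => by rw [abs_pow]; exact pow_le_pow_left₀ (abs_nonneg _) (hhB ω) 2)
      (by
        have : ∀ ω, (g ω ^ 2) ^ 2 = g ω ^ 4 := fun ω => by ring
        simp only [this]
        calc ∫ ω, g ω ^ 4 ∂P ≤ b ^ 4 := hg
          _ = (b ^ 2) ^ 2 := by ring)
      (by
        have : ∀ ω, (h ω ^ 2) ^ 2 = h ω ^ 4 := fun ω => by ring
        simp only [this]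
        calc ∫ ω, h ω ^ 4 ∂P ≤ c ^ 4 := hh
          _ = (c ^ 2) ^ 2 := by ring)
    have e : ∀ ω, (g ω * h ω) ^ 2 = |g ω ^ 2| * |h ω ^ 2| := fun ω => by
      rw [abs_of_nonneg (sq_nonneg _), abs_of_nonneg (sq_nonneg _)]; ring
    simp only [e]
    calc _ ≤ b ^ 2 * c ^ 2 := this
      _ = (b * c) ^ 2 := by ring
  have := l9h_cs P (f := f) (g := fun ω => g ω * h ω) (a := a) (b := b * c) (Bf := B) (Bg := B * B)
    ha (by positivity) hfm (hgm.mul hhm) hfB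
    (fun ω => by rw [abs_mul]; exact mul_le_mul (hgB ω) (hhB ω) (abs_nonneg _) hB0) hf h2
  simpa [abs_mul] using this

/-- bounded measurable products are integrable -/
theorem l9h_prod_int {ι Ω : Type*} [MeasurableSpace Ω] (P : Measure Ω)
    [IsProbabilityMeasure P] (s : Finset ι) {X : ι → Ω → ℝ} (hXm : ∀ i, AEStronglyMeasurable (X i) P)
    (hXB : ∀ i ω, |X i ω| ≤ 2) : Integrable (fun ω => ∏ i ∈ s, X i ω) P := by
  have hm : AEStronglyMeasurable (fun ω => ∏ i ∈ s, X i ω) P :=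
    Finset.aestronglyMeasurable_fun_prod s fun i _ => hXm i
  have : MemLp (fun ω => ∏ i ∈ s, X i ω) 1 P :=
    MemLp.of_bound hm (2 ^ s.card) (Filter.Eventually.of_forall fun ω => by
      rw [Real.norm_eq_abs, Finset.abs_prod]
      calc ∏ i ∈ s, |X i ω| ≤ ∏ _i ∈ s, (2:ℝ) :=
            Finset.prod_le_prod (fun i _ => abs_nonneg _) fun i _ => hXB i ω
        _ = 2 ^ s.card := by simp)
  exact memLp_one_iff_integrable.mp this

theorem l9h_prod_abs_le {ι Ω : Type*} (s : Finset ι) {X : ι → Ω → ℝ}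
    (hXB : ∀ i ω, |X i ω| ≤ 2) (ω : Ω) {c : ℕ} (hc : s.card ≤ c) : ∏ i ∈ s, |X i ω| ≤ 2 ^ c := by
  calc ∏ i ∈ s, |X i ω| ≤ ∏ _i ∈ s, (2:ℝ) :=
        Finset.prod_le_prod (fun i _ => abs_nonneg _) fun i _ => hXB i ω
    _ = 2 ^ s.card := by simp
    _ ≤ 2 ^ c := pow_le_pow_right₀ (by norm_num) hc

/-- two selected factors in `L²`, the others bounded by `2` -/
theorem l9h_prod2 {ι Ω : Type*} [Fintype ι] [DecidableEq ι] [MeasurableSpace Ω] (P : Measure Ω)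
    [IsProbabilityMeasure P] {X : ι → Ω → ℝ} (hXm : ∀ i, AEStronglyMeasurable (X i) P)
    (hXB : ∀ i ω, |X i ω| ≤ 2) {i1 i2 : ι} (h12 : i1 ≠ i2) {a b : ℝ} (ha : 0 ≤ a) (hb : 0 ≤ b)
    (h1 : ∫ ω, X i1 ω ^ 2 ∂P ≤ a ^ 2) (h2 : ∫ ω, X i2 ω ^ 2 ∂P ≤ b ^ 2) :
    |∫ ω, ∏ i, X i ω ∂P| ≤ 2 ^ Fintype.card ι * (a * b) := by
  have hsplit : ∀ ω, |∏ i, X i ω| = (|X i1 ω| * |X i2 ω|) *
      ∏ i ∈ (Finset.univ.erase i1).erase i2, |X i ω| := by
    intro ω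
    rw [Finset.abs_prod, ← Finset.mul_prod_erase Finset.univ _ (Finset.mem_univ i1),
      ← Finset.mul_prod_erase (Finset.univ.erase i1) _
        (Finset.mem_erase.mpr ⟨h12.symm, Finset.mem_univ i2⟩), mul_assoc]
  have hcs := l9h_cs P ha hb (hXm i1) (hXm i2) (hXB i1) (hXB i2) h1 h2
  have hint2 : Integrable (fun ω => |X i1 ω| * |X i2 ω|) P := by
    have hm : AEStronglyMeasurable (fun ω => |X i1 ω| * |X i2 ω|) P :=
      (hXm i1).norm.mul (hXm i2).norm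
    have : MemLp (fun ω => |X i1 ω| * |X i2 ω|) 1 P :=
      MemLp.of_bound hm (2 * 2) (Filter.Eventually.of_forall fun ω => by
        rw [Real.norm_eq_abs, abs_mul, abs_abs, abs_abs]
        exact mul_le_mul (hXB i1 ω) (hXB i2 ω) (abs_nonneg _) (by norm_num))
    exact memLp_one_iff_integrable.mp this
  calc |∫ ω, ∏ i, X i ω ∂P| ≤ ∫ ω, |∏ i, X i ω| ∂P := abs_integral_le_integral_abs
    _ ≤ ∫ ω, 2 ^ Fintype.card ι * (|X i1 ω| * |X i2 ω|) ∂P := by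
        refine integral_mono (l9h_prod_int P Finset.univ hXm hXB).abs (hint2.const_mul _) fun ω => ?_
        show |∏ i, X i ω| ≤ _
        rw [hsplit ω, mul_comm]
        refine mul_le_mul_of_nonneg_right (l9h_prod_abs_le _ hXB ω ?_) (by positivity)
        exact (Finset.card_le_card ((Finset.erase_subset _ _).trans (Finset.erase_subset _ _))).trans
          (le_of_eq Finset.card_univ)
    _ = 2 ^ Fintype.card ι * ∫ ω, |X i1 ω| * |X i2 ω| ∂P := integral_const_mul _ _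
    _ ≤ 2 ^ Fintype.card ι * (a * b) := mul_le_mul_of_nonneg_left hcs (by positivity)

/-- three selected factors in `L², L⁴, L⁴`, the others bounded by `2` -/
theorem l9h_prod3 {ι Ω : Type*} [Fintype ι] [DecidableEq ι] [MeasurableSpace Ω] (P : Measure Ω)
    [IsProbabilityMeasure P] {X : ι → Ω → ℝ} (hXm : ∀ i, AEStronglyMeasurable (X i) P)
    (hXB : ∀ i ω, |X i ω| ≤ 2) {i0 i1 i2 : ι} (h01 : i0 ≠ i1) (h02 : i0 ≠ i2) (h12 : i1 ≠ i2)
    {a b c : ℝ} (ha : 0 ≤ a) (hb : 0 ≤ b) (hc : 0 ≤ c)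
    (h0 : ∫ ω, X i0 ω ^ 2 ∂P ≤ a ^ 2) (h1 : ∫ ω, X i1 ω ^ 4 ∂P ≤ b ^ 4)
    (h2 : ∫ ω, X i2 ω ^ 4 ∂P ≤ c ^ 4) :
    |∫ ω, ∏ i, X i ω ∂P| ≤ 2 ^ Fintype.card ι * (a * (b * c)) := by
  have hsplit : ∀ ω, |∏ i, X i ω| = (|X i0 ω| * (|X i1 ω| * |X i2 ω|)) *
      ∏ i ∈ ((Finset.univ.erase i0).erase i1).erase i2, |X i ω| := by
    intro ω
    rw [Finset.abs_prod, ← Finset.mul_prod_erase Finset.univ _ (Finset.mem_univ i0),
      ← Finset.mul_prod_erase (Finset.univ.erase i0) _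
        (Finset.mem_erase.mpr ⟨h01.symm, Finset.mem_univ i1⟩),
      ← Finset.mul_prod_erase ((Finset.univ.erase i0).erase i1) _
        (Finset.mem_erase.mpr ⟨h12.symm, Finset.mem_erase.mpr ⟨h02.symm, Finset.mem_univ i2⟩⟩)]
    ring
  have hcs := l9h_h3 P ha hb hc (hXm i0) (hXm i1) (hXm i2) (hXB i0) (hXB i1) (hXB i2) h0 h1 h2
  have hint2 : Integrable (fun ω => |X i0 ω| * (|X i1 ω| * |X i2 ω|)) P := by
    have hm : AEStronglyMeasurable (fun ω => |X i0 ω| * (|X i1 ω| * |X i2 ω|)) P :=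
      (hXm i0).norm.mul ((hXm i1).norm.mul (hXm i2).norm)
    have : MemLp (fun ω => |X i0 ω| * (|X i1 ω| * |X i2 ω|)) 1 P :=
      MemLp.of_bound hm (2 * (2 * 2)) (Filter.Eventually.of_forall fun ω => by
        rw [Real.norm_eq_abs, abs_mul, abs_mul, abs_abs, abs_abs, abs_abs]
        exact mul_le_mul (hXB i0 ω) (mul_le_mul (hXB i1 ω) (hXB i2 ω) (abs_nonneg _) (by norm_num))
          (by positivity) (by norm_num))
    exact memLp_one_iff_integrable.mp this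
  calc |∫ ω, ∏ i, X i ω ∂P| ≤ ∫ ω, |∏ i, X i ω| ∂P := abs_integral_le_integral_abs
    _ ≤ ∫ ω, 2 ^ Fintype.card ι * (|X i0 ω| * (|X i1 ω| * |X i2 ω|)) ∂P := by
        refine integral_mono (l9h_prod_int P Finset.univ hXm hXB).abs (hint2.const_mul _) fun ω => ?_
        show |∏ i, X i ω| ≤ _
        rw [hsplit ω, mul_comm]
        refine mul_le_mul_of_nonneg_right (l9h_prod_abs_le _ hXB ω ?_) (by positivity)
        exact (Finset.card_le_card (((Finset.erase_subset _ _).trans (Finset.erase_subset _ _)).trans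
          (Finset.erase_subset _ _))).trans (le_of_eq Finset.card_univ)
    _ = 2 ^ Fintype.card ι * ∫ ω, |X i0 ω| * (|X i1 ω| * |X i2 ω|) ∂P := integral_const_mul _ _
    _ ≤ 2 ^ Fintype.card ι * (a * (b * c)) := mul_le_mul_of_nonneg_left hcs (by positivity)

/-- the low weight function of rows 4, 5 -/
noncomputable def l9hG (ms sig : ℕ → ℝ) (V1 sg : ℝ) (k : ℕ) : ℝ :=
  if ms k < V1 then ms k * sig k + sg * sig k else 0

theorem l9hG_nonneg {ms sig : ℕ → ℝ} {V1 sg : ℝ} (hms0 : ∀ k, 0 ≤ ms k) (hsig0 : ∀ k, 0 ≤ sig k)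
    (hsg : 0 ≤ sg) (k : ℕ) : 0 ≤ l9hG ms sig V1 sg k := by
  unfold l9hG
  split_ifs
  · have := hms0 k; have := hsig0 k; positivity
  · exact le_rfl

/-- POINTWISE (in the tree `τ`) form of rows 1, 2, 4, 5 of the H table (09 l.331-395), one ensemble. -/
theorem l9h_raw_pt {ι Ω : Type*} [Fintype ι] [DecidableEq ι] [MeasurableSpace Ω]
    (P : Measure Ω) [IsProbabilityMeasure P]
    (X : ι → Ω → ℝ) (A : Finset ι) (lv : ι → ℕ) (ms sig : ℕ → ℝ) (Hτ awτ : ℝ)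
    {V1 V2 D1 D2 PhiH sg : ℝ}
    (hV : V1 ≤ V2) (hD1 : 0 ≤ D1) (hD2 : 0 ≤ D2) (hPhi : 0 ≤ PhiH) (hsg : 0 ≤ sg)
    (hXm : ∀ i, AEStronglyMeasurable (X i) P) (hXB : ∀ i ω, |X i ω| ≤ 2)
    (haw : |Hτ| ≤ awτ)
    (hsupp : Hτ ≠ 0 → ∃ i, V2 ≤ ms (lv i))
    (hpar : ∀ i, ms (lv i) < V1 → (∀ i', i' ≠ i → V1 ≤ ms (lv i')) → |Hτ| ≤ ms (lv i) * awτ)
    (hms0 : ∀ k, 0 ≤ ms k)
    (h2A1 : ∀ i ∈ A, V1 ≤ ms (lv i) → ∫ ω, X i ω ^ 2 ∂P ≤ D1 ^ 2)
    (h2A2 : ∀ i ∈ A, V2 ≤ ms (lv i) → ∫ ω, X i ω ^ 2 ∂P ≤ D2 ^ 2)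
    (h2det : ∀ i ∉ A, V1 ≤ ms (lv i) → ∫ ω, X i ω ^ 2 ∂P ≤ PhiH ^ 2)
    (h4lo : ∀ i, ms (lv i) < V1 → ∫ ω, X i ω ^ 4 ∂P ≤ sig (lv i) ^ 4)
    (hsig0 : ∀ k, 0 ≤ sig k) (hsigsg : ∀ k, ms k < V1 → sig k ≤ sg)
    (hcard : 2 ≤ Fintype.card ι) (hhi : ∃ i ∈ A, V1 ≤ ms (lv i)) :
    |Hτ| * |∫ ω, ∏ i, X i ω ∂P| ≤ 2 ^ Fintype.card ι *
      (awτ * (D1 ^ 2 + D1 * PhiH) + D2 * ∑ i, awτ * l9hG ms sig V1 sg (lv i)) := by
  have haw0 : 0 ≤ awτ := (abs_nonneg _).trans haw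
  have hG0 := l9hG_nonneg (V1 := V1) hms0 hsig0 hsg
  have hsum0 : 0 ≤ ∑ i, awτ * l9hG ms sig V1 sg (lv i) :=
    Finset.sum_nonneg fun i _ => mul_nonneg haw0 (hG0 _)
  have hone : ∀ i, awτ * l9hG ms sig V1 sg (lv i) ≤ ∑ i, awτ * l9hG ms sig V1 sg (lv i) := fun i =>
    Finset.single_le_sum (f := fun i => awτ * l9hG ms sig V1 sg (lv i))
      (fun i _ => mul_nonneg haw0 (hG0 _)) (Finset.mem_univ i)
  have hc0 : (0:ℝ) < 2 ^ Fintype.card ι := by positivity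
  by_cases hH : Hτ = 0
  · rw [hH, abs_zero, zero_mul]; positivity
  obtain ⟨i0, hi0A, hi0⟩ := hhi
  by_cases h1 : ∃ i1, i1 ≠ i0 ∧ V1 ≤ ms (lv i1)
  · obtain ⟨i1, h10, hi1⟩ := h1
    have hb : |∫ ω, ∏ i, X i ω ∂P| ≤ 2 ^ Fintype.card ι * (D1 ^ 2 + D1 * PhiH) := by
      by_cases hi1A : i1 ∈ A
      · refine (l9h_prod2 P hXm hXB h10.symm hD1 hD1 (h2A1 i0 hi0A hi0) (h2A1 i1 hi1A hi1)).trans ?_
        refine mul_le_mul_of_nonneg_left ?_ hc0.le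
        nlinarith [mul_nonneg hD1 hPhi]
      · refine (l9h_prod2 P hXm hXB h10.symm hD1 hPhi (h2A1 i0 hi0A hi0) (h2det i1 hi1A hi1)).trans ?_
        refine mul_le_mul_of_nonneg_left ?_ hc0.le
        nlinarith [sq_nonneg D1]
    calc |Hτ| * |∫ ω, ∏ i, X i ω ∂P| ≤ awτ * (2 ^ Fintype.card ι * (D1 ^ 2 + D1 * PhiH)) :=
          mul_le_mul haw hb (abs_nonneg _) haw0
      _ = 2 ^ Fintype.card ι * (awτ * (D1 ^ 2 + D1 * PhiH)) := by ring
      _ ≤ _ := by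
          refine mul_le_mul_of_nonneg_left ?_ hc0.le
          have := mul_nonneg hD2 hsum0
          linarith
  · push Not at h1
    -- every other factor is low
    obtain ⟨i, hi⟩ := hsupp hH
    have hii0 : i = i0 := by
      by_contra hne
      have := h1 i hne
      linarith
    subst hii0
    have h20 := h2A2 i hi0A hi
    obtain ⟨i1, hi1⟩ : ∃ i1, i1 ≠ i := by
      by_contra hcon
      push Not at hcon
      have : Fintype.card ι ≤ 1 := Fintype.card_le_one_iff.mpr fun a b => (hcon a).trans (hcon b).symm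
      omega
    have hlo1 := h1 i1 hi1
    have hmain : |Hτ| * |∫ ω, ∏ i, X i ω ∂P| ≤
        2 ^ Fintype.card ι * (D2 * (awτ * l9hG ms sig V1 sg (lv i1))) := by
      have hGv : l9hG ms sig V1 sg (lv i1) = ms (lv i1) * sig (lv i1) + sg * sig (lv i1) := by
        unfold l9hG; rw [if_pos hlo1]
      rw [hGv]
      have hs1 := hsig0 (lv i1)
      have hm1 := hms0 (lv i1)
      by_cases h2 : ∃ i2, i2 ≠ i ∧ i2 ≠ i1
      · obtain ⟨i2, h2i, h21⟩ := h2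
        have hlo2 := h1 i2 h2i
        have hb := l9h_prod3 P hXm hXB hi1.symm h2i.symm h21.symm hD2 hs1 (hsig0 (lv i2)) h20
          (h4lo i1 hlo1) (h4lo i2 hlo2)
        have hs2 : sig (lv i2) ≤ sg := hsigsg _ hlo2
        calc |Hτ| * |∫ ω, ∏ i, X i ω ∂P|
            ≤ awτ * (2 ^ Fintype.card ι * (D2 * (sig (lv i1) * sig (lv i2)))) :=
              mul_le_mul haw hb (abs_nonneg _) haw0
          _ ≤ awτ * (2 ^ Fintype.card ι * (D2 * (sig (lv i1) * sg))) := by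
              gcongr
          _ = 2 ^ Fintype.card ι * (D2 * (awτ * (sg * sig (lv i1)))) := by ring
          _ ≤ _ := by
              have : 0 ≤ ms (lv i1) * sig (lv i1) := mul_nonneg hm1 hs1
              gcongr
              linarith
      · push Not at h2
        have hp := hpar i1 hlo1 (fun i' hi' => by
          by_cases hi'0 : i' = i
          · rw [hi'0]; exact hi0
          · exact absurd (h2 i' hi'0) hi')
        have hb := l9h_prod2 P hXm hXB hi1.symm hD2 hs1 h20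
          (l9h_two_le_four P hs1 (hXm i1) (hXB i1) (h4lo i1 hlo1))
        calc |Hτ| * |∫ ω, ∏ i, X i ω ∂P|
            ≤ (ms (lv i1) * awτ) * (2 ^ Fintype.card ι * (D2 * sig (lv i1))) :=
              mul_le_mul hp hb (abs_nonneg _) (mul_nonneg hm1 haw0)
          _ = 2 ^ Fintype.card ι * (D2 * (awτ * (ms (lv i1) * sig (lv i1)))) := by ring
          _ ≤ _ := by
              have : 0 ≤ sg * sig (lv i1) := mul_nonneg hsg hs1
              gcongr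
              linarith
    refine hmain.trans (mul_le_mul_of_nonneg_left ?_ hc0.le)
    have h3 : D2 * (awτ * l9hG ms sig V1 sg (lv i1)) ≤ D2 * ∑ i, awτ * l9hG ms sig V1 sg (lv i) :=
      mul_le_mul_of_nonneg_left (hone i1) hD2
    have h4 : 0 ≤ awτ * (D1 ^ 2 + D1 * PhiH) := by positivity
    linarith

/-- hypotheses on ONE ensemble for the raw rows of the H table -/
structure L9hEns {ι Tr Ω : Type*} [MeasurableSpace Ω] (nu : Tr → Measure Ω) (X : Tr → ι → Ω → ℝ)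
    (A : Finset ι) (lv : Tr → ι → ℕ) (ms sig : ℕ → ℝ) (V1 V2 D1 D2 PhiH : ℝ) : Prop where
  prob : ∀ τ, IsProbabilityMeasure (nu τ)
  meas : ∀ τ i, AEStronglyMeasurable (X τ i) (nu τ)
  bdd : ∀ τ i ω, |X τ i ω| ≤ 2
  /-- (D15), stochastic factor at a mass `≥ V₁` -/
  st1 : ∀ τ, ∀ i ∈ A, V1 ≤ ms (lv τ i) → ∫ ω, X τ i ω ^ 2 ∂(nu τ) ≤ D1 ^ 2
  /-- (D15), stochastic factor at a mass `≥ V₂` -/
  st2 : ∀ τ, ∀ i ∈ A, V2 ≤ ms (lv τ i) → ∫ ω, X τ i ω ^ 2 ∂(nu τ) ≤ D2 ^ 2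
  /-- (D15) + 03 "Size derivatives": deterministic factor at a mass `≥ V₁` -/
  det : ∀ τ, ∀ i ∉ A, V1 ≤ ms (lv τ i) → ∫ ω, X τ i ω ^ 2 ∂(nu τ) ≤ PhiH ^ 2
  /-- (D2) (and (D11) through `sig ≤ sg`): any factor at a mass `< V₁` -/
  low : ∀ τ i, ms (lv τ i) < V1 → ∫ ω, X τ i ω ^ 4 ∂(nu τ) ≤ sig (lv τ i) ^ 4

/-- hypotheses on the deterministic weight -/
structure L9hWt {ι Tr : Type*} [Fintype Tr] (lv : Tr → ι → ℕ) (ms sig mw : ℕ → ℝ) (K : Finset ℕ)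
    (H aw : Tr → ℝ) (V1 V2 sg CT CS E1 E2 : ℝ) : Prop where
  hV : V1 ≤ V2
  sg0 : 0 ≤ sg
  CS0 : 0 ≤ CS
  ms0 : ∀ k, 0 ≤ ms k
  sig0 : ∀ k, 0 ≤ sig k
  sigsg : ∀ k, ms k < V1 → sig k ≤ sg
  /-- `aw τ = |wt τ| ×` (bound of the scalar coefficient, dotted multiplier included) -/
  maj : ∀ τ, |H τ| ≤ aw τ
  /-- some base pair has mass `≥ V₂` -/
  supp : ∀ τ, H τ ≠ 0 → ∃ i, V2 ≤ ms (lv τ i)
  /-- PAR: a sole low factor has the extra coefficient `O(v)` -/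
  par : ∀ τ i, ms (lv τ i) < V1 → (∀ i', i' ≠ i → V1 ≤ ms (lv τ i')) → |H τ| ≤ ms (lv τ i) * aw τ
  /-- total mass -/
  tm : ∑ τ, aw τ ≤ CT
  /-- DENS, one pair: bounded density of the split level of a pair -/
  sm : ∀ i (g : ℕ → ℝ), (∀ k, 0 ≤ g k) → (∀ k, V1 ≤ ms k → g k = 0) → ∑ τ, aw τ * g (lv τ i) ≤ CS * ∑ k ∈ K, mw k * g k
  /-- `∫_{v<V₁} e dv ≲ Y²` -/
  env1 : ∑ k ∈ K.filter (fun k => ms k < V1), mw k * sig k ≤ E1
  /-- `∫_{v<V₁} v e dv ≲ V₁ Y²` -/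
  env2 : ∑ k ∈ K.filter (fun k => ms k < V1), mw k * (ms k * sig k) ≤ E2

/-- rows 1, 2, 4, 5 of the H table, summed over the trees, one ensemble -/
theorem l9h_raw {ι Tr Ω : Type*} [Fintype ι] [DecidableEq ι] [Fintype Tr] [MeasurableSpace Ω]
    {nu : Tr → Measure Ω} {X : Tr → ι → Ω → ℝ} {A : Finset ι} {lv : Tr → ι → ℕ}
    {ms sig mw : ℕ → ℝ} {K : Finset ℕ} {H aw : Tr → ℝ}
    {V1 V2 D1 D2 PhiH sg CT CS E1 E2 : ℝ}
    (hE : L9hEns nu X A lv ms sig V1 V2 D1 D2 PhiH)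
    (hW : L9hWt lv ms sig mw K H aw V1 V2 sg CT CS E1 E2)
    (hD1 : 0 ≤ D1) (hD2 : 0 ≤ D2) (hPhi : 0 ≤ PhiH) (hcard : 2 ≤ Fintype.card ι) :
    ∑ τ ∈ Finset.univ.filter (fun τ => ∃ i ∈ A, V1 ≤ ms (lv τ i)),
        |H τ| * |∫ ω, ∏ i, X τ i ω ∂(nu τ)|
      ≤ 2 ^ Fintype.card ι *
        (CT * (D1 ^ 2 + D1 * PhiH) + Fintype.card ι * (CS * (D2 * (E2 + sg * E1)))) := by
  classical
  have haw0 : ∀ τ, 0 ≤ aw τ := fun τ => (abs_nonneg _).trans (hW.maj τ)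
  have hG0 := l9hG_nonneg (V1 := V1) hW.ms0 hW.sig0 hW.sg0
  have hpt : ∀ τ ∈ Finset.univ.filter (fun τ => ∃ i ∈ A, V1 ≤ ms (lv τ i)),
      |H τ| * |∫ ω, ∏ i, X τ i ω ∂(nu τ)| ≤ 2 ^ Fintype.card ι *
        (aw τ * (D1 ^ 2 + D1 * PhiH) + D2 * ∑ i, aw τ * l9hG ms sig V1 sg (lv τ i)) := by
    intro τ hτ
    have := hE.prob τ
    exact l9h_raw_pt (nu τ) (X τ) A (lv τ) ms sig (H τ) (aw τ) hW.hV hD1 hD2 hPhi hW.sg0
      (hE.meas τ) (hE.bdd τ) (hW.maj τ) (hW.supp τ) (hW.par τ) hW.ms0 (hE.st1 τ) (hE.st2 τ)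
      (hE.det τ) (hE.low τ) hW.sig0 hW.sigsg hcard (Finset.mem_filter.mp hτ).2
  have hGsum : ∑ k ∈ K, mw k * l9hG ms sig V1 sg k ≤ E2 + sg * E1 := by
    have e1 : ∑ k ∈ K, mw k * l9hG ms sig V1 sg k
        = ∑ k ∈ K.filter (fun k => ms k < V1), mw k * (ms k * sig k + sg * sig k) := by
      rw [Finset.sum_filter]
      refine Finset.sum_congr rfl fun k _ => ?_
      unfold l9hG
      split_ifs <;> simp
    have e2 : ∑ k ∈ K.filter (fun k => ms k < V1), mw k * (ms k * sig k + sg * sig k)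
        = ∑ k ∈ K.filter (fun k => ms k < V1), mw k * (ms k * sig k)
          + sg * ∑ k ∈ K.filter (fun k => ms k < V1), mw k * sig k := by
      rw [Finset.mul_sum, ← Finset.sum_add_distrib]
      refine Finset.sum_congr rfl fun k _ => ?_
      ring
    rw [e1, e2]
    have := mul_le_mul_of_nonneg_left hW.env1 hW.sg0
    linarith [hW.env2]
  have hnn : ∀ τ, 0 ≤ 2 ^ Fintype.card ι *
      (aw τ * (D1 ^ 2 + D1 * PhiH) + D2 * ∑ i, aw τ * l9hG ms sig V1 sg (lv τ i)) := by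
    intro τ
    have h1 : 0 ≤ ∑ i, aw τ * l9hG ms sig V1 sg (lv τ i) :=
      Finset.sum_nonneg fun i _ => mul_nonneg (haw0 τ) (hG0 _)
    have := haw0 τ
    positivity
  calc ∑ τ ∈ Finset.univ.filter (fun τ => ∃ i ∈ A, V1 ≤ ms (lv τ i)),
        |H τ| * |∫ ω, ∏ i, X τ i ω ∂(nu τ)|
      ≤ ∑ τ ∈ Finset.univ.filter (fun τ => ∃ i ∈ A, V1 ≤ ms (lv τ i)), 2 ^ Fintype.card ι *
        (aw τ * (D1 ^ 2 + D1 * PhiH) + D2 * ∑ i, aw τ * l9hG ms sig V1 sg (lv τ i)) :=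
        Finset.sum_le_sum hpt
    _ ≤ ∑ τ, 2 ^ Fintype.card ι *
        (aw τ * (D1 ^ 2 + D1 * PhiH) + D2 * ∑ i, aw τ * l9hG ms sig V1 sg (lv τ i)) :=
        Finset.sum_le_sum_of_subset_of_nonneg (Finset.filter_subset _ _) fun τ _ _ => hnn τ
    _ = 2 ^ Fintype.card ι * ((∑ τ, aw τ) * (D1 ^ 2 + D1 * PhiH)
          + D2 * ∑ i, ∑ τ, aw τ * l9hG ms sig V1 sg (lv τ i)) := by
        rw [← Finset.mul_sum, Finset.sum_add_distrib, ← Finset.sum_mul, ← Finset.mul_sum,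
          Finset.sum_comm]
    _ ≤ 2 ^ Fintype.card ι * (CT * (D1 ^ 2 + D1 * PhiH)
          + D2 * ∑ _i : ι, CS * (E2 + sg * E1)) := by
        have h1 : (∑ τ, aw τ) * (D1 ^ 2 + D1 * PhiH) ≤ CT * (D1 ^ 2 + D1 * PhiH) :=
          mul_le_mul_of_nonneg_right hW.tm (by positivity)
        have h2 : ∑ i, ∑ τ, aw τ * l9hG ms sig V1 sg (lv τ i) ≤ ∑ _i : ι, CS * (E2 + sg * E1) :=
          Finset.sum_le_sum fun i _ => (hW.sm i _ hG0 fun k hk => by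
            unfold l9hG; rw [if_neg (not_lt.mpr hk)]).trans
            (mul_le_mul_of_nonneg_left hGsum hW.CS0)
        have h3 := mul_le_mul_of_nonneg_left h2 hD2
        refine mul_le_mul_of_nonneg_left ?_ (by positivity)
        linarith
    _ = _ := by
        rw [Finset.sum_const, Finset.card_univ, nsmul_eq_mul]; ring

/-- **Node HI, abstract per-term form** (LL 09 l.331-395): the five rows of the H table.
`X true`, `X false` : the `j` pair factors (stochastic `δ` for `i ∈ A`, deterministic ones as constant random variables) in the tilted /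
untilted ensemble; `B2` : the bound of row 3 (all factors of mass `≥ V₁` deterministic), i.e. (D16), conclusion 2. -/
theorem l9h_main {ι Tr Ω : Type*} [Fintype ι] [DecidableEq ι] [Fintype Tr] [MeasurableSpace Ω]
    {nu : Bool → Tr → Measure Ω} {X : Bool → Tr → ι → Ω → ℝ} {A : Finset ι} {lv : Tr → ι → ℕ}
    {ms sig mw : ℕ → ℝ} {K : Finset ℕ} {H aw : Tr → ℝ}
    {V1 V2 D1 D2 PhiH sg CT CS E1 E2 B2 : ℝ}
    (hE : ∀ e, L9hEns (nu e) (X e) A lv ms sig V1 V2 D1 D2 PhiH)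
    (hW : L9hWt lv ms sig mw K H aw V1 V2 sg CT CS E1 E2)
    (hD1 : 0 ≤ D1) (hD2 : 0 ≤ D2) (hPhi : 0 ≤ PhiH) (hcard : 2 ≤ Fintype.card ι)
    (hLS : |∑ τ ∈ Finset.univ.filter (fun τ => ¬ ∃ i ∈ A, V1 ≤ ms (lv τ i)),
      H τ * ((∫ ω, ∏ i, X true τ i ω ∂(nu true τ)) - ∫ ω, ∏ i, X false τ i ω ∂(nu false τ))| ≤ B2) :
    |∑ τ, H τ * ((∫ ω, ∏ i, X true τ i ω ∂(nu true τ)) - ∫ ω, ∏ i, X false τ i ω ∂(nu false τ))|
      ≤ B2 + 2 * (2 ^ Fintype.card ι *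
        (CT * (D1 ^ 2 + D1 * PhiH) + Fintype.card ι * (CS * (D2 * (E2 + sg * E1))))) := by
  classical
  rw [← Finset.sum_filter_add_sum_filter_not Finset.univ (fun τ => ∃ i ∈ A, V1 ≤ ms (lv τ i))]
  have h1 := l9h_raw (hE true) hW hD1 hD2 hPhi hcard
  have h0 := l9h_raw (hE false) hW hD1 hD2 hPhi hcard
  have hr : |∑ τ ∈ Finset.univ.filter (fun τ => ∃ i ∈ A, V1 ≤ ms (lv τ i)),
      H τ * ((∫ ω, ∏ i, X true τ i ω ∂(nu true τ)) - ∫ ω, ∏ i, X false τ i ω ∂(nu false τ))|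
      ≤ ∑ τ ∈ Finset.univ.filter (fun τ => ∃ i ∈ A, V1 ≤ ms (lv τ i)),
          |H τ| * |∫ ω, ∏ i, X true τ i ω ∂(nu true τ)|
        + ∑ τ ∈ Finset.univ.filter (fun τ => ∃ i ∈ A, V1 ≤ ms (lv τ i)),
          |H τ| * |∫ ω, ∏ i, X false τ i ω ∂(nu false τ)| := by
    rw [← Finset.sum_add_distrib]
    refine (Finset.abs_sum_le_sum_abs _ _).trans (Finset.sum_le_sum fun τ _ => ?_)
    rw [abs_mul, ← mul_add]
    exact mul_le_mul_of_nonneg_left (abs_sub _ _) (abs_nonneg _)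
  have := abs_add_le (∑ τ ∈ Finset.univ.filter (fun τ => ∃ i ∈ A, V1 ≤ ms (lv τ i)),
      H τ * ((∫ ω, ∏ i, X true τ i ω ∂(nu true τ)) - ∫ ω, ∏ i, X false τ i ω ∂(nu false τ)))
    (∑ τ ∈ Finset.univ.filter (fun τ => ¬ ∃ i ∈ A, V1 ≤ ms (lv τ i)),
      H τ * ((∫ ω, ∏ i, X true τ i ω ∂(nu true τ)) - ∫ ω, ∏ i, X false τ i ω ∂(nu false τ)))
  linarith

end Claimed.Agent.R286
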