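import Claimed.Agent.R286.L09.RedC
import Claimed.Agent.R286.Defs.L9Dot
import Claimed.Agent.R286.L09.HiTab
import Claimed.Agent.R286.L08.HiCtx

/-!
# Row 286 (S0533), LL Sec. 9, node HI, CONCRETE LAYER AT ONE POINT: `|Q.DOEg (l9RgHi V₂) J0| ≤ ..`      (owner helper235; with 113 (HiTab, HiCo), 124 (HiSup), 69 (Dots), 297 (D16, concl. 2); head of the unit helper60; prefix `l9hi`, `L9hi`, `L9Q.Hi*`)

TEX[LL:exp:high-table] 09-expansion.tex l.327-395 ("For size changes, first consider terms with a base pair at mass at least `V_2`").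
Abstract layer (all proved): `L09/HiAbs.lean`, `L09/HiTerm.lean` (`l9h_term`);   records on tables (all proved, 113): `L09/HiTab.lean` (`l9ht_del`, `l9ht_wt`, `l9ht_G0_le`, `l9ht_kd_abs/par`);   parity: `L09/Par.lean`.
ONE POINT `Q : L9Q` (282, `L09/Bnd.lean`), loss factor `A = C x^(-δ)`.

DECOMPOSITION.   `Δ = δ + f`, `δ^en = Q^* - S` (`S` = UNTILTED mean, `l9htDl Q.X Q.Sf`), `f = S - q`.      `O` applied to the coefficient (Leibniz, `l9hi_co_eq`):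
    co n R = G0 ∏_{i ∉ R} d  +  G1 ∑_{i0 ∉ R} ḋ_{i0} ∏_{i ∉ R, ≠ i0} d,      G0 = ((u - e |R|) κ + κ̇) ∏_R b + κ ∑_{i ∈ R} ḃ_i ∏_{R \ i} b,      G1 = κ ∏_R b,      κ̇ = `Q.kapD` (`rd_kap_deriv`, 239).
Every piece is ONE TERM on the tables with `2 n` labels
    `Q.HiT V2 n A G phi = ∑_{τ : some base pair ≥ V2, base pairs off diagonal} wt(τ) G(τ) ∏_{i ∉ A} phi_i(v_i) (ν^tilt_τ - ν^0_τ)[∏_{i ∈ A} δ_i]`,   `∅ ≠ A ⊆ R`      (`l9hi_mon_eq`).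
`l9hi_T_le` = `l9h_term` at the instance of 113.      Row 3 of the H table: `l9hi_ls` : `L9hLS` (majorant `l9htAw`, i.e. multiplier `1 + ∑_{added pair} gK + ∑_i gb`) from **`L9hiLS`** = (D16), second conclusion, ON TABLES with ONE multiplier.

SUPPLIES at one point (suppliers in brackets):
* `Q.Adm δm` (282's record; 216 / 77);   `Q.HiDif` differentiability of the coefficients + the formula of `κ̇` [73 `L02/RowI`, 65 `DifK`, 239 `rd_kap_deriv`, `l9p_hasDerivAt`];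
* `Q.HiCo` majorant + PAR of `G0`, `G1` [113 `L09/HiCo.lean` <= Dots (69): `|b| ≤ A`; below `V_1`: `K ≤ A v`, `|K̇| ≤ A v`, `|ḃ| ≤ A`; `∑ μ (|K̇| + |ḃ|) ≤ dot`];
* `Q.HiNum` the pair numbers `L9htP` (D15 in BOTH ensembles, (D2) below `V_1`), the envelope `sig`, `∫_{v < V_1} sig ≤ E1`, deterministic factors [124 `L09/HiSup.lean` <= LL08 `L8xLow`, `L8xD15`, `TlkTr` (189), LL03];
* `Q.HiLS` = `L9hiLS` for the degrees `≤ J0` [LL08: 297, 225, 234].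
(D11) is NOT used: below `V_1` the envelope gives `sig ≤ sg = O_⋄(V_1)`, and `V_1 = x^(a_1)`, `a_1 ≫ C_H a_2` is the gain of rows 4 AND 5.
-/

set_option autoImplicit false

namespace Claimed.Agent.R286

open scoped BigOperators Nat
open Filter MeasureTheory

noncomputable section

/-! ## 1. vocabulary at one point -/

/-- level (number of shared stages) of the base pair `i` -/
def l9Lv (τ : JtTopo) (i : ℕ) : ℕ := τ (2 * i) (2 * i + 1)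

namespace L9Q

variable (Q : L9Q)

/-- the UNTILTED mean `S` at a pair which shares `v` stages -/
def Sf (v : ℕ) : ℝ := (Q.X false).Sf v
/-- `f = S - q` -/
def ff (v : ℕ) : ℝ := Q.Sf v - (Q.X false).qC v
/-- `b`, `d` at a pair which shares `v` stages (`ḃ = Q.bD`, `ḋ = Q.dD`, `K̇ = Q.KD`: `Defs/L9Dot.lean`, common with `L09/Dots.lean`) -/
def bV (v : ℕ) : ℝ := (Q.X false).bC v
def dV (v : ℕ) : ℝ := (Q.X false).dC v
/-- the cumulant `κ_K` of the pairs `0..n-1` at the table `τ` on `2 n` labels -/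
def kap (n : ℕ) (τ : JtTopo) : ℝ := (Q.X false).Kap (2 * n) 0 τ (Finset.range n)
/-- the weight of the added scalar pair -/
def wK (l : ℕ) : ℝ := (if l ≤ Q.N then 1 else 0) * Q.KD l
/-- the dotted cumulant (`= RdData.kapD` of 239) -/
def kapD (n : ℕ) (τ : JtTopo) : ℝ :=
  2⁻¹ * trSumK Q.ms Q.N 2 (2 * n) τ fun τ' => Q.wK (τ' (2 * n) (2 * n + 1)) * Q.kap (n + 1) τ'

/-- the scalar coefficient of the terms without `ḋ` -/
def G0 (n : ℕ) (R : Finset ℕ) (τ : JtTopo) : ℝ :=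
  ((Q.u - Q.e * R.card) * Q.kap n τ + Q.kapD n τ) * ∏ i ∈ R, Q.bV (l9Lv τ i)
    + Q.kap n τ * ∑ i ∈ R, Q.bD (l9Lv τ i) * ∏ j ∈ R.erase i, Q.bV (l9Lv τ j)
/-- the scalar coefficient of the terms with a factor `ḋ` -/
def G1 (n : ℕ) (R : Finset ℕ) (τ : JtTopo) : ℝ := Q.kap n τ * ∏ i ∈ R, Q.bV (l9Lv τ i)

/-- the deterministic factors: `f` on `R`, `d` off `R` -/
def ph0 (R : Finset ℕ) (i v : ℕ) : ℝ := if i ∈ R then Q.ff v else Q.dV v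
/-- the same with `ḋ` at the pair `i0 ∉ R` -/
def ph1 (R : Finset ℕ) (i0 i v : ℕ) : ℝ := if i ∈ R then Q.ff v else if i = i0 then Q.dD v else Q.dV v

open Classical in
/-- the tables of the H table: some base pair `≥ V2`, all the base pairs off the diagonal -/
def HiTb (V2 : ℝ) (n : ℕ) : Finset JtTopo :=
  (l9aTab Q.N (2 * n)).filter fun τ => l9RgHi V2 n (Q.vm τ) ∧ ∀ i, i < n → l9Lv τ i ≤ Q.N

/-- `ν^en_τ[∏_{i ∈ A} δ_i]`, `τ` on `r` labels -/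
def nuA (en : Bool) (r : ℕ) (A : Finset ℕ) (τ : JtTopo) : ℝ :=
  (Q.X en).nu r τ fun σ => ∏ i ∈ A, l9htDl Q.X Q.Sf en (l9Lv τ i) (σ (2 * i)) (σ (2 * i + 1))

/-- **one term of the H table** -/
def HiT (V2 : ℝ) (n : ℕ) (A : Finset ℕ) (G : JtTopo → ℝ) (phi : ℕ → ℕ → ℝ) : ℝ :=
  ∑ τ ∈ Q.HiTb V2 n, l9aWt Q.ms Q.N 1 (2 * n) τ * G τ * (∏ i ∈ Finset.range n \ A, phi i (l9Lv τ i)) *
    (Q.nuA true (2 * n) A τ - Q.nuA false (2 * n) A τ)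

/-! ### the supplies -/

/-- differentiability of the coefficients at the point, formula of the dotted cumulant -/
structure HiDif : Prop where
  b : ∀ v, DifferentiableAt ℝ (fun t' => (Q.I.X0 (Q.pf t')).bC v) Q.t
  d : ∀ v, DifferentiableAt ℝ (fun t' => (Q.I.X0 (Q.pf t')).dC v) Q.t
  k : ∀ n, 1 ≤ n → ∀ τ, IsTr Q.N (2 * n) τ → HasDerivAt (fun t' => (Q.I.X0 (Q.pf t')).Kap (2 * n) 0 τ (Finset.range n)) (Q.kapD n τ) Q.t

/-- the multipliers `gK ≥ |K̇|` (`= CK` below `V_1`), `gb ≥ |ḃ|`: bounded below `V_1`, integrable -/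
structure HiMul (V1 : ℝ) (gK gb : ℕ → ℝ) (Gm : ℝ) : Prop where
  K_nn : ∀ k, 0 ≤ gK k
  b_nn : ∀ k, 0 ≤ gb k
  K_low : ∀ k, Q.ms k < V1 → gK k ≤ Gm
  b_low : ∀ k, Q.ms k < V1 → gb k ≤ Gm
  K_int : l9htNm Q.ms Q.N gK ≤ Gm
  b_int : l9htNm Q.ms Q.N gb ≤ Gm

/-- a scalar coefficient on the tables with `2 n` labels: majorant; PARITY: a sole low base pair gives the factor `v` -/
structure HiCo (V1 V2 : ℝ) (n : ℕ) (G : JtTopo → ℝ) (CG : ℝ) (gK gb : ℕ → ℝ) : Prop where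
  maj : ∀ τ ∈ Q.HiTb V2 n, |G τ| ≤ CG * l9htMl Q.ms Q.N n gK gb τ
  par : ∀ τ ∈ Q.HiTb V2 n, ∀ i, i < n → Q.ms (τ (2 * i) (2 * i + 1)) < V1 → (∀ i', i' < n → i' ≠ i → V1 ≤ Q.ms (τ (2 * i') (2 * i' + 1))) →
    |G τ| ≤ Q.ms (τ (2 * i) (2 * i + 1)) * (CG * l9htMl Q.ms Q.N n gK gb τ)

/-- all the scalar coefficients of the degrees `≤ J0`; the coefficient of the square counterterm -/
structure HiCoA (V1 V2 : ℝ) (J0 : ℕ) (CG : ℝ) (gK gb : ℕ → ℝ) : Prop where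
  g0 : ∀ n, 2 ≤ n → n ≤ J0 → ∀ R, R ⊆ Finset.range n → Q.HiCo V1 V2 n (Q.G0 n R) CG gK gb
  g1 : ∀ n, 2 ≤ n → n ≤ J0 → ∀ R, R ⊆ Finset.range n → Q.HiCo V1 V2 n (Q.G1 n R) CG gK gb
  sq : ∀ v, v ≤ Q.N → |(Q.u - Q.e * 2) * Q.bV v + Q.bD v| ≤ CG * (1 + gb v)
  g1c : ∀ n, 2 ≤ n → n ≤ J0 → ∀ R, R ⊆ Finset.range n → ∀ τ ∈ Q.HiTb V2 n, |Q.G1 n R τ| ≤ CG

/-- the numbers of LL 08 / LL 03: pair numbers, envelope `sig`, deterministic factors.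
`dd_hi` (repair of helper124, 15 Oct 07:00Z): at the high cuts `ḋ` is bounded by `PhiH` up to an EXCESS `ex` which is small in `L¹` of the mass (cuts in the windows of the kinks of `Ψ`: no pointwise bound); the excess is paid by the crude bound `l9hi_T_crude`
(the coefficient `G1` of the terms with `ḋ` has no multiplier: `HiCoA.g1c`) -/
structure HiNum (sig : ℕ → ℝ) (V1 V2 D1 D2 PhiH sg E1 : ℝ) : Prop where
  pair : L9htP Q.X Q.N Q.Sf Q.ms sig V1 V2 D1 D2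
  sig0 : ∀ k, 0 ≤ sig k
  sigsg : ∀ k, Q.ms k < V1 → sig k ≤ sg
  env1 : ∑ k ∈ (Finset.range (Q.N + 2)).filter (fun k => Q.ms k < V1), l9aMw Q.ms Q.N k * sig k ≤ E1
  f_hi : ∀ v, v ≤ Q.N → V1 ≤ Q.ms v → |Q.ff v| ≤ PhiH
  d_hi : ∀ v, v ≤ Q.N → V1 ≤ Q.ms v → |Q.dV v| ≤ PhiH
  dd_hi : ∃ ex : ℕ → ℝ, (∀ v, 0 ≤ ex v) ∧ (∀ v, v ≤ Q.N → V1 ≤ Q.ms v → |Q.dD v| ≤ PhiH + ex v) ∧
    ∑ v ∈ Finset.range (Q.N + 1), l9aMw Q.ms Q.N v * ex v ≤ D1 ^ 2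
  f_lo : ∀ v, v ≤ Q.N → Q.ms v < V1 → |Q.ff v| ≤ sig v
  d_lo : ∀ v, v ≤ Q.N → Q.ms v < V1 → Q.dA v ≤ sig v

end L9Q

/-- **(D16), SECOND CONCLUSION, ON TABLES** (LL 08 Lemma "Low sources with a retained high pair", l.1345-1383), the form consumed by HI.
`r ≥ 2 n` labels (extra auxiliary slots allowed), per root, ABSOLUTE allocation measure; base pairs `i < n` = labels `(2 i, 2 i + 1)`; `Lo` = the LOW base pairs (mass `< V1`), not all of them (a base pair at a high mass is retained);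
`A ⊆ Lo` stochastic (`δ^* = Q^* - S`, `S = Sf` the same centring in both ensembles), `Lo \ A` deterministic (their values are in `w`, envelope `eb`);   a SOLE low factor has a coefficient `O(v)`;
`g (τ cs ds)` = "an additional multiplier depending only on the high times can be factored out and integrated separately" (it is bounded by `G` at the low levels; `l9htNm` = mass integral + the value at the coincidence level).
`w` = ANY deterministic weight / restriction which depends on all the times.      `B = C x^(-ε) x³ λ^(-C) Z² + x^K`. -/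
def L9hiLS {S : Type} (X : Bool → JtCtx S) (N : ℕ) (ms Sf eb : ℕ → ℝ) (V1 : ℝ) (n r : ℕ) (B : ℝ) : Prop :=
  ∀ (A Lo : Finset ℕ) (cs ds : ℕ) (g : ℕ → ℝ) (G L0 : ℝ) (w : JtTopo → ℝ),
    A.Nonempty → A ⊆ Lo → Lo ⊆ Finset.range n → (∃ i, i < n ∧ i ∉ Lo) → cs < r → ds < r → 0 ≤ L0 →
    (∀ k, 0 ≤ g k) → (∀ k, ms k < V1 → g k ≤ G) → l9htNm ms N g ≤ G →
    (∀ τ, w τ ≠ 0 → ∀ i, i < n → l9Lv τ i ≤ N ∧ (i ∈ Lo ↔ ms (l9Lv τ i) < V1)) →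
    (∀ τ, |w τ| ≤ L0 * (g (τ cs ds) * (∏ i ∈ Lo \ A, eb (l9Lv τ i)) * if Lo.card = 1 then ∏ i ∈ Lo, ms (l9Lv τ i) else 1)) →
    |∑ τ ∈ l9aTab N r, |l9aWt ms N 1 r τ| * w τ *
        (((X true).nu r τ fun σ => ∏ i ∈ A, l9htDl X Sf true (l9Lv τ i) (σ (2 * i)) (σ (2 * i + 1)))
          - (X false).nu r τ fun σ => ∏ i ∈ A, l9htDl X Sf false (l9Lv τ i) (σ (2 * i)) (σ (2 * i + 1)))| ≤ L0 * (G * B)

/-- (D16) at one point, all the degrees `≤ J0`, `r = 2 n` or `2 n + 2` -/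
def L9Q.HiLS (Q : L9Q) (V1 : ℝ) (eb : ℕ → ℝ) (J0 : ℕ) (B : ℝ) : Prop :=
  ∀ n, 2 ≤ n → n ≤ J0 → L9hiLS Q.X Q.N Q.ms Q.Sf eb V1 n (2 * n) B ∧ L9hiLS Q.X Q.N Q.ms Q.Sf eb V1 n (2 * n + 2) B

/-! ## 2. one term: `l9h_term` at the instance of 113 -/

/-- `A` as a set of indices in `Fin n` -/
def l9hiF (n : ℕ) (A : Finset ℕ) : Finset (Fin n) := Finset.univ.filter fun i => i.1 ∈ A

/-- the deterministic factors, cut off above the levels of the chain -/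
def l9hiPhi (N n : ℕ) (phi : ℕ → ℕ → ℝ) (i : Fin n) (k : ℕ) : ℝ := if k ≤ N then phi i.1 k else 0

theorem l9hi_mem_F {n : ℕ} {A : Finset ℕ} {i : Fin n} : i ∈ l9hiF n A ↔ i.1 ∈ A := by
  simp [l9hiF]

theorem l9hi_prod_fin {n : ℕ} {A : Finset ℕ} (hA : A ⊆ Finset.range n) (f : ℕ → ℝ) : ∏ i ∈ l9hiF n A, f i.1 = ∏ i ∈ A, f i := by
  refine Finset.prod_bij (fun i _ => i.1) (fun i hi => l9hi_mem_F.1 hi) (fun i _ j _ h => Fin.ext h) (fun b hb => ?_) (fun _ _ => rfl)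
  exact ⟨⟨b, Finset.mem_range.1 (hA hb)⟩, l9hi_mem_F.2 hb, rfl⟩

theorem l9hi_prod_fin_compl (n : ℕ) (A : Finset ℕ) (f : ℕ → ℝ) : ∏ i ∈ (l9hiF n A)ᶜ, f i.1 = ∏ i ∈ Finset.range n \ A, f i := by
  refine Finset.prod_bij (fun i _ => i.1) (fun i hi => ?_) (fun i _ j _ h => Fin.ext h) (fun b hb => ?_) (fun _ _ => rfl)
  · rw [Finset.mem_compl, l9hi_mem_F] at hi
    exact Finset.mem_sdiff.2 ⟨Finset.mem_range.2 i.2, hi⟩
  · obtain ⟨h1, h2⟩ := Finset.mem_sdiff.1 hb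
    exact ⟨⟨b, Finset.mem_range.1 h1⟩, by rw [Finset.mem_compl, l9hi_mem_F]; exact h2, rfl⟩

theorem L9Q.hiTb_mem (Q : L9Q) {V2 : ℝ} {n : ℕ} {τ : JtTopo} :
    τ ∈ Q.HiTb V2 n ↔ τ ∈ l9aTab Q.N (2 * n) ∧ l9RgHi V2 n (Q.vm τ) ∧ ∀ i, i < n → l9Lv τ i ≤ Q.N := by
  classical
  unfold L9Q.HiTb
  rw [Finset.mem_filter]

theorem L9Q.hiTb_ok (Q : L9Q) (V2 : ℝ) (n : ℕ) : L9htTb Q.N n (Q.HiTb V2 n) :=
  ⟨fun _ h => (Q.hiTb_mem.1 h).1, fun _ h => (Q.hiTb_mem.1 h).2.2⟩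

/-- the term in the abstract form -/
theorem l9hi_T_eq (Q : L9Q) (hpos : ∀ e, L9rPos (Q.X e)) (V2 : ℝ) (n : ℕ) {A : Finset ℕ} (hA : A ⊆ Finset.range n) (G : JtTopo → ℝ)
    (phi : ℕ → ℕ → ℝ) :
    Q.HiT V2 n A G phi = ∑ τ : L9htTr (Q.HiTb V2 n), (l9aWt Q.ms Q.N 1 (2 * n) τ.1 * G τ.1) *
      (∏ i ∈ (l9hiF n A)ᶜ, l9hiPhi Q.N n phi i (l9htLv τ i)) *
      (l9hE (l9htNu Q.X n) (l9htDel Q.X Q.Sf n) (l9hiF n A) true τ - l9hE (l9htNu Q.X n) (l9htDel Q.X Q.Sf n) (l9hiF n A) false τ) := by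
  have hT := Q.hiTb_ok V2 n
  have hE : ∀ (e : Bool) (τ : L9htTr (Q.HiTb V2 n)), l9hE (l9htNu Q.X n) (l9htDel Q.X Q.Sf n) (l9hiF n A) e τ = Q.nuA e (2 * n) A τ.1 := by
    intro e τ
    rw [l9ht_E Q.X_N hpos hT]
    unfold L9Q.nuA
    congr 1
    funext σ
    exact l9hi_prod_fin hA fun i => l9htDl Q.X Q.Sf e (l9Lv τ.1 i) (σ (2 * i)) (σ (2 * i + 1))
  have hP : ∀ τ : L9htTr (Q.HiTb V2 n), ∏ i ∈ (l9hiF n A)ᶜ, l9hiPhi Q.N n phi i (l9htLv τ i) = ∏ i ∈ Finset.range n \ A, phi i (l9Lv τ.1 i) := by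
    intro τ
    rw [← l9hi_prod_fin_compl n A fun i => phi i (l9Lv τ.1 i)]
    refine Finset.prod_congr rfl fun i _ => ?_
    unfold l9hiPhi
    rw [if_pos (hT.lv_le τ i)]
    rfl
  simp only [hE, hP]
  unfold L9Q.HiT
  exact (Finset.sum_coe_sort (Q.HiTb V2 n) fun τ => l9aWt Q.ms Q.N 1 (2 * n) τ * G τ * (∏ i ∈ Finset.range n \ A, phi i (l9Lv τ i)) *
    (Q.nuA true (2 * n) A τ - Q.nuA false (2 * n) A τ)).symm

/-- **one term of the H table** = `l9h_term` + `l9ht_del` + `l9ht_wt` (113) -/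
theorem l9hi_T_le (Q : L9Q) {δm : ℝ} (hAdm : Q.Adm δm) {sig gK gb : ℕ → ℝ} {V1 V2 D1 D2 PhiH sg E1 Gm CG BLS : ℝ} {n : ℕ} (hn : 2 ≤ n)
    {A : Finset ℕ} (hA : A ⊆ Finset.range n) {G : JtTopo → ℝ} {phi : ℕ → ℕ → ℝ}
    (hNum : Q.HiNum sig V1 V2 D1 D2 PhiH sg E1) (hMul : Q.HiMul V1 gK gb Gm) (hCo : Q.HiCo V1 V2 n G CG gK gb)
    (hLS : L9hLS (l9htNu (𝒯 := Q.HiTb V2 n) Q.X n) (l9htDel Q.X Q.Sf n) (l9hiF n A) (l9hiPhi Q.N n phi) l9htLv Q.ms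
      (fun τ => l9htAw Q.ms Q.N n CG gK gb τ.1) V1 BLS 0)
    (hV : V1 ≤ V2) (hV0 : 0 ≤ V1) (hsg0 : 0 ≤ sg) (hsg1 : sg ≤ 1) (hCG : 0 ≤ CG) (hGm : 0 ≤ Gm) (hD1 : 0 ≤ D1) (hD2 : 0 ≤ D2)
    (hPhi : 0 ≤ PhiH) (hPhi1 : PhiH ≤ 2)
    (hphiH : ∀ i, i < n → i ∉ A → ∀ k, k ≤ Q.N → V1 ≤ Q.ms k → |phi i k| ≤ PhiH)
    (hphiL : ∀ i, i < n → i ∉ A → ∀ k, k ≤ Q.N → Q.ms k < V1 → |phi i k| ≤ sig k) :
    |Q.HiT V2 n A G phi| ≤ 2 ^ n * (PhiH * 2 ^ n * BLS + 0) + 2 * (2 ^ n * (l9htCT Q.ms Q.N n CG gK gb * (D1 ^ 2 + D1 * PhiH)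
      + n * (l9htCS Q.ms Q.N n CG Gm Gm gK gb * (D2 * (V1 * E1 + sg * E1))))) := by
  have hT := Q.hiTb_ok V2 n
  have hms := Q.isMs hAdm
  rw [l9hi_T_eq Q hNum.pair.pos V2 n hA G phi]
  have hW := l9ht_wt (H := fun τ : L9htTr (Q.HiTb V2 n) => l9aWt Q.ms Q.N 1 (2 * n) τ.1 * G τ.1) (G := G) hms (by omega) hT hV hV0 hsg0 hCG hGm hGm
    hMul.K_nn hMul.b_nn hMul.K_low hMul.b_low hNum.sig0 hNum.sigsg (fun τ hτ => (Q.hiTb_mem.1 hτ).2.1)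
    (fun τ => le_of_eq (abs_mul _ _)) hCo.maj hCo.par hNum.env1
  have h := l9h_term (phi := l9hiPhi Q.N n phi) (PhiH := PhiH) (fun e => l9ht_del hNum.pair hT (l9hiF n A) e) hW hLS hD1 hD2 hPhi hPhi1 hsg1
    (by simpa using hn)
    (fun i hi k hk => by
      unfold l9hiPhi
      split_ifs with hkN
      · exact hphiH i.1 i.2 (fun h' => hi (l9hi_mem_F.2 h')) k hkN hk
      · simpa using hPhi)
    (fun i hi k hk => by
      unfold l9hiPhi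
      split_ifs with hkN
      · exact hphiL i.1 i.2 (fun h' => hi (l9hi_mem_F.2 h')) k hkN hk
      · simpa using hNum.sig0 k)
  simpa only [Fintype.card_fin] using h

/-! ## 3. row 3: the contract `L9hLS` from (D16) on tables -/

/-- the levels of the base pairs see the labels `< 2 n` only -/
theorem l9hi_lv_ag {n : ℕ} {τ τ' : JtTopo} (h : L9aAg (2 * n) τ τ') {i : ℕ} (hi : i < n) : l9Lv τ i = l9Lv τ' i :=
  h _ _ (by omega) (by omega)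

/-- locality of `ν[∏_A δ]` -/
theorem l9hi_nuA_ag (Q : L9Q) (hpos : ∀ e, L9rPos (Q.X e)) {n : ℕ} {A : Finset ℕ} (hA : A ⊆ Finset.range n) (e : Bool) {τ τ' : JtTopo}
    (h : L9aAg (2 * n) τ τ') : Q.nuA e (2 * n) A τ = Q.nuA e (2 * n) A τ' := by
  unfold L9Q.nuA
  rw [(hpos e).congr (2 * n) τ τ' _ h]
  congr 1
  funext σ
  exact Finset.prod_congr rfl fun i hi => by rw [l9hi_lv_ag h (Finset.mem_range.1 (hA hi))]

/-- PRUNE: two auxiliary labels are integrated out -/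
theorem l9hi_nuA_prune (Q : L9Q) (hpos : ∀ e, L9rPos (Q.X e)) {n : ℕ} {A : Finset ℕ} (hA : A ⊆ Finset.range n) (e : Bool) {τ : JtTopo}
    (hτ : IsTr Q.N (2 * n + 2) τ) : Q.nuA e (2 * n + 2) A τ = Q.nuA e (2 * n) A τ := by
  unfold L9Q.nuA
  have hU : TrUses (2 * n) (fun σ : ℕ → SkCfg Q.I.m => ∏ i ∈ A, l9htDl Q.X Q.Sf e (l9Lv τ i) (σ (2 * i)) (σ (2 * i + 1))) := by
    intro σ σ' h
    refine Finset.prod_congr rfl fun i hi => ?_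
    have := Finset.mem_range.1 (hA hi)
    rw [h (2 * i) (by omega), h (2 * i + 1) (by omega)]
  exact (hpos e).comap (2 * n + 2) (2 * n) τ hτ id (fun x hx => by simp only [id]; omega) _ hU

/-- one piece of the adapter: (D16) on tables with the weight `u ∏ phi g` -/
theorem l9hi_ls_piece (Q : L9Q) {δm : ℝ} (hAdm : Q.Adm δm) {sig : ℕ → ℝ} {V1 Gm B : ℝ} {n r : ℕ} {A Lo : Finset ℕ} (hAne : A.Nonempty)
    (hALo : A ⊆ Lo) (hLo : Lo ⊆ Finset.range n) (hex : ∃ i, i < n ∧ i ∉ Lo) {phi : ℕ → ℕ → ℝ} (hsig0 : ∀ k, 0 ≤ sig k)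
    (hLS : L9hiLS Q.X Q.N Q.ms Q.Sf sig V1 n r B)
    (hphiL : ∀ i, i < n → i ∉ A → ∀ k, k ≤ Q.N → Q.ms k < V1 → |phi i k| ≤ sig k) {u : JtTopo → ℝ} {L0 : ℝ} (hL0 : 0 ≤ L0)
    (c1 : ∀ τ, u τ ≠ 0 → ∀ i, i < n → l9Lv τ i ≤ Q.N ∧ (i ∈ Lo ↔ Q.ms (l9Lv τ i) < V1))
    (c2 : ∀ τ, |u τ| ≤ L0 * (if Lo.card = 1 then ∏ i ∈ Lo, Q.ms (l9Lv τ i) else 1))
    {g : ℕ → ℝ} {cs ds : ℕ} (hcs : cs < r) (hds : ds < r) (hg0 : ∀ k, 0 ≤ g k) (hglow : ∀ k, Q.ms k < V1 → g k ≤ Gm)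
    (hgint : l9htNm Q.ms Q.N g ≤ Gm) :
    |∑ τ ∈ l9aTab Q.N r, |l9aWt Q.ms Q.N 1 r τ| * (u τ * (∏ i ∈ Lo \ A, phi i (l9Lv τ i)) * g (τ cs ds)) *
      (Q.nuA true r A τ - Q.nuA false r A τ)| ≤ L0 * (Gm * B) := by
  have hms := Q.isMs hAdm
  refine hLS A Lo cs ds g Gm L0 (fun τ => u τ * (∏ i ∈ Lo \ A, phi i (l9Lv τ i)) * g (τ cs ds)) hAne hALo hLo hex hcs hds hL0 hg0 hglow hgint
    ?_ ?_
  · intro τ hw
    refine c1 τ fun h0 => hw ?_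
    simp only [h0, zero_mul]
  · intro τ
    have hK0 : 0 ≤ (if Lo.card = 1 then ∏ i ∈ Lo, Q.ms (l9Lv τ i) else 1) := by
      split_ifs
      · exact Finset.prod_nonneg fun i _ => hms.nonneg _
      · exact zero_le_one
    have hS0 : 0 ≤ ∏ i ∈ Lo \ A, sig (l9Lv τ i) := Finset.prod_nonneg fun i _ => hsig0 _
    by_cases hu : u τ = 0
    · simp only [hu, zero_mul, abs_zero]
      exact mul_nonneg hL0 (mul_nonneg (mul_nonneg (hg0 _) hS0) hK0)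
    · have h1 := c1 τ hu
      have hP : |∏ i ∈ Lo \ A, phi i (l9Lv τ i)| ≤ ∏ i ∈ Lo \ A, sig (l9Lv τ i) := by
        rw [Finset.abs_prod]
        refine Finset.prod_le_prod (fun i _ => abs_nonneg _) fun i hi => ?_
        obtain ⟨hiL, hiA⟩ := Finset.mem_sdiff.1 hi
        have hin := Finset.mem_range.1 (hLo hiL)
        exact hphiL i hin hiA _ (h1 i hin).1 ((h1 i hin).2.1 hiL)
      rw [abs_mul, abs_mul, abs_of_nonneg (hg0 _)]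
      have h3 := mul_le_mul (c2 τ) hP (abs_nonneg _) (mul_nonneg hL0 hK0)
      have h4 := mul_le_mul_of_nonneg_right h3 (hg0 (τ cs ds))
      refine h4.trans (le_of_eq ?_)
      ring

/-- **the adapter on the flat tables** -/
theorem l9hi_ls_flat (Q : L9Q) {δm : ℝ} (hAdm : Q.Adm δm) {sig gK gb : ℕ → ℝ} {V1 Gm CG B : ℝ} {n : ℕ} (hn : 2 ≤ n) {A Lo : Finset ℕ}
    (hAne : A.Nonempty) (hALo : A ⊆ Lo) (hLo : Lo ⊆ Finset.range n) (hex : ∃ i, i < n ∧ i ∉ Lo) {phi : ℕ → ℕ → ℝ} (hCG : 0 ≤ CG)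
    (hMul : Q.HiMul V1 gK gb Gm) (hGm1 : Q.p.a + 1 ≤ Gm) (hsig0 : ∀ k, 0 ≤ sig k)
    (h0 : L9hiLS Q.X Q.N Q.ms Q.Sf sig V1 n (2 * n) B) (h2 : L9hiLS Q.X Q.N Q.ms Q.Sf sig V1 n (2 * n + 2) B)
    (hphiL : ∀ i, i < n → i ∉ A → ∀ k, k ≤ Q.N → Q.ms k < V1 → |phi i k| ≤ sig k) {Hx : JtTopo → ℝ} {M0 : ℝ} (hM0 : 0 ≤ M0)
    (b1 : ∀ τ, Hx τ ≠ 0 → ∀ i, i < n → l9Lv τ i ≤ Q.N ∧ (i ∈ Lo ↔ Q.ms (l9Lv τ i) < V1))
    (b2 : ∀ τ, |Hx τ| ≤ M0 * l9htAw Q.ms Q.N n CG gK gb τ)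
    (b3 : ∀ τ i, Lo = {i} → |Hx τ| ≤ M0 * (Q.ms (l9Lv τ i) * l9htAw Q.ms Q.N n CG gK gb τ)) :
    |∑ τ ∈ l9aTab Q.N (2 * n), Hx τ * (∏ i ∈ Lo \ A, phi i (l9Lv τ i)) * (Q.nuA true (2 * n) A τ - Q.nuA false (2 * n) A τ)|
      ≤ M0 * (CG * ((n + 2) * (Gm * B))) := by
  have hms := Q.isMs hAdm
  have hpos : ∀ e, L9rPos (Q.X e) := fun e => (Q.law hAdm e).l9rPos
  have hA : A ⊆ Finset.range n := hALo.trans hLo
  have ha0 : 0 < Q.p.a := hAdm.a_pos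
  have hL0 : 0 ≤ M0 * CG := mul_nonneg hM0 hCG
  obtain ⟨Ml, hMl⟩ : ∃ Ml : JtTopo → ℝ, Ml = l9htMl Q.ms Q.N n gK gb := ⟨_, rfl⟩
  obtain ⟨wt, hwt⟩ : ∃ wt : JtTopo → ℝ, wt = fun τ => |l9aWt Q.ms Q.N 1 (2 * n) τ| := ⟨_, rfl⟩
  have hwt0 : ∀ τ, 0 ≤ wt τ := fun τ => by rw [hwt]; exact abs_nonneg _
  have hMl1 : ∀ τ, 1 ≤ Ml τ := by
    intro τ
    rw [hMl]
    unfold l9htMl
    have h1 : 0 ≤ trAbsK Q.ms Q.N 2 (2 * n) τ (fun τ' => gK (τ' (2 * n) (2 * n + 1))) := tra2_absK_nonneg 2 _ fun τ' => hMul.K_nn _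
    have h2 : 0 ≤ ∑ i ∈ Finset.range n, gb (τ (2 * i) (2 * i + 1)) := Finset.sum_nonneg fun i _ => hMul.b_nn _
    linarith
  have haw : ∀ τ, l9htAw Q.ms Q.N n CG gK gb τ = wt τ * (CG * Ml τ) := fun τ => by rw [hwt, hMl]; rfl
  obtain ⟨K, hK⟩ : ∃ K : JtTopo → ℝ, K = fun τ => if Lo.card = 1 then ∏ i ∈ Lo, Q.ms (l9Lv τ i) else 1 := ⟨_, rfl⟩
  have hK0 : ∀ τ, 0 ≤ K τ := by
    intro τ
    rw [hK]
    show 0 ≤ if Lo.card = 1 then ∏ i ∈ Lo, Q.ms (l9Lv τ i) else 1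
    split_ifs
    · exact Finset.prod_nonneg fun i _ => hms.nonneg _
    · exact zero_le_one
  obtain ⟨u, hu⟩ : ∃ u : JtTopo → ℝ, u = fun τ => Hx τ / (wt τ * Ml τ) := ⟨_, rfl⟩
  have hHx : ∀ τ, Hx τ = wt τ * (u τ * Ml τ) := by
    intro τ
    have hM : 0 < Ml τ := by linarith [hMl1 τ]
    rcases (hwt0 τ).eq_or_lt with hw | hw
    · have h1 := b2 τ
      rw [haw, ← hw, zero_mul, mul_zero] at h1
      rw [← hw, zero_mul]
      exact abs_eq_zero.1 (le_antisymm h1 (abs_nonneg _))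
    · rw [hu]
      field_simp
  have hune : ∀ τ, u τ ≠ 0 → Hx τ ≠ 0 := by
    intro τ h h0
    apply h
    rw [hu]
    simp only [h0, zero_div]
  have hule : ∀ τ, |u τ| ≤ M0 * CG * K τ := by
    intro τ
    have hM : 0 < Ml τ := by linarith [hMl1 τ]
    rcases (hwt0 τ).eq_or_lt with hw | hw
    · have : u τ = 0 := by
        rw [hu]
        simp only [← hw, zero_mul, div_zero]
      rw [this, abs_zero]
      exact mul_nonneg hL0 (hK0 τ)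
    · have hd : 0 < wt τ * Ml τ := mul_pos hw hM
      have e1 : |u τ| = |Hx τ| / (wt τ * Ml τ) := by
        rw [hu]
        simp only [abs_div, abs_of_pos hd]
      rw [e1, div_le_iff₀ hd, hK]
      show |Hx τ| ≤ M0 * CG * (if Lo.card = 1 then ∏ i ∈ Lo, Q.ms (l9Lv τ i) else 1) * (wt τ * Ml τ)
      split_ifs with hc
      · obtain ⟨i, hi⟩ := Finset.card_eq_one.1 hc
        have h1 := b3 τ i hi
        rw [haw] at h1
        rw [hi, Finset.prod_singleton]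
        refine h1.trans (le_of_eq ?_)
        ring
      · have h1 := b2 τ
        rw [haw] at h1
        refine h1.trans (le_of_eq ?_)
        ring
  obtain ⟨u', hu'⟩ : ∃ u' : JtTopo → ℝ, u' = fun τ => u (l9aNm (2 * n) τ) := ⟨_, rfl⟩
  have hlvN : ∀ τ i, i < n → l9Lv (l9aNm (2 * n) τ) i = l9Lv τ i := fun τ i hi => l9hi_lv_ag (l9a_nm_ag (2 * n) τ) hi
  have c1 : ∀ τ, u' τ ≠ 0 → ∀ i, i < n → l9Lv τ i ≤ Q.N ∧ (i ∈ Lo ↔ Q.ms (l9Lv τ i) < V1) := by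
    intro τ h i hi
    rw [hu'] at h
    have := b1 _ (hune _ h) i hi
    rwa [hlvN τ i hi] at this
  have c2 : ∀ τ, |u' τ| ≤ M0 * CG * (if Lo.card = 1 then ∏ i ∈ Lo, Q.ms (l9Lv τ i) else 1) := by
    intro τ
    have h1 := hule (l9aNm (2 * n) τ)
    rw [hK] at h1
    rw [hu']
    refine h1.trans (le_of_eq ?_)
    show M0 * CG * (if Lo.card = 1 then ∏ i ∈ Lo, Q.ms (l9Lv (l9aNm (2 * n) τ) i) else 1) = _
    congr 1
    split_ifs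
    · exact Finset.prod_congr rfl fun i hi => by rw [hlvN τ i (Finset.mem_range.1 (hLo hi))]
    · rfl
  obtain ⟨P, hP⟩ : ∃ P : JtTopo → ℝ, P = fun τ => ∏ i ∈ Lo \ A, phi i (l9Lv τ i) := ⟨_, rfl⟩
  obtain ⟨DE, hDE⟩ : ∃ DE : JtTopo → ℝ, DE = fun τ => Q.nuA true (2 * n) A τ - Q.nuA false (2 * n) A τ := ⟨_, rfl⟩
  -- the pieces
  have T1 := l9hi_ls_piece Q hAdm hAne hALo hLo hex hsig0 h0 hphiL hL0 c1 c2 (g := fun _ => 1) (cs := 0) (ds := 1) (Gm := Gm) (by omega) (by omega)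
    (fun _ => zero_le_one) (fun _ _ => by linarith) (by rw [l9ht_nm_one, Q.ms_top le_rfl]; exact hGm1)
  have T2 : ∀ i, i < n → _ := fun i hi => l9hi_ls_piece Q hAdm hAne hALo hLo hex hsig0 h0 hphiL hL0 c1 c2 (g := gb) (cs := 2 * i) (ds := 2 * i + 1)
    (Gm := Gm) (by omega) (by omega) hMul.b_nn hMul.b_low hMul.b_int
  have T3 := l9hi_ls_piece Q hAdm hAne hALo hLo hex hsig0 h2 hphiL hL0 c1 c2 (g := gK) (cs := 2 * n) (ds := 2 * n + 1) (Gm := Gm) (by omega) (by omega)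
    hMul.K_nn hMul.K_low hMul.K_int
  -- two stages
  have hPag : ∀ τ₁ τ₂, L9aAg (2 * n) τ₁ τ₂ → P τ₁ = P τ₂ := by
    intro τ₁ τ₂ h
    rw [hP]
    exact Finset.prod_congr rfl fun i hi => by rw [l9hi_lv_ag h (Finset.mem_range.1 (hLo (Finset.mem_sdiff.1 hi).1))]
  have hst := l9ht_two_stage (N := Q.N) (ms := Q.ms) (q := 2 * n) (by omega) 2 (fun τ => u' τ * P τ * DE τ) (fun τ' => gK (τ' (2 * n) (2 * n + 1)))
    (by
      intro τ₁ τ₂ h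
      have e1 : u' τ₁ = u' τ₂ := by rw [hu']; show u _ = u _; rw [l9a_nm_eq h]
      have e2 : DE τ₁ = DE τ₂ := by
        rw [hDE]
        show _ - _ = _ - _
        rw [l9hi_nuA_ag Q hpos hA true h, l9hi_nuA_ag Q hpos hA false h]
      show u' τ₁ * P τ₁ * DE τ₁ = u' τ₂ * P τ₂ * DE τ₂
      rw [e1, e2, hPag _ _ h])
    (by
      intro τ₁ τ₂ h
      show gK _ = gK _
      rw [h (2 * n) (2 * n + 1) (by omega) (by omega)])
  obtain ⟨aK, haK⟩ : ∃ aK : JtTopo → ℝ, aK = fun τ => trAbsK Q.ms Q.N 2 (2 * n) τ (fun τ' => gK (τ' (2 * n) (2 * n + 1))) := ⟨_, rfl⟩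
  have hMlE : ∀ τ, Ml τ = 1 + aK τ + ∑ i ∈ Finset.range n, gb (τ (2 * i) (2 * i + 1)) := fun τ => by rw [hMl, haK]; rfl
  have T1' : |∑ τ ∈ l9aTab Q.N (2 * n), wt τ * (u' τ * P τ * 1) * DE τ| ≤ M0 * CG * (Gm * B) := by
    rw [hwt, hP, hDE]
    exact T1
  have T2' : ∀ i, i < n → |∑ τ ∈ l9aTab Q.N (2 * n), wt τ * (u' τ * P τ * gb (τ (2 * i) (2 * i + 1))) * DE τ| ≤ M0 * CG * (Gm * B) := by
    intro i hi
    rw [hwt, hP, hDE]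
    exact T2 i hi
  have T3' : |∑ τ ∈ l9aTab Q.N (2 * n), wt τ * (u' τ * P τ * DE τ * aK τ)| ≤ M0 * CG * (Gm * B) := by
    have e1 : ∑ τ ∈ l9aTab Q.N (2 * n), wt τ * (u' τ * P τ * DE τ * aK τ) =
        ∑ τ ∈ l9aTab Q.N (2 * n + 2), |l9aWt Q.ms Q.N 1 (2 * n + 2) τ| * (u' τ * (∏ i ∈ Lo \ A, phi i (l9Lv τ i)) * gK (τ (2 * n) (2 * n + 1))) *
          (Q.nuA true (2 * n + 2) A τ - Q.nuA false (2 * n + 2) A τ) := by
      have e2 : ∑ τ ∈ l9aTab Q.N (2 * n), wt τ * (u' τ * P τ * DE τ * aK τ) =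
          ∑ τ' ∈ l9aTab Q.N (2 * n + 2), |l9aWt Q.ms Q.N 1 (2 * n + 2) τ'| * (u' τ' * P τ' * DE τ' * gK (τ' (2 * n) (2 * n + 1))) := by
        rw [hwt, haK]
        exact hst
      rw [e2]
      refine Finset.sum_congr rfl fun τ hτ => ?_
      have hT := (l9a_mem_tab.1 hτ).1
      rw [l9hi_nuA_prune Q hpos hA true hT, l9hi_nuA_prune Q hpos hA false hT, hP, hDE]
      show _ * (_ * _ * (_ - _) * _) = _
      ring
    rw [e1]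
    exact T3
  have hsplit : ∑ τ ∈ l9aTab Q.N (2 * n), Hx τ * P τ * DE τ =
      ∑ τ ∈ l9aTab Q.N (2 * n), wt τ * (u' τ * P τ * 1) * DE τ + ∑ τ ∈ l9aTab Q.N (2 * n), wt τ * (u' τ * P τ * DE τ * aK τ)
        + ∑ i ∈ Finset.range n, ∑ τ ∈ l9aTab Q.N (2 * n), wt τ * (u' τ * P τ * gb (τ (2 * i) (2 * i + 1))) * DE τ := by
    rw [Finset.sum_comm, ← Finset.sum_add_distrib, ← Finset.sum_add_distrib]
    refine Finset.sum_congr rfl fun τ hτ => ?_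
    have e1 : u' τ = u τ := by rw [hu']; show u _ = u _; rw [(l9a_mem_tab.1 hτ).2]
    have e2 : ∑ i ∈ Finset.range n, wt τ * (u' τ * P τ * gb (τ (2 * i) (2 * i + 1))) * DE τ =
        wt τ * u' τ * P τ * DE τ * ∑ i ∈ Finset.range n, gb (τ (2 * i) (2 * i + 1)) := by
      rw [Finset.mul_sum]
      exact Finset.sum_congr rfl fun i _ => by ring
    rw [e2, hHx τ, hMlE τ, e1]
    ring
  have hgoal : ∑ τ ∈ l9aTab Q.N (2 * n), Hx τ * (∏ i ∈ Lo \ A, phi i (l9Lv τ i)) * (Q.nuA true (2 * n) A τ - Q.nuA false (2 * n) A τ) =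
      ∑ τ ∈ l9aTab Q.N (2 * n), Hx τ * P τ * DE τ := by rw [hP, hDE]
  rw [hgoal, hsplit]
  have hS2 : |∑ i ∈ Finset.range n, ∑ τ ∈ l9aTab Q.N (2 * n), wt τ * (u' τ * P τ * gb (τ (2 * i) (2 * i + 1))) * DE τ| ≤ n * (M0 * CG * (Gm * B)) := by
    refine (Finset.abs_sum_le_sum_abs _ _).trans ((Finset.sum_le_sum fun i hi => T2' i (Finset.mem_range.1 hi)).trans (le_of_eq ?_))
    rw [Finset.sum_const, Finset.card_range, nsmul_eq_mul]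
  refine (abs_add_le _ _).trans ((add_le_add ((abs_add_le _ _).trans (add_le_add T1' T3')) hS2).trans (le_of_eq ?_))
  ring

/-- **ADAPTER (D16) ⟹ `L9hLS`** for the majorant `l9htAw` of 113.
PLAN.   Let `Lo', H', M0` be as in `L9hLS`, `Lo := Lo'.image Fin.val`, `𝒯 := Q.HiTb V2 n`.
(0) if `Lo' = univ`: every `τ ∈ 𝒯` has a base pair `≥ V2 ≥ V1` (`Q.hiTb_mem`), so `H' τ = 0` for all `τ` (third hypothesis of `L9hLS`) and the sum is `0`.      Otherwise `∃ i < n, i ∉ Lo`.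
(1) `Ml τ := l9htMl Q.ms Q.N n gK gb τ ≥ 1` (`l9ht_ml_nonneg` + the summand `1`).      `u τ := H' τ / (|wt τ| * Ml τ)` (`0` if `wt τ = 0`; then `H' τ = 0` by `|H'| ≤ M0 aw`).      So `H' τ = |wt τ| * u τ * Ml τ`, `|u τ| ≤ M0 CG`,
    and `|u τ| ≤ M0 CG ms(lv τ i)` if `Lo' = {i}`.
(2) `Ml = 1 + absK + ∑_i gb(lv i)` splits the sum in `n + 2` pieces; `P τ := ∏_{i ∈ Lo \ A} phi i (lv i)`, `|P τ| ≤ ∏ sig` where `u τ ≠ 0` (`hphiL`; the levels are `≤ N` on `𝒯`); `l9hE = Q.nuA` (see `hE` in `l9hi_T_eq`); sums over the subtype = sums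
    over `l9aTab` of `w τ := if τ ∈ 𝒯 then u τ * P τ * (multiplier) else 0` (`Finset.sum_coe_sort`, `Finset.sum_filter`);
    * piece `1`: `h0` with `g = 1`, `G = Gm` (`l9ht_nm_one`, `Q.ms_top`, `hGm1`), `cs = 0, ds = 1`, `L0 = M0 CG`;
    * piece `gb (lv i)`: `h0` with `g = gb`, `cs = 2 i, ds = 2 i + 1`;
    * piece `absK`: `l9ht_two_stage` (113) with `q = 2 n`, `k = 2`, `G τ := (u P ΔE)(l9aNm (2 n) τ)`, `Φ τ' := gK (τ' (2 n) (2 n + 1))`, then `h2` with `g = gK`, `cs = 2 n, ds = 2 n + 1`; PRUNE: `Q.nuA e (2 n + 2) A τ' = Q.nuA e (2 n) A (l9aNm (2 n) τ')`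
      (`L9rPos.comap` with `f = id`, `p = 2 n`, then `L9rPos.congr`; `l9r_nu_pull`).
(3) each piece is `≤ M0 CG (Gm B)`. -/
theorem l9hi_ls (Q : L9Q) {δm : ℝ} (hAdm : Q.Adm δm) {sig gK gb : ℕ → ℝ} {V1 V2 Gm CG B : ℝ} {n : ℕ} (hn : 2 ≤ n) {A : Finset ℕ}
    (hA : A ⊆ Finset.range n) (hAne : A.Nonempty) {phi : ℕ → ℕ → ℝ} (hV : V1 ≤ V2) (hCG : 0 ≤ CG) (hB : 0 ≤ B) (hMul : Q.HiMul V1 gK gb Gm)
    (hGm1 : Q.p.a + 1 ≤ Gm) (hsig0 : ∀ k, 0 ≤ sig k)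
    (h0 : L9hiLS Q.X Q.N Q.ms Q.Sf sig V1 n (2 * n) B) (h2 : L9hiLS Q.X Q.N Q.ms Q.Sf sig V1 n (2 * n + 2) B)
    (hphiL : ∀ i, i < n → i ∉ A → ∀ k, k ≤ Q.N → Q.ms k < V1 → |phi i k| ≤ sig k) :
    L9hLS (l9htNu (𝒯 := Q.HiTb V2 n) Q.X n) (l9htDel Q.X Q.Sf n) (l9hiF n A) (l9hiPhi Q.N n phi) l9htLv Q.ms
      (fun τ => l9htAw Q.ms Q.N n CG gK gb τ.1) V1 (CG * ((n + 2) * (Gm * B))) 0 := by
  classical
  intro Lo' H' M0 hALo' hM0 h1 h2' h3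
  have hms := Q.isMs hAdm
  have hpos : ∀ e, L9rPos (Q.X e) := fun e => (Q.law hAdm e).l9rPos
  have hT := Q.hiTb_ok V2 n
  have ha0 : 0 < Q.p.a := hAdm.a_pos
  obtain ⟨Lo, hLod⟩ : ∃ Lo : Finset ℕ, Lo = Lo'.image Fin.val := ⟨_, rfl⟩
  have hmemLo : ∀ i : Fin n, i.1 ∈ Lo ↔ i ∈ Lo' := by
    intro i
    rw [hLod, Finset.mem_image]
    constructor
    · rintro ⟨j, hj, hji⟩
      rwa [← Fin.ext hji]
    · intro hi
      exact ⟨i, hi, rfl⟩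
  have hLo : Lo ⊆ Finset.range n := by
    intro a ha
    rw [hLod, Finset.mem_image] at ha
    obtain ⟨j, _, rfl⟩ := ha
    exact Finset.mem_range.2 j.2
  have hALo : A ⊆ Lo := by
    intro a ha
    have han := Finset.mem_range.1 (hA ha)
    exact (hmemLo ⟨a, han⟩).2 (hALo' (l9hi_mem_F.2 ha))
  obtain ⟨Hx, hHx⟩ : ∃ Hx : JtTopo → ℝ, Hx = fun τ => if h : τ ∈ Q.HiTb V2 n then H' ⟨τ, h⟩ else 0 := ⟨_, rfl⟩
  have hHin : ∀ τ : L9htTr (Q.HiTb V2 n), Hx τ.1 = H' τ := by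
    intro τ
    rw [hHx]
    show (if h : τ.1 ∈ Q.HiTb V2 n then H' ⟨τ.1, h⟩ else 0) = _
    rw [dif_pos τ.2]
  have hHout : ∀ τ, τ ∉ Q.HiTb V2 n → Hx τ = 0 := by
    intro τ hτ
    rw [hHx]
    show (if h : τ ∈ Q.HiTb V2 n then H' ⟨τ, h⟩ else 0) = _
    rw [dif_neg hτ]
  have haw0 : ∀ τ, 0 ≤ l9htAw Q.ms Q.N n CG gK gb τ := fun τ =>
    mul_nonneg (abs_nonneg _) (mul_nonneg hCG (l9ht_ml_nonneg Q.ms Q.N n hMul.K_nn hMul.b_nn τ))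
  have b1 : ∀ τ, Hx τ ≠ 0 → ∀ i, i < n → l9Lv τ i ≤ Q.N ∧ (i ∈ Lo ↔ Q.ms (l9Lv τ i) < V1) := by
    intro τ hne i hi
    have hτ : τ ∈ Q.HiTb V2 n := by
      by_contra hc
      exact hne (hHout τ hc)
    have h4 := h1 ⟨τ, hτ⟩ (by rw [← hHin ⟨τ, hτ⟩]; exact hne) ⟨i, hi⟩
    exact ⟨(Q.hiTb_mem.1 hτ).2.2 i hi, (hmemLo ⟨i, hi⟩).trans h4⟩
  have b2 : ∀ τ, |Hx τ| ≤ M0 * l9htAw Q.ms Q.N n CG gK gb τ := by
    intro τ
    by_cases hτ : τ ∈ Q.HiTb V2 n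
    · rw [hHin ⟨τ, hτ⟩]
      exact h2' ⟨τ, hτ⟩
    · rw [hHout τ hτ, abs_zero]
      exact mul_nonneg hM0 (haw0 τ)
  have b3 : ∀ τ i, Lo = {i} → |Hx τ| ≤ M0 * (Q.ms (l9Lv τ i) * l9htAw Q.ms Q.N n CG gK gb τ) := by
    intro τ i hi
    by_cases hτ : τ ∈ Q.HiTb V2 n
    · have hin : i < n := Finset.mem_range.1 (hLo (by rw [hi]; exact Finset.mem_singleton_self i))
      have hLo' : Lo' = {(⟨i, hin⟩ : Fin n)} := by
        ext j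
        rw [← hmemLo j, hi, Finset.mem_singleton, Finset.mem_singleton]
        exact ⟨fun h => Fin.ext h, fun h => by rw [h]⟩
      rw [hHin ⟨τ, hτ⟩]
      exact h3 ⟨τ, hτ⟩ ⟨i, hin⟩ hLo'
    · rw [hHout τ hτ, abs_zero]
      exact mul_nonneg hM0 (mul_nonneg (hms.nonneg _) (haw0 τ))
  -- the sum on the flat tables
  have hE : ∀ (e : Bool) (τ : L9htTr (Q.HiTb V2 n)), l9hE (l9htNu Q.X n) (l9htDel Q.X Q.Sf n) (l9hiF n A) e τ = Q.nuA e (2 * n) A τ.1 := by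
    intro e τ
    rw [l9ht_E Q.X_N hpos hT]
    unfold L9Q.nuA
    congr 1
    funext σ
    exact l9hi_prod_fin hA fun i => l9htDl Q.X Q.Sf e (l9Lv τ.1 i) (σ (2 * i)) (σ (2 * i + 1))
  have hset : Lo' \ l9hiF n A = l9hiF n (Lo \ A) := by
    ext i
    rw [Finset.mem_sdiff, l9hi_mem_F, l9hi_mem_F, Finset.mem_sdiff, hmemLo]
  have hP : ∀ τ : L9htTr (Q.HiTb V2 n), ∏ i ∈ Lo' \ l9hiF n A, l9hiPhi Q.N n phi i (l9htLv τ i) = ∏ i ∈ Lo \ A, phi i (l9Lv τ.1 i) := by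
    intro τ
    rw [hset, ← l9hi_prod_fin (Finset.sdiff_subset.trans hLo) fun i => phi i (l9Lv τ.1 i)]
    refine Finset.prod_congr rfl fun i _ => ?_
    unfold l9hiPhi
    rw [if_pos (hT.lv_le τ i)]
    rfl
  have hsum : ∑ τ : L9htTr (Q.HiTb V2 n), H' τ * (∏ i ∈ Lo' \ l9hiF n A, l9hiPhi Q.N n phi i (l9htLv τ i)) *
      (l9hE (l9htNu Q.X n) (l9htDel Q.X Q.Sf n) (l9hiF n A) true τ - l9hE (l9htNu Q.X n) (l9htDel Q.X Q.Sf n) (l9hiF n A) false τ) =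
      ∑ τ ∈ l9aTab Q.N (2 * n), Hx τ * (∏ i ∈ Lo \ A, phi i (l9Lv τ i)) * (Q.nuA true (2 * n) A τ - Q.nuA false (2 * n) A τ) := by
    simp only [hE, hP, ← hHin]
    rw [Finset.sum_coe_sort (Q.HiTb V2 n) fun τ => Hx τ * (∏ i ∈ Lo \ A, phi i (l9Lv τ i)) * (Q.nuA true (2 * n) A τ - Q.nuA false (2 * n) A τ)]
    refine Finset.sum_subset (fun τ hτ => (Q.hiTb_mem.1 hτ).1) fun τ _ hτ => ?_
    rw [hHout τ hτ, zero_mul, zero_mul]
  rw [hsum, add_zero]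
  by_cases hex : ∃ i, i < n ∧ i ∉ Lo
  · exact l9hi_ls_flat Q hAdm hn hAne hALo hLo hex hCG hMul hGm1 hsig0 h0 h2 hphiL hM0 b1 b2 b3
  · have hz : ∀ τ, Hx τ = 0 := by
      intro τ
      by_contra hne
      have hτ : τ ∈ Q.HiTb V2 n := by
        by_contra hc
        exact hne (hHout τ hc)
      obtain ⟨i, hi, hv⟩ := (Q.hiTb_mem.1 hτ).2.1
      have hiLo : i ∈ Lo := by
        by_contra hc
        exact hex ⟨i, hi, hc⟩
      have h5 := ((b1 τ hne i hi).2.1 hiLo)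
      have h6 : V2 ≤ Q.ms (l9Lv τ i) := hv
      linarith
    simp only [hz, zero_mul, Finset.sum_const_zero, abs_zero]
    have hGm0 : 0 ≤ Gm := by linarith
    positivity

/-! ## 4. the constants -/

/-- the constant of one term of degree `n` (terminal mass `≤ 4`) -/
def l9hiK (n : ℕ) : ℝ :=
  2 ^ n * (2 ^ n * (n + 2) + 12 * (l9aC (2 * n) 4 + l9aC (2 * n + 2) 4 * ((2 * n + 2 : ℕ) + 1 : ℝ) ^ 2 + n * (l9aC (2 * n) 4 * ((2 * n : ℕ) + 1 : ℝ) ^ 2))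
    + 4 * n * (l9aC (2 * n) 4 + l9aC (2 * n + 2) 4 * ((2 * n + 2 : ℕ) + 1 : ℝ) ^ 2 + n * (l9aC (2 * n) 4 * ((2 * n : ℕ) + 1 : ℝ) ^ 2)))

theorem l9hi_K_nonneg (n : ℕ) : 0 ≤ l9hiK n := by
  have := l9a_C_nonneg (2 * n) 4
  have := l9a_C_nonneg (2 * n + 2) 4
  unfold l9hiK
  positivity

/-- the unit of the H table -/
def l9hiW (V1 D1 D2 PhiH sg E1 B : ℝ) : ℝ := PhiH * B + D1 ^ 2 + D1 * PhiH + D2 * ((V1 + sg) * E1)

/-- `l9aC` is monotone in the terminal mass.      PLAN: `unfold l9aC`; `max_le_max`, `pow_le_pow_left₀`, `mul_le_mul`. -/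
theorem l9hi_aC_mono (r : ℕ) {a a' : ℝ} (h : a ≤ a') : l9aC r a ≤ l9aC r a' := by
  unfold l9aC
  have h1 : max 1 ((r : ℝ) * a) ≤ max 1 ((r : ℝ) * a') := max_le_max le_rfl (mul_le_mul_of_nonneg_left h (Nat.cast_nonneg r))
  have h2 : max 1 a ≤ max 1 a' := max_le_max le_rfl h
  have p1 : (0 : ℝ) ≤ max 1 ((r : ℝ) * a) := le_trans zero_le_one (le_max_left _ _)
  have p2 : (0 : ℝ) ≤ max 1 a := le_trans zero_le_one (le_max_left _ _)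
  exact mul_le_mul_of_nonneg_left (mul_le_mul (pow_le_pow_left₀ p1 h1 r) (pow_le_pow_left₀ p2 h2 r) (by positivity) (by positivity))
    (Nat.cast_nonneg _)

theorem l9hi_cost_le_arith {x1 x2 C1 C2 nK nb a q1 q2 t n V1 D1 D2 PhiH sg E1 Gm CG B : ℝ} (c1 : x1 ≤ C1) (c2 : x2 ≤ C2) (c10 : 0 ≤ x1)
    (c20 : 0 ≤ x2) (ha : a ≤ 4) (hGm : 1 ≤ Gm) (hK0 : 0 ≤ nK) (hb0 : 0 ≤ nb) (hK : nK ≤ Gm) (hb : nb ≤ Gm) (hCG : 0 ≤ CG)
    (hB : 0 ≤ B) (hV0 : 0 ≤ V1) (hsg0 : 0 ≤ sg) (hE1 : 0 ≤ E1) (hD1 : 0 ≤ D1) (hD2 : 0 ≤ D2) (hPhi : 0 ≤ PhiH) (hq10 : 0 ≤ q1) (hq20 : 0 ≤ q2)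
    (h2n : 0 ≤ t) (hn0 : 0 ≤ n) :
    t * (PhiH * t * (CG * ((n + 2) * (Gm * B))) + 0) + 2 * (t * (CG * (a + 2) * (x1 + x2 * (q2 * nK) + n * (x1 * (q1 * nb))) * (D1 ^ 2 + D1 * PhiH)
      + n * (CG * (x1 + x2 * (q2 * (nK + Gm)) + n * (x1 * (q1 * (nb + Gm)))) * (D2 * (V1 * E1 + sg * E1)))))
      ≤ t * (t * (n + 2) + 12 * (C1 + C2 * q2 + n * (C1 * q1)) + 4 * n * (C1 + C2 * q2 + n * (C1 * q1))) * (CG * Gm)
        * (PhiH * B + D1 ^ 2 + D1 * PhiH + D2 * ((V1 + sg) * E1)) := by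
  have hG0 : 0 ≤ Gm := by linarith
  have hC10 : 0 ≤ C1 := c10.trans c1
  have hC20 : 0 ≤ C2 := c20.trans c2
  obtain ⟨S, hS⟩ : ∃ S, S = C1 + C2 * q2 + n * (C1 * q1) := ⟨_, rfl⟩
  have hS0 : 0 ≤ S := by rw [hS]; positivity
  rw [← hS]
  have a1 : x1 ≤ C1 * Gm := c1.trans (le_mul_of_one_le_right hC10 hGm)
  have a5 : 0 ≤ C1 * Gm := by positivity
  have i1 : x1 + x2 * (q2 * nK) + n * (x1 * (q1 * nb)) ≤ S * Gm := by
    have a2 : x2 * (q2 * nK) ≤ C2 * (q2 * Gm) := mul_le_mul c2 (mul_le_mul_of_nonneg_left hK hq20) (by positivity) hC20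
    have a3 : x1 * (q1 * nb) ≤ C1 * (q1 * Gm) := mul_le_mul c1 (mul_le_mul_of_nonneg_left hb hq10) (by positivity) hC10
    have a4 := mul_le_mul_of_nonneg_left a3 hn0
    calc x1 + x2 * (q2 * nK) + n * (x1 * (q1 * nb)) ≤ C1 * Gm + C2 * (q2 * Gm) + n * (C1 * (q1 * Gm)) := by linarith
      _ = S * Gm := by rw [hS]; ring
  have i10 : 0 ≤ x1 + x2 * (q2 * nK) + n * (x1 * (q1 * nb)) := by positivity
  have i2 : x1 + x2 * (q2 * (nK + Gm)) + n * (x1 * (q1 * (nb + Gm))) ≤ 2 * (S * Gm) := by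
    have a2 : x2 * (q2 * (nK + Gm)) ≤ C2 * (q2 * (2 * Gm)) :=
      mul_le_mul c2 (mul_le_mul_of_nonneg_left (by linarith) hq20) (by positivity) hC20
    have a3 : x1 * (q1 * (nb + Gm)) ≤ C1 * (q1 * (2 * Gm)) :=
      mul_le_mul c1 (mul_le_mul_of_nonneg_left (by linarith) hq10) (by positivity) hC10
    have a4 := mul_le_mul_of_nonneg_left a3 hn0
    calc x1 + x2 * (q2 * (nK + Gm)) + n * (x1 * (q1 * (nb + Gm)))
        ≤ C1 * Gm + C2 * (q2 * (2 * Gm)) + n * (C1 * (q1 * (2 * Gm))) := by linarith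
      _ = 2 * (S * Gm) - C1 * Gm := by rw [hS]; ring
      _ ≤ 2 * (S * Gm) := by linarith
  have hCT : CG * (a + 2) * (x1 + x2 * (q2 * nK) + n * (x1 * (q1 * nb))) ≤ CG * 6 * (S * Gm) :=
    mul_le_mul (mul_le_mul_of_nonneg_left (by linarith) hCG) i1 i10 (by positivity)
  have hCS : CG * (x1 + x2 * (q2 * (nK + Gm)) + n * (x1 * (q1 * (nb + Gm)))) ≤ CG * (2 * (S * Gm)) :=
    mul_le_mul_of_nonneg_left i2 hCG
  generalize CG * (a + 2) * (x1 + x2 * (q2 * nK) + n * (x1 * (q1 * nb))) = CT at hCT ⊢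
  generalize CG * (x1 + x2 * (q2 * (nK + Gm)) + n * (x1 * (q1 * (nb + Gm)))) = CS at hCS ⊢
  obtain ⟨w1, hw1⟩ : ∃ w, w = PhiH * B := ⟨_, rfl⟩
  obtain ⟨w2, hw2⟩ : ∃ w, w = D1 ^ 2 + D1 * PhiH := ⟨_, rfl⟩
  obtain ⟨w3, hw3⟩ : ∃ w, w = D2 * ((V1 + sg) * E1) := ⟨_, rfl⟩
  have hw10 : 0 ≤ w1 := by rw [hw1]; positivity
  have hw20 : 0 ≤ w2 := by rw [hw2]; positivity
  have hw30 : 0 ≤ w3 := by rw [hw3]; positivity
  have e3 : D2 * (V1 * E1 + sg * E1) = w3 := by rw [hw3]; ring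
  have eW : PhiH * B + D1 ^ 2 + D1 * PhiH + D2 * ((V1 + sg) * E1) = w1 + w2 + w3 := by rw [hw1, hw2, hw3]; ring
  have e1 : PhiH * t * (CG * ((n + 2) * (Gm * B))) = t * (n + 2) * (CG * Gm) * w1 := by rw [hw1]; ring
  rw [e3, eW, e1, ← hw2]
  have t2 := mul_le_mul_of_nonneg_right hCT hw20
  have t3 := mul_le_mul_of_nonneg_left (mul_le_mul_of_nonneg_right hCS hw30) hn0
  have t4 := mul_le_mul_of_nonneg_left (add_le_add t2 t3) h2n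
  have hK0' : 0 ≤ t * (CG * Gm) := by positivity
  have hB0 : 0 ≤ (12 * S + 4 * n * S) * w1 + (t * (n + 2) + 4 * n * S) * w2 + (t * (n + 2) + 12 * S) * w3 := by positivity
  have fin := mul_nonneg hK0' hB0
  calc t * (t * (n + 2) * (CG * Gm) * w1 + 0) + 2 * (t * (CT * w2 + n * (CS * w3)))
      ≤ t * (t * (n + 2) * (CG * Gm) * w1 + 0) + 2 * (t * (CG * 6 * (S * Gm) * w2 + n * (CG * (2 * (S * Gm)) * w3))) := by linarith
    _ = t * (t * (n + 2) + 12 * S + 4 * n * S) * (CG * Gm) * (w1 + w2 + w3)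
        - t * (CG * Gm) * ((12 * S + 4 * n * S) * w1 + (t * (n + 2) + 4 * n * S) * w2 + (t * (n + 2) + 12 * S) * w3) := by ring
    _ ≤ t * (t * (n + 2) + 12 * S + 4 * n * S) * (CG * Gm) * (w1 + w2 + w3) := by linarith

/-- **NUMBERS**: the right side of `l9hi_T_le` with `BLS = CG (n+2) Gm B`.
PLAN: `unfold l9htCT l9htCS l9hiK l9hiW`; `a := ms N ≤ 4`, `0 ≤ a`; `l9aC r a ≤ l9aC r 4` (`l9hi_aC_mono`); `‖gK‖, ‖gb‖ ≤ Gm`, `1 ≤ Gm`: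
`CT ≤ CG * 6 * (c₁ + c₂ q₂ + n c₁ q₁) * Gm`, `CS ≤ CG * 2 * (c₁ + c₂ q₂ + n c₁ q₁) * Gm`; then every summand is `≤ (its part of l9hiK) * (CG Gm) * (its part of W)`, all parts of `W` are `≥ 0`. -/
theorem l9hi_cost_le {N n : ℕ} {ms gK gb : ℕ → ℝ} {V1 D1 D2 PhiH sg E1 Gm CG B : ℝ} (ha0 : 0 ≤ ms N) (ha : ms N ≤ 4) (hGm : 1 ≤ Gm)
    (hK0 : 0 ≤ l9htNm ms N gK) (hb0 : 0 ≤ l9htNm ms N gb) (hK : l9htNm ms N gK ≤ Gm) (hb : l9htNm ms N gb ≤ Gm) (hCG : 0 ≤ CG) (hB : 0 ≤ B)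
    (hV0 : 0 ≤ V1) (hsg0 : 0 ≤ sg) (hE1 : 0 ≤ E1) (hD1 : 0 ≤ D1) (hD2 : 0 ≤ D2) (hPhi : 0 ≤ PhiH) :
    2 ^ n * (PhiH * 2 ^ n * (CG * ((n + 2) * (Gm * B))) + 0) + 2 * (2 ^ n * (l9htCT ms N n CG gK gb * (D1 ^ 2 + D1 * PhiH)
      + n * (l9htCS ms N n CG Gm Gm gK gb * (D2 * (V1 * E1 + sg * E1))))) ≤ l9hiK n * (CG * Gm) * l9hiW V1 D1 D2 PhiH sg E1 B := by
  unfold l9htCT l9htCS l9hiK l9hiW
  exact l9hi_cost_le_arith (l9hi_aC_mono (2 * n) ha) (l9hi_aC_mono (2 * n + 2) ha) (l9a_C_nonneg (2 * n) (ms N)) (l9a_C_nonneg (2 * n + 2) (ms N))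
    ha hGm hK0 hb0 hK hb hCG hB hV0 hsg0 hE1 hD1 hD2 hPhi (by positivity) (by positivity) (by positivity) (Nat.cast_nonneg n)

/-- side conditions on the numbers at one point -/
structure L9Q.HiSide (Q : L9Q) (V1 V2 D1 D2 PhiH sg E1 Gm CG B : ℝ) : Prop where
  a_le : Q.p.a ≤ 4
  Gm1 : Q.p.a + 1 ≤ Gm
  V0 : 0 ≤ V1
  V12 : V1 ≤ V2
  sg0 : 0 ≤ sg
  sg1 : sg ≤ 1
  E0 : 0 ≤ E1
  D1_0 : 0 ≤ D1
  D2_0 : 0 ≤ D2
  D21 : D2 ≤ D1
  Phi0 : 0 ≤ PhiH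
  Phi1 : PhiH ≤ 2
  CG0 : 0 ≤ CG
  B0 : 0 ≤ B

/-- **one term**, final form -/
theorem l9hi_T_le' (Q : L9Q) {δm : ℝ} (hAdm : Q.Adm δm) {sig gK gb : ℕ → ℝ} {V1 V2 D1 D2 PhiH sg E1 Gm CG B : ℝ} {J0 n : ℕ} (hn : 2 ≤ n) (hnJ : n ≤ J0)
    {A : Finset ℕ} (hA : A ⊆ Finset.range n) (hAne : A.Nonempty) {G : JtTopo → ℝ} {phi : ℕ → ℕ → ℝ}
    (hS : Q.HiSide V1 V2 D1 D2 PhiH sg E1 Gm CG B)
    (hNum : Q.HiNum sig V1 V2 D1 D2 PhiH sg E1) (hMul : Q.HiMul V1 gK gb Gm) (hCo : Q.HiCo V1 V2 n G CG gK gb) (hLS : Q.HiLS V1 sig J0 B)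
    (hphiH : ∀ i, i < n → i ∉ A → ∀ k, k ≤ Q.N → V1 ≤ Q.ms k → |phi i k| ≤ PhiH)
    (hphiL : ∀ i, i < n → i ∉ A → ∀ k, k ≤ Q.N → Q.ms k < V1 → |phi i k| ≤ sig k) :
    |Q.HiT V2 n A G phi| ≤ l9hiK n * (CG * Gm) * l9hiW V1 D1 D2 PhiH sg E1 B := by
  have hms := Q.isMs hAdm
  have ha : Q.ms Q.N = Q.p.a := Q.ms_top le_rfl
  have ha0 : 0 ≤ Q.p.a := hAdm.a_pos.le
  have hGm1 : 1 ≤ Gm := by linarith [hS.Gm1]
  have h1 := l9hi_ls Q hAdm hn hA hAne hS.V12 hS.CG0 hS.B0 hMul hS.Gm1 hNum.sig0 (hLS n hn hnJ).1 (hLS n hn hnJ).2 hphiL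
  have h2 := l9hi_T_le Q hAdm hn hA hNum hMul hCo h1 hS.V12 hS.V0 hS.sg0 hS.sg1 hS.CG0 (by linarith) hS.D1_0 hS.D2_0 hS.Phi0 hS.Phi1 hphiH hphiL
  exact h2.trans (l9hi_cost_le (by rw [ha]; exact ha0) (by rw [ha]; exact hS.a_le) hGm1 (l9ht_nm_nonneg hms hMul.K_nn) (l9ht_nm_nonneg hms hMul.b_nn)
    hMul.K_int hMul.b_int hS.CG0 hS.B0 hS.V0 hS.sg0 hS.E0 hS.D1_0 hS.D2_0 hS.Phi0)

/-! ## 5. FLAT ⟹ terms -/

/-- **LEIBNIZ**: `O` applied to the coefficient `κ ∏_R b ∏_{∉ R} d`.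
PLAN: `unfold L9Q.co l9O JtCtx.cf`; `jtC 0 i = 2 i`, `jtD 0 i = 2 i + 1` (`unfold jtC jtD; omega`/`simp`); `HasDerivAt` of the product `κ(t') * ∏_R b(t') * ∏_{∉R} d(t')`: `hD.k n hn τ hτ`, `HasDerivAt.finset_prod` (or `HasDerivAt.fun_finset_prod`)
with `(hD.b v).hasDerivAt`, `(hD.d v).hasDerivAt`; `.deriv`; at `t' = Q.t`: `Q.I.X0 (Q.pf Q.t) = Q.X false` by `rfl`; then `ring`-type rearrangement (`Finset.mul_sum`, `Finset.sum_mul`). -/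
theorem l9hi_co_eq (Q : L9Q) (hD : Q.HiDif) {n : ℕ} (hn : 1 ≤ n) (R : Finset ℕ) {τ : JtTopo} (hτ : IsTr Q.N (2 * n) τ) :
    Q.co n R τ = Q.G0 n R τ * ∏ i ∈ Finset.range n \ R, Q.dV (l9Lv τ i)
      + Q.G1 n R τ * ∑ i0 ∈ Finset.range n \ R, Q.dD (l9Lv τ i0) * ∏ i ∈ (Finset.range n \ R).erase i0, Q.dV (l9Lv τ i) := by
  have e1 : ∀ i, jtC 0 i = 2 * i := fun i => by unfold jtC; omega
  have e2 : ∀ i, jtD 0 i = 2 * i + 1 := fun i => by unfold jtD; omega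
  have hk := hD.k n hn τ hτ
  have hb : HasDerivAt (fun t' => ∏ i ∈ R, (Q.I.X0 (Q.pf t')).bC (l9Lv τ i))
      (∑ i ∈ R, (∏ j ∈ R.erase i, (Q.I.X0 (Q.pf Q.t)).bC (l9Lv τ j)) • Q.bD (l9Lv τ i)) Q.t :=
    HasDerivAt.fun_finsetProd fun i _ => (hD.b (l9Lv τ i)).hasDerivAt
  have hd : HasDerivAt (fun t' => ∏ i ∈ Finset.range n \ R, (Q.I.X0 (Q.pf t')).dC (l9Lv τ i))
      (∑ i ∈ Finset.range n \ R, (∏ j ∈ (Finset.range n \ R).erase i, (Q.I.X0 (Q.pf Q.t)).dC (l9Lv τ j)) • Q.dD (l9Lv τ i)) Q.t :=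
    HasDerivAt.fun_finsetProd fun i _ => (hD.d (l9Lv τ i)).hasDerivAt
  have hall := (hk.mul hb).mul hd
  have hfun : (fun t' => (Q.I.X0 (Q.pf t')).cf n R τ)
      = ((fun t' => (Q.I.X0 (Q.pf t')).Kap (2 * n) 0 τ (Finset.range n)) * fun t' => ∏ i ∈ R, (Q.I.X0 (Q.pf t')).bC (l9Lv τ i))
        * fun t' => ∏ i ∈ Finset.range n \ R, (Q.I.X0 (Q.pf t')).dC (l9Lv τ i) := by
    funext t'
    unfold JtCtx.cf
    simp only [e1, e2, Pi.mul_apply]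
    rfl
  unfold L9Q.co l9O
  rw [hfun, hall.deriv]
  unfold L9Q.G0 L9Q.G1 L9Q.kap L9Q.bV L9Q.dV
  simp only [Pi.mul_apply, smul_eq_mul]
  have x0 : Q.I.X0 (Q.pf Q.t) = Q.X false := rfl
  rw [x0]
  have s1 : ∑ i ∈ R, (∏ j ∈ R.erase i, (Q.X false).bC (l9Lv τ j)) * Q.bD (l9Lv τ i)
      = ∑ i ∈ R, Q.bD (l9Lv τ i) * ∏ j ∈ R.erase i, (Q.X false).bC (l9Lv τ j) := Finset.sum_congr rfl fun i _ => mul_comm _ _
  have s2 : ∑ i ∈ Finset.range n \ R, (∏ j ∈ (Finset.range n \ R).erase i, (Q.X false).dC (l9Lv τ j)) * Q.dD (l9Lv τ i)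
      = ∑ i ∈ Finset.range n \ R, Q.dD (l9Lv τ i) * ∏ j ∈ (Finset.range n \ R).erase i, (Q.X false).dC (l9Lv τ j) :=
    Finset.sum_congr rfl fun i _ => mul_comm _ _
  rw [s1, s2]
  ring

/-- **`Δ = δ + f`** under the positive law.
PLAN: `X.Dl τ σ c d = l9htDl Q.X Q.Sf en (τ c d) (σ c) (σ d) + Q.ff (τ c d)` (`unfold`; `qC` is the same in both ensembles: `rfl`); `Finset.prod_add` (sum over `R.powerset`); linearity of `ν`: `(Q.law hAdm en).nu.sum`/`.add`, `.const_mul`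
(`L02/Law.lean`). -/
theorem l9hi_num_expand (Q : L9Q) {δm : ℝ} (hAdm : Q.Adm δm) (en : Bool) (R : Finset ℕ) (r : ℕ) (τ : JtTopo) :
    l9rNum (Q.X en) R r τ = ∑ A ∈ R.powerset, (∏ i ∈ R \ A, Q.ff (l9Lv τ i)) * Q.nuA en r A τ := by
  have hD : ∀ (σ : ℕ → SkCfg Q.I.m) (i : ℕ), (Q.X en).Dl τ σ (2 * i) (2 * i + 1)
      = l9htDl Q.X Q.Sf en (l9Lv τ i) (σ (2 * i)) (σ (2 * i + 1)) + Q.ff (l9Lv τ i) := by
    intro σ i
    have hq : (Q.X en).qC (τ (2 * i) (2 * i + 1)) = (Q.X false).qC (τ (2 * i) (2 * i + 1)) := by cases en <;> rfl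
    unfold JtCtx.Dl JtCtx.Qs l9htDl L9Q.ff l9Lv
    rw [hq]
    ring
  unfold l9rNum L9Q.nuA
  simp only [hD, Finset.prod_add]
  rw [(Q.law hAdm en).nu.sum]
  refine Finset.sum_congr rfl fun A _ => ?_
  rw [← (Q.law hAdm en).nu.const_mul]
  congr 1
  funext σ
  ring

/-- no stochastic factor: the term is common to the two ensembles -/
theorem l9hi_nuA_empty (Q : L9Q) {δm : ℝ} (hAdm : Q.Adm δm) (en : Bool) (r : ℕ) (τ : JtTopo) : Q.nuA en r ∅ τ = 1 := by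
  unfold L9Q.nuA
  simp only [Finset.prod_empty]
  exact (Q.law hAdm en).nu.const r τ 1

theorem l9hi_ph_split {n : ℕ} {R A : Finset ℕ} (hR : R ⊆ Finset.range n) (hA : A ⊆ R) :
    Finset.range n \ A = (R \ A) ∪ (Finset.range n \ R) ∧ Disjoint (R \ A) (Finset.range n \ R) := by
  constructor
  · ext i
    simp only [Finset.mem_sdiff, Finset.mem_union, Finset.mem_range]
    constructor
    · rintro ⟨h1, h2⟩
      by_cases hi : i ∈ R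
      · exact Or.inl ⟨hi, h2⟩
      · exact Or.inr ⟨h1, hi⟩
    · rintro (⟨h1, h2⟩ | ⟨h1, h2⟩)
      · exact ⟨Finset.mem_range.1 (hR h1), h2⟩
      · exact ⟨h1, fun h => h2 (hA h)⟩
  · rw [Finset.disjoint_left]
    intro i h1 h2
    exact (Finset.mem_sdiff.1 h2).2 (Finset.mem_sdiff.1 h1).1

/-- the deterministic factors of a term without `ḋ`.      PLAN: `range n \ A = (R \ A) ∪ (range n \ R)` disjoint (`A ⊆ R ⊆ range n`), `Finset.prod_union`, `if_pos` / `if_neg` in `ph0`. -/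
theorem l9hi_ph0_prod (Q : L9Q) {n : ℕ} {R A : Finset ℕ} (hR : R ⊆ Finset.range n) (hA : A ⊆ R) (τ : JtTopo) :
    ∏ i ∈ Finset.range n \ A, Q.ph0 R i (l9Lv τ i) = (∏ i ∈ R \ A, Q.ff (l9Lv τ i)) * ∏ i ∈ Finset.range n \ R, Q.dV (l9Lv τ i) := by
  obtain ⟨hU, hD⟩ := l9hi_ph_split hR hA
  rw [hU, Finset.prod_union hD]
  congr 1
  · exact Finset.prod_congr rfl fun i hi => by unfold L9Q.ph0; rw [if_pos (Finset.mem_sdiff.1 hi).1]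
  · exact Finset.prod_congr rfl fun i hi => by unfold L9Q.ph0; rw [if_neg (Finset.mem_sdiff.1 hi).2]

/-- the deterministic factors of a term with `ḋ` at `i0 ∉ R`.      PLAN: as `l9hi_ph0_prod`, then `Finset.mul_prod_erase` at `i0`. -/
theorem l9hi_ph1_prod (Q : L9Q) {n : ℕ} {R A : Finset ℕ} (hR : R ⊆ Finset.range n) (hA : A ⊆ R) {i0 : ℕ} (hi0 : i0 ∈ Finset.range n \ R) (τ : JtTopo) :
    ∏ i ∈ Finset.range n \ A, Q.ph1 R i0 i (l9Lv τ i)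
      = (∏ i ∈ R \ A, Q.ff (l9Lv τ i)) * (Q.dD (l9Lv τ i0) * ∏ i ∈ (Finset.range n \ R).erase i0, Q.dV (l9Lv τ i)) := by
  obtain ⟨hU, hD⟩ := l9hi_ph_split hR hA
  rw [hU, Finset.prod_union hD]
  congr 1
  · exact Finset.prod_congr rfl fun i hi => by unfold L9Q.ph1; rw [if_pos (Finset.mem_sdiff.1 hi).1]
  · rw [← Finset.mul_prod_erase _ _ hi0]
    congr 1
    · unfold L9Q.ph1; rw [if_neg (Finset.mem_sdiff.1 hi0).2, if_pos rfl]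
    · refine Finset.prod_congr rfl fun i hi => ?_
      obtain ⟨h1, h2⟩ := Finset.mem_erase.1 hi
      unfold L9Q.ph1
      rw [if_neg (Finset.mem_sdiff.1 h2).2, if_neg h1]

/-- the factor `off` restricts the tables.      PLAN: `Q.Tb`, `Q.HiTb` are filters of `l9aTab`; `JtCtx.off 0 n τ = if ∀ i < n, l9Lv τ i ≤ N then 1 else 0` (`Finset.prod_ite_zero`; `jtC 0 i = 2 i`); `Finset.sum_filter`, `Finset.filter_filter`. -/
theorem l9hi_off_sum (Q : L9Q) (V2 : ℝ) (n : ℕ) (F : JtTopo → ℝ) :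
    ∑ τ ∈ Q.Tb (l9RgHi V2) n, (Q.X false).off 0 n τ * F τ = ∑ τ ∈ Q.HiTb V2 n, F τ := by
  classical
  have hoff : ∀ τ, (Q.X false).off 0 n τ = if ∀ i, i < n → l9Lv τ i ≤ Q.N then 1 else 0 := by
    intro τ
    unfold JtCtx.off
    rw [Finset.prod_ite_zero, Finset.prod_const_one]
    have : (∀ i ∈ Finset.range n, τ (jtC 0 i) (jtD 0 i) ≤ (Q.X false).N) ↔ ∀ i, i < n → l9Lv τ i ≤ Q.N := by
      refine forall_congr' fun i => ?_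
      rw [Finset.mem_range]
      have e1 : jtC 0 i = 2 * i := by unfold jtC; omega
      have e2 : jtD 0 i = 2 * i + 1 := by unfold jtD; omega
      rw [e1, e2]
      rfl
    simp only [this]
  unfold L9Q.Tb L9Q.HiTb
  rw [Finset.sum_filter, Finset.sum_filter]
  refine Finset.sum_congr rfl fun τ _ => ?_
  rw [hoff]
  by_cases h1 : l9RgHi V2 n (Q.vm τ) <;> by_cases h2 : ∀ i, i < n → l9Lv τ i ≤ Q.N <;> simp [h1, h2]

theorem l9hi_rg_loc (V : ℝ) : (l9RgHi V).Loc := by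
  intro n v v' h
  unfold l9RgHi
  constructor
  · rintro ⟨i, hi, hv⟩; exact ⟨i, hi, by rw [← h i hi]; exact hv⟩
  · rintro ⟨i, hi, hv⟩; exact ⟨i, hi, by rw [h i hi]; exact hv⟩

/-- the summand of one table -/
theorem l9hi_mon_eq_pt (Q : L9Q) {δm : ℝ} (hAdm : Q.Adm δm) (hD : Q.HiDif) {n : ℕ} (hn : 1 ≤ n) {R : Finset ℕ} (hR : R ⊆ Finset.range n)
    {τ : JtTopo} (hτ : IsTr Q.N (2 * n) τ) :
    l9aWt Q.ms Q.N 1 (2 * n) τ * Q.co n R τ * (l9rNum (Q.X true) R (2 * n) τ - l9rNum (Q.X false) R (2 * n) τ)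
      = ∑ A ∈ R.powerset.filter (fun A => A.Nonempty),
          (l9aWt Q.ms Q.N 1 (2 * n) τ * Q.G0 n R τ * (∏ i ∈ Finset.range n \ A, Q.ph0 R i (l9Lv τ i)) *
              (Q.nuA true (2 * n) A τ - Q.nuA false (2 * n) A τ)
            + ∑ i0 ∈ Finset.range n \ R, l9aWt Q.ms Q.N 1 (2 * n) τ * Q.G1 n R τ * (∏ i ∈ Finset.range n \ A, Q.ph1 R i0 i (l9Lv τ i)) *
              (Q.nuA true (2 * n) A τ - Q.nuA false (2 * n) A τ)) := by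
  have hdiff : l9rNum (Q.X true) R (2 * n) τ - l9rNum (Q.X false) R (2 * n) τ
      = ∑ A ∈ R.powerset.filter (fun A => A.Nonempty), (∏ i ∈ R \ A, Q.ff (l9Lv τ i)) * (Q.nuA true (2 * n) A τ - Q.nuA false (2 * n) A τ) := by
    rw [l9hi_num_expand Q hAdm true, l9hi_num_expand Q hAdm false, ← Finset.sum_sub_distrib, Finset.sum_filter]
    refine Finset.sum_congr rfl fun A _ => ?_
    by_cases hA : A.Nonempty
    · rw [if_pos hA]; ring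
    · rw [if_neg hA]
      rw [Finset.not_nonempty_iff_eq_empty] at hA
      subst hA
      rw [l9hi_nuA_empty Q hAdm true, l9hi_nuA_empty Q hAdm false]
      ring
  rw [hdiff, l9hi_co_eq Q hD hn R hτ, Finset.mul_sum]
  refine Finset.sum_congr rfl fun A hA => ?_
  have hAR : A ⊆ R := Finset.mem_powerset.1 (Finset.mem_filter.1 hA).1
  rw [l9hi_ph0_prod Q hR hAR τ]
  have h1 : ∀ i0 ∈ Finset.range n \ R, l9aWt Q.ms Q.N 1 (2 * n) τ * Q.G1 n R τ * (∏ i ∈ Finset.range n \ A, Q.ph1 R i0 i (l9Lv τ i)) *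
      (Q.nuA true (2 * n) A τ - Q.nuA false (2 * n) A τ)
      = (l9aWt Q.ms Q.N 1 (2 * n) τ * Q.G1 n R τ * (∏ i ∈ R \ A, Q.ff (l9Lv τ i)) * (Q.nuA true (2 * n) A τ - Q.nuA false (2 * n) A τ))
        * (Q.dD (l9Lv τ i0) * ∏ i ∈ (Finset.range n \ R).erase i0, Q.dV (l9Lv τ i)) := by
    intro i0 hi0
    rw [l9hi_ph1_prod Q hR hAR hi0 τ]
    ring
  rw [Finset.sum_congr rfl h1, ← Finset.mul_sum]
  ring

open Classical in
/-- **one monomial of (E1) on the H region = sum of terms**.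
PLAN: `l9c_flat Q (l9RgHi V2) (l9hi_rg_loc V2) hn hR en` for both ensembles, `unfold l9rD0 L9Q.H`, `← Finset.sum_sub_distrib`; pull `((2^n n!)⁻¹` out (`Finset.mul_sum`); `l9hi_off_sum` with
`F τ = wt τ * co τ * (Num true - Num false)`; on `τ ∈ HiTb`: `l9hi_num_expand` (both), the summand `A = ∅` cancels (`l9hi_nuA_empty`; `Finset.sum_filter`, `Finset.nonempty_iff_ne_empty`), `l9hi_co_eq` (`IsTr` from `l9a_mem_tab`),
`l9hi_ph0_prod`, `l9hi_ph1_prod`; `unfold L9Q.HiT`; exchange the sums (`Finset.sum_comm`, `Finset.sum_add_distrib`, `Finset.mul_sum`); `ring` in the summand. -/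
theorem l9hi_mon_eq (Q : L9Q) {δm : ℝ} (hAdm : Q.Adm δm) (hD : Q.HiDif) (V2 : ℝ) {n : ℕ} (hn : 1 ≤ n) {R : Finset ℕ} (hR : R ⊆ Finset.range n) :
    (Q.X true).mon n R (fun τ => if l9RgHi V2 n (Q.vm τ) then Q.co n R τ else 0)
        - (Q.X false).mon n R (fun τ => if l9RgHi V2 n (Q.vm τ) then Q.co n R τ else 0)
      = ((2 : ℝ) ^ n * (n ! : ℝ))⁻¹ * ∑ A ∈ R.powerset.filter (fun A => A.Nonempty),
          (Q.HiT V2 n A (Q.G0 n R) (Q.ph0 R) + ∑ i0 ∈ Finset.range n \ R, Q.HiT V2 n A (Q.G1 n R) (Q.ph1 R i0)) := by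
  rw [l9c_flat Q (l9RgHi V2) (l9hi_rg_loc V2) hn hR true, l9c_flat Q (l9RgHi V2) (l9hi_rg_loc V2) hn hR false]
  unfold l9rD0
  rw [← Finset.sum_sub_distrib]
  have e1 : ∀ τ ∈ Q.Tb (l9RgHi V2) n, Q.H n R τ * l9rNum (Q.X true) R (2 * n) τ - Q.H n R τ * l9rNum (Q.X false) R (2 * n) τ
      = ((2 : ℝ) ^ n * (n ! : ℝ))⁻¹ * ((Q.X false).off 0 n τ *
        (l9aWt Q.ms Q.N 1 (2 * n) τ * Q.co n R τ * (l9rNum (Q.X true) R (2 * n) τ - l9rNum (Q.X false) R (2 * n) τ))) := by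
    intro τ _
    unfold L9Q.H
    ring
  rw [Finset.sum_congr rfl e1, ← Finset.mul_sum, l9hi_off_sum]
  congr 1
  have e2 : ∀ τ ∈ Q.HiTb V2 n, _ = _ := fun τ hτ =>
    l9hi_mon_eq_pt Q hAdm hD hn hR (l9a_mem_tab.1 (Q.hiTb_mem.1 hτ).1).1
  rw [Finset.sum_congr rfl e2, Finset.sum_comm]
  refine Finset.sum_congr rfl fun A _ => ?_
  rw [Finset.sum_add_distrib, Finset.sum_comm]
  rfl

/-- bounds of the deterministic factors (`ḋ` at a high cut: see `l9hi_T1_le`) -/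
theorem l9hi_ph_le (Q : L9Q) {sig : ℕ → ℝ} {V1 V2 D1 D2 PhiH sg E1 : ℝ} (hNum : Q.HiNum sig V1 V2 D1 D2 PhiH sg E1) (R : Finset ℕ) (i0 i k : ℕ) (hk : k ≤ Q.N) :
    (V1 ≤ Q.ms k → |Q.ph0 R i k| ≤ PhiH ∧ (i ≠ i0 → |Q.ph1 R i0 i k| ≤ PhiH)) ∧ (Q.ms k < V1 → |Q.ph0 R i k| ≤ sig k ∧ |Q.ph1 R i0 i k| ≤ sig k) := by
  have hd : |Q.dV k| ≤ Q.dA k ∧ |Q.dD k| ≤ Q.dA k := by
    unfold L9Q.dV L9Q.dD L9Q.dA
    exact ⟨le_add_of_nonneg_right (abs_nonneg _), le_add_of_nonneg_left (abs_nonneg _)⟩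
  unfold L9Q.ph0 L9Q.ph1
  refine ⟨fun h => ?_, fun h => ?_⟩
  · have h1 := hNum.f_hi k hk h
    have h2 := hNum.d_hi k hk h
    refine ⟨by split_ifs <;> assumption, fun hi => ?_⟩
    rw [if_neg hi]
    split_ifs <;> assumption
  · have h1 := hNum.f_lo k hk h
    have h2 := hNum.d_lo k hk h
    constructor <;> split_ifs <;> first | exact h1 | exact hd.1.trans h2 | exact hd.2.trans h2

/-- a tree number of a product of factors `δ` is bounded -/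
theorem l9hi_nuA_abs (Q : L9Q) (hpos : ∀ e, L9rPos (Q.X e)) (hbdd : ∀ e t a b, t ≤ Q.N → |l9htDl Q.X Q.Sf e t a b| ≤ 2) (e : Bool) {r : ℕ}
    {A : Finset ℕ} {τ : JtTopo} (hτ : IsTr Q.N r τ) (hlv : ∀ i ∈ A, l9Lv τ i ≤ Q.N) : |Q.nuA e r A τ| ≤ 2 ^ A.card := by
  obtain ⟨w, hw0, hw1, hw⟩ := (hpos e).rep r τ (by rw [Q.X_N]; exact hτ)
  unfold L9Q.nuA
  rw [hw]
  calc _ ≤ ∑ σ, w σ * 2 ^ A.card := by
        refine (Finset.abs_sum_le_sum_abs _ _).trans (Finset.sum_le_sum fun σ _ => ?_)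
        rw [abs_mul, abs_of_nonneg (hw0 σ), Finset.abs_prod]
        refine mul_le_mul_of_nonneg_left ?_ (hw0 σ)
        calc _ ≤ ∏ _i ∈ A, (2 : ℝ) := Finset.prod_le_prod (fun _ _ => abs_nonneg _) fun i hi => hbdd _ _ _ _ (hlv i hi)
          _ = 2 ^ A.card := by simp
    _ = 2 ^ A.card := by rw [← Finset.sum_mul, hw1, one_mul]

/-- the product of the deterministic factors, one factor replaced -/
theorem l9hi_prod_upd {s : Finset ℕ} {i0 : ℕ} (hi0 : i0 ∈ s) (phi : ℕ → ℕ → ℝ) (c : ℕ → ℝ) (τ : JtTopo) :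
    ∏ i ∈ s, Function.update phi i0 c i (l9Lv τ i) = c (l9Lv τ i0) * ∏ i ∈ s.erase i0, phi i (l9Lv τ i) := by
  rw [← Finset.mul_prod_erase s _ hi0]
  congr 1
  · simp
  · refine Finset.prod_congr rfl fun i hi => ?_
    rw [Function.update_of_ne (Finset.ne_of_mem_erase hi)]

/-- a term is linear in each deterministic factor -/
theorem l9hi_T_lin (Q : L9Q) (V2 : ℝ) (n : ℕ) (A : Finset ℕ) (G : JtTopo → ℝ) (phi : ℕ → ℕ → ℝ) {i0 : ℕ} (hi0 : i0 ∈ Finset.range n \ A) (c1 c2 : ℕ → ℝ) :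
    Q.HiT V2 n A G (Function.update phi i0 fun v => c1 v + c2 v)
      = Q.HiT V2 n A G (Function.update phi i0 c1) + Q.HiT V2 n A G (Function.update phi i0 c2) := by
  unfold L9Q.HiT
  rw [← Finset.sum_add_distrib]
  refine Finset.sum_congr rfl fun τ _ => ?_
  rw [l9hi_prod_upd hi0, l9hi_prod_upd hi0, l9hi_prod_upd hi0]
  ring

/-- **crude bound of one term**: bounded coefficient (no multiplier), one deterministic factor small in `L¹` of the mass, all the others bounded -/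
theorem l9hi_T_crude (Q : L9Q) {δm : ℝ} (hAdm : Q.Adm δm) (hpos : ∀ e, L9rPos (Q.X e)) (hbdd : ∀ e t a b, t ≤ Q.N → |l9htDl Q.X Q.Sf e t a b| ≤ 2)
    {V2 CG : ℝ} {n : ℕ} {A : Finset ℕ} (hA : A ⊆ Finset.range n) {G : JtTopo → ℝ} {phi : ℕ → ℕ → ℝ} {i0 : ℕ} (hi0 : i0 ∈ Finset.range n \ A)
    {g : ℕ → ℝ} (hg : ∀ k, 0 ≤ g k) (hCG : 0 ≤ CG) (hG : ∀ τ ∈ Q.HiTb V2 n, |G τ| ≤ CG)
    (hphi : ∀ i, i < n → i ∉ A → i ≠ i0 → ∀ k, k ≤ Q.N → |phi i k| ≤ 2) (hphi0 : ∀ k, k ≤ Q.N → |phi i0 k| ≤ g k) :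
    |Q.HiT V2 n A G phi| ≤ 2 ^ n * CG * (l9aC (2 * n) (Q.ms Q.N) * l9htNm Q.ms Q.N g) := by
  classical
  have hms := Q.isMs hAdm
  obtain ⟨hi0n, hi0A⟩ := Finset.mem_sdiff.1 hi0
  have hi0n' : i0 < n := Finset.mem_range.1 hi0n
  have hcard : ((Finset.range n \ A).erase i0).card + 1 + A.card = n := by
    rw [Finset.card_erase_of_mem hi0, Finset.card_sdiff_of_subset hA, Finset.card_range]
    have h1 : A.card < n := by
      have : A ⊂ Finset.range n := ⟨hA, fun h => hi0A (h hi0n)⟩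
      simpa using Finset.card_lt_card this
    omega
  have hone : ∀ τ ∈ Q.HiTb V2 n, |l9aWt Q.ms Q.N 1 (2 * n) τ * G τ * (∏ i ∈ Finset.range n \ A, phi i (l9Lv τ i)) *
      (Q.nuA true (2 * n) A τ - Q.nuA false (2 * n) A τ)| ≤ 2 ^ n * CG * (|l9aWt Q.ms Q.N 1 (2 * n) τ| * g (τ (2 * i0) (2 * i0 + 1))) := by
    intro τ hτ
    obtain ⟨h1, _, hlv⟩ := Q.hiTb_mem.1 hτ
    have hT : IsTr Q.N (2 * n) τ := (l9a_mem_tab.mp h1).1
    have hnu : ∀ e, |Q.nuA e (2 * n) A τ| ≤ 2 ^ A.card := fun e =>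
      l9hi_nuA_abs Q hpos hbdd e hT fun i hi => hlv i (Finset.mem_range.1 (hA hi))
    have hd : |Q.nuA true (2 * n) A τ - Q.nuA false (2 * n) A τ| ≤ 2 * 2 ^ A.card := by
      have := abs_sub (Q.nuA true (2 * n) A τ) (Q.nuA false (2 * n) A τ)
      linarith [hnu true, hnu false]
    have hp : |∏ i ∈ Finset.range n \ A, phi i (l9Lv τ i)| ≤ g (l9Lv τ i0) * 2 ^ ((Finset.range n \ A).erase i0).card := by
      rw [← Finset.mul_prod_erase _ _ hi0, abs_mul, Finset.abs_prod]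
      refine mul_le_mul (hphi0 _ (hlv i0 hi0n')) ?_ (Finset.prod_nonneg fun _ _ => abs_nonneg _) (hg _)
      calc _ ≤ ∏ _i ∈ (Finset.range n \ A).erase i0, (2 : ℝ) := Finset.prod_le_prod (fun _ _ => abs_nonneg _) fun i hi => by
            obtain ⟨h2, h3⟩ := Finset.mem_erase.1 hi
            obtain ⟨h4, h5⟩ := Finset.mem_sdiff.1 h3
            exact hphi i (Finset.mem_range.1 h4) h5 h2 _ (hlv i (Finset.mem_range.1 h4))
        _ = _ := by simp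
    rw [abs_mul, abs_mul, abs_mul]
    have e : (2 : ℝ) ^ n = 2 ^ ((Finset.range n \ A).erase i0).card * (2 * 2 ^ A.card) := by
      conv_lhs => rw [← hcard]
      rw [pow_add, pow_add, pow_one]; ring
    calc |l9aWt Q.ms Q.N 1 (2 * n) τ| * |G τ| * |∏ i ∈ Finset.range n \ A, phi i (l9Lv τ i)| * |Q.nuA true (2 * n) A τ - Q.nuA false (2 * n) A τ|
        ≤ |l9aWt Q.ms Q.N 1 (2 * n) τ| * CG * (g (l9Lv τ i0) * 2 ^ ((Finset.range n \ A).erase i0).card) * (2 * 2 ^ A.card) := by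
          have := hG τ hτ
          have := hg (l9Lv τ i0)
          gcongr
      _ = _ := by rw [e]; unfold l9Lv; ring
  unfold L9Q.HiT
  refine (Finset.abs_sum_le_sum_abs _ _).trans ((Finset.sum_le_sum hone).trans ?_)
  rw [← Finset.mul_sum]
  refine mul_le_mul_of_nonneg_left ?_ (by positivity)
  have hsub : Q.HiTb V2 n ⊆ l9aTab Q.N (2 * n) := fun τ hτ => (Q.hiTb_mem.1 hτ).1
  refine (Finset.sum_le_sum_of_subset_of_nonneg hsub fun τ _ _ => mul_nonneg (abs_nonneg _) (hg _)).trans ?_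
  exact l9a_marg hms (⟨2 * i0, by omega⟩ : Fin (2 * n)) (⟨2 * i0 + 1, by omega⟩ : Fin (2 * n)) g hg

/-- the constant of one term with a factor `ḋ` -/
def l9hiK1 (n : ℕ) : ℝ := l9hiK n + 2 ^ n * l9aC (2 * n) 4

theorem l9hi_K1_nonneg (n : ℕ) : 0 ≤ l9hiK1 n :=
  add_nonneg (l9hi_K_nonneg n) (mul_nonneg (by positivity) (l9a_C_nonneg (2 * n) 4))

open Classical in
/-- **one term with a factor `ḋ`**: `ḋ = clip + excess` at the high cuts; `l9hi_T_le'` for the clipped factor, `l9hi_T_crude` for the excess -/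
theorem l9hi_T1_le (Q : L9Q) {δm : ℝ} (hAdm : Q.Adm δm) {sig gK gb : ℕ → ℝ} {V1 V2 D1 D2 PhiH sg E1 Gm CG B : ℝ} {J0 n : ℕ} (hn : 2 ≤ n) (hnJ : n ≤ J0)
    {R A : Finset ℕ} (hR : R ⊆ Finset.range n) (hA : A ⊆ R) (hAne : A.Nonempty) {i0 : ℕ} (hi0 : i0 ∈ Finset.range n \ R)
    (hS : Q.HiSide V1 V2 D1 D2 PhiH sg E1 Gm CG B) (hNum : Q.HiNum sig V1 V2 D1 D2 PhiH sg E1) (hMul : Q.HiMul V1 gK gb Gm)
    (hCo : Q.HiCoA V1 V2 J0 CG gK gb) (hLS : Q.HiLS V1 sig J0 B) :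
    |Q.HiT V2 n A (Q.G1 n R) (Q.ph1 R i0)| ≤ l9hiK1 n * (CG * Gm) * l9hiW V1 D1 D2 PhiH sg E1 B := by
  obtain ⟨ex, hex0, hexb, hexE⟩ := hNum.dd_hi
  obtain ⟨hi0n, hi0R⟩ := Finset.mem_sdiff.1 hi0
  have hAn : A ⊆ Finset.range n := hA.trans hR
  have hi0A : i0 ∈ Finset.range n \ A := Finset.mem_sdiff.2 ⟨hi0n, fun h => hi0R (hA h)⟩
  have hP0 := hS.Phi0
  set cl : ℕ → ℝ := fun v => if V1 ≤ Q.ms v then max (-PhiH) (min PhiH (Q.dD v)) else Q.dD v with hcl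
  set rs : ℕ → ℝ := fun v => Q.dD v - cl v with hrs
  set gx : ℕ → ℝ := fun v => if v ≤ Q.N then ex v else 0 with hgx
  have hclH : ∀ v, V1 ≤ Q.ms v → |cl v| ≤ PhiH := fun v hv => by
    simp only [hcl, if_pos hv]
    exact abs_le.2 ⟨le_max_left _ _, max_le (by linarith) (min_le_left _ _)⟩
  have hclL : ∀ v, Q.ms v < V1 → cl v = Q.dD v := fun v hv => by simp only [hcl, if_neg (not_le.2 hv)]
  have hrsb : ∀ v, v ≤ Q.N → |rs v| ≤ gx v := fun v hv => by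
    simp only [hrs, hgx, if_pos hv]
    by_cases hm : V1 ≤ Q.ms v
    · have h1 := abs_le.1 (hexb v hv hm)
      have h2 := hex0 v
      simp only [hcl, if_pos hm]
      rw [abs_le]
      rcases le_total (Q.dD v) PhiH with h3 | h3
      · rw [min_eq_right h3]
        rcases le_total (-PhiH) (Q.dD v) with h4 | h4
        · rw [max_eq_right h4]; constructor <;> linarith
        · rw [max_eq_left h4]; constructor <;> linarith [h1.1]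
      · rw [min_eq_left h3, max_eq_right (by linarith)]; constructor <;> linarith [h1.2]
    · rw [hclL v (not_le.1 hm), sub_self, abs_zero]; exact hex0 v
  have hgx0 : ∀ v, 0 ≤ gx v := fun v => by simp only [hgx]; split_ifs; exacts [hex0 v, le_rfl]
  have hgxE : l9htNm Q.ms Q.N gx ≤ D1 ^ 2 := by
    unfold l9htNm
    rw [Finset.sum_range_succ]
    simp only [hgx, if_neg (by omega : ¬ Q.N + 1 ≤ Q.N), mul_zero, add_zero]
    refine le_trans (le_of_eq (Finset.sum_congr rfl fun v hv => ?_)) hexE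
    rw [if_pos (by have := Finset.mem_range.1 hv; omega)]
  have hsplit : Q.ph1 R i0 = Function.update (Q.ph1 R i0) i0 fun v => cl v + rs v := by
    funext i
    by_cases hi : i = i0
    · subst hi
      rw [Function.update_self]
      funext v
      simp only [hrs]
      unfold L9Q.ph1
      rw [if_neg hi0R, if_pos rfl]
      ring
    · rw [Function.update_of_ne hi]
  rw [hsplit, l9hi_T_lin Q V2 n A (Q.G1 n R) (Q.ph1 R i0) hi0A cl rs]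
  have hd : ∀ k, |Q.dD k| ≤ Q.dA k := fun k => by
    unfold L9Q.dD L9Q.dA
    exact le_add_of_nonneg_left (abs_nonneg _)
  have h1 : |Q.HiT V2 n A (Q.G1 n R) (Function.update (Q.ph1 R i0) i0 cl)| ≤ l9hiK n * (CG * Gm) * l9hiW V1 D1 D2 PhiH sg E1 B := by
    refine l9hi_T_le' Q hAdm hn hnJ hAn hAne hS hNum hMul (hCo.g1 n hn hnJ R hR) hLS (fun i _ _ k hk h => ?_) (fun i _ _ k hk h => ?_)
    · by_cases hi : i = i0
      · subst hi; rw [Function.update_self]; exact hclH k h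
      · rw [Function.update_of_ne hi]; exact ((l9hi_ph_le Q hNum R i0 i k hk).1 h).2 hi
    · by_cases hi : i = i0
      · subst hi; rw [Function.update_self, hclL k h]; exact (hd k).trans (hNum.d_lo k hk h)
      · rw [Function.update_of_ne hi]; exact ((l9hi_ph_le Q hNum R i0 i k hk).2 h).2
  have h2 : |Q.HiT V2 n A (Q.G1 n R) (Function.update (Q.ph1 R i0) i0 rs)| ≤ 2 ^ n * CG * (l9aC (2 * n) (Q.ms Q.N) * l9htNm Q.ms Q.N gx) := by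
    refine l9hi_T_crude Q hAdm hNum.pair.pos hNum.pair.bdd hAn hi0A hgx0 hS.CG0 (hCo.g1c n hn hnJ R hR) (fun i _ _ hi k hk => ?_) (fun k hk => ?_)
    · rw [Function.update_of_ne hi]
      rcases le_or_gt V1 (Q.ms k) with h | h
      · exact (((l9hi_ph_le Q hNum R i0 i k hk).1 h).2 hi).trans hS.Phi1
      · exact (((l9hi_ph_le Q hNum R i0 i k hk).2 h).2.trans (hNum.sigsg k h)).trans (by linarith [hS.sg1])
    · rw [Function.update_self]; exact hrsb k hk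
  have ha : Q.ms Q.N = Q.p.a := Q.ms_top le_rfl
  have hC4 : l9aC (2 * n) (Q.ms Q.N) ≤ l9aC (2 * n) 4 := l9hi_aC_mono _ (by rw [ha]; exact hS.a_le)
  have hGm1 : 1 ≤ Gm := by linarith [hS.Gm1, hAdm.a_pos]
  have hW : D1 ^ 2 ≤ l9hiW V1 D1 D2 PhiH sg E1 B := by
    have := hS.V0; have := hS.sg0; have := hS.E0; have := hS.D1_0; have := hS.D2_0; have := hS.B0
    have e1 : 0 ≤ PhiH * B := by positivity
    have e2 : 0 ≤ D1 * PhiH := by positivity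
    have e3 : 0 ≤ D2 * ((V1 + sg) * E1) := by positivity
    unfold l9hiW; linarith
  have hN0 : 0 ≤ l9htNm Q.ms Q.N gx := l9ht_nm_nonneg (Q.isMs hAdm) hgx0
  have hC0 := l9a_C_nonneg (2 * n) (Q.ms Q.N)
  have hCG0 := hS.CG0
  have h3 : 2 ^ n * CG * (l9aC (2 * n) (Q.ms Q.N) * l9htNm Q.ms Q.N gx) ≤ 2 ^ n * l9aC (2 * n) 4 * (CG * Gm) * l9hiW V1 D1 D2 PhiH sg E1 B := by
    calc 2 ^ n * CG * (l9aC (2 * n) (Q.ms Q.N) * l9htNm Q.ms Q.N gx) ≤ 2 ^ n * (CG * Gm) * (l9aC (2 * n) 4 * l9hiW V1 D1 D2 PhiH sg E1 B) := by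
          have e1 : CG ≤ CG * Gm := by nlinarith
          have e2 := hgxE.trans hW
          have e3 := l9a_C_nonneg (2 * n) 4
          gcongr
      _ = _ := by ring
  refine (abs_add_le _ _).trans ((add_le_add h1 (h2.trans h3)).trans (le_of_eq ?_))
  unfold l9hiK1
  ring

open Classical in
/-- **one monomial of (E1) on the H region** -/
theorem l9hi_mon_le (Q : L9Q) {δm : ℝ} (hAdm : Q.Adm δm) (hD : Q.HiDif) {sig gK gb : ℕ → ℝ} {V1 V2 D1 D2 PhiH sg E1 Gm CG B : ℝ} {J0 n : ℕ} (hn : 2 ≤ n)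
    (hnJ : n ≤ J0) {R : Finset ℕ} (hR : R ⊆ Finset.range n) (hS : Q.HiSide V1 V2 D1 D2 PhiH sg E1 Gm CG B)
    (hNum : Q.HiNum sig V1 V2 D1 D2 PhiH sg E1) (hMul : Q.HiMul V1 gK gb Gm) (hCo : Q.HiCoA V1 V2 J0 CG gK gb) (hLS : Q.HiLS V1 sig J0 B) :
    |(Q.X true).mon n R (fun τ => if l9RgHi V2 n (Q.vm τ) then Q.co n R τ else 0)
        - (Q.X false).mon n R (fun τ => if l9RgHi V2 n (Q.vm τ) then Q.co n R τ else 0)|
      ≤ 2 ^ n * (1 + n) * (l9hiK1 n * (CG * Gm) * l9hiW V1 D1 D2 PhiH sg E1 B) := by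
  rw [l9hi_mon_eq Q hAdm hD V2 (by omega) hR]
  set U := l9hiK1 n * (CG * Gm) * l9hiW V1 D1 D2 PhiH sg E1 B with hU
  have hW : 0 ≤ l9hiW V1 D1 D2 PhiH sg E1 B := by
    have := hS.V0; have := hS.sg0; have := hS.E0; have := hS.D1_0; have := hS.D2_0; have := hS.Phi0; have := hS.B0
    unfold l9hiW; positivity
  have hG : 0 ≤ Gm := by linarith [hS.Gm1, hAdm.a_pos]
  have hCGW : 0 ≤ CG * Gm * l9hiW V1 D1 D2 PhiH sg E1 B := mul_nonneg (mul_nonneg hS.CG0 hG) hW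
  have hU0 : 0 ≤ U := by
    have := l9hi_K1_nonneg n; have := hS.CG0
    rw [hU]; positivity
  have hKU : l9hiK n * (CG * Gm) * l9hiW V1 D1 D2 PhiH sg E1 B ≤ U := by
    have h1 : l9hiK n ≤ l9hiK1 n := le_add_of_nonneg_right (mul_nonneg (by positivity) (l9a_C_nonneg (2 * n) 4))
    calc l9hiK n * (CG * Gm) * l9hiW V1 D1 D2 PhiH sg E1 B = l9hiK n * (CG * Gm * l9hiW V1 D1 D2 PhiH sg E1 B) := by ring
      _ ≤ l9hiK1 n * (CG * Gm * l9hiW V1 D1 D2 PhiH sg E1 B) := mul_le_mul_of_nonneg_right h1 hCGW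
      _ = U := by rw [hU]; ring
  have hT0 : ∀ A ∈ R.powerset.filter (fun A => A.Nonempty), |Q.HiT V2 n A (Q.G0 n R) (Q.ph0 R)| ≤ U := by
    intro A hA
    obtain ⟨h1, h2⟩ := Finset.mem_filter.1 hA
    exact (l9hi_T_le' Q hAdm hn hnJ ((Finset.mem_powerset.1 h1).trans hR) h2 hS hNum hMul (hCo.g0 n hn hnJ R hR) hLS
      (fun i _ _ k hk h => ((l9hi_ph_le Q hNum R 0 i k hk).1 h).1) (fun i _ _ k hk h => ((l9hi_ph_le Q hNum R 0 i k hk).2 h).1)).trans hKU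
  have hT1 : ∀ A ∈ R.powerset.filter (fun A => A.Nonempty), ∀ i0 ∈ Finset.range n \ R, |Q.HiT V2 n A (Q.G1 n R) (Q.ph1 R i0)| ≤ U := by
    intro A hA i0 hi0
    obtain ⟨h1, h2⟩ := Finset.mem_filter.1 hA
    exact l9hi_T1_le Q hAdm hn hnJ hR (Finset.mem_powerset.1 h1) h2 hi0 hS hNum hMul hCo hLS
  have hc : |((2 : ℝ) ^ n * (n ! : ℝ))⁻¹| ≤ 1 := by
    rw [abs_of_nonneg (by positivity)]
    refine inv_le_one_of_one_le₀ ?_
    have h1 : (1 : ℝ) ≤ 2 ^ n := one_le_pow₀ (by norm_num)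
    have h2 : (1 : ℝ) ≤ (n ! : ℝ) := by exact_mod_cast Nat.factorial_pos n
    nlinarith
  have hsum : |∑ A ∈ R.powerset.filter (fun A => A.Nonempty),
      (Q.HiT V2 n A (Q.G0 n R) (Q.ph0 R) + ∑ i0 ∈ Finset.range n \ R, Q.HiT V2 n A (Q.G1 n R) (Q.ph1 R i0))| ≤ 2 ^ n * (1 + n) * U := by
    have hone : ∀ A ∈ R.powerset.filter (fun A => A.Nonempty),
        |Q.HiT V2 n A (Q.G0 n R) (Q.ph0 R) + ∑ i0 ∈ Finset.range n \ R, Q.HiT V2 n A (Q.G1 n R) (Q.ph1 R i0)| ≤ (1 + n) * U := by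
      intro A hA
      have h3 : |∑ i0 ∈ Finset.range n \ R, Q.HiT V2 n A (Q.G1 n R) (Q.ph1 R i0)| ≤ n * U := by
        refine (Finset.abs_sum_le_sum_abs _ _).trans ((Finset.sum_le_sum fun i0 hi0 => hT1 A hA i0 hi0).trans ?_)
        rw [Finset.sum_const, nsmul_eq_mul]
        refine mul_le_mul_of_nonneg_right ?_ hU0
        have : (Finset.range n \ R).card ≤ n := (Finset.card_le_card Finset.sdiff_subset).trans (by simp)
        exact_mod_cast this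
      have := abs_add_le (Q.HiT V2 n A (Q.G0 n R) (Q.ph0 R)) (∑ i0 ∈ Finset.range n \ R, Q.HiT V2 n A (Q.G1 n R) (Q.ph1 R i0))
      have := hT0 A hA
      linarith
    refine (Finset.abs_sum_le_sum_abs _ _).trans ((Finset.sum_le_sum hone).trans ?_)
    rw [Finset.sum_const, nsmul_eq_mul, mul_assoc]
    refine mul_le_mul_of_nonneg_right ?_ (by positivity)
    have h4 : (R.powerset.filter (fun A => A.Nonempty)).card ≤ 2 ^ n := by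
      refine (Finset.card_filter_le _ _).trans ?_
      rw [Finset.card_powerset]
      exact Nat.pow_le_pow_right (by norm_num) ((Finset.card_le_card hR).trans (by simp))
    exact_mod_cast h4
  rw [abs_mul]
  calc _ ≤ 1 * (2 ^ n * (1 + n) * U) := mul_le_mul hc hsum (abs_nonneg _) zero_le_one
    _ = _ := one_mul _

/-! ## 6. the square counterterm, the point -/

/-- second moment of `δ + f` under a positive law on two labels -/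
theorem l9hi_sq_pair {S : Type} [Fintype S] [Inhabited S] {X : JtCtx S} (hX : L9rPos X) {τ : JtTopo} (hτ : IsTr X.N 2 τ) (δ : (ℕ → S) → ℝ)
    (f : ℝ) {D : ℝ} (hD : 0 ≤ D) (h2 : X.nu 2 τ (fun σ => δ σ ^ 2) ≤ D ^ 2) :
    ∃ m1 m2 : ℝ, X.nu 2 τ (fun σ => (δ σ + f) ^ 2) = m2 + 2 * f * m1 + f ^ 2 ∧ 0 ≤ m2 ∧ m2 ≤ D ^ 2 ∧ |m1| ≤ D := by
  obtain ⟨w, hw0, hw1, hrep⟩ := hX.rep 2 τ hτ
  rw [hrep] at h2
  refine ⟨∑ σ, w σ * δ (trExt σ), ∑ σ, w σ * δ (trExt σ) ^ 2, ?_, ?_, h2, ?_⟩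
  · rw [hrep]
    have e1 : ∀ σ, w σ * (δ (trExt σ) + f) ^ 2 = w σ * δ (trExt σ) ^ 2 + 2 * f * (w σ * δ (trExt σ)) + f ^ 2 * w σ := fun σ => by ring
    simp only [e1]
    rw [Finset.sum_add_distrib, Finset.sum_add_distrib, ← Finset.mul_sum, ← Finset.mul_sum, hw1, mul_one]
  · exact Finset.sum_nonneg fun σ _ => mul_nonneg (hw0 σ) (sq_nonneg _)
  · obtain ⟨m, hm⟩ : ∃ m : ℝ, m = ∑ σ, w σ * δ (trExt σ) := ⟨_, rfl⟩
    rw [← hm]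
    have h3 : 0 ≤ ∑ σ, w σ * (δ (trExt σ) - m) ^ 2 := Finset.sum_nonneg fun σ _ => mul_nonneg (hw0 σ) (sq_nonneg _)
    have e1 : ∀ σ, w σ * (δ (trExt σ) - m) ^ 2 = w σ * δ (trExt σ) ^ 2 - 2 * m * (w σ * δ (trExt σ)) + m ^ 2 * w σ := fun σ => by ring
    simp only [e1] at h3
    rw [Finset.sum_add_distrib, Finset.sum_sub_distrib, ← Finset.mul_sum, ← Finset.mul_sum, hw1, mul_one, ← hm] at h3
    exact abs_le_of_sq_le_sq (by nlinarith) hD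

/-- the pair `(0, 1)` of a tree on two labels -/
theorem l9hi_sq_ag {N : ℕ} {τ : JtTopo} (hτ : IsTr N 2 τ) : L9aAg 2 τ (l9rT2 N (τ 0 1)) := by
  intro y z hy hz
  unfold l9rT2
  have hy' : y = 0 ∨ y = 1 := by omega
  have hz' : z = 0 ∨ z = 1 := by omega
  rcases hy' with rfl | rfl <;> rcases hz' with rfl | rfl
  · simpa using hτ.diag 0 (by omega)
  · simp
  · simpa using hτ.symm 1 0 (by omega) (by omega)
  · simpa using hτ.diag 1 (by omega)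

/-- the difference of the second moments of `Δ` at one pair of mass `≥ V2` -/
theorem l9hi_sq_pt (Q : L9Q) {sig : ℕ → ℝ} {V1 V2 D1 D2 PhiH sg E1 : ℝ} (hNum : Q.HiNum sig V1 V2 D1 D2 PhiH sg E1) (hV : V1 ≤ V2) (hD2 : 0 ≤ D2)
    {τ : JtTopo} (hτ : IsTr Q.N 2 τ) (ht : τ 0 1 ≤ Q.N) (hv : V2 ≤ Q.ms (τ 0 1)) :
    |((Q.X true).nu 2 τ fun σ => (Q.X true).Dl τ σ 0 1 ^ 2) - ((Q.X false).nu 2 τ fun σ => (Q.X false).Dl τ σ 0 1 ^ 2)| ≤ D2 ^ 2 + 4 * PhiH * D2 := by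
  have hf := hNum.f_hi (τ 0 1) ht (hV.trans hv)
  have key : ∀ en : Bool, ∃ m1 m2 : ℝ, ((Q.X en).nu 2 τ fun σ => (Q.X en).Dl τ σ 0 1 ^ 2) = m2 + 2 * Q.ff (τ 0 1) * m1 + Q.ff (τ 0 1) ^ 2 ∧
      0 ≤ m2 ∧ m2 ≤ D2 ^ 2 ∧ |m1| ≤ D2 := by
    intro en
    have h2 := hNum.pair.st2 en (τ 0 1) ht hv
    unfold l9htPm at h2
    rw [← (hNum.pair.pos en).congr 2 τ (l9rT2 Q.N (τ 0 1)) _ (l9hi_sq_ag hτ)] at h2
    have h3 := l9hi_sq_pair (hNum.pair.pos en) hτ (fun σ => l9htDl Q.X Q.Sf en (τ 0 1) (σ 0) (σ 1)) (Q.ff (τ 0 1)) hD2 h2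
    have e : (fun σ : ℕ → SkCfg Q.I.m => (Q.X en).Dl τ σ 0 1 ^ 2) = fun σ => (l9htDl Q.X Q.Sf en (τ 0 1) (σ 0) (σ 1) + Q.ff (τ 0 1)) ^ 2 := by
      funext σ
      congr 1
      unfold JtCtx.Dl JtCtx.Qs l9htDl L9Q.ff
      show _ - (Q.X false).qC (τ 0 1) = _
      ring
    rw [e]
    exact h3
  obtain ⟨a1, a2, ha, ha0, ha2, ha1⟩ := key true
  obtain ⟨b1, b2, hb, hb0, hb2, hb1⟩ := key false
  rw [ha, hb]
  have e : a2 + 2 * Q.ff (τ 0 1) * a1 + Q.ff (τ 0 1) ^ 2 - (b2 + 2 * Q.ff (τ 0 1) * b1 + Q.ff (τ 0 1) ^ 2) = (a2 - b2) + 2 * (Q.ff (τ 0 1) * (a1 - b1)) := by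
    ring
  rw [e]
  have h1 : |a2 - b2| ≤ D2 ^ 2 := abs_le.2 ⟨by linarith, by linarith⟩
  have h2 : |a1 - b1| ≤ 2 * D2 := (abs_sub _ _).trans (by linarith)
  have h3 : |Q.ff (τ 0 1) * (a1 - b1)| ≤ PhiH * (2 * D2) := by
    rw [abs_mul]
    exact mul_le_mul hf h2 (abs_nonneg _) ((abs_nonneg _).trans hf)
  have h4 : |2 * (Q.ff (τ 0 1) * (a1 - b1))| = 2 * |Q.ff (τ 0 1) * (a1 - b1)| := by rw [abs_mul, abs_of_pos (by norm_num : (0:ℝ) < 2)]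
  refine (abs_add_le _ _).trans ?_
  rw [h4]
  linarith

open Classical in
/-- **the square counterterm on the H region** ("Count the square term as two base factors on the same pair").
PLAN.   `JtCtx.sq`, `(Q.law hAdm en).sumK`, `l9a_flat 1` (`τ1 = tau1` is `IsTr N 1`: `l9e_isTr_one`; locality of the summand: `L9rPos.congr`): `sq c = 4⁻¹ ∑_{τ ∈ l9aTab N 2} wt τ * (off 0 1 τ * c τ * ν_τ[Δ₀₁²])`, the same `wt, off, c` in both ensembles.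
On the support: `t := τ 0 1 ≤ N`, `V2 ≤ ms t`.      `Δ = δ + f`: `ν[Δ²] = ν[δ²] + 2 f ν[δ] + f²` (linearity), PRUNE is not needed on 2 labels up to `L9rPos.congr` with `l9rT2 N t`: `ν[δ²] = l9htPm Q.X N Sf en t (·^2) ∈ [0, D2²]` (`hNum.pair.st2`),
`|ν[δ]| ≤ D2` (Cauchy-Schwarz: `l9r_nu_holder` / `l8d_lyap`-type, or `(ν[δ])² ≤ ν[δ²]` from `ν[(δ - c)²] ≥ 0`), `|f t| ≤ PhiH` (`hNum.f_hi`, `V1 ≤ V2`).      So `|ν¹[Δ²] - ν⁰[Δ²]| ≤ 2 D2² + 4 PhiH D2`.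
`|coq τ| ≤ CG (1 + gb t)` (`hCo.sq`; `unfold L9Q.coq l9O`, `Nat.cast_ofNat`).      `∑_τ |wt τ| (1 + gb (τ 0 1)) ≤ l9aC 2 a (‖1‖ + ‖gb‖) ≤ l9aC 2 4 * (2 Gm)` (`l9a_marg`, `l9ht_nm_one`, `l9hi_aC_mono`, `hS.Gm1`, `hMul.b_int`). -/
theorem l9hi_sq_le (Q : L9Q) {δm : ℝ} (hAdm : Q.Adm δm) {sig gK gb : ℕ → ℝ} {V1 V2 D1 D2 PhiH sg E1 Gm CG B : ℝ} {J0 : ℕ}
    (hS : Q.HiSide V1 V2 D1 D2 PhiH sg E1 Gm CG B) (hNum : Q.HiNum sig V1 V2 D1 D2 PhiH sg E1) (hMul : Q.HiMul V1 gK gb Gm)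
    (hCo : Q.HiCoA V1 V2 J0 CG gK gb) :
    |(Q.X true).sq (fun τ => if l9RgHi V2 2 (fun _ => Q.vm τ 0) then Q.coq τ else 0)
        - (Q.X false).sq (fun τ => if l9RgHi V2 2 (fun _ => Q.vm τ 0) then Q.coq τ else 0)|
      ≤ 2 * l9aC 2 4 * (CG * Gm) * (D2 ^ 2 + PhiH * D2) := by
  have hms := Q.isMs hAdm
  have ha0 : 0 < Q.p.a := hAdm.a_pos
  have haN : Q.ms Q.N = Q.p.a := Q.ms_top le_rfl
  have hflat : ∀ en : Bool, (Q.X en).sq (fun τ => if l9RgHi V2 2 (fun _ => Q.vm τ 0) then Q.coq τ else 0) =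
      4⁻¹ * ∑ τ ∈ l9aTab Q.N (1 + 1), l9aWt Q.ms Q.N 1 (1 + 1) τ * ((Q.X false).off 0 1 τ *
        (if l9RgHi V2 2 (fun _ => Q.vm τ 0) then Q.coq τ else 0) * ((Q.X en).nu 2 τ fun σ => (Q.X en).Dl τ σ 0 1 ^ 2)) := by
    intro en
    have hloc : ∀ τ₁ τ₂ : JtTopo, L9aAg (1 + 1) τ₁ τ₂ →
        (Q.X false).off 0 1 τ₁ * (if l9RgHi V2 2 (fun _ => Q.vm τ₁ 0) then Q.coq τ₁ else 0) * ((Q.X en).nu 2 τ₁ fun σ => (Q.X en).Dl τ₁ σ 0 1 ^ 2)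
          = (Q.X false).off 0 1 τ₂ * (if l9RgHi V2 2 (fun _ => Q.vm τ₂ 0) then Q.coq τ₂ else 0) * ((Q.X en).nu 2 τ₂ fun σ => (Q.X en).Dl τ₂ σ 0 1 ^ 2) := by
      intro τ₁ τ₂ h
      have e01 : τ₁ 0 1 = τ₂ 0 1 := h 0 1 (by omega) (by omega)
      have e1 : (Q.X false).off 0 1 τ₁ = (Q.X false).off 0 1 τ₂ := l9c_off_ag _ (n := 1) h
      have e2 : Q.vm τ₁ 0 = Q.vm τ₂ 0 := l9c_vm_ag Q (n := 1) h (by omega)
      have e3 : Q.coq τ₁ = Q.coq τ₂ := by unfold L9Q.coq; rw [e01]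
      have e4 : (fun σ : ℕ → SkCfg Q.I.m => (Q.X en).Dl τ₁ σ 0 1 ^ 2) = fun σ => (Q.X en).Dl τ₂ σ 0 1 ^ 2 := by
        funext σ
        unfold JtCtx.Dl JtCtx.Qs
        rw [e01]
      have hr : (l9RgHi V2 2 fun _ => Q.vm τ₁ 0) ↔ (l9RgHi V2 2 fun _ => Q.vm τ₂ 0) := by rw [e2]
      rw [e1, e3, e4, l9c_nuQ_ag Q en (q := 2) h]
      simp only [hr]
    rw [← l9a_flat (N := Q.N) (ms := Q.ms) 1 (l9c_tau1_isTr Q.N) _ hloc]
    rfl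
  rw [hflat true, hflat false, ← mul_sub, ← Finset.sum_sub_distrib, abs_mul, abs_of_pos (by norm_num : (0 : ℝ) < 4⁻¹)]
  obtain ⟨U, hU⟩ : ∃ U : ℝ, U = D2 ^ 2 + 4 * PhiH * D2 := ⟨_, rfl⟩
  have hU0 : 0 ≤ U := by
    have := hS.D2_0; have := hS.Phi0
    rw [hU]; positivity
  have hpt : ∀ τ ∈ l9aTab Q.N (1 + 1),
      |l9aWt Q.ms Q.N 1 (1 + 1) τ * ((Q.X false).off 0 1 τ * (if l9RgHi V2 2 (fun _ => Q.vm τ 0) then Q.coq τ else 0) *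
          ((Q.X true).nu 2 τ fun σ => (Q.X true).Dl τ σ 0 1 ^ 2))
        - l9aWt Q.ms Q.N 1 (1 + 1) τ * ((Q.X false).off 0 1 τ * (if l9RgHi V2 2 (fun _ => Q.vm τ 0) then Q.coq τ else 0) *
          ((Q.X false).nu 2 τ fun σ => (Q.X false).Dl τ σ 0 1 ^ 2))|
      ≤ CG * U * (|l9aWt Q.ms Q.N 1 (1 + 1) τ| * (1 + gb (τ 0 1))) := by
    intro τ hτ
    have hT : IsTr Q.N 2 τ := (l9a_mem_tab.1 hτ).1
    have hrhs : 0 ≤ CG * U * (|l9aWt Q.ms Q.N 1 (1 + 1) τ| * (1 + gb (τ 0 1))) := by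
      have := hS.CG0; have := hMul.b_nn (τ 0 1)
      positivity
    have hoff : (Q.X false).off 0 1 τ = if τ 0 1 ≤ Q.N then 1 else 0 := by
      unfold JtCtx.off
      simp only [Finset.range_one, Finset.prod_singleton, jtC, jtD]
      rfl
    rw [hoff]
    by_cases ht : τ 0 1 ≤ Q.N
    · by_cases hr : l9RgHi V2 2 (fun _ => Q.vm τ 0)
      · rw [if_pos ht, if_pos hr, one_mul, ← mul_sub, ← mul_sub, abs_mul, abs_mul]
        obtain ⟨i, _, hv⟩ := hr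
        have h1 := l9hi_sq_pt Q hNum hS.V12 hS.D2_0 hT ht hv
        rw [← hU] at h1
        have h2 : |Q.coq τ| ≤ CG * (1 + gb (τ 0 1)) := by
          have := hCo.sq (τ 0 1) ht
          unfold L9Q.coq l9O
          rw [Nat.cast_ofNat]
          exact this
        have h3 := mul_le_mul h2 h1 (abs_nonneg _) ((abs_nonneg _).trans h2)
        have h4 := mul_le_mul_of_nonneg_left h3 (abs_nonneg (l9aWt Q.ms Q.N 1 (1 + 1) τ))
        refine h4.trans (le_of_eq ?_)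
        ring
      · rw [if_neg hr]
        simpa using hrhs
    · rw [if_neg ht]
      simpa using hrhs
  have hmarg : ∑ τ ∈ l9aTab Q.N (1 + 1), |l9aWt Q.ms Q.N 1 (1 + 1) τ| * (1 + gb (τ 0 1)) ≤ l9aC 2 4 * (2 * Gm) := by
    have h1 := l9a_marg hms (r := 1 + 1) (0 : Fin 2) (1 : Fin 2) (fun k => 1 + gb k) (fun k => by have := hMul.b_nn k; positivity)
    have h2 : ∑ k ∈ Finset.range (Q.N + 2), l9aMw Q.ms Q.N k * (1 + gb k) = l9htNm Q.ms Q.N (fun _ => 1) + l9htNm Q.ms Q.N gb := by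
      unfold l9htNm
      rw [← Finset.sum_add_distrib]
      exact Finset.sum_congr rfl fun k _ => by ring
    rw [h2, l9ht_nm_one, haN] at h1
    refine le_trans h1 ?_
    have h3 : l9aC (1 + 1) Q.p.a ≤ l9aC 2 4 := l9hi_aC_mono 2 hS.a_le
    have h4 : Q.p.a + 1 + l9htNm Q.ms Q.N gb ≤ 2 * Gm := by linarith [hS.Gm1, hMul.b_int]
    exact mul_le_mul h3 h4 (by have := l9ht_nm_nonneg hms hMul.b_nn; linarith) (l9a_C_nonneg 2 4)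
  have hsum := (Finset.abs_sum_le_sum_abs _ _).trans (Finset.sum_le_sum hpt)
  rw [← Finset.mul_sum] at hsum
  have hCU : 0 ≤ CG * U := mul_nonneg hS.CG0 hU0
  have h5 := hsum.trans (mul_le_mul_of_nonneg_left hmarg hCU)
  have h6 := mul_le_mul_of_nonneg_left h5 (by norm_num : (0 : ℝ) ≤ 4⁻¹)
  refine h6.trans ?_
  have hC := l9a_C_nonneg 2 4
  have hGm0 : 0 ≤ Gm := by linarith [hS.Gm1]
  have hX : 0 ≤ l9aC 2 4 * (CG * Gm) := mul_nonneg hC (mul_nonneg hS.CG0 hGm0)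
  have e1 : 4⁻¹ * (CG * U * (l9aC 2 4 * (2 * Gm))) = l9aC 2 4 * (CG * Gm) * (U / 2) := by ring
  have e2 : 2 * l9aC 2 4 * (CG * Gm) * (D2 ^ 2 + PhiH * D2) = l9aC 2 4 * (CG * Gm) * (2 * (D2 ^ 2 + PhiH * D2)) := by ring
  rw [e1, e2]
  refine mul_le_mul_of_nonneg_left ?_ hX
  rw [hU]
  have := hS.D2_0
  nlinarith [sq_nonneg D2]

/-- the constant of the point bound -/
def l9hiKK (J0 : ℕ) : ℝ := ∑ n ∈ Finset.Icc 2 J0, 2 ^ n * (2 ^ n * (1 + n) * l9hiK1 n) + 2 * l9aC 2 4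

theorem l9hi_KK_nonneg (J0 : ℕ) : 0 ≤ l9hiKK J0 := by
  unfold l9hiKK
  have h1 : 0 ≤ ∑ n ∈ Finset.Icc 2 J0, (2 : ℝ) ^ n * (2 ^ n * (1 + n) * l9hiK1 n) :=
    Finset.sum_nonneg fun n _ => by have := l9hi_K1_nonneg n; positivity
  exact add_nonneg h1 (mul_nonneg (by norm_num) (l9a_C_nonneg 2 4))

/-- **NODE HI AT ONE POINT** -/
theorem l9hi_point (Q : L9Q) {δm : ℝ} (hAdm : Q.Adm δm) (hD : Q.HiDif) {sig gK gb : ℕ → ℝ} {V1 V2 D1 D2 PhiH sg E1 Gm CG B : ℝ} {J0 : ℕ}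
    (hS : Q.HiSide V1 V2 D1 D2 PhiH sg E1 Gm CG B) (hNum : Q.HiNum sig V1 V2 D1 D2 PhiH sg E1) (hMul : Q.HiMul V1 gK gb Gm)
    (hCo : Q.HiCoA V1 V2 J0 CG gK gb) (hLS : Q.HiLS V1 sig J0 B) :
    |Q.DOEg (l9RgHi V2) J0| ≤ l9hiKK J0 * (CG * Gm) * l9hiW V1 D1 D2 PhiH sg E1 B := by
  classical
  set W := l9hiW V1 D1 D2 PhiH sg E1 B with hW
  have hG : 0 ≤ Gm := by linarith [hS.Gm1, hAdm.a_pos]
  have hCGm : 0 ≤ CG * Gm := mul_nonneg hS.CG0 hG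
  have hW0 : D2 ^ 2 + PhiH * D2 ≤ W := by
    have := hS.V0; have := hS.sg0; have := hS.E0; have h1 := hS.D1_0; have h2 := hS.D2_0; have h3 := hS.Phi0; have := hS.B0; have h4 := hS.D21
    have e1 : D2 ^ 2 ≤ D1 ^ 2 := pow_le_pow_left₀ h2 h4 2
    have e2 : PhiH * D2 ≤ D1 * PhiH := by nlinarith
    have e3 : 0 ≤ PhiH * B := by positivity
    have e4 : 0 ≤ D2 * ((V1 + sg) * E1) := by positivity
    rw [hW]; unfold l9hiW; linarith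
  have hsq := l9hi_sq_le Q hAdm hS hNum hMul hCo
  have hsq' : |(Q.X true).sq (fun τ => if l9RgHi V2 2 (fun _ => Q.vm τ 0) then Q.coq τ else 0)
        - (Q.X false).sq (fun τ => if l9RgHi V2 2 (fun _ => Q.vm τ 0) then Q.coq τ else 0)| ≤ 2 * l9aC 2 4 * (CG * Gm) * W :=
    hsq.trans (mul_le_mul_of_nonneg_left hW0 (mul_nonneg (mul_nonneg (by norm_num) (l9a_C_nonneg 2 4)) hCGm))
  have hmon : |∑ n ∈ Finset.Icc 2 J0, ∑ R ∈ (Finset.range n).powerset,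
      ((Q.X true).mon n R (fun τ => if l9RgHi V2 n (Q.vm τ) then Q.co n R τ else 0)
        - (Q.X false).mon n R (fun τ => if l9RgHi V2 n (Q.vm τ) then Q.co n R τ else 0))|
      ≤ ∑ n ∈ Finset.Icc 2 J0, 2 ^ n * (2 ^ n * (1 + n) * (l9hiK1 n * (CG * Gm) * W)) := by
    refine (Finset.abs_sum_le_sum_abs _ _).trans (Finset.sum_le_sum fun n hn => ?_)
    obtain ⟨h2, hJ⟩ := Finset.mem_Icc.1 hn
    refine (Finset.abs_sum_le_sum_abs _ _).trans ((Finset.sum_le_sum fun R hR =>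
      l9hi_mon_le Q hAdm hD h2 hJ (Finset.mem_powerset.1 hR) hS hNum hMul hCo hLS).trans (le_of_eq ?_))
    rw [Finset.sum_const, Finset.card_powerset, Finset.card_range, nsmul_eq_mul]
    push_cast
    rfl
  have e : Q.DOEg (l9RgHi V2) J0 = (∑ n ∈ Finset.Icc 2 J0, ∑ R ∈ (Finset.range n).powerset,
      ((Q.X true).mon n R (fun τ => if l9RgHi V2 n (Q.vm τ) then Q.co n R τ else 0)
        - (Q.X false).mon n R (fun τ => if l9RgHi V2 n (Q.vm τ) then Q.co n R τ else 0)))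
      - ((Q.X true).sq (fun τ => if l9RgHi V2 2 (fun _ => Q.vm τ 0) then Q.coq τ else 0)
        - (Q.X false).sq (fun τ => if l9RgHi V2 2 (fun _ => Q.vm τ 0) then Q.coq τ else 0)) := by
    unfold L9Q.DOEg L9Q.OEg
    simp only [Finset.sum_sub_distrib]
    ring
  rw [e]
  refine (abs_sub _ _).trans ((add_le_add hmon hsq').trans (le_of_eq ?_))
  unfold l9hiKK
  rw [add_mul, add_mul, Finset.sum_mul, Finset.sum_mul]
  congr 1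
  exact Finset.sum_congr rfl fun n _ => by ring

end

theorem l9hi_eqns_cite : True := by
  have := @l9Lv.eq_1; have := @L9Q.Sf.eq_1; have := @L9Q.ff.eq_1; have := @L9Q.bV.eq_1; have := @L9Q.bD.eq_1; have := @L9Q.dV.eq_1
  have := @L9Q.dD.eq_1; have := @L9Q.KD.eq_1; have := @L9Q.kap.eq_1; have := @L9Q.wK.eq_1; have := @L9Q.kapD.eq_1; have := @L9Q.G0.eq_1
  have := @L9Q.G1.eq_1; have := @L9Q.ph0.eq_1; have := @L9Q.ph1.eq_1; have := @L9Q.HiTb.eq_1; have := @L9Q.nuA.eq_1; have := @L9Q.HiT.eq_1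
  have := @L9hiLS.eq_1; have := @L9Q.HiLS.eq_1; have := @l9hiF.eq_1; have := @l9hiPhi.eq_1; have := @l9hiK.eq_1; have := @l9hiW.eq_1
  have := @l9hiKK.eq_1
  trivial

end Claimed.Agent.R286
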