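import Claimed.Agent.R286.L09.Marg
import Claimed.Agent.R286.Fd.ExtD
import Claimed.Agent.R286.L08.HiCtx

/-!
# Row 286 (S0533), unit L09, file HiLSa : THE ABSOLUTE ALLOCATION MEASURE IS SYMMETRIC (root label included) AND TWO-STAGE      (owner helper280; consumer: the bridge `L09/HiLS.lean` of helper225, (D16) conclusion 2 ⟹ `L9hiLS`; prefix `l9hk_`)

PURE TREES (`Defs/Tr`, `L09/Alloc`): no jet context, no measure.
* `l9hkP r e τ`       : the relabelled table `l9aNm r (τ ∘ e)`;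
* `l9hk_wt_perm`      : `l9aWt ms N 1 r (l9hkP r e τ) = l9aWt ms N 1 r τ` on `l9aTab N r`, for EVERY permutation `e` of the labels `< r`, the root label `0` included.
                        PROOF: the SIGNED per-root allocation is symmetric (`tr_x_root_perm0`, helper16); its flat form (`l9a_flat`, helper276) tested on the indicator of ONE table.   No closed formula of the weight is needed.
* `l9hk_abs_perm`     : `∑_τ |wt τ| F τ = ∑_τ |wt τ| F (l9hkP r e τ)`, ANY `F`;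
* `l9hk_absK_congr`   : `trAbsK` sees the old tree through its labels only;
* `l9hk_two`          : `∑_{τ ∈ l9aTab N (2 + k)} |wt τ| F τ = ∑_{t0 ≤ N + 1} l9hkW ms N t0 * trAbsK ms N k 2 (jtTab2 N t0) F`  (`F` local), `l9hkW = μ_{t0}` (`t0 ≤ N`), `ms N` (coincidence);
* `l9hk_two_perm`     : the two together: ANY pair of distinct labels `(a, b)` may be taken as the first pair.
-/

set_option autoImplicit false

namespace Claimed.Agent.R286

open Finset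

/-- the relabelled table, normalised -/
def l9hkP (r : ℕ) (e : Equiv.Perm ℕ) (τ : ℕ → ℕ → ℕ) : ℕ → ℕ → ℕ := l9aNm r fun y z => τ (e y) (e z)

/-- the weight of the level of the first pair -/
def l9hkW (ms : ℕ → ℝ) (N t : ℕ) : ℝ := if t ≤ N then l9aMu ms t else ms N

theorem l9hk_eqns_cite : True := by
  have := @l9hkP.eq_1
  have := @l9hkW.eq_1
  trivial

section perm
variable {N r : ℕ} {e : Equiv.Perm ℕ}

theorem l9hk_lt (he : ∀ y, r ≤ y → e y = y) {x : ℕ} (hx : x < r) : e x < r := tr5_perm_lt e he hx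

theorem l9hk_symm (he : ∀ y, r ≤ y → e y = y) : ∀ y, r ≤ y → e.symm y = y := tr5_perm_symm e he

theorem l9hk_P_mem (he : ∀ y, r ≤ y → e y = y) {τ : ℕ → ℕ → ℕ} (hτ : τ ∈ l9aTab N r) : l9hkP r e τ ∈ l9aTab N r :=
  l9a_nm_mem_tab (tr_comap_isTr (l9a_mem_tab.mp hτ).1 e fun _ hx => l9hk_lt he hx)

/-- relabelling by `e` then by `e⁻¹` -/
theorem l9hk_P_P (he : ∀ y, r ≤ y → e y = y) {τ : ℕ → ℕ → ℕ} (hτ : l9aNm r τ = τ) : l9hkP r e.symm (l9hkP r e τ) = τ := by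
  have hs := l9hk_symm he
  refine Eq.trans ?_ hτ
  funext y z
  unfold l9hkP l9aNm
  by_cases h : y < r ∧ z < r
  · have h1 := l9hk_lt hs h.1
    have h2 := l9hk_lt hs h.2
    simp [h, h1, h2]
  · simp [h]

theorem l9hk_P_P' (he : ∀ y, r ≤ y → e y = y) {τ : ℕ → ℕ → ℕ} (hτ : l9aNm r τ = τ) : l9hkP r e (l9hkP r e.symm τ) = τ := by
  have := l9hk_P_P (e := e.symm) (l9hk_symm he) hτ
  simpa using this

/-- the relabelled table of a table which is not normalised -/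
theorem l9hk_P_nm (he : ∀ y, r ≤ y → e y = y) (τ : ℕ → ℕ → ℕ) : l9hkP r e (l9aNm r τ) = l9hkP r e τ := by
  funext y z
  unfold l9hkP l9aNm
  by_cases h : y < r ∧ z < r
  · have h1 := l9hk_lt he h.1
    have h2 := l9hk_lt he h.2
    simp [h, h1, h2]
  · simp [h]

/-- **the weight of a table is invariant under every relabelling, the root label included** -/
theorem l9hk_wt_perm (ms : ℕ → ℝ) (hr : 1 ≤ r) (he : ∀ y, r ≤ y → e y = y) {τ : ℕ → ℕ → ℕ} (hτ : τ ∈ l9aTab N r) :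
    l9aWt ms N 1 r (l9hkP r e τ) = l9aWt ms N 1 r τ := by
  classical
  obtain ⟨k, rfl⟩ : ∃ k, r = 1 + k := ⟨r - 1, by omega⟩
  have hs := l9hk_symm he
  have h1 : IsTr N 1 (fun _ _ => N + 1 : ℕ → ℕ → ℕ) :=
    ⟨fun _ _ _ _ => le_rfl, fun _ _ => rfl, fun _ _ _ _ => rfl, fun _ _ _ _ _ _ => by simp⟩
  -- the indicator of the table `τ`
  set Φ : (ℕ → ℕ → ℕ) → ℝ := fun τ' => if l9aNm (1 + k) τ' = τ then 1 else 0 with hΦ
  have hloc : ∀ τ₁ τ₂, L9aAg (1 + k) τ₁ τ₂ → Φ τ₁ = Φ τ₂ := fun τ₁ τ₂ h => by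
    simp only [hΦ, l9a_nm_eq h]
  have hloc' : TrLoc (k + 1) Φ := fun τ₁ τ₂ h => hloc τ₁ τ₂ fun y z hy hz => h y z (by omega) (by omega)
  have hloc2 : ∀ τ₁ τ₂, L9aAg (1 + k) τ₁ τ₂ → (Φ fun y z => τ₁ (e.symm y) (e.symm z)) = Φ fun y z => τ₂ (e.symm y) (e.symm z) :=
    fun τ₁ τ₂ h => hloc _ _ fun y z hy hz => h _ _ (l9hk_lt hs hy) (l9hk_lt hs hz)
  have key := tr_x_root_perm0 (ms := ms) h1 k Φ hloc' e.symm (fun y hy => hs y (by omega))
  rw [l9a_flat k h1 Φ hloc, l9a_flat k h1 _ hloc2] at key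
  -- the right side
  have e1 : ∑ τ' ∈ l9aTab N (1 + k), l9aWt ms N 1 (1 + k) τ' * Φ τ' = l9aWt ms N 1 (1 + k) τ := by
    rw [Finset.sum_eq_single τ]
    · simp [hΦ, (l9a_mem_tab.mp hτ).2]
    · intro τ' h' hne
      simp [hΦ, (l9a_mem_tab.mp h').2, hne]
    · intro h; exact absurd hτ h
  -- the left side
  have e2 : ∑ τ' ∈ l9aTab N (1 + k), l9aWt ms N 1 (1 + k) τ' * (Φ fun y z => τ' (e.symm y) (e.symm z))
      = l9aWt ms N 1 (1 + k) (l9hkP (1 + k) e τ) := by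
    rw [Finset.sum_eq_single (l9hkP (1 + k) e τ)]
    · have : l9aNm (1 + k) (fun y z => l9hkP (1 + k) e τ (e.symm y) (e.symm z)) = τ := l9hk_P_P he (l9a_mem_tab.mp hτ).2
      simp [hΦ, this]
    · intro τ' h' hne
      have : l9aNm (1 + k) (fun y z => τ' (e.symm y) (e.symm z)) ≠ τ := by
        intro hc
        apply hne
        have h2 := l9hk_P_P' he (l9a_mem_tab.mp h').2
        rw [← h2]
        show l9hkP (1 + k) e (l9aNm (1 + k) fun y z => τ' (e.symm y) (e.symm z)) = _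
        rw [hc]
      simp [hΦ, this]
    · intro h; exact absurd (l9hk_P_mem he hτ) h
  rw [e1, e2] at key
  exact key

/-- **the absolute allocation measure is symmetric** -/
theorem l9hk_abs_perm (ms : ℕ → ℝ) (hr : 1 ≤ r) (he : ∀ y, r ≤ y → e y = y) (F : (ℕ → ℕ → ℕ) → ℝ) :
    ∑ τ ∈ l9aTab N r, |l9aWt ms N 1 r τ| * F τ = ∑ τ ∈ l9aTab N r, |l9aWt ms N 1 r τ| * F (l9hkP r e τ) := by
  symm
  refine Finset.sum_bij' (fun τ _ => l9hkP r e τ) (fun τ _ => l9hkP r e.symm τ) (fun τ hτ => l9hk_P_mem he hτ)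
    (fun τ hτ => l9hk_P_mem (l9hk_symm he) hτ) (fun τ hτ => l9hk_P_P he (l9a_mem_tab.mp hτ).2)
    (fun τ hτ => l9hk_P_P' he (l9a_mem_tab.mp hτ).2) (fun τ hτ => ?_)
  rw [l9hk_wt_perm ms hr he hτ]

end perm

/-! ## two stages -/

section two
variable {N : ℕ}

theorem l9hk_root_isTr (N : ℕ) : IsTr N 1 (fun _ _ => N + 1 : ℕ → ℕ → ℕ) :=
  ⟨fun _ _ _ _ => le_rfl, fun _ _ => rfl, fun _ _ _ _ => rfl, fun _ _ _ _ _ _ => by simp⟩

theorem l9hk_tab2_isTr {t : ℕ} (ht : t ≤ N + 1) : IsTr N 2 (jtTab2 N t) := by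
  refine ⟨fun x y _ _ => ?_, fun x _ => ?_, fun x y _ _ => ?_, fun x y z _ _ _ => ?_⟩
  · unfold jtTab2; split_ifs <;> omega
  · simp [jtTab2]
  · unfold jtTab2
    by_cases h : x = y
    · simp [h]
    · simp [h, Ne.symm h]
  · unfold jtTab2
    by_cases h1 : x = y <;> by_cases h2 : y = z <;> by_cases h3 : x = z <;> simp [h1, h2, h3] <;> omega

/-- `trAbsK` sees the old tree through its labels only -/
theorem l9hk_absK_congr {ms : ℕ → ℝ} (k : ℕ) {q : ℕ} (hq : 1 ≤ q) {τ τ' : ℕ → ℕ → ℕ} (hτ : IsTr N q τ) (h : L9aAg q τ τ')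
    (Φ : (ℕ → ℕ → ℕ) → ℝ) (hΦ : ∀ τ₁ τ₂, L9aAg (q + k) τ₁ τ₂ → Φ τ₁ = Φ τ₂) : trAbsK ms N k q τ Φ = trAbsK ms N k q τ' Φ := by
  classical
  rw [l9a_flat_abs_gen k hτ hq Φ hΦ, l9a_flat_abs_gen k (h.isTr hτ) hq Φ hΦ]
  refine Finset.sum_congr ?_ fun _ _ => rfl
  ext σ
  simp only [Finset.mem_filter]
  exact ⟨fun a => ⟨a.1, a.2.trans h⟩, fun a => ⟨a.1, a.2.trans h.symm⟩⟩

/-- the weight of the attachment of the second label -/
theorem l9hk_w2 {ms : ℕ → ℝ} (hms : IsMs N ms) {t : ℕ} (ht : t ≤ N + 1) : |trWt ms N 1 (fun _ _ => N + 1) 0 t| = l9hkW ms N t := by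
  have hmin : trIsMin (fun _ _ => N + 1 : ℕ → ℕ → ℕ) t 0 := fun y hy => absurd hy (Nat.not_lt_zero y)
  unfold trWt l9hkW
  rw [if_pos hmin]
  by_cases h : t = N + 1
  · subst h
    rw [if_pos rfl, if_neg (by omega), abs_of_nonneg (hms.nonneg N)]
  · have htN : t ≤ N := by omega
    rw [if_neg h, if_pos htN]
    have hdeg : trDeg 1 (fun _ _ => N + 1 : ℕ → ℕ → ℕ) t 0 = 1 := by
      unfold trDeg
      have : ((Finset.range 1).filter fun y => t ≤ (fun _ _ => N + 1 : ℕ → ℕ → ℕ) 0 y ∧ trIsMin (fun _ _ => N + 1 : ℕ → ℕ → ℕ) (t + 1) y) = {0} := by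
        ext y
        simp only [Finset.mem_filter, Finset.mem_range, Finset.mem_singleton]
        constructor
        · intro a; omega
        · rintro rfl
          exact ⟨by omega, by omega, fun y hy => absurd hy (Nat.not_lt_zero y)⟩
      rw [this]; rfl
    rw [hdeg]
    have h0 := l9a_mu_nonneg hms htN
    have e : trPm ms t - ((1 : ℕ) : ℝ) * ms t = - l9aMu ms t := by
      unfold l9aMu; push_cast; ring
    rw [e, abs_neg, abs_of_nonneg h0]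

/-- **TWO STAGES**: first the level `t0` of the pair `(0, 1)`, then the `k` other labels -/
theorem l9hk_two {ms : ℕ → ℝ} (hms : IsMs N ms) (k : ℕ) (F : (ℕ → ℕ → ℕ) → ℝ) (hF : ∀ τ₁ τ₂, L9aAg (2 + k) τ₁ τ₂ → F τ₁ = F τ₂) :
    ∑ τ ∈ l9aTab N (2 + k), |l9aWt ms N 1 (2 + k) τ| * F τ
      = ∑ t0 ∈ range (N + 2), l9hkW ms N t0 * trAbsK ms N k 2 (jtTab2 N t0) F := by
  have e0 : 2 + k = 1 + (k + 1) := by omega
  have hF' : ∀ τ₁ τ₂, L9aAg (1 + (k + 1)) τ₁ τ₂ → F τ₁ = F τ₂ := by rw [← e0]; exact hF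
  have h := l9a_flat_abs (ms := ms) (k + 1) (l9hk_root_isTr N) F hF'
  rw [← e0] at h
  rw [← h]
  show trAbs ms N 1 (fun _ _ => N + 1) (fun τ' => trAbsK ms N k (1 + 1) τ' F) = _
  unfold trAbs
  rw [Finset.sum_range_one]
  refine Finset.sum_congr rfl fun t ht => ?_
  have ht' : t ≤ N + 1 := by have := Finset.mem_range.1 ht; omega
  rw [l9hk_w2 hms ht']
  congr 1
  refine (l9hk_absK_congr k (by omega) (l9hk_tab2_isTr ht') ?_ F hF).symm
  intro y z hy hz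
  unfold jtTab2 trAtt
  have hy' : y = 0 ∨ y = 1 := by omega
  have hz' : z = 0 ∨ z = 1 := by omega
  rcases hy' with rfl | rfl <;> rcases hz' with rfl | rfl <;> simp <;> omega

end two

/-! ## any pair of distinct labels as the first pair -/

/-- a permutation of the labels `< r` which sends `a ↦ 0`, `b ↦ 1` -/
def l9hkE (a b : ℕ) : Equiv.Perm ℕ := Equiv.swap 1 (Equiv.swap 0 a b) * Equiv.swap 0 a

theorem l9hk_E_a {a b : ℕ} (hab : a ≠ b) : l9hkE a b a = 0 := by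
  unfold l9hkE
  rw [Equiv.Perm.mul_apply, Equiv.swap_apply_right]
  refine Equiv.swap_apply_of_ne_of_ne (by omega) ?_
  intro h
  have h2 : Equiv.swap 0 a (Equiv.swap 0 a b) = Equiv.swap 0 a 0 := by rw [← h]
  rw [Equiv.swap_apply_self, Equiv.swap_apply_left] at h2
  exact hab h2.symm

theorem l9hk_E_b (a b : ℕ) : l9hkE a b b = 1 := by
  unfold l9hkE
  rw [Equiv.Perm.mul_apply, Equiv.swap_apply_right]

theorem l9hk_E_fix {r a b : ℕ} (hr : 2 ≤ r) (ha : a < r) (hb : b < r) : ∀ y, r ≤ y → l9hkE a b y = y := by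
  intro y hy
  unfold l9hkE
  have h1 : Equiv.swap 0 a y = y := Equiv.swap_apply_of_ne_of_ne (by omega) (by omega)
  have hc : Equiv.swap 0 a b < r := by
    rw [Equiv.swap_apply_def]
    split_ifs <;> omega
  rw [Equiv.Perm.mul_apply, h1]
  exact Equiv.swap_apply_of_ne_of_ne (by omega) (by omega)

/-- the levels of the relabelled table -/
theorem l9hk_P_apply {r : ℕ} (e : Equiv.Perm ℕ) (τ : ℕ → ℕ → ℕ) {y z : ℕ} (hy : y < r) (hz : z < r) : l9hkP r e τ y z = τ (e y) (e z) := by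
  unfold l9hkP l9aNm
  rw [if_pos ⟨hy, hz⟩]

/-- `F ∘ l9hkP` is local -/
theorem l9hk_P_loc {r : ℕ} {e : Equiv.Perm ℕ} (he : ∀ y, r ≤ y → e y = y) (F : (ℕ → ℕ → ℕ) → ℝ) :
    ∀ τ₁ τ₂, L9aAg r τ₁ τ₂ → F (l9hkP r e τ₁) = F (l9hkP r e τ₂) := by
  intro τ₁ τ₂ h
  congr 1
  exact l9a_nm_eq fun y z hy hz => h _ _ (l9hk_lt he hy) (l9hk_lt he hz)

/-- **TWO STAGES, ANY FIRST PAIR**: in the table `l9hkP (2 + k) (l9hkE a b) τ` the pair `(a, b)` has the level `τ 0 1 = t0`.      ANY `F`. -/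
theorem l9hk_two_perm {N : ℕ} {ms : ℕ → ℝ} (hms : IsMs N ms) (k : ℕ) {a b : ℕ} (ha : a < 2 + k) (hb : b < 2 + k) (F : (ℕ → ℕ → ℕ) → ℝ) :
    ∑ τ ∈ l9aTab N (2 + k), |l9aWt ms N 1 (2 + k) τ| * F τ
      = ∑ t0 ∈ range (N + 2), l9hkW ms N t0 * trAbsK ms N k 2 (jtTab2 N t0) fun τ => F (l9hkP (2 + k) (l9hkE a b) τ) := by
  have he := l9hk_E_fix (r := 2 + k) (by omega) ha hb
  rw [l9hk_abs_perm ms (by omega) he F]
  exact l9hk_two hms k _ (l9hk_P_loc he F)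

/-- every tree reached by `trAbsK` from `jtTab2 N t0` keeps the level of the first pair: form for the consumers (`Φ` may be changed off these trees) -/
theorem l9hk_absK_supp {N : ℕ} {ms : ℕ → ℝ} (k : ℕ) {t0 : ℕ} (ht : t0 ≤ N + 1) (Φ Ψ : (ℕ → ℕ → ℕ) → ℝ)
    (hΦ : ∀ τ₁ τ₂, L9aAg (2 + k) τ₁ τ₂ → Φ τ₁ = Φ τ₂) (hΨ : ∀ τ₁ τ₂, L9aAg (2 + k) τ₁ τ₂ → Ψ τ₁ = Ψ τ₂)
    (h : ∀ τ, IsTr N (2 + k) τ → τ 0 1 = t0 → Φ τ = Ψ τ) : trAbsK ms N k 2 (jtTab2 N t0) Φ = trAbsK ms N k 2 (jtTab2 N t0) Ψ := by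
  classical
  rw [l9a_flat_abs_gen k (l9hk_tab2_isTr ht) (by omega) Φ hΦ, l9a_flat_abs_gen k (l9hk_tab2_isTr ht) (by omega) Ψ hΨ]
  refine Finset.sum_congr rfl fun τ hτ => ?_
  obtain ⟨h1, h2⟩ := Finset.mem_filter.1 hτ
  rw [h τ (l9a_mem_tab.mp h1).1 (by rw [h2 0 1 (by omega) (by omega)]; simp [jtTab2])]

theorem l9hk_eqns_cite2 : True := by
  have := @l9hkE.eq_1
  trivial

end Claimed.Agent.R286
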