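import Claimed.Agent.R286.L09.HiSupQ
import Claimed.Agent.R286.L09.HiLS
import Claimed.Agent.R286.L09.HiTop
import Claimed.Agent.R286.Exit.D16b
import Claimed.Agent.R286.L08.DdHigh
import Claimed.Agent.R286.Defs.L9Pre

/-!
# Row 286 (S0533), LL Sec. 9, node HI, file L09/HiNumX : THE SHELL OF `exit_l9_hiNumS`      (owner helper71, ruling of helper235 07:24Z; prefix `l9hn`, `L9hn`)

    exit_l9_hiNumS (L09/BndExit)  :=  l9hn_good T hT F0 h0 hG (exit_dlow T hT) (exit_d11 T hT) (l9hm_d15 T hT F0 h0 hG)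
    l9hn_good   <=  l9hm_d15 (59, Exit/D15G: (D15) through the filter `LLGood`)  +  l9hn_numS at `exit_dlow`, `exit_d11`, `l8g_fine`  +  l9hn_ddHi [124]        (thresholds: `p_* ≤ tp (stage B)`, `C_L ≥ 2`)
    l9hn_numS   <=  the events of LL 08 at the points of the size segment (`l8q_evS`, 220)  +  l9hn_pt  +  l9hn_fin  +  l9hn_dif [124]                          (shape `L9SbS`, choice of the inner loss)
    l9hn_pt     <=  `L9hsHyp.sup` (124, L09/HiSup: his record `HiSup`)  +  l9hn_ls_pt, at ONE envelope `sig = l9hsSig n e A (x^(a_1))`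
    l9hn_ls_pt  <=  `exit_d16b_num` (Exit/D16b: (D16), conclusion 2, one instance)  +  `l9hj_point` (225, L09/HiLS: the bridge to the tables)
    l9hn_fin    <=  l9hn_num_pt [124: `HiSup + DdHi ⟹ Q.HiNum`]  +  `HiNum.mono`, `HiLS.mono`
THE LOSSES.   Target `A = C x^(-δ)`.   `δ' = min δ 1 / 2`;   `θ = min (δ' / (20 + 2 J0)) (a_1 / 40) (δ_* / 40)`;   LL 08 low list at the loss `x^(-θ/4)`, orders `pm = max 2 J0 ⌈4/θ⌉`, `jm = J0`;   record of 124 at `A_s = C x^(-θ)`;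
truncation of (D16) `A' = (|C| + 2)(|C0| + 1) x^(-2θ) ≥ A_s`, `A_s x^(a_1) ≤ 1`, so `sig ≤ min 1 (A' |e|)` below `V_1`;   (D16-2) gives `20 K C x^(3 - δ' - κ p_*) Zc²`, `κ = s_* + 1 + η ≤ 2 ≤ C_L`;   `env1` of 124 has `A²`: `A_in² = C² x^(-2δ') ≤ C² x^(-δ)`.
LEAVES OF 124 (`L09/HiSupQ.lean`, prefix `l9hq`; CITED): `l9hn_num_pt`, `l9hn_ddHi`, `l9hn_dif`.      STATUS: 0 sorry.   `exit_l9_hiNumS` is wired through `L09/HiNumY.lean` (59, nested thresholds `L9hnThr`); this file is the INDEPENDENT second route (through `l9hm_d15`), not imported by the hub.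
-/

set_option autoImplicit false

namespace Claimed.Agent.R286

open Filter Finset

/-- the index of the first cut of mass `≥ V` -/
theorem l9hn_thr (I : L8In) (hmono : ∀ i j, i ≤ j → I.v i ≤ I.v j) (V : ℝ) : ∃ ti, I.Thr V ti := by
  classical
  by_cases h : ∃ k, V ≤ I.v k
  · refine ⟨Nat.find h, fun k _ => ⟨fun hk => (Nat.find_spec h).trans (hmono _ _ hk), fun hk => Nat.find_min' h hk⟩⟩
  · refine ⟨I.n + 1, fun k hk => ⟨fun hk' => by omega, fun hk' => absurd ⟨k, hk'⟩ h⟩⟩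

/-- **(D16), second conclusion, ON TABLES at one point of the size segment**, for every envelope below the truncated envelope of `Exit/D16b.lean` -/
theorem l9hn_ls_pt (J0 : ℕ) (hJ : 1 ≤ J0) : ∃ K : ℝ, 0 ≤ K ∧
    ∀ (Q : L9Q) (e : ℕ → ℝ) (A0 v0 v1 cE εs qs η θ ε a1 Cb C1 : ℝ) (pm jm : ℕ) (sig : ℕ → ℝ), Q.i8.Ok → l8Siz Q.i8.p → Q.i8.Fine η → 1 ≤ Q.i8.Zc llDStar →
      Q.i8.All e A0 (Q.i8.Yc llDStar) 1 v0 v1 cE εs qs pm jm → Q.i8.s = qs * Q.i8.x ^ (1 + εs) → Q.i8.Stop (Q.i8.x ^ εs) → |A0| ≤ C1 * Q.i8.x ^ (-θ) →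
      0 ≤ Cb → 1 ≤ C1 → 0 < v0 → 0 < Q.i8.F.pS → Q.i8.F.pS ≤ 1 → 0 ≤ Q.i8.F.sS → Q.i8.F.sS ≤ 1 → 0 ≤ Q.i8.F.eta →
      0 < θ → (20 + 2 * (J0 : ℝ)) * θ ≤ ε → 40 * θ ≤ a1 → 40 * θ ≤ llDStar → 8 ≤ 2 * (pm : ℝ) * θ → 1 / min 1 v0 + (Cb + 2) * C1 ^ 2 ≤ Q.i8.x ^ (-θ) →
      J0 ≤ pm → J0 ≤ jm → (∀ l, 0 ≤ sig l) →
      (∀ l, l ≤ Q.N → Q.i8.v l < Q.i8.x ^ a1 → sig l ≤ min 1 ((Cb + 2) * (C1 * Q.i8.x ^ (-θ)) * Q.i8.x ^ (-θ) * |e l|)) →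
      Q.HiLS (Q.x ^ a1) sig J0 (20 * (K * (l8lrC J0 θ Cb C1 * Q.i8.x ^ (3 - ε - (Q.i8.F.sS + (1 + Q.i8.F.eta)) * Q.i8.F.pS) * Q.i8.Zc llDStar ^ 2))) := by
  obtain ⟨K, hK, H⟩ := exit_d16b_num J0 (2 * J0) hJ
  refine ⟨K, hK, ?_⟩
  intro Q e A0 v0 v1 cE εs qs η θ ε a1 Cb C1 pm jm sig hI hs hfin hZ hAll hst hstop hA hCb hC1 hv0 hp0 hp1 hs0 hs1 het hθ hθε hθa hθd hpm hbig hdp hdj hsig0 hsig
  have hP := Q.i8.l8lq_ok hI hs hfin.adm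
  obtain ⟨ti, hti⟩ := l9hn_thr Q.i8 (fun i j hij => hP.v_mono hij) (Q.i8.x ^ a1)
  obtain ⟨hN, hLS⟩ := H Q.i8 e A0 v0 v1 cE εs qs η θ ε a1 Cb C1 pm jm ti hI hs hfin hZ hAll hst hstop hA hCb hC1 hv0 hp0 hp1 hs0 hs1 het hθ hθε hθa hθd hpm hbig hdp hdj hti
  have ha : Q.p.a = 4 := Q.i8.l8lq_a_eq hs
  obtain ⟨hx, hx1⟩ := Q.i8.l8lq_x_pos hI
  have hV1 : Q.i8.x ^ a1 ≤ 1 := Real.rpow_le_one hx.le hx1 (by linarith)
  have hAdm := (l9rs_adm Q hI hfin).1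
  have h := l9hj_point Q hAdm (V1 := Q.i8.x ^ a1) (ti := ti) (J0 := J0) (sig := sig) (by rw [ha]; linarith) (by rw [ha]; norm_num) hti
    (fun l => le_min zero_le_one (mul_nonneg (by have := Real.rpow_pos_of_pos hx (-θ); positivity) (abs_nonneg _))) hsig0
    (fun l hl => by
      have hvn : Q.i8.v Q.i8.n = Q.i8.a := hP.v_term Q.i8.n (le_of_eq Q.i8.l8lq_n)
      have htin : ti ≤ Q.i8.n := (hti Q.i8.n le_rfl).2 (by rw [hvn, Q.i8.l8lq_a_eq hs]; linarith)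
      have hl' : l ≤ Q.i8.n := by omega
      refine hsig l hl' ?_
      by_contra hc
      have := (hti l hl').2 (not_lt.1 hc)
      omega)
    (fun n k hn hk => hLS n hn k hk)
  rw [ha] at h
  have e20 : ∀ y : ℝ, ((4 : ℝ) + 1) * (4 * y) = 20 * y := fun y => by ring
  rw [e20] at h
  exact h

/-- the record of 124 is monotone in the loss and in `C_H` -/
theorem L8In.HiSup.mono {I : L8In} {c A A' a1 a2 bH CH CH' gs : ℝ} {sig : ℕ → ℝ} (h : I.HiSup c A a1 a2 bH CH gs sig) (hA0 : 0 ≤ A) (hA : A ≤ A')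
    (hx : 0 < I.x) (hx1 : I.x ≤ 1) (ha1 : 0 ≤ a1) (ha2 : 0 ≤ a2) (hCH : CH ≤ CH') : I.HiSup c A' a1 a2 bH CH' gs sig := by
  have hp : ∀ a : ℝ, 0 ≤ a → (A * (I.x ^ (3 - CH * a) * I.Zc llDStar ^ 2)) ^ 2 ≤ (A' * (I.x ^ (3 - CH' * a) * I.Zc llDStar ^ 2)) ^ 2 := by
    intro a ha
    have h1 : I.x ^ (3 - CH * a) ≤ I.x ^ (3 - CH' * a) :=
      Real.rpow_le_rpow_of_exponent_ge hx hx1 (by nlinarith)
    have h2 : 0 ≤ I.x ^ (3 - CH * a) := (Real.rpow_pos_of_pos hx _).le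
    refine pow_le_pow_left₀ (mul_nonneg hA0 (mul_nonneg h2 (sq_nonneg _))) ?_ 2
    exact mul_le_mul hA (mul_le_mul_of_nonneg_right h1 (sq_nonneg _)) (mul_nonneg h2 (sq_nonneg _)) (hA0.trans hA)
  exact
    { z1 := h.z1
      pair :=
        { hN := h.pair.hN
          pos := h.pair.pos
          bdd := h.pair.bdd
          st1 := fun e t ht hv => (h.pair.st1 e t ht hv).trans (hp a1 ha1)
          st2 := fun e t ht hv => (h.pair.st2 e t ht hv).trans (hp a2 ha2)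
          low := h.pair.low }
      sig0 := h.sig0
      sigsg := fun k => (h.sigsg k).trans (mul_le_mul_of_nonneg_right hA (Real.rpow_pos_of_pos hx _).le)
      env1 := h.env1.trans (mul_le_mul_of_nonneg_right (pow_le_pow_left₀ hA0 hA 2) (sq_nonneg _))
      fH := h.fH
      fL := h.fL
      dH := fun k hk hv => (h.dH k hk hv).trans (mul_le_mul_of_nonneg_right hA (pow_pos hx 3).le)
      dL := h.dL }

/-- a constant is below a negative power of `x = skX N` for `N` large -/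
theorem l9hn_big (θ M : ℝ) (hθ : 0 < θ) : ∃ N0 : ℕ, ∀ N : ℕ, N0 ≤ N → M ≤ skX N ^ (-θ) := by
  obtain ⟨N0, h⟩ := l9s_small θ (|M| + 1) hθ (by positivity)
  refine ⟨N0 + 1, fun N hN => ?_⟩
  have hx := l9t_skX_pos (N := N) (by omega)
  have h1 := h N (by omega)
  have h2 : 0 < skX N ^ θ := Real.rpow_pos_of_pos hx _
  rw [Real.rpow_neg hx.le, ← one_div, le_div_iff₀ h2]
  have := le_abs_self M
  nlinarith

/-- the statement of `l9hn_ls_pt` for a constant `K` -/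
def L9hnLsK (J0 : ℕ) (K : ℝ) : Prop :=
    ∀ (Q : L9Q) (e : ℕ → ℝ) (A0 v0 v1 cE εs qs η θ ε a1 Cb C1 : ℝ) (pm jm : ℕ) (sig : ℕ → ℝ), Q.i8.Ok → l8Siz Q.i8.p → Q.i8.Fine η → 1 ≤ Q.i8.Zc llDStar →
      Q.i8.All e A0 (Q.i8.Yc llDStar) 1 v0 v1 cE εs qs pm jm → Q.i8.s = qs * Q.i8.x ^ (1 + εs) → Q.i8.Stop (Q.i8.x ^ εs) → |A0| ≤ C1 * Q.i8.x ^ (-θ) →
      0 ≤ Cb → 1 ≤ C1 → 0 < v0 → 0 < Q.i8.F.pS → Q.i8.F.pS ≤ 1 → 0 ≤ Q.i8.F.sS → Q.i8.F.sS ≤ 1 → 0 ≤ Q.i8.F.eta →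
      0 < θ → (20 + 2 * (J0 : ℝ)) * θ ≤ ε → 40 * θ ≤ a1 → 40 * θ ≤ llDStar → 8 ≤ 2 * (pm : ℝ) * θ → 1 / min 1 v0 + (Cb + 2) * C1 ^ 2 ≤ Q.i8.x ^ (-θ) →
      J0 ≤ pm → J0 ≤ jm → (∀ l, 0 ≤ sig l) →
      (∀ l, l ≤ Q.N → Q.i8.v l < Q.i8.x ^ a1 → sig l ≤ min 1 ((Cb + 2) * (C1 * Q.i8.x ^ (-θ)) * Q.i8.x ^ (-θ) * |e l|)) →
      Q.HiLS (Q.x ^ a1) sig J0 (20 * (K * (l8lrC J0 θ Cb C1 * Q.i8.x ^ (3 - ε - (Q.i8.F.sS + (1 + Q.i8.F.eta)) * Q.i8.F.pS) * Q.i8.Zc llDStar ^ 2)))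

theorem l9hn_eqns_cite : True := by
  have := @L9hnLsK.eq_1
  trivial

/-- numbers: `C u ≤ (|C| + 2) ((|C0| + 1) u) u` for `u ≥ 1` -/
theorem l9hn_n1 {C C0 u : ℝ} (hu : 1 ≤ u) : C * u ≤ (|C| + 2) * ((|C0| + 1) * u) * u := by
  have a1' := le_abs_self C
  have a2' := abs_nonneg C
  have a3' := abs_nonneg C0
  have b1 : C * u ≤ (|C| + 2) * u := mul_le_mul_of_nonneg_right (by linarith) (by linarith)
  have b3 : 1 ≤ (|C0| + 1) * u := by nlinarith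
  have b4 : 0 ≤ (|C| + 2) * u := by positivity
  nlinarith

/-- numbers: `C x^(-θ) x^(a1) ≤ 1` -/
theorem l9hn_n2 {C x θ a1 : ℝ} (hx : 0 < x) (h : (|C| + 1) * x ^ (a1 - θ) < 1) : C * x ^ (-θ) * x ^ a1 ≤ 1 := by
  have e1 : x ^ (-θ) * x ^ a1 = x ^ (a1 - θ) := by rw [← Real.rpow_add hx]; congr 1; ring
  have h2 : 0 < x ^ (a1 - θ) := Real.rpow_pos_of_pos hx _
  have := le_abs_self C
  rw [mul_assoc, e1]
  nlinarith

/-- **ONE POINT**: the hypotheses of 124 (`L9hsHyp`) at the orders `pm ≥ max (J0, 4/θ)`, `jm = J0` give his record AND (D16-2) on tables at the SAME envelope -/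
theorem l9hn_pt {J0 : ℕ} {K : ℝ} (hK : 0 ≤ K) (hLS : L9hnLsK J0 K) (Q : L9Q) (hsz : l8Siz Q.j8.p) {pB : LLParB} {pS : ℝ} (h0 : 0 < pS) (h1' : pS ≤ 1)
    (esS : Q.i8.F.sS = 1 / 2 - pB.tau) (eeta : Q.i8.F.eta = pB.eta) (epS : Q.i8.F.pS = pS) {x : ℝ} (hxe : Q.j8.x = x) (hx : 0 < x) (hx1 : x ≤ 1)
    {e : ℕ → ℝ} {c C C0 Ab a1 a2 bH CH v0 v1 cE ε q C11 M δt θ δ : ℝ} {pm J : ℕ}
    (H : L9hsHyp Q.j8 e c (C * x ^ (-θ)) (C0 * x ^ (-(θ / 4))) Ab a1 a2 bH CH a1 v0 v1 cE ε q C11 M δt (x ^ (3 : ℝ)) pm J0 J)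
    (hv0 : 0 < v0) (hθ : 0 < θ) (hθδ : (20 + 2 * (J0 : ℝ)) * θ ≤ δ) (hθa : 40 * θ ≤ a1) (hθd : 40 * θ ≤ llDStar) (hpmθ : 8 ≤ 2 * (pm : ℝ) * θ)
    (hbig : 1 / min 1 v0 + (|C| + 2) * (|C0| + 1) ^ 2 ≤ x ^ (-θ)) (hsm : (|C| + 1) * x ^ (a1 - θ) < 1) (hpmJ : J0 ≤ pm) :
    Q.j8.Ok ∧ Q.j8.Fine (Q.j8.x ^ (3 : ℝ)) ∧ 2 ≤ (|C| + 20 * (K * |l8lrC J0 θ |C| (|C0| + 1)|) + 2) * x ^ (-δ) ∧
      ∃ sig, Q.j8.HiSup c ((|C| + 20 * (K * |l8lrC J0 θ |C| (|C0| + 1)|) + 2) * x ^ (-δ)) a1 a2 bH CH a1 sig ∧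
        Q.HiLS (Q.x ^ a1) sig J0 ((|C| + 20 * (K * |l8lrC J0 θ |C| (|C0| + 1)|) + 2) * x ^ (-δ) * (Q.j8.x ^ (3 - 2 * pS) * Q.j8.Zc llDStar ^ 2)) := by
  subst hxe
  have hOk := H.ok
  have hfi := H.fine
  have hZc := H.z1
  have hAll := H.all
  have hs := H.s_eq
  have hstp := H.stop
  have ha1 := H.num.a1_pos
  have ha2 := H.num.a2_pos
  -- powers of `x`
  have hθδ' : θ ≤ δ := by nlinarith [(Nat.cast_nonneg J0 : (0 : ℝ) ≤ (J0 : ℝ))]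
  have hu1 : 1 ≤ Q.j8.x ^ (-θ) := Real.one_le_rpow_of_pos_of_le_one_of_nonpos hx hx1 (by linarith)
  have hud : Q.j8.x ^ (-θ) ≤ Q.j8.x ^ (-δ) := Real.rpow_le_rpow_of_exponent_ge hx hx1 (by linarith)
  have hu4 : Q.j8.x ^ (-(θ / 4)) ≤ Q.j8.x ^ (-θ) := Real.rpow_le_rpow_of_exponent_ge hx hx1 (by linarith)
  have hu40 : 0 < Q.j8.x ^ (-(θ / 4)) := Real.rpow_pos_of_pos hx _
  have hKl : 0 ≤ 20 * (K * |l8lrC J0 θ |C| (|C0| + 1)|) := by positivity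
  have hA1 : 1 ≤ C * Q.j8.x ^ (-θ) := H.A_one
  have hAle : C * Q.j8.x ^ (-θ) ≤ (|C| + 20 * (K * |l8lrC J0 θ |C| (|C0| + 1)|) + 2) * Q.j8.x ^ (-δ) := by
    have h2 : C * Q.j8.x ^ (-θ) ≤ |C| * Q.j8.x ^ (-θ) := mul_le_mul_of_nonneg_right (le_abs_self C) (by linarith)
    have h3 : |C| * Q.j8.x ^ (-θ) ≤ |C| * Q.j8.x ^ (-δ) := mul_le_mul_of_nonneg_left hud (abs_nonneg _)
    have h4 : |C| * Q.j8.x ^ (-δ) ≤ (|C| + 20 * (K * |l8lrC J0 θ |C| (|C0| + 1)|) + 2) * Q.j8.x ^ (-δ) :=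
      mul_le_mul_of_nonneg_right (by linarith) (by linarith)
    linarith
  have h2A : 2 ≤ (|C| + 20 * (K * |l8lrC J0 θ |C| (|C0| + 1)|) + 2) * Q.j8.x ^ (-δ) := by
    have h7 : 1 ≤ Q.j8.x ^ (-δ) := hu1.trans hud
    have h8 := abs_nonneg C
    nlinarith
  refine ⟨hOk, hfi, h2A, l9hsSig Q.j8.n e (C * Q.j8.x ^ (-θ)) (Q.j8.x ^ a1),
    H.sup.mono (by linarith) hAle hx hx1 ha1.le ha2.le le_rfl, ?_⟩
  have hτ := pB.tau_pos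
  have hτ1 := pB.tau_le
  have hη := pB.eta_pos
  have hη1 := pB.eta_le
  have hA0 : |C0 * Q.j8.x ^ (-(θ / 4))| ≤ (|C0| + 1) * Q.j8.x ^ (-θ) := by
    rw [abs_mul, abs_of_pos hu40]
    exact mul_le_mul (by linarith) hu4 hu40.le (by positivity)
  have hAx : C * Q.j8.x ^ (-θ) * Q.j8.x ^ a1 ≤ 1 := l9hn_n2 hx hsm
  have hls := hLS Q e (C0 * Q.j8.x ^ (-(θ / 4))) v0 v1 cE ε q (Q.j8.x ^ (3 : ℝ)) θ δ a1 |C| (|C0| + 1) pm J0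
    (l9hsSig Q.j8.n e (C * Q.j8.x ^ (-θ)) (Q.j8.x ^ a1)) hOk hsz hfi hZc hAll hs hstp hA0 (abs_nonneg _) (by have := abs_nonneg C0; linarith) hv0
    (by rw [epS]; exact h0) (by rw [epS]; exact h1') (by rw [esS]; linarith) (by rw [esS]; linarith) (by rw [eeta]; exact hη.le)
    hθ hθδ hθa hθd hpmθ hbig hpmJ le_rfl H.sig0 (by
      intro l hl _
      have he := (H.e0 hl).le
      rw [show l9hsSig Q.j8.n e (C * Q.j8.x ^ (-θ)) (Q.j8.x ^ a1) l = C * Q.j8.x ^ (-θ) * min (e l) (Q.j8.x ^ a1) from if_pos hl]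
      refine le_min ?_ ?_
      · exact (mul_le_mul_of_nonneg_left (min_le_right _ _) (by linarith)).trans hAx
      · rw [abs_of_nonneg he]
        refine (mul_le_mul_of_nonneg_left (min_le_left _ _) (by linarith)).trans (mul_le_mul_of_nonneg_right ?_ he)
        exact l9hn_n1 hu1)
  refine hls.mono (l9rs_adm Q hOk hfi).1 ?_
  show 20 * (K * (l8lrC J0 θ |C| (|C0| + 1) * Q.j8.x ^ (3 - δ - (Q.i8.F.sS + (1 + Q.i8.F.eta)) * Q.i8.F.pS) * Q.i8.Zc llDStar ^ 2))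
    ≤ (|C| + 20 * (K * |l8lrC J0 θ |C| (|C0| + 1)|) + 2) * Q.j8.x ^ (-δ) * (Q.j8.x ^ (3 - 2 * pS) * Q.i8.Zc llDStar ^ 2)
  rw [esS, eeta, epS]
  have e2 : Q.j8.x ^ (-δ) * Q.j8.x ^ (3 - 2 * pS) = Q.j8.x ^ (3 - δ - 2 * pS) := by rw [← Real.rpow_add hx]; congr 1; ring
  have h5 : Q.j8.x ^ (3 - δ - (1 / 2 - pB.tau + (1 + pB.eta)) * pS) ≤ Q.j8.x ^ (3 - δ - 2 * pS) :=
    Real.rpow_le_rpow_of_exponent_ge hx hx1 (by nlinarith)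
  have h6 : 0 < Q.j8.x ^ (3 - δ - (1 / 2 - pB.tau + (1 + pB.eta)) * pS) := Real.rpow_pos_of_pos hx _
  have hZ2 : 0 ≤ Q.i8.Zc llDStar ^ 2 := sq_nonneg _
  calc 20 * (K * (l8lrC J0 θ |C| (|C0| + 1) * Q.j8.x ^ (3 - δ - (1 / 2 - pB.tau + (1 + pB.eta)) * pS) * Q.i8.Zc llDStar ^ 2))
      = 20 * (K * l8lrC J0 θ |C| (|C0| + 1)) * (Q.j8.x ^ (3 - δ - (1 / 2 - pB.tau + (1 + pB.eta)) * pS) * Q.i8.Zc llDStar ^ 2) := by ring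
    _ ≤ (|C| + 20 * (K * |l8lrC J0 θ |C| (|C0| + 1)|) + 2) * (Q.j8.x ^ (3 - δ - 2 * pS) * Q.i8.Zc llDStar ^ 2) := by
        refine mul_le_mul ?_ (mul_le_mul_of_nonneg_right h5 hZ2) (mul_nonneg h6.le hZ2) (by positivity)
        have := mul_le_mul_of_nonneg_left (le_abs_self (l8lrC J0 θ |C| (|C0| + 1))) hK
        have := abs_nonneg C
        linarith
    _ = _ := by rw [← e2]; ring


/-! ## 4. the leaves of 124 -/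

/-- the three conclusions of (D15) at one instance      (same text as `L8In.D15` of 59, `Exit/D15G.lean`: the two are definitionally equal; this file does not import the closure of `Exit/D15`) -/
def L8In.l9hnD15 (I : L8In) (c a1 a2 bH CH : ℝ) : Prop :=
  (∀ k ≤ I.n, I.x ^ a1 ≤ I.v k → |I.f k| ≤ I.x ^ (2 + bH) * (I.Zc llDStar ^ 2 + I.Zg c)) ∧
  (∀ k ≤ I.n, I.x ^ a1 ≤ I.v k → I.D2 k ≤ (I.x ^ (3 - CH * a1) * I.Zc llDStar ^ 2) ^ 2) ∧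
  (∀ k ≤ I.n, I.x ^ a2 ≤ I.v k → I.D2 k ≤ (I.x ^ (3 - CH * a2) * I.Zc llDStar ^ 2) ^ 2)

/-- `ḋ` at the cuts of mass `≥ V`, `L¹`-excess form      (= `L8In.DdHi` of 124) -/
def L8In.l9hnDd (I : L8In) (V η : ℝ) : Prop :=
  ∃ ex : ℕ → ℝ, (∀ k, 0 ≤ ex k) ∧ ∑ k ∈ Finset.range (I.n + 1), I.dv k * ex k ≤ η ∧ ∀ k ≤ I.n, V ≤ I.v k → |I.dd k| ≤ I.x ^ 3 + η + ex k

/-- the scalar clock values of the chain are differentiable in the parameter of the segment -/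
def L8In.l9hnDf (I : L8In) : Prop := ∀ j ≤ I.n, DifferentiableAt ℝ (fun t => (I.wP t).KC j) I.t0

theorem l9hn_eqns_cite2 : True := by
  have := @L8In.l9hnDd.eq_1
  have := @L8In.l9hnD15.eq_1
  have := @L8In.l9hnDf.eq_1
  trivial

/-- **helper124** (`l9hq_num_pt`, `L09/HiSupQ.lean`): his record + `ḋ` above `V_1` give `Q.HiNum` at a point of the size segment, `sig` UNIVERSAL.
PLAN (124): dictionary `l8q_ms`, `l8q_Zc`, `l8q_Y`, `l8q_dA_S`, `Q.X en = Q.j8.X en`, `Q.N = Q.j8.n` (`rfl`); `f_hi`: `fH` and `|f| ≤ 2`; `d_hi`: `dH`, `A x³ ≤ 2`, `x³ ≤ x^(2 + bH) Zc²`; `dd_hi`: `ex` of `hdd`, `∑ μ ex ≤ x⁶ ≤ D_1²`. -/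
theorem l9hn_num_pt (F : LlFix) (𝔹 : LlBase) (s : ℝ) (Fs : Finset GhPos) (m N : ℕ) (γ : Fin (N + 1) → ℝ) (θ : ℝ) {c A a1 a2 bH CH : ℝ} {sig : ℕ → ℝ}
    (hOk : (l9QS F 𝔹 s Fs m N γ θ).j8.Ok) (hFok : F.Ok) (hfi : (l9QS F 𝔹 s Fs m N γ θ).j8.Fine 1)
    (h : (l9QS F 𝔹 s Fs m N γ θ).j8.HiSup c A a1 a2 bH CH a1 sig)
    (hdd : (l9QS F 𝔹 s Fs m N γ θ).j8.l9hnDd ((l9QS F 𝔹 s Fs m N γ θ).j8.x ^ a1) ((l9QS F 𝔹 s Fs m N γ θ).j8.x ^ 6))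
    (hA : 2 ≤ A) (hAx : A * (l9QS F 𝔹 s Fs m N γ θ).j8.x ^ 3 ≤ 2) (hb0 : 0 ≤ bH) (hb1 : bH ≤ 1) (hCH : 0 ≤ CH) (ha1 : 0 ≤ a1) :
    (l9QS F 𝔹 s Fs m N γ θ).HiNum sig ((l9QS F 𝔹 s Fs m N γ θ).x ^ a1) ((l9QS F 𝔹 s Fs m N γ θ).x ^ a2)
      (A * ((l9QS F 𝔹 s Fs m N γ θ).x ^ (3 - CH * a1) * (l9QS F 𝔹 s Fs m N γ θ).Zc (l8Mj c) ^ 2))
      (A * ((l9QS F 𝔹 s Fs m N γ θ).x ^ (3 - CH * a2) * (l9QS F 𝔹 s Fs m N γ θ).Zc (l8Mj c) ^ 2))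
      (min 2 (A * ((l9QS F 𝔹 s Fs m N γ θ).x ^ (2 + bH) * ((l9QS F 𝔹 s Fs m N γ θ).Zc (l8Mj c) ^ 2 + (l9QS F 𝔹 s Fs m N γ θ).Zg (l8Mj c)))))
      (A * (l9QS F 𝔹 s Fs m N γ θ).x ^ a1) (A ^ 2 * (l9QS F 𝔹 s Fs m N γ θ).Y (l8Mj c) ^ 2) :=
  l9hq_num_pt F 𝔹 s Fs m N γ θ hOk hfi h hdd hA hAx hb1 hCH ha1

/-- **helper124** (`l9hq_ddHi` at `l8dh_exit`): the event of `ḋ` above `V_1` on the smoothed size paths.
PLAN (124): `l8dh_link` (`L08/DdHigh.lean`) at `η = x⁶ / 2`-type accuracy; `Lp ≤ x³`: with `Fine` v2 (`b_eq, K_eq, h_eq` exact) `I.Dp (k + 1) t = (I.pAt t).d (I.v k)` for `v k > x`, then `lcf_siz_d`. -/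
theorem l9hn_ddHi (T : ℝ) (hT : 1 < T) (F0 : LlFix) (h0 : L8Fix llBase T F0) (pB : LLParB) {pS : ℝ} (hp0 : 0 < pS) (hp1 : pS ≤ 1) {a1 : ℝ} (ha1 : 0 < a1)
    (ha1' : a1 ≤ 1 / 2) :
    ∃ N0 : ℕ, L8Ev (F0.wExp pB.sStar pB.eta pS) llBase N0 l8Siz fun I => I.l9hnDf → I.l9hnDd (I.x ^ a1) (I.x ^ 6) :=
  l9hq_ddHi (l8g_fine T hT) (exit_l8x_ddH T hT) h0 pB hp0 hp1 ha1'

/-- **helper124** (`l9hq_dif`): the hypothesis `Dif` of the points of Sec. 9 in the vocabulary of DD-LINK.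
PLAN: `(Q.j8.wP t).KC j = (Q.I.X0 (l9PtS F N γ t)).KC j` (`wTh` of the point of the size segment = the point at the parameter `t`), `Q.j8.t0 = 6 log (exp (θ / 6)) = θ`; third component of `L9I.Dif`. -/
theorem l9hn_dif {F : LlFix} {𝔹 : LlBase} {N : ℕ} {s L : ℝ} {Fs : Finset GhPos} {m : ℕ} {γ : Fin (N + 1) → ℝ} {θ : ℝ} (h : L9HyS F 𝔹 N s L Fs m γ θ) :
    (l9QS F 𝔹 s Fs m N γ θ).j8.l9hnDf :=
  fun j _ => l9hq_dif F 𝔹 s Fs m N γ θ h j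

/-! ## 5. the last step at one point -/

/-- **`HiNumA` at one point** from `HiNum` (loss `A`, `env1` with `A²`) and `HiLS` (bound `A x^(3 - 2 p_*) Zc²`): every loss `A' ≥ A²` -/
theorem l9hn_fin (Q : L9Q) (c : ℝ) {δm : ℝ} (hAdm : Q.Adm δm) (hOk : Q.j8.Ok) (hsm : Q.p.sm = true) {pS : ℝ} (hp0 : 0 ≤ pS) (hlam : Q.lam = Q.x ^ pS) (hx : 0 < Q.x) (hx1 : Q.x ≤ 1)
    {J0 : ℕ} {a1 a2 bH CH CL K A A' : ℝ} {sig : ℕ → ℝ} (hA : 1 ≤ A) (hAA : A ^ 2 ≤ A') (hCL : 2 ≤ CL) (hZc : 1 ≤ Q.j8.Zc llDStar) (hZg : 0 ≤ Q.Zg (l8Mj c))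
    (hnum : Q.HiNum sig (Q.x ^ a1) (Q.x ^ a2) (A * (Q.x ^ (3 - CH * a1) * Q.Zc (l8Mj c) ^ 2)) (A * (Q.x ^ (3 - CH * a2) * Q.Zc (l8Mj c) ^ 2))
      (min 2 (A * (Q.x ^ (2 + bH) * (Q.Zc (l8Mj c) ^ 2 + Q.Zg (l8Mj c))))) (A * Q.x ^ a1) (A ^ 2 * Q.Y (l8Mj c) ^ 2))
    (hls : Q.HiLS (Q.x ^ a1) sig J0 (A * (Q.j8.x ^ (3 - 2 * pS) * Q.j8.Zc llDStar ^ 2))) :
    Q.HiNumA (l8Mj c) J0 a1 a2 bH CH CL K A' := by
  have eZc : Q.Zc (l8Mj c) = Q.j8.Zc llDStar := l9rs_Zc_S Q c hOk hsm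
  have eZ : Q.Z (l8Mj c) = Q.j8.Z := (l8_Z_eq Q.j8 hOk.pt c).1
  have hA2 : A ≤ A ^ 2 := by nlinarith
  have hA' : A ≤ A' := hA2.trans hAA
  have hA0 : 0 ≤ A := by linarith
  have hp : ∀ e : ℝ, 0 ≤ Q.x ^ e := fun e => (Real.rpow_pos_of_pos hx e).le
  have hab : ∀ y : ℝ, 0 ≤ y → |A * y| ≤ A' * y := fun y hy => by
    rw [abs_of_nonneg (mul_nonneg hA0 hy)]
    exact mul_le_mul_of_nonneg_right hA' hy
  refine ⟨by rw [eZc]; exact hZc, sig, hnum.mono (hab _ (mul_nonneg (hp _) (sq_nonneg _))) (hab _ (mul_nonneg (hp _) (sq_nonneg _)))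
    (min_le_min_left _ (mul_le_mul_of_nonneg_right hA' (mul_nonneg (hp _) (add_nonneg (sq_nonneg _) hZg))))
    (mul_le_mul_of_nonneg_right hA' (hp _)) (mul_le_mul_of_nonneg_right hAA (sq_nonneg _)), hls.mono hAdm ?_⟩
  have hZle : Q.j8.Zc llDStar ≤ Q.j8.Z := min_le_left _ _
  have hZ2 : Q.j8.Zc llDStar ^ 2 ≤ Q.Z (l8Mj c) ^ 2 := by
    rw [eZ]
    exact pow_le_pow_left₀ (by linarith) hZle 2
  have e1 : Q.x ^ (3 : ℕ) * Q.lam ^ (-CL) = Q.x ^ (3 - pS * CL) := by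
    rw [hlam, ← Real.rpow_mul hx.le, ← Real.rpow_natCast, ← Real.rpow_add hx]
    congr 1
    push_cast
    ring
  have h3 : Q.x ^ (3 - 2 * pS) ≤ Q.x ^ (3 : ℕ) * Q.lam ^ (-CL) := by
    rw [e1]
    exact Real.rpow_le_rpow_of_exponent_ge hx hx1 (by nlinarith)
  have h4 : A * (Q.x ^ (3 - 2 * pS) * Q.j8.Zc llDStar ^ 2) ≤ A' * (Q.x ^ (3 : ℕ) * Q.lam ^ (-CL) * Q.Z (l8Mj c) ^ 2) :=
    mul_le_mul hA' (mul_le_mul h3 hZ2 (sq_nonneg _) ((hp _).trans h3)) (mul_nonneg (hp _) (sq_nonneg _)) (hA0.trans hA')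
  have h5 := hp K
  show A * (Q.x ^ (3 - 2 * pS) * Q.j8.Zc llDStar ^ 2) ≤ A' * (Q.x ^ (3 : ℕ) * Q.lam ^ (-CL) * Q.Z (l8Mj c) ^ 2) + Q.x ^ K
  linarith

/-! ## 6. the shape `L9SbS` -/

/-- **THE NUMBERS OF LL 08 FOR HI in the shape `L9SbS`**, from the exits of LL 08; (D15) and `ḋ` above `V_1` enter as events at the given exponents; the threshold on `p_*` depends on the stage B only -/
theorem l9hn_numS {𝔹 : LlBase} {T : ℝ} (hL : L8xLow 𝔹 T) (h11 : L8xD11 𝔹 T) (hf : L8gFine 𝔹 T) {F0 : LlFix} (hF : L8Fix 𝔹 T F0)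
    (pB : LLParB) (hSt : LlcStB 𝔹 F0 pB) :
    ∃ tp : ℝ, 0 < tp ∧ ∀ pS, 0 < pS → pS ≤ tp → ∀ c a1 a2 bH CH CL : ℝ, 0 < a1 → a1 ≤ 1 / 2 → a1 ≤ llDStar / 3 → 0 < a2 → a2 ≤ 1 → 0 ≤ bH → bH ≤ 1 → 0 ≤ CH → 2 ≤ CL →
      (∃ N0 : ℕ, L8Ev (F0.wExp pB.sStar pB.eta pS) 𝔹 N0 l8Siz fun I => I.l9hnD15 c a1 a2 bH CH) →
      (∃ N0 : ℕ, L8Ev (F0.wExp pB.sStar pB.eta pS) 𝔹 N0 l8Siz fun I => I.l9hnDf → I.l9hnDd (I.x ^ a1) (I.x ^ 6)) →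
      ∀ J0 : ℕ, 1 ≤ J0 → L9hiNumS 𝔹 (l8Mj c) (F0.wExp pB.sStar pB.eta pS) J0 a1 a2 bH CH CL := by
  obtain ⟨pL, cE, hpL, hcE, hL⟩ := hL F0 hF pB hSt
  obtain ⟨pD, hpD, h11⟩ := h11 F0 hF pB hSt
  have hd0 : (0 : ℝ) < llDStar := by unfold llDStar; norm_num
  refine ⟨min pL (min pD 1), lt_min hpL (lt_min hpD one_pos), fun pS h0 h1 c a1 a2 bH CH CL ha1 ha1h ha1d ha2 ha2' hb0 hb1 hCH hCL h15 hdd J0 hJ0 => ?_⟩
  have h1' : pS ≤ 1 := h1.trans ((min_le_right _ _).trans (min_le_right _ _))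
  obtain ⟨N15, h15⟩ := h15
  obtain ⟨Ndd, hdd⟩ := hdd
  obtain ⟨v0, v1, hv0, hv1, hL⟩ := hL pS h0 (h1.trans (min_le_left _ _))
  have h11 := h11 pS h0 (h1.trans ((min_le_right _ _).trans (min_le_left _ _)))
  obtain ⟨K, hK, hLS⟩ := l9hn_ls_pt J0 hJ0
  intro Kx δ0 hδ0 ε hε q hq
  -- the inner losses
  obtain ⟨δ, hδdef⟩ : ∃ δ, δ = min δ0 1 / 2 := ⟨_, rfl⟩
  have hδ : 0 < δ := by rw [hδdef]; have := lt_min hδ0 one_pos; positivity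
  have hδ1 : δ ≤ 1 / 2 := by rw [hδdef]; have := min_le_right δ0 1; linarith
  have hδδ : 2 * δ ≤ δ0 := by rw [hδdef]; have := min_le_left δ0 1; linarith
  have hJpos : (0 : ℝ) < 20 + 2 * (J0 : ℝ) := by positivity
  obtain ⟨θ, hθdef⟩ : ∃ θ, θ = min (δ / (20 + 2 * (J0 : ℝ))) (min (a1 / 40) (llDStar / 40)) := ⟨_, rfl⟩
  have hθ : 0 < θ := by rw [hθdef]; exact lt_min (by positivity) (lt_min (by positivity) (by positivity))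
  have hθδ : (20 + 2 * (J0 : ℝ)) * θ ≤ δ := by
    have : θ ≤ δ / (20 + 2 * (J0 : ℝ)) := by rw [hθdef]; exact min_le_left _ _
    rw [le_div_iff₀ hJpos] at this
    linarith
  have hθa : 40 * θ ≤ a1 := by
    have : θ ≤ a1 / 40 := by rw [hθdef]; exact (min_le_right _ _).trans (min_le_left _ _)
    linarith
  have hθd : 40 * θ ≤ llDStar := by
    have : θ ≤ llDStar / 40 := by rw [hθdef]; exact (min_le_right _ _).trans (min_le_right _ _)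
    linarith
  obtain ⟨pm, hpmdef⟩ : ∃ pm : ℕ, pm = max 2 (max J0 ⌈4 / θ⌉₊) := ⟨_, rfl⟩
  have hpm2 : 2 ≤ pm := by rw [hpmdef]; exact le_max_left _ _
  have hpmJ : J0 ≤ pm := by rw [hpmdef]; exact (le_max_left _ _).trans (le_max_right _ _)
  have hpmθ : 8 ≤ 2 * (pm : ℝ) * θ := by
    have h2 : 4 / θ ≤ (pm : ℝ) := (Nat.le_ceil _).trans (by exact_mod_cast (by rw [hpmdef]; exact (le_max_right _ _).trans (le_max_right _ _) : ⌈4 / θ⌉₊ ≤ pm))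
    rw [div_le_iff₀ hθ] at h2
    linarith
  obtain ⟨C0, NL, hL⟩ := hL ε q hε hq pm J0 (θ / 4) (by positivity)
  obtain ⟨C11, N11, h11⟩ := h11 ε q hε hq 2 (by norm_num)
  obtain ⟨Nt, htr⟩ := tlk_I_tr ε q θ 7 hε hq hθ
  have hExp := tlk_expok pB h0 h1'
  have hFok : (F0.wExp pB.sStar pB.eta pS).Ok := (hF.2.2 _ _ _ hExp).sec3.ok
  obtain ⟨Nf, hfine⟩ := L8Ev.of_fine hf hF pB h0 h1' 3 Nt (R := l8Siz)
    (Φ := fun I => I.Fine (I.x ^ (3 : ℝ)) ∧ Nt ≤ I.p.N ∧ I.F = F0.wExp pB.sStar pB.eta pS ∧ l8Siz I.p)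
    (fun I hIF _ hN hR _ hfi => ⟨hfi, hN, hIF, hR⟩)
  obtain ⟨Nf', hfine'⟩ := L8Ev.of_fine hf hF pB h0 h1' 0 0 (R := l8Siz) (Φ := fun I => I.Fine (I.x ^ (0 : ℝ))) (fun I _ _ _ _ _ hfi => hfi)
  obtain ⟨C, Nn, hnum⟩ := l9hs_num hθ hv0 ha1 ha1h ha2 ha2' hCH ha1d (by linarith : a1 ≤ 3 * a1) C0 C11
  obtain ⟨Ne, hev⟩ := l8q_evS (show (F0.wExp pB.sStar pB.eta pS).pS ≤ 12 by show pS ≤ 12; linarith)
    (((((h15.and hL).and h11).and hfine).and hfine').and hdd) hε hq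
  obtain ⟨Nb, hbig⟩ := l9hn_big θ (1 / min 1 v0 + (|C| + 2) * (|C0| + 1) ^ 2) hθ
  obtain ⟨Nc, hsm⟩ := l9s_small (a1 - θ) (|C| + 1) (by linarith) (by positivity)
  obtain ⟨Cf, hCf⟩ : ∃ Cf, Cf = |C| + 20 * (K * |l8lrC J0 θ |C| (|C0| + 1)|) + 2 := ⟨_, rfl⟩
  have hCf0 : 0 < Cf := by rw [hCf]; positivity
  obtain ⟨Nd, hsm3⟩ := l9s_small (3 - δ) Cf (by linarith) hCf0
  refine ⟨Cf ^ 2, max (max Nn Ne) (max Nb (max Nc Nd)) + 1, fun N hN => ?_⟩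
  have q1 := le_max_left (max Nn Ne) (max Nb (max Nc Nd))
  have q2 := le_max_right (max Nn Ne) (max Nb (max Nc Nd))
  have q3 := le_max_left Nn Ne
  have q4 := le_max_right Nn Ne
  have q5 := le_max_left Nb (max Nc Nd)
  have q6 := le_max_right Nb (max Nc Nd)
  have q7 := le_max_left Nc Nd
  have q8 := le_max_right Nc Nd
  obtain ⟨J, hnum⟩ := hnum N (by omega)
  have hbig := hbig N (by omega)
  have hsm := hsm N (by omega)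
  have hsm3 := hsm3 N (by omega)
  filter_upwards [hev N (by omega)] with Fs g m γ θ' hHy
  obtain ⟨hOk, hstp, ⟨⟨⟨⟨g15, hZc, e, hAll⟩, g11⟩, hfi, hNt, hIF, hsz⟩, hfi'⟩, gdd⟩ := g m γ θ' hHy
  have gdd := gdd (l9hn_dif hHy)
  set Q := l9QS (F0.wExp pB.sStar pB.eta pS) 𝔹 (q * skX N ^ (1 + ε)) Fs m N γ θ' with hQ
  rw [Real.rpow_zero] at hfi'
  have hIFok : Q.j8.F.Ok := hIF ▸ hFok
  have hs : Q.j8.s = q * Q.j8.x ^ (1 + ε) := rfl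
  have hx : 0 < skX N := l9t_skX_pos (N := N) (by omega)
  have hx1 : skX N ≤ 1 := l9b_skX_le_one (by omega)
  have H : L9hsHyp Q.j8 e c (C * skX N ^ (-θ)) (C0 * skX N ^ (-(θ / 4))) ((|C0| + |C11| + 1) * skX N ^ (-(θ / 4))) a1 a2 bH CH a1 v0 v1 cE ε q C11
      (skX N ^ (-θ)) (skX N ^ 7) (skX N ^ (3 : ℝ)) pm J0 J :=
    { ok := hOk, fok := hIFok, sm := hsz.1, fine := hfi, z1 := hZc, all := hAll, pm2 := hpm2, s_eq := hs, stop := hstp,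
      d11 := fun tl => g11 tl fun _ => ⟨hs, hstp⟩, d15f := g15.1, d151 := g15.2.1, d152 := g15.2.2,
      tr := htr Q.j8 hNt hOk hIFok hfi' hs hstp, num := hnum }
  obtain ⟨-, -, hA2, sig, hSup, hls⟩ := l9hn_pt hK hLS Q hsz h0 h1' rfl rfl rfl rfl hx hx1 H hv0 hθ hθδ hθa hθd hpmθ hbig hsm hpmJ (δ := δ)
  rw [← hCf] at hA2 hSup hls
  have hAx : Cf * skX N ^ (-δ) * skX N ^ 3 ≤ 2 := by
    have e1 : skX N ^ (-δ) * skX N ^ 3 = skX N ^ (3 - δ) := by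
      rw [← Real.rpow_natCast, ← Real.rpow_add hx]; congr 1; push_cast; ring
    rw [mul_assoc, e1]
    linarith
  have hN' := l9hn_num_pt (F0.wExp pB.sStar pB.eta pS) 𝔹 (q * skX N ^ (1 + ε)) Fs m N γ θ' hOk hFok hfi' hSup gdd hA2 hAx hb0 hb1 hCH ha1.le
  have hAA : (Cf * skX N ^ (-δ)) ^ 2 ≤ Cf ^ 2 * skX N ^ (-δ0) := by
    have e2 : (skX N ^ (-δ)) ^ 2 = skX N ^ (-(2 * δ)) := by
      rw [← Real.rpow_natCast, ← Real.rpow_mul hx.le]; congr 1; push_cast; ring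
    rw [mul_pow, e2]
    exact mul_le_mul_of_nonneg_left (Real.rpow_le_rpow_of_exponent_ge hx hx1 (by linarith)) (sq_nonneg _)
  exact l9hn_fin Q c (l9rs_adm Q hOk hfi).1 hOk hsz.1 h0.le rfl hx hx1 (one_le_two.trans hA2) hAA hCL hZc (le_trans zero_le_one (le_max_left _ _)) hN' hls

/-! ## 7. the filter -/

/-- the exponents of `par` -/
theorem l9hn_par (par : LLPar) : 100 * par.a1 ≤ par.bH ∧ 100 * par.a2 ≤ par.a1 ∧ 100 * par.pStar ≤ par.a2 ∧ 1 ≤ par.kPr := by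
  have e1 : 1 * par.a1 ≤ par.CH * par.a1 := mul_le_mul_of_nonneg_right par.CH_ge par.a1_pos.le
  have e2 : 1 * par.a2 ≤ par.CH * par.a2 := mul_le_mul_of_nonneg_right par.CH_ge par.a2_pos.le
  have e3 : 1 * par.pStar ≤ par.CL * par.pStar := mul_le_mul_of_nonneg_right par.CL_ge par.pStar_pos.le
  have f1 := par.a1_le
  have f2 := par.a2_le
  have f3 := par.pStar_le_a2
  refine ⟨by linarith, by linarith, by linarith, ?_⟩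
  have h := par.kPr_ge
  by_contra hh
  have h0 : par.kPr = 0 := by omega
  rw [h0] at h
  norm_num at h

/-- **`exit_l9_hiNumS`** `:= l9hn_good T hT F0 h0 hG (exit_dlow T hT) (exit_d11 T hT) (l9hm_d15 T hT F0 h0 hG)` -/
theorem l9hn_good (T : ℝ) (hT : 1 < T) (F0 : LlFix) (h0 : L8Fix llBase T F0) (hG : LlcG1Exit llBase T) (hlow : L8xLow llBase T) (h11 : L8xD11 llBase T)
    (h15 : LLGood fun par => ∃ N0 : ℕ, L8Ev (l9qF F0 par) llBase N0 l8Siz fun I => I.l9hnD15 par.cC par.a1 par.a2 par.bH par.CH) :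
    LLGood fun par => L9hiNumS llBase (l9qMj par) (l9qF F0 par) par.kPr par.a1 par.a2 par.bH par.CH par.CL := by
  have key : LLGood fun par => (∃ N0 : ℕ, L8Ev (l9qF F0 par) llBase N0 l8Siz fun I => I.l9hnD15 par.cC par.a1 par.a2 par.bH par.CH) →
      L9hiNumS llBase (l9qMj par) (l9qF F0 par) par.kPr par.a1 par.a2 par.bH par.CH par.CL := by
    refine l9q_of_stB hG h0 fun pB hSt => ?_
    obtain ⟨tp, htp, H⟩ := l9hn_numS hlow h11 (l8g_fine T hT) h0 pB hSt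
    have hC : ∀ᶠ par in l9qFilB pB, 2 ≤ par.CL := l9q_FilB_of (l9q_FC_CL pB 2)
    have hp : ∀ᶠ par in l9qFilB pB, par.pStar ≤ tp := l9q_FilB_intro fun pC _ => l9q_FilC_of (l9q_FD_pStar pC htp)
    filter_upwards [l9q_FilB_to pB, hC, hp] with par e1 hCL hpt h15
    subst e1
    obtain ⟨d1, d2, d3, hk⟩ := l9hn_par par
    have hd : llDStar = 1 / 10000 := rfl
    have c3 := par.bH_le
    have c4 := par.a0_le_dStar
    have c6 := par.a1_pos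
    have c7 := par.a2_pos
    have c8 := par.bH_pos
    have c9 := par.a0_pos
    have c1 := par.CH_ge
    have hp1 : par.pStar ≤ 1 := by linarith
    exact H par.pStar par.pStar_pos hpt par.cC par.a1 par.a2 par.bH par.CH par.CL c6 (by linarith) (by linarith) c7 (by linarith) c8.le (by linarith) (by linarith) hCL h15
      (l9hn_ddHi T hT F0 h0 par.toLLParB par.pStar_pos hp1 c6 (by linarith)) par.kPr hk
  filter_upwards [key, h15] with par h1 h2 using h1 h2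

end Claimed.Agent.R286
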