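import Claimed.Agent.R286.L08.DSup
import Claimed.Agent.R286.L08.TlTil
import Claimed.Agent.R286.L09.HiTab
import Claimed.Agent.R286.LL.PathsClkE

/-!
# Row 286 (S0533), LL Sec. 9, node HI, file L09/HiSup : THE SUPPLIES OF LL 08 / LL 03 AT ONE INSTANCE AND IN THE SHAPE `L9SbS`      (owner helper124; head of the node helper235; tables helper113; prefix `l9hs`, `L9hs`, `L8In.HiSup`)

TEX[LL:exp:high-table] 09-expansion.tex l.327-395;   TEX[LL:eq:D15] 08 l.1320-1345;   TEX[LL:par:statistics-tilt-transfer] 08 l.889-915;   (D2), (D11): `L8xLow`, `L8xD11`.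
RECORD `I.HiSup c A a1 a2 bH CH gs sig` (`I : L8In`, smoothed size path, on the stop; `A = C x^(-δ)`, `V_i = x^(a_i)`):
| field | text | source |
| `pair : L9htP I.X I.n I.S (llMs I.a I.LP) sig V1 V2 D1 D2`, `D_i = A x^(3 - CH a_i) Zc²` | record of 113 (`L09/HiTab.lean`) | st1/st2 untilted = (D15) `L8xD15`; TILTED = `l9hs_var_til` (transfer `TlkTr` of 189, `tlk_mom2`, loss `2 M`); low = (D2) + (D11) fourth moments |
| `sig0`, `sigsg : sig ≤ A x^gs`, `env1 : ∑_{v < V1} μ sig ≤ A² Yc²` | envelope `sig = A min (e, x^gs)` on the cuts, `0` beyond | `Env.bud` by dyadic bands (`l9hs_env_int`) |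
| `fH`, `fL` | `f = S - q` | (D15) means; `Env.f_le` + (D11) |
| `dH : |d| ≤ A x³` above `V1`, `dL : |d| + |ḋ| ≤ sig` below | (P6) on a smoothed path (`l9hs_d_path`), LEFT-end reading `Fine.d_left` (`l9hs_left`); `Env.d_le` |
EXIT `l9hs_supS` : `L8xD15 + L8xLow + L8xD11 + L8gFine ⟹ L9hsSupS` with the order of the thresholds of (D15).
FIT NOTES.   (a) `exit_d15` is UNTILTED: the tilted `st1, st2` come from `TlkTr`.   (b) `sg = A x^gs` with `gs ≤ min (δ*/3, 3 a1)` (take `gs = a1 ≤ δ*/3`): masked cuts have `|S| ≤ 2 A Yc ≤ x^(δ*/3)`, low `d ≤ A0² max(v,Y)³`.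
(c) `env1` has `A²`: absorb by `δ/2` in the shape `L9SbS`.   (d) the atom `k = N + 1` is not below `V1` (`ms = a ≥ 1`).   (e) `ḋ` ABOVE `V1` is NOT here: `L08/DdHigh.lean` (`l8dh_link`, `L¹` excess; ruling of 60, 07:00Z).
(f) dictionary to `Q : L9Q`: `Q.X en = Q.j8.X en`, `Q.N = Q.j8.n` (`rfl`), `l8q_ms`, `l8q_Zc`, `l8q_Y`, `l8q_dA_S` (`L08/DSup.lean`, 220).
-/

set_option autoImplicit false

namespace Claimed.Agent.R286

open MeasureTheory Set Filter Finset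

/-! ## 1. the envelope integral on a chain (Mathlib only) -/

/-- telescoping on an initial segment: the cells of the cuts of mass `≤ c` have total length `≤ c` -/
theorem l9hs_ini {n : ℕ} {v dv : ℕ → ℝ} (hdv : ∀ k, dv k = v k - (if k = 0 then 0 else v (k - 1)))
    (h0 : 0 ≤ v 0) (hmono : ∀ i j, i ≤ j → j ≤ n → v i ≤ v j) {c : ℝ} (hc : 0 ≤ c) :
    ∑ k ∈ (range (n + 1)).filter (fun k => v k ≤ c), dv k ≤ c := by
  have key : ∀ M, M ≤ n + 1 → ∑ k ∈ (range M).filter (fun k => v k ≤ c), dv k ≤ min c (if M = 0 then 0 else v (M - 1)) := by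
    intro M
    induction M with
    | zero => intro _; simp [hc]
    | succ M ih =>
      intro hM
      have ih' := ih (by omega)
      have hpm : (if M = 0 then 0 else v (M - 1)) ≤ v M := by
        split_ifs with h
        · subst h; exact h0
        · exact hmono _ _ (by omega) (by omega)
      rw [range_add_one, filter_insert]
      simp only [Nat.succ_ne_zero, if_false, Nat.add_sub_cancel]
      split_ifs with hv
      · rw [sum_insert (by simp)]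
        have h1 := ih'.trans (min_le_right _ _)
        rw [hdv M]
        exact le_min (by linarith) (by linarith)
      · exact le_min (ih'.trans (min_le_left _ _)) ((ih'.trans (min_le_right _ _)).trans hpm)
  exact (key (n + 1) le_rfl).trans (min_le_left _ _)

/-- one dyadic band: `∑ dv e ≤ (A/2 + 1) Y²` from `∑ dv e² ≤ A r (Y²/r)²`, `∑ dv ≤ 2 r` -/
theorem l9hs_band {s : Finset ℕ} {dv e : ℕ → ℝ} {Y A r : ℝ} (hdv : ∀ k ∈ s, 0 ≤ dv k) (hY : 0 < Y) (hr : 0 < r)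
    (h2 : ∑ k ∈ s, dv k * e k ^ 2 ≤ A * r * (Y ^ 2 / r) ^ 2) (h1 : ∑ k ∈ s, dv k ≤ 2 * r) :
    ∑ k ∈ s, dv k * e k ≤ (A / 2 + 1) * Y ^ 2 := by
  have hpt : ∀ k ∈ s, dv k * e k ≤ r / (2 * Y ^ 2) * (dv k * e k ^ 2) + Y ^ 2 / (2 * r) * dv k := by
    intro k hk
    have hd := hdv k hk
    have h3 : e k ≤ r / (2 * Y ^ 2) * e k ^ 2 + Y ^ 2 / (2 * r) := by
      have h4 : 0 ≤ (r * e k - Y ^ 2) ^ 2 / (2 * r * Y ^ 2) := by positivity
      have e4 : (r * e k - Y ^ 2) ^ 2 / (2 * r * Y ^ 2) = r / (2 * Y ^ 2) * e k ^ 2 + Y ^ 2 / (2 * r) - e k := by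
        field_simp
        ring
      linarith
    calc dv k * e k ≤ dv k * (r / (2 * Y ^ 2) * e k ^ 2 + Y ^ 2 / (2 * r)) := mul_le_mul_of_nonneg_left h3 hd
      _ = _ := by ring
  calc ∑ k ∈ s, dv k * e k ≤ ∑ k ∈ s, (r / (2 * Y ^ 2) * (dv k * e k ^ 2) + Y ^ 2 / (2 * r) * dv k) := sum_le_sum hpt
    _ = r / (2 * Y ^ 2) * ∑ k ∈ s, dv k * e k ^ 2 + Y ^ 2 / (2 * r) * ∑ k ∈ s, dv k := by
        rw [sum_add_distrib, mul_sum, mul_sum]
    _ ≤ r / (2 * Y ^ 2) * (A * r * (Y ^ 2 / r) ^ 2) + Y ^ 2 / (2 * r) * (2 * r) := by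
        have a1 : 0 ≤ r / (2 * Y ^ 2) := by positivity
        have a2 : 0 ≤ Y ^ 2 / (2 * r) := by positivity
        exact add_le_add (mul_le_mul_of_nonneg_left h2 a1) (mul_le_mul_of_nonneg_left h1 a2)
    _ = (A / 2 + 1) * Y ^ 2 := by
        field_simp

/-- a mass in `(Y, 2^J Y)` lies in a dyadic band -/
theorem l9hs_dy {Y w : ℝ} : ∀ J : ℕ, Y < w → w < 2 ^ J * Y → ∃ j, j < J ∧ 2 ^ j * Y ≤ w ∧ w ≤ 2 * (2 ^ j * Y) := by
  intro J
  induction J with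
  | zero => intro h1 h2; simp at h2; linarith
  | succ J ih =>
    intro h1 h2
    rcases lt_or_ge w (2 ^ J * Y) with h | h
    · obtain ⟨j, hj, h3⟩ := ih h1 h
      exact ⟨j, by omega, h3⟩
    · exact ⟨J, by omega, h, by rw [pow_succ] at h2; linarith⟩

/-- **`∫_{v < V} e dv ≲ J Y²`** on a chain (09 l.362-366; Prop. 8.1, last display) -/
theorem l9hs_env_int {n : ℕ} {v dv e : ℕ → ℝ} {Y A vt V : ℝ} {J : ℕ} (hdv : ∀ k ≤ n, 0 ≤ dv k)
    (hini : ∀ c, 0 ≤ c → ∑ k ∈ (range (n + 1)).filter (fun k => v k ≤ c), dv k ≤ c)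
    (hY : 0 < Y) (hA : 0 ≤ A) (he : ∀ k ≤ n, 0 ≤ e k) (hlow : ∀ k ≤ n, v k ≤ Y → e k = Y)
    (hbud : ∀ r, Y ≤ r → r ≤ vt → ∑ k ∈ (range (n + 1)).filter (fun k => r ≤ v k ∧ v k ≤ 2 * r), dv k * e k ^ 2 ≤ A * r * (Y ^ 2 / r) ^ 2)
    (hVt : V ≤ vt) (hV : V ≤ 2 ^ J * Y) :
    ∑ k ∈ (range (n + 1)).filter (fun k => v k < V), dv k * e k ≤ (1 + J * (A / 2 + 1)) * Y ^ 2 := by
  classical
  have hle : ∀ k ∈ range (n + 1), k ≤ n := fun k hk => Nat.lt_succ_iff.1 (mem_range.1 hk)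
  have hpt : ∀ k ∈ range (n + 1), (if v k < V then dv k * e k else 0)
      ≤ (if v k ≤ Y then dv k * e k else 0)
        + ∑ j ∈ range J, if 2 ^ j * Y ≤ vt then (if 2 ^ j * Y ≤ v k ∧ v k ≤ 2 * (2 ^ j * Y) then dv k * e k else 0) else 0 := by
    intro k hk
    have ht : 0 ≤ dv k * e k := mul_nonneg (hdv k (hle k hk)) (he k (hle k hk))
    have hs : 0 ≤ ∑ j ∈ range J, if 2 ^ j * Y ≤ vt then (if 2 ^ j * Y ≤ v k ∧ v k ≤ 2 * (2 ^ j * Y) then dv k * e k else 0) else 0 :=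
      sum_nonneg fun j _ => by split_ifs <;> first | exact ht | exact le_rfl
    by_cases h1 : v k < V
    · rw [if_pos h1]
      by_cases h2 : v k ≤ Y
      · rw [if_pos h2]; linarith
      · rw [if_neg h2, zero_add]
        obtain ⟨j, hj, h3, h4⟩ := l9hs_dy J (not_le.1 h2) (h1.trans_le hV)
        refine le_trans (le_of_eq ?_) (single_le_sum (f := fun j => if 2 ^ j * Y ≤ vt then
          (if 2 ^ j * Y ≤ v k ∧ v k ≤ 2 * (2 ^ j * Y) then dv k * e k else 0) else 0)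
          (fun j _ => by split_ifs <;> first | exact ht | exact le_rfl) (mem_range.2 hj))
        show dv k * e k = if 2 ^ j * Y ≤ vt then (if 2 ^ j * Y ≤ v k ∧ v k ≤ 2 * (2 ^ j * Y) then dv k * e k else 0) else 0
        rw [if_pos (by linarith), if_pos ⟨h3, h4⟩]
    · rw [if_neg h1]
      have : 0 ≤ (if v k ≤ Y then dv k * e k else 0) := by split_ifs <;> first | exact ht | exact le_rfl
      linarith
  have hlowS : ∑ k ∈ (range (n + 1)).filter (fun k => v k ≤ Y), dv k * e k ≤ Y ^ 2 := by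
    calc ∑ k ∈ (range (n + 1)).filter (fun k => v k ≤ Y), dv k * e k
        = ∑ k ∈ (range (n + 1)).filter (fun k => v k ≤ Y), dv k * Y :=
          sum_congr rfl fun k hk => by rw [hlow k (hle k (mem_filter.1 hk).1) (mem_filter.1 hk).2]
      _ = (∑ k ∈ (range (n + 1)).filter (fun k => v k ≤ Y), dv k) * Y := by rw [sum_mul]
      _ ≤ Y * Y := mul_le_mul_of_nonneg_right (hini Y hY.le) hY.le
      _ = Y ^ 2 := by ring
  have hB0 : 0 ≤ (A / 2 + 1) * Y ^ 2 := by positivity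
  have hbandS : ∀ j ∈ range J, (∑ k ∈ range (n + 1), if 2 ^ j * Y ≤ vt then
      (if 2 ^ j * Y ≤ v k ∧ v k ≤ 2 * (2 ^ j * Y) then dv k * e k else 0) else 0) ≤ (A / 2 + 1) * Y ^ 2 := by
    intro j _
    by_cases hj : 2 ^ j * Y ≤ vt
    · simp only [if_pos hj]
      rw [← sum_filter]
      have hr : 0 < 2 ^ j * Y := by positivity
      have hYr : Y ≤ 2 ^ j * Y := by
        have : (1 : ℝ) ≤ 2 ^ j := one_le_pow₀ (by norm_num)
        nlinarith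
      refine l9hs_band (fun k hk => hdv k (hle k (mem_filter.1 hk).1)) hY hr (hbud _ hYr hj) ?_
      refine le_trans (sum_le_sum_of_subset_of_nonneg (fun k hk => ?_) fun k hk _ => hdv k (hle k (mem_filter.1 hk).1))
        (hini (2 * (2 ^ j * Y)) (by positivity))
      rw [mem_filter] at hk ⊢
      exact ⟨hk.1, hk.2.2⟩
    · simp only [if_neg hj, sum_const_zero]
      exact hB0
  rw [sum_filter]
  calc ∑ k ∈ range (n + 1), (if v k < V then dv k * e k else 0)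
      ≤ ∑ k ∈ range (n + 1), ((if v k ≤ Y then dv k * e k else 0)
        + ∑ j ∈ range J, if 2 ^ j * Y ≤ vt then (if 2 ^ j * Y ≤ v k ∧ v k ≤ 2 * (2 ^ j * Y) then dv k * e k else 0) else 0) :=
        sum_le_sum hpt
    _ = ∑ k ∈ (range (n + 1)).filter (fun k => v k ≤ Y), dv k * e k
        + ∑ j ∈ range J, ∑ k ∈ range (n + 1), if 2 ^ j * Y ≤ vt then
          (if 2 ^ j * Y ≤ v k ∧ v k ≤ 2 * (2 ^ j * Y) then dv k * e k else 0) else 0 := by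
        rw [sum_add_distrib, sum_comm, sum_filter]
    _ ≤ Y ^ 2 + ∑ _j ∈ range J, (A / 2 + 1) * Y ^ 2 := add_le_add hlowS (sum_le_sum hbandS)
    _ = (1 + J * (A / 2 + 1)) * Y ^ 2 := by
        rw [sum_const, card_range, nsmul_eq_mul]; ring

noncomputable section

/-! ## 2. the pair numbers at one instance -/

variable {I : L8In}

/-- active pair: integral under the fork law -/
theorem l9hs_pn_act (h : I.Std) {tl : Bool} {t : ℕ} (ht : I.act tl t) (g : ℝ → ℝ) :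
    l9htPm I.X I.n I.S tl t g = ∫ ω, g ((I.sp tl).Q ω - I.S t) ∂(I.sp tl).fork t := by
  unfold l9htPm l9htDl
  rw [l8d_msk_act ht]
  simp only [one_mul]
  exact l8d_pair h tl ht.1 fun y => g (y - I.S t)

/-- masked pair of the tilted ensemble: `δ = - S` is deterministic -/
theorem l9hs_pn_off (h : I.Std) {t : ℕ} (ht : t ≤ I.js) (g : ℝ → ℝ) : l9htPm I.X I.n I.S true t g = g (-I.S t) := by
  unfold l9htPm l9htDl
  rw [l8d_msk_off ht]
  simp only [zero_mul, zero_sub]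
  exact (l8d_law h true).nu.const 2 _ _

theorem l9hs_S_abs (h : I.Std) {t : ℕ} (ht : t ≤ I.n) : |I.S t| ≤ 1 := by
  rw [← l8d_S h ht]
  exact (l8d_law h false).nu.abs_le_const 2 _ fun σ => (l8d_law h false).ov_abs _ _

/-- the factors are bounded by `2` -/
theorem l9hs_bdd (h : I.Std) (tl : Bool) {t : ℕ} (ht : t ≤ I.n) (s s' : SkCfg I.m) :
    |(I.X tl).msk t * (I.X tl).ov s s' - I.S t| ≤ 2 := by
  have h1 := (l8d_law h tl).ov_abs s s'
  have h2 := l9hs_S_abs h ht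
  have h3 : |(I.X tl).msk t * (I.X tl).ov s s'| ≤ 1 := by
    rcases (l8d_law h tl).msk t with e | e
    · rw [e, zero_mul, abs_zero]; exact zero_le_one
    · rw [e, one_mul]; exact h1
  exact (abs_sub _ _).trans (by linarith)

/-- untilted variance -/
theorem l9hs_pn_D2 (h : I.Std) {t : ℕ} (ht : t ≤ I.n) : l9htPm I.X I.n I.S false t (fun y => y ^ 2) = I.D2 t := by
  unfold l9htPm l9htDl
  rw [l8d_msk_act (I := I) (tl := false) ⟨ht, by simp⟩]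
  simp only [one_mul]
  exact l8d_D2 h ht

/-- a cut of mass `> s` is active -/
theorem l9hs_act (h : I.Std) {η : ℝ} (hf : I.Fine η) (tl : Bool) {t : ℕ} (ht : t ≤ I.n) (hs : I.s < I.v t) : I.act tl t := by
  refine ⟨ht, fun _ => ?_⟩
  by_contra hcon
  have h1 := l8d_v_mono h (i := t) (j := I.js) (by omega) hf.js_lt.le
  rw [hf.js_m] at h1
  linarith

/-- **(D15) in the tilted ensemble**: transfer of the variance by truncation of the density (189): NO Hölder loss in `D_H` -/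
theorem l9hs_var_til (h : I.Std) {M δt B : ℝ} (htr : TlkTr (I.sp true) (I.sp false) (I.js + 1) M δt) (hM : 1 ≤ M) (hB : 0 ≤ B)
    (herr : 4 * δt ≤ B ^ 2) {t : ℕ} (ht : I.act true t) (hD : I.D2 t ≤ B ^ 2) : l9htPm I.X I.n I.S true t (fun y => y ^ 2) ≤ (2 * M * B) ^ 2 := by
  rw [l9hs_pn_act h ht]
  have hk : I.js + 1 ≤ t := ht.2 rfl
  have hsrc : ∫ ω, ((I.sp false).Q ω - I.S t) ^ (2 * 1) ∂(I.sp false).fork t ≤ (1 * B) ^ (2 * 1) := by
    have e1 : ∫ ω, ((I.sp false).Q ω - I.S t) ^ (2 * 1) ∂(I.sp false).fork t = I.D2 t := by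
      have := l9hs_pn_act h (tl := false) (t := t) ⟨ht.1, by simp⟩ fun y => y ^ 2
      rw [l9hs_pn_D2 h ht.1] at this
      exact this.symm
    rw [e1]
    simpa using hD
  have hb : ∀ ω, |(I.sp false).Q ω - I.S t| ≤ 2 := by
    intro ω
    have h1 : |(I.sp false).Q ω| ≤ 1 := by
      unfold L8In.sp
      rw [l8d_Q]
      exact ll2_ov_abs _ _
    have h2 := l9hs_S_abs h ht.1
    exact (abs_sub _ _).trans (by linarith)
  have key := tlk_mom2 htr hk ((tlk_Q (I.sp true) (I.sp false) (I.js + 1)).sub_const (I.S t)) (G0 := 2) (A0 := 1) (A := 2 * M) (B := B)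
    (r := 1) le_rfl hb hsrc hM (by rw [abs_one]; linarith) hB (by norm_num; linarith)
  simpa using key

/-- `(a - b)⁴ ≤ 8 (a⁴ + b⁴)` -/
theorem l9hs_four (a b : ℝ) : (a - b) ^ 4 ≤ 8 * a ^ 4 + 8 * b ^ 4 := by
  nlinarith [sq_nonneg (a + b), sq_nonneg (a ^ 2 - b ^ 2), sq_nonneg (a - b), sq_nonneg (a ^ 2 + b ^ 2 + 2 * a * b),
    mul_nonneg (sq_nonneg (a + b)) (sq_nonneg (a - b)), mul_nonneg (sq_nonneg (a + b)) (sq_nonneg (a + b))]

/-- fourth moment of `δ = Δ - f` from the envelope of `Δ` and the bound of `f` -/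
theorem l9hs_low (h : I.Std) (tl : Bool) (t : ℕ) {E : ℝ} (hE : L9rEnv (I.X tl) 4 t E) (hf : |I.f t| ≤ E) :
    l9htPm I.X I.n I.S tl t (fun y => y ^ 4) ≤ (2 * E) ^ 4 := by
  have hX := (l8d_law h tl).nu
  have hE0 : 0 ≤ E := (abs_nonneg _).trans hf
  unfold L9rEnv at hE
  have e0 : (I.X tl).N = I.n := rfl
  have eq : (I.X tl).qC t = I.q t := rfl
  rw [e0, eq] at hE
  unfold l9htPm l9htDl
  have hpt : ∀ σ : ℕ → SkCfg I.m, ((I.X tl).msk t * (I.X tl).ov (σ 0) (σ 1) - I.S t) ^ 4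
      ≤ 8 * |(I.X tl).msk t * (I.X tl).ov (σ 0) (σ 1) - I.q t| ^ 4 + 8 * I.f t ^ 4 := by
    intro σ
    have e1 : (I.X tl).msk t * (I.X tl).ov (σ 0) (σ 1) - I.S t = ((I.X tl).msk t * (I.X tl).ov (σ 0) (σ 1) - I.q t) - I.f t := by
      unfold L8In.f; ring
    rw [e1, show (4 : ℕ) = 2 * 2 from rfl, (even_two_mul 2).pow_abs]
    exact l9hs_four _ _
  refine (hX.mono 2 _ hpt).trans ?_
  rw [hX.add, hX.const_mul, hX.const]
  have hf4 : I.f t ^ 4 ≤ E ^ 4 := by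
    rw [show (4 : ℕ) = 2 * 2 from rfl, ← (even_two_mul 2).pow_abs]
    exact pow_le_pow_left₀ (abs_nonneg _) hf _
  calc _ ≤ 8 * E ^ 4 + 8 * E ^ 4 := by linarith
    _ = (2 * E) ^ 4 := by ring

/-! ## 3. the defect above the mask on a smoothed path -/

/-- `λ₁ U³ ≤ x³` -/
theorem l9hs_lamU {p : LlPt} {F : LlFix} (hp : p.Ok F) (hF : F.Ok) : p.lam1 F * p.U F ^ 3 ≤ p.x ^ 3 := by
  have hx0 := llc_x_pos hp
  have hl0 := lce_lam_pos hp
  have hl1 := lce_lam_le_one hp hF.pS0.le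
  have hU0 := (lce_U_pos hp).le
  have hU : p.U F ≤ p.x * p.lam ^ (-(F.sS / 2)) := min_le_right _ _
  have h1 : p.U F ^ 3 ≤ (p.x * p.lam ^ (-(F.sS / 2))) ^ 3 := pow_le_pow_left₀ hU0 hU 3
  have hl10 : 0 ≤ p.lam1 F := (Real.rpow_pos_of_pos hl0 _).le
  have e1 : p.lam1 F * (p.x * p.lam ^ (-(F.sS / 2))) ^ 3 = p.x ^ 3 * p.lam ^ (1 + F.eta - 3 * F.sS / 2) := by
    unfold LlPt.lam1
    rw [mul_pow, ← Real.rpow_natCast (p.lam ^ (-(F.sS / 2))) 3, ← Real.rpow_mul hl0.le, mul_left_comm, ← Real.rpow_add hl0]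
    congr 2
    push_cast
    ring
  have h2 : p.lam ^ (1 + F.eta - 3 * F.sS / 2) ≤ 1 := Real.rpow_le_one hl0.le hl1 (by linarith [hF.sS1, hF.eta0])
  calc p.lam1 F * p.U F ^ 3 ≤ p.lam1 F * (p.x * p.lam ^ (-(F.sS / 2))) ^ 3 := mul_le_mul_of_nonneg_left h1 hl10
    _ = p.x ^ 3 * p.lam ^ (1 + F.eta - 3 * F.sS / 2) := e1
    _ ≤ p.x ^ 3 * 1 := mul_le_mul_of_nonneg_left h2 (by positivity)
    _ = p.x ^ 3 := mul_one _

/-- **(P6) on a smoothed path**: `|d(v)| ≤ x³ (3 + log (1/x))` for `v ≥ x`      (03 "Size derivatives": `d = O_∘(x³)`) -/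
theorem l9hs_d_path {p : LlPt} {F : LlFix} (𝔹 : LlBase) (hp : p.Ok F) (hF : F.Ok) (hsm : p.sm = true) {v : ℝ} (hv : p.x ≤ v) :
    |p.d F 𝔹 v| ≤ p.x ^ 3 * (3 + Real.log (1 / p.x)) := by
  have hx0 := llc_x_pos hp
  have hx1 := llc_x_le_one hp
  have e : p.d F 𝔹 v = p.Hlo F v + p.chiL * p.Hlin F v := by
    unfold LlPt.d LlPt.h
    rw [if_neg (not_lt.2 hv), (hp.sm_fin hsm).2]
    ring
  have hm : p.x ≤ min v p.ell := le_min hv (by linarith [hp.ell1])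
  have a1 : 0 ≤ Real.log (min v p.ell / p.x) := Real.log_nonneg ((one_le_div hx0).2 hm)
  have a2 : Real.log (min v p.ell / p.x) ≤ 1 + Real.log (1 / p.x) := by
    have h1 : min v p.ell / p.x ≤ 2 * (1 / p.x) := by
      rw [mul_one_div]
      exact div_le_div_of_nonneg_right ((min_le_right _ _).trans (lce_ell_le hp)) hx0.le
    have h2 : Real.log (min v p.ell / p.x) ≤ Real.log (2 * (1 / p.x)) :=
      Real.log_le_log (div_pos (hx0.trans_le hm) hx0) h1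
    rw [Real.log_mul (by norm_num) (by positivity)] at h2
    have h3 : Real.log 2 ≤ 1 := by
      have := Real.log_two_lt_d9
      linarith
    linarith
  have hLU := l9hs_lamU hp hF
  have hLU0 : 0 ≤ p.lam1 F * p.U F ^ 3 :=
    mul_nonneg (Real.rpow_pos_of_pos (lce_lam_pos hp) _).le (pow_nonneg (lce_U_pos hp).le 3)
  have hL0 : 0 ≤ Real.log (1 / p.x) := Real.log_nonneg (by rw [le_div_iff₀ hx0]; linarith)
  have t1 : |p.Hlo F v| ≤ p.x ^ 3 * (1 + Real.log (1 / p.x)) := by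
    unfold LlPt.Hlo
    rw [abs_of_nonneg (mul_nonneg hLU0 a1)]
    exact mul_le_mul hLU a2 a1 (by positivity)
  have t2 : |p.chiL * p.Hlin F v| ≤ p.x ^ 3 * 2 := by
    have b1 : 0 ≤ max 0 (min v p.ell - 4 * F.vb) := le_max_left _ _
    have b2 : max 0 (min v p.ell - 4 * F.vb) ≤ 2 :=
      max_le (by norm_num) (by linarith [(min_le_right v p.ell).trans (lce_ell_le hp), hF.vb0])
    have b3 : 0 ≤ p.Hlin F v := mul_nonneg (by positivity) b1
    have b4 : p.Hlin F v ≤ p.x ^ 3 * 2 := mul_le_mul_of_nonneg_left b2 (by positivity)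
    rw [abs_of_nonneg (mul_nonneg hp.chiL.1 b3)]
    calc p.chiL * p.Hlin F v ≤ 1 * p.Hlin F v := mul_le_mul_of_nonneg_right hp.chiL.2 b3
      _ ≤ p.x ^ 3 * 2 := by rw [one_mul]; exact b4
  rw [e]
  calc |p.Hlo F v + p.chiL * p.Hlin F v| ≤ |p.Hlo F v| + |p.chiL * p.Hlin F v| := abs_add_le _ _
    _ ≤ p.x ^ 3 * (1 + Real.log (1 / p.x)) + p.x ^ 3 * 2 := add_le_add t1 t2
    _ = _ := by ring

/-- a cut whose cell ends above `V > x + η` reads the clocks at a stage of mass `> x` (LEFT-end reading of `L8In.Fine` v2) -/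
theorem l9hs_left {I : L8In} {η V : ℝ} (hf : I.Fine η) {k : ℕ} (hk : k ≤ I.n) (h0 : 0 ≤ I.x + η) (hV : I.x + η < V) (hv : V ≤ I.v k) :
    ∃ j, k = j + 1 ∧ j < I.n ∧ I.x < I.v j := by
  cases k with
  | zero =>
    have := hf.v_zero
    linarith
  | succ j =>
    refine ⟨j, rfl, hk, ?_⟩
    have h1 := hf.dv_le (j + 1) hk
    have e : I.dv (j + 1) = I.v (j + 1) - I.v j := by
      show I.v (j + 1) - (if j + 1 = 0 then 0 else I.v (j + 1 - 1)) = _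
      rw [if_neg (Nat.succ_ne_zero j), Nat.add_sub_cancel]
    linarith

/-- the defect on a fine chain at the cuts of mass `> x + η` -/
theorem l9hs_d_chain {I : L8In} (hOk : I.Ok) (hF : I.F.Ok) (hsm : I.p.sm = true) {η V : ℝ} (hf : I.Fine η) {k : ℕ} (hk : k ≤ I.n)
    (h0 : 0 ≤ I.x + η) (hV : I.x + η < V) (hv : V ≤ I.v k) : |I.d k| ≤ I.x ^ 3 * (3 + Real.log (1 / I.x)) + η := by
  obtain ⟨j, rfl, hj, hx⟩ := l9hs_left hf hk h0 hV hv
  have h1 := hf.d_left j hj (ne_of_gt hx)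
  have h2 := l9hs_d_path I.𝔹 hOk.pt hF hsm (v := I.v j) hx.le
  have h3 : |I.d (j + 1)| ≤ |I.d (j + 1) - I.p.d I.F I.𝔹 (I.v j)| + |I.p.d I.F I.𝔹 (I.v j)| := by
    have := abs_add_le (I.d (j + 1) - I.p.d I.F I.𝔹 (I.v j)) (I.p.d I.F I.𝔹 (I.v j))
    simpa using this
  have e : I.x = I.p.x := rfl
  rw [e]
  linarith

/-! ## 4. the record of the supplies, one instance -/

/-- the envelope of HI: `A min(e, w)` on the cuts, `0` beyond -/
def l9hsSig (n : ℕ) (e : ℕ → ℝ) (A w : ℝ) : ℕ → ℝ := fun k => if k ≤ n then A * min (e k) w else 0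

/-- **THE SUPPLIES OF LL 08 FOR THE NODE HI at one instance** of the smoothed size path, on the stop.      `A` = the loss (`C x^(-δ)`), `V_i = x^(a_i)`, `gs` = the exponent of the gain of a second low factor. -/
structure L8In.HiSup (I : L8In) (c A a1 a2 bH CH gs : ℝ) (sig : ℕ → ℝ) : Prop where
  z1 : 1 ≤ I.Zc llDStar
  /-- (D15) in BOTH ensembles, (D2) + (D11): the record of 113 -/
  pair : L9htP I.X I.n I.S (llMs I.a I.LP) sig (I.x ^ a1) (I.x ^ a2)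
    (A * (I.x ^ (3 - CH * a1) * I.Zc llDStar ^ 2)) (A * (I.x ^ (3 - CH * a2) * I.Zc llDStar ^ 2))
  sig0 : ∀ k, 0 ≤ sig k
  sigsg : ∀ k, sig k ≤ A * I.x ^ gs
  /-- `∫_{v < V₁} e dv ≲ Y²` -/
  env1 : ∑ k ∈ (range (I.n + 2)).filter (fun k => llMs I.a I.LP k < I.x ^ a1), l9aMw (llMs I.a I.LP) I.n k * sig k
    ≤ A ^ 2 * I.Yc llDStar ^ 2
  /-- (D15), means -/
  fH : ∀ k ≤ I.n, I.x ^ a1 ≤ I.v k → |I.f k| ≤ I.x ^ (2 + bH) * (I.Zc llDStar ^ 2 + I.Zg c)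
  fL : ∀ k ≤ I.n, I.v k < I.x ^ a1 → |I.f k| ≤ sig k
  /-- (P6) -/
  dH : ∀ k ≤ I.n, I.x ^ a1 ≤ I.v k → |I.d k| ≤ A * I.x ^ 3
  dL : ∀ k ≤ I.n, I.v k < I.x ^ a1 → |I.d k| + |I.dd k| ≤ sig k

theorem l9hs_env_min {S : Type} {X : JtCtx S} {j v : ℕ} {a b : ℝ} (h1 : L9rEnv X j v a) (h2 : L9rEnv X j v b) : L9rEnv X j v (min a b) := by
  rcases le_total a b with h | h
  · rwa [min_eq_left h]
  · rwa [min_eq_right h]

theorem l9hs_v_top (I : L8In) {k : ℕ} (hk : I.n ≤ k) : I.v k = I.a := by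
  show ((llMat I.LP).map SkInc.m).getD k I.a = _
  refine List.getD_eq_default _ _ ?_
  have : I.n = I.LP.length := rfl
  simp only [llMat, List.length_map]
  omega

/-- the numbers of one instance: `A0` = loss of `I.All`, `Ab ≥ max (A0, 1, |C11|)`, `A` = the loss of the exit, `(M, δt)` = the transfer, `η` = the mesh, `J` = number of dyadic bands -/
structure L9hsNum (x A A0 Ab C11 M δt η v0 a1 a2 CH gs : ℝ) (J : ℕ) : Prop where
  a1_pos : 0 < a1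
  a1_le : a1 ≤ 1
  a2_pos : 0 < a2
  a2_le : a2 ≤ 1
  CH0 : 0 ≤ CH
  gs1 : gs ≤ llDStar / 3
  gs2 : gs ≤ 3 * a1
  A0b : A0 ≤ Ab
  Ab1 : 1 ≤ Ab
  M1 : 1 ≤ M
  err : 4 * δt ≤ x ^ 6
  V1 : x ^ a1 ≤ v0
  J1 : 1 ≤ 2 ^ J * x
  A1 : 2 * M ≤ A
  A2 : 6 * Ab ^ 2 ≤ A
  A3 : |C11| ≤ Ab
  A4 : 1 + J * (Ab / 2 + 1) ≤ A
  A5 : 4 + Real.log (1 / x) ≤ A
  eta : η ≤ x ^ 3
  eta0 : 0 ≤ η
  Vx : x + η < x ^ a1

/-- the hypotheses of the assembly at one instance = the conclusions of `L8xLow`, `L8xD11`, `L8xD15`, `tlk_I_tr`, `L8gFine` + the numbers -/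
structure L9hsHyp (I : L8In) (e : ℕ → ℝ) (c A A0 Ab a1 a2 bH CH gs v0 v1 cE εs qs C11 M δt η : ℝ) (pm jm J : ℕ) : Prop where
  ok : I.Ok
  fok : I.F.Ok
  sm : I.p.sm = true
  fine : I.Fine η
  z1 : 1 ≤ I.Zc llDStar
  all : I.All e A0 (I.Yc llDStar) 1 v0 v1 cE εs qs pm jm
  pm2 : 2 ≤ pm
  s_eq : I.s = qs * I.x ^ (1 + εs)
  stop : I.Stop (I.x ^ εs)
  d11 : ∀ tl, I.D11 tl 2 (C11 * I.x ^ llDStar)
  d15f : ∀ k ≤ I.n, I.x ^ a1 ≤ I.v k → |I.f k| ≤ I.x ^ (2 + bH) * (I.Zc llDStar ^ 2 + I.Zg c)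
  d151 : ∀ k ≤ I.n, I.x ^ a1 ≤ I.v k → I.D2 k ≤ (I.x ^ (3 - CH * a1) * I.Zc llDStar ^ 2) ^ 2
  d152 : ∀ k ≤ I.n, I.x ^ a2 ≤ I.v k → I.D2 k ≤ (I.x ^ (3 - CH * a2) * I.Zc llDStar ^ 2) ^ 2
  tr : TlkTr (I.sp true) (I.sp false) (I.js + 1) M δt
  num : L9hsNum I.x A A0 Ab C11 M δt η v0 a1 a2 CH gs J

namespace L9hsHyp

variable {I : L8In} {e : ℕ → ℝ} {c A A0 Ab a1 a2 bH CH gs v0 v1 cE εs qs C11 M δt η : ℝ} {pm jm J : ℕ}
  (H : L9hsHyp I e c A A0 Ab a1 a2 bH CH gs v0 v1 cE εs qs C11 M δt η pm jm J)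
include H

theorem std : I.Std := l8d_std H.ok H.fine
theorem x0 : 0 < I.x := (tlk_sc H.ok H.fok).1
theorem x1 : I.x ≤ 1 := (tlk_sc H.ok H.fok).2.1
theorem U0 : 0 < I.U := H.x0.trans_le (tlk_sc H.ok H.fok).2.2.2.2.2.2.1
theorem Ab0 : 0 ≤ Ab := by linarith [H.num.Ab1]
theorem A6 : 6 * Ab ≤ A := by nlinarith [H.num.A2, H.num.Ab1]
theorem A_one : 1 ≤ A := by linarith [H.A6, H.num.Ab1]

theorem xY : I.x ≤ I.Yc llDStar := by
  have h1 : I.U * 1 ≤ I.U * I.Zc llDStar := mul_le_mul_of_nonneg_left H.z1 H.U0.le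
  have h2 := (tlk_sc H.ok H.fok).2.2.2.2.2.2.1
  unfold L8In.Yc
  linarith

theorem Y0 : 0 < I.Yc llDStar := H.x0.trans_le H.xY

theorem Yd : I.Yc llDStar ≤ I.x ^ (llDStar / 3) := by
  have hU0 := H.U0
  unfold L8In.Yc L8In.Zc
  calc I.U * min I.Z (I.x ^ (llDStar / 3) / I.U) ≤ I.U * (I.x ^ (llDStar / 3) / I.U) :=
        mul_le_mul_of_nonneg_left (min_le_right _ _) hU0.le
    _ = I.x ^ (llDStar / 3) := by field_simp

theorem Yw : I.Yc llDStar ≤ I.x ^ gs := H.Yd.trans (Real.rpow_le_rpow_of_exponent_ge H.x0 H.x1 H.num.gs1)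

theorem Y1 : I.Yc llDStar ≤ 1 :=
  H.Yd.trans (Real.rpow_le_one H.x0.le H.x1 (by unfold llDStar; norm_num))

theorem w0 : 0 < I.x ^ gs := Real.rpow_pos_of_pos H.x0 _

theorem xV {a : ℝ} (ha : a ≤ 1) : I.x ≤ I.x ^ a := by
  calc I.x = I.x ^ (1 : ℝ) := (Real.rpow_one _).symm
    _ ≤ I.x ^ a := Real.rpow_le_rpow_of_exponent_ge H.x0 H.x1 ha

theorem V11 : I.x ^ a1 ≤ 1 := Real.rpow_le_one H.x0.le H.x1 H.num.a1_pos.le

theorem A00 : 0 ≤ A0 := l8q_A_nonneg H.std H.all.num H.Y0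

theorem rnd (tl : Bool) : I.Rnd tl e A0 (I.Yc llDStar) 1 v0 v1 pm jm := by
  cases tl
  · exact H.all.unt
  · exact H.all.til H.s_eq H.stop

theorem e0 {k : ℕ} (hk : k ≤ I.n) : 0 < e k := (Real.rpow_pos_of_pos H.x0 _).trans_le (H.all.env.lo k hk)

theorem min0 {k : ℕ} (hk : k ≤ I.n) : 0 < min (e k) (I.x ^ gs) := lt_min (H.e0 hk) H.w0

theorem Ae {k : ℕ} (hk : k ≤ I.n) : A0 * e k ≤ Ab * e k := mul_le_mul_of_nonneg_right H.num.A0b (H.e0 hk).le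

theorem C11w : |C11 * I.x ^ llDStar| ≤ Ab * I.x ^ gs := by
  rw [abs_mul, abs_of_pos (Real.rpow_pos_of_pos H.x0 _)]
  have hD0 : (0 : ℝ) < llDStar := by unfold llDStar; norm_num
  exact mul_le_mul H.num.A3 (Real.rpow_le_rpow_of_exponent_ge H.x0 H.x1 (by linarith [H.num.gs1])) (Real.rpow_nonneg H.x0.le _) H.Ab0

theorem m11 {tl : Bool} {t : ℕ} (ht : I.act tl t) : I.moF tl t 2 (fun ω => (I.sp tl).Q ω - I.q t) ≤ (C11 * I.x ^ llDStar) ^ (2 * 2) := by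
  have h1 := H.d11 tl t ht (I.n + 1) (I.n + 1) (ht.1.trans (Nat.le_succ _)) (ht.1.trans (Nat.le_succ _))
  rwa [l8d_QX_fun I tl (Nat.lt_succ_self _) (Nat.lt_succ_self _)] at h1

/-- the mean defect below `V₁` -/
theorem fLb {k : ℕ} (hk : k ≤ I.n) (hv : I.v k < I.x ^ a1) : |I.f k| ≤ Ab * min (e k) (I.x ^ gs) := by
  have g1 := (H.all.env.f_le k hk (hv.le.trans H.num.V1)).trans (H.Ae hk)
  have g2 := (l8d_f_le H.std (r := 2) (by norm_num) hk (H.m11 (tl := false) ⟨hk, by simp⟩)).trans H.C11w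
  rw [mul_min_of_nonneg _ _ H.Ab0]
  exact le_min g1 g2

/-- (D15) in both ensembles -/
theorem st {a : ℝ} (ha1 : a ≤ 1) (hD : ∀ k ≤ I.n, I.x ^ a ≤ I.v k → I.D2 k ≤ (I.x ^ (3 - CH * a) * I.Zc llDStar ^ 2) ^ 2) (ha0 : 0 < a)
    (tl : Bool) (t : ℕ) (ht : t ≤ I.n) (hv : I.x ^ a ≤ llMs I.a I.LP t) :
    l9htPm I.X I.n I.S tl t (fun u => u ^ 2) ≤ (A * (I.x ^ (3 - CH * a) * I.Zc llDStar ^ 2)) ^ 2 := by
  have hx0 := H.x0
  have hA1 := H.A_one
  rw [l8d_ms] at hv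
  set B := I.x ^ (3 - CH * a) * I.Zc llDStar ^ 2 with hB
  have hx3 : I.x ^ 3 ≤ I.x ^ (3 - CH * a) := by
    rw [← Real.rpow_natCast]
    exact Real.rpow_le_rpow_of_exponent_ge hx0 H.x1 (by push_cast; nlinarith [H.num.CH0])
  have hZ2 : 1 ≤ I.Zc llDStar ^ 2 := one_le_pow₀ H.z1
  have hB3 : I.x ^ 3 ≤ B := by
    have : 0 ≤ I.x ^ (3 - CH * a) := Real.rpow_nonneg hx0.le _
    rw [hB]; nlinarith
  have hB0 : 0 ≤ B := (by positivity : (0 : ℝ) ≤ I.x ^ 3).trans hB3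
  have hB6 : I.x ^ 6 ≤ B ^ 2 := by
    calc I.x ^ 6 = (I.x ^ 3) ^ 2 := by ring
      _ ≤ B ^ 2 := pow_le_pow_left₀ (by positivity) hB3 2
  cases tl
  · rw [l9hs_pn_D2 H.std ht]
    refine (hD t ht hv).trans (pow_le_pow_left₀ hB0 ?_ 2)
    nlinarith
  · have hact : I.act true t := l9hs_act H.std H.fine true ht (H.ok.s_lt.trans_le ((H.xV ha1).trans hv))
    refine (l9hs_var_til H.std H.tr H.num.M1 hB0 (H.num.err.trans hB6) hact (hD t ht hv)).trans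
      (pow_le_pow_left₀ (mul_nonneg (by linarith [H.num.M1]) hB0) ?_ 2)
    exact mul_le_mul_of_nonneg_right H.num.A1 hB0

/-- (D2) + (D11) for `Δ` below `V₁`, both kinds of pairs -/
theorem envD (tl : Bool) {t : ℕ} (ht : t ≤ I.n) (hv : I.v t < I.x ^ a1) : L9rEnv (I.X tl) 4 t (3 * Ab * min (e t) (I.x ^ gs)) := by
  have h := H.std
  have hvt : I.v t ≤ v0 := hv.le.trans H.num.V1
  have het := (H.e0 ht).le
  have hAb0 := H.Ab0
  have hpm := H.pm2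
  by_cases hact : I.act tl t
  · have g1 : L9rEnv (I.X tl) 4 t (3 * Ab * e t) :=
      l8q_env_mono (l8d_rnd_env h (H.rnd tl) (by omega) hact hvt (by omega)) (abs_nonneg _) (by
        rw [abs_of_nonneg (mul_nonneg H.A00 het)]
        nlinarith [mul_nonneg hAb0 het, H.Ae ht])
    have g2 : L9rEnv (I.X tl) 4 t (3 * Ab * I.x ^ gs) :=
      l8q_env_mono (l8d_env h hact (r := 2) (by norm_num) (by norm_num) (H.m11 hact)) (abs_nonneg _) (by
        nlinarith [mul_nonneg hAb0 H.w0.le, H.C11w])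
    rw [mul_min_of_nonneg _ _ (by positivity : (0 : ℝ) ≤ 3 * Ab)]
    exact l9hs_env_min g1 g2
  · have htl : tl = true := by
      by_contra hne
      exact hact ⟨ht, fun h' => absurd h' hne⟩
    subst htl
    have hjs : t ≤ I.js := by
      by_contra hne
      exact hact ⟨ht, fun _ => by omega⟩
    have hvY : I.v t ≤ I.Yc llDStar := ((l8q_v_masked H.ok H.fine hjs).trans H.ok.s_lt.le).trans H.xY
    have heY : e t = I.Yc llDStar := H.all.env.low t ht hvY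
    refine l8q_env_off h hjs ?_ 4
    rw [min_eq_left (heY ▸ H.Yw)]
    refine (l8q_q_le h H.all.env H.all.num H.A00 ht hvt hvY).trans ?_
    nlinarith [H.Ae ht]

omit H in
theorem sig_eq {k : ℕ} (hk : k ≤ I.n) : l9hsSig I.n e A (I.x ^ gs) k = A * min (e k) (I.x ^ gs) := if_pos hk

/-- fourth moments of `δ` below `V₁` -/
theorem low (tl : Bool) (t : ℕ) (ht : t ≤ I.n) (hv : llMs I.a I.LP t < I.x ^ a1) :
    l9htPm I.X I.n I.S tl t (fun u => u ^ 4) ≤ l9hsSig I.n e A (I.x ^ gs) t ^ 4 := by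
  rw [l8d_ms] at hv
  have hm := (H.min0 (gs := gs) ht).le
  have hfE : |I.f t| ≤ 3 * Ab * min (e t) (I.x ^ gs) := (H.fLb ht hv).trans (by nlinarith [mul_nonneg H.Ab0 hm])
  refine (l9hs_low H.std tl t (H.envD tl ht hv) hfE).trans ?_
  rw [L9hsHyp.sig_eq ht]
  refine pow_le_pow_left₀ (by have := H.Ab0; positivity) ?_ 4
  calc 2 * (3 * Ab * min (e t) (I.x ^ gs)) = 6 * Ab * min (e t) (I.x ^ gs) := by ring
    _ ≤ A * min (e t) (I.x ^ gs) := mul_le_mul_of_nonneg_right H.A6 hm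

theorem sig0 (k : ℕ) : 0 ≤ l9hsSig I.n e A (I.x ^ gs) k := by
  unfold l9hsSig
  split_ifs with hk
  · exact mul_nonneg (by linarith [H.A_one]) (H.min0 hk).le
  · exact le_rfl

theorem sigsg (k : ℕ) : l9hsSig I.n e A (I.x ^ gs) k ≤ A * I.x ^ gs := by
  unfold l9hsSig
  split_ifs with hk
  · exact mul_le_mul_of_nonneg_left (min_le_right _ _) (by linarith [H.A_one])
  · exact mul_nonneg (by linarith [H.A_one]) H.w0.le

/-- the envelope integral -/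
theorem env1 : ∑ k ∈ (range (I.n + 2)).filter (fun k => llMs I.a I.LP k < I.x ^ a1), l9aMw (llMs I.a I.LP) I.n k * l9hsSig I.n e A (I.x ^ gs) k
    ≤ A ^ 2 * I.Yc llDStar ^ 2 := by
  have h := H.std
  have hA1 := H.A_one
  have hdv0 : ∀ k, 0 ≤ I.dv k := fun k => pin_gap_nonneg h.a_pos _ H.fine.adm.1 k
  have hms : ∀ k, llMs I.a I.LP k = I.v k := l8d_ms I
  have htop : ¬ llMs I.a I.LP (I.n + 1) < I.x ^ a1 := by
    rw [hms, l9hs_v_top I (k := I.n + 1) (by omega)]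
    have := (tlk_sc H.ok H.fok).2.2.2.2.2.2.2.2.1
    linarith [H.V11]
  rw [range_add_one, filter_insert, if_neg htop]
  have hmw : ∀ k ∈ (range (I.n + 1)).filter (fun k => llMs I.a I.LP k < I.x ^ a1),
      l9aMw (llMs I.a I.LP) I.n k * l9hsSig I.n e A (I.x ^ gs) k ≤ A * (I.dv k * e k) := by
    intro k hk
    have hkn : k ≤ I.n := Nat.lt_succ_iff.1 (mem_range.1 (mem_filter.1 hk).1)
    have e1 : l9aMw (llMs I.a I.LP) I.n k = I.dv k := by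
      unfold l9aMw
      rw [if_pos hkn]
      exact l8d_mu I k
    rw [e1, L9hsHyp.sig_eq hkn]
    calc I.dv k * (A * min (e k) (I.x ^ gs)) ≤ I.dv k * (A * e k) :=
          mul_le_mul_of_nonneg_left (mul_le_mul_of_nonneg_left (min_le_left _ _) (by linarith)) (hdv0 k)
      _ = A * (I.dv k * e k) := by ring
  refine (sum_le_sum hmw).trans ?_
  rw [← mul_sum]
  simp only [hms]
  have hint := l9hs_env_int (n := I.n) (v := I.v) (dv := I.dv) (e := e) (Y := I.Yc llDStar) (A := A0) (vt := v0) (V := I.x ^ a1) (J := J)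
    (fun k _ => hdv0 k)
    (fun c hc => l9hs_ini (fun _ => rfl) (l8q_v_nonneg h 0) (fun i j hij hj => l8d_v_mono h hij hj) hc)
    H.Y0 H.A00 (fun k hk => (H.e0 hk).le) H.all.env.low H.all.env.bud H.num.V1
    (H.V11.trans (H.num.J1.trans (mul_le_mul_of_nonneg_left H.xY (by positivity))))
  have hJA : 1 + J * (A0 / 2 + 1) ≤ A := by
    refine le_trans ?_ H.num.A4
    have : (J : ℝ) * (A0 / 2 + 1) ≤ J * (Ab / 2 + 1) := mul_le_mul_of_nonneg_left (by linarith [H.num.A0b]) (Nat.cast_nonneg _)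
    linarith
  calc A * ∑ k ∈ (range (I.n + 1)).filter (fun k => I.v k < I.x ^ a1), I.dv k * e k
      ≤ A * ((1 + J * (A0 / 2 + 1)) * I.Yc llDStar ^ 2) := mul_le_mul_of_nonneg_left hint (by linarith)
    _ ≤ A * (A * I.Yc llDStar ^ 2) := mul_le_mul_of_nonneg_left (mul_le_mul_of_nonneg_right hJA (sq_nonneg _)) (by linarith)
    _ = A ^ 2 * I.Yc llDStar ^ 2 := by ring

theorem fL (k : ℕ) (hk : k ≤ I.n) (hv : I.v k < I.x ^ a1) : |I.f k| ≤ l9hsSig I.n e A (I.x ^ gs) k := by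
  rw [L9hsHyp.sig_eq hk]
  exact (H.fLb hk hv).trans (mul_le_mul_of_nonneg_right (by linarith [H.A6, H.Ab0]) (H.min0 hk).le)

theorem dH (k : ℕ) (hk : k ≤ I.n) (hv : I.x ^ a1 ≤ I.v k) : |I.d k| ≤ A * I.x ^ 3 := by
  have g := l9hs_d_chain H.ok H.fok H.sm H.fine hk (add_nonneg H.x0.le H.num.eta0) H.num.Vx hv
  have h3 : 0 ≤ I.x ^ 3 := pow_nonneg H.x0.le 3
  calc |I.d k| ≤ I.x ^ 3 * (3 + Real.log (1 / I.x)) + I.x ^ 3 := g.trans (by linarith [H.num.eta])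
    _ = (4 + Real.log (1 / I.x)) * I.x ^ 3 := by ring
    _ ≤ A * I.x ^ 3 := mul_le_mul_of_nonneg_right H.num.A5 h3

theorem dL (k : ℕ) (hk : k ≤ I.n) (hv : I.v k < I.x ^ a1) : |I.d k| + |I.dd k| ≤ l9hsSig I.n e A (I.x ^ gs) k := by
  have hx0 := H.x0
  have hx1 := H.x1
  have hAb0 := H.Ab0
  have hAb1 := H.num.Ab1
  have hAbsq : Ab ≤ Ab ^ 2 := by nlinarith
  obtain ⟨-, -, hl0, hl1, -⟩ := tlk_sc H.ok H.fok
  have henv := H.all.env
  have hvt : I.v k ≤ v0 := hv.le.trans H.num.V1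
  have g := henv.d_le k hk hvt
  have hv0 := l8q_v_nonneg H.std k
  set Y := I.Yc llDStar with hY
  set w := I.x ^ gs with hw
  set mx := max (I.v k) Y with hmx
  have hmx0 : 0 ≤ mx := hv0.trans (le_max_left _ _)
  have hmx1 : mx ≤ 1 := max_le (hv.le.trans H.V11) H.Y1
  have hek := (H.e0 hk).le
  have he_le : e k ≤ Ab * mx := by
    rcases le_total Y (I.v k) with hh | hh
    · refine (henv.hi k hk hh).trans ?_
      exact mul_le_mul H.num.A0b (le_max_left _ _) hv0 hAb0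
    · rw [henv.low k hk hh]
      calc Y ≤ mx := le_max_right _ _
        _ ≤ Ab * mx := by nlinarith
  have hD0 : (0 : ℝ) < llDStar := by unfold llDStar; norm_num
  have hmx3 : mx ^ 3 ≤ w := by
    rcases le_total Y (I.v k) with hh | hh
    · rw [hmx, max_eq_left hh]
      calc I.v k ^ 3 ≤ (I.x ^ a1) ^ 3 := pow_le_pow_left₀ hv0 hv.le 3
        _ = I.x ^ (3 * a1) := by
            rw [← Real.rpow_natCast, ← Real.rpow_mul hx0.le]; congr 1; push_cast; ring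
        _ ≤ w := Real.rpow_le_rpow_of_exponent_ge hx0 hx1 H.num.gs2
    · rw [hmx, max_eq_right hh]
      calc Y ^ 3 ≤ (I.x ^ (llDStar / 3)) ^ 3 := pow_le_pow_left₀ H.Y0.le H.Yd 3
        _ = I.x ^ llDStar := by
            rw [← Real.rpow_natCast, ← Real.rpow_mul hx0.le]; congr 1; push_cast; ring
        _ ≤ w := Real.rpow_le_rpow_of_exponent_ge hx0 hx1 (by linarith [H.num.gs1])
  have hlm : I.lam * mx ^ 2 ≤ 1 := by
    have : mx ^ 2 ≤ 1 := pow_le_one₀ hmx0 hmx1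
    nlinarith [sq_nonneg mx]
  have hlm0 : 0 ≤ I.lam * mx ^ 2 := by positivity
  have g' : |I.d k| + |I.dd k| ≤ Ab * I.lam * mx ^ 2 * e k := by
    refine g.trans ?_
    have : A0 * (I.lam * mx ^ 2 * e k) ≤ Ab * (I.lam * mx ^ 2 * e k) := mul_le_mul_of_nonneg_right H.num.A0b (mul_nonneg hlm0 hek)
    calc A0 * I.lam * mx ^ 2 * e k = A0 * (I.lam * mx ^ 2 * e k) := by ring
      _ ≤ Ab * (I.lam * mx ^ 2 * e k) := this
      _ = _ := by ring
  have b1 : Ab * I.lam * mx ^ 2 * e k ≤ Ab ^ 2 * e k := by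
    calc Ab * I.lam * mx ^ 2 * e k = (I.lam * mx ^ 2) * (Ab * e k) := by ring
      _ ≤ 1 * (Ab * e k) := mul_le_mul_of_nonneg_right hlm (mul_nonneg hAb0 hek)
      _ ≤ Ab ^ 2 * e k := by rw [one_mul]; exact mul_le_mul_of_nonneg_right hAbsq hek
  have b2 : Ab * I.lam * mx ^ 2 * e k ≤ Ab ^ 2 * w := by
    calc Ab * I.lam * mx ^ 2 * e k ≤ Ab * I.lam * mx ^ 2 * (Ab * mx) :=
          mul_le_mul_of_nonneg_left he_le (by positivity)
      _ = I.lam * (Ab ^ 2 * mx ^ 3) := by ring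
      _ ≤ 1 * (Ab ^ 2 * mx ^ 3) := mul_le_mul_of_nonneg_right hl1 (by positivity)
      _ ≤ Ab ^ 2 * w := by rw [one_mul]; exact mul_le_mul_of_nonneg_left hmx3 (by positivity)
  rw [L9hsHyp.sig_eq hk]
  calc |I.d k| + |I.dd k| ≤ Ab * I.lam * mx ^ 2 * e k := g'
    _ ≤ Ab ^ 2 * min (e k) w := by
        rw [mul_min_of_nonneg _ _ (by positivity : (0 : ℝ) ≤ Ab ^ 2)]
        exact le_min b1 b2
    _ ≤ A * min (e k) w := mul_le_mul_of_nonneg_right (by linarith [H.num.A2]) (H.min0 hk).le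

/-- **ASSEMBLY at one instance** -/
theorem sup : I.HiSup c A a1 a2 bH CH gs (l9hsSig I.n e A (I.x ^ gs)) where
  z1 := H.z1
  pair :=
    { hN := fun _ => rfl
      pos := fun tl => l8d_pos H.std tl
      bdd := fun tl _ a b ht => l9hs_bdd H.std tl ht a b
      st1 := H.st H.num.a1_le H.d151 H.num.a1_pos
      st2 := H.st H.num.a2_le H.d152 H.num.a2_pos
      low := H.low }
  sig0 := H.sig0
  sigsg := H.sigsg
  env1 := H.env1
  fH := H.d15f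
  fL := H.fL
  dH := H.dH
  dL := H.dL

end L9hsHyp

/-! ## 5. the numbers -/

/-- `log (1/x) ≤ (4/δ) x^(-δ/4)` -/
theorem l9hs_log_le {x δ : ℝ} (hx0 : 0 < x) (hδ : 0 < δ) : Real.log (1 / x) ≤ 4 / δ * x ^ (-(δ / 4)) := by
  have h := Real.log_le_rpow_div (x := 1 / x) (by positivity) (show 0 < δ / 4 by positivity)
  rw [one_div, Real.inv_rpow hx0.le, ← Real.rpow_neg hx0.le] at h
  rw [one_div]
  calc Real.log x⁻¹ ≤ x ^ (-(δ / 4)) / (δ / 4) := h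
    _ = 4 / δ * x ^ (-(δ / 4)) := by field_simp

/-- `x + x³ < x^(a₁)` for `a₁ ≤ 1/2`, `x ≤ 1/4` -/
theorem l9hs_Vx {x a1 : ℝ} (hx0 : 0 < x) (hx4 : x ≤ 1 / 4) (ha1 : a1 ≤ 1 / 2) : x + x ^ 3 < x ^ a1 := by
  obtain ⟨r, hr⟩ : ∃ r, r = x ^ (1 / 2 : ℝ) := ⟨_, rfl⟩
  have hs0 : 0 < r := hr ▸ Real.rpow_pos_of_pos hx0 _
  have hss : r * r = x := by
    rw [hr, ← Real.rpow_add hx0]; norm_num
  have hs2 : r ≤ 1 / 2 := by
    by_contra hne
    push Not at hne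
    nlinarith
  have h2x : 2 * x ≤ r := by nlinarith
  have hle : r ≤ x ^ a1 := hr ▸ Real.rpow_le_rpow_of_exponent_ge hx0 (by linarith) ha1
  have hx3 : x ^ 3 < x := by
    have h1 : x ^ 2 < 1 := by nlinarith
    calc x ^ 3 = x * x ^ 2 := by ring
      _ < x * 1 := mul_lt_mul_of_pos_left h1 hx0
      _ = x := mul_one x
  linarith

/-- **the numbers of `l9hs_inst`** along `x = skX N → 0`: source losses `x^(-δ/4)`, transfer `(x^(-δ), x^7)`, mesh `x³` -/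
theorem l9hs_num {δ v0 a1 a2 CH gs : ℝ} (hδ : 0 < δ) (hv0 : 0 < v0) (ha1 : 0 < a1) (ha1' : a1 ≤ 1 / 2) (ha2 : 0 < a2) (ha2' : a2 ≤ 1)
    (hCH : 0 ≤ CH) (hgs1 : gs ≤ llDStar / 3) (hgs2 : gs ≤ 3 * a1) (C0 C11 : ℝ) :
    ∃ (C : ℝ) (N0 : ℕ), ∀ N : ℕ, N0 ≤ N → ∃ J : ℕ, L9hsNum (skX N) (C * skX N ^ (-δ)) (C0 * skX N ^ (-(δ / 4)))
      ((|C0| + |C11| + 1) * skX N ^ (-(δ / 4))) C11 (skX N ^ (-δ)) (skX N ^ 7) (skX N ^ (3 : ℝ)) v0 a1 a2 CH gs J := by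
  obtain ⟨N1, hN1⟩ := l9s_small a1 (1 / v0) ha1 (by positivity)
  set cb : ℝ := |C0| + |C11| + 1 with hcb
  have hcb1 : 1 ≤ cb := by have := abs_nonneg C0; have := abs_nonneg C11; linarith
  refine ⟨2 + 6 * cb ^ 2 + (1 + (8 / δ + 1) * (cb / 2 + 1)) + (4 + 4 / δ), N1 + 4096, fun N hN => ?_⟩
  have hx0 : 0 < skX N := l9t_skX_pos (N := N) (by omega)
  have hx1 : skX N ≤ 1 := l9b_skX_le_one (by omega)
  have hx4 : skX N ≤ 1 / 4 := by
    unfold skX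
    have h1 : ((4096 : ℕ) : ℝ) ≤ (N : ℝ) := by exact_mod_cast (by omega : 4096 ≤ N)
    calc (N : ℝ) ^ (-(1 / 6 : ℝ)) ≤ ((4096 : ℕ) : ℝ) ^ (-(1 / 6 : ℝ)) :=
          Real.rpow_le_rpow_of_nonpos (by norm_num) h1 (by norm_num)
      _ = 1 / 4 := by
          rw [show ((4096 : ℕ) : ℝ) = (4 : ℝ) ^ (6 : ℝ) by norm_num, ← Real.rpow_mul (by norm_num)]
          norm_num
  set x := skX N with hx
  set u := x ^ (-(δ / 4)) with hu
  have hu1 : 1 ≤ u := Real.one_le_rpow_of_pos_of_le_one_of_nonpos hx0 hx1 (by linarith)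
  have huu : u * u ≤ x ^ (-δ) := by
    rw [hu, ← Real.rpow_add hx0]
    exact Real.rpow_le_rpow_of_exponent_ge hx0 hx1 (by linarith)
  have hud : u ≤ x ^ (-δ) := by nlinarith
  have hd1 : 1 ≤ x ^ (-δ) := hu1.trans hud
  have hL := l9hs_log_le hx0 hδ
  have hL0 : 0 ≤ Real.log (1 / x) := Real.log_nonneg (by rw [le_div_iff₀ hx0]; linarith)
  have hinv : 0 < 4 / δ := by positivity
  -- the number of bands
  set J : ℕ := ⌈Real.logb 2 (1 / x)⌉₊ with hJ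
  have hJ1 : 1 ≤ (2 : ℝ) ^ J * x := by
    have h1 : Real.logb 2 (1 / x) ≤ (J : ℝ) := Nat.le_ceil _
    have h2 : (1 / x) ≤ (2 : ℝ) ^ (J : ℝ) := by
      calc 1 / x = (2 : ℝ) ^ Real.logb 2 (1 / x) := (Real.rpow_logb (by norm_num) (by norm_num) (by positivity)).symm
        _ ≤ (2 : ℝ) ^ (J : ℝ) := Real.rpow_le_rpow_of_exponent_le (by norm_num) h1
    rw [Real.rpow_natCast] at h2
    rw [div_le_iff₀ hx0] at h2
    exact h2
  have hJle : (J : ℝ) ≤ (8 / δ + 1) * u := by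
    have h0 : 0 ≤ Real.logb 2 (1 / x) := Real.logb_nonneg (by norm_num) (by rw [le_div_iff₀ hx0]; linarith)
    have h1 : (J : ℝ) < Real.logb 2 (1 / x) + 1 := Nat.ceil_lt_add_one h0
    have h2 : Real.logb 2 (1 / x) ≤ 2 * Real.log (1 / x) := by
      unfold Real.logb
      rw [div_le_iff₀ (Real.log_pos (by norm_num))]
      have := Real.log_two_gt_d9
      nlinarith
    calc (J : ℝ) ≤ 2 * Real.log (1 / x) + 1 := by linarith
      _ ≤ 2 * (4 / δ * u) + u := by linarith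
      _ = (8 / δ + 1) * u := by ring
  have hC2 : 0 ≤ 6 * cb ^ 2 := by positivity
  have hC3 : 0 ≤ 1 + (8 / δ + 1) * (cb / 2 + 1) := by positivity
  have hC4 : 0 ≤ 4 + 4 / δ := by positivity
  have hxd0 : 0 ≤ x ^ (-δ) := by linarith
  refine ⟨J, ha1, by linarith, ha2, ha2', hCH, hgs1, hgs2, ?_, ?_, hd1, ?_, ?_, hJ1, ?_, ?_, ?_, ?_, ?_, ?_, (Real.rpow_pos_of_pos hx0 _).le, ?_⟩
  · exact mul_le_mul_of_nonneg_right (by have := le_abs_self C0; have := abs_nonneg C11; linarith) (by linarith)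
  · nlinarith
  · calc 4 * x ^ 7 = (4 * x) * x ^ 6 := by ring
      _ ≤ 1 * x ^ 6 := mul_le_mul_of_nonneg_right (by linarith) (by positivity)
      _ = x ^ 6 := one_mul _
  · have := hN1 N (by omega)
    rw [div_mul_eq_mul_div, one_mul, div_lt_one hv0] at this
    exact this.le
  · nlinarith
  · calc 6 * (cb * u) ^ 2 = 6 * cb ^ 2 * (u * u) := by ring
      _ ≤ 6 * cb ^ 2 * x ^ (-δ) := mul_le_mul_of_nonneg_left huu hC2
      _ ≤ _ := mul_le_mul_of_nonneg_right (by linarith) hxd0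
  · have := abs_nonneg C0
    nlinarith
  · have h1 : cb * u / 2 + 1 ≤ (cb / 2 + 1) * u := by nlinarith
    have h2 : (J : ℝ) * (cb * u / 2 + 1) ≤ (8 / δ + 1) * u * ((cb / 2 + 1) * u) :=
      mul_le_mul hJle h1 (by positivity) (by positivity)
    calc 1 + (J : ℝ) * (cb * u / 2 + 1) ≤ u * u + (8 / δ + 1) * u * ((cb / 2 + 1) * u) := by nlinarith
      _ = (1 + (8 / δ + 1) * (cb / 2 + 1)) * (u * u) := by ring
      _ ≤ (1 + (8 / δ + 1) * (cb / 2 + 1)) * x ^ (-δ) := mul_le_mul_of_nonneg_left huu hC3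
      _ ≤ _ := mul_le_mul_of_nonneg_right (by linarith) hxd0
  · calc 4 + Real.log (1 / x) ≤ 4 * u + 4 / δ * u := by linarith
      _ = (4 + 4 / δ) * u := by ring
      _ ≤ (4 + 4 / δ) * x ^ (-δ) := mul_le_mul_of_nonneg_left hud hC4
      _ ≤ _ := mul_le_mul_of_nonneg_right (by linarith) hxd0
  · rw [show (3 : ℝ) = ((3 : ℕ) : ℝ) by norm_num, Real.rpow_natCast]
  · rw [show (3 : ℝ) = ((3 : ℕ) : ℝ) by norm_num, Real.rpow_natCast]
    exact l9hs_Vx hx0 hx4 ha1'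

/-! ## 6. the exit -/

/-- **the supplies of LL 08 for HI**, shape `L9SbS` of `L09/RedC.lean`: for every loss `δ` and every tilt, at all the points of the size segment on the stop -/
def L9hsSupS (𝔹 : LlBase) (c : ℝ) (F : LlFix) (a1 a2 bH CH gs : ℝ) : Prop :=
  L9SbS 𝔹 F fun A Q => ∃ sig, Q.j8.HiSup c A a1 a2 bH CH gs sig

/-- **EXIT**: `L8xD15 + L8xLow + L8xD11 + L8gFine` (+ the transfer `tlk_I_tr` of 189) `⟹ L9hsSupS`, with the order of the thresholds of (D15) -/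
theorem l9hs_supS {𝔹 : LlBase} {T : ℝ} (h15 : L8xD15 𝔹 T) (hL : L8xLow 𝔹 T) (h11 : L8xD11 𝔹 T) (hf : L8gFine 𝔹 T) {F0 : LlFix} (hF : L8Fix 𝔹 T F0)
    (pB : LLParB) (hSt : LlcStB 𝔹 F0 pB) {c : ℝ} (hc : 0 < c) :
    ∃ CH t0 : ℝ, 1 ≤ CH ∧ 0 < t0 ∧ ∀ a0, 0 < a0 → a0 ≤ t0 → ∃ tH : ℝ, 0 < tH ∧ ∀ bH, 0 < bH → bH ≤ tH →
      ∃ t1 : ℝ, 0 < t1 ∧ ∀ a1, 0 < a1 → a1 ≤ t1 → ∃ t2 : ℝ, 0 < t2 ∧ ∀ a2, 0 < a2 → a2 ≤ t2 → ∃ tp : ℝ, 0 < tp ∧ ∀ pS, 0 < pS → pS ≤ tp →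
        ∀ gs, gs ≤ llDStar / 3 → gs ≤ 3 * a1 → L9hsSupS 𝔹 c (F0.wExp pB.sStar pB.eta pS) a1 a2 bH CH gs := by
  obtain ⟨CH, t0, hCH, ht0, h15⟩ := h15 F0 hF pB c hSt hc
  obtain ⟨pL, cE, hpL, hcE, hL⟩ := hL F0 hF pB hSt
  obtain ⟨pD, hpD, h11⟩ := h11 F0 hF pB hSt
  refine ⟨CH, t0, hCH, ht0, fun a0 ha0 ha0' => ?_⟩
  obtain ⟨tH, htH, h15⟩ := h15 a0 ha0 ha0'
  refine ⟨tH, htH, fun bH hbH hbH' => ?_⟩
  obtain ⟨t1, ht1, h15⟩ := h15 bH hbH hbH'
  refine ⟨min t1 (1 / 2), lt_min ht1 (by norm_num), fun a1 ha1 ha1' => ?_⟩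
  obtain ⟨t2, ht2, h15⟩ := h15 a1 ha1 (ha1'.trans (min_le_left _ _))
  refine ⟨min t2 1, lt_min ht2 one_pos, fun a2 ha2 ha2' => ?_⟩
  obtain ⟨tp, htp, h15⟩ := h15 a2 ha2 (ha2'.trans (min_le_left _ _))
  refine ⟨min (min tp pL) (min pD 1), lt_min (lt_min htp hpL) (lt_min hpD one_pos), fun pS h0 h1 gs hgs1 hgs2 => ?_⟩
  have h1' : pS ≤ 1 := h1.trans ((min_le_right _ _).trans (min_le_right _ _))
  obtain ⟨N15, h15⟩ := h15 pS h0 (h1.trans ((min_le_left _ _).trans (min_le_left _ _)))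
  obtain ⟨v0, v1, hv0, hv1, hL⟩ := hL pS h0 (h1.trans ((min_le_left _ _).trans (min_le_right _ _)))
  have h11 := h11 pS h0 (h1.trans ((min_le_right _ _).trans (min_le_left _ _)))
  intro δ hδ ε hε q hq
  obtain ⟨C0, NL, hL⟩ := hL ε q hε hq 2 0 (δ / 4) (by positivity)
  obtain ⟨C11, N11, h11⟩ := h11 ε q hε hq 2 (by norm_num)
  obtain ⟨Nt, htr⟩ := tlk_I_tr ε q δ 7 hε hq hδ
  have hFok : (F0.wExp pB.sStar pB.eta pS).Ok := (hF.2.2 _ _ _ (tlk_expok pB h0 h1')).sec3.ok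
  obtain ⟨Nf, hfine⟩ := L8Ev.of_fine hf hF pB h0 h1' 3 Nt (R := l8Siz)
    (Φ := fun I => I.Fine (I.x ^ (3 : ℝ)) ∧ Nt ≤ I.p.N ∧ I.F = F0.wExp pB.sStar pB.eta pS ∧ I.p.sm = true)
    (fun I hIF _ hN hR _ hfi => ⟨hfi, hN, hIF, hR.1⟩)
  obtain ⟨Nf', hfine'⟩ := L8Ev.of_fine hf hF pB h0 h1' 0 0 (R := l8Siz) (Φ := fun I => I.Fine (I.x ^ (0 : ℝ))) (fun I _ _ _ _ _ hfi => hfi)
  obtain ⟨C, Nn, hnum⟩ := l9hs_num hδ hv0 ha1 (ha1'.trans (min_le_right _ _)) ha2 (ha2'.trans (min_le_right _ _)) (by linarith : 0 ≤ CH) hgs1 hgs2 C0 C11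
  obtain ⟨Ne, hev⟩ := l8q_evS (show (F0.wExp pB.sStar pB.eta pS).pS ≤ 12 by show pS ≤ 12; linarith)
    ((((h15.and hL).and h11).and hfine).and hfine') hε hq
  refine ⟨C, max Nn Ne, fun N hN => ?_⟩
  obtain ⟨J, hnum⟩ := hnum N ((le_max_left _ _).trans hN)
  filter_upwards [hev N ((le_max_right _ _).trans hN)] with Fs g m γ θ hHy
  obtain ⟨hOk, hstp, ⟨⟨⟨g15, hZc, e, hAll⟩, g11⟩, hfi, hNt, hIF, hsm⟩, hfi'⟩ := g m γ θ hHy
  set Q := l9QS (F0.wExp pB.sStar pB.eta pS) 𝔹 (q * skX N ^ (1 + ε)) Fs m N γ θ with hQ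
  rw [Real.rpow_zero] at hfi'
  have hIFok : Q.j8.F.Ok := hIF ▸ hFok
  have hs : Q.j8.s = q * Q.j8.x ^ (1 + ε) := rfl
  exact ⟨_, L9hsHyp.sup (c := c) (bH := bH)
    { ok := hOk, fok := hIFok, sm := hsm, fine := hfi, z1 := hZc, all := hAll, pm2 := le_rfl, s_eq := hs, stop := hstp,
      d11 := fun tl => g11 tl fun _ => ⟨hs, hstp⟩, d15f := g15.1, d151 := g15.2.1, d152 := g15.2.2,
      tr := htr Q.j8 hNt hOk hIFok hfi' hs hstp, num := hnum }⟩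

theorem l9hs_eqns_cite : True := by
  have := @l9hsSig.eq_1
  have := @L9hsSupS.eq_1
  trivial

end

end Claimed.Agent.R286
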