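import Claimed.Agent.R286.L09.HiAbs

/-!
# Row 286 (S0533), LL sec. 9, node HI, file L09/HiTerm : THE H TABLE FOR ONE TERM `d[H ∏φ ; ∏_{i∈A} δ_i]`      (owner helper235; prefix `l9h`)

0 sorry.  Explicit form of `l9h_main`: stochastic factors `del e τ i` (`i ∈ A`), deterministic factors `phi i (lv τ i)` (`i ∉ A`), and row 3 reduced to the
contract `L9hLS` = the form of (D16), conclusion 2 (LL 08 Lemma "Low sources with a retained high pair") which node HI consumes.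
TEX[LL:exp:high-table] (un-numbered proposition, 09 l.331-395).
-/

set_option autoImplicit false

open MeasureTheory

namespace Claimed.Agent.R286

/-- `ν^e_τ[∏_{i∈A} δ_i]` -/
noncomputable def l9hE {ι Tr Ω : Type*} [MeasurableSpace Ω] (nu : Bool → Tr → Measure Ω)
    (del : Bool → Tr → ι → Ω → ℝ) (A : Finset ι) (e : Bool) (τ : Tr) : ℝ :=
  ∫ ω, ∏ i ∈ A, del e τ i ω ∂(nu e τ)

/-- **(D16), conclusion 2, in the form consumed by HI.**  `Lo` = the set of the low factors (mass `< V₁`), it contains all the stochastic ones; the weight `H'` may contain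
the deterministic factors of mass `≥ V₁`; `aw` = majorant of (allocation weight) x (bounded coefficient) x (integrable multiplier of the forks);
a SOLE low factor needs the extra coefficient `O(v)`. -/
def L9hLS {ι Tr Ω : Type*} [DecidableEq ι] [Fintype Tr] [MeasurableSpace Ω] (nu : Bool → Tr → Measure Ω)
    (del : Bool → Tr → ι → Ω → ℝ) (A : Finset ι) (phi : ι → ℕ → ℝ) (lv : Tr → ι → ℕ) (ms : ℕ → ℝ)
    (aw : Tr → ℝ) (V1 BLS tiny : ℝ) : Prop :=
  ∀ (Lo : Finset ι) (H' : Tr → ℝ) (M0 : ℝ), A ⊆ Lo → 0 ≤ M0 →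
    (∀ τ, H' τ ≠ 0 → ∀ i, (i ∈ Lo ↔ ms (lv τ i) < V1)) →
    (∀ τ, |H' τ| ≤ M0 * aw τ) →
    (∀ τ i, Lo = {i} → |H' τ| ≤ M0 * (ms (lv τ i) * aw τ)) →
    |∑ τ, H' τ * (∏ i ∈ Lo \ A, phi i (lv τ i)) * (l9hE nu del A true τ - l9hE nu del A false τ)|
      ≤ M0 * BLS + tiny

/-- splitting a sum according to a finite-set valued label -/
theorem l9h_fiber {ι Tr : Type*} [Fintype ι] [DecidableEq ι] (S : Finset Tr)
    (f : Tr → Finset ι) (F : Tr → ℝ) {b : ℝ}
    (h : ∀ Lo : Finset ι, |∑ τ ∈ S.filter (fun τ => f τ = Lo), F τ| ≤ b) :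
    |∑ τ ∈ S, F τ| ≤ 2 ^ Fintype.card ι * b := by
  classical
  have e : ∑ τ ∈ S, F τ = ∑ Lo : Finset ι, ∑ τ ∈ S.filter (fun τ => f τ = Lo), F τ :=
    (Finset.sum_fiberwise S f F).symm
  rw [e]
  calc |∑ Lo : Finset ι, ∑ τ ∈ S.filter (fun τ => f τ = Lo), F τ|
      ≤ ∑ Lo : Finset ι, |∑ τ ∈ S.filter (fun τ => f τ = Lo), F τ| := Finset.abs_sum_le_sum_abs _ _
    _ ≤ ∑ _Lo : Finset ι, b := Finset.sum_le_sum fun Lo _ => h Lo
    _ = 2 ^ Fintype.card ι * b := by
        rw [Finset.sum_const, Finset.card_univ, Fintype.card_finset, nsmul_eq_mul]; push_cast; ring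

/-- row 3 of the H table from the contract `L9hLS` -/
theorem l9h_row3 {ι Tr Ω : Type*} [Fintype ι] [DecidableEq ι] [Fintype Tr] [MeasurableSpace Ω]
    {nu : Bool → Tr → Measure Ω} {del : Bool → Tr → ι → Ω → ℝ} {A : Finset ι} {phi : ι → ℕ → ℝ}
    {lv : Tr → ι → ℕ} {ms : ℕ → ℝ} {aw H : Tr → ℝ} {V1 V2 PhiH BLS tiny : ℝ}
    (hLS : L9hLS nu del A phi lv ms aw V1 BLS tiny)
    (hV : V1 ≤ V2) (hPhi0 : 0 ≤ PhiH) (hPhi1 : PhiH ≤ 2) (hms0 : ∀ k, 0 ≤ ms k)
    (hmaj : ∀ τ, |H τ| ≤ aw τ)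
    (hsupp : ∀ τ, H τ ≠ 0 → ∃ i, V2 ≤ ms (lv τ i))
    (hpar : ∀ τ i, ms (lv τ i) < V1 → (∀ i', i' ≠ i → V1 ≤ ms (lv τ i')) →
      |H τ| ≤ ms (lv τ i) * aw τ)
    (hphiH : ∀ i ∉ A, ∀ k, V1 ≤ ms k → |phi i k| ≤ PhiH) :
    |∑ τ ∈ Finset.univ.filter (fun τ => ¬ ∃ i ∈ A, V1 ≤ ms (lv τ i)),
        H τ * (∏ i ∈ Aᶜ, phi i (lv τ i)) * (l9hE nu del A true τ - l9hE nu del A false τ)|
      ≤ 2 ^ Fintype.card ι * (PhiH * 2 ^ Fintype.card ι * BLS + tiny) := by
  classical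
  set M : ℝ := PhiH * 2 ^ Fintype.card ι with hM
  have hM0 : 0 ≤ M := by positivity
  have haw0 : ∀ τ, 0 ≤ aw τ := fun τ => (abs_nonneg _).trans (hmaj τ)
  have hR0 : 0 ≤ M * BLS + tiny := by
    have := hLS Finset.univ (fun _ => 0) M (Finset.subset_univ _) hM0
      (fun τ h => absurd rfl h) (fun τ => by simpa using mul_nonneg hM0 (haw0 τ))
      (fun τ i _ => by simpa using mul_nonneg hM0 (mul_nonneg (hms0 _) (haw0 τ)))
    simpa using this
  refine l9h_fiber _ (fun τ => Finset.univ.filter (fun i => ms (lv τ i) < V1)) _ fun Lo => ?_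
  by_cases hALo : A ⊆ Lo
  swap
  · rw [Finset.sum_eq_zero, abs_zero]
    · exact hR0
    · intro τ hτ
      exfalso
      rw [Finset.mem_filter, Finset.mem_filter] at hτ
      obtain ⟨⟨_, h2⟩, h3⟩ := hτ
      apply hALo
      intro i hi
      rw [← h3, Finset.mem_filter]
      refine ⟨Finset.mem_univ _, ?_⟩
      by_contra hcon
      exact h2 ⟨i, hi, not_lt.mp hcon⟩
  · set Cnd : Tr → Prop := fun τ => (¬ ∃ i ∈ A, V1 ≤ ms (lv τ i)) ∧
      Finset.univ.filter (fun i => ms (lv τ i) < V1) = Lo with hCnd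
    set H' : Tr → ℝ := fun τ => if Cnd τ then H τ * ∏ i ∈ Loᶜ, phi i (lv τ i) else 0 with hH'
    have hlow : ∀ τ, Cnd τ → ∀ i, (i ∈ Lo ↔ ms (lv τ i) < V1) := by
      intro τ hc i
      rw [← hc.2, Finset.mem_filter]
      simp
    have hprodle : ∀ τ, Cnd τ → H τ ≠ 0 → |∏ i ∈ Loᶜ, phi i (lv τ i)| ≤ M := by
      intro τ hc hH0
      obtain ⟨i0, hi0⟩ := hsupp τ hH0
      have hi0Lo : i0 ∈ Loᶜ := by
        rw [Finset.mem_compl, hlow τ hc i0]
        exact not_lt.mpr (hV.trans hi0)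
      have hb : ∀ i ∈ Loᶜ, |phi i (lv τ i)| ≤ PhiH := by
        intro i hi
        rw [Finset.mem_compl] at hi
        refine hphiH i (fun hA => hi (hALo hA)) _ ?_
        rw [hlow τ hc i] at hi
        exact not_lt.mp hi
      rw [Finset.abs_prod, ← Finset.mul_prod_erase _ _ hi0Lo]
      refine mul_le_mul (hb i0 hi0Lo) ?_ (Finset.prod_nonneg fun i _ => abs_nonneg _) hPhi0
      calc ∏ i ∈ Loᶜ.erase i0, |phi i (lv τ i)| ≤ ∏ _i ∈ Loᶜ.erase i0, (2 : ℝ) :=
            Finset.prod_le_prod (fun i _ => abs_nonneg _) fun i hi => (hb i (Finset.mem_of_mem_erase hi)).trans hPhi1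
        _ = 2 ^ (Loᶜ.erase i0).card := by rw [Finset.prod_const]
        _ ≤ 2 ^ Fintype.card ι := pow_le_pow_right₀ (by norm_num) (Finset.card_le_univ _)
    have key := hLS Lo H' M hALo hM0
      (fun τ h => by
        have hc : Cnd τ := by
          by_contra hc
          exact h (by simp only [hH', if_neg hc])
        exact hlow τ hc)
      (fun τ => by
        by_cases hc : Cnd τ
        · simp only [hH', if_pos hc]
          by_cases hH0 : H τ = 0
          · rw [hH0, zero_mul, abs_zero]; exact mul_nonneg hM0 (haw0 τ)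
          · rw [abs_mul, mul_comm M]
            exact mul_le_mul (hmaj τ) (hprodle τ hc hH0) (abs_nonneg _) (haw0 τ)
        · simp only [hH', if_neg hc, abs_zero]; exact mul_nonneg hM0 (haw0 τ))
      (fun τ i hLoi => by
        by_cases hc : Cnd τ
        · simp only [hH', if_pos hc]
          by_cases hH0 : H τ = 0
          · rw [hH0, zero_mul, abs_zero]
            exact mul_nonneg hM0 (mul_nonneg (hms0 _) (haw0 τ))
          · have hi : ms (lv τ i) < V1 := (hlow τ hc i).mp (by rw [hLoi]; exact Finset.mem_singleton_self i)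
            have hoth : ∀ i', i' ≠ i → V1 ≤ ms (lv τ i') := by
              intro i' hne
              by_contra hcon
              have : i' ∈ Lo := (hlow τ hc i').mpr (not_le.mp hcon)
              rw [hLoi, Finset.mem_singleton] at this
              exact hne this
            rw [abs_mul, mul_comm M]
            exact mul_le_mul (hpar τ i hi hoth) (hprodle τ hc hH0) (abs_nonneg _)
              (mul_nonneg (hms0 _) (haw0 τ))
        · simp only [hH', if_neg hc, abs_zero]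
          exact mul_nonneg hM0 (mul_nonneg (hms0 _) (haw0 τ)))
    have hsplit : ∀ τ, ∏ i ∈ Aᶜ, phi i (lv τ i)
        = (∏ i ∈ Loᶜ, phi i (lv τ i)) * ∏ i ∈ Lo \ A, phi i (lv τ i) := by
      intro τ
      have hd : Disjoint Loᶜ (Lo \ A) := by
        rw [Finset.disjoint_left]
        intro i h1 h2
        exact (Finset.mem_compl.mp h1) (Finset.mem_sdiff.mp h2).1
      have hu : Aᶜ = Loᶜ ∪ (Lo \ A) := by
        ext i
        simp only [Finset.mem_compl, Finset.mem_union, Finset.mem_sdiff]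
        constructor
        · intro h
          by_cases hi : i ∈ Lo
          · exact Or.inr ⟨hi, h⟩
          · exact Or.inl hi
        · rintro (h | h)
          · exact fun hA => h (hALo hA)
          · exact h.2
      rw [hu, Finset.prod_union hd]
    have heq : ∑ τ ∈ (Finset.univ.filter (fun τ => ¬ ∃ i ∈ A, V1 ≤ ms (lv τ i))).filter
          (fun τ => Finset.univ.filter (fun i => ms (lv τ i) < V1) = Lo),
        H τ * (∏ i ∈ Aᶜ, phi i (lv τ i)) * (l9hE nu del A true τ - l9hE nu del A false τ)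
        = ∑ τ, H' τ * (∏ i ∈ Lo \ A, phi i (lv τ i)) *
          (l9hE nu del A true τ - l9hE nu del A false τ) := by
      rw [Finset.filter_filter, Finset.sum_filter]
      refine Finset.sum_congr rfl fun τ _ => ?_
      by_cases hc : Cnd τ
      · rw [if_pos hc]
        simp only [hH', if_pos hc]
        rw [hsplit τ]; ring
      · rw [if_neg hc]
        simp only [hH', if_neg hc]
        ring
    rw [heq]
    exact key

/-- hypotheses on the stochastic factors, one ensemble -/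
structure L9hDel {ι Tr Ω : Type*} [MeasurableSpace Ω] (nu : Tr → Measure Ω) (del : Tr → ι → Ω → ℝ)
    (A : Finset ι) (lv : Tr → ι → ℕ) (ms sig : ℕ → ℝ) (V1 V2 D1 D2 : ℝ) : Prop where
  prob : ∀ τ, IsProbabilityMeasure (nu τ)
  meas : ∀ τ, ∀ i ∈ A, AEStronglyMeasurable (del τ i) (nu τ)
  bdd : ∀ τ, ∀ i ∈ A, ∀ ω, |del τ i ω| ≤ 2
  st1 : ∀ τ, ∀ i ∈ A, V1 ≤ ms (lv τ i) → ∫ ω, del τ i ω ^ 2 ∂(nu τ) ≤ D1 ^ 2
  st2 : ∀ τ, ∀ i ∈ A, V2 ≤ ms (lv τ i) → ∫ ω, del τ i ω ^ 2 ∂(nu τ) ≤ D2 ^ 2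
  low : ∀ τ, ∀ i ∈ A, ms (lv τ i) < V1 → ∫ ω, del τ i ω ^ 4 ∂(nu τ) ≤ sig (lv τ i) ^ 4

/-- all the factors as random variables -/
noncomputable def l9hX {ι Tr Ω : Type*} [DecidableEq ι] (del : Tr → ι → Ω → ℝ) (A : Finset ι)
    (phi : ι → ℕ → ℝ) (lv : Tr → ι → ℕ) (τ : Tr) (i : ι) (ω : Ω) : ℝ :=
  if i ∈ A then del τ i ω else phi i (lv τ i)

theorem l9hX_int {ι Tr Ω : Type*} [Fintype ι] [DecidableEq ι] [MeasurableSpace Ω] (P : Measure Ω)
    (del : Tr → ι → Ω → ℝ) (A : Finset ι) (phi : ι → ℕ → ℝ) (lv : Tr → ι → ℕ) (τ : Tr) :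
    ∫ ω, ∏ i, l9hX del A phi lv τ i ω ∂P
      = (∏ i ∈ Aᶜ, phi i (lv τ i)) * ∫ ω, ∏ i ∈ A, del τ i ω ∂P := by
  have h : ∀ ω, ∏ i, l9hX del A phi lv τ i ω
      = (∏ i ∈ Aᶜ, phi i (lv τ i)) * ∏ i ∈ A, del τ i ω := by
    intro ω
    rw [← Finset.prod_mul_prod_compl A, mul_comm]
    congr 1
    · refine Finset.prod_congr rfl fun i hi => ?_
      unfold l9hX; rw [if_neg (Finset.mem_compl.mp hi)]
    · refine Finset.prod_congr rfl fun i hi => ?_
      unfold l9hX; rw [if_pos hi]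
  simp only [h]
  exact integral_const_mul _ _

theorem l9h_ens_of_del {ι Tr Ω : Type*} [DecidableEq ι] [MeasurableSpace Ω]
    {nu : Tr → Measure Ω} {del : Tr → ι → Ω → ℝ} {A : Finset ι} {phi : ι → ℕ → ℝ}
    {lv : Tr → ι → ℕ} {ms sig : ℕ → ℝ} {V1 V2 D1 D2 PhiH sg : ℝ}
    (hD : L9hDel nu del A lv ms sig V1 V2 D1 D2) (hPhi1 : PhiH ≤ 2) (hsg1 : sg ≤ 1)
    (hsigsg : ∀ k, ms k < V1 → sig k ≤ sg)
    (hphiH : ∀ i ∉ A, ∀ k, V1 ≤ ms k → |phi i k| ≤ PhiH)
    (hphiL : ∀ i ∉ A, ∀ k, ms k < V1 → |phi i k| ≤ sig k) :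
    L9hEns nu (l9hX del A phi lv) A lv ms sig V1 V2 D1 D2 PhiH where
  prob := hD.prob
  meas := by
    intro τ i
    by_cases hi : i ∈ A
    · have : l9hX del A phi lv τ i = del τ i := by funext ω; unfold l9hX; rw [if_pos hi]
      rw [this]; exact hD.meas τ i hi
    · have : l9hX del A phi lv τ i = fun _ => phi i (lv τ i) := by
        funext ω; unfold l9hX; rw [if_neg hi]
      rw [this]; exact aestronglyMeasurable_const
  bdd := by
    intro τ i ω
    unfold l9hX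
    by_cases hi : i ∈ A
    · rw [if_pos hi]; exact hD.bdd τ i hi ω
    · rw [if_neg hi]
      rcases lt_or_ge (ms (lv τ i)) V1 with h | h
      · have := hphiL i hi _ h; have := hsigsg _ h; linarith
      · have := hphiH i hi _ h; linarith
  st1 := by
    intro τ i hi h
    have : ∀ ω, l9hX del A phi lv τ i ω = del τ i ω := fun ω => by unfold l9hX; rw [if_pos hi]
    simp only [this]; exact hD.st1 τ i hi h
  st2 := by
    intro τ i hi h
    have : ∀ ω, l9hX del A phi lv τ i ω = del τ i ω := fun ω => by unfold l9hX; rw [if_pos hi]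
    simp only [this]; exact hD.st2 τ i hi h
  det := by
    intro τ i hi h
    have := hD.prob τ
    have e : ∀ ω, l9hX del A phi lv τ i ω = phi i (lv τ i) := fun ω => by
      unfold l9hX; rw [if_neg hi]
    simp only [e, integral_const, smul_eq_mul, probReal_univ, one_mul]
    rw [← sq_abs]
    exact pow_le_pow_left₀ (abs_nonneg _) (hphiH i hi _ h) 2
  low := by
    intro τ i h
    have := hD.prob τ
    by_cases hi : i ∈ A
    · have e : ∀ ω, l9hX del A phi lv τ i ω = del τ i ω := fun ω => by unfold l9hX; rw [if_pos hi]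
      simp only [e]; exact hD.low τ i hi h
    · have e : ∀ ω, l9hX del A phi lv τ i ω = phi i (lv τ i) := fun ω => by
        unfold l9hX; rw [if_neg hi]
      simp only [e, integral_const, smul_eq_mul, probReal_univ, one_mul]
      have h4 : phi i (lv τ i) ^ 4 = |phi i (lv τ i)| ^ 4 := by
        rw [show (4:ℕ) = 2 * 2 from rfl, pow_mul, pow_mul, sq_abs]
      rw [h4]
      exact pow_le_pow_left₀ (abs_nonneg _) (hphiL i hi _ h) 4

/-- **Node HI, one term** `d[H ∏_{i∉A} φ_i ; ∏_{i∈A} δ_i]` restricted to "some base pair of mass `≥ V₂`" (09 l.331-395). -/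
theorem l9h_term {ι Tr Ω : Type*} [Fintype ι] [DecidableEq ι] [Fintype Tr] [MeasurableSpace Ω]
    {nu : Bool → Tr → Measure Ω} {del : Bool → Tr → ι → Ω → ℝ} {A : Finset ι} {phi : ι → ℕ → ℝ}
    {lv : Tr → ι → ℕ} {ms sig mw : ℕ → ℝ} {K : Finset ℕ} {H aw : Tr → ℝ}
    {V1 V2 D1 D2 PhiH sg CT CS E1 E2 BLS tiny : ℝ}
    (hD : ∀ e, L9hDel (nu e) (del e) A lv ms sig V1 V2 D1 D2)
    (hW : L9hWt lv ms sig mw K H aw V1 V2 sg CT CS E1 E2)
    (hLS : L9hLS nu del A phi lv ms aw V1 BLS tiny)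
    (hD1 : 0 ≤ D1) (hD2 : 0 ≤ D2) (hPhi : 0 ≤ PhiH) (hPhi1 : PhiH ≤ 2) (hsg1 : sg ≤ 1)
    (hcard : 2 ≤ Fintype.card ι)
    (hphiH : ∀ i ∉ A, ∀ k, V1 ≤ ms k → |phi i k| ≤ PhiH)
    (hphiL : ∀ i ∉ A, ∀ k, ms k < V1 → |phi i k| ≤ sig k) :
    |∑ τ, H τ * (∏ i ∈ Aᶜ, phi i (lv τ i)) * (l9hE nu del A true τ - l9hE nu del A false τ)|
      ≤ 2 ^ Fintype.card ι * (PhiH * 2 ^ Fintype.card ι * BLS + tiny) + 2 * (2 ^ Fintype.card ι *
        (CT * (D1 ^ 2 + D1 * PhiH) + Fintype.card ι * (CS * (D2 * (E2 + sg * E1))))) := by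
  have hE : ∀ e, L9hEns (nu e) (l9hX (del e) A phi lv) A lv ms sig V1 V2 D1 D2 PhiH := fun e =>
    l9h_ens_of_del (hD e) hPhi1 hsg1 hW.sigsg hphiH hphiL
  have e1 : ∀ τ, H τ * (∏ i ∈ Aᶜ, phi i (lv τ i)) *
        (l9hE nu del A true τ - l9hE nu del A false τ)
      = H τ * ((∫ ω, ∏ i, l9hX (del true) A phi lv τ i ω ∂(nu true τ))
        - ∫ ω, ∏ i, l9hX (del false) A phi lv τ i ω ∂(nu false τ)) := by
    intro τ
    rw [l9hX_int, l9hX_int]
    unfold l9hE
    ring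
  have h3 := l9h_row3 hLS hW.hV hPhi hPhi1 hW.ms0 hW.maj hW.supp hW.par hphiH
  simp only [e1] at h3 ⊢
  exact l9h_main (X := fun e => l9hX (del e) A phi lv) hE hW hD1 hD2 hPhi hcard h3

end Claimed.Agent.R286
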