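import Mathlib

/-!
# Row 286, LL Sec. 9 (scalar compression at a fixed cut): SOURCE SUMS `s_k` AND THEIR JETS      (helper274; head helper60 / helper242; prefix `l9j_`)

Mathlib only, no model definitions.   `G = G(c, ·)` is the scalar continuation at the cut `c` as a function of the field; `G1, .., G6` its derivatives (given through `HasDerivAt`, so that any representation, `deriv`, `iteratedDeriv`, fits).
* `l9jS1 .. l9jS4`  : `s_k = c⁻¹ e^{-cG} ∂_z^k e^{cG}` in explicit form (A5 of 242's note);   `l9j_exp_1 .. 4` : they ARE these derivatives;   `l9j_ds1 .. 3` : `s_k' = s_{k+1} - c s_1 s_k`.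
* `l9j_s1 .. l9j_s4` : (E7), deterministic Taylor bounds (S2 of 242's note) with explicit constants.
* `l9jD2 .. 4`, `l9j_par_2 .. 4`, `l9j_d2 .. 4` : the same for the parameter derivative `∂ s_k` (the `O_*` half of (E7)).
* `l9j_scal`, `l9j_mono`, `l9j_tab_21 22 31 32 4`, `l9j_marg` : the scaling table (S10): `(1 - j/6 + ∂_θ) ℓ^{-(6-j)} = 0`, `ℓ = e^{θ/6}`; the five leading monomials are killed up to an explicit error linear in the defects `e1, e2` of S8.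
-/

set_option autoImplicit false

namespace Claimed.Agent.R286

open Real

/-! ## 1. the source sums -/

/-- `s_1 = G_z` -/
def l9jS1 (G1 : ℝ → ℝ) (z : ℝ) : ℝ := G1 z

/-- `s_2 = G_zz + c G_z²` -/
def l9jS2 (c : ℝ) (G1 G2 : ℝ → ℝ) (z : ℝ) : ℝ := G2 z + c * G1 z ^ 2

/-- `s_3 = G_zzz + 3 c G_z G_zz + c² G_z³` -/
def l9jS3 (c : ℝ) (G1 G2 G3 : ℝ → ℝ) (z : ℝ) : ℝ := G3 z + 3 * c * G1 z * G2 z + c ^ 2 * G1 z ^ 3

/-- `s_4 = G_zzzz + 4 c G_z G_zzz + 3 c G_zz² + 6 c² G_z² G_zz + c³ G_z⁴` -/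
def l9jS4 (c : ℝ) (G1 G2 G3 G4 : ℝ → ℝ) (z : ℝ) : ℝ :=
  G4 z + 4 * c * G1 z * G3 z + 3 * c * G2 z ^ 2 + 6 * c ^ 2 * G1 z ^ 2 * G2 z + c ^ 3 * G1 z ^ 4

theorem l9j_eqns_cite : True := by
  have := @l9jS1.eq_1; have := @l9jS2.eq_1; have := @l9jS3.eq_1; have := @l9jS4.eq_1
  trivial

section deriv

variable {G G1 G2 G3 G4 : ℝ → ℝ} (c : ℝ)

theorem l9j_exp_1 (h0 : ∀ z, HasDerivAt G (G1 z) z) (z : ℝ) :
    HasDerivAt (fun y => exp (c * G y)) (c * l9jS1 G1 z * exp (c * G z)) z := by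
  refine ((h0 z).const_mul c).exp.congr_deriv ?_
  unfold l9jS1
  ring

theorem l9j_exp_2 (h0 : ∀ z, HasDerivAt G (G1 z) z) (h1 : ∀ z, HasDerivAt G1 (G2 z) z) (z : ℝ) :
    HasDerivAt (fun y => c * l9jS1 G1 y * exp (c * G y)) (c * l9jS2 c G1 G2 z * exp (c * G z)) z := by
  have e := l9j_exp_1 c h0 z
  have a : HasDerivAt (fun y => c * l9jS1 G1 y) (c * G2 z) z := (h1 z).const_mul c
  refine (a.fun_mul e).congr_deriv ?_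
  unfold l9jS1 l9jS2
  ring

theorem l9j_exp_3 (h0 : ∀ z, HasDerivAt G (G1 z) z) (h1 : ∀ z, HasDerivAt G1 (G2 z) z) (h2 : ∀ z, HasDerivAt G2 (G3 z) z) (z : ℝ) :
    HasDerivAt (fun y => c * l9jS2 c G1 G2 y * exp (c * G y)) (c * l9jS3 c G1 G2 G3 z * exp (c * G z)) z := by
  have e := l9j_exp_1 c h0 z
  have a0 : HasDerivAt (fun y => G1 y ^ 2) (2 * G1 z * G2 z) z := by
    have := (h1 z).fun_pow 2
    simpa using this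
  have a : HasDerivAt (fun y => c * l9jS2 c G1 G2 y) (c * (G3 z + c * (2 * G1 z * G2 z))) z :=
    ((h2 z).fun_add (a0.const_mul c)).const_mul c
  refine (a.fun_mul e).congr_deriv ?_
  unfold l9jS1 l9jS2 l9jS3
  ring

theorem l9j_exp_4 (h0 : ∀ z, HasDerivAt G (G1 z) z) (h1 : ∀ z, HasDerivAt G1 (G2 z) z) (h2 : ∀ z, HasDerivAt G2 (G3 z) z)
    (h3 : ∀ z, HasDerivAt G3 (G4 z) z) (z : ℝ) :
    HasDerivAt (fun y => c * l9jS3 c G1 G2 G3 y * exp (c * G y)) (c * l9jS4 c G1 G2 G3 G4 z * exp (c * G z)) z := by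
  have e := l9j_exp_1 c h0 z
  have a1 : HasDerivAt (fun y => 3 * c * G1 y * G2 y) (3 * c * G2 z * G2 z + 3 * c * G1 z * G3 z) z :=
    ((h1 z).const_mul (3 * c)).fun_mul (h2 z)
  have a2 : HasDerivAt (fun y => c ^ 2 * G1 y ^ 3) (c ^ 2 * (3 * G1 z ^ 2 * G2 z)) z := by
    have := ((h1 z).fun_pow 3).const_mul (c ^ 2)
    simpa using this
  have a : HasDerivAt (fun y => c * l9jS3 c G1 G2 G3 y)
      (c * (G4 z + (3 * c * G2 z * G2 z + 3 * c * G1 z * G3 z) + c ^ 2 * (3 * G1 z ^ 2 * G2 z))) z :=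
    (((h3 z).fun_add a1).fun_add a2).const_mul c
  refine (a.fun_mul e).congr_deriv ?_
  unfold l9jS1 l9jS3 l9jS4
  ring

end deriv

/-! ## 2. Taylor bounds by integration of a bound on the derivative      (LOCAL: bounds are only needed on `|y| ≤ |z|`, so polynomially growing bounds are allowed) -/

theorem l9j_int_pos {g g' : ℝ → ℝ} {B : ℝ} (n : ℕ) (hg : ∀ y, HasDerivAt g (g' y) y) (h0 : g 0 = 0) (z : ℝ) (hz : 0 ≤ z)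
    (hb : ∀ y, 0 ≤ y → y ≤ z → g' y ≤ B * y ^ n) : g z ≤ B * z ^ (n + 1) / (n + 1) := by
  have hd : ∀ y, HasDerivAt (fun y => B * y ^ (n + 1) / (n + 1) - g y) (B * y ^ n - g' y) y := by
    intro y
    have h1 : HasDerivAt (fun y : ℝ => B * y ^ (n + 1) / (n + 1)) (B * y ^ n) y := by
      have := ((hasDerivAt_pow (n + 1) y).const_mul B).div_const ((n : ℝ) + 1)
      refine this.congr_deriv ?_
      have : ((n : ℝ) + 1) ≠ 0 := by positivity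
      push_cast
      field_simp
    exact h1.fun_sub (hg y)
  have hm : MonotoneOn (fun y => B * y ^ (n + 1) / (n + 1) - g y) (Set.Icc 0 z) := by
    refine monotoneOn_of_deriv_nonneg (convex_Icc 0 z) (fun y _ => (hd y).continuousAt.continuousWithinAt)
      (fun y _ => (hd y).differentiableAt.differentiableWithinAt) (fun y hy => ?_)
    rw [interior_Icc] at hy
    rw [(hd y).deriv]
    linarith [hb y hy.1.le hy.2.le]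
  have := hm (Set.mem_Icc.2 ⟨le_rfl, hz⟩) (Set.mem_Icc.2 ⟨hz, le_rfl⟩) hz
  simp only [h0] at this
  have e : B * (0 : ℝ) ^ (n + 1) / (n + 1) = 0 := by simp
  rw [e] at this
  linarith

theorem l9j_refl {g g' : ℝ → ℝ} (hg : ∀ y, HasDerivAt g (g' y) y) (y : ℝ) : HasDerivAt (fun y => g (-y)) (- g' (-y)) y :=
  ((hg (-y)).comp y (hasDerivAt_neg y)).congr_deriv (by ring)

/-- **integration of a bound**: `g 0 = 0`, `|g'| ≤ B |y|^n` on `|y| ≤ |z|` gives `|g z| ≤ B |z|^(n+1) / (n+1)` -/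
theorem l9j_int {g g' : ℝ → ℝ} {B : ℝ} (n : ℕ) (hg : ∀ y, HasDerivAt g (g' y) y) (h0 : g 0 = 0) (z : ℝ)
    (hb : ∀ y, |y| ≤ |z| → |g' y| ≤ B * |y| ^ n) : |g z| ≤ B * |z| ^ (n + 1) / (n + 1) := by
  rcases le_total 0 z with hz | hz
  · rw [abs_of_nonneg hz] at hb ⊢
    have hb' : ∀ y, 0 ≤ y → y ≤ z → |g' y| ≤ B * y ^ n := fun y h1 h2 => by
      have := hb y (by rwa [abs_of_nonneg h1])
      rwa [abs_of_nonneg h1] at this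
    rw [abs_le]
    constructor
    · have := l9j_int_pos (g := fun y => - g y) (g' := fun y => - g' y) (B := B) n (fun y => (hg y).fun_neg) (by simp [h0]) z hz
        (fun y h1 h2 => by linarith [(abs_le.1 (hb' y h1 h2)).1])
      linarith
    · exact l9j_int_pos n hg h0 z hz (fun y h1 h2 => (abs_le.1 (hb' y h1 h2)).2)
  · have hz' : 0 ≤ -z := by linarith
    have hr : ∀ y, HasDerivAt (fun y => g (-y)) (- g' (-y)) y := l9j_refl hg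
    rw [abs_of_nonpos hz] at hb ⊢
    have hb' : ∀ y, 0 ≤ y → y ≤ -z → |g' (-y)| ≤ B * y ^ n := fun y h1 h2 => by
      have := hb (-y) (by rwa [abs_neg, abs_of_nonneg h1])
      rwa [abs_neg, abs_of_nonneg h1] at this
    rw [abs_le]
    constructor
    · have := l9j_int_pos (g := fun y => - g (-y)) (g' := fun y => g' (-y)) (B := B) n
        (fun y => (hr y).fun_neg.congr_deriv (by ring)) (by simp [h0]) (-z) hz' (fun y h1 h2 => (abs_le.1 (hb' y h1 h2)).2)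
      simp only [neg_neg] at this
      linarith
    · have := l9j_int_pos (g := fun y => g (-y)) (g' := fun y => - g' (-y)) (B := B) n hr (by simp [h0]) (-z) hz'
        (fun y h1 h2 => by linarith [(abs_le.1 (hb' y h1 h2)).1])
      simpa using this

/-- first order: `|f z - f 0| ≤ B |z|` -/
theorem l9j_tay1 {f f1 : ℝ → ℝ} {B : ℝ} (h0 : ∀ y, HasDerivAt f (f1 y) y) (z : ℝ) (hb : ∀ y, |y| ≤ |z| → |f1 y| ≤ B) :
    |f z - f 0| ≤ B * |z| := by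
  have := l9j_int (g := fun y => f y - f 0) (g' := f1) (B := B) 0 (fun y => (h0 y).sub_const _) (by simp) z (by simpa using hb)
  simpa using this

/-- even type: first derivative `0` at `0`, second derivative bounded by `B`: `|f z - f 0| ≤ B z² / 2` -/
theorem l9j_tay2 {f f1 f2 : ℝ → ℝ} {B : ℝ} (h0 : ∀ y, HasDerivAt f (f1 y) y) (h1 : ∀ y, HasDerivAt f1 (f2 y) y)
    (hz : f1 0 = 0) (z : ℝ) (hb : ∀ y, |y| ≤ |z| → |f2 y| ≤ B) : |f z - f 0| ≤ B * z ^ 2 / 2 := by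
  have a : ∀ y, |y| ≤ |z| → |f1 y| ≤ B * |y| ^ 1 := by
    intro y hy
    have := l9j_tay1 h1 y (fun w hw => hb w (hw.trans hy))
    rw [hz, sub_zero] at this
    simpa using this
  have := l9j_int (g := fun y => f y - f 0) (g' := f1) (B := B) 1 (fun y => (h0 y).sub_const _) (by simp) z a
  rw [show (1 + 1 : ℕ) = 2 from rfl, sq_abs] at this
  norm_num at this
  linarith

/-- odd type: `f 0 = 0`, second derivative `0` at `0`, third derivative bounded by `B`: `|f z - f1 0 z| ≤ B |z|³ / 6` -/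
theorem l9j_tay3 {f f1 f2 f3 : ℝ → ℝ} {B : ℝ} (h0 : ∀ y, HasDerivAt f (f1 y) y) (h1 : ∀ y, HasDerivAt f1 (f2 y) y)
    (h2 : ∀ y, HasDerivAt f2 (f3 y) y) (hz0 : f 0 = 0) (hz2 : f2 0 = 0) (z : ℝ) (hb : ∀ y, |y| ≤ |z| → |f3 y| ≤ B) :
    |f z - f1 0 * z| ≤ B * |z| ^ 3 / 6 := by
  have a : ∀ y, |y| ≤ |z| → |f1 y - f1 0| ≤ B / 2 * |y| ^ 2 := by
    intro y hy
    have := l9j_tay2 h1 h2 hz2 y (fun w hw => hb w (hw.trans hy))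
    rw [sq_abs]
    linarith
  have hd : ∀ y, HasDerivAt (fun y => f y - f1 0 * y) (f1 y - f1 0) y := by
    intro y
    exact ((h0 y).fun_sub ((hasDerivAt_id y).const_mul (f1 0))).congr_deriv (by ring)
  have := l9j_int (g := fun y => f y - f1 0 * y) (g' := fun y => f1 y - f1 0) (B := B / 2) 2 hd (by simp [hz0]) z a
  rw [show (2 + 1 : ℕ) = 3 from rfl] at this
  norm_num at this
  linarith

/-- the derivative of an even function is odd -/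
theorem l9j_odd_of_even {f f1 : ℝ → ℝ} (h0 : ∀ y, HasDerivAt f (f1 y) y) (he : ∀ y, f (-y) = f y) (y : ℝ) : f1 (-y) = - f1 y := by
  have a : HasDerivAt (fun y => f (-y)) (- f1 (-y)) y := l9j_refl h0 y
  have b : (fun y => f (-y)) = f := funext he
  rw [b] at a
  have := a.unique (h0 y)
  linarith

/-- the derivative of an odd function is even -/
theorem l9j_even_of_odd {f f1 : ℝ → ℝ} (h0 : ∀ y, HasDerivAt f (f1 y) y) (ho : ∀ y, f (-y) = - f y) (y : ℝ) : f1 (-y) = f1 y := by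
  have a : HasDerivAt (fun y => f (-y)) (- f1 (-y)) y := l9j_refl h0 y
  have b : (fun y => f (-y)) = fun y => - f y := funext ho
  rw [b] at a
  have := a.unique (h0 y).fun_neg
  linarith

theorem l9j_odd_zero {f : ℝ → ℝ} (ho : ∀ y, f (-y) = - f y) : f 0 = 0 := by
  have := ho 0
  simp at this
  linarith

/-! ## 3. odd chains and their elementary bounds -/

/-- `G1, .., G6` = successive derivatives of an ODD function `G1` (only the values at `0` of the parity are kept).   Used for `G1 = G_z(c, ·)` and for its parameter derivative. -/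
structure L9jCh (G1 G2 G3 G4 G5 G6 : ℝ → ℝ) : Prop where
  d1 : ∀ z, HasDerivAt G1 (G2 z) z
  d2 : ∀ z, HasDerivAt G2 (G3 z) z
  d3 : ∀ z, HasDerivAt G3 (G4 z) z
  d4 : ∀ z, HasDerivAt G4 (G5 z) z
  d5 : ∀ z, HasDerivAt G5 (G6 z) z
  z1 : G1 0 = 0
  z3 : G3 0 = 0
  z5 : G5 0 = 0

/-- a chain of derivatives of an odd function is an odd chain -/
theorem l9j_ch_of_odd {G1 G2 G3 G4 G5 G6 : ℝ → ℝ} (d1 : ∀ z, HasDerivAt G1 (G2 z) z) (d2 : ∀ z, HasDerivAt G2 (G3 z) z)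
    (d3 : ∀ z, HasDerivAt G3 (G4 z) z) (d4 : ∀ z, HasDerivAt G4 (G5 z) z) (d5 : ∀ z, HasDerivAt G5 (G6 z) z)
    (ho : ∀ z, G1 (-z) = - G1 z) : L9jCh G1 G2 G3 G4 G5 G6 := by
  have e2 := l9j_even_of_odd d1 ho
  have o3 := l9j_odd_of_even d2 e2
  have e4 := l9j_even_of_odd d3 o3
  have o5 := l9j_odd_of_even d4 e4
  exact ⟨d1, d2, d3, d4, d5, l9j_odd_zero ho, l9j_odd_zero o3, l9j_odd_zero o5⟩

/-- bounds of the even members of the chain on `|y| ≤ |z|` -/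
structure L9jBd (G2 G4 G6 : ℝ → ℝ) (z B2 B4 B6 : ℝ) : Prop where
  b2 : ∀ y, |y| ≤ |z| → |G2 y| ≤ B2
  b4 : ∀ y, |y| ≤ |z| → |G4 y| ≤ B4
  b6 : ∀ y, |y| ≤ |z| → |G6 y| ≤ B6

namespace L9jCh

variable {G1 G2 G3 G4 G5 G6 : ℝ → ℝ} {z B2 B4 B6 : ℝ}

theorem a1 (h : L9jCh G1 G2 G3 G4 G5 G6) (b : L9jBd G2 G4 G6 z B2 B4 B6) : |G1 z| ≤ B2 * |z| := by
  have := l9j_tay1 h.d1 z b.b2
  rwa [h.z1, sub_zero] at this

theorem a2 (_h : L9jCh G1 G2 G3 G4 G5 G6) (b : L9jBd G2 G4 G6 z B2 B4 B6) : |G2 z| ≤ B2 := b.b2 z le_rfl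

theorem a3 (h : L9jCh G1 G2 G3 G4 G5 G6) (b : L9jBd G2 G4 G6 z B2 B4 B6) : |G3 z| ≤ B4 * |z| := by
  have := l9j_tay1 h.d3 z b.b4
  rwa [h.z3, sub_zero] at this

theorem a4 (_h : L9jCh G1 G2 G3 G4 G5 G6) (b : L9jBd G2 G4 G6 z B2 B4 B6) : |G4 z| ≤ B4 := b.b4 z le_rfl

theorem t1 (h : L9jCh G1 G2 G3 G4 G5 G6) (b : L9jBd G2 G4 G6 z B2 B4 B6) : |G1 z - G2 0 * z| ≤ B4 * |z| ^ 3 / 6 :=
  l9j_tay3 h.d1 h.d2 h.d3 h.z1 h.z3 z b.b4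

theorem t2 (h : L9jCh G1 G2 G3 G4 G5 G6) (b : L9jBd G2 G4 G6 z B2 B4 B6) : |G2 z - G2 0| ≤ B4 * z ^ 2 / 2 :=
  l9j_tay2 h.d2 h.d3 h.z3 z b.b4

theorem t3 (h : L9jCh G1 G2 G3 G4 G5 G6) (b : L9jBd G2 G4 G6 z B2 B4 B6) : |G3 z - G4 0 * z| ≤ B6 * |z| ^ 3 / 6 :=
  l9j_tay3 h.d3 h.d4 h.d5 h.z3 h.z5 z b.b6

theorem t4 (h : L9jCh G1 G2 G3 G4 G5 G6) (b : L9jBd G2 G4 G6 z B2 B4 B6) : |G4 z - G4 0| ≤ B6 * z ^ 2 / 2 :=
  l9j_tay2 h.d4 h.d5 h.z5 z b.b6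

end L9jCh

theorem L9jBd.nn2 {G2 G4 G6 : ℝ → ℝ} {z B2 B4 B6 : ℝ} (b : L9jBd G2 G4 G6 z B2 B4 B6) : 0 ≤ B2 := (abs_nonneg _).trans (b.b2 z le_rfl)
theorem L9jBd.nn4 {G2 G4 G6 : ℝ → ℝ} {z B2 B4 B6 : ℝ} (b : L9jBd G2 G4 G6 z B2 B4 B6) : 0 ≤ B4 := (abs_nonneg _).trans (b.b4 z le_rfl)
theorem L9jBd.nn6 {G2 G4 G6 : ℝ → ℝ} {z B2 B4 B6 : ℝ} (b : L9jBd G2 G4 G6 z B2 B4 B6) : 0 ≤ B6 := (abs_nonneg _).trans (b.b6 z le_rfl)

theorem l9j_am {a b A B : ℝ} (ha : |a| ≤ A) (hb : |b| ≤ B) : |a * b| ≤ A * B := by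
  rw [abs_mul]
  exact mul_le_mul ha hb (abs_nonneg _) ((abs_nonneg _).trans ha)

theorem l9j_ap {a A : ℝ} (ha : |a| ≤ A) (n : ℕ) : |a ^ n| ≤ A ^ n := by
  rw [abs_pow]
  exact pow_le_pow_left₀ (abs_nonneg _) ha n

theorem l9j_ac {a A c : ℝ} (hc : 0 ≤ c) (ha : |a| ≤ A) : |c * a| ≤ c * A := by
  rw [abs_mul, abs_of_nonneg hc]
  exact mul_le_mul_of_nonneg_left ha hc

/-! ## 4. (E7): the source sums near the origin      TEX[LL:exp:prop-low-coefficients] (display (E7)) -/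

section E7

variable {G1 G2 G3 G4 G5 G6 : ℝ → ℝ} {z B2 B4 B6 c χ g E : ℝ}

/-- `s_1 = χ z + O(E |z| + |z|³)`,   `E` = bound of `|G_zz(c,0) - χ|` (`≤ C c`) -/
theorem l9j_s1 (h : L9jCh G1 G2 G3 G4 G5 G6) (b : L9jBd G2 G4 G6 z B2 B4 B6) (hχ : |G2 0 - χ| ≤ E) :
    |l9jS1 G1 z - χ * z| ≤ E * |z| + B4 * |z| ^ 3 / 6 := by
  unfold l9jS1
  have e : G1 z - χ * z = (G2 0 - χ) * z + (G1 z - G2 0 * z) := by ring
  rw [e]
  refine (abs_add_le _ _).trans (add_le_add (l9j_am hχ le_rfl) (h.t1 b))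

/-- `s_2 = χ + O(E + z²)` -/
theorem l9j_s2 (h : L9jCh G1 G2 G3 G4 G5 G6) (b : L9jBd G2 G4 G6 z B2 B4 B6) (hc : 0 ≤ c) (hχ : |G2 0 - χ| ≤ E) :
    |l9jS2 c G1 G2 z - χ| ≤ E + (B4 / 2 + c * B2 ^ 2) * z ^ 2 := by
  unfold l9jS2
  have e : G2 z + c * G1 z ^ 2 - χ = (G2 0 - χ) + (G2 z - G2 0) + c * G1 z ^ 2 := by ring
  rw [e]
  have h1 := l9j_ac hc (l9j_ap (h.a1 b) 2)
  have h2 := h.t2 b
  have h3 : (B2 * |z|) ^ 2 = B2 ^ 2 * z ^ 2 := by rw [mul_pow, sq_abs]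
  rw [h3] at h1
  have := abs_add_three (G2 0 - χ) (G2 z - G2 0) (c * G1 z ^ 2)
  nlinarith

/-- `s_3 = g z + O((E + c) |z| + |z|³)` -/
theorem l9j_s3 (h : L9jCh G1 G2 G3 G4 G5 G6) (b : L9jBd G2 G4 G6 z B2 B4 B6) (hc : 0 ≤ c) (hg : |G4 0 - g| ≤ E) :
    |l9jS3 c G1 G2 G3 z - g * z| ≤ (E + 3 * c * B2 ^ 2) * |z| + (B6 / 6 + c ^ 2 * B2 ^ 3) * |z| ^ 3 := by
  unfold l9jS3
  have e : G3 z + 3 * c * G1 z * G2 z + c ^ 2 * G1 z ^ 3 - g * z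
      = (G4 0 - g) * z + (G3 z - G4 0 * z) + ((3 * c) * (G1 z * G2 z) + c ^ 2 * G1 z ^ 3) := by ring
  rw [e]
  have h0 : |(G4 0 - g) * z| ≤ E * |z| := l9j_am hg le_rfl
  have h1 := h.t3 b
  have h2 := l9j_ac (by positivity : 0 ≤ 3 * c) (l9j_am (h.a1 b) (h.a2 b))
  have h3 := l9j_ac (by positivity : 0 ≤ c ^ 2) (l9j_ap (h.a1 b) 3)
  have h4 := abs_add_three ((G4 0 - g) * z) (G3 z - G4 0 * z) ((3 * c) * (G1 z * G2 z) + c ^ 2 * G1 z ^ 3)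
  have h5 := abs_add_le ((3 * c) * (G1 z * G2 z)) (c ^ 2 * G1 z ^ 3)
  have h6 : (B2 * |z|) ^ 3 = B2 ^ 3 * |z| ^ 3 := mul_pow _ _ _
  rw [h6] at h3
  nlinarith

/-- `s_4 = g + O(E + c + z² + z⁴)` -/
theorem l9j_s4 (h : L9jCh G1 G2 G3 G4 G5 G6) (b : L9jBd G2 G4 G6 z B2 B4 B6) (hc : 0 ≤ c) (hg : |G4 0 - g| ≤ E) :
    |l9jS4 c G1 G2 G3 G4 z - g| ≤ E + 3 * c * B2 ^ 2 + (B6 / 2 + 4 * c * B2 * B4 + 6 * c ^ 2 * B2 ^ 3) * z ^ 2 + c ^ 3 * B2 ^ 4 * z ^ 4 := by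
  unfold l9jS4
  have e : G4 z + 4 * c * G1 z * G3 z + 3 * c * G2 z ^ 2 + 6 * c ^ 2 * G1 z ^ 2 * G2 z + c ^ 3 * G1 z ^ 4 - g
      = (G4 0 - g) + (G4 z - G4 0) + ((4 * c) * (G1 z * G3 z) + (3 * c) * G2 z ^ 2 + ((6 * c ^ 2) * (G1 z ^ 2 * G2 z) + c ^ 3 * G1 z ^ 4)) := by ring
  rw [e]
  have h1 := h.t4 b
  have h2 := l9j_ac (by positivity : 0 ≤ 4 * c) (l9j_am (h.a1 b) (h.a3 b))
  have h3 := l9j_ac (by positivity : 0 ≤ 3 * c) (l9j_ap (h.a2 b) 2)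
  have h4 := l9j_ac (by positivity : 0 ≤ 6 * c ^ 2) (l9j_am (l9j_ap (h.a1 b) 2) (h.a2 b))
  have h5 := l9j_ac (by positivity : 0 ≤ c ^ 3) (l9j_ap (h.a1 b) 4)
  have k1 := abs_add_three (G4 0 - g) (G4 z - G4 0) ((4 * c) * (G1 z * G3 z) + (3 * c) * G2 z ^ 2 + ((6 * c ^ 2) * (G1 z ^ 2 * G2 z) + c ^ 3 * G1 z ^ 4))
  have k2 := abs_add_three ((4 * c) * (G1 z * G3 z)) ((3 * c) * G2 z ^ 2) ((6 * c ^ 2) * (G1 z ^ 2 * G2 z) + c ^ 3 * G1 z ^ 4)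
  have k3 := abs_add_le ((6 * c ^ 2) * (G1 z ^ 2 * G2 z)) (c ^ 3 * G1 z ^ 4)
  have q2 : |z| * |z| = z ^ 2 := by rw [← sq, sq_abs]
  have q4 : |z| ^ 4 = z ^ 4 := by
    have : |z| ^ 4 = (|z| ^ 2) ^ 2 := by ring
    rw [this, sq_abs]; ring
  have r2 : 4 * c * (B2 * |z| * (B4 * |z|)) = 4 * c * B2 * B4 * z ^ 2 := by rw [← q2]; ring
  have r4 : 6 * c ^ 2 * ((B2 * |z|) ^ 2 * B2) = 6 * c ^ 2 * B2 ^ 3 * z ^ 2 := by rw [← q2]; ring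
  have r5 : c ^ 3 * (B2 * |z|) ^ 4 = c ^ 3 * B2 ^ 4 * z ^ 4 := by rw [← q4]; ring
  rw [r2] at h2
  rw [r4] at h4
  rw [r5] at h5
  linarith

end E7

/-! ## 5. spatial derivatives of the source sums: `s_k' = s_(k+1) - c s_1 s_k` -/

section spatial

variable {G1 G2 G3 G4 G5 G6 : ℝ → ℝ} {z B2 B4 B6 c : ℝ}

theorem l9j_ds1 (d1 : ∀ z, HasDerivAt G1 (G2 z) z) (c z : ℝ) :
    HasDerivAt (l9jS1 G1) (l9jS2 c G1 G2 z - c * l9jS1 G1 z * l9jS1 G1 z) z := by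
  refine (d1 z).congr_deriv ?_
  unfold l9jS1 l9jS2
  ring

theorem l9j_ds2 (d1 : ∀ z, HasDerivAt G1 (G2 z) z) (d2 : ∀ z, HasDerivAt G2 (G3 z) z) (c z : ℝ) :
    HasDerivAt (l9jS2 c G1 G2) (l9jS3 c G1 G2 G3 z - c * l9jS1 G1 z * l9jS2 c G1 G2 z) z := by
  have a0 : HasDerivAt (fun y => G1 y ^ 2) (2 * G1 z * G2 z) z := by
    have := (d1 z).fun_pow 2
    simpa using this
  have : HasDerivAt (l9jS2 c G1 G2) (G3 z + c * (2 * G1 z * G2 z)) z := (d2 z).fun_add (a0.const_mul c)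
  refine this.congr_deriv ?_
  unfold l9jS1 l9jS2 l9jS3
  ring

theorem l9j_ds3 (d1 : ∀ z, HasDerivAt G1 (G2 z) z) (d2 : ∀ z, HasDerivAt G2 (G3 z) z) (d3 : ∀ z, HasDerivAt G3 (G4 z) z) (c z : ℝ) :
    HasDerivAt (l9jS3 c G1 G2 G3) (l9jS4 c G1 G2 G3 G4 z - c * l9jS1 G1 z * l9jS3 c G1 G2 G3 z) z := by
  have a1 : HasDerivAt (fun y => 3 * c * G1 y * G2 y) (3 * c * G2 z * G2 z + 3 * c * G1 z * G3 z) z :=
    ((d1 z).const_mul (3 * c)).fun_mul (d2 z)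
  have a2 : HasDerivAt (fun y => c ^ 2 * G1 y ^ 3) (c ^ 2 * (3 * G1 z ^ 2 * G2 z)) z := by
    have := ((d1 z).fun_pow 3).const_mul (c ^ 2)
    simpa using this
  have : HasDerivAt (l9jS3 c G1 G2 G3) (G4 z + (3 * c * G2 z * G2 z + 3 * c * G1 z * G3 z) + c ^ 2 * (3 * G1 z ^ 2 * G2 z)) z :=
    ((d3 z).fun_add a1).fun_add a2
  refine this.congr_deriv ?_
  unfold l9jS1 l9jS3 l9jS4
  ring

/-- `|s_1| ≤ B2 |z|` -/
theorem l9j_s1_abs (h : L9jCh G1 G2 G3 G4 G5 G6) (b : L9jBd G2 G4 G6 z B2 B4 B6) : |l9jS1 G1 z| ≤ B2 * |z| := h.a1 b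

/-- the spatial derivative of `s_2` is `O(|z|)` -/
theorem l9j_ds2_abs (h : L9jCh G1 G2 G3 G4 G5 G6) (b : L9jBd G2 G4 G6 z B2 B4 B6) (hc : 0 ≤ c) :
    |l9jS3 c G1 G2 G3 z - c * l9jS1 G1 z * l9jS2 c G1 G2 z| ≤ (B4 + 2 * c * B2 ^ 2) * |z| := by
  have e : l9jS3 c G1 G2 G3 z - c * l9jS1 G1 z * l9jS2 c G1 G2 z = G3 z + (2 * c) * (G1 z * G2 z) := by
    unfold l9jS1 l9jS2 l9jS3
    ring
  rw [e]
  have h1 := h.a3 b
  have h2 := l9j_ac (by positivity : 0 ≤ 2 * c) (l9j_am (h.a1 b) (h.a2 b))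
  have := abs_add_le (G3 z) ((2 * c) * (G1 z * G2 z))
  nlinarith

end spatial

/-! ## 6. parameter derivatives (`O_*` convention): `D_i = ∂ G_i`, the cut `c` is FIXED -/

/-- `∂ s_2` -/
def l9jD2 (c : ℝ) (G1 D1 D2 : ℝ → ℝ) (z : ℝ) : ℝ := D2 z + 2 * c * G1 z * D1 z

/-- `∂ s_3` -/
def l9jD3 (c : ℝ) (G1 G2 D1 D2 D3 : ℝ → ℝ) (z : ℝ) : ℝ :=
  D3 z + 3 * c * (D1 z * G2 z + G1 z * D2 z) + 3 * c ^ 2 * G1 z ^ 2 * D1 z

/-- `∂ s_4` -/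
def l9jD4 (c : ℝ) (G1 G2 G3 D1 D2 D3 D4 : ℝ → ℝ) (z : ℝ) : ℝ :=
  D4 z + 4 * c * (D1 z * G3 z + G1 z * D3 z) + 6 * c * G2 z * D2 z + 6 * c ^ 2 * (2 * G1 z * D1 z * G2 z + G1 z ^ 2 * D2 z)
    + 4 * c ^ 3 * G1 z ^ 3 * D1 z

theorem l9j_eqns_cite2 : True := by
  have := @l9jD2.eq_1; have := @l9jD3.eq_1; have := @l9jD4.eq_1
  trivial

section param

variable {F1 F2 F3 F4 : ℝ → ℝ → ℝ} {D1 D2 D3 D4 : ℝ → ℝ} (c θ z : ℝ)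

theorem l9j_par_2 (p1 : HasDerivAt (fun t => F1 t z) (D1 z) θ) (p2 : HasDerivAt (fun t => F2 t z) (D2 z) θ) :
    HasDerivAt (fun t => l9jS2 c (F1 t) (F2 t) z) (l9jD2 c (F1 θ) D1 D2 z) θ := by
  have a0 : HasDerivAt (fun t => F1 t z ^ 2) (2 * F1 θ z * D1 z) θ := by
    have := p1.fun_pow 2
    simpa using this
  have : HasDerivAt (fun t => l9jS2 c (F1 t) (F2 t) z) (D2 z + c * (2 * F1 θ z * D1 z)) θ := p2.fun_add (a0.const_mul c)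
  refine this.congr_deriv ?_
  unfold l9jD2
  ring

theorem l9j_par_3 (p1 : HasDerivAt (fun t => F1 t z) (D1 z) θ) (p2 : HasDerivAt (fun t => F2 t z) (D2 z) θ)
    (p3 : HasDerivAt (fun t => F3 t z) (D3 z) θ) :
    HasDerivAt (fun t => l9jS3 c (F1 t) (F2 t) (F3 t) z) (l9jD3 c (F1 θ) (F2 θ) D1 D2 D3 z) θ := by
  have a1 : HasDerivAt (fun t => 3 * c * F1 t z * F2 t z) (3 * c * D1 z * F2 θ z + 3 * c * F1 θ z * D2 z) θ :=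
    (p1.const_mul (3 * c)).fun_mul p2
  have a2 : HasDerivAt (fun t => c ^ 2 * F1 t z ^ 3) (c ^ 2 * (3 * F1 θ z ^ 2 * D1 z)) θ := by
    have := (p1.fun_pow 3).const_mul (c ^ 2)
    simpa using this
  have : HasDerivAt (fun t => l9jS3 c (F1 t) (F2 t) (F3 t) z)
      (D3 z + (3 * c * D1 z * F2 θ z + 3 * c * F1 θ z * D2 z) + c ^ 2 * (3 * F1 θ z ^ 2 * D1 z)) θ := (p3.fun_add a1).fun_add a2
  refine this.congr_deriv ?_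
  unfold l9jD3
  ring

theorem l9j_par_4 (p1 : HasDerivAt (fun t => F1 t z) (D1 z) θ) (p2 : HasDerivAt (fun t => F2 t z) (D2 z) θ)
    (p3 : HasDerivAt (fun t => F3 t z) (D3 z) θ) (p4 : HasDerivAt (fun t => F4 t z) (D4 z) θ) :
    HasDerivAt (fun t => l9jS4 c (F1 t) (F2 t) (F3 t) (F4 t) z) (l9jD4 c (F1 θ) (F2 θ) (F3 θ) D1 D2 D3 D4 z) θ := by
  have a1 : HasDerivAt (fun t => 4 * c * F1 t z * F3 t z) (4 * c * D1 z * F3 θ z + 4 * c * F1 θ z * D3 z) θ :=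
    (p1.const_mul (4 * c)).fun_mul p3
  have a2 : HasDerivAt (fun t => 3 * c * F2 t z ^ 2) (3 * c * (2 * F2 θ z * D2 z)) θ := by
    have := (p2.fun_pow 2).const_mul (3 * c)
    simpa using this
  have a30 : HasDerivAt (fun t => 6 * c ^ 2 * F1 t z ^ 2) (6 * c ^ 2 * (2 * F1 θ z * D1 z)) θ := by
    have := (p1.fun_pow 2).const_mul (6 * c ^ 2)
    simpa using this
  have a3 : HasDerivAt (fun t => 6 * c ^ 2 * F1 t z ^ 2 * F2 t z)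
      (6 * c ^ 2 * (2 * F1 θ z * D1 z) * F2 θ z + 6 * c ^ 2 * F1 θ z ^ 2 * D2 z) θ := a30.fun_mul p2
  have a4 : HasDerivAt (fun t => c ^ 3 * F1 t z ^ 4) (c ^ 3 * (4 * F1 θ z ^ 3 * D1 z)) θ := by
    have := (p1.fun_pow 4).const_mul (c ^ 3)
    simpa using this
  have : HasDerivAt (fun t => l9jS4 c (F1 t) (F2 t) (F3 t) (F4 t) z)
      (D4 z + (4 * c * D1 z * F3 θ z + 4 * c * F1 θ z * D3 z) + 3 * c * (2 * F2 θ z * D2 z)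
        + (6 * c ^ 2 * (2 * F1 θ z * D1 z) * F2 θ z + 6 * c ^ 2 * F1 θ z ^ 2 * D2 z) + c ^ 3 * (4 * F1 θ z ^ 3 * D1 z)) θ :=
    (((p4.fun_add a1).fun_add a2).fun_add a3).fun_add a4
  refine this.congr_deriv ?_
  unfold l9jD4
  ring

end param

section E7dot

variable {G1 G2 G3 G4 G5 G6 D1 D2 D3 D4 D5 D6 : ℝ → ℝ} {z B2 B4 B6 A2 A4 A6 c χ' g' E : ℝ}

/-- `∂ s_2 = ∂χ + O(E + z²)` -/
theorem l9j_d2 (h : L9jCh G1 G2 G3 G4 G5 G6) (b : L9jBd G2 G4 G6 z B2 B4 B6) (k : L9jCh D1 D2 D3 D4 D5 D6) (a : L9jBd D2 D4 D6 z A2 A4 A6)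
    (hc : 0 ≤ c) (hχ : |D2 0 - χ'| ≤ E) : |l9jD2 c G1 D1 D2 z - χ'| ≤ E + (A4 / 2 + 2 * c * B2 * A2) * z ^ 2 := by
  unfold l9jD2
  have e : D2 z + 2 * c * G1 z * D1 z - χ' = (D2 0 - χ') + (D2 z - D2 0) + (2 * c) * (G1 z * D1 z) := by ring
  rw [e]
  have h1 := l9j_ac (by positivity : 0 ≤ 2 * c) (l9j_am (h.a1 b) (k.a1 a))
  have h2 := k.t2 a
  have q2 : |z| * |z| = z ^ 2 := by rw [← sq, sq_abs]
  have r : 2 * c * (B2 * |z| * (A2 * |z|)) = 2 * c * B2 * A2 * z ^ 2 := by rw [← q2]; ring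
  rw [r] at h1
  have := abs_add_three (D2 0 - χ') (D2 z - D2 0) ((2 * c) * (G1 z * D1 z))
  linarith

/-- `∂ s_3 = ∂g z + O((E + c) |z| + |z|³)` -/
theorem l9j_d3 (h : L9jCh G1 G2 G3 G4 G5 G6) (b : L9jBd G2 G4 G6 z B2 B4 B6) (k : L9jCh D1 D2 D3 D4 D5 D6) (a : L9jBd D2 D4 D6 z A2 A4 A6)
    (hc : 0 ≤ c) (hg : |D4 0 - g'| ≤ E) :
    |l9jD3 c G1 G2 D1 D2 D3 z - g' * z| ≤ (E + 6 * c * B2 * A2) * |z| + (A6 / 6 + 3 * c ^ 2 * B2 ^ 2 * A2) * |z| ^ 3 := by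
  unfold l9jD3
  have e : D3 z + 3 * c * (D1 z * G2 z + G1 z * D2 z) + 3 * c ^ 2 * G1 z ^ 2 * D1 z - g' * z
      = (D4 0 - g') * z + (D3 z - D4 0 * z) + ((3 * c) * (D1 z * G2 z) + (3 * c) * (G1 z * D2 z) + (3 * c ^ 2) * (G1 z ^ 2 * D1 z)) := by ring
  rw [e]
  have h0 : |(D4 0 - g') * z| ≤ E * |z| := l9j_am hg le_rfl
  have h1 := k.t3 a
  have h2 := l9j_ac (by positivity : 0 ≤ 3 * c) (l9j_am (k.a1 a) (h.a2 b))
  have h3 := l9j_ac (by positivity : 0 ≤ 3 * c) (l9j_am (h.a1 b) (k.a2 a))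
  have h4 := l9j_ac (by positivity : 0 ≤ 3 * c ^ 2) (l9j_am (l9j_ap (h.a1 b) 2) (k.a1 a))
  have k1 := abs_add_three ((D4 0 - g') * z) (D3 z - D4 0 * z) ((3 * c) * (D1 z * G2 z) + (3 * c) * (G1 z * D2 z) + (3 * c ^ 2) * (G1 z ^ 2 * D1 z))
  have k2 := abs_add_three ((3 * c) * (D1 z * G2 z)) ((3 * c) * (G1 z * D2 z)) ((3 * c ^ 2) * (G1 z ^ 2 * D1 z))
  have r4 : 3 * c ^ 2 * ((B2 * |z|) ^ 2 * (A2 * |z|)) = 3 * c ^ 2 * B2 ^ 2 * A2 * |z| ^ 3 := by ring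
  rw [r4] at h4
  linarith

/-- `∂ s_4 = ∂g + O(E + c + z² + z⁴)` -/
theorem l9j_d4 (h : L9jCh G1 G2 G3 G4 G5 G6) (b : L9jBd G2 G4 G6 z B2 B4 B6) (k : L9jCh D1 D2 D3 D4 D5 D6) (a : L9jBd D2 D4 D6 z A2 A4 A6)
    (hc : 0 ≤ c) (hg : |D4 0 - g'| ≤ E) :
    |l9jD4 c G1 G2 G3 D1 D2 D3 D4 z - g'| ≤ E + 6 * c * B2 * A2 + (A6 / 2 + 4 * c * (A2 * B4 + B2 * A4) + 18 * c ^ 2 * B2 ^ 2 * A2) * z ^ 2
      + 4 * c ^ 3 * B2 ^ 3 * A2 * z ^ 4 := by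
  unfold l9jD4
  have e : D4 z + 4 * c * (D1 z * G3 z + G1 z * D3 z) + 6 * c * G2 z * D2 z + 6 * c ^ 2 * (2 * G1 z * D1 z * G2 z + G1 z ^ 2 * D2 z)
        + 4 * c ^ 3 * G1 z ^ 3 * D1 z - g'
      = (D4 0 - g') + (D4 z - D4 0) + (((4 * c) * (D1 z * G3 z) + (4 * c) * (G1 z * D3 z) + (6 * c) * (G2 z * D2 z))
        + ((12 * c ^ 2) * (G1 z * D1 z * G2 z) + (6 * c ^ 2) * (G1 z ^ 2 * D2 z) + (4 * c ^ 3) * (G1 z ^ 3 * D1 z))) := by ring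
  rw [e]
  have h1 := k.t4 a
  have h2 := l9j_ac (by positivity : 0 ≤ 4 * c) (l9j_am (k.a1 a) (h.a3 b))
  have h3 := l9j_ac (by positivity : 0 ≤ 4 * c) (l9j_am (h.a1 b) (k.a3 a))
  have h4 := l9j_ac (by positivity : 0 ≤ 6 * c) (l9j_am (h.a2 b) (k.a2 a))
  have h5 := l9j_ac (by positivity : 0 ≤ 12 * c ^ 2) (l9j_am (l9j_am (h.a1 b) (k.a1 a)) (h.a2 b))
  have h6 := l9j_ac (by positivity : 0 ≤ 6 * c ^ 2) (l9j_am (l9j_ap (h.a1 b) 2) (k.a2 a))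
  have h7 := l9j_ac (by positivity : 0 ≤ 4 * c ^ 3) (l9j_am (l9j_ap (h.a1 b) 3) (k.a1 a))
  have k1 := abs_add_three (D4 0 - g') (D4 z - D4 0) (((4 * c) * (D1 z * G3 z) + (4 * c) * (G1 z * D3 z) + (6 * c) * (G2 z * D2 z))
        + ((12 * c ^ 2) * (G1 z * D1 z * G2 z) + (6 * c ^ 2) * (G1 z ^ 2 * D2 z) + (4 * c ^ 3) * (G1 z ^ 3 * D1 z)))
  have k2 := abs_add_le ((4 * c) * (D1 z * G3 z) + (4 * c) * (G1 z * D3 z) + (6 * c) * (G2 z * D2 z))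
        ((12 * c ^ 2) * (G1 z * D1 z * G2 z) + (6 * c ^ 2) * (G1 z ^ 2 * D2 z) + (4 * c ^ 3) * (G1 z ^ 3 * D1 z))
  have k3 := abs_add_three ((4 * c) * (D1 z * G3 z)) ((4 * c) * (G1 z * D3 z)) ((6 * c) * (G2 z * D2 z))
  have k4 := abs_add_three ((12 * c ^ 2) * (G1 z * D1 z * G2 z)) ((6 * c ^ 2) * (G1 z ^ 2 * D2 z)) ((4 * c ^ 3) * (G1 z ^ 3 * D1 z))
  have q2 : |z| * |z| = z ^ 2 := by rw [← sq, sq_abs]
  have q4 : |z| ^ 4 = z ^ 4 := by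
    have : |z| ^ 4 = (|z| ^ 2) ^ 2 := by ring
    rw [this, sq_abs]; ring
  have r2 : 4 * c * (A2 * |z| * (B4 * |z|)) = 4 * c * A2 * B4 * z ^ 2 := by rw [← q2]; ring
  have r3 : 4 * c * (B2 * |z| * (A4 * |z|)) = 4 * c * B2 * A4 * z ^ 2 := by rw [← q2]; ring
  have r5 : 12 * c ^ 2 * (B2 * |z| * (A2 * |z|) * B2) = 12 * c ^ 2 * B2 ^ 2 * A2 * z ^ 2 := by rw [← q2]; ring
  have r6 : 6 * c ^ 2 * ((B2 * |z|) ^ 2 * A2) = 6 * c ^ 2 * B2 ^ 2 * A2 * z ^ 2 := by rw [← q2]; ring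
  have r7 : 4 * c ^ 3 * ((B2 * |z|) ^ 3 * (A2 * |z|)) = 4 * c ^ 3 * B2 ^ 3 * A2 * z ^ 4 := by rw [← q4]; ring
  rw [r2] at h2
  rw [r3] at h3
  rw [r5] at h5
  rw [r6] at h6
  rw [r7] at h7
  linarith

end E7dot

/-! ## 7. the scaling table (S10)

`ℓ = e^{θ/6}`;  size path: `∂_θ k0 = -k0/2` (exact), `∂_θ χ = χ/6 + e1`, `∂_θ g = g/2 + e2` (S8: `e1, e2 = O(e^{-cM})`), `b∘ = χ⁻²`.
`O = 1 - j/6 + ∂_θ` on a coefficient of degree `j`.   Every leading monomial of the table is killed by `O` up to an explicit error, linear in `(e1, e2)`. -/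

section scaling

/-- `(1 - j/6 + ∂_θ) ℓ^{-(6-j)} = 0`, `ℓ = e^{θ/6}`.   TEX[LL:09-expansion, proof of exp:prop-low-coefficients] -/
theorem l9j_scal (j θ : ℝ) :
    HasDerivAt (fun t => exp (-(6 - j) * (t / 6))) (-(1 - j / 6) * exp (-(6 - j) * (θ / 6))) θ := by
  have h : HasDerivAt (fun t : ℝ => -(6 - j) * (t / 6)) (-(6 - j) * (1 / 6)) θ := ((hasDerivAt_id θ).div_const 6).const_mul _
  refine h.exp.congr_deriv ?_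
  ring

variable {χ g k : ℝ → ℝ} {θ e1 e2 : ℝ}

/-- `u = χ⁻¹ ~ ℓ⁻¹` -/
theorem l9j_inv (hχ : HasDerivAt χ (χ θ / 6 + e1) θ) (h0 : χ θ ≠ 0) :
    HasDerivAt (fun t => (χ t)⁻¹) (-((χ θ)⁻¹ / 6) - e1 * (χ θ)⁻¹ ^ 2) θ := by
  refine (hχ.fun_inv h0).congr_deriv ?_
  field_simp
  ring

/-- the general monomial `χ^{-a} g^b k0^d ~ ℓ^{-a+3b-3d}` -/
theorem l9j_mono (hχ : HasDerivAt χ (χ θ / 6 + e1) θ) (h0 : χ θ ≠ 0) (hg : HasDerivAt g (g θ / 2 + e2) θ) (hk : HasDerivAt k (-(k θ / 2)) θ)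
    (a b d : ℕ) :
    HasDerivAt (fun t => (χ t)⁻¹ ^ a * g t ^ b * k t ^ d)
      ((-(a : ℝ) / 6 + b / 2 - d / 2) * ((χ θ)⁻¹ ^ a * g θ ^ b * k θ ^ d)
        + (-(a : ℝ) * e1 * (χ θ)⁻¹ ^ (a + 1) * g θ ^ b * k θ ^ d + b * e2 * (χ θ)⁻¹ ^ a * g θ ^ (b - 1) * k θ ^ d)) θ := by
  have hu := (l9j_inv hχ h0).fun_pow a
  have hgb := hg.fun_pow b
  have hkd := hk.fun_pow d
  refine ((hu.fun_mul hgb).fun_mul hkd).congr_deriv ?_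
  rcases a with _ | a <;> rcases b with _ | b <;> rcases d with _ | d <;> simp <;> ring

/-- `j = 2`: `b∘² χ³ k0 = k0/χ ~ ℓ⁻⁴` -/
theorem l9j_tab_21 (hχ : HasDerivAt χ (χ θ / 6 + e1) θ) (h0 : χ θ ≠ 0) (hk : HasDerivAt k (-(k θ / 2)) θ) :
    HasDerivAt (fun t => ((χ t)⁻¹ ^ 2) ^ 2 * χ t ^ 3 * k t)
      (-(1 - 2 / 6) * (((χ θ)⁻¹ ^ 2) ^ 2 * χ θ ^ 3 * k θ) + -e1 * (χ θ)⁻¹ ^ 2 * k θ) θ := by
  have hu := ((l9j_inv hχ h0).fun_pow 2).fun_pow 2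
  refine ((hu.fun_mul (hχ.fun_pow 3)).fun_mul hk).congr_deriv ?_
  simp
  field_simp
  ring

/-- `j = 2`: `b∘² g² k0² ~ ℓ⁻⁴` -/
theorem l9j_tab_22 (hχ : HasDerivAt χ (χ θ / 6 + e1) θ) (h0 : χ θ ≠ 0) (hg : HasDerivAt g (g θ / 2 + e2) θ) (hk : HasDerivAt k (-(k θ / 2)) θ) :
    HasDerivAt (fun t => ((χ t)⁻¹ ^ 2) ^ 2 * g t ^ 2 * k t ^ 2)
      (-(1 - 2 / 6) * (((χ θ)⁻¹ ^ 2) ^ 2 * g θ ^ 2 * k θ ^ 2)
        + (-4 * e1 * (χ θ)⁻¹ ^ 5 * g θ ^ 2 * k θ ^ 2 + 2 * e2 * (χ θ)⁻¹ ^ 4 * g θ * k θ ^ 2)) θ := by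
  have h := l9j_mono hχ h0 hg hk 4 2 2
  refine (h.congr_of_eventuallyEq (Filter.Eventually.of_forall fun t => ?_)).congr_deriv ?_
  · simp only []; ring
  · push_cast; ring

/-- `j = 3`: `b∘³ g² k0 ~ ℓ⁻³` -/
theorem l9j_tab_31 (hχ : HasDerivAt χ (χ θ / 6 + e1) θ) (h0 : χ θ ≠ 0) (hg : HasDerivAt g (g θ / 2 + e2) θ) (hk : HasDerivAt k (-(k θ / 2)) θ) :
    HasDerivAt (fun t => ((χ t)⁻¹ ^ 2) ^ 3 * g t ^ 2 * k t)
      (-(1 - 3 / 6) * (((χ θ)⁻¹ ^ 2) ^ 3 * g θ ^ 2 * k θ)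
        + (-6 * e1 * (χ θ)⁻¹ ^ 7 * g θ ^ 2 * k θ + 2 * e2 * (χ θ)⁻¹ ^ 6 * g θ * k θ)) θ := by
  have h := l9j_mono hχ h0 hg hk 6 2 1
  refine (h.congr_of_eventuallyEq (Filter.Eventually.of_forall fun t => ?_)).congr_deriv ?_
  · simp only []; ring
  · push_cast; ring

/-- `j = 3`: `b∘³ χ³ = χ⁻³ ~ ℓ⁻³` -/
theorem l9j_tab_32 (hχ : HasDerivAt χ (χ θ / 6 + e1) θ) (h0 : χ θ ≠ 0) :
    HasDerivAt (fun t => ((χ t)⁻¹ ^ 2) ^ 3 * χ t ^ 3)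
      (-(1 - 3 / 6) * (((χ θ)⁻¹ ^ 2) ^ 3 * χ θ ^ 3) + -3 * e1 * (χ θ)⁻¹ ^ 4) θ := by
  have hu := ((l9j_inv hχ h0).fun_pow 2).fun_pow 3
  refine (hu.fun_mul (hχ.fun_pow 3)).congr_deriv ?_
  simp
  field_simp
  ring

/-- `j = 4`: `b∘⁴ g² ~ ℓ⁻²` -/
theorem l9j_tab_4 (hχ : HasDerivAt χ (χ θ / 6 + e1) θ) (h0 : χ θ ≠ 0) (hg : HasDerivAt g (g θ / 2 + e2) θ) :
    HasDerivAt (fun t => ((χ t)⁻¹ ^ 2) ^ 4 * g t ^ 2)
      (-(1 - 4 / 6) * (((χ θ)⁻¹ ^ 2) ^ 4 * g θ ^ 2)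
        + (-8 * e1 * (χ θ)⁻¹ ^ 9 * g θ ^ 2 + 2 * e2 * (χ θ)⁻¹ ^ 8 * g θ)) θ := by
  have hk : HasDerivAt (fun _ : ℝ => (0 : ℝ)) (-((fun _ : ℝ => (0 : ℝ)) θ / 2)) θ := by simpa using hasDerivAt_const θ (0 : ℝ)
  have h := l9j_mono hχ h0 hg hk 8 2 0
  refine (h.congr_of_eventuallyEq (Filter.Eventually.of_forall fun t => ?_)).congr_deriv ?_
  · simp only []; ring
  · push_cast; ring

/-- marginality: `b∘ χ² = 1`, hence `b∘² χ² - b∘ = 0` (the term of total mass power `1` at `j = 2` is absent) -/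
theorem l9j_marg {x : ℝ} (h0 : x ≠ 0) : (x⁻¹ ^ 2) ^ 2 * x ^ 2 - x⁻¹ ^ 2 = 0 := by
  field_simp
  ring

end scaling

end Claimed.Agent.R286
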