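/-
Row 286 (S0533), package L14 (owner of the contracts: helper242).      THIS FILE: helper270.
Proof of the contract K5 = (E8):
  `E_low P_A P_B = χ² + χ³ k₀ c² + ½ g² k₀² v² + O(c³)`   on the abstract calculus `L14Calc`.
-/
import Claimed.Agent.R286.L09.K8a

set_option autoImplicit false

namespace Claimed.Agent.R286

/-! ### generator rules -/

namespace L14Calc

variable {bd : L14Bd} {𝕂 𝓕 : Type} [CommRing 𝕂] [CommRing 𝓕] (L : L14Calc bd 𝕂 𝓕)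

theorem gen_congr {a b : ℝ} {f h f' h' : ℝ → 𝓕} (hG : L.Gen a b f h) (e1 : ∀ u, f u = f' u)
    (e2 : ∀ u, h u = h' u) : L.Gen a b f' h' := by
  have h1 : f = f' := funext e1
  have h2 : h = h' := funext e2
  rw [← h1, ← h2]; exact hG

theorem gen_cst_mul {a b : ℝ} {f h : ℝ → 𝓕} (x : 𝕂) (ha : 0 ≤ a) (hab : a ≤ b) (hb : b ≤ bd.c0)
    (hG : L.Gen a b f h) : L.Gen a b (fun u => L.cst x * f u) (fun u => L.cst x * h u) :=
  L.gen_congr (L.gen_mul (L.gen_cst a b x ha hab hb) hG) (fun _ => rfl)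
    (fun u => by rw [L.D_cst]; ring)

theorem gen_neg {a b : ℝ} {f h : ℝ → 𝓕} (ha : 0 ≤ a) (hab : a ≤ b) (hb : b ≤ bd.c0)
    (hG : L.Gen a b f h) : L.Gen a b (fun u => - f u) (fun u => - h u) :=
  L.gen_congr (L.gen_cst_mul (-1) ha hab hb hG) (fun u => by simp) (fun u => by simp)

theorem gen_sub' {a b : ℝ} {f h f' h' : ℝ → 𝓕} (ha : 0 ≤ a) (hab : a ≤ b) (hb : b ≤ bd.c0)
    (hG : L.Gen a b f h) (hG' : L.Gen a b f' h') :
    L.Gen a b (fun u => f u - f' u) (fun u => h u - h' u) :=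
  L.gen_congr (L.gen_add hG (L.gen_neg ha hab hb hG')) (fun u => by ring) (fun u => by ring)

/-- `A (c - u) = -1` -/
theorem gen_rem (c : ℝ) {a b : ℝ} (ha : 0 ≤ a) (hab : a ≤ b) (hb : b ≤ bd.c0) :
    L.Gen a b (fun u => L.cst (L.re (c - u))) (fun _ => -1) :=
  L.gen_congr (L.gen_sub' ha hab hb (L.gen_cst a b (L.re c) ha hab hb) (L.gen_time a b ha hab hb))
    (fun u => by rw [map_sub, map_sub]) (fun u => by ring)

theorem k5_gD1 (u : ℝ) : L.D (L.g 1 u) = L.g 2 u := L.g_D 1 u le_rfl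

theorem k5_gD2 (u : ℝ) : L.D (L.g 2 u) = L.g 3 u := L.g_D 2 u (by norm_num)

theorem k5_gD3 (u : ℝ) : L.D (L.g 3 u) = L.g 4 u := L.g_D 3 u (by norm_num)

/-- `A g₂ = - μ κ g₂²` -/
theorem gen_g2 {a b : ℝ} (ha : 0 ≤ a) (hab : a ≤ b) (hb : b ≤ bd.c0) :
    L.Gen a b (L.g 2) (fun u => - (L.cst (L.re (L.mu u) * L.kap u) * (L.g 2 u * L.g 2 u))) :=
  L.gen_congr (L.gen_D (L.gen_g1 a b ha hab hb)) (fun u => L.k5_gD1 u)
    (fun u => by rw [L.D_zero, L.k5_gD1]; ring)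

theorem ev_g_odd {j : ℕ} (hj : Odd j) (u : ℝ) : L.ev (L.g j u) = 0 := by
  apply L.ev_of_odd
  rw [L.g_sg, hj.neg_one_pow]
  simp

end L14Calc

/-! ### bounds at every level -/

section allLevels

variable {bd : L14Bd} {𝕂 𝓕 : Type} [CommRing 𝕂] [CommRing 𝓕] {ι : Type}

/-- `φ i = O(A i)` at EVERY level. -/
def l14OA (L : ι → L14Calc bd 𝕂 𝓕) (φ : ι → 𝓕) (A : ι → ℝ) : Prop := ∀ k, l14OB L k φ A

variable {L : ι → L14Calc bd 𝕂 𝓕} {φ ψ : ι → 𝓕} {x : ι → 𝕂} {A A' : ι → ℝ}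

theorem l14OA.add (h : l14OA L φ A) (h' : l14OA L ψ A) : l14OA L (fun i => φ i + ψ i) A :=
  fun k => (h k).add (h' k)

theorem l14OA.sub (h : l14OA L φ A) (h' : l14OA L ψ A) : l14OA L (fun i => φ i - ψ i) A :=
  fun k => (h k).sub (h' k)

theorem l14OA.neg (h : l14OA L φ A) : l14OA L (fun i => - φ i) A := fun k => (h k).neg

theorem l14OA.mul (h : l14OA L φ A) (h' : l14OA L ψ A') :
    l14OA L (fun i => φ i * ψ i) (fun i => A i * A' i) := fun k => (h k).mul (h' k)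

/-- product with an `O(1)` factor on the right -/
theorem l14OA.mul1 (h : l14OA L φ A) (h' : l14OA L ψ (fun _ => 1)) :
    l14OA L (fun i => φ i * ψ i) A :=
  fun k => ((h k).mul (h' k)).mono1 (fun i => le_of_eq (by ring))

theorem l14OA.D (h : l14OA L φ A) : l14OA L (fun i => (L i).D (φ i)) A := fun k => (h (k + 1)).D

theorem l14OA.T (h : l14OA L φ A) {u v : ι → ℝ} (hu : ∀ i, 0 ≤ u i) (huv : ∀ i, u i ≤ v i)
    (hv : ∀ i, v i ≤ bd.c0) : l14OA L (fun i => (L i).T (u i) (v i) (φ i)) A :=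
  fun k => (h k).T hu huv hv

theorem l14OA.congr (h : l14OA L φ A) (e : ∀ i, φ i = ψ i) : l14OA L ψ A :=
  fun k => (h k).congr e

theorem l14OA.mono (h : l14OA L φ A) (C' : ℝ) (hC' : 0 ≤ C') (e : ∀ i, A i ≤ C' * A' i) :
    l14OA L φ A' := fun k => (h k).mono C' hC' e

theorem l14OA.mono1 (h : l14OA L φ A) (e : ∀ i, A i ≤ A' i) : l14OA L φ A' :=
  fun k => (h k).mono1 e

theorem l14ON.cstA (h : l14ON L x A) : l14OA L (fun i => (L i).cst (x i)) A := fun k => h.cst k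

theorem l14OA_g (L : ι → L14Calc bd 𝕂 𝓕) (j : ℕ) (hj : 1 ≤ j) {u : ι → ℝ} (hu : ∀ i, 0 ≤ u i)
    (hu' : ∀ i, u i ≤ bd.c0) : l14OA L (fun i => (L i).g j (u i)) (fun _ => 1) :=
  fun k => l14OB_g L j k hj hu hu'

theorem l14OA.ev (h : l14OA L φ A) : l14ON L (fun i => (L i).ev (φ i)) A := (h 0).ev

theorem l14OA.comp {ι' : Type} (h : l14OA L φ A) (e : ι' → ι) :
    l14OA (fun p => L (e p)) (fun p => φ (e p)) (fun p => A (e p)) := fun k => (h k).comp e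

/-- **R2**: Dynkin at the root with the scalar corrector `α u + β u²/2`. -/
theorem l14_dynE2 {b : ι → ℝ} {f h : ι → ℝ → 𝓕} (α β : ι → 𝕂) (hb0 : ∀ i, 0 ≤ b i)
    (hb : ∀ i, b i ≤ bd.c0) (hG : ∀ i, (L i).Gen 0 (b i) (f i) (h i))
    (hh : l14ON (fun p : L14Ix (fun _ => 0) b => L p.1.1)
      (fun p => (L p.1.1).ev ((L p.1.1).T 0 p.1.2 (h p.1.1 p.1.2))
        - α p.1.1 - β p.1.1 * (L p.1.1).re p.1.2) (fun p => A p.1.1)) :
    l14ON L (fun i => (L i).ev ((L i).T 0 (b i) (f i (b i))) - (L i).ev (f i 0)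
        - α i * (L i).re (b i) - β i * (L i).re (b i ^ 2 / 2))
      (fun i => b i * A i) := by
  have hG' : ∀ i, (L i).Gen 0 (b i)
      (fun u => f i u - (L i).cst (α i * (L i).re u + β i * (L i).re (u ^ 2 / 2)))
      (fun u => h i u - (L i).cst (α i + β i * (L i).re u)) := by
    intro i
    have gt := (L i).gen_time 0 (b i) (le_refl 0) (hb0 i) (hb i)
    have g1 := (L i).gen_cst_mul (α i) (le_refl 0) (hb0 i) (hb i) gt
    have g2 := (L i).gen_cst_mul (β i * (L i).re (1 / 2)) (le_refl 0) (hb0 i) (hb i)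
      ((L i).gen_mul gt gt)
    refine (L i).gen_congr ((L i).gen_sub' (le_refl 0) (hb0 i) (hb i) (hG i) ((L i).gen_add g1 g2))
      (fun u => ?_) (fun u => ?_)
    · have e : (L i).re (u ^ 2 / 2) = (L i).re (1 / 2) * ((L i).re u * (L i).re u) := by
        rw [← map_mul, ← map_mul]; congr 1; ring
      rw [e]
      simp only [map_add, map_mul]
      ring
    · rw [(L i).D_cst]
      have h2 : (L i).cst ((L i).re (1 / 2)) * 2 = 1 := by
        have : (2 : 𝓕) = (L i).cst ((L i).re 2) := by rw [map_ofNat, map_ofNat]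
        rw [this, ← map_mul, ← map_mul]; norm_num
      simp only [map_add, map_mul]
      linear_combination (-(L i).cst (β i) * (L i).cst ((L i).re u)) * h2
  have key := l14_dynE (L := L) (A := A) hb0 hb hG' ?_
  · refine key.congr (fun i => ?_)
    simp only [L14Calc.T_sub, L14Calc.T_cst, map_sub, L14Calc.ev_cst]
    have e0 : α i * (L i).re 0 + β i * (L i).re (0 ^ 2 / 2) = 0 := by simp
    rw [e0]; ring
  · refine hh.congr (fun p => ?_)
    simp only [L14Calc.T_sub, L14Calc.T_cst, map_sub, L14Calc.ev_cst]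
    ring

end allLevels

/-! ### the functions of the proof of (E8) -/

namespace L14Calc

variable {bd : L14Bd} {𝕂 𝓕 : Type} [CommRing 𝕂] [CommRing 𝓕] (L : L14Calc bd 𝕂 𝓕)

/-- `H(u) = g₂ + c g₁²` -/
def k5H (c u : ℝ) : 𝓕 := L.g 2 u + L.cst (L.re c) * (L.g 1 u * L.g 1 u)

/-- `Y(u) = g₃² - 2 μ(u) g₂³`  (`A (g₂²) = κ Y`) -/
def k5Y (u : ℝ) : 𝓕 :=
  L.g 3 u * L.g 3 u - L.cst (L.re (2 * L.mu u)) * (L.g 2 u * (L.g 2 u * L.g 2 u))

/-- `F(u) = H(u) + β g₂²` -/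
def k5F (c : ℝ) (β : 𝕂) (u : ℝ) : 𝓕 := L.k5H c u + L.cst β * (L.g 2 u * L.g 2 u)

/-- `V(u) = (c-μ(u)) g₂² + β Y`  (`A F = κ V`) -/
def k5V (c : ℝ) (β : 𝕂) (u : ℝ) : 𝓕 :=
  L.cst (L.re (c - L.mu u)) * (L.g 2 u * L.g 2 u) + L.cst β * L.k5Y u

theorem gen_g2sq {a b : ℝ} (ha : 0 ≤ a) (hab : a ≤ b) (hb : b ≤ bd.c0) :
    L.Gen a b (fun u => L.g 2 u * L.g 2 u) (fun u => L.cst (L.kap u) * L.k5Y u) := by
  have g2 := L.gen_g2 ha hab hb
  refine L.gen_congr (L.gen_mul g2 g2) (fun _ => rfl) (fun u => ?_)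
  have e : L.cst (L.re (2 * L.mu u)) = 2 * L.cst (L.re (L.mu u)) := by
    rw [map_mul, map_mul, map_ofNat, map_ofNat]
  rw [L.k5_gD2, k5Y, e, map_mul]
  ring

theorem gen_k5H (c : ℝ) {a b : ℝ} (ha : 0 ≤ a) (hab : a ≤ b) (hb : b ≤ bd.c0) :
    L.Gen a b (L.k5H c)
      (fun u => L.cst (L.kap u) * (L.cst (L.re (c - L.mu u)) * (L.g 2 u * L.g 2 u))) := by
  have g1 := L.gen_g1 a b ha hab hb
  have g2 := L.gen_g2 ha hab hb
  refine L.gen_congr (L.gen_add g2 (L.gen_cst_mul (L.re c) ha hab hb (L.gen_mul g1 g1)))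
    (fun _ => rfl) (fun u => ?_)
  rw [L.k5_gD1, map_sub, map_sub, map_mul]
  ring

theorem gen_k5F (c : ℝ) (β : 𝕂) {a b : ℝ} (ha : 0 ≤ a) (hab : a ≤ b) (hb : b ≤ bd.c0) :
    L.Gen a b (L.k5F c β) (fun u => L.cst (L.kap u) * L.k5V c β u) := by
  refine L.gen_congr (L.gen_add (L.gen_k5H c ha hab hb)
    (L.gen_cst_mul β ha hab hb (L.gen_g2sq ha hab hb))) (fun _ => rfl) (fun u => ?_)
  rw [k5V]; ring

/-- `A (D F)` -/
def k5AD (c : ℝ) (β : 𝕂) (u : ℝ) : 𝓕 :=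
  L.D (L.cst (L.kap u) * L.k5V c β u)
    - L.cst (L.re (L.mu u) * L.kap u) * (L.g 2 u * L.D (L.k5F c β u))

theorem gen_k5DF (c : ℝ) (β : 𝕂) {a b : ℝ} (ha : 0 ≤ a) (hab : a ≤ b) (hb : b ≤ bd.c0) :
    L.Gen a b (fun u => L.D (L.k5F c β u)) (L.k5AD c β) :=
  L.gen_D (L.gen_k5F c β ha hab hb)

/-- `A (D D F)` -/
def k5ADD (c : ℝ) (β : 𝕂) (u : ℝ) : 𝓕 :=
  L.D (L.k5AD c β u) - L.cst (L.re (L.mu u) * L.kap u) * (L.g 2 u * L.D (L.D (L.k5F c β u)))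

theorem gen_k5DDF (c : ℝ) (β : 𝕂) {a b : ℝ} (ha : 0 ≤ a) (hab : a ≤ b) (hb : b ≤ bd.c0) :
    L.Gen a b (fun u => L.D (L.D (L.k5F c β u))) (L.k5ADD c β) :=
  L.gen_D (L.gen_k5DF c β ha hab hb)

theorem ev_k5F_zero (c : ℝ) (β : 𝕂) : L.ev (L.k5F c β 0) = L.chi + β * L.chi ^ 2 := by
  simp only [k5F, k5H, map_add, map_mul, L.ev_cst, L.ev_g_odd (by decide : Odd 1), chi]
  ring

theorem ev_k5DF_zero (c : ℝ) (β : 𝕂) : L.ev (L.D (L.k5F c β 0)) = 0 := by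
  simp only [k5F, k5H, L.D_add, L.D_cst_mul, L.D_mul, L.k5_gD1, L.k5_gD2, map_add, map_mul,
    L.ev_cst, L.ev_g_odd (by decide : Odd 1), L.ev_g_odd (by decide : Odd 3)]
  ring

theorem k5DDF_eq (c : ℝ) (β : 𝕂) (u : ℝ) : L.D (L.D (L.k5F c β u)) = L.g 4 u
    + L.cst (L.re c) * L.D (L.D (L.g 1 u * L.g 1 u)) + L.cst β * L.D (L.D (L.g 2 u * L.g 2 u)) := by
  simp only [k5F, k5H, L.D_add, L.D_cst_mul, L.k5_gD2, L.k5_gD3]

end L14Calc

/-! ### bounds of these functions over a family -/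

section k5bounds

variable {bd : L14Bd} {𝕂 𝓕 : Type} [CommRing 𝕂] [CommRing 𝓕] {ι : Type}
variable {L : ι → L14Calc bd 𝕂 𝓕} {c u : ι → ℝ} {β : ι → 𝕂}

theorem l14ON_re1 (L : ι → L14Calc bd 𝕂 𝓕) {r : ι → ℝ} (h0 : ∀ i, 0 ≤ r i)
    (h1 : ∀ i, r i ≤ bd.c0) : l14ON L (fun i => (L i).re (r i)) (fun _ => 1) :=
  l14ON_re_le L r (fun i => by rw [abs_of_nonneg (h0 i)]; exact le_trans (h1 i) bd.c0_le)

theorem l14ON_sq_one (hc0 : ∀ i, 0 ≤ c i) (hc : ∀ i, c i ≤ bd.c0)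
    (hβ : l14ON L β (fun i => c i ^ 2)) : l14ON L β (fun _ => 1) :=
  hβ.mono1 (fun i => pow_le_one₀ (hc0 i) (le_trans (hc i) bd.c0_le))

theorem l14ON_sq_lin (hc0 : ∀ i, 0 ≤ c i) (hc : ∀ i, c i ≤ bd.c0)
    (hβ : l14ON L β (fun i => c i ^ 2)) : l14ON L β c :=
  hβ.mono1 (fun i => by
    have := le_trans (hc i) bd.c0_le
    nlinarith [hc0 i])

/-- `eps ≤ c² ≤ c` -/
theorem l14_k5_eps_le (hc0 : ∀ i, 0 ≤ c i) (hc : ∀ i, c i ≤ bd.c0)
    (he : ∀ i, (L i).eps ≤ c i ^ 2) (i : ι) : (L i).eps ≤ c i := by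
  have := le_trans (hc i) bd.c0_le
  nlinarith [hc0 i, he i]

/-- `μ(u) = O(c)` -/
theorem l14ON_k5mu (hc0 : ∀ i, 0 ≤ c i) (hc : ∀ i, c i ≤ bd.c0)
    (he : ∀ i, (L i).eps ≤ c i ^ 2) (hu0 : ∀ i, 0 ≤ u i) (huc : ∀ i, u i ≤ c i) :
    l14ON L (fun i => (L i).re ((L i).mu (u i))) c :=
  (l14ON_re L (fun i => (L i).mu (u i))).mono 2 (by norm_num) (fun i => by
    have h1 := (L i).mu_ge (u i) (hu0 i) (le_trans (huc i) (hc i))
    have h2 := (L i).mu_le (u i) (hu0 i) (le_trans (huc i) (hc i))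
    rw [abs_of_nonneg (le_trans (hu0 i) h1)]
    linarith [l14_k5_eps_le hc0 hc he i, huc i])

/-- `c - μ(u) = O(c)` -/
theorem l14ON_k5cmu (hc0 : ∀ i, 0 ≤ c i) (hc : ∀ i, c i ≤ bd.c0)
    (he : ∀ i, (L i).eps ≤ c i ^ 2) (hu0 : ∀ i, 0 ≤ u i) (huc : ∀ i, u i ≤ c i) :
    l14ON L (fun i => (L i).re (c i - (L i).mu (u i))) c :=
  l14ON_re_le L _ (fun i => by
    have h1 := (L i).mu_ge (u i) (hu0 i) (le_trans (huc i) (hc i))
    have h2 := (L i).mu_le (u i) (hu0 i) (le_trans (huc i) (hc i))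
    have h3 := l14_k5_eps_le hc0 hc he i
    exact abs_le.mpr ⟨by linarith [huc i], by linarith [hu0 i]⟩)

/-- `κ(u) - k₀ = O(c)` -/
theorem l14ON_k5kap (hc0 : ∀ i, 0 ≤ c i) (hc : ∀ i, c i ≤ bd.c0)
    (he : ∀ i, (L i).eps ≤ c i ^ 2) (hu0 : ∀ i, 0 ≤ u i) (huc : ∀ i, u i ≤ c i) :
    l14ON L (fun i => (L i).kap (u i) - (L i).kap 0) c :=
  (l14ON_kap_sub L hu0 (fun i => le_trans (huc i) (hc i))).mono 2 (by norm_num) (fun i => by
    linarith [l14_k5_eps_le hc0 hc he i, huc i])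

/-- `μ(u) - u = O(c²)` -/
theorem l14ON_k5musub (hc : ∀ i, c i ≤ bd.c0)
    (he : ∀ i, (L i).eps ≤ c i ^ 2) (hu0 : ∀ i, 0 ≤ u i) (huc : ∀ i, u i ≤ c i) :
    l14ON L (fun i => (L i).re ((L i).mu (u i)) - (L i).re (u i)) (fun i => c i ^ 2) :=
  (l14ON_mu_sub L hu0 (fun i => le_trans (huc i) (hc i))).mono1 he

theorem l14OA_k5Y (hu0 : ∀ i, 0 ≤ u i) (hu : ∀ i, u i ≤ bd.c0) :
    l14OA L (fun i => (L i).k5Y (u i)) (fun _ => 1) := by
  have g2 := l14OA_g L 2 (by norm_num) hu0 hu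
  have g3 := l14OA_g L 3 (by norm_num) hu0 hu
  have r2 : l14ON L (fun i => (L i).re (2 * (L i).mu (u i))) (fun _ => 1) :=
    (l14ON_re L (fun i => 2 * (L i).mu (u i))).mono 4 (by norm_num) (fun i => by
      have h1 := (L i).mu_ge (u i) (hu0 i) (hu i)
      have h2 := (L i).mu_le (u i) (hu0 i) (hu i)
      rw [abs_of_nonneg (by linarith [hu0 i])]
      linarith [le_trans (hu i) bd.c0_le, (L i).eps_le])
  exact (g3.mul1 g3).sub (r2.cstA.mul1 (g2.mul1 (g2.mul1 g2)))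

theorem l14OA_k5F (hc0 : ∀ i, 0 ≤ c i) (hc : ∀ i, c i ≤ bd.c0)
    (hβ : l14ON L β (fun i => c i ^ 2)) (hu0 : ∀ i, 0 ≤ u i) (hu : ∀ i, u i ≤ bd.c0) :
    l14OA L (fun i => (L i).k5F (c i) (β i) (u i)) (fun _ => 1) := by
  have g1 := l14OA_g L 1 (by norm_num) hu0 hu
  have g2 := l14OA_g L 2 (by norm_num) hu0 hu
  exact (g2.add ((l14ON_re1 L hc0 hc).cstA.mul1 (g1.mul1 g1))).add
    ((l14ON_sq_one hc0 hc hβ).cstA.mul1 (g2.mul1 g2))

theorem l14OA_k5V (hc0 : ∀ i, 0 ≤ c i) (hc : ∀ i, c i ≤ bd.c0) (he : ∀ i, (L i).eps ≤ c i ^ 2)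
    (hβ : l14ON L β (fun i => c i ^ 2)) (hu0 : ∀ i, 0 ≤ u i) (huc : ∀ i, u i ≤ c i) :
    l14OA L (fun i => (L i).k5V (c i) (β i) (u i)) c := by
  have hu : ∀ i, u i ≤ bd.c0 := fun i => le_trans (huc i) (hc i)
  have g2 := l14OA_g L 2 (by norm_num) hu0 hu
  have r1 := l14ON_k5cmu hc0 hc he hu0 huc
  exact (r1.cstA.mul1 (g2.mul1 g2)).add ((l14ON_sq_lin hc0 hc hβ).cstA.mul1 (l14OA_k5Y hu0 hu))

theorem l14OA_k5AD (hc0 : ∀ i, 0 ≤ c i) (hc : ∀ i, c i ≤ bd.c0) (he : ∀ i, (L i).eps ≤ c i ^ 2)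
    (hβ : l14ON L β (fun i => c i ^ 2)) (hu0 : ∀ i, 0 ≤ u i) (huc : ∀ i, u i ≤ c i) :
    l14OA L (fun i => (L i).k5AD (c i) (β i) (u i)) c := by
  have hu : ∀ i, u i ≤ bd.c0 := fun i => le_trans (huc i) (hc i)
  have g2 := l14OA_g L 2 (by norm_num) hu0 hu
  have hk := l14ON_kap L hu0 hu
  have hV := l14OA_k5V hc0 hc he hβ hu0 huc
  have hF := l14OA_k5F hc0 hc hβ hu0 hu
  have r1 := l14ON_k5mu hc0 hc he hu0 huc
  have t1 : l14OA L (fun i => (L i).cst ((L i).kap (u i)) * (L i).k5V (c i) (β i) (u i)) c :=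
    (hV.mul1 hk.cstA).congr (fun i => by ring)
  exact t1.D.sub ((r1.mul1' hk).cstA.mul1 (g2.mul1 hF.D))

theorem l14OA_k5ADD (hc0 : ∀ i, 0 ≤ c i) (hc : ∀ i, c i ≤ bd.c0) (he : ∀ i, (L i).eps ≤ c i ^ 2)
    (hβ : l14ON L β (fun i => c i ^ 2)) (hu0 : ∀ i, 0 ≤ u i) (huc : ∀ i, u i ≤ c i) :
    l14OA L (fun i => (L i).k5ADD (c i) (β i) (u i)) c := by
  have hu : ∀ i, u i ≤ bd.c0 := fun i => le_trans (huc i) (hc i)
  have g2 := l14OA_g L 2 (by norm_num) hu0 hu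
  have hk := l14ON_kap L hu0 hu
  have hF := l14OA_k5F hc0 hc hβ hu0 hu
  have r1 := l14ON_k5mu hc0 hc he hu0 huc
  exact (l14OA_k5AD hc0 hc he hβ hu0 huc).D.sub ((r1.mul1' hk).cstA.mul1 (g2.mul1 hF.D.D))

end k5bounds

/-! ### the chain of expansions -/

section k5chain

variable {bd : L14Bd} {𝕂 𝓕 : Type} [CommRing 𝕂] [CommRing 𝓕] {ι : Type}
variable {L : ι → L14Calc bd 𝕂 𝓕} {c b : ι → ℝ} {β : ι → 𝕂}

/-- `e_{F g₂²}(b) = χ³ + O(c)` -/
theorem l14_k5a (hc0 : ∀ i, 0 ≤ c i) (hc : ∀ i, c i ≤ bd.c0) (he : ∀ i, (L i).eps ≤ c i ^ 2)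
    (hβ : l14ON L β (fun i => c i ^ 2)) (hb0 : ∀ i, 0 ≤ b i) (hbc : ∀ i, b i ≤ c i) :
    l14ON L (fun i => (L i).ev ((L i).T 0 (b i)
      ((L i).k5F (c i) (β i) (b i) * ((L i).g 2 (b i) * (L i).g 2 (b i)))) - (L i).chi ^ 3) c := by
  have hb : ∀ i, b i ≤ bd.c0 := fun i => le_trans (hbc i) (hc i)
  have hG : ∀ i, (L i).Gen 0 (b i) (fun u => (L i).k5F (c i) (β i) u * ((L i).g 2 u * (L i).g 2 u)) _ :=
    fun i => (L i).gen_mul ((L i).gen_k5F (c i) (β i) (le_refl 0) (hb0 i) (hb i))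
      ((L i).gen_g2sq (le_refl 0) (hb0 i) (hb i))
  have key := l14_dynE1 (L := L) (A := fun _ => 1) hb0 hb hG (by
    set L' := fun p : L14Ix (fun _ => 0) b => L p.1.1 with hL'
    have u0 : ∀ p : L14Ix (fun _ => 0) b, 0 ≤ p.1.2 := fun p => p.2.1
    have uc : ∀ p : L14Ix (fun _ => 0) b, p.1.2 ≤ c p.1.1 := fun p => le_trans p.2.2 (hbc _)
    have u1 : ∀ p : L14Ix (fun _ => 0) b, p.1.2 ≤ bd.c0 := fun p => le_trans (uc p) (hc _)
    have hβ' := hβ.comp (fun p : L14Ix (fun _ => 0) b => p.1.1)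
    have F' := l14OA_k5F (L := L') (fun p => hc0 p.1.1) (fun p => hc p.1.1) hβ' u0 u1
    have V' := (l14OA_k5V (L := L') (fun p => hc0 p.1.1) (fun p => hc p.1.1) (fun p => he p.1.1)
      hβ' u0 uc).mono1
      (A' := fun _ => 1) (fun p => le_trans (hc _) bd.c0_le)
    have Y' := l14OA_k5Y (L := L') u0 u1
    have g2 := l14OA_g L' 2 (by norm_num) u0 u1
    have hk := (l14ON_kap L' u0 u1).cstA
    exact (((F'.mul1 (hk.mul1 Y')).add ((hk.mul1 V').mul1 (g2.mul1 g2))).add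
      (hk.mul1 (F'.D.mul1 (g2.mul1 g2).D))) 0)
  have k1 := key.mono1 (A' := c) (fun i => by simpa using hbc i)
  have hx := l14ON_chi L
  have k2 : l14ON L (fun i => β i * ((L i).chi * ((L i).chi * ((L i).chi * (L i).chi)))) c :=
    (l14ON_sq_lin hc0 hc hβ).mul1' (hx.mul1' (hx.mul1' (hx.mul1' hx)))
  refine (k1.add k2).congr (fun i => ?_)
  simp only [map_mul, (L i).ev_k5F_zero]
  simp only [L14Calc.chi]
  ring

/-- `e_{(DDF)²}(b) = g² + O(c)` -/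
theorem l14_k5b (hc0 : ∀ i, 0 ≤ c i) (hc : ∀ i, c i ≤ bd.c0) (he : ∀ i, (L i).eps ≤ c i ^ 2)
    (hβ : l14ON L β (fun i => c i ^ 2)) (hb0 : ∀ i, 0 ≤ b i) (hbc : ∀ i, b i ≤ c i) :
    l14ON L (fun i => (L i).ev ((L i).T 0 (b i)
      ((L i).D ((L i).D ((L i).k5F (c i) (β i) (b i))) * (L i).D ((L i).D ((L i).k5F (c i) (β i) (b i)))))
        - (L i).gg ^ 2) c := by
  have hb : ∀ i, b i ≤ bd.c0 := fun i => le_trans (hbc i) (hc i)
  have hG : ∀ i, (L i).Gen 0 (b i) (fun u => (L i).D ((L i).D ((L i).k5F (c i) (β i) u))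
      * (L i).D ((L i).D ((L i).k5F (c i) (β i) u))) _ :=
    fun i => (L i).gen_mul ((L i).gen_k5DDF (c i) (β i) (le_refl 0) (hb0 i) (hb i))
      ((L i).gen_k5DDF (c i) (β i) (le_refl 0) (hb0 i) (hb i))
  have key := l14_dynE1 (L := L) (A := fun _ => 1) hb0 hb hG (by
    set L' := fun p : L14Ix (fun _ => 0) b => L p.1.1 with hL'
    have u0 : ∀ p : L14Ix (fun _ => 0) b, 0 ≤ p.1.2 := fun p => p.2.1
    have uc : ∀ p : L14Ix (fun _ => 0) b, p.1.2 ≤ c p.1.1 := fun p => le_trans p.2.2 (hbc _)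
    have u1 : ∀ p : L14Ix (fun _ => 0) b, p.1.2 ≤ bd.c0 := fun p => le_trans (uc p) (hc _)
    have hβ' := hβ.comp (fun p : L14Ix (fun _ => 0) b => p.1.1)
    have F' := l14OA_k5F (L := L') (fun p => hc0 p.1.1) (fun p => hc p.1.1) hβ' u0 u1
    have A' := (l14OA_k5ADD (L := L') (fun p => hc0 p.1.1) (fun p => hc p.1.1) (fun p => he p.1.1)
      hβ' u0 uc).mono1
      (A' := fun _ => 1) (fun p => le_trans (hc _) bd.c0_le)
    have hk := (l14ON_kap L' u0 u1).cstA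
    exact (((F'.D.D.mul1 A').add (A'.mul1 F'.D.D)).add (hk.mul1 (F'.D.D.D.mul1 F'.D.D.D))) 0)
  have k1 := key.mono1 (A' := c) (fun i => by simpa using hbc i)
  -- the value at the origin
  have z0 : ∀ _ : ι, (0 : ℝ) ≤ 0 := fun _ => le_refl 0
  have z1 : ∀ _ : ι, (0 : ℝ) ≤ bd.c0 := fun _ => bd.c0_pos.le
  have g1 := l14OA_g L 1 (by norm_num) z0 z1
  have g2 := l14OA_g L 2 (by norm_num) z0 z1
  have rc : l14ON L (fun i => (L i).re (c i)) c :=
    l14ON_re_le L _ (fun i => by rw [abs_of_nonneg (hc0 i)])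
  set ε : ι → 𝕂 := fun i => (L i).re (c i) * (L i).ev ((L i).D ((L i).D ((L i).g 1 0 * (L i).g 1 0)))
    + β i * (L i).ev ((L i).D ((L i).D ((L i).g 2 0 * (L i).g 2 0))) with hε
  have he : l14ON L ε c :=
    (rc.mul1' (g1.mul1 g1).D.D.ev).add ((l14ON_sq_lin hc0 hc hβ).mul1' (g2.mul1 g2).D.D.ev)
  have he1 : l14ON L ε (fun _ => 1) := he.mono1 (fun i => le_trans (hc i) bd.c0_le)
  have hg := l14ON_gg L
  have k2 : l14ON L (fun i => ε i * ((L i).gg + (L i).gg + ε i)) c := he.mul1' ((hg.add hg).add he1)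
  refine (k1.add k2).congr (fun i => ?_)
  simp only [map_mul, (L i).k5DDF_eq, map_add, (L i).ev_cst, hε]
  simp only [L14Calc.gg]
  ring

/-- `e_{(DF)²}(b) = k₀ g² b + O(b c)` -/
theorem l14_k5c (hc0 : ∀ i, 0 ≤ c i) (hc : ∀ i, c i ≤ bd.c0) (he : ∀ i, (L i).eps ≤ c i ^ 2)
    (hβ : l14ON L β (fun i => c i ^ 2)) (hb0 : ∀ i, 0 ≤ b i) (hbc : ∀ i, b i ≤ c i) :
    l14ON L (fun i => (L i).ev ((L i).T 0 (b i)
      ((L i).D ((L i).k5F (c i) (β i) (b i)) * (L i).D ((L i).k5F (c i) (β i) (b i))))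
        - (L i).k0 * (L i).gg ^ 2 * (L i).re (b i)) (fun i => b i * c i) := by
  have hb : ∀ i, b i ≤ bd.c0 := fun i => le_trans (hbc i) (hc i)
  have hG : ∀ i, (L i).Gen 0 (b i) (fun u => (L i).D ((L i).k5F (c i) (β i) u)
      * (L i).D ((L i).k5F (c i) (β i) u)) _ :=
    fun i => (L i).gen_mul ((L i).gen_k5DF (c i) (β i) (le_refl 0) (hb0 i) (hb i))
      ((L i).gen_k5DF (c i) (β i) (le_refl 0) (hb0 i) (hb i))
  have key := l14_dynE2 (L := L) (A := c) (fun i => (L i).k0 * (L i).gg ^ 2) (fun _ => 0)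
    hb0 hb hG (by
    set L' := fun p : L14Ix (fun _ => 0) b => L p.1.1 with hL'
    have u0 : ∀ p : L14Ix (fun _ => 0) b, 0 ≤ p.1.2 := fun p => p.2.1
    have uc : ∀ p : L14Ix (fun _ => 0) b, p.1.2 ≤ c p.1.1 := fun p => le_trans p.2.2 (hbc _)
    have u1 : ∀ p : L14Ix (fun _ => 0) b, p.1.2 ≤ bd.c0 := fun p => le_trans (uc p) (hc _)
    have hβ' := hβ.comp (fun p : L14Ix (fun _ => 0) b => p.1.1)
    have F' := l14OA_k5F (L := L') (fun p => hc0 p.1.1) (fun p => hc p.1.1) hβ' u0 u1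
    have A' := l14OA_k5AD (L := L') (fun p => hc0 p.1.1) (fun p => hc p.1.1) (fun p => he p.1.1)
      hβ' u0 uc
    have kb := l14_k5b (L := L') (c := fun p => c p.1.1) (b := fun p => p.1.2)
      (fun p => hc0 p.1.1) (fun p => hc p.1.1) (fun p => he p.1.1) hβ' u0 uc
    have t1 := ((A'.mul1 F'.D).T (u := fun _ => 0) (v := fun p => p.1.2)
      (fun _ => le_refl 0) u0 u1).ev
    have hks := l14ON_k5kap (L := L') (c := fun p => c p.1.1) (fun p => hc0 p.1.1)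
      (fun p => hc p.1.1) (fun p => he p.1.1) u0 uc
    have eb := ((F'.D.D.mul1 F'.D.D).T (u := fun _ => 0) (v := fun p => p.1.2)
      (fun _ => le_refl 0) u0 u1).ev
    have t2 := hks.mul1' eb
    have t3 : l14ON L' _ (fun p => c p.1.1) := (kb.mul1' (l14ON_k0 L'))
    refine (((t1.add t1).add t2).add t3).congr (fun p => ?_)
    simp only [hL', L14Calc.T_add, L14Calc.T_cst_mul, map_add, map_mul, L14Calc.ev_cst,
      L14Calc.k0, zero_mul, sub_zero]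
    have e1 : (L p.1.1).k5AD (c p.1.1) (β p.1.1) p.1.2 * (L p.1.1).D ((L p.1.1).k5F (c p.1.1) (β p.1.1) p.1.2)
        = (L p.1.1).D ((L p.1.1).k5F (c p.1.1) (β p.1.1) p.1.2) * (L p.1.1).k5AD (c p.1.1) (β p.1.1) p.1.2 :=
      mul_comm _ _
    rw [e1]
    ring)
  refine key.congr (fun i => ?_)
  simp only [map_mul, (L i).ev_k5DF_zero]
  ring

end k5chain

namespace L14Calc

variable {bd : L14Bd} {𝕂 𝓕 : Type} [CommRing 𝕂] [CommRing 𝓕] (L : L14Calc bd 𝕂 𝓕)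

/-- `W = 2 F V + (D F)²`  (`A (F²) = κ W`) -/
def k5W (c : ℝ) (β : 𝕂) (u : ℝ) : 𝓕 :=
  L.k5F c β u * L.k5V c β u + L.k5V c β u * L.k5F c β u + L.D (L.k5F c β u) * L.D (L.k5F c β u)

theorem gen_k5Phi (c : ℝ) (β : 𝕂) {a b : ℝ} (ha : 0 ≤ a) (hab : a ≤ b) (hb : b ≤ bd.c0) :
    L.Gen a b (fun u => L.k5F c β u * L.k5F c β u) (fun u => L.cst (L.kap u) * L.k5W c β u) := by
  have g := L.gen_k5F c β ha hab hb
  refine L.gen_congr (L.gen_mul g g) (fun _ => rfl) (fun u => ?_)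
  rw [k5W]; ring

/-- the corrected function of R3: `H(u) + k₀ (c-u)²/2 g₂(u)²` -/
noncomputable def k5R (c u : ℝ) : 𝓕 := L.k5H c u + L.cst (L.k0 * L.re ((c - u) ^ 2 / 2)) * (L.g 2 u * L.g 2 u)

theorem gen_k5R (c : ℝ) {a b : ℝ} (ha : 0 ≤ a) (hab : a ≤ b) (hb : b ≤ bd.c0) :
    L.Gen a b (L.k5R c) (fun u => L.cst ((L.kap u - L.k0) * L.re (c - u)
          - L.kap u * (L.re (L.mu u) - L.re u)) * (L.g 2 u * L.g 2 u)
      + L.cst (L.k0 * L.re ((c - u) ^ 2 / 2) * L.kap u) * L.k5Y u) := by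
  have gr := L.gen_rem c ha hab hb
  have gt := L.gen_cst_mul (L.k0 * L.re (1 / 2)) ha hab hb (L.gen_mul gr gr)
  have h2 : L.cst (L.re (1 / 2)) * 2 = 1 := by
    have : (2 : 𝓕) = L.cst (L.re 2) := by rw [map_ofNat, map_ofNat]
    rw [this, ← map_mul, ← map_mul]; norm_num
  have e : ∀ u, L.re ((c - u) ^ 2 / 2) = L.re (1 / 2) * (L.re (c - u) * L.re (c - u)) := by
    intro u; rw [← map_mul, ← map_mul]; congr 1; ring
  refine L.gen_congr (L.gen_add (L.gen_k5H c ha hab hb) (L.gen_mul gt (L.gen_g2sq ha hab hb)))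
    (fun u => ?_) (fun u => ?_)
  · rw [k5R, e]; simp only [map_mul]; ring
  · have e3 : L.re (c - L.mu u) = L.re (c - u) - (L.re (L.mu u) - L.re u) := by
      simp only [map_sub]; ring
    rw [e, e3, L.D_cst_mul, L.D_mul, L.D_cst]
    generalize L.re (c - u) = δ
    simp only [map_mul, map_sub]
    linear_combination (-(L.cst L.k0 * L.cst δ * (L.g 2 u * L.g 2 u))) * h2

end L14Calc

section k5chain2

variable {bd : L14Bd} {𝕂 𝓕 : Type} [CommRing 𝕂] [CommRing 𝓕] {ι : Type}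
variable {L : ι → L14Calc bd 𝕂 𝓕} {c b : ι → ℝ} {β : ι → 𝕂}

/-- `κ(b) e_W(b) = k₀ (2 (c-b) χ³ + k₀ g² b) + O(c²)` -/
theorem l14_k5d (hc0 : ∀ i, 0 ≤ c i) (hc : ∀ i, c i ≤ bd.c0) (he : ∀ i, (L i).eps ≤ c i ^ 2)
    (hβ : l14ON L β (fun i => c i ^ 2)) (hb0 : ∀ i, 0 ≤ b i) (hbc : ∀ i, b i ≤ c i) :
    l14ON L (fun i => (L i).ev ((L i).T 0 (b i)
        ((L i).cst ((L i).kap (b i)) * (L i).k5W (c i) (β i) (b i)))
      - (L i).k0 * ((L i).re (c i) * (L i).chi ^ 3 + (L i).re (c i) * (L i).chi ^ 3)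
      - (L i).k0 * ((L i).k0 * (L i).gg ^ 2 - ((L i).chi ^ 3 + (L i).chi ^ 3)) * (L i).re (b i))
      (fun i => c i ^ 2) := by
  have hb : ∀ i, b i ≤ bd.c0 := fun i => le_trans (hbc i) (hc i)
  have z0 : ∀ _ : ι, (0 : ℝ) ≤ 0 := fun _ => le_refl 0
  have ka := l14_k5a hc0 hc he hβ hb0 hbc
  have kc := (l14_k5c hc0 hc he hβ hb0 hbc).mono1 (A' := fun i => c i ^ 2) (fun i => by
    have := mul_le_mul_of_nonneg_right (hbc i) (hc0 i)
    nlinarith)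
  have F' := l14OA_k5F hc0 hc hβ hb0 hb
  have Y' := l14OA_k5Y (L := L) hb0 hb
  have eFY := ((F'.mul1 Y').T (u := fun _ => 0) (v := b) z0 hb0 hb).ev
  have rcb : l14ON L (fun i => (L i).re (c i - b i)) c :=
    l14ON_re_le L _ (fun i => by rw [abs_of_nonneg (by linarith [hbc i])]; linarith [hb0 i])
  have rb : l14ON L (fun i => (L i).re (b i)) c :=
    l14ON_re_le L _ (fun i => by rw [abs_of_nonneg (hb0 i)]; exact hbc i)
  have hx := l14ON_chi L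
  have hg := l14ON_gg L
  have hk0 := l14ON_k0 L
  have hx3 : l14ON L (fun i => (L i).chi ^ 3) (fun _ => 1) :=
    (hx.mul1' (hx.mul1' hx)).congr (fun i => by ring)
  -- `d = e_W - main = O(c²)`
  have d1 : l14ON L _ (fun i => c i ^ 2) :=
    ((l14ON_k5cmu hc0 hc he hb0 hbc).mul ka).mono1 (A' := fun i => c i ^ 2)
      (fun i => le_of_eq (by ring))
  have d2 : l14ON L _ (fun i => c i ^ 2) := hβ.mul1' eFY
  have d3 : l14ON L _ (fun i => c i ^ 2) := (l14ON_k5musub hc he hb0 hbc).mul1' hx3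
  have d := (((d1.add d1).add (d2.add d2)).add kc).sub (d3.add d3)
  -- `main = O(c)`
  have m1 : l14ON L _ c := rcb.mul1' hx3
  have m2 : l14ON L _ c := (rb.mul1' (hk0.mul1' (hg.mul1' hg)))
  have m := (m1.add m1).add m2
  have dl : l14ON L _ c := d.mono1 (A' := c) (fun i => by
    have := le_trans (hc i) bd.c0_le
    nlinarith [hc0 i])
  have hks := l14ON_k5kap hc0 hc he hb0 hbc
  have t1 : l14ON L _ (fun i => c i ^ 2) :=
    (hks.mul (dl.add m)).mono1 (A' := fun i => c i ^ 2) (fun i => le_of_eq (by ring))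
  have t2 : l14ON L _ (fun i => c i ^ 2) := d.mul1' hk0
  refine (t1.add t2).congr (fun i => ?_)
  have eFV : (L i).k5F (c i) (β i) (b i) * (L i).k5V (c i) (β i) (b i)
      = (L i).cst ((L i).re (c i - (L i).mu (b i)))
          * ((L i).k5F (c i) (β i) (b i) * ((L i).g 2 (b i) * (L i).g 2 (b i)))
        + (L i).cst (β i) * ((L i).k5F (c i) (β i) (b i) * (L i).k5Y (b i)) := by
    rw [L14Calc.k5V]; ring
  have eVF : (L i).k5V (c i) (β i) (b i) * (L i).k5F (c i) (β i) (b i)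
      = (L i).k5F (c i) (β i) (b i) * (L i).k5V (c i) (β i) (b i) := mul_comm _ _
  rw [L14Calc.k5W, eVF, eFV]
  have eδ : (L i).re (c i - b i) = (L i).re (c i) - (L i).re (b i) := map_sub _ _ _
  have eμ : (L i).re (c i - (L i).mu (b i)) = (L i).re (c i) - (L i).re ((L i).mu (b i)) :=
    map_sub _ _ _
  simp only [L14Calc.T_add, L14Calc.T_cst_mul, map_add, map_mul, L14Calc.ev_cst, L14Calc.k0]
  rw [eδ, eμ]
  ring

/-- `e_{F²}(v) = (χ + β χ²)² + α v + β' v²/2 + O(c³)` -/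
theorem l14_k5e (hc0 : ∀ i, 0 ≤ c i) (hc : ∀ i, c i ≤ bd.c0) (he : ∀ i, (L i).eps ≤ c i ^ 2)
    (hβ : l14ON L β (fun i => c i ^ 2)) (hb0 : ∀ i, 0 ≤ b i) (hbc : ∀ i, b i ≤ c i) :
    l14ON L (fun i => (L i).ev ((L i).T 0 (b i)
        ((L i).k5F (c i) (β i) (b i) * (L i).k5F (c i) (β i) (b i)))
      - ((L i).chi + β i * (L i).chi ^ 2) ^ 2
      - (L i).k0 * ((L i).re (c i) * (L i).chi ^ 3 + (L i).re (c i) * (L i).chi ^ 3) * (L i).re (b i)
      - (L i).k0 * ((L i).k0 * (L i).gg ^ 2 - ((L i).chi ^ 3 + (L i).chi ^ 3))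
          * (L i).re (b i ^ 2 / 2))
      (fun i => c i ^ 3) := by
  have hb : ∀ i, b i ≤ bd.c0 := fun i => le_trans (hbc i) (hc i)
  have key := l14_dynE2 (L := L) (A := fun i => c i ^ 2)
    (fun i => (L i).k0 * ((L i).re (c i) * (L i).chi ^ 3 + (L i).re (c i) * (L i).chi ^ 3))
    (fun i => (L i).k0 * ((L i).k0 * (L i).gg ^ 2 - ((L i).chi ^ 3 + (L i).chi ^ 3)))
    hb0 hb (fun i => (L i).gen_k5Phi (c i) (β i) (le_refl 0) (hb0 i) (hb i))
    (l14_k5d (L := fun p : L14Ix (fun _ => 0) b => L p.1.1) (c := fun p => c p.1.1)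
      (b := fun p => p.1.2) (fun p => hc0 p.1.1) (fun p => hc p.1.1) (fun p => he p.1.1)
      (hβ.comp (fun p : L14Ix (fun _ => 0) b => p.1.1)) (fun p => p.2.1)
      (fun p => le_trans p.2.2 (hbc _)))
  refine (key.mono1 (A' := fun i => c i ^ 3) (fun i => ?_)).congr (fun i => ?_)
  · have := mul_le_mul_of_nonneg_right (hbc i) (sq_nonneg (c i))
    nlinarith
  · simp only [map_mul, (L i).ev_k5F_zero]
    ring

/-- **R3**: `T v c s₂ = F(v) + O(c³)`, `β = k₀ (c-v)²/2` -/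
theorem l14_k5f (hc : ∀ i, c i ≤ bd.c0) (he : ∀ i, (L i).eps ≤ c i ^ 2) (hb0 : ∀ i, 0 ≤ b i)
    (hbc : ∀ i, b i ≤ c i) :
    l14OA L (fun i => (L i).T (b i) (c i) ((L i).st (c i) 1 (c i))
      - (L i).k5F (c i) ((L i).k0 * (L i).re ((c i - b i) ^ 2 / 2)) (b i)) (fun i => c i ^ 3) := by
  intro k
  have hc0 : ∀ i, 0 ≤ c i := fun i => le_trans (hb0 i) (hbc i)
  have key := l14_dynB (L := L) (k := k) (A := fun i => c i ^ 2) hb0 hbc hc
    (fun i => (L i).gen_k5R (c i) (hb0 i) (hbc i) (hc i)) (by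
    set L' := fun p : L14Ix b c => L p.1.1 with hL'
    have u0 : ∀ p : L14Ix b c, 0 ≤ p.1.2 := fun p => le_trans (hb0 _) p.2.1
    have uc : ∀ p : L14Ix b c, p.1.2 ≤ c p.1.1 := fun p => p.2.2
    have u1 : ∀ p : L14Ix b c, p.1.2 ≤ bd.c0 := fun p => le_trans (uc p) (hc _)
    have g2 := l14OA_g L' 2 (by norm_num) u0 u1
    have Y' := l14OA_k5Y (L := L') u0 u1
    have hks := l14ON_k5kap (L := L') (c := fun p => c p.1.1) (fun p => hc0 p.1.1)
      (fun p => hc p.1.1) (fun p => he p.1.1) u0 uc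
    have hms := l14ON_k5musub (L := L') (c := fun p => c p.1.1)
      (fun p => hc p.1.1) (fun p => he p.1.1) u0 uc
    have hk := l14ON_kap L' u0 u1
    have hk0 := l14ON_k0 L'
    have r1 : l14ON L' (fun p => (L' p).re (c p.1.1 - p.1.2)) (fun p => c p.1.1) :=
      l14ON_re_le L' _ (fun p => by
        rw [abs_of_nonneg (by linarith [uc p])]; linarith [u0 p])
    have r2 : l14ON L' (fun p => (L' p).re ((c p.1.1 - p.1.2) ^ 2 / 2)) (fun p => c p.1.1 ^ 2) :=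
      l14ON_re_le L' _ (fun p => by
        rw [abs_of_nonneg (by positivity)]
        have h1 : 0 ≤ c p.1.1 - p.1.2 := by linarith [uc p]
        have h2 : c p.1.1 - p.1.2 ≤ c p.1.1 := by linarith [u0 p]
        have := pow_le_pow_left₀ h1 h2 2
        nlinarith [sq_nonneg (c p.1.1 - p.1.2)])
    have t1 : l14ON L' (fun p => ((L' p).kap p.1.2 - (L' p).k0) * (L' p).re (c p.1.1 - p.1.2)
        - (L' p).kap p.1.2 * ((L' p).re ((L' p).mu p.1.2) - (L' p).re p.1.2))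
        (fun p => c p.1.1 ^ 2) :=
      (((hks.mul r1).mono1 (A' := fun p => c p.1.1 ^ 2) (fun p => le_of_eq (by ring))).sub
        (hms.mul1' hk)).congr (fun p => by simp only [L14Calc.k0]; ring)
    have t2 : l14ON L' (fun p => (L' p).k0 * (L' p).re ((c p.1.1 - p.1.2) ^ 2 / 2)
        * (L' p).kap p.1.2) (fun p => c p.1.1 ^ 2) :=
      ((r2.mul1' hk0).mul1' hk).congr (fun p => by ring)
    exact ((t1.cstA.mul1 (g2.mul1 g2)).add (t2.cstA.mul1 Y')) k)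
  refine (key.mono1 (A' := fun i => c i ^ 3) (fun i => ?_)).congr (fun i => ?_)
  · have h1 : c i - b i ≤ c i := by linarith [hb0 i]
    have := mul_le_mul_of_nonneg_right h1 (sq_nonneg (c i))
    nlinarith
  · have e1 : (L i).k5R (c i) (c i) = (L i).st (c i) 1 (c i) := by
      simp [L14Calc.k5R, L14Calc.k5H, L14Calc.st, (L i).k5_gD1]
    rw [e1]
    rfl

end k5chain2

/-- forces the equation lemmas of the definitions of this file to live in this module. -/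
theorem l14_k5_eqns_cite : True := by
  have := @L14Calc.k5H.eq_1; have := @L14Calc.k5Y.eq_1; have := @L14Calc.k5F.eq_1
  have := @L14Calc.k5V.eq_1; have := @L14Calc.k5AD.eq_1; have := @L14Calc.k5ADD.eq_1
  have := @L14Calc.k5W.eq_1; have := @L14Calc.k5R.eq_1; have := @l14OA.eq_1
  trivial

/-- **K5 = (E8)** -/
theorem l14_K5_pf : l14_K5 := by
  intro bd 𝕂 𝓕 _ _ ι L c v hv0 hvc hc he
  have hc0 : ∀ i, 0 ≤ c i := fun i => le_trans (hv0 i) (hvc i)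
  have hv1 : ∀ i, v i ≤ bd.c0 := fun i => le_trans (hvc i) (hc i)
  set β : ι → 𝕂 := fun i => (L i).k0 * (L i).re ((c i - v i) ^ 2 / 2) with hβdef
  have hβ : l14ON L β (fun i => c i ^ 2) := by
    have r2 : l14ON L (fun i => (L i).re ((c i - v i) ^ 2 / 2)) (fun i => c i ^ 2) :=
      l14ON_re_le L _ (fun i => by
        rw [abs_of_nonneg (by positivity)]
        have h1 : 0 ≤ c i - v i := by linarith [hvc i]
        have h2 : c i - v i ≤ c i := by linarith [hv0 i]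
        have := pow_le_pow_left₀ h1 h2 2
        nlinarith [sq_nonneg (c i - v i)])
    exact (r2.mul1' (l14ON_k0 L)).congr (fun i => by ring)
  have kf := l14_k5f (L := L) hc he hv0 hvc
  have ke := l14_k5e hc0 hc he hβ hv0 hvc
  have F' := l14OA_k5F hc0 hc hβ hv0 hv1
  set E : ι → 𝓕 := fun i => (L i).T (v i) (c i) ((L i).st (c i) 1 (c i))
      - (L i).k5F (c i) (β i) (v i) with hE
  have hE3 : l14OA L E (fun i => c i ^ 3) := kf
  have hE1 : l14OA L E (fun _ => 1) := hE3.mono1 (fun i =>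
    pow_le_one₀ (hc0 i) (le_trans (hc i) bd.c0_le))
  -- the error of replacing `P` by `F(v)`
  have t1 := ((hE3.mul1 ((F'.add F').add hE1)).T (u := fun _ => 0) (v := v)
    (fun _ => le_refl 0) hv0 hv1).ev
  -- `β² χ⁴ = O(c⁴)`
  have hx := l14ON_chi L
  have t2 : l14ON L (fun i => β i * β i * ((L i).chi * ((L i).chi * ((L i).chi * (L i).chi))))
      (fun i => c i ^ 3) :=
    ((hβ.mul hβ).mul1' (hx.mul1' (hx.mul1' (hx.mul1' hx)))).mono1 (fun i => by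
      have h1 := le_trans (hc i) bd.c0_le
      have h3 : 0 ≤ c i ^ 3 := pow_nonneg (hc0 i) 3
      nlinarith)
  refine ((t1.add ke).add t2).congr (fun i => ?_)
  have eP : (L i).T (v i) (c i) ((L i).st (c i) 1 (c i)) = (L i).k5F (c i) (β i) (v i) + E i := by
    simp only [hE]; ring
  rw [eP]
  have eprod : ((L i).k5F (c i) (β i) (v i) + E i) * ((L i).k5F (c i) (β i) (v i) + E i)
      = E i * ((L i).k5F (c i) (β i) (v i) + (L i).k5F (c i) (β i) (v i) + E i)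
        + (L i).k5F (c i) (β i) (v i) * (L i).k5F (c i) (β i) (v i) := by ring
  rw [eprod, L14Calc.T_add, map_add]
  have h2 : (L i).re (1 / 2) * 2 = 1 := by
    have : (2 : 𝕂) = (L i).re 2 := by rw [map_ofNat]
    rw [this, ← map_mul]; norm_num
  have e1 : (L i).re ((c i - v i) ^ 2 / 2)
      = (L i).re (1 / 2) * (((L i).re (c i) - (L i).re (v i)) * ((L i).re (c i) - (L i).re (v i))) := by
    rw [← map_sub, ← map_mul, ← map_mul]; congr 1; ring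
  have e2 : (L i).re (v i ^ 2 / 2) = (L i).re (1 / 2) * ((L i).re (v i) * (L i).re (v i)) := by
    rw [← map_mul, ← map_mul]; congr 1; ring
  have e3 : (L i).re (c i ^ 2) = (L i).re (c i) * (L i).re (c i) := by
    rw [← map_mul]; congr 1; ring
  have e4 : (L i).re (v i ^ 2) = (L i).re (v i) * (L i).re (v i) := by
    rw [← map_mul]; congr 1; ring
  simp only [hβdef, e1, e2, e3, e4]
  linear_combination (-((L i).k0 * (L i).chi ^ 3 * ((L i).re (c i) * (L i).re (c i)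
    - 2 * (L i).re (c i) * (L i).re (v i)))) * h2

end Claimed.Agent.R286
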