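/-
Row 286 (S0533), package L14.      helper270.
Proof of the contract K4 (first order cluster expansion on an arbitrary skeleton) of `Stm.lean`.

* `L14Pk`, `l14UB`, `l14UN` : the uniform `O`-calculus over a family of calculi whose rings may vary with the index
  (needed for the plain form `∃ C, ∀ 𝕂 𝓕 L ..` of the tree contracts);
* `l14_K1b`                 : second order two factor collapse at every level
  `T u v (w1(v) w2(v)) = w1(u) w2(u) + k0 (v-u) D w1(u) D w2(u) + O((v-u) (v+eps))`;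
* `L14Sk.k4_Wc_eq_Pt`       : `Wc` with `h = c` is `Pt`;
* `l14_K4_pf`.
-/
import Claimed.Agent.R286.L09.SkelCum
import Claimed.Agent.R286.L09.K5

set_option autoImplicit false

namespace Claimed.Agent.R286

universe w

/-- a calculus together with its rings -/
structure L14Pk (bd : L14Bd) : Type 1 where
  /-- numbers -/
  𝕂 : Type
  /-- functions -/
  𝓕 : Type
  [r1 : CommRing 𝕂]
  [r2 : CommRing 𝓕]
  /-- the calculus -/
  L : L14Calc bd 𝕂 𝓕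

attribute [instance] L14Pk.r1 L14Pk.r2

section ufam

variable {bd : L14Bd} {ι : Type w}

/-- `φ i = O(A i)` at level `k`, uniformly in `i` (rings depend on `i`). -/
def l14UB (X : ι → L14Pk bd) (k : ℕ) (φ : ∀ i, (X i).𝓕) (A : ι → ℝ) : Prop :=
  ∃ C : ℝ, 0 ≤ C ∧ ∀ i, (X i).L.B k (C * A i) (φ i)

/-- `x i = O(A i)`, uniformly in `i`. -/
def l14UN (X : ι → L14Pk bd) (x : ∀ i, (X i).𝕂) (A : ι → ℝ) : Prop :=
  ∃ C : ℝ, 0 ≤ C ∧ ∀ i, (X i).L.nrm (x i) ≤ C * A i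

variable {X : ι → L14Pk bd} {k : ℕ} {φ ψ : ∀ i, (X i).𝓕} {x y : ∀ i, (X i).𝕂} {A A' : ι → ℝ}

theorem l14UB.congr (h : l14UB X k φ A) (e : ∀ i, φ i = ψ i) : l14UB X k ψ A := by
  obtain ⟨C, hC, hB⟩ := h
  exact ⟨C, hC, fun i => e i ▸ hB i⟩

theorem l14UN.congr (h : l14UN X x A) (e : ∀ i, x i = y i) : l14UN X y A := by
  obtain ⟨C, hC, hB⟩ := h
  exact ⟨C, hC, fun i => e i ▸ hB i⟩

theorem l14UB.mono (h : l14UB X k φ A) (C' : ℝ) (hC' : 0 ≤ C') (e : ∀ i, A i ≤ C' * A' i) :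
    l14UB X k φ A' := by
  obtain ⟨C, hC, hB⟩ := h
  refine ⟨C * C', mul_nonneg hC hC', fun i => (X i).L.B_mono ?_ (hB i)⟩
  have := mul_le_mul_of_nonneg_left (e i) hC
  linarith [mul_assoc C C' (A' i)]

theorem l14UB.mono1 (h : l14UB X k φ A) (e : ∀ i, A i ≤ A' i) : l14UB X k φ A' :=
  h.mono 1 zero_le_one (fun i => by simpa using e i)

theorem l14UN.mono1 (h : l14UN X x A) (e : ∀ i, A i ≤ A' i) : l14UN X x A' := by
  obtain ⟨C, hC, hB⟩ := h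
  exact ⟨C, hC, fun i => le_trans (hB i) (mul_le_mul_of_nonneg_left (e i) hC)⟩

theorem l14UB.down (h : l14UB X (k + 1) φ A) : l14UB X k φ A := by
  obtain ⟨C, hC, hB⟩ := h
  exact ⟨C, hC, fun i => (X i).L.B_down (hB i)⟩

theorem l14UB.add (h : l14UB X k φ A) (h' : l14UB X k ψ A) :
    l14UB X k (fun i => φ i + ψ i) A := by
  obtain ⟨C, hC, hB⟩ := h
  obtain ⟨C', hC', hB'⟩ := h'
  refine ⟨C + C', add_nonneg hC hC', fun i => ?_⟩
  have := (X i).L.B_add (hB i) (hB' i)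
  rwa [← add_mul] at this

theorem l14UB.mul (h : l14UB X k φ A) (h' : l14UB X k ψ A') :
    l14UB X k (fun i => φ i * ψ i) (fun i => A i * A' i) := by
  obtain ⟨C, hC, hB⟩ := h
  obtain ⟨C', hC', hB'⟩ := h'
  refine ⟨bd.C k * C * C', mul_nonneg (mul_nonneg (bd.C_nonneg k) hC) hC', fun i => ?_⟩
  have := (X i).L.B_mul (hB i) (hB' i)
  have e : bd.C k * (C * A i * (C' * A' i)) = bd.C k * C * C' * (A i * A' i) := by ring
  rwa [e] at this

theorem l14UB.neg (h : l14UB X k φ A) : l14UB X k (fun i => - φ i) A := by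
  obtain ⟨C, hC, hB⟩ := h
  refine ⟨bd.C k * C, mul_nonneg (bd.C_nonneg k) hC, fun i => ?_⟩
  have := (X i).L.B_neg (hB i)
  rwa [← mul_assoc] at this

theorem l14UB.sub (h : l14UB X k φ A) (h' : l14UB X k ψ A) :
    l14UB X k (fun i => φ i - ψ i) A :=
  (h.add h'.neg).congr (fun i => by ring)

theorem l14UB.D (h : l14UB X (k + 1) φ A) : l14UB X k (fun i => (X i).L.D (φ i)) A := by
  obtain ⟨C, hC, hB⟩ := h
  refine ⟨bd.C k * C, mul_nonneg (bd.C_nonneg k) hC, fun i => ?_⟩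
  have := (X i).L.B_D (hB i)
  rwa [← mul_assoc] at this

theorem l14UB.T (h : l14UB X k φ A) {u v : ι → ℝ} (hu : ∀ i, 0 ≤ u i) (huv : ∀ i, u i ≤ v i)
    (hv : ∀ i, v i ≤ bd.c0) : l14UB X k (fun i => (X i).L.T (u i) (v i) (φ i)) A := by
  obtain ⟨C, hC, hB⟩ := h
  refine ⟨bd.C k * C, mul_nonneg (bd.C_nonneg k) hC, fun i => ?_⟩
  have := (X i).L.T_B (u i) (v i) (hu i) (huv i) (hv i) (hB i)
  rwa [← mul_assoc] at this

theorem l14UN.cst (h : l14UN X x A) (k : ℕ) : l14UB X k (fun i => (X i).L.cst (x i)) A := by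
  obtain ⟨C, hC, hB⟩ := h
  exact ⟨C, hC, fun i => (X i).L.B_mono (hB i) ((X i).L.B_cst k (x i))⟩

theorem l14UN.mul (h : l14UN X x A) (h' : l14UN X y A') :
    l14UN X (fun i => x i * y i) (fun i => A i * A' i) := by
  obtain ⟨C, hC, hB⟩ := h
  obtain ⟨C', hC', hB'⟩ := h'
  refine ⟨C * C', mul_nonneg hC hC', fun i => ?_⟩
  have h1 := (X i).L.nrm_mul (x i) (y i)
  have h2 : (X i).L.nrm (x i) * (X i).L.nrm (y i) ≤ (C * A i) * (C' * A' i) :=
    mul_le_mul (hB i) (hB' i) ((X i).L.nrm_nonneg _) (le_trans ((X i).L.nrm_nonneg _) (hB i))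
  have e : (C * A i) * (C' * A' i) = C * C' * (A i * A' i) := by ring
  linarith

theorem l14UN_re_le (X : ι → L14Pk bd) (r : ι → ℝ) (h : ∀ i, |r i| ≤ A i) :
    l14UN X (fun i => (X i).L.re (r i)) A :=
  ⟨1, zero_le_one, fun i => by simpa using le_trans ((X i).L.nrm_re (r i)) (h i)⟩

theorem l14UN_kap (X : ι → L14Pk bd) {u : ι → ℝ} (hu : ∀ i, 0 ≤ u i)
    (hu' : ∀ i, u i ≤ bd.c0) : l14UN X (fun i => (X i).L.kap (u i)) (fun _ => 1) :=
  ⟨bd.C 0, bd.C_nonneg 0, fun i => by simpa using (X i).L.kap_bd (u i) (hu i) (hu' i)⟩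

theorem l14UN_kap_sub (X : ι → L14Pk bd) {u : ι → ℝ} (hu : ∀ i, 0 ≤ u i)
    (hu' : ∀ i, u i ≤ bd.c0) :
    l14UN X (fun i => (X i).L.kap (u i) - (X i).L.kap 0) (fun i => u i + (X i).L.eps) :=
  ⟨bd.C 0, bd.C_nonneg 0, fun i => (X i).L.kap_lip (u i) (hu i) (hu' i)⟩

theorem l14UN_mu (X : ι → L14Pk bd) {u : ι → ℝ} (hu : ∀ i, 0 ≤ u i)
    (hu' : ∀ i, u i ≤ bd.c0) : l14UN X (fun i => (X i).L.re ((X i).L.mu (u i))) (fun _ => 1) := by
  refine ⟨2, by norm_num, fun i => le_trans ((X i).L.nrm_re _) ?_⟩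
  have h1 := (X i).L.mu_ge (u i) (hu i) (hu' i)
  have h2 := (X i).L.mu_le (u i) (hu i) (hu' i)
  have h3 := (X i).L.eps_le
  have h4 := bd.c0_le
  rw [abs_of_nonneg (le_trans (hu i) h1)]
  linarith [hu' i]

theorem l14UB_g (X : ι → L14Pk bd) (j k : ℕ) (hj : 1 ≤ j) {u : ι → ℝ} (hu : ∀ i, 0 ≤ u i)
    (hu' : ∀ i, u i ≤ bd.c0) : l14UB X k (fun i => (X i).L.g j (u i)) (fun _ => 1) :=
  ⟨bd.C (j + k), bd.C_nonneg _, fun i => by simpa using (X i).L.g_B j k (u i) hj (hu i) (hu' i)⟩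

/-- reindexing -/
theorem l14UB.comp {ι' : Type w} (h : l14UB X k φ A) (e : ι' → ι) :
    l14UB (fun p => X (e p)) k (fun p => φ (e p)) (fun p => A (e p)) := by
  obtain ⟨C, hC, hB⟩ := h
  exact ⟨C, hC, fun p => hB (e p)⟩

/-- the index family `(i, r)`, `a i ≤ r ≤ b i`. -/
abbrev L14Ux (a b : ι → ℝ) : Type w := {p : ι × ℝ // a p.1 ≤ p.2 ∧ p.2 ≤ b p.1}

/-- Dynkin formula, graded bound, uniform version. -/
theorem l14U_dynB {a b : ι → ℝ} {f h : ∀ i, ℝ → (X i).𝓕} (ha : ∀ i, 0 ≤ a i)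
    (hab : ∀ i, a i ≤ b i) (hb : ∀ i, b i ≤ bd.c0)
    (hG : ∀ i, (X i).L.Gen (a i) (b i) (f i) (h i))
    (hh : l14UB (fun p : L14Ux a b => X p.1.1) k (fun p => h p.1.1 p.1.2) (fun p => A p.1.1)) :
    l14UB X k (fun i => (X i).L.T (a i) (b i) (f i (b i)) - f i (a i))
      (fun i => (b i - a i) * A i) := by
  obtain ⟨C, hC, hB⟩ := hh
  refine ⟨bd.C k * C, mul_nonneg (bd.C_nonneg k) hC, fun i => ?_⟩
  have := (X i).L.dynB (k := k) (K := C * A i) (ha i) (hab i) (hb i) (hG i)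
    (fun r h1 h2 => hB ⟨(i, r), h1, h2⟩)
  have e : bd.C k * ((b i - a i) * (C * A i)) = bd.C k * C * ((b i - a i) * A i) := by ring
  rwa [e] at this

/-- product with an `O(1)` factor on the right -/
theorem l14UB.mul1 (h : l14UB X k φ A) (h' : l14UB X k ψ (fun _ => 1)) :
    l14UB X k (fun i => φ i * ψ i) A :=
  (h.mul h').mono1 (fun i => le_of_eq (by ring))

/-- product with an `O(1)` factor on the left -/
theorem l14UB.one_mul (h' : l14UB X k ψ (fun _ => 1)) (h : l14UB X k φ A) :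
    l14UB X k (fun i => ψ i * φ i) A :=
  (h'.mul h).mono1 (fun i => le_of_eq (by ring))

theorem l14UN_k0 (X : ι → L14Pk bd) : l14UN X (fun i => (X i).L.k0) (fun _ => 1) :=
  l14UN_kap X (u := fun _ => 0) (fun _ => le_refl 0) (fun _ => bd.c0_pos.le)

end ufam

/-! ### second order two factor collapse -/

namespace L14Calc

variable {bd : L14Bd} {𝕂 𝓕 : Type} [CommRing 𝕂] [CommRing 𝓕] (L : L14Calc bd 𝕂 𝓕)

/-- generator of `w1 w2 + k0 (v - r) D w1 D w2`. -/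
theorem gen_k1b {u v m1 m2 : ℝ} (Φ1 Φ2 : 𝓕) (hu : 0 ≤ u) (huv : u ≤ v)
    (h1 : v ≤ m1) (h2 : v ≤ m2) (hm1 : m1 ≤ bd.c0) (hm2 : m2 ≤ bd.c0) :
    L.Gen u v (fun r => L.T r m1 Φ1 * L.T r m2 Φ2
        + L.cst L.k0 * (L.cst (L.re (v - r)) * (L.D (L.T r m1 Φ1) * L.D (L.T r m2 Φ2))))
      (fun r => L.cst (L.kap r - L.kap 0) * (L.D (L.T r m1 Φ1) * L.D (L.T r m2 Φ2))
        + L.cst (L.k0 * L.re (v - r)) * (L.cst (L.kap r) *
            (L.D (L.D (L.T r m1 Φ1)) * L.D (L.D (L.T r m2 Φ2))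
              - L.cst (L.re (L.mu r)) * (L.g 2 r * (L.D (L.T r m1 Φ1) * L.D (L.T r m2 Φ2)))
              - L.cst (L.re (L.mu r)) * (L.g 2 r * (L.D (L.T r m1 Φ1) * L.D (L.T r m2 Φ2)))))) := by
  have hv : v ≤ bd.c0 := le_trans h1 hm1
  have g1 := L.gen_sub (L.gen_back u m1 Φ1 hu (le_trans huv h1) hm1) (le_refl u) huv h1
  have g2 := L.gen_sub (L.gen_back u m2 Φ2 hu (le_trans huv h2) hm2) (le_refl u) huv h2
  have gP := L.gen_back2 Φ1 Φ2 hu huv h1 h2 hm1 hm2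
  have gY := L.gen_mul (L.gen_D g1) (L.gen_D g2)
  have gR := L.gen_rem v hu huv hv
  have gk := L.gen_cst_mul L.k0 hu huv hv (L.gen_mul gR gY)
  refine L.gen_congr (L.gen_add gP gk) (fun _ => rfl) (fun r => ?_)
  simp only [L.D_cst, L.D_zero]
  simp only [map_mul, map_sub, L14Calc.k0]
  ring

end L14Calc

section k1b

variable {bd : L14Bd} {ι : Type w} {X : ι → L14Pk bd} {k : ℕ} {u v m1 m2 K1 K2 : ι → ℝ}
  {Φ1 Φ2 : ∀ i, (X i).𝓕}

/-- **K1b** second order two factor collapse, family form. -/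
theorem l14U_K1b (hu : ∀ i, 0 ≤ u i) (huv : ∀ i, u i ≤ v i) (h1 : ∀ i, v i ≤ m1 i)
    (h2 : ∀ i, v i ≤ m2 i) (hm1 : ∀ i, m1 i ≤ bd.c0) (hm2 : ∀ i, m2 i ≤ bd.c0)
    (hΦ1 : l14UB X (k + 2) Φ1 K1) (hΦ2 : l14UB X (k + 2) Φ2 K2) :
    l14UB X k (fun i => (X i).L.T (u i) (v i)
          ((X i).L.T (v i) (m1 i) (Φ1 i) * (X i).L.T (v i) (m2 i) (Φ2 i))
        - (X i).L.T (u i) (m1 i) (Φ1 i) * (X i).L.T (u i) (m2 i) (Φ2 i)
        - (X i).L.cst (X i).L.k0 * ((X i).L.cst ((X i).L.re (v i - u i)) *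
            ((X i).L.D ((X i).L.T (u i) (m1 i) (Φ1 i)) * (X i).L.D ((X i).L.T (u i) (m2 i) (Φ2 i)))))
      (fun i => (v i - u i) * ((v i + (X i).L.eps) * (K1 i * K2 i))) := by
  have hv : ∀ i, v i ≤ bd.c0 := fun i => le_trans (h1 i) (hm1 i)
  have key := l14U_dynB (X := X) (k := k) (A := fun i => (v i + (X i).L.eps) * (K1 i * K2 i))
    hu huv hv
    (fun i => (X i).L.gen_k1b (Φ1 i) (Φ2 i) (hu i) (huv i) (h1 i) (h2 i) (hm1 i) (hm2 i)) ?_
  · refine key.congr (fun i => ?_)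
    simp only [sub_self, map_zero, zero_mul, mul_zero, add_zero]
    ring
  · set X' := fun p : L14Ux u v => X p.1.1 with hX'
    have r0 : ∀ p : L14Ux u v, 0 ≤ p.1.2 := fun p => le_trans (hu _) p.2.1
    have rc : ∀ p : L14Ux u v, p.1.2 ≤ bd.c0 := fun p => le_trans p.2.2 (hv _)
    have w1 : l14UB X' (k + 2) (fun p => (X' p).L.T p.1.2 (m1 p.1.1) (Φ1 p.1.1))
        (fun p => K1 p.1.1) :=
      (hΦ1.comp (fun p : L14Ux u v => p.1.1)).T r0 (fun p => le_trans p.2.2 (h1 _)) (fun p => hm1 _)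
    have w2 : l14UB X' (k + 2) (fun p => (X' p).L.T p.1.2 (m2 p.1.1) (Φ2 p.1.1))
        (fun p => K2 p.1.1) :=
      (hΦ2.comp (fun p : L14Ux u v => p.1.1)).T r0 (fun p => le_trans p.2.2 (h2 _)) (fun p => hm2 _)
    have Y := w1.D.down.mul w2.D.down
    have Z := w1.D.D.mul w2.D.D
    have G := l14UB_g X' 2 k (by norm_num) r0 rc
    have rr := l14UN_mu X' r0 rc
    have t := (rr.cst k).one_mul (G.one_mul Y)
    have AY := ((l14UN_kap X' r0 rc).cst k).one_mul ((Z.sub t).sub t)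
    have ks : l14UN X' (fun p => (X' p).L.kap p.1.2 - (X' p).L.kap 0)
        (fun p => v p.1.1 + (X p.1.1).L.eps) :=
      (l14UN_kap_sub X' r0 rc).mono1 (fun p => by
        have := p.2.2
        show p.1.2 + (X p.1.1).L.eps ≤ v p.1.1 + (X p.1.1).L.eps
        linarith)
    have rv : l14UN X' (fun p => (X' p).L.k0 * (X' p).L.re (v p.1.1 - p.1.2))
        (fun p => v p.1.1 + (X p.1.1).L.eps) :=
      ((l14UN_k0 X').mul (l14UN_re_le X' (A := fun p => v p.1.1 + (X p.1.1).L.eps) _ (fun p => by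
        rw [abs_of_nonneg (by linarith [p.2.2])]
        linarith [r0 p, (X p.1.1).L.eps_nonneg]))).mono1
          (fun p => le_of_eq (by ring))
    exact ((ks.cst k).mul Y).add ((rv.cst k).mul AY)

end k1b

/-! ### the contract K4 -/

namespace L14Sk

variable {D : ℕ} {bd : L14Bd} {𝕂 𝓕 : Type} [CommRing 𝕂] [CommRing 𝓕]

/-- with `h = c` every fork is moved: `Wc = Pt`. -/
theorem k4_Wc_eq_Pt (L : L14Calc bd 𝕂 𝓕) (c : ℝ) (φ : Fin D → 𝓕) (s : L14Sk D) (hs : s.Ok c)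
    (u : ℝ) : s.Wc L c φ c u = s.Pt L c φ u := by
  induction s with
  | leaf A => rfl
  | fork v l r ihl ihr =>
    obtain ⟨_, h1, _, _, hl, hr⟩ := hs
    rw [k23_Wc_fork, if_pos (le_trans h1 (l.k23_mass_le hl)), ihl hl, ihr hr]
    rfl

end L14Sk

/-- the universal family of the forks whose two subtrees have at most `n` leaves. -/
structure K4J (bd : L14Bd) (k n : ℕ) : Type 1 where
  /-- calculus -/
  P : L14Pk bd
  /-- number of blocks -/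
  D : ℕ
  /-- cut -/
  c : ℝ
  /-- block functions -/
  φ : Fin D → P.𝓕
  /-- amplitudes -/
  K : Fin D → ℝ
  /-- mass of the fork -/
  v : ℝ
  /-- left subtree -/
  l : L14Sk D
  /-- right subtree -/
  r : L14Sk D
  /-- time -/
  u : ℝ
  hl : l.size ≤ n
  hr : r.size ≤ n
  hv : 0 ≤ v
  hvl : v ≤ l.mass c
  hvr : v ≤ r.mass c
  okl : l.Ok c
  okr : r.Ok c
  hc : c ≤ bd.c0
  he : P.L.eps ≤ c
  hφ : ∀ A, P.L.B (k + 3) (K A) (φ A)
  hu : 0 ≤ u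
  huv : u ≤ v

open L14Sk in
/-- the induction step of K4 on the universal family of forks. -/
theorem l14_k4_step (bd : L14Bd) (k n : ℕ)
    (ih : ∃ C : ℝ, 0 ≤ C ∧
      ∀ (𝕂 𝓕 : Type) [CommRing 𝕂] [CommRing 𝓕] (L : L14Calc bd 𝕂 𝓕) (D : ℕ) (c : ℝ) (φ : Fin D → 𝓕)
        (K : Fin D → ℝ) (s : L14Sk D), s.size ≤ n → s.Ok c → c ≤ bd.c0 → L.eps ≤ c →
        (∀ A, L.B (k + 3) (K A) (φ A)) → ∀ u, 0 ≤ u → u ≤ s.mass c →
        L.B k (C * (c ^ 2 * s.amp K))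
          (s.W L c φ u - s.Pt L c φ u - L.cst L.k0 * s.Qt L c φ u)) :
    l14UB (fun j : K4J bd k n => j.P) k
      (fun j => (fork j.v j.l j.r).W j.P.L j.c j.φ j.u - (fork j.v j.l j.r).Pt j.P.L j.c j.φ j.u
        - j.P.L.cst j.P.L.k0 * (fork j.v j.l j.r).Qt j.P.L j.c j.φ j.u)
      (fun j => j.c ^ 2 * (j.l.amp j.K * j.r.amp j.K)) := by
  set X := fun j : K4J bd k n => j.P with hX
  -- elementary facts
  have hlc : ∀ j : K4J bd k n, j.l.mass j.c ≤ j.c := fun j => j.l.k23_mass_le j.okl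
  have hrc : ∀ j : K4J bd k n, j.r.mass j.c ≤ j.c := fun j => j.r.k23_mass_le j.okr
  have hvc : ∀ j : K4J bd k n, j.v ≤ j.c := fun j => le_trans j.hvl (hlc j)
  have hc0 : ∀ j : K4J bd k n, 0 ≤ j.c := fun j => le_trans j.hv (hvc j)
  have hc1 : ∀ j : K4J bd k n, j.c ≤ 1 := fun j => le_trans j.hc bd.c0_le
  have hK : ∀ (j : K4J bd k n) A, 0 ≤ j.K A := fun j A => j.P.L.B_nonneg (j.hφ A)
  have al : ∀ j : K4J bd k n, 0 ≤ j.l.amp j.K := fun j => k23_amp_nonneg (hK j) j.l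
  have ar : ∀ j : K4J bd k n, 0 ≤ j.r.amp j.K := fun j => k23_amp_nonneg (hK j) j.r
  have hA0 : ∀ j : K4J bd k n, 0 ≤ j.c ^ 2 * (j.l.amp j.K * j.r.amp j.K) := fun j =>
    mul_nonneg (sq_nonneg _) (mul_nonneg (al j) (ar j))
  have hφ2 : ∀ (j : K4J bd k n) A, j.P.L.B (k + 2) (j.K A) (j.φ A) := fun j A =>
    j.P.L.B_down (j.hφ A)
  have hφ1 : ∀ (j : K4J bd k n) A, j.P.L.B (k + 1) (j.K A) (j.φ A) := fun j A =>
    j.P.L.B_down (hφ2 j A)
  -- `a = W_l(u)`, `b = W_r(u)` at level `k+1`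
  obtain ⟨C2, hC2, K2⟩ := l14_K2_pf bd (k + 1) n
  have ha : l14UB X (k + 1) (fun j => j.l.W j.P.L j.c j.φ j.u) (fun j => j.l.amp j.K) :=
    ⟨C2, hC2, fun j => K2 j.P.𝕂 j.P.𝓕 j.P.L j.D j.c j.φ j.K j.l j.hl j.okl j.hc (hφ1 j) j.u j.hu
      (le_trans j.huv j.hvl)⟩
  have hb : l14UB X (k + 1) (fun j => j.r.W j.P.L j.c j.φ j.u) (fun j => j.r.amp j.K) :=
    ⟨C2, hC2, fun j => K2 j.P.𝕂 j.P.𝓕 j.P.L j.D j.c j.φ j.K j.r j.hr j.okr j.hc (hφ1 j) j.u j.hu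
      (le_trans j.huv j.hvr)⟩
  -- `Ψ_l`, `Ψ_r` at level `k+2`
  obtain ⟨C2', hC2', K2'⟩ := l14_K2_pf bd (k + 2) n
  have hΨl : l14UB X (k + 2) (fun j => j.l.Psi j.P.L j.c j.φ) (fun j => j.l.amp j.K) :=
    ⟨C2', hC2', fun j => by
      have := K2' j.P.𝕂 j.P.𝓕 j.P.L j.D j.c j.φ j.K j.l j.hl j.okl j.hc (hφ2 j) (j.l.mass j.c)
        (le_trans j.hv j.hvl) (le_refl _)
      rwa [k23_W_mass] at this⟩
  have hΨr : l14UB X (k + 2) (fun j => j.r.Psi j.P.L j.c j.φ) (fun j => j.r.amp j.K) :=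
    ⟨C2', hC2', fun j => by
      have := K2' j.P.𝕂 j.P.𝓕 j.P.L j.D j.c j.φ j.K j.r j.hr j.okr j.hc (hφ2 j) (j.r.mass j.c)
        (le_trans j.hv j.hvr) (le_refl _)
      rwa [k23_W_mass] at this⟩
  -- `δ = W - Pt = O(c)` at level `k+1`
  obtain ⟨C3, hC3, K3⟩ := l14_K3_pf bd (k + 1) n
  have hδl : l14UB X (k + 1) (fun j => j.l.W j.P.L j.c j.φ j.u - j.l.Pt j.P.L j.c j.φ j.u)
      (fun j => j.c * j.l.amp j.K) :=
    ⟨C3, hC3, fun j => by
      have := K3 j.P.𝕂 j.P.𝓕 j.P.L j.D j.c j.c j.φ j.K j.l j.hl j.okl j.hc (hc0 j) (hc1 j) (hφ2 j)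
        j.u j.hu (le_trans j.huv j.hvl)
      rwa [k4_Wc_eq_Pt _ _ _ _ j.okl] at this⟩
  have hδr : l14UB X (k + 1) (fun j => j.r.W j.P.L j.c j.φ j.u - j.r.Pt j.P.L j.c j.φ j.u)
      (fun j => j.c * j.r.amp j.K) :=
    ⟨C3, hC3, fun j => by
      have := K3 j.P.𝕂 j.P.𝓕 j.P.L j.D j.c j.c j.φ j.K j.r j.hr j.okr j.hc (hc0 j) (hc1 j) (hφ2 j)
        j.u j.hu (le_trans j.huv j.hvr)
      rwa [k4_Wc_eq_Pt _ _ _ _ j.okr] at this⟩
  -- `e = W - Pt - k0 Qt = O(c²)` at level `k`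
  obtain ⟨C4, hC4, K4⟩ := ih
  have hel : l14UB X k (fun j => j.l.W j.P.L j.c j.φ j.u - j.l.Pt j.P.L j.c j.φ j.u
      - j.P.L.cst j.P.L.k0 * j.l.Qt j.P.L j.c j.φ j.u) (fun j => j.c ^ 2 * j.l.amp j.K) :=
    ⟨C4, hC4, fun j => K4 j.P.𝕂 j.P.𝓕 j.P.L j.D j.c j.φ j.K j.l j.hl j.okl j.hc j.he j.hφ j.u j.hu
      (le_trans j.huv j.hvl)⟩
  have her : l14UB X k (fun j => j.r.W j.P.L j.c j.φ j.u - j.r.Pt j.P.L j.c j.φ j.u
      - j.P.L.cst j.P.L.k0 * j.r.Qt j.P.L j.c j.φ j.u) (fun j => j.c ^ 2 * j.r.amp j.K) :=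
    ⟨C4, hC4, fun j => K4 j.P.𝕂 j.P.𝓕 j.P.L j.D j.c j.φ j.K j.r j.hr j.okr j.hc j.he j.hφ j.u j.hu
      (le_trans j.huv j.hvr)⟩
  -- the root fork
  have hT := l14U_K1b (X := X) (k := k) (u := fun j => j.u) (v := fun j => j.v)
    (m1 := fun j => j.l.mass j.c) (m2 := fun j => j.r.mass j.c)
    (fun j => j.hu) (fun j => j.huv) (fun j => j.hvl) (fun j => j.hvr)
    (fun j => le_trans (hlc j) j.hc) (fun j => le_trans (hrc j) j.hc) hΨl hΨr
  have hT' := hT.mono (A' := fun j => j.c ^ 2 * (j.l.amp j.K * j.r.amp j.K)) 2 (by norm_num)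
    (fun j => by
    have h1 : j.v - j.u ≤ j.c := by linarith [j.hu, hvc j]
    have h2 : 0 ≤ j.v - j.u := by linarith [j.huv]
    have h5 : j.v + j.P.L.eps ≤ 2 * j.c := by linarith [hvc j, j.he]
    have h6 : 0 ≤ j.v + j.P.L.eps := by linarith [j.hv, j.P.L.eps_nonneg]
    have h3 : (j.v - j.u) * (j.v + j.P.L.eps) ≤ j.c * (2 * j.c) := mul_le_mul h1 h5 h6 (hc0 j)
    have h4 := mul_le_mul_of_nonneg_right h3 (mul_nonneg (al j) (ar j))
    calc (j.v - j.u) * ((j.v + j.P.L.eps) * (j.l.amp j.K * j.r.amp j.K))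
        = (j.v - j.u) * (j.v + j.P.L.eps) * (j.l.amp j.K * j.r.amp j.K) := by ring
      _ ≤ j.c * (2 * j.c) * (j.l.amp j.K * j.r.amp j.K) := h4
      _ = 2 * (j.c ^ 2 * (j.l.amp j.K * j.r.amp j.K)) := by ring)
  -- one more power of `c` is harmless
  have drop : ∀ (j : K4J bd k n) (y : ℝ), y = j.c ^ 2 * (j.l.amp j.K * j.r.amp j.K) * j.c →
      y ≤ j.c ^ 2 * (j.l.amp j.K * j.r.amp j.K) := fun j y hy => by
    rw [hy]; exact mul_le_of_le_one_right (hA0 j) (hc1 j)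
  have t1 := (hδl.down.mul hδr.down).mono1 (A' := fun j => j.c ^ 2 * (j.l.amp j.K * j.r.amp j.K))
    (fun j => le_of_eq (by ring))
  have t2 := (hel.mul hb.down).mono1 (A' := fun j => j.c ^ 2 * (j.l.amp j.K * j.r.amp j.K))
    (fun j => le_of_eq (by ring))
  have t3 := (hel.mul hδr.down).mono1 (A' := fun j => j.c ^ 2 * (j.l.amp j.K * j.r.amp j.K))
    (fun j => drop j _ (by ring))
  have t4 := (ha.down.mul her).mono1 (A' := fun j => j.c ^ 2 * (j.l.amp j.K * j.r.amp j.K))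
    (fun j => le_of_eq (by ring))
  have t5 := (hδl.down.mul her).mono1 (A' := fun j => j.c ^ 2 * (j.l.amp j.K * j.r.amp j.K))
    (fun j => drop j _ (by ring))
  have rvu : l14UN X (fun j => j.P.L.re (j.v - j.u)) (fun j => j.c) :=
    l14UN_re_le X _ (fun j => by
      rw [abs_of_nonneg (by linarith [j.huv])]; linarith [j.hu, hvc j])
  have s1 := ((rvu.cst k).mul (ha.D.mul hδr.D)).mono1
    (A' := fun j => j.c ^ 2 * (j.l.amp j.K * j.r.amp j.K)) (fun j => le_of_eq (by ring))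
  have s2 := ((rvu.cst k).mul (hδl.D.mul hb.D)).mono1
    (A' := fun j => j.c ^ 2 * (j.l.amp j.K * j.r.amp j.K)) (fun j => le_of_eq (by ring))
  have s3 := ((rvu.cst k).mul (hδl.D.mul hδr.D)).mono1
    (A' := fun j => j.c ^ 2 * (j.l.amp j.K * j.r.amp j.K)) (fun j => drop j _ (by ring))
  have s := ((l14UN_k0 X).cst k).one_mul ((s1.add s2).sub s3)
  refine ((((((hT'.add t1).add t2).sub t3).add t4).sub t5).add s).congr (fun j => ?_)
  have eW : (fork j.v j.l j.r).W j.P.L j.c j.φ j.u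
      = j.P.L.T j.u j.v (j.P.L.T j.v (j.l.mass j.c) (j.l.Psi j.P.L j.c j.φ)
          * j.P.L.T j.v (j.r.mass j.c) (j.r.Psi j.P.L j.c j.φ)) := rfl
  have eP : (fork j.v j.l j.r).Pt j.P.L j.c j.φ j.u
      = j.l.Pt j.P.L j.c j.φ j.u * j.r.Pt j.P.L j.c j.φ j.u := rfl
  have eQ : (fork j.v j.l j.r).Qt j.P.L j.c j.φ j.u
      = j.l.Qt j.P.L j.c j.φ j.u * j.r.Pt j.P.L j.c j.φ j.u
        + j.l.Pt j.P.L j.c j.φ j.u * j.r.Qt j.P.L j.c j.φ j.u
        + j.P.L.cst (j.P.L.re (j.v - j.u)) *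
          (j.P.L.D (j.l.Pt j.P.L j.c j.φ j.u) * j.P.L.D (j.r.Pt j.P.L j.c j.φ j.u)) := rfl
  have ea : j.P.L.T j.u (j.l.mass j.c) (j.l.Psi j.P.L j.c j.φ) = j.l.W j.P.L j.c j.φ j.u := rfl
  have eb : j.P.L.T j.u (j.r.mass j.c) (j.r.Psi j.P.L j.c j.φ) = j.r.W j.P.L j.c j.φ j.u := rfl
  rw [eW, eP, eQ]
  dsimp only [X]
  simp only [ea, eb, L14Calc.D_sub]
  ring

/-- forces the equation lemmas of the definitions of this file to live in this module. -/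
theorem l14_k4_eqns_cite : True := by
  have := @l14UB.eq_1.{0}; have := @l14UN.eq_1.{0}; have := @L14Ux.eq_1.{0}
  trivial

open L14Sk in
/-- **K4** first order cluster expansion on an arbitrary skeleton. -/
theorem l14_K4_pf : l14_K4 := by
  intro bd k n
  induction n with
  | zero =>
    refine ⟨0, le_refl 0, ?_⟩
    intro 𝕂 𝓕 _ _ L D c φ K s hs
    have := s.k23_one_le_size
    omega
  | succ n ih =>
    obtain ⟨C, hC, hstep⟩ := l14_k4_step bd k n ih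
    refine ⟨C, hC, ?_⟩
    intro 𝕂 𝓕 _ _ L D c φ K s hs hok hc he hφ u hu hum
    cases s with
    | leaf A =>
      have e : (leaf A : L14Sk D).W L c φ u - (leaf A : L14Sk D).Pt L c φ u
          - L.cst L.k0 * (leaf A : L14Sk D).Qt L c φ u = 0 := by
        have e1 : (leaf A : L14Sk D).W L c φ u = L.T u c (φ A) := rfl
        have e2 : (leaf A : L14Sk D).Pt L c φ u = L.T u c (φ A) := rfl
        have e3 : (leaf A : L14Sk D).Qt L c φ u = 0 := rfl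
        rw [e1, e2, e3]; ring
      rw [e]
      refine L.B_mono ?_ (L.B_zero k)
      have : 0 ≤ K A := L.B_nonneg (hφ A)
      exact mul_nonneg hC (mul_nonneg (sq_nonneg c) this)
    | fork v l r =>
      obtain ⟨hv, hvl, hvr, _, hl, hr⟩ := hok
      have hs' : l.size + r.size ≤ n + 1 := hs
      have h1 := l.k23_one_le_size
      have h2 := r.k23_one_le_size
      exact hstep ⟨⟨𝕂, 𝓕, L⟩, D, c, φ, K, v, l, r, u, by omega, by omega, hv, hvl, hvr, hl, hr, hc,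
        he, hφ, hu, hum⟩

end Claimed.Agent.R286
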