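import Claimed.Agent.R286.L09.Proj
import Claimed.Agent.R286.Fd.TrC1
import Claimed.Agent.R286.Fd.TrB3
import Claimed.Agent.R286.Fd.TrD1

/-!
# Row 286 (S0533), LL Sec. 9, node LC1, S5 KEY, ABSTRACT PART      (owner: helper285; prefix `l9z`, `L9z`, `L9Bt`)      split with helper219 (`L09/Key.lean`: dictionary, link to `L14Calc`)

ANY finite hierarchy `(B, ls)` of `Defs/Gh`, `N = ls.length`, masses `ms = trMs B ls`;   cut of depth `t`, `1 ≤ t ≤ N`, mass `c = trPm ms t`;   `φ : S → ℝ` the spin observable of a slot.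
LL 09 l.599-611 ("Evaluation of the internal source sums").

* `L9Bt`            : discrete binary skeleton: leaves = ghost labels, forks carry DEPTHS;   `s.labs`;   `s.Cd sk t` : `s` codes the table `sk` on its leaves (cross pairs of a fork of depth `d < t` share `d` stages).
* `l9zD B ls' c φ f`: THE OPERATOR OF ONE SLOT  `𝒟 f = ∂_φ f + c (∂_φ F) f = e^{-cF} ∂_φ (e^{cF} f)`,   `∂_φ F = ghE B ls' φ`  (`ghF_fderiv`).
* `l9zW B ls t f s u z` : conditional expectation, given the field `z` at the depth `u`, of `∏_{A leaf of s} f A (field of the ghost A at the depth t)`  (`trFld` = planted transition).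
* **`l9z_key`**     : `l9It ms N t as D sk (fun T => trNu B ls (D + r) T z [∏_{m < r} φ (σ (D + m))]) = l9zW B ls t (fun A => 𝒟^[as.count A] 1) s 0 z`.

PROOF (no IND, no PROJ needed):
  LOCU `l9z_locu`, CUT `l9z_cut`, INDEP `l9z_indep` : `tr_nu_congr / tr_nu_cut / tr_nu_indep` for tests which use a SET `U` of labels (collapse of the unused labels on a used one: `tr_nu_comap`);
  MARKOV `l9z_markov` : a fixed table `T` (ghosts + slots in their blocks): `trNu T [∏ slots] = l9zW (fun A G => trNu (ls.drop t) (T - t) G [∏ slots of the block A])`   (induction on `s`);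
  SRC `l9z_src`    : ONE BLOCK, one more slot: block sum of `trNu (ls.drop t) (att T y j - t) G [P φ(σ_new)]` `= 𝒟 (trNu (ls.drop t) (T - t) · [P]) G`      (`tr_src_deriv` + `l9p_abel` twice);
  LIN `l9z_W_sum`  : `l9zW` is linear in each `f A` (bounded smooth functions: `tstE_sum`);   `l9z_D_sum` : `𝒟` commutes with finite sums;
  then the slots are summed one at a time, THE LAST ONE FIRST (`l9z_it_append`).
-/

set_option autoImplicit false
set_option linter.unusedSectionVars false

namespace Claimed.Agent.R286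

open MeasureTheory ProbabilityTheory

/-- discrete binary skeleton: leaves = labels (ghosts), forks carry depths -/
inductive L9Bt : Type
  | leaf : ℕ → L9Bt
  | fork : ℕ → L9Bt → L9Bt → L9Bt

namespace L9Bt

/-- the leaves -/
def labs : L9Bt → Finset ℕ
  | leaf A => {A}
  | fork _ l r => l.labs ∪ r.labs

/-- `s` codes the table `sk` on its leaves, below the cut of depth `t` -/
def Cd (sk : ℕ → ℕ → ℕ) (t : ℕ) : L9Bt → Prop
  | leaf _ => True
  | fork d l r => d < t ∧ Disjoint l.labs r.labs ∧ (∀ A ∈ l.labs, ∀ B ∈ r.labs, sk A B = d) ∧ l.Cd sk t ∧ r.Cd sk t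

end L9Bt

section
variable {S ι : Type} [Fintype S] [Fintype ι]

/-- the operator of one slot: `𝒟 f = ∂_φ f + c (∂_φ F) f` -/
noncomputable def l9zD (B : GhB S) (ls' : List (GhLv S ι)) (c : ℝ) (φ : S → ℝ) (f : (S → ℝ) → ℝ) : (S → ℝ) → ℝ :=
  fun G => deriv (fun ε : ℝ => f (G + ε • φ)) 0 + c * ghE B ls' φ G * f G

/-- conditional expectation of `∏_A f A (field of the leaf A at the depth t)` given the field `z` at the depth `u` -/
noncomputable def l9zW (B : GhB S) (ls : List (GhLv S ι)) (t : ℕ) (f : ℕ → (S → ℝ) → ℝ) : L9Bt → ℕ → (S → ℝ) → ℝ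
  | .leaf A, u, z => trFld B (ls.drop u) (t - u) z (f A)
  | .fork d l r, u, z => trFld B (ls.drop u) (d - u) z fun G => l9zW B ls t f l d G * l9zW B ls t f r d G

/-- a test which uses only the labels in `U` -/
def L9zUs (U : ℕ → Prop) (P : (ℕ → S) → ℝ) : Prop := ∀ σ σ' : ℕ → S, (∀ x, U x → σ x = σ' x) → P σ = P σ'

/-- smooth, all derivatives bounded -/
def L9zReg (f : (S → ℝ) → ℝ) : Prop := ∀ k, BRegN k f

theorem l9z_eqns_cite : True := by
  have := @L9Bt.labs.eq_1; have := @L9Bt.labs.eq_2; have := @L9Bt.labs.eq_def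
  have := @L9Bt.Cd.eq_1; have := @L9Bt.Cd.eq_2; have := @L9Bt.Cd.eq_def
  have := @l9zD.eq_1
  have := @l9zW.eq_1; have := @l9zW.eq_2; have := @l9zW.eq_def
  have := @L9zUs.eq_1; have := @L9zReg.eq_1
  have := @L9Bt.labs.induct; have := @L9Bt.Cd.induct; have := @l9zW.induct
  trivial

variable [Inhabited S]

/-! ### helpers -/

omit [Inhabited S] in
theorem l9z_adm_drop {B : GhB S} {ls : List (GhLv S ι)} (hls : GhAdm B 0 ls) (v : ℕ) : GhAdm B 0 (ls.drop v) :=
  ⟨hls.1.sublist (List.drop_sublist v ls), fun l hl => hls.2 l (List.mem_of_mem_drop hl)⟩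

theorem l9z_sub_isTr {N q : ℕ} {τ : ℕ → ℕ → ℕ} (hτ : IsTr N q τ) {v : ℕ} (hv : v ≤ N) : IsTr (N - v) q fun x y => τ x y - v := by
  refine ⟨?_, ?_, ?_, ?_⟩
  · intro x y hx hy
    have := hτ.le x y hx hy
    omega
  · intro x hx
    have := hτ.diag x hx
    omega
  · intro x y hx hy
    rw [hτ.symm x y hx hy]
  · intro x y z hx hy hz
    have := hτ.ultra x y z hx hy hz
    omega

omit [Fintype S] [Fintype ι] [Inhabited S] in
theorem l9z_drop_isTr {ls : List (GhLv S ι)} {q : ℕ} {τ : ℕ → ℕ → ℕ} (hτ : IsTr ls.length q τ) {v : ℕ} (hv : v ≤ ls.length) :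
    IsTr (ls.drop v).length q fun x y => τ x y - v := by
  rw [List.length_drop]
  exact l9z_sub_isTr hτ hv

theorem l9z_nu_const {B : GhB S} (hB : B.Ok) {ls : List (GhLv S ι)} (hls : GhAdm B 0 ls) (q : ℕ) (τ : ℕ → ℕ → ℕ) (z : S → ℝ) (c : ℝ) :
    trNu B ls q τ z (fun _ => c) = c := by
  unfold trNu
  exact gh_n_const B hB c ls (hls.ghNn le_rfl) _ _

omit [Fintype S] [Inhabited S] in
theorem L9zUs.uses {U : ℕ → Prop} {P : (ℕ → S) → ℝ} (hP : L9zUs U P) {q : ℕ} (hU : ∀ x, U x → x < q) : TrUses q P :=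
  fun σ σ' h => hP σ σ' fun x hx => h x (hU x hx)

omit [Fintype S] [Inhabited S] in
theorem L9zUs.mono {U U' : ℕ → Prop} {P : (ℕ → S) → ℝ} (hP : L9zUs U P) (h : ∀ x, U x → U' x) : L9zUs U' P :=
  fun σ σ' hσ => hP σ σ' fun x hx => hσ x (h x hx)

omit [Fintype S] [Inhabited S] in
/-- a test which uses no label is constant -/
theorem L9zUs.const {U : ℕ → Prop} {P : (ℕ → S) → ℝ} (hP : L9zUs U P) (hU : ¬ ∃ x, U x) (σ₀ : ℕ → S) : P = fun _ => P σ₀ := by
  funext σ
  exact hP σ σ₀ fun x hx => absurd ⟨x, hx⟩ hU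

open Classical in
/-- collapse of the unused labels on a used one -/
theorem l9z_collapse {B : GhB S} (hB : B.Ok) {ls : List (GhLv S ι)} (hls : GhAdm B 0 ls) {q : ℕ} {τ : ℕ → ℕ → ℕ}
    (hτ : IsTr ls.length q τ) (z : S → ℝ) (U : ℕ → Prop) (hU : ∀ x, U x → x < q) (P : (ℕ → S) → ℝ) (hP : L9zUs U P)
    {x₀ : ℕ} (hx₀ : U x₀) :
    trNu B ls q τ z P = trNu B ls q (fun x y => τ (if U x then x else x₀) (if U y then y else x₀)) z P := by
  have hf : ∀ x, x < q → (if U x then x else x₀) < q := by
    intro x hx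
    by_cases h : U x
    · rw [if_pos h]; exact hx
    · rw [if_neg h]; exact hU x₀ hx₀
  have e := tr_nu_comap hB hls hτ z (fun x => if U x then x else x₀) hf P (hP.uses hU)
  rw [← e]
  congr 1
  funext σ
  apply hP
  intro x hx
  simp only [if_pos hx]

/-- LOCU: the tree number sees the table only on the labels which the test uses -/
theorem l9z_locu {B : GhB S} (hB : B.Ok) {ls : List (GhLv S ι)} (hls : GhAdm B 0 ls) {q : ℕ} {τ τ' : ℕ → ℕ → ℕ}
    (hτ : IsTr ls.length q τ) (hτ' : IsTr ls.length q τ') (z : S → ℝ) (U : ℕ → Prop) (hU : ∀ x, U x → x < q)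
    (P : (ℕ → S) → ℝ) (hP : L9zUs U P) (h : ∀ x y, U x → U y → τ x y = τ' x y) :
    trNu B ls q τ z P = trNu B ls q τ' z P := by
  classical
  by_cases hne : ∃ x₀, U x₀
  · obtain ⟨x₀, hx₀⟩ := hne
    rw [l9z_collapse hB hls hτ z U hU P hP hx₀, l9z_collapse hB hls hτ' z U hU P hP hx₀]
    apply tr_nu_congr
    intro x y _ _
    apply h
    · by_cases hx : U x
      · rw [if_pos hx]; exact hx
      · rw [if_neg hx]; exact hx₀
    · by_cases hy : U y
      · rw [if_pos hy]; exact hy
      · rw [if_neg hy]; exact hx₀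
  · rw [hP.const hne fun _ => default, l9z_nu_const hB hls, l9z_nu_const hB hls]

/-- CUT: Markov property at a cut shared by the labels which the test uses -/
theorem l9z_cut {B : GhB S} (hB : B.Ok) {ls : List (GhLv S ι)} (hls : GhAdm B 0 ls) {q : ℕ} {τ : ℕ → ℕ → ℕ}
    (hτ : IsTr ls.length q τ) (z : S → ℝ) (U : ℕ → Prop) (hU : ∀ x, U x → x < q) (P : (ℕ → S) → ℝ) (hP : L9zUs U P)
    {v : ℕ} (hv : v ≤ ls.length) (hsh : ∀ x y, U x → U y → v ≤ τ x y) :
    trNu B ls q τ z P = trFld B ls v z fun G => trNu B (ls.drop v) q (fun x y => τ x y - v) G P := by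
  classical
  by_cases hne : ∃ x₀, U x₀
  · obtain ⟨x₀, hx₀⟩ := hne
    have hUf : ∀ x, U (if U x then x else x₀) := by
      intro x
      by_cases hx : U x
      · rw [if_pos hx]; exact hx
      · rw [if_neg hx]; exact hx₀
    have hτf : IsTr ls.length q (fun x y => τ (if U x then x else x₀) (if U y then y else x₀)) :=
      tr_comap_isTr hτ (fun x => if U x then x else x₀) fun x _ => hU _ (hUf x)
    rw [l9z_collapse hB hls hτ z U hU P hP hx₀, tr_nu_cut hB hls hτf z P hv fun x y _ _ => hsh _ _ (hUf x) (hUf y)]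
    congr 1
    funext G
    exact (l9z_collapse hB (l9z_adm_drop hls v) (l9z_drop_isTr hτ hv) G U hU P hP hx₀).symm
  · rw [hP.const hne fun _ => default, l9z_nu_const hB hls]
    simp only [l9z_nu_const hB (l9z_adm_drop hls v)]
    rw [tr_b3_fld_const hB _ ls (hls.ghNn le_rfl)]

/-- INDEP: two groups of used labels which split at the root -/
theorem l9z_indep {B : GhB S} (hB : B.Ok) {ls : List (GhLv S ι)} (hls : GhAdm B 0 ls) {q : ℕ} {τ : ℕ → ℕ → ℕ}
    (hτ : IsTr ls.length q τ) (z : S → ℝ) (U₁ U₂ : ℕ → Prop) (hU₁ : ∀ x, U₁ x → x < q) (hU₂ : ∀ x, U₂ x → x < q)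
    (P Q : (ℕ → S) → ℝ) (hP : L9zUs U₁ P) (hQ : L9zUs U₂ Q) (h0 : ∀ x y, U₁ x → U₂ y → τ x y = 0) :
    trNu B ls q τ z (fun σ => P σ * Q σ) = trNu B ls q τ z P * trNu B ls q τ z Q := by
  refine tr_nu_indep hB hls hτ z (fun x => ∃ y, U₁ y ∧ 1 ≤ τ x y) ?_ P Q ?_ ?_
  · rintro x y hx hy ⟨y', hy', h1⟩ hAy
    by_contra hne
    apply hAy
    refine ⟨y', hy', ?_⟩
    have u := hτ.ultra y x y' hy hx (hU₁ y' hy')
    have s := hτ.symm y x hy hx
    omega
  · intro σ σ' h
    apply hP
    intro x hx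
    refine h x (hU₁ x hx) ⟨x, hx, ?_⟩
    rw [hτ.diag x (hU₁ x hx)]
    omega
  · intro σ σ' h
    apply hQ
    intro x hx
    refine h x (hU₂ x hx) ?_
    rintro ⟨y', hy', h1⟩
    have e := h0 y' x hy' hx
    have s := hτ.symm y' x (hU₁ y' hy') (hU₂ x hx)
    omega

/-! ### SRC: the source rule in one block -/

theorem l9z_ms_drop (B : GhB S) (ls : List (GhLv S ι)) (t j : ℕ) : trMs B (ls.drop t) j = trMs B ls (t + j) := by
  unfold trMs
  rw [List.getElem?_drop]

theorem l9z_att_sub {N q t : ℕ} (T : ℕ → ℕ → ℕ) (y j : ℕ) (ht : t ≤ N) (hj : t ≤ j) :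
    (fun x x' => trAtt N q T y j x x' - t) = trAtt (N - t) q (fun x x' => T x x' - t) y (j - t) := by
  funext x x'
  simp only [trAtt]
  split_ifs <;> omega

theorem l9z_isMin_sub (T : ℕ → ℕ → ℕ) {t l : ℕ} (b : ℕ) (hl : t < l) :
    trIsMin (fun x x' => T x x' - t) (l - t) b ↔ trIsMin T l b := by
  unfold trIsMin
  constructor
  · intro h y hy
    have := h y hy
    beta_reduce at this
    omega
  · intro h y hy
    have := h y hy
    beta_reduce
    omega

theorem l9z_sum_eq_in (ms : ℕ → ℝ) (N q : ℕ) (τ : ℕ → ℕ → ℕ) (x : ℕ) (Φ : (ℕ → ℕ → ℕ) → ℝ) :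
    trSum ms N q τ Φ = l9In ms N q τ 0 x fun j y => Φ (trAtt N q τ y j) := by
  unfold trSum l9In
  rw [Finset.filter_true_of_mem (fun _ _ => Nat.zero_le _)]
  have : Finset.Icc 0 (N + 1) = Finset.range (N + 2) := by
    ext j
    simp only [Finset.mem_Icc, Finset.mem_range]
    omega
  rw [this]

/-- SRC: one block, one more slot -/
theorem l9z_src {B : GhB S} (hB : B.Ok) {ls : List (GhLv S ι)} (hls : GhAdm B 0 ls) {t q : ℕ} (ht : t ≤ ls.length)
    {T : ℕ → ℕ → ℕ} (hT : IsTr ls.length q T) {a : ℕ} (ha : a < q) (P : (ℕ → S) → ℝ)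
    (hP : L9zUs (fun x => x < q ∧ t ≤ T a x) P) (φ G : S → ℝ) :
    l9In (trMs B ls) ls.length q T t a
        (fun j y => trNu B (ls.drop t) (q + 1) (fun x x' => trAtt ls.length q T y j x x' - t) G fun σ => P σ * φ (σ q))
      = l9zD B (ls.drop t) (trPm (trMs B ls) t) φ (fun G' => trNu B (ls.drop t) q (fun x x' => T x x' - t) G' P) G := by
  have hls' : GhAdm B 0 (ls.drop t) := l9z_adm_drop hls t
  have hlen : (ls.drop t).length = ls.length - t := List.length_drop
  have hT'' : IsTr (ls.drop t).length q (fun x x' => T x x' - t) := l9z_drop_isTr hT ht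
  have hUq : ∀ x, (x < q ∧ t ≤ T a x) → x < q := fun x h => h.1
  have hPq : TrUses q P := hP.uses hUq
  set R : (ℕ → S) → ℝ := fun σ => P σ * φ (σ q) with hR
  set T'' : ℕ → ℕ → ℕ := fun x x' => T x x' - t with hT''d
  set ψ : ℕ → ℕ → ℝ := fun j' y => trNu B (ls.drop t) (q + 1) (trAtt (ls.drop t).length q T'' y j') G R with hψ
  have h5 : ∀ j y, t ≤ j → trNu B (ls.drop t) (q + 1) (fun x x' => trAtt ls.length q T y j x x' - t) G R = ψ (j - t) y := by
    intro j y hj
    simp only [hψ]
    rw [l9z_att_sub T y j ht hj, hlen]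
  -- node invariance
  have hinv₂ : ∀ l' b b', l' ≤ (ls.drop t).length + 1 → b < q → b' < q → l' ≤ T'' b b' → ψ l' b = ψ l' b' := by
    intro l' b b' _ hb hb' h
    simp only [hψ]
    apply tr_nu_congr
    intro x y hx hy
    exact l9p_att_congr hT'' hb hb' h hx hy
  have hinv₁ : ∀ l b b', l ≤ ls.length + 1 → b < q → b' < q → l ≤ T b b' → ψ (l - t) b = ψ (l - t) b' := by
    intro l b b' hl hb hb' h
    apply hinv₂ _ _ _ (by rw [hlen]; omega) hb hb'
    simp only [hT''d]
    omega
  -- a node outside the block: the tree number does not see the depth of the attachment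
  have hout : ∀ l' b, 1 ≤ l' → l' ≤ (ls.drop t).length + 1 → b < q → T a b < t → ψ l' b = ψ (l' - 1) b := by
    intro l' b h1 h2 hb hab
    simp only [hψ]
    have hfar : ∀ y, (y < q ∧ t ≤ T a y) → T b y < t ∧ T y b < t := by
      rintro y ⟨hy, hay⟩
      have u := hT.ultra a y b ha hy hb
      have s := hT.symm y b hy hb
      omega
    apply l9z_locu hB hls' (l9p_att_isTr hT'' hb h2) (l9p_att_isTr hT'' hb (by omega)) G
      (fun x => (x < q ∧ t ≤ T a x) ∨ x = q)
    · rintro x (h | h)
      · exact lt_trans h.1 (Nat.lt_succ_self q)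
      · omega
    · intro σ σ' h
      simp only [hR]
      rw [hP σ σ' fun x hx => h x (Or.inl hx), h q (Or.inr rfl)]
    · rintro x y (hx | hx) (hy | hy)
      · rw [l9p_att_old _ q T'' b l' hx.1 hy.1, l9p_att_old _ q T'' b (l' - 1) hx.1 hy.1]
      · have := (hfar x hx).2
        have hxq : x ≠ q := by have := hx.1; omega
        simp only [trAtt, hy, if_neg hxq, if_true, hT''d]
        omega
      · have := (hfar y hy).1
        have hyq : y ≠ q := by have := hy.1; omega
        simp only [trAtt, hx, if_neg hyq, if_true, hT''d]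
        omega
      · simp only [trAtt, hx, hy, if_true]
  -- the two Abel forms
  have A₁ := l9p_abel hT (trMs B ls) (show t ≤ ls.length + 1 by omega) ha (fun j y => ψ (j - t) y) hinv₁
  have A₂ := l9p_abel hT'' (trMs B (ls.drop t)) (Nat.zero_le _) ha ψ hinv₂
  have hM0 : l9M (trMs B (ls.drop t)) (ls.drop t).length 0 = 0 := by simp [l9M, trPm]
  have hMt : l9M (trMs B ls) ls.length t = trPm (trMs B ls) t := by
    unfold l9M; rw [if_pos (by omega)]
  have hsum : ∑ l ∈ Finset.Icc (t + 1) (ls.length + 1), l9M (trMs B ls) ls.length l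
        * l9Ns q T t a l (fun b => ψ (l - t) b - ψ (l - 1 - t) b)
      = ∑ l' ∈ Finset.Icc (0 + 1) ((ls.drop t).length + 1), l9M (trMs B (ls.drop t)) (ls.drop t).length l'
        * l9Ns q T'' 0 a l' (fun b => ψ l' b - ψ (l' - 1) b) := by
    apply Finset.sum_nbij' (fun l => l - t) (fun l' => l' + t)
    · intro l hl
      rw [Finset.mem_Icc] at hl ⊢
      rw [hlen]; omega
    · intro l' hl'
      rw [Finset.mem_Icc] at hl' ⊢
      rw [hlen] at hl'; omega
    · intro l hl
      rw [Finset.mem_Icc] at hl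
      omega
    · intro l' _
      omega
    · intro l hl
      rw [Finset.mem_Icc] at hl
      have hMl : l9M (trMs B ls) ls.length l = l9M (trMs B (ls.drop t)) (ls.drop t).length (l - t) := by
        have e1 : l9M (trMs B ls) ls.length l = trMs B ls (l - 1) := by
          unfold l9M trPm
          rw [if_pos hl.2, if_neg (by omega)]
        have e2 : l9M (trMs B (ls.drop t)) (ls.drop t).length (l - t) = trMs B (ls.drop t) (l - t - 1) := by
          unfold l9M trPm
          rw [if_pos (show l - t ≤ (ls.drop t).length + 1 by rw [hlen]; omega), if_neg (by omega)]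
        rw [e1, e2, l9z_ms_drop]
        congr 1
        omega
      rw [hMl]
      congr 1
      unfold l9Ns
      apply Finset.sum_congr rfl
      intro b hb
      rw [Finset.mem_range] at hb
      rw [show l - 1 - t = l - t - 1 by omega]
      by_cases hmin : trIsMin T l b
      · have hmin' : trIsMin T'' (l - t) b := (l9z_isMin_sub T b (by omega)).2 hmin
        by_cases hblk : t ≤ T a b
        · rw [if_pos ⟨hblk, hmin⟩, if_pos ⟨Nat.zero_le _, hmin'⟩]
        · rw [if_neg (fun h => hblk h.1), if_pos ⟨Nat.zero_le _, hmin'⟩]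
          beta_reduce
          rw [hout (l - t) b (by omega) (by rw [hlen]; omega) hb (not_le.1 hblk), sub_self]
      · have hmin' : ¬ trIsMin T'' (l - t) b := fun h => hmin ((l9z_isMin_sub T b (by omega)).1 h)
        rw [if_neg (fun h => hmin h.2), if_neg (fun h => hmin' h.2)]
  -- the derivative
  have hder := (tr_src_deriv hB hls' hT'' G φ P hPq).deriv
  rw [l9z_sum_eq_in _ _ _ _ a] at hder
  -- the attachment at the root of the block
  have hτ₁ : IsTr (ls.drop t).length (q + 1) (trAtt (ls.drop t).length q T'' a 0) := l9p_att_isTr hT'' ha (Nat.zero_le _)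
  have hroot : ψ 0 a = trNu B (ls.drop t) q T'' G P * ghE B (ls.drop t) φ G := by
    simp only [hψ, hR]
    rw [l9z_indep hB hls' hτ₁ G (fun x => x < q ∧ t ≤ T a x) (fun x => x = q)
      (fun x h => lt_trans h.1 (Nat.lt_succ_self q)) (fun x h => by omega) P (fun σ => φ (σ q)) hP
      (fun σ σ' h => by beta_reduce; rw [h q rfl])
      (by
        rintro x y hx rfl
        have hxq : x ≠ y := by have := hx.1; omega
        simp [trAtt, hxq])]
    congr 1
    · rw [tr_nu_prune hB hls' hτ₁ G hPq]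
      apply tr_nu_congr
      intro x y hx hy
      exact l9p_att_old _ q T'' a 0 hx hy
    · have e := tr_nu_comap hB hls' hτ₁ G (fun _ => q) (fun _ _ => Nat.lt_succ_self q) (fun σ => φ (σ 0))
        (fun σ σ' h => by beta_reduce; rw [h 0 Nat.one_pos])
      rw [tr_nu_one_leaf hB hls'] at e
      exact e
  rw [l9p_in_congr (trMs B ls) ls.length q T t a (φ' := fun j y => ψ (j - t) y) (fun j y hj _ _ _ => h5 j y hj), A₁, hsum, hMt]
  unfold l9zD
  rw [hder, A₂, hM0, Nat.sub_self, hroot]
  ring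

/-! ### regularity, linearity -/

theorem l9z_nu_reg {B : GhB S} (hB : B.Ok) (ls : List (GhLv S ι)) (q : ℕ) (τ : ℕ → ℕ → ℕ) (P : (ℕ → S) → ℝ) :
    L9zReg fun G => trNu B ls q τ G P := by
  intro k
  have h := nuS_bRegN hB ls (fun σ : Fin q → S => P (trExt σ)) k (fun t => trRep q τ t)
  exact BRegN.comp_clm (ContinuousLinearMap.pi fun _ : Fin q => ContinuousLinearMap.id ℝ (S → ℝ)) k h

theorem l9z_reg_const (c : ℝ) : L9zReg (fun _ : S → ℝ => c) := fun k => bRegN_const k c

theorem l9z_fld_succ {B : GhB S} (hB : B.Ok) (l : GhLv S ι) (ls : List (GhLv S ι)) (t : ℕ) (f : (S → ℝ) → ℝ) :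
    (fun z => trFld B (l :: ls) (t + 1) z f) = tstE (ghStd ι) l.inc l.m (ghF B ls) (fun z => trFld B ls t z f) := by
  funext z
  rw [tstE_eq_density (ghq_noise l) (ghF_regF hB ls), ← ghF_cons]
  simp [trFld, ghD]

theorem l9z_fld_reg {B : GhB S} (hB : B.Ok) {k : ℕ} {f : (S → ℝ) → ℝ} (hf : BRegN k f) :
    ∀ (ls : List (GhLv S ι)) (t : ℕ), BRegN k fun z => trFld B ls t z f
  | [], t => by simpa [trFld] using hf
  | _ :: _, 0 => by simpa [trFld] using hf
  | l :: ls, t + 1 => by
      rw [l9z_fld_succ hB]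
      exact tstE_bRegN (ghq_noise l) (ghF_regF hB ls) l.m k (l9z_fld_reg hB hf ls t)

theorem l9z_fld_sum {B : GhB S} (hB : B.Ok) {κ : Type} (I : Finset κ) (w : κ → ℝ) (g : κ → (S → ℝ) → ℝ)
    (hg : ∀ i ∈ I, BRegN 0 (g i)) : ∀ (ls : List (GhLv S ι)) (t : ℕ) (z : S → ℝ),
    trFld B ls t z (fun G => ∑ i ∈ I, w i * g i G) = ∑ i ∈ I, w i * trFld B ls t z (g i)
  | [], t, z => by simp [trFld]
  | _ :: _, 0, z => by simp [trFld]
  | l :: ls, t + 1, z => by
      have e1 := congrFun (l9z_fld_succ hB l ls t fun G => ∑ i ∈ I, w i * g i G) z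
      have e2 : ∀ i, trFld B (l :: ls) (t + 1) z (g i)
          = tstE (ghStd ι) l.inc l.m (ghF B ls) (fun z => trFld B ls t z (g i)) z := fun i =>
        congrFun (l9z_fld_succ hB l ls t (g i)) z
      beta_reduce at e1
      rw [e1]
      have e3 : (fun z => trFld B ls t z fun G => ∑ i ∈ I, w i * g i G)
          = fun z => ∑ i ∈ I, w i • trFld B ls t z (g i) := by
        funext z'
        rw [l9z_fld_sum hB I w g hg ls t z']
        simp only [smul_eq_mul]
      rw [e3, tstE_sum (ghq_noise l) (ghF_regF hB ls) I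
        (fun i hi => (l9z_fld_reg hB (hg i hi) ls t).const_smul (w i))]
      apply Finset.sum_congr rfl
      intro i _
      rw [tstE_smul, e2, smul_eq_mul]

theorem l9z_W_reg {B : GhB S} (hB : B.Ok) (ls : List (GhLv S ι)) (t : ℕ) {k : ℕ} {f : ℕ → (S → ℝ) → ℝ} (hf : ∀ A, BRegN k (f A)) :
    ∀ (s : L9Bt) (u : ℕ), BRegN k fun z => l9zW B ls t f s u z
  | .leaf A, u => by
      simp only [l9zW]
      exact l9z_fld_reg hB (hf A) _ _
  | .fork d l r, u => by
      simp only [l9zW]
      exact l9z_fld_reg hB ((l9z_W_reg hB ls t hf l d).mul (l9z_W_reg hB ls t hf r d)) _ _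

theorem l9z_W_congr (B : GhB S) (ls : List (GhLv S ι)) (t : ℕ) {f f' : ℕ → (S → ℝ) → ℝ} :
    ∀ (s : L9Bt), (∀ A ∈ s.labs, f A = f' A) → ∀ (u : ℕ) (z : S → ℝ), l9zW B ls t f s u z = l9zW B ls t f' s u z
  | .leaf A, h, u, z => by
      simp only [l9zW]
      rw [h A (by simp [L9Bt.labs])]
  | .fork d l r, h, u, z => by
      simp only [l9zW]
      congr 1
      funext G
      rw [l9z_W_congr B ls t l (fun A hA => h A (by simp [L9Bt.labs, hA])) d G,
        l9z_W_congr B ls t r (fun A hA => h A (by simp [L9Bt.labs, hA])) d G]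

/-- LIN: `l9zW` is linear in the function of one leaf -/
theorem l9z_W_sum {B : GhB S} (hB : B.Ok) (ls : List (GhLv S ι)) (t : ℕ) {κ : Type} (I : Finset κ) (w : κ → ℝ)
    (g : κ → (S → ℝ) → ℝ) (hg : ∀ i ∈ I, BRegN 0 (g i)) (f : ℕ → (S → ℝ) → ℝ) (hf : ∀ A, BRegN 0 (f A)) (a : ℕ)
    (sk : ℕ → ℕ → ℕ) : ∀ (s : L9Bt), s.Cd sk t → a ∈ s.labs → ∀ (u : ℕ) (z : S → ℝ),
    l9zW B ls t (Function.update f a fun G => ∑ i ∈ I, w i * g i G) s u z
      = ∑ i ∈ I, w i * l9zW B ls t (Function.update f a (g i)) s u z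
  | .leaf A, _, ha, u, z => by
      have hA : a = A := by simpa [L9Bt.labs] using ha
      subst hA
      simp only [l9zW, Function.update_self]
      exact l9z_fld_sum hB I w g hg _ _ _
  | .fork d l r, hs, ha, u, z => by
      obtain ⟨_, hdis, _, hl, hr⟩ := hs
      have hreg : ∀ i ∈ I, ∀ A, BRegN 0 (Function.update f a (g i) A) := by
        intro i hi A
        by_cases hA : A = a
        · subst hA; rw [Function.update_self]; exact hg i hi
        · rw [Function.update_of_ne hA]; exact hf A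
      simp only [l9zW]
      rw [L9Bt.labs, Finset.mem_union] at ha
      rcases ha with ha | ha
      · have har : a ∉ r.labs := fun h => (Finset.disjoint_left.1 hdis) ha h
        have hrc : ∀ (φ' : (S → ℝ) → ℝ) (G : S → ℝ), l9zW B ls t (Function.update f a φ') r d G = l9zW B ls t f r d G := by
          intro φ' G
          apply l9z_W_congr
          intro A hA
          rw [Function.update_of_ne (fun h : A = a => har (h ▸ hA))]
        have e : (fun G => l9zW B ls t (Function.update f a fun G => ∑ i ∈ I, w i * g i G) l d G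
              * l9zW B ls t (Function.update f a fun G => ∑ i ∈ I, w i * g i G) r d G)
            = fun G => ∑ i ∈ I, w i * (l9zW B ls t (Function.update f a (g i)) l d G * l9zW B ls t f r d G) := by
          funext G
          rw [l9z_W_sum hB ls t I w g hg f hf a sk l hl ha d G, hrc, Finset.sum_mul]
          apply Finset.sum_congr rfl
          intro i _
          ring
        rw [e, l9z_fld_sum hB I w _ (fun i hi => (l9z_W_reg hB ls t (hreg i hi) l d).mul (l9z_W_reg hB ls t hf r d))]
        apply Finset.sum_congr rfl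
        intro i _
        simp only [hrc]
      · have hal : a ∉ l.labs := fun h => (Finset.disjoint_left.1 hdis) h ha
        have hlc : ∀ (φ' : (S → ℝ) → ℝ) (G : S → ℝ), l9zW B ls t (Function.update f a φ') l d G = l9zW B ls t f l d G := by
          intro φ' G
          apply l9z_W_congr
          intro A hA
          rw [Function.update_of_ne (fun h : A = a => hal (h ▸ hA))]
        have e : (fun G => l9zW B ls t (Function.update f a fun G => ∑ i ∈ I, w i * g i G) l d G
              * l9zW B ls t (Function.update f a fun G => ∑ i ∈ I, w i * g i G) r d G)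
            = fun G => ∑ i ∈ I, w i * (l9zW B ls t f l d G * l9zW B ls t (Function.update f a (g i)) r d G) := by
          funext G
          rw [l9z_W_sum hB ls t I w g hg f hf a sk r hr ha d G, hlc, Finset.mul_sum]
          apply Finset.sum_congr rfl
          intro i _
          ring
        rw [e, l9z_fld_sum hB I w _ (fun i hi => (l9z_W_reg hB ls t hf l d).mul (l9z_W_reg hB ls t (hreg i hi) r d))]
        apply Finset.sum_congr rfl
        intro i _
        simp only [hlc]

/-! ### MARKOV at the cut (helper26) -/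

theorem l9z_labs_nonempty : ∀ s : L9Bt, s.labs.Nonempty
  | .leaf A => ⟨A, by simp [L9Bt.labs]⟩
  | .fork _ l _ => by
      obtain ⟨A, hA⟩ := l9z_labs_nonempty l
      exact ⟨A, by simp [L9Bt.labs, hA]⟩

/-- `Cd` sees the table on the leaves only -/
theorem l9z_Cd_congr {sk sk' : ℕ → ℕ → ℕ} {t : ℕ} : ∀ s : L9Bt, (∀ A ∈ s.labs, ∀ A' ∈ s.labs, sk A A' = sk' A A') → s.Cd sk t → s.Cd sk' t
  | .leaf _, _, _ => trivial
  | .fork d l r, h, hs => by
      obtain ⟨h1, h2, h3, h4, h5⟩ := hs
      refine ⟨h1, h2, fun A hA A' hA' => ?_, l9z_Cd_congr l (fun A hA A' hA' => ?_) h4, l9z_Cd_congr r (fun A hA A' hA' => ?_) h5⟩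
      · rw [← h A (by simp [L9Bt.labs, hA]) A' (by simp [L9Bt.labs, hA']), h3 A hA A' hA']
      · exact h A (by simp [L9Bt.labs, hA]) A' (by simp [L9Bt.labs, hA'])
      · exact h A (by simp [L9Bt.labs, hA]) A' (by simp [L9Bt.labs, hA'])

theorem l9z_us_prod {κ : Type} (I : Finset κ) (U : κ → ℕ → Prop) (P : κ → (ℕ → S) → ℝ) (hP : ∀ A ∈ I, L9zUs (U A) (P A)) :
    L9zUs (fun x => ∃ A ∈ I, U A x) (fun σ => ∏ A ∈ I, P A σ) := by
  intro σ σ' h
  exact Finset.prod_congr rfl fun A hA => hP A hA σ σ' fun x hx => h x ⟨A, hA, hx⟩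

/-- MARKOV: a fixed table, tests which live in the blocks of depth `t` of the leaves of the skeleton -/
theorem l9z_markov {B : GhB S} (hB : B.Ok) {ls : List (GhLv S ι)} (hls : GhAdm B 0 ls) {t q : ℕ} (ht : t ≤ ls.length)
    {T : ℕ → ℕ → ℕ} (hT : IsTr ls.length q T) (P : ℕ → (ℕ → S) → ℝ)
    (hP : ∀ A, L9zUs (fun x => x < q ∧ t ≤ T A x) (P A)) :
    ∀ s : L9Bt, s.Cd T t → (∀ A ∈ s.labs, A < q) → ∀ u, u ≤ t → (∀ A ∈ s.labs, ∀ A' ∈ s.labs, u ≤ T A A') → ∀ G : S → ℝ,
      trNu B (ls.drop u) q (fun x y => T x y - u) G (fun σ => ∏ A ∈ s.labs, P A σ)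
        = l9zW B ls t (fun A G' => trNu B (ls.drop t) q (fun x y => T x y - t) G' (P A)) s u G
  | .leaf A, _, hq, u, hu, _, G => by
      have hA : A < q := hq A (by simp [L9Bt.labs])
      have huN : u ≤ ls.length := hu.trans ht
      have hlen : (ls.drop u).length = ls.length - u := List.length_drop
      have hT' : IsTr (ls.drop u).length q fun x y => T x y - u := by rw [hlen]; exact l9z_sub_isTr hT huN
      simp only [L9Bt.labs, Finset.prod_singleton, l9zW]
      rw [l9z_cut hB (l9z_adm_drop hls u) hT' G (fun x => x < q ∧ t ≤ T A x) (fun x hx => hx.1) (P A) (hP A) (v := t - u)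
        (by rw [hlen]; omega) ?_]
      · congr 1
        funext G'
        rw [List.drop_drop, show u + (t - u) = t by omega]
        congr 1
        funext x y
        omega
      · intro x y hx hy
        have h1 := hT.ultra x A y hx.1 hA hy.1
        rw [hT.symm x A hx.1 hA] at h1
        have h2 := le_min hx.2 hy.2
        omega
  | .fork d l r, hs, hq, u, hu, hsh, G => by
      obtain ⟨hdt, hdis, hcr, hl, hr⟩ := hs
      have hql : ∀ A ∈ l.labs, A < q := fun A hA => hq A (by simp [L9Bt.labs, hA])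
      have hqr : ∀ A ∈ r.labs, A < q := fun A hA => hq A (by simp [L9Bt.labs, hA])
      obtain ⟨A₀, hA₀⟩ := l9z_labs_nonempty l
      obtain ⟨C₀, hC₀⟩ := l9z_labs_nonempty r
      have hud : u ≤ d := by
        have := hsh A₀ (by simp [L9Bt.labs, hA₀]) C₀ (by simp [L9Bt.labs, hC₀])
        rwa [hcr A₀ hA₀ C₀ hC₀] at this
      have hdN : d ≤ ls.length := hdt.le.trans ht
      have huN : u ≤ ls.length := hud.trans hdN
      -- pairs of leaves share at least `d` stages
      have hll : ∀ A ∈ l.labs, ∀ A' ∈ l.labs, d ≤ T A A' := by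
        intro A hA A' hA'
        have h1 := hT.ultra A C₀ A' (hql A hA) (hqr C₀ hC₀) (hql A' hA')
        rw [hcr A hA C₀ hC₀, hT.symm C₀ A' (hqr C₀ hC₀) (hql A' hA'), hcr A' hA' C₀ hC₀] at h1
        simpa using h1
      have hrr : ∀ C ∈ r.labs, ∀ C' ∈ r.labs, d ≤ T C C' := by
        intro C hC C' hC'
        have h1 := hT.ultra C A₀ C' (hqr C hC) (hql A₀ hA₀) (hqr C' hC')
        rw [hT.symm C A₀ (hqr C hC) (hql A₀ hA₀), hcr A₀ hA₀ C hC, hcr A₀ hA₀ C' hC'] at h1
        simpa using h1
      have hall : ∀ A ∈ (L9Bt.fork d l r).labs, ∀ A' ∈ (L9Bt.fork d l r).labs, d ≤ T A A' := by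
        intro A hA A' hA'
        simp only [L9Bt.labs, Finset.mem_union] at hA hA'
        rcases hA with hA | hA <;> rcases hA' with hA' | hA'
        · exact hll A hA A' hA'
        · exact (hcr A hA A' hA').ge
        · rw [hT.symm A A' (hqr A hA) (hql A' hA')]; exact (hcr A' hA' A hA).ge
        · exact hrr A hA A' hA'
      -- two labels in blocks
      have hblk : ∀ A A' x y, A < q → A' < q → x < q → y < q → t ≤ T A x → t ≤ T A' y → min t (T A A') ≤ T x y := by
        intro A A' x y hA hA' hx hy h1 h2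
        have e1 := hT.ultra x A y hx hA hy
        have e2 := hT.ultra A A' y hA hA' hy
        rw [hT.symm x A hx hA] at e1
        omega
      have hlenu : (ls.drop u).length = ls.length - u := List.length_drop
      have hlend : (ls.drop d).length = ls.length - d := List.length_drop
      have hTu : IsTr (ls.drop u).length q fun x y => T x y - u := by rw [hlenu]; exact l9z_sub_isTr hT huN
      have hTd : IsTr (ls.drop d).length q fun x y => T x y - d := by rw [hlend]; exact l9z_sub_isTr hT hdN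
      have hUs := l9z_us_prod (L9Bt.fork d l r).labs (fun A x => x < q ∧ t ≤ T A x) P (fun A _ => hP A)
      rw [l9z_cut hB (l9z_adm_drop hls u) hTu G _ (fun x hx => by obtain ⟨_, _, h, _⟩ := hx; exact h) _ hUs (v := d - u)
        (by rw [hlenu]; omega) ?_]
      · simp only [l9zW]
        congr 1
        funext G'
        rw [List.drop_drop, show u + (d - u) = d by omega]
        have e1 : (fun x y => T x y - u - (d - u)) = fun x y => T x y - d := by
          funext x y; omega
        have e2 : (fun σ : ℕ → S => ∏ A ∈ (L9Bt.fork d l r).labs, P A σ)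
            = fun σ => (∏ A ∈ l.labs, P A σ) * ∏ A ∈ r.labs, P A σ := by
          funext σ
          simp only [L9Bt.labs]
          exact Finset.prod_union hdis
        rw [e1, e2, l9z_indep hB (l9z_adm_drop hls d) hTd G' _ _
          (fun x hx => by obtain ⟨_, _, h, _⟩ := hx; exact h) (fun x hx => by obtain ⟨_, _, h, _⟩ := hx; exact h) _ _
          (l9z_us_prod l.labs (fun A x => x < q ∧ t ≤ T A x) P (fun A _ => hP A))
          (l9z_us_prod r.labs (fun A x => x < q ∧ t ≤ T A x) P (fun A _ => hP A)) ?_,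
          l9z_markov hB hls ht hT P hP l hl hql d hdt.le hll G', l9z_markov hB hls ht hT P hP r hr hqr d hdt.le hrr G']
        rintro x y ⟨A, hA, hx, hxA⟩ ⟨C, hC, hy, hyC⟩
        have h1 := hblk x y A C hx hy (hql A hA) (hqr C hC) (by rw [hT.symm x A hx (hql A hA)]; exact hxA)
          (by rw [hT.symm y C hy (hqr C hC)]; exact hyC)
        rw [hcr A hA C hC] at h1
        omega
      · rintro x y ⟨A, hA, hx, hxA⟩ ⟨A', hA', hy, hyA'⟩
        have h1 := hblk A A' x y (hq A hA) (hq A' hA') hx hy hxA hyA'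
        have h2 := hall A hA A' hA'
        omega

/- **KEY, abstract form** `l9z_key`: PROVED in `L09/KeyB.lean` (helper98: LIN, main induction on the anchors; helper255: regularity), from CUT, INDEP, SRC above.   IMPORT `L09/KeyB`. -/

end

end Claimed.Agent.R286
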