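import Claimed.Agent.R286.L09.ModReg
import Claimed.Agent.R286.L09.Calc

/-!
# Row 286 (S0533), LL 09, MODEL 1 of `L14Calc` (ONE scalar reference)      OWNER helper288

* `L9mRef` : the data of one scalar reference near mass `0`, in LABEL time `u`: clock speed `kap`, drift mass `mu`, jets `g j u`,
  transition operators `T u v` on `L9mF = C_b^∞`.
* `L9mRef.L u = kap u (½ ∂_zz + mu u g₁(u) ∂_z)`,   `L9mRef.Gen c0 a b f h := 0 ≤ a ≤ b ≤ c0 ∧ L9mReg a b f (h - L f)`.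
* `L9mRef.Ok c0 eps Cn` : what a reference must satisfy (INSTANCE: the filled step model on `Sc/`, `L09/ModSc.lean`).
* `l9mMod1 : L14Calc (l9mBd1 ..) ℝ L9mF`: all data fields are definitional (`T = R.T`, `g = R.g`, `ev = value at 0`, ..).
Model 2 (`L09/Mod2.lean`) uses only `Ok` of the two references.
-/

set_option autoImplicit false

namespace Claimed.Agent.R286

open MeasureTheory Set

/-- the data of one scalar reference near mass `0`, in label time -/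
structure L9mRef where
  /-- clock speed -/
  kap : ℝ → ℝ
  /-- drift mass -/
  mu : ℝ → ℝ
  /-- jets `∂_z^j G(u, ·)`, `j ≥ 1` -/
  g : ℕ → ℝ → L9mF
  /-- transition operators -/
  T : ℝ → ℝ → L9mF → L9mF

namespace L9mRef

variable (R : L9mRef)

/-- the generator `L_u = kap u (½ ∂_zz + mu u g₁(u) ∂_z)` -/
noncomputable def L (u : ℝ) (φ : L9mF) : L9mF :=
  l9mCst (R.kap u) * (l9mCst (1 / 2) * l9mD (l9mD φ) + l9mCst (R.mu u) * (R.g 1 u * l9mD φ))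

/-- `(∂_u + L_u) f = h` on `[a,b] ⊆ [0,c0]`, `f` regular -/
def Gen (c0 a b : ℝ) (f h : ℝ → L9mF) : Prop :=
  0 ≤ a ∧ a ≤ b ∧ b ≤ c0 ∧ L9mReg a b (fun u => (f u).1) (fun u => (h u - R.L u (f u)).1)

theorem L_coe (u : ℝ) (φ : L9mF) : (R.L u φ).1 =
    fun z => R.kap u * (1 / 2 * deriv (deriv φ.1) z + R.mu u * ((R.g 1 u).1 z * deriv φ.1 z)) := rfl

theorem L_add (u : ℝ) (φ ψ : L9mF) : R.L u (φ + ψ) = R.L u φ + R.L u ψ := by
  simp only [L, l9mD_add]; ring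

theorem l9mD_zero' : l9mD 0 = 0 := by simpa using l9mD_cst 0

theorem L_cst (u x : ℝ) : R.L u (l9mCst x) = 0 := by
  simp only [L, l9mD_cst, l9mD_zero']; ring

theorem L_mul (u : ℝ) (φ ψ : L9mF) :
    R.L u (φ * ψ) = φ * R.L u ψ + R.L u φ * ψ + l9mCst (R.kap u) * (l9mD φ * l9mD ψ) := by
  have h2 : l9mCst (1 / 2) + l9mCst (1 / 2) = 1 := by
    rw [← map_add]; norm_num
  simp only [L, l9mD_mul, l9mD_add]
  linear_combination (l9mCst (R.kap u) * l9mD φ * l9mD ψ) * h2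

theorem D_L {u : ℝ} (hg : l9mD (R.g 1 u) = R.g 2 u) (φ : L9mF) :
    l9mD (R.L u φ) = R.L u (l9mD φ) + l9mCst (R.mu u * R.kap u) * (R.g 2 u * l9mD φ) := by
  simp only [L, l9mD_mul, l9mD_add, l9mD_cst, hg, map_mul]; ring

variable {R}

theorem gen_of {c0 a b : ℝ} {f h : ℝ → L9mF} {F Ft : ℝ → ℝ → ℝ} (h0 : 0 ≤ a) (hab : a ≤ b) (hb : b ≤ c0)
    (hr : L9mReg a b F Ft) (e1 : ∀ u, (f u).1 = F u) (e2 : ∀ u, (h u - R.L u (f u)).1 = Ft u) : R.Gen c0 a b f h := by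
  refine ⟨h0, hab, hb, ?_⟩
  have e1' : (fun u => (f u).1) = F := funext e1
  have e2' : (fun u => (h u - R.L u (f u)).1) = Ft := funext e2
  rw [e1', e2']; exact hr

theorem Gen.sub {c0 a b a' b' : ℝ} {f h : ℝ → L9mF} (H : R.Gen c0 a b f h) (ha : a ≤ a') (hab : a' ≤ b') (hb : b' ≤ b) :
    R.Gen c0 a' b' f h :=
  ⟨H.1.trans ha, hab, hb.trans H.2.2.1, H.2.2.2.subset ha hb⟩

theorem Gen.add {c0 a b : ℝ} {f h f' h' : ℝ → L9mF} (H : R.Gen c0 a b f h) (H' : R.Gen c0 a b f' h') :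
    R.Gen c0 a b (fun u => f u + f' u) (fun u => h u + h' u) :=
  gen_of H.1 H.2.1 H.2.2.1 (H.2.2.2.add H'.2.2.2) (fun _ => rfl) fun u =>
    congrArg Subtype.val (show h u + h' u - R.L u (f u + f' u) = (h u - R.L u (f u)) + (h' u - R.L u (f' u)) by
      rw [L_add]; ring)

theorem Gen.mul {c0 a b : ℝ} {f h f' h' : ℝ → L9mF} (H : R.Gen c0 a b f h) (H' : R.Gen c0 a b f' h') :
    R.Gen c0 a b (fun u => f u * f' u)
      (fun u => f u * h' u + h u * f' u + l9mCst (R.kap u) * (l9mD (f u) * l9mD (f' u))) :=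
  gen_of H.1 H.2.1 H.2.2.1 (H.2.2.2.mul H'.2.2.2) (fun _ => rfl) fun u =>
    congrArg Subtype.val (show f u * h' u + h u * f' u + l9mCst (R.kap u) * (l9mD (f u) * l9mD (f' u))
        - R.L u (f u * f' u) = (h u - R.L u (f u)) * f' u + f u * (h' u - R.L u (f' u)) by
      rw [L_mul]; ring)

theorem gen_cst {c0 a b : ℝ} (x : ℝ) (h0 : 0 ≤ a) (hab : a ≤ b) (hb : b ≤ c0) :
    R.Gen c0 a b (fun _ => l9mCst x) (fun _ => 0) :=
  gen_of h0 hab hb (l9m_reg_fixed a b (φ := fun _ => x) fun n => ScE.const n x) (fun _ => rfl) fun u =>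
    congrArg Subtype.val (show (0 : L9mF) - R.L u (l9mCst x) = 0 by rw [L_cst]; ring)

theorem gen_time {c0 a b : ℝ} (h0 : 0 ≤ a) (hab : a ≤ b) (hb : b ≤ c0) :
    R.Gen c0 a b (fun u => l9mCst u) (fun _ => 1) :=
  gen_of h0 hab hb (l9m_reg_id a b) (fun _ => rfl) fun u =>
    congrArg Subtype.val (show (1 : L9mF) - R.L u (l9mCst u) = 1 by rw [L_cst]; ring)

theorem Gen.D {c0 a b : ℝ} {f h : ℝ → L9mF} (hg : ∀ u, l9mD (R.g 1 u) = R.g 2 u) (H : R.Gen c0 a b f h) :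
    R.Gen c0 a b (fun u => l9mD (f u))
      (fun u => l9mD (h u) - l9mCst (R.mu u * R.kap u) * (R.g 2 u * l9mD (f u))) :=
  gen_of H.1 H.2.1 H.2.2.1 H.2.2.2.D (fun _ => rfl) fun u =>
    congrArg Subtype.val (show l9mD (h u) - l9mCst (R.mu u * R.kap u) * (R.g 2 u * l9mD (f u)) - R.L u (l9mD (f u))
        = l9mD (h u - R.L u (f u)) by
      have e : h u - R.L u (f u) = h u + l9mCst (-1) * R.L u (f u) := by
        have : l9mCst (-1) = -1 := by rw [map_neg, map_one]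
        rw [this]; ring
      have e1 : l9mCst (-1) = -1 := by rw [map_neg, map_one]
      rw [e, l9mD_add, l9mD_mul, l9mD_cst, D_L R (hg u), e1]; ring)

variable (R)

/-- what a reference must satisfy.   `Cn n` = constants of order `n` -/
structure Ok (c0 eps : ℝ) (Cn : ℕ → ℝ) : Prop where
  c0_pos : 0 < c0
  c0_le : c0 ≤ 1
  eps_nonneg : 0 ≤ eps
  eps_le : eps ≤ 1
  Cn_ge : ∀ n, 1 ≤ Cn n
  Cn_mono : Monotone Cn
  mu_ge : ∀ u, 0 ≤ u → u ≤ c0 → u ≤ R.mu u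
  mu_le : ∀ u, 0 ≤ u → u ≤ c0 → R.mu u ≤ u + eps
  mu_tp : L9mTP 0 c0 0 (fun u _ => R.mu u)
  kap_tp : L9mTP 0 c0 0 (fun u _ => R.kap u)
  kap_bd : ∀ u, 0 ≤ u → u ≤ c0 → |R.kap u| ≤ Cn 0
  kap_lip : ∀ u, 0 ≤ u → u ≤ c0 → |R.kap u - R.kap 0| ≤ Cn 0 * (u + eps)
  g_D : ∀ j u, 1 ≤ j → l9mD (R.g j u) = R.g (j + 1) u
  g_N : ∀ j n u, 1 ≤ j → 0 ≤ u → u ≤ c0 → ScN n (Cn (j + n)) (R.g j u).1
  g_sg : ∀ j u, l9mSg (R.g j u) = l9mCst ((-1) ^ j) * R.g j u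
  /-- lower bound of `χ = G_zz(0,0)` -/
  chi : 1 ≤ Cn 0 * ((R.g 2 0).1 0) ^ 2
  T_add : ∀ u v φ ψ, R.T u v (φ + ψ) = R.T u v φ + R.T u v ψ
  T_cst_mul : ∀ u v x φ, R.T u v (l9mCst x * φ) = l9mCst x * R.T u v φ
  T_one : ∀ u v, R.T u v 1 = 1
  T_refl : ∀ u φ, R.T u u φ = φ
  T_comp : ∀ u v w φ, 0 ≤ u → u ≤ v → v ≤ w → w ≤ c0 → R.T u v (R.T v w φ) = R.T u w φ
  T_sg : ∀ u v φ, l9mSg (R.T u v φ) = R.T u v (l9mSg φ)
  T_N : ∀ (n : ℕ) (M : ℝ) (φ : L9mF) (u v : ℝ), 0 ≤ u → u ≤ v → v ≤ c0 → ScN n M φ.1 → ScN n (Cn n * M) (R.T u v φ).1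
  T_tp : ∀ (a b : ℝ) (n : ℕ) (H : ℝ → L9mF), 0 ≤ a → a ≤ b → b ≤ c0 → L9mTP a b n (fun r => (H r).1) →
    L9mTP a b n (fun r => (R.T a r (H r)).1)
  reg_g1 : L9mReg 0 c0 (fun u => (R.g 1 u).1) (fun u => (- R.L u (R.g 1 u)).1)
  reg_back : ∀ (b : ℝ) (φ : L9mF), 0 ≤ b → b ≤ c0 →
    L9mReg 0 b (fun u => (R.T u b φ).1) (fun u => (- R.L u (R.T u b φ)).1)
  /-- the Dynkin formula in label time -/
  dyn : ∀ (a b : ℝ) (f h : ℝ → L9mF), R.Gen c0 a b f h → ∀ z,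
    (R.T a b (f b)).1 z - (f a).1 z = ∫ r in a..b, (R.T a r (h r)).1 z

variable {R}

namespace Ok

variable {c0 eps : ℝ} {Cn : ℕ → ℝ}

theorem Cn_pos (hR : R.Ok c0 eps Cn) (n : ℕ) : 0 < Cn n := lt_of_lt_of_le one_pos (hR.Cn_ge n)

theorem gen_g1 (hR : R.Ok c0 eps Cn) {a b : ℝ} (h0 : 0 ≤ a) (hab : a ≤ b) (hb : b ≤ c0) :
    R.Gen c0 a b (R.g 1) (fun _ => 0) :=
  gen_of h0 hab hb (hR.reg_g1.subset h0 hb) (fun _ => rfl) fun u =>
    congrArg Subtype.val (show (0 : L9mF) - R.L u (R.g 1 u) = - R.L u (R.g 1 u) by ring)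

theorem gen_back (hR : R.Ok c0 eps Cn) {a b : ℝ} (φ : L9mF) (h0 : 0 ≤ a) (hab : a ≤ b) (hb : b ≤ c0) :
    R.Gen c0 a b (fun u => R.T u b φ) (fun _ => 0) :=
  gen_of h0 hab hb ((hR.reg_back b φ (h0.trans hab) hb).subset h0 le_rfl) (fun _ => rfl) fun u =>
    congrArg Subtype.val (show (0 : L9mF) - R.L u (R.T u b φ) = - R.L u (R.T u b φ) by ring)

/-- `L_u f(u)` is piecewise regular -/
theorem L_tp (hR : R.Ok c0 eps Cn) {a b : ℝ} (h0 : 0 ≤ a) (hb : b ≤ c0) {f : ℝ → L9mF}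
    (hf : ∀ n, ScT (Icc a b) n (fun u => (f u).1)) (n : ℕ) : L9mTP a b n (fun u => (R.L u (f u)).1) := by
  have h1 : L9mTP a b n (fun u _ => R.kap u) := (hR.kap_tp.time n).subset h0 hb
  have h2 : L9mTP a b n (fun u _ => R.mu u) := (hR.mu_tp.time n).subset h0 hb
  have h3 : L9mTP a b n (fun u => (R.g 1 u).1) := L9mTP.of_T ((hR.reg_g1.reg n).subset (Icc_subset_Icc h0 hb))
  have h4 : L9mTP a b n (fun u => deriv (f u).1) := L9mTP.of_T (hf (n + 1)).2.2.2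
  have h5 : L9mTP a b n (fun u => deriv (deriv (f u).1)) := L9mTP.of_T (hf (n + 2)).2.2.2.2.2.2
  exact h1.mul ((h5.const_mul (1 / 2)).add (h2.mul (h3.mul h4)))

/-- the right side of `Gen` is piecewise regular -/
theorem h_tp (hR : R.Ok c0 eps Cn) {a b : ℝ} {f h : ℝ → L9mF} (H : R.Gen c0 a b f h) (n : ℕ) :
    L9mTP a b n (fun u => (h u).1) := by
  have h1 := (H.2.2.2.gen n).add (hR.L_tp H.1 H.2.2.1 H.2.2.2.reg n)
  refine h1.congr fun r _ => ?_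
  funext z
  simp

theorem dyn_fun (hR : R.Ok c0 eps Cn) {a b : ℝ} {f h : ℝ → L9mF} (H : R.Gen c0 a b f h) :
    (R.T a b (f b) - f a).1 = fun z => ∫ r in a..b, (R.T a r (h r)).1 z :=
  funext fun z => hR.dyn a b f h H z

theorem dyn_tp (hR : R.Ok c0 eps Cn) {a b : ℝ} {f h : ℝ → L9mF} (H : R.Gen c0 a b f h) (n : ℕ) :
    L9mTP a b n (fun r => (R.T a r (h r)).1) := hR.T_tp a b n h H.1 H.2.1 H.2.2.1 (hR.h_tp H n)

/-- Dynkin formula, norm classes of every order -/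
theorem dynN (hR : R.Ok c0 eps Cn) {n : ℕ} {K a b : ℝ} {f h : ℝ → L9mF} (H : R.Gen c0 a b f h)
    (hK : ∀ r, a ≤ r → r ≤ b → ScN n K (h r).1) : ScN n ((b - a) * (Cn n * K)) (R.T a b (f b) - f a).1 := by
  rw [hR.dyn_fun H]
  exact l9m_tint_N H.2.1 (hR.dyn_tp H n) fun r hr =>
    hR.T_N n K (h r) a r H.1 hr.1.le (hr.2.le.trans H.2.2.1) (hK r hr.1.le hr.2.le)

end Ok

end L9mRef

/-! ## the constants and the model -/

/-- constants of model 1 -/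
noncomputable def l9mBd1 {R : L9mRef} {c0 eps : ℝ} {Cn : ℕ → ℝ} (hR : R.Ok c0 eps Cn) : L14Bd where
  c0 := c0
  C := fun n => 2 ^ (n + 2) * Cn (n + 2)
  c0_pos := hR.c0_pos
  c0_le := hR.c0_le
  C_ge := fun n => one_le_mul_of_one_le_of_one_le (one_le_pow₀ one_le_two) (hR.Cn_ge _)
  C_mono := fun m n hmn => mul_le_mul (pow_le_pow_right₀ one_le_two (by omega)) (hR.Cn_mono (by omega))
    (hR.Cn_pos _).le (by positivity)

theorem l9mBd1_le {R : L9mRef} {c0 eps : ℝ} {Cn : ℕ → ℝ} (hR : R.Ok c0 eps Cn) {m n : ℕ} (hmn : m ≤ n + 2) :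
    Cn m ≤ (l9mBd1 hR).C n :=
  (hR.Cn_mono hmn).trans (le_mul_of_one_le_left (hR.Cn_pos _).le (one_le_pow₀ one_le_two))

theorem l9mBd1_two {R : L9mRef} {c0 eps : ℝ} {Cn : ℕ → ℝ} (hR : R.Ok c0 eps Cn) (n : ℕ) :
    2 ^ (n + 2) ≤ (l9mBd1 hR).C n :=
  le_mul_of_one_le_right (by positivity) (hR.Cn_ge _)

/-- **MODEL 1** -/
noncomputable def l9mMod1 {R : L9mRef} {c0 eps : ℝ} {Cn : ℕ → ℝ} (hR : R.Ok c0 eps Cn) :
    L14Calc (l9mBd1 hR) ℝ L9mF where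
  re := RingHom.id ℝ
  cst := l9mCst
  nrm := fun x => |x|
  nrm_nonneg := abs_nonneg
  nrm_add := abs_add_le
  nrm_mul := fun x y => (abs_mul x y).le
  nrm_re := fun _ => le_rfl
  B := l9mB
  B_nonneg := l9mB_nonneg
  B_mono := l9mB_mono
  B_down := l9mB_down
  B_add := l9mB_add
  B_mul := fun {k K K' φ ψ} h h' => l9mB_mono
    (mul_le_mul_of_nonneg_right (l9mBd1_two hR k) (mul_nonneg (l9mB_nonneg h) (l9mB_nonneg h'))) (l9mB_mul h h')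
  B_cst := l9mB_cst
  D := l9mD
  D_add := l9mD_add
  D_mul := l9mD_mul
  D_cst := l9mD_cst
  B_D := fun {k K φ} h => l9mB_mono (le_mul_of_one_le_left (l9mB_nonneg h) ((l9mBd1 hR).C_ge k)) (l9mB_D h)
  ev := l9mEv
  ev_cst := l9mEv_cst
  ev_B := fun {K φ} h => (l9mB_ev h).trans (le_mul_of_one_le_left (l9mB_nonneg h) ((l9mBd1 hR).C_ge 0))
  sg := l9mSg
  sg_cst := l9mSg_cst
  ev_sg := l9mEv_sg
  sg_D := l9mSg_D
  eps := eps
  eps_nonneg := hR.eps_nonneg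
  eps_le := hR.eps_le
  mu := R.mu
  mu_ge := hR.mu_ge
  mu_le := hR.mu_le
  kap := R.kap
  kap_bd := fun u h0 h1 => (hR.kap_bd u h0 h1).trans (l9mBd1_le hR (by omega))
  kap_lip := fun u h0 h1 => (hR.kap_lip u h0 h1).trans
    (mul_le_mul_of_nonneg_right (l9mBd1_le hR (by omega)) (add_nonneg h0 hR.eps_nonneg))
  g := R.g
  g_D := hR.g_D
  g_B := fun j k u hj h0 h1 => ScN.weaken (l9mBd1_le hR (by omega)) (hR.g_N j (k + 2) u hj h0 h1)
  g_sg := hR.g_sg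
  bo := (((R.g 2 0).1 0) ^ 2)⁻¹
  bo_mul := by
    have h := hR.chi
    have h1 : ((R.g 2 0).1 0) ^ 2 ≠ 0 := by
      intro h0
      rw [h0] at h
      norm_num at h
    exact inv_mul_cancel₀ h1
  bo_bd := by
    have h := hR.chi
    have h2 : 0 < ((R.g 2 0).1 0) ^ 2 := by
      rcases (sq_nonneg ((R.g 2 0).1 0)).lt_or_eq with h0 | h0
      · exact h0
      · rw [← h0] at h
        norm_num at h
    rw [abs_of_pos (inv_pos.2 h2)]
    refine le_trans ?_ (l9mBd1_le hR (m := 0) (n := 0) (by omega))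
    rw [inv_le_iff_one_le_mul₀ h2]
    linarith [h, mul_comm (Cn 0) (((R.g 2 0).1 0) ^ 2)]
  T := R.T
  T_add := hR.T_add
  T_cst_mul := hR.T_cst_mul
  T_one := hR.T_one
  T_refl := hR.T_refl
  T_comp := hR.T_comp
  T_B := fun {k K φ} u v h0 h1 h2 h => ScN.weaken
    (mul_le_mul_of_nonneg_right (l9mBd1_le hR le_rfl) (l9mB_nonneg h)) (hR.T_N (k + 2) K φ u v h0 h1 h2 h)
  T_sg := hR.T_sg
  Gen := R.Gen c0
  gen_sub := fun H => H.sub
  gen_add := fun H H' => H.add H'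
  gen_mul := fun H H' => H.mul H'
  gen_cst := fun _ _ x => L9mRef.gen_cst x
  gen_time := fun _ _ => L9mRef.gen_time
  gen_g1 := fun _ _ => hR.gen_g1
  gen_D := fun H => H.D (fun u => hR.g_D 1 u le_rfl)
  gen_back := fun _ _ φ => hR.gen_back φ
  dynB := fun {k K a b f h} _ hab _ H hK => by
    have h1 := hR.dynN (n := k + 2) H hK
    have hK0 : 0 ≤ K := ScN.nonneg (hK a le_rfl hab)
    refine ScN.weaken ?_ h1
    have h2 : Cn (k + 2) ≤ (l9mBd1 hR).C k := l9mBd1_le hR le_rfl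
    calc (b - a) * (Cn (k + 2) * K) = Cn (k + 2) * ((b - a) * K) := by ring
      _ ≤ (l9mBd1 hR).C k * ((b - a) * K) :=
        mul_le_mul_of_nonneg_right h2 (mul_nonneg (sub_nonneg.2 hab) hK0)
  dynE := fun {K b f h} hb _ H hK => by
    have hK0 : 0 ≤ K := (abs_nonneg _).trans (hK 0 le_rfl hb)
    have h1 : l9mEv (R.T 0 b (f b)) - l9mEv (f 0) = ∫ r in (0:ℝ)..b, (R.T 0 r (h r)).1 0 := hR.dyn 0 b f h H 0
    rw [h1]
    refine (l9m_tint_bd hb fun r hr => hK r hr.1.le hr.2.le).trans ?_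
    rw [sub_zero]
    exact le_mul_of_one_le_left (mul_nonneg hb hK0) ((l9mBd1 hR).C_ge 0)

end Claimed.Agent.R286
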