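import Claimed.Agent.R286.Sc.Tau

/-!
# Row 286 (S0533), LL 09, MODELS of `L14Calc` (L09/Calc.lean of 242): the ring of functions      OWNER helper288

`L9mF` = `C_b^∞(ℝ)` as a commutative ring (subring of `ℝ → ℝ`; carrier `∀ n, ScBd n φ`, classes of `Sc/Step.lean`), with
* `l9mD` (`∂_z`), `l9mEv` (value at `0`), `l9mCst` (constants), `l9mDil σ` (`φ ↦ φ(σ ·)`; `σ = -1`: the reflection `l9mSg`);
* `l9mB k K φ := ScN (k + 2) K φ` (norm class of `Sc/Tau.lean`): the graded bound of model 1.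
Everything the fields `B_*`, `D_*`, `ev_*`, `sg_*` of `L14Calc` need in model 1, and the dilation lemmas for model 2.
-/

set_option autoImplicit false

namespace Claimed.Agent.R286

open Set

/-! ## dilations in the norm classes -/

theorem l9m_N_dil {n : ℕ} {M : ℝ} {φ : ℝ → ℝ} (h : ScN n M φ) (σ : ℝ) :
    ScN n (M * max 1 |σ| ^ n) (fun z => φ (σ * z)) := by
  have h1 : (1 : ℝ) ≤ max 1 |σ| := le_max_left _ _
  induction n generalizing φ M with
  | zero =>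
    refine ⟨h.1.comp (continuous_const.mul continuous_id), fun z => ?_⟩
    simpa using h.2 (σ * z)
  | succ n ih =>
    have hM := h.nonneg
    refine ⟨fun z => (h.1 (σ * z)).trans ?_, ?_, ?_⟩
    · exact le_mul_of_one_le_right hM (one_le_pow₀ h1)
    · exact h.2.1.comp ((differentiable_const σ).mul differentiable_id)
    · have e : deriv (fun z => φ (σ * z)) = fun z => σ * deriv φ (σ * z) := by
        ext z
        have h2 : HasDerivAt (fun z : ℝ => σ * z) σ z := by simpa using (hasDerivAt_id z).const_mul σ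
        have h3 : HasDerivAt (fun z => φ (σ * z)) (σ • deriv φ (σ * z)) z :=
          (h.2.1 (σ * z)).hasDerivAt.scomp z h2
        simpa using h3.deriv
      rw [e]
      refine ((ih h.2.2).const_mul σ).weaken ?_
      have h3 : |σ| ≤ max 1 |σ| := le_max_right _ _
      have h4 : 0 ≤ M * max 1 |σ| ^ n := mul_nonneg hM (pow_nonneg (zero_le_one.trans h1) n)
      calc |σ| * (M * max 1 |σ| ^ n) ≤ max 1 |σ| * (M * max 1 |σ| ^ n) := mul_le_mul_of_nonneg_right h3 h4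
        _ = M * max 1 |σ| ^ (n + 1) := by ring

theorem l9m_Bd_dil {n : ℕ} {φ : ℝ → ℝ} (h : ScBd n φ) (σ : ℝ) : ScBd n (fun z => φ (σ * z)) := by
  obtain ⟨M, hM⟩ := h.scN
  exact (l9m_N_dil hM σ).scBd

theorem l9m_deriv_dil {φ : ℝ → ℝ} (h : Differentiable ℝ φ) (σ : ℝ) :
    deriv (fun z => φ (σ * z)) = fun z => σ * deriv φ (σ * z) := by
  ext z
  have h2 : HasDerivAt (fun z : ℝ => σ * z) σ z := by simpa using (hasDerivAt_id z).const_mul σ
  have h3 : HasDerivAt (fun z => φ (σ * z)) (σ • deriv φ (σ * z)) z := (h (σ * z)).hasDerivAt.scomp z h2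
  simpa using h3.deriv

/-! ## the ring -/

/-- `C_b^∞(ℝ)` as a subring of `ℝ → ℝ` -/
def l9mFS : Subring (ℝ → ℝ) where
  carrier := {φ | ∀ n, ScBd n φ}
  mul_mem' := fun {_ _} ha hb n => (ha n).mul (hb n)
  one_mem' := fun n => ScBd.const n 1
  add_mem' := fun {_ _} ha hb n => (ha n).add (hb n)
  zero_mem' := fun n => ScBd.const n 0
  neg_mem' := fun {φ} ha n => by
    have := (ha n).const_mul (-1)
    have e : (-φ) = fun z => -1 * φ z := by ext z; simp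
    rw [e]; exact this

/-- the type of the functions of model 1 -/
abbrev L9mF : Type := l9mFS

theorem L9mF.bd (φ : L9mF) (n : ℕ) : ScBd n φ.1 := φ.2 n

theorem L9mF.differentiable (φ : L9mF) : Differentiable ℝ φ.1 := (φ.2 1).2.1

theorem L9mF.scE (φ : L9mF) (n : ℕ) : ScE n φ.1 := (φ.2 n).scE

theorem L9mF.continuous (φ : L9mF) : Continuous φ.1 := (φ.scE 0).continuous

theorem L9mF.exists_N (φ : L9mF) (n : ℕ) : ∃ M, ScN n M φ.1 := (φ.2 n).scN

/-- an element of the ring from a function with all norms finite -/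
def l9mMk (φ : ℝ → ℝ) (h : ∀ n, ScBd n φ) : L9mF := ⟨φ, h⟩

@[simp] theorem l9mMk_coe (φ : ℝ → ℝ) (h : ∀ n, ScBd n φ) : (l9mMk φ h).1 = φ := rfl

@[simp] theorem l9m_coe_add (φ ψ : L9mF) : (φ + ψ).1 = fun z => φ.1 z + ψ.1 z := rfl
@[simp] theorem l9m_coe_mul (φ ψ : L9mF) : (φ * ψ).1 = fun z => φ.1 z * ψ.1 z := rfl
@[simp] theorem l9m_coe_sub (φ ψ : L9mF) : (φ - ψ).1 = fun z => φ.1 z - ψ.1 z := rfl
@[simp] theorem l9m_coe_neg (φ : L9mF) : (-φ).1 = fun z => - φ.1 z := rfl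
@[simp] theorem l9m_coe_zero : (0 : L9mF).1 = fun _ => 0 := rfl
@[simp] theorem l9m_coe_one : (1 : L9mF).1 = fun _ => 1 := rfl

/-- `∂_z` -/
noncomputable def l9mD (φ : L9mF) : L9mF := ⟨deriv φ.1, fun n => (φ.2 (n + 1)).deriv⟩

@[simp] theorem l9mD_coe (φ : L9mF) : (l9mD φ).1 = deriv φ.1 := rfl

/-- constants -/
def l9mCst : ℝ →+* L9mF where
  toFun x := ⟨fun _ => x, fun n => ScBd.const n x⟩
  map_one' := rfl
  map_mul' _ _ := rfl
  map_zero' := rfl
  map_add' _ _ := rfl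

@[simp] theorem l9mCst_coe (x : ℝ) : (l9mCst x).1 = fun _ => x := rfl

/-- value at `z = 0` -/
def l9mEv : L9mF →+* ℝ where
  toFun φ := φ.1 0
  map_one' := rfl
  map_mul' _ _ := rfl
  map_zero' := rfl
  map_add' _ _ := rfl

@[simp] theorem l9mEv_apply (φ : L9mF) : l9mEv φ = φ.1 0 := rfl

/-- dilation `φ ↦ φ(σ ·)` -/
def l9mDil (σ : ℝ) : L9mF →+* L9mF where
  toFun φ := ⟨fun z => φ.1 (σ * z), fun n => l9m_Bd_dil (φ.2 n) σ⟩
  map_one' := rfl
  map_mul' _ _ := rfl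
  map_zero' := rfl
  map_add' _ _ := rfl

@[simp] theorem l9mDil_coe (σ : ℝ) (φ : L9mF) : (l9mDil σ φ).1 = fun z => φ.1 (σ * z) := rfl

/-- reflection -/
def l9mSg : L9mF →+* L9mF := l9mDil (-1)

theorem l9mSg_coe (φ : L9mF) : (l9mSg φ).1 = fun z => φ.1 (-z) := by
  ext z; simp [l9mSg]

/-- the graded bound of model 1 -/
def l9mB (k : ℕ) (K : ℝ) (φ : L9mF) : Prop := ScN (k + 2) K φ.1

/-! ## the fields of `L14Calc` which concern only the ring -/

theorem l9mB_nonneg {k : ℕ} {K : ℝ} {φ : L9mF} (h : l9mB k K φ) : 0 ≤ K := ScN.nonneg h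

theorem l9mB_mono {k : ℕ} {K K' : ℝ} {φ : L9mF} (hK : K ≤ K') (h : l9mB k K φ) : l9mB k K' φ := ScN.weaken hK h

theorem l9mB_down {k : ℕ} {K : ℝ} {φ : L9mF} (h : l9mB (k + 1) K φ) : l9mB k K φ := ScN.of_succ h

theorem l9mB_add {k : ℕ} {K K' : ℝ} {φ ψ : L9mF} (h : l9mB k K φ) (h' : l9mB k K' ψ) : l9mB k (K + K') (φ + ψ) :=
  ScN.add h h'

theorem l9mB_mul {k : ℕ} {K K' : ℝ} {φ ψ : L9mF} (h : l9mB k K φ) (h' : l9mB k K' ψ) :
    l9mB k (2 ^ (k + 2) * (K * K')) (φ * ψ) := ScN.mul h h'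

theorem l9mB_cst (k : ℕ) (x : ℝ) : l9mB k |x| (l9mCst x) := ScN.const (k + 2) x

theorem l9mB_D {k : ℕ} {K : ℝ} {φ : L9mF} (h : l9mB (k + 1) K φ) : l9mB k K (l9mD φ) := ScN.der h

theorem l9mB_ev {K : ℝ} {φ : L9mF} (h : l9mB 0 K φ) : |l9mEv φ| ≤ K := ScN.bd h 0

theorem l9mD_add (φ ψ : L9mF) : l9mD (φ + ψ) = l9mD φ + l9mD ψ := by
  apply Subtype.ext
  ext z
  exact deriv_fun_add (φ.differentiable z) (ψ.differentiable z)

theorem l9mD_mul (φ ψ : L9mF) : l9mD (φ * ψ) = φ * l9mD ψ + l9mD φ * ψ := by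
  apply Subtype.ext
  ext z
  have := deriv_fun_mul (φ.differentiable z) (ψ.differentiable z)
  simp only [l9mD_coe, l9m_coe_mul, l9m_coe_add]
  rw [this]; ring

theorem l9mD_cst (x : ℝ) : l9mD (l9mCst x) = 0 := by
  apply Subtype.ext
  ext z
  simp

theorem l9mEv_cst (x : ℝ) : l9mEv (l9mCst x) = x := rfl

theorem l9mDil_cst (σ x : ℝ) : l9mDil σ (l9mCst x) = l9mCst x := rfl

theorem l9mEv_dil (σ : ℝ) (φ : L9mF) : l9mEv (l9mDil σ φ) = l9mEv φ := by simp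

theorem l9mD_dil (σ : ℝ) (φ : L9mF) : l9mD (l9mDil σ φ) = l9mCst σ * l9mDil σ (l9mD φ) := by
  apply Subtype.ext
  simp only [l9mD_coe, l9mDil_coe, l9m_coe_mul, l9mCst_coe]
  exact l9m_deriv_dil φ.differentiable σ

theorem l9mSg_cst (x : ℝ) : l9mSg (l9mCst x) = l9mCst x := rfl

theorem l9mEv_sg (φ : L9mF) : l9mEv (l9mSg φ) = l9mEv φ := l9mEv_dil _ _

theorem l9mSg_D (φ : L9mF) : l9mSg (l9mD φ) = - l9mD (l9mSg φ) := by
  have := l9mD_dil (-1) φ
  unfold l9mSg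
  rw [this]
  apply Subtype.ext
  ext z
  simp

theorem l9mB_dil {k : ℕ} {K : ℝ} {φ : L9mF} (h : l9mB k K φ) (σ : ℝ) :
    l9mB k (K * max 1 |σ| ^ (k + 2)) (l9mDil σ φ) := l9m_N_dil h σ

end Claimed.Agent.R286
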