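import Claimed.Agent.R286.L09.ModF
import Claimed.Agent.R286.Sc.DynC

/-!
# Row 286 (S0533), LL 09, MODELS of `L14Calc`: REFERENCE-FREE regularity of time dependent functions      OWNER helper288

* `L9mTP a b n G` : piecewise in time (finitely many break times) of class `ScT n` (`n = 0`: `ScTP` of `Sc/Prof.lean`);
* `L9mReg a b f ft` : `f` is of class `ScT n` on `[a,b]` for every `n`, `ft` is piecewise of every class, `∂_u f = ft` off finitely many times.
  Closed under `+`, `*`, constants, functions of the time, restriction, `∂_z` (`sc_deriv_comm`), dilations.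
* `l9m_tint_N` : the norm class `ScN n` of `z ↦ ∫_a^b H r z dr`.
The predicate `Gen a b f h` of the models is `L9mReg a b f (h - L_u f)` (`L09/Mod1.lean`).
-/

set_option autoImplicit false

namespace Claimed.Agent.R286

open MeasureTheory Filter Topology Set

/-! ## A. piecewise classes -/

/-- piecewise in time (finitely many break times) of class `ScT n` on `[a, b]` -/
def L9mTP (a b : ℝ) (n : ℕ) (G : ℝ → ℝ → ℝ) : Prop :=
  ∃ S : Set ℝ, S.Finite ∧ ∀ a' b', a ≤ a' → a' ≤ b' → b' ≤ b → Disjoint (Ioo a' b') S →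
    ∃ G' : ℝ → ℝ → ℝ, ScT (Icc a' b') n G' ∧ ∀ r ∈ Ioo a' b', G r = G' r

theorem L9mTP.tp {a b : ℝ} {G : ℝ → ℝ → ℝ} (h : L9mTP a b 0 G) : ScTP a b G := h

theorem L9mTP.of_T {a b : ℝ} {n : ℕ} {G : ℝ → ℝ → ℝ} (h : ScT (Icc a b) n G) : L9mTP a b n G :=
  ⟨∅, finite_empty, fun _ _ ha _ hb _ => ⟨G, h.subset (Icc_subset_Icc ha hb), fun _ _ => rfl⟩⟩

theorem L9mTP.mono {a b : ℝ} {m n : ℕ} (hmn : m ≤ n) {G : ℝ → ℝ → ℝ} (h : L9mTP a b n G) : L9mTP a b m G := by
  obtain ⟨S, hS, hG⟩ := h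
  refine ⟨S, hS, fun a' b' ha hab hb hd => ?_⟩
  obtain ⟨G', h1, h2⟩ := hG a' b' ha hab hb hd
  exact ⟨G', h1.mono hmn, h2⟩

theorem L9mTP.subset {a b a' b' : ℝ} (ha : a ≤ a') (hb : b' ≤ b) {n : ℕ} {G : ℝ → ℝ → ℝ} (h : L9mTP a b n G) :
    L9mTP a' b' n G := by
  obtain ⟨S, hS, hG⟩ := h
  exact ⟨S, hS, fun a'' b'' h1 h2 h3 hd => hG a'' b'' (ha.trans h1) h2 (h3.trans hb) hd⟩

theorem L9mTP.congr {a b : ℝ} {n : ℕ} {G G' : ℝ → ℝ → ℝ} (h : L9mTP a b n G) (he : ∀ r ∈ Ioo a b, G' r = G r) :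
    L9mTP a b n G' := by
  obtain ⟨S, hS, hG⟩ := h
  refine ⟨S, hS, fun a' b' ha hab hb hd => ?_⟩
  obtain ⟨G'', h1, h2⟩ := hG a' b' ha hab hb hd
  exact ⟨G'', h1, fun r hr => (he r ⟨lt_of_le_of_lt ha hr.1, lt_of_lt_of_le hr.2 hb⟩).trans (h2 r hr)⟩

theorem L9mTP.map₁ {a b : ℝ} {n m : ℕ} {G : ℝ → ℝ → ℝ} (hG : L9mTP a b n G) (op : (ℝ → ℝ) → ℝ → ℝ)
    (hop : ∀ (I : Set ℝ) (G' : ℝ → ℝ → ℝ), ScT I n G' → ScT I m (fun r => op (G' r))) :
    L9mTP a b m (fun r => op (G r)) := by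
  obtain ⟨S1, hS1, hG1⟩ := hG
  refine ⟨S1, hS1, fun a' b' ha hab hb hd => ?_⟩
  obtain ⟨G', g1, g2⟩ := hG1 a' b' ha hab hb hd
  exact ⟨_, hop _ G' g1, fun r hr => by simp only [g2 r hr]⟩

theorem L9mTP.map₂ {a b : ℝ} {n : ℕ} {G H : ℝ → ℝ → ℝ} (hG : L9mTP a b n G) (hH : L9mTP a b n H)
    (op : (ℝ → ℝ) → (ℝ → ℝ) → ℝ → ℝ)
    (hop : ∀ (I : Set ℝ) (G' H' : ℝ → ℝ → ℝ), ScT I n G' → ScT I n H' → ScT I n (fun r => op (G' r) (H' r))) :
    L9mTP a b n (fun r => op (G r) (H r)) := by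
  obtain ⟨S1, hS1, hG1⟩ := hG
  obtain ⟨S2, hS2, hH1⟩ := hH
  refine ⟨S1 ∪ S2, hS1.union hS2, fun a' b' ha hab hb hd => ?_⟩
  obtain ⟨G', g1, g2⟩ := hG1 a' b' ha hab hb (hd.mono_right subset_union_left)
  obtain ⟨H', k1, k2⟩ := hH1 a' b' ha hab hb (hd.mono_right subset_union_right)
  exact ⟨_, hop _ G' H' g1 k1, fun r hr => by simp only [g2 r hr, k2 r hr]⟩

theorem L9mTP.add {a b : ℝ} {n : ℕ} {G H : ℝ → ℝ → ℝ} (hG : L9mTP a b n G) (hH : L9mTP a b n H) :
    L9mTP a b n (fun r y => G r y + H r y) :=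
  hG.map₂ hH (fun f g y => f y + g y) fun _ _ _ h1 h2 => h1.add h2

theorem L9mTP.mul {a b : ℝ} {n : ℕ} {G H : ℝ → ℝ → ℝ} (hG : L9mTP a b n G) (hH : L9mTP a b n H) :
    L9mTP a b n (fun r y => G r y * H r y) :=
  hG.map₂ hH (fun f g y => f y * g y) fun _ _ _ h1 h2 => h1.mul h2

theorem L9mTP.sub {a b : ℝ} {n : ℕ} {G H : ℝ → ℝ → ℝ} (hG : L9mTP a b n G) (hH : L9mTP a b n H) :
    L9mTP a b n (fun r y => G r y - H r y) :=
  hG.map₂ hH (fun f g y => f y - g y) fun _ _ _ h1 h2 => h1.sub h2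

theorem L9mTP.neg {a b : ℝ} {n : ℕ} {G : ℝ → ℝ → ℝ} (hG : L9mTP a b n G) : L9mTP a b n (fun r y => - G r y) :=
  hG.map₁ (fun f y => - f y) fun _ _ h1 => h1.neg

theorem L9mTP.const_mul {a b : ℝ} {n : ℕ} {G : ℝ → ℝ → ℝ} (c : ℝ) (hG : L9mTP a b n G) :
    L9mTP a b n (fun r y => c * G r y) :=
  hG.map₁ (fun f y => c * f y) fun _ _ h1 => h1.const_mul c

theorem L9mTP.deriv {a b : ℝ} {n : ℕ} {G : ℝ → ℝ → ℝ} (hG : L9mTP a b (n + 1) G) :
    L9mTP a b n (fun r => deriv (G r)) :=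
  hG.map₁ (fun f => _root_.deriv f) fun _ _ h1 => h1.2.2.2

theorem L9mTP.union {a b c : ℝ} {n : ℕ} {G : ℝ → ℝ → ℝ} (h1 : L9mTP a b n G) (h2 : L9mTP b c n G) :
    L9mTP a c n G := by
  obtain ⟨S1, hS1, hG1⟩ := h1
  obtain ⟨S2, hS2, hG2⟩ := h2
  refine ⟨insert b (S1 ∪ S2), (hS1.union hS2).insert b, fun a' b' ha hab hb hd => ?_⟩
  have hd1 : Disjoint (Ioo a' b') S1 := hd.mono_right (subset_union_left.trans (subset_insert _ _))
  have hd2 : Disjoint (Ioo a' b') S2 := hd.mono_right (subset_union_right.trans (subset_insert _ _))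
  have hb0 : b ∉ Ioo a' b' := fun hx => Set.disjoint_left.1 hd hx (mem_insert _ _)
  by_cases h : b' ≤ b
  · exact hG1 a' b' ha hab h hd1
  · have : b ≤ a' := by
      by_contra h'
      exact hb0 ⟨not_le.1 h', not_le.1 h⟩
    exact hG2 a' b' this hab hb hd2

/-- a piecewise continuous function of the time alone is piecewise of every class -/
theorem L9mTP.time {a b : ℝ} {κ : ℝ → ℝ} (h : L9mTP a b 0 (fun r _ => κ r)) (n : ℕ) : L9mTP a b n (fun r _ => κ r) := by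
  obtain ⟨S, hS, hG⟩ := h
  refine ⟨S, hS, fun a' b' ha hab hb hd => ?_⟩
  obtain ⟨G', h1, h2⟩ := hG a' b' ha hab hb hd
  refine ⟨fun r _ => G' r 0, ScT.of_time (h1.continuousOn_time 0) ?_ n, fun r hr => ?_⟩
  · obtain ⟨C, c, hC⟩ := h1.growth
    exact ⟨C, fun r hr => by simpa using hC r hr 0⟩
  · funext _
    exact congrFun (h2 r hr) 0

/-- dilation in the space variable -/
theorem l9m_T_dil {I : Set ℝ} {n : ℕ} {ψ : ℝ → ℝ → ℝ} (h : ScT I n ψ) (σ : ℝ) : ScT I n (fun r z => ψ r (σ * z)) := by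
  have hc : ∀ {χ : ℝ → ℝ → ℝ}, ContinuousOn (fun p : ℝ × ℝ => χ p.1 p.2) (I ×ˢ univ) →
      ContinuousOn (fun p : ℝ × ℝ => χ p.1 (σ * p.2)) (I ×ˢ univ) := by
    intro χ hχ
    have h2 : ContinuousOn (fun p : ℝ × ℝ => ((p.1, σ * p.2) : ℝ × ℝ)) (I ×ˢ univ) := by fun_prop
    exact hχ.comp h2 (fun p hp => ⟨hp.1, mem_univ _⟩)
  have hg : ∀ {χ : ℝ → ℝ → ℝ}, ScGU I χ → ScGU I (fun r z => χ r (σ * z)) := by
    intro χ hχ
    obtain ⟨C, c, hC⟩ := hχ
    refine ⟨C, c * |σ|, fun r hr z => (hC r hr (σ * z)).trans (le_of_eq ?_)⟩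
    rw [abs_mul]; ring_nf
  induction n generalizing ψ with
  | zero => exact ⟨hc h.1, hg h.2⟩
  | succ n ih =>
    refine ⟨hc h.1, hg h.2.1, fun r hr => (h.2.2.1 r hr).comp ((differentiable_const σ).mul differentiable_id), ?_⟩
    exact ((ih h.2.2.2).const_mul σ).congr fun r hr z => congrFun (l9m_deriv_dil (h.2.2.1 r hr) σ) z

theorem L9mTP.dil {a b : ℝ} {n : ℕ} {G : ℝ → ℝ → ℝ} (hG : L9mTP a b n G) (σ : ℝ) :
    L9mTP a b n (fun r z => G r (σ * z)) :=
  hG.map₁ (fun f z => f (σ * z)) fun _ _ h1 => l9m_T_dil h1 σ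

theorem L9mTP.intervalIntegrable {a b : ℝ} {n : ℕ} {G : ℝ → ℝ → ℝ} (hG : L9mTP a b n G) (hab : a ≤ b) (y : ℝ) :
    IntervalIntegrable (fun r => G r y) volume a b :=
  ScTP.intervalIntegrable (hG.mono (Nat.zero_le n)).tp hab y

/-! ## B. time integrals -/

theorem l9m_tint_bd {a b M : ℝ} (hab : a ≤ b) {f : ℝ → ℝ} (hM : ∀ r ∈ Ioo a b, |f r| ≤ M) :
    |∫ r in a..b, f r| ≤ (b - a) * M := by
  rw [intervalIntegral.integral_of_le hab, integral_Ioc_eq_integral_Ioo]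
  have h := norm_setIntegral_le_of_norm_le_const (μ := volume) (s := Ioo a b) (f := f) (C := M)
    (by simp) (fun r hr => by simpa using hM r hr)
  rw [Real.norm_eq_abs] at h
  refine h.trans (le_of_eq ?_)
  simp [Measure.real, Real.volume_Ioo, ENNReal.toReal_ofReal (sub_nonneg.2 hab), mul_comm]

/-- differentiation under the time integral, one regular piece -/
theorem l9m_tint_hasDerivAt_T {a b : ℝ} (hab : a ≤ b) {H : ℝ → ℝ → ℝ} (hH : ScT (Icc a b) 1 H) (y : ℝ) :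
    HasDerivAt (fun z => ∫ r in a..b, H r z) (∫ r in a..b, deriv (H r) y) y := by
  have hH1 : ScT (Icc a b) 0 (fun r => deriv (H r)) := hH.2.2.2
  obtain ⟨C, c, hC⟩ := hH1.growth
  have hI : Set.uIoc a b ⊆ Icc a b := by rw [uIoc_of_le hab]; exact Ioc_subset_Icc_self
  refine (intervalIntegral.hasDerivAt_integral_of_dominated_loc_of_deriv_le (μ := volume)
    (F := fun w t => H t w) (F' := fun w t => deriv (H t) w) (s := Metric.ball y 1)
    (bound := fun _ => |C| * Real.exp (|c| * (|y| + 1)))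
    (Metric.ball_mem_nhds y one_pos) ?_ ?_ ?_ ?_ intervalIntegrable_const ?_).2
  · refine Eventually.of_forall fun w => ?_
    exact ((hH.continuousOn_time w).mono hI).aestronglyMeasurable measurableSet_uIoc
  · refine ContinuousOn.intervalIntegrable ?_
    rw [uIcc_of_le hab]
    exact hH.continuousOn_time y
  · exact ((hH1.continuousOn_time y).mono hI).aestronglyMeasurable measurableSet_uIoc
  · refine Eventually.of_forall fun t ht w hw => ?_
    rw [Real.norm_eq_abs]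
    have hw' : |w| ≤ |y| + 1 := by
      have h1 : |w - y| < 1 := by simpa [Real.dist_eq] using hw
      have h2 := abs_add_le (w - y) y
      simp only [sub_add_cancel] at h2
      linarith
    calc |deriv (H t) w| ≤ C * Real.exp (c * |w|) := hC t (hI ht) w
      _ ≤ |C| * Real.exp (c * |w|) := mul_le_mul_of_nonneg_right (le_abs_self C) (Real.exp_pos _).le
      _ ≤ |C| * Real.exp (|c| * (|y| + 1)) := by
          apply mul_le_mul_of_nonneg_left _ (abs_nonneg C)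
          apply Real.exp_le_exp.mpr
          exact (mul_le_mul_of_nonneg_right (le_abs_self c) (abs_nonneg w)).trans
            (mul_le_mul_of_nonneg_left hw' (abs_nonneg c))
  · refine Eventually.of_forall fun t ht w _ => ?_
    exact ((hH.2.2.1 t (hI ht)) w).hasDerivAt

/-- differentiation under the time integral, piecewise class -/
theorem l9m_tint_hasDerivAt {a b : ℝ} (hab : a ≤ b) {H : ℝ → ℝ → ℝ} (hH : L9mTP a b 1 H) (y : ℝ) :
    HasDerivAt (fun z => ∫ r in a..b, H r z) (∫ r in a..b, deriv (H r) y) y := by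
  have hH0 := hH
  obtain ⟨S, hS, hG⟩ := hH
  have key : a ≤ a → b ≤ b → HasDerivAt (fun z => ∫ r in a..b, H r z) (∫ r in a..b, deriv (H r) y) y := by
    refine sc_piecewise_induction hS
      (P := fun a' b' => a ≤ a' → b' ≤ b →
        HasDerivAt (fun z => ∫ r in a'..b', H r z) (∫ r in a'..b', deriv (H r) y) y) ?_ ?_ hab
    · intro a' b' hab' hd ha hb
      obtain ⟨G', h1, h2⟩ := hG a' b' ha hab' hb hd
      have e : (fun z => ∫ r in a'..b', H r z) = fun z => ∫ r in a'..b', G' r z := by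
        funext z
        exact sc_integral_congr_Ioo hab' fun r hr => by rw [h2 r hr]
      have e' : (∫ r in a'..b', deriv (H r) y) = ∫ r in a'..b', deriv (G' r) y :=
        sc_integral_congr_Ioo hab' fun r hr => by rw [h2 r hr]
      rw [e, e']
      exact l9m_tint_hasDerivAt_T hab' h1 y
    · intro a' b' c' hab' hbc h1 h2 ha hc
      have e : (fun z => ∫ r in a'..c', H r z) = fun z => (∫ r in a'..b', H r z) + ∫ r in b'..c', H r z := by
        funext z
        exact (intervalIntegral.integral_add_adjacent_intervals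
          ((hH0.subset ha (hbc.trans hc)).intervalIntegrable hab' z)
          ((hH0.subset (ha.trans hab') hc).intervalIntegrable hbc z)).symm
      have e' : (∫ r in a'..c', deriv (H r) y) = (∫ r in a'..b', deriv (H r) y) + ∫ r in b'..c', deriv (H r) y :=
        (intervalIntegral.integral_add_adjacent_intervals
          ((hH0.deriv.subset ha (hbc.trans hc)).intervalIntegrable hab' y)
          ((hH0.deriv.subset (ha.trans hab') hc).intervalIntegrable hbc y)).symm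
      rw [e, e']
      exact (h1 ha (hbc.trans hc)).add (h2 (ha.trans hab') hc)
  exact key le_rfl le_rfl

/-- **the norm class of a time integral** -/
theorem l9m_tint_N {a b M : ℝ} (hab : a ≤ b) {n : ℕ} {H : ℝ → ℝ → ℝ} (hH : L9mTP a b n H)
    (hM : ∀ r ∈ Ioo a b, ScN n M (H r)) : ScN n ((b - a) * M) (fun z => ∫ r in a..b, H r z) := by
  induction n generalizing H with
  | zero =>
    exact ⟨(ScTP.integral_E hH.tp hab).continuous, fun z => l9m_tint_bd hab fun r hr => (hM r hr).bd z⟩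
  | succ n ih =>
    have hd := l9m_tint_hasDerivAt hab (hH.mono (Nat.succ_le_succ (Nat.zero_le n)))
    refine ⟨fun z => l9m_tint_bd hab fun r hr => (hM r hr).bd z, fun z => (hd z).differentiableAt, ?_⟩
    have e : deriv (fun z => ∫ r in a..b, H r z) = fun z => ∫ r in a..b, deriv (H r) z :=
      funext fun z => (hd z).deriv
    rw [e]
    exact ih hH.deriv fun r hr => (hM r hr).der

/-! ## C. regular time dependent functions -/

/-- `f` is regular of every order on `[a,b]`, `∂_u f = ft` off finitely many times, `ft` piecewise regular of every order -/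
structure L9mReg (a b : ℝ) (f ft : ℝ → ℝ → ℝ) : Prop where
  reg : ∀ n, ScT (Icc a b) n f
  gen : ∀ n, L9mTP a b n ft
  der : ∃ S : Set ℝ, S.Finite ∧ ∀ r ∈ Ioo a b, r ∉ S → ∀ y, HasDerivAt (fun r => f r y) (ft r y) r

theorem L9mReg.subset {a b a' b' : ℝ} {f ft : ℝ → ℝ → ℝ} (h : L9mReg a b f ft) (ha : a ≤ a') (hb : b' ≤ b) :
    L9mReg a' b' f ft := by
  obtain ⟨S, hS, hd⟩ := h.der
  exact ⟨fun n => (h.reg n).subset (Icc_subset_Icc ha hb), fun n => (h.gen n).subset ha hb,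
    S, hS, fun r hr => hd r ⟨lt_of_le_of_lt ha hr.1, lt_of_lt_of_le hr.2 hb⟩⟩

theorem L9mReg.congr_gen {a b : ℝ} {f ft ft' : ℝ → ℝ → ℝ} (h : L9mReg a b f ft) (he : ∀ r ∈ Ioo a b, ft' r = ft r) :
    L9mReg a b f ft' := by
  obtain ⟨S, hS, hd⟩ := h.der
  exact ⟨h.reg, fun n => (h.gen n).congr he, S, hS, fun r hr hrS y => by rw [he r hr]; exact hd r hr hrS y⟩

theorem L9mReg.add {a b : ℝ} {f ft f' ft' : ℝ → ℝ → ℝ} (h : L9mReg a b f ft) (h' : L9mReg a b f' ft') :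
    L9mReg a b (fun r y => f r y + f' r y) (fun r y => ft r y + ft' r y) := by
  obtain ⟨S, hS, hd⟩ := h.der
  obtain ⟨S', hS', hd'⟩ := h'.der
  exact ⟨fun n => (h.reg n).add (h'.reg n), fun n => (h.gen n).add (h'.gen n), S ∪ S', hS.union hS',
    fun r hr hrS y => (hd r hr (fun hx => hrS (Or.inl hx)) y).add (hd' r hr (fun hx => hrS (Or.inr hx)) y)⟩

theorem L9mReg.mul {a b : ℝ} {f ft f' ft' : ℝ → ℝ → ℝ} (h : L9mReg a b f ft) (h' : L9mReg a b f' ft') :
    L9mReg a b (fun r y => f r y * f' r y) (fun r y => ft r y * f' r y + f r y * ft' r y) := by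
  obtain ⟨S, hS, hd⟩ := h.der
  obtain ⟨S', hS', hd'⟩ := h'.der
  exact ⟨fun n => (h.reg n).mul (h'.reg n),
    fun n => ((h.gen n).mul (L9mTP.of_T (h'.reg n))).add ((L9mTP.of_T (h.reg n)).mul (h'.gen n)), S ∪ S', hS.union hS',
    fun r hr hrS y => (hd r hr (fun hx => hrS (Or.inl hx)) y).mul (hd' r hr (fun hx => hrS (Or.inr hx)) y)⟩

theorem L9mReg.const_mul {a b : ℝ} {f ft : ℝ → ℝ → ℝ} (c : ℝ) (h : L9mReg a b f ft) :
    L9mReg a b (fun r y => c * f r y) (fun r y => c * ft r y) := by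
  obtain ⟨S, hS, hd⟩ := h.der
  exact ⟨fun n => (h.reg n).const_mul c, fun n => (h.gen n).const_mul c, S, hS,
    fun r hr hrS y => (hd r hr hrS y).const_mul c⟩

theorem L9mReg.neg {a b : ℝ} {f ft : ℝ → ℝ → ℝ} (h : L9mReg a b f ft) :
    L9mReg a b (fun r y => - f r y) (fun r y => - ft r y) := by
  obtain ⟨S, hS, hd⟩ := h.der
  exact ⟨fun n => (h.reg n).neg, fun n => (h.gen n).neg, S, hS, fun r hr hrS y => (hd r hr hrS y).neg⟩

theorem L9mReg.sub {a b : ℝ} {f ft f' ft' : ℝ → ℝ → ℝ} (h : L9mReg a b f ft) (h' : L9mReg a b f' ft') :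
    L9mReg a b (fun r y => f r y - f' r y) (fun r y => ft r y - ft' r y) := by
  obtain ⟨S, hS, hd⟩ := h.der
  obtain ⟨S', hS', hd'⟩ := h'.der
  exact ⟨fun n => (h.reg n).sub (h'.reg n), fun n => (h.gen n).sub (h'.gen n), S ∪ S', hS.union hS',
    fun r hr hrS y => (hd r hr (fun hx => hrS (Or.inl hx)) y).sub (hd' r hr (fun hx => hrS (Or.inr hx)) y)⟩

/-- a function which does not depend on the time -/
theorem l9m_reg_fixed (a b : ℝ) {φ : ℝ → ℝ} (h : ∀ n, ScE n φ) : L9mReg a b (fun _ => φ) (fun _ _ => 0) :=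
  ⟨fun n => (h n).scT _, fun n => L9mTP.of_T ((ScE.const n 0).scT _), ∅, finite_empty,
    fun r _ _ y => hasDerivAt_const r (φ y)⟩

/-- a function of the time alone -/
theorem l9m_reg_time {a b : ℝ} {κ κ' : ℝ → ℝ} (hc : ContinuousOn κ (Icc a b)) (hκ' : L9mTP a b 0 (fun r _ => κ' r))
    (hd : ∃ S : Set ℝ, S.Finite ∧ ∀ r ∈ Ioo a b, r ∉ S → HasDerivAt κ (κ' r) r) :
    L9mReg a b (fun r _ => κ r) (fun r _ => κ' r) := by
  obtain ⟨S, hS, hd⟩ := hd
  have hb : ∃ C, ∀ r ∈ Icc a b, |κ r| ≤ C := by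
    obtain ⟨C, hC⟩ := isCompact_Icc.exists_bound_of_continuousOn hc
    exact ⟨C, fun r hr => by simpa using hC r hr⟩
  exact ⟨fun n => ScT.of_time hc hb n, fun n => hκ'.time n, S, hS, fun r hr hrS _ => hd r hr hrS⟩

/-- the time itself -/
theorem l9m_reg_id (a b : ℝ) : L9mReg a b (fun r _ => r) (fun _ _ => 1) :=
  l9m_reg_time (κ := fun r => r) (κ' := fun _ => 1) continuousOn_id (L9mTP.of_T ((ScE.const 0 1).scT _))
    ⟨∅, finite_empty, fun r _ _ => hasDerivAt_id r⟩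

/-- `∂_z` of a regular function -/
theorem L9mReg.D {a b : ℝ} {f ft : ℝ → ℝ → ℝ} (h : L9mReg a b f ft) :
    L9mReg a b (fun r => deriv (f r)) (fun r => deriv (ft r)) := by
  obtain ⟨S, hS, hd⟩ := h.der
  obtain ⟨S', hS', hG⟩ := h.gen 1
  refine ⟨fun n => (h.reg (n + 1)).2.2.2, fun n => (h.gen (n + 1)).deriv, S ∪ S', hS.union hS', fun r hr hrS y => ?_⟩
  -- a neighbourhood free of break times
  have hopen : IsOpen ((S ∪ S')ᶜ ∩ Ioo a b) := (hS.union hS').isClosed.isOpen_compl.inter isOpen_Ioo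
  obtain ⟨ε, hε, hball⟩ := Metric.isOpen_iff.1 hopen r ⟨hrS, hr⟩
  have hsub : Icc (r - ε / 2) (r + ε / 2) ⊆ (S ∪ S')ᶜ ∩ Ioo a b := by
    intro x hx
    refine hball ?_
    rw [Metric.mem_ball, Real.dist_eq, abs_lt]
    constructor <;> [linarith [hx.1]; linarith [hx.2]]
  have ha' : a ≤ r - ε / 2 := (hsub (left_mem_Icc.2 (by linarith))).2.1.le
  have hb' : r + ε / 2 ≤ b := (hsub (right_mem_Icc.2 (by linarith))).2.2.le
  have hdis : Disjoint (Ioo (r - ε / 2) (r + ε / 2)) S' := by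
    rw [Set.disjoint_left]
    intro x hx hxS
    exact (hsub (Ioo_subset_Icc_self hx)).1 (Or.inr hxS)
  obtain ⟨G', g1, g2⟩ := hG (r - ε / 2) (r + ε / 2) ha' (by linarith) hb' hdis
  have hr' : r ∈ Ioo (r - ε / 2) (r + ε / 2) := ⟨by linarith, by linarith⟩
  have := sc_deriv_comm (ψ := f) (χ := G') ((h.reg 1).subset (Icc_subset_Icc ha' hb')) g1
    (fun x hx w => by
      rw [← g2 x hx]
      exact hd x (hsub (Ioo_subset_Icc_self hx)).2 (fun hxS => (hsub (Ioo_subset_Icc_self hx)).1 (Or.inl hxS)) w)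
    hr' y
  rw [g2 r hr']
  exact this

/-- dilation of a regular function -/
theorem L9mReg.dil {a b : ℝ} {f ft : ℝ → ℝ → ℝ} (h : L9mReg a b f ft) (σ : ℝ) :
    L9mReg a b (fun r z => f r (σ * z)) (fun r z => ft r (σ * z)) := by
  obtain ⟨S, hS, hd⟩ := h.der
  exact ⟨fun n => l9m_T_dil (h.reg n) σ, fun n => (h.gen n).dil σ, S, hS, fun r hr hrS y => hd r hr hrS (σ * y)⟩

/-- gluing two adjacent intervals -/
theorem L9mReg.union {a b c : ℝ} (hab : a ≤ b) (hbc : b ≤ c) {f ft : ℝ → ℝ → ℝ} (h1 : L9mReg a b f ft)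
    (h2 : L9mReg b c f ft) : L9mReg a c f ft := by
  obtain ⟨S, hS, hd⟩ := h1.der
  obtain ⟨S', hS', hd'⟩ := h2.der
  refine ⟨fun n => ScT.union hab hbc (h1.reg n) (h2.reg n), fun n => (h1.gen n).union (h2.gen n),
    insert b (S ∪ S'), (hS.union hS').insert b, fun r hr hrS y => ?_⟩
  have hrb : r ≠ b := fun e => hrS (e ▸ mem_insert _ _)
  rcases lt_or_gt_of_ne hrb with hlt | hgt
  · exact hd r ⟨hr.1, hlt⟩ (fun hx => hrS (mem_insert_of_mem _ (Or.inl hx))) y
  · exact hd' r ⟨hgt, hr.2⟩ (fun hx => hrS (mem_insert_of_mem _ (Or.inr hx))) y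

/-- the fundamental theorem of calculus for a regular function -/
theorem L9mReg.ftc {a b : ℝ} (hab : a ≤ b) {f ft : ℝ → ℝ → ℝ} (h : L9mReg a b f ft) (y : ℝ) :
    f b y - f a y = ∫ r in a..b, ft r y := by
  obtain ⟨S, hS, hd⟩ := h.der
  have hc : ContinuousOn (fun r => f r y) (Icc a b) := (h.reg 0).continuousOn_time y
  have hi : IntervalIntegrable (fun r => ft r y) volume a b := (h.gen 0).intervalIntegrable hab y
  exact (MeasureTheory.integral_eq_of_hasDerivAt_off_countable_of_le (fun r => f r y) (fun r => ft r y) hab hS.countable hc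
    (fun r hr => hd r hr.1 hr.2 y) hi).symm

end Claimed.Agent.R286
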