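import Mathlib

/-!
# Row 286, LL Sec. 9: THE `O_*` CALCULUS = NORM OF THE BANACH ALGEBRA `ℝ[ε]`      (helper274; head helper60; prefix `l9o_`)

LL 09 ("Scalar jets and common-prefix estimates"): "`O_*(A)` controls both the value and the parameter derivative".
A coefficient `θ ↦ C θ` enters only through its JET `X = (C θ, C' θ) ∈ DualNumber ℝ`.   Mathlib: `DualNumber ℝ` is a `NormedCommRing` for `‖X‖ = |X.fst| + |X.snd|`; so
  `C = O_*(A)`  :⇔  `‖X‖ ≤ const * A`,      product rule + triangle inequality = `norm_mul_le`, `norm_add_le`.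
* §1 `l9o_add .. l9o_pow`: bound combinators in any normed commutative ring `𝔸` (all case lemmas of MAIN are stated in an arbitrary `𝔸`: value and derivative, size and direct path at once).
* §2 `L9oJet f θ X`: `X` is the jet of `f` at `θ`; closed under the ring operations and inverses.
* §3 operators: size `l9oSz j X = (1 - j/6) X.fst + X.snd`, direct `l9oDir lam X = lam * X.snd` (jet for `λ⁻¹ ∂_{log λ}`);  `|l9oSz j X| ≤ ‖X‖`, `|l9oDir lam X| ≤ lam ‖X‖`.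
* §4 homogeneity: `l9oDef w X = X.snd - w X.fst` (defect of the scaling weight `w`), additive in products; `l9oSz j = l9oDef (-(1 - j/6))`;   class `L9oM K e n w X` (monomial of degree `n`, weight `w`);
     THE TABLE `l9o_tab_21 22 31 32 4`.      TEX[LL:exp:prop-low-coefficients] ("The coefficients canceled by size rescaling")
-/

set_option autoImplicit false

namespace Claimed.Agent.R286

open TrivSqZeroExt

/-! ## 1. bound combinators -/

section comb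

variable {𝔸 : Type*} [NormedCommRing 𝔸] {a b : 𝔸} {A B : ℝ}

theorem l9o_add (ha : ‖a‖ ≤ A) (hb : ‖b‖ ≤ B) : ‖a + b‖ ≤ A + B := (norm_add_le a b).trans (add_le_add ha hb)

theorem l9o_sub (ha : ‖a‖ ≤ A) (hb : ‖b‖ ≤ B) : ‖a - b‖ ≤ A + B := (norm_sub_le a b).trans (add_le_add ha hb)

theorem l9o_neg (ha : ‖a‖ ≤ A) : ‖-a‖ ≤ A := by rwa [norm_neg]

theorem l9o_mul (ha : ‖a‖ ≤ A) (hb : ‖b‖ ≤ B) : ‖a * b‖ ≤ A * B :=
  (norm_mul_le a b).trans (mul_le_mul ha hb (norm_nonneg _) ((norm_nonneg _).trans ha))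

theorem l9o_pow [NormOneClass 𝔸] (ha : ‖a‖ ≤ A) (n : ℕ) : ‖a ^ n‖ ≤ A ^ n :=
  (norm_pow_le a n).trans (pow_le_pow_left₀ (norm_nonneg _) ha n)

theorem l9o_nat [NormOneClass 𝔸] (n : ℕ) (ha : ‖a‖ ≤ A) : ‖(n : 𝔸) * a‖ ≤ n * A := by
  have h : ‖(n : 𝔸)‖ ≤ n := by simpa using Nat.norm_cast_le (α := 𝔸) n
  exact l9o_mul h ha

theorem l9o_two [NormOneClass 𝔸] (ha : ‖a‖ ≤ A) : ‖2 * a‖ ≤ 2 * A := by
  have := l9o_nat 2 ha
  simpa using this

theorem l9o_three [NormOneClass 𝔸] (ha : ‖a‖ ≤ A) : ‖3 * a‖ ≤ 3 * A := by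
  have := l9o_nat 3 ha
  simpa using this

theorem l9o_one [NormOneClass 𝔸] : ‖(1 : 𝔸)‖ ≤ 1 := norm_one.le

theorem l9o_nn (ha : ‖a‖ ≤ A) : 0 ≤ A := (norm_nonneg _).trans ha

end comb

/-! ## 2. jets -/

theorem l9o_norm (X : DualNumber ℝ) : ‖X‖ = |X.fst| + |X.snd| := by
  rw [TrivSqZeroExt.norm_def]; rfl

theorem l9o_fst_le (X : DualNumber ℝ) : |X.fst| ≤ ‖X‖ := by
  rw [l9o_norm]; linarith [abs_nonneg X.snd]

theorem l9o_snd_le (X : DualNumber ℝ) : |X.snd| ≤ ‖X‖ := by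
  rw [l9o_norm]; linarith [abs_nonneg X.fst]

theorem l9o_norm_le {X : DualNumber ℝ} {A B : ℝ} (h1 : |X.fst| ≤ A) (h2 : |X.snd| ≤ B) : ‖X‖ ≤ A + B := by
  rw [l9o_norm]; exact add_le_add h1 h2

theorem l9o_norm_inl (r : ℝ) : ‖(inl r : DualNumber ℝ)‖ = |r| := by
  rw [l9o_norm]; simp

theorem l9o_snd_mul (X Y : DualNumber ℝ) : (X * Y).snd = X.fst * Y.snd + X.snd * Y.fst := by
  simp [mul_comm]

/-- `X` is the jet (value, derivative) of `f` at `θ` -/
def L9oJet (f : ℝ → ℝ) (θ : ℝ) (X : DualNumber ℝ) : Prop := f θ = X.fst ∧ HasDerivAt f X.snd θ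

namespace L9oJet

variable {f g : ℝ → ℝ} {θ : ℝ} {X Y : DualNumber ℝ}

theorem mk' {x x' : ℝ} (h : HasDerivAt f x' θ) (h0 : f θ = x) : L9oJet f θ (inl x + inr x') := by
  refine ⟨by simpa using h0, by simpa using h⟩

theorem const (r : ℝ) : L9oJet (fun _ => r) θ (inl r) := ⟨by simp, by simpa using hasDerivAt_const θ r⟩

theorem add (hf : L9oJet f θ X) (hg : L9oJet g θ Y) : L9oJet (fun t => f t + g t) θ (X + Y) :=
  ⟨by simp [hf.1, hg.1], by simpa using hf.2.fun_add hg.2⟩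

theorem sub (hf : L9oJet f θ X) (hg : L9oJet g θ Y) : L9oJet (fun t => f t - g t) θ (X - Y) :=
  ⟨by simp [hf.1, hg.1], by simpa using hf.2.fun_sub hg.2⟩

theorem neg (hf : L9oJet f θ X) : L9oJet (fun t => - f t) θ (-X) :=
  ⟨by simp [hf.1], by simpa using hf.2.fun_neg⟩

theorem mul (hf : L9oJet f θ X) (hg : L9oJet g θ Y) : L9oJet (fun t => f t * g t) θ (X * Y) := by
  refine ⟨by simp [hf.1, hg.1], ?_⟩
  rw [l9o_snd_mul]
  refine (hf.2.fun_mul hg.2).congr_deriv ?_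
  rw [hf.1, hg.1]; ring

theorem pow (hf : L9oJet f θ X) (n : ℕ) : L9oJet (fun t => f t ^ n) θ (X ^ n) := by
  induction n with
  | zero => simpa using (const (θ := θ) 1)
  | succ n ih => simpa [pow_succ] using ih.mul hf

theorem const_mul (r : ℝ) (hf : L9oJet f θ X) : L9oJet (fun t => r * f t) θ (inl r * X) := (const r).mul hf

/-- any `U` with `U * X = 1` is the jet of `1 / f` -/
theorem inv {U : DualNumber ℝ} (hf : L9oJet f θ X) (hU : U * X = 1) : L9oJet (fun t => (f t)⁻¹) θ U := by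
  have h1 : U.fst * X.fst = 1 := by simpa using congrArg TrivSqZeroExt.fst hU
  have h2 : U.fst * X.snd + U.snd * X.fst = 0 := by
    have := congrArg TrivSqZeroExt.snd hU
    rwa [l9o_snd_mul] at this
  have hx : X.fst ≠ 0 := right_ne_zero_of_mul_eq_one h1
  have hu : U.fst = (X.fst)⁻¹ := eq_inv_of_mul_eq_one_left h1
  refine ⟨by show (f θ)⁻¹ = _; rw [hf.1, hu], ?_⟩
  have := hf.2.fun_inv (by rw [hf.1]; exact hx)
  refine this.congr_deriv ?_
  rw [hf.1]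
  have h3 : U.snd = - (U.fst * X.snd) / X.fst := by
    field_simp
    linarith
  rw [h3, hu]
  field_simp

theorem congr {f' : ℝ → ℝ} (hf : L9oJet f θ X) (h : ∀ t, f' t = f t) : L9oJet f' θ X := by
  have : f' = f := funext h
  rwa [this]

theorem unique (hf : L9oJet f θ X) (hf' : L9oJet f θ Y) : X = Y :=
  TrivSqZeroExt.ext (hf.1.symm.trans hf'.1) (hf.2.unique hf'.2)

end L9oJet

/-! ## 3. the two operators -/

/-- size path: `1 - j/6 + ∂_θ` on a coefficient of pure degree `j` -/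
noncomputable def l9oSz (j : ℝ) (X : DualNumber ℝ) : ℝ := (1 - j / 6) * X.fst + X.snd

/-- direct path: `∂_{log λ}`, when the jet is taken for `λ⁻¹ ∂_{log λ}` -/
def l9oDir (lam : ℝ) (X : DualNumber ℝ) : ℝ := lam * X.snd

/-- defect of homogeneity of weight `w` (`X ~ e^{w θ}`) -/
def l9oDef (w : ℝ) (X : DualNumber ℝ) : ℝ := X.snd - w * X.fst

theorem l9o_eqns_cite : True := by
  have := @l9oSz.eq_1; have := @l9oDir.eq_1; have := @l9oDef.eq_1; have := @L9oJet.eq_1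
  trivial

theorem l9o_sz_add (j : ℝ) (X Y : DualNumber ℝ) : l9oSz j (X + Y) = l9oSz j X + l9oSz j Y := by
  simp [l9oSz]; ring

theorem l9o_sz_sub (j : ℝ) (X Y : DualNumber ℝ) : l9oSz j (X - Y) = l9oSz j X - l9oSz j Y := by
  simp [l9oSz]; ring

theorem l9o_sz_inl_mul (j r : ℝ) (X : DualNumber ℝ) : l9oSz j (inl r * X) = r * l9oSz j X := by
  simp [l9oSz]; ring

theorem l9o_sz_le {j : ℝ} (h0 : 0 ≤ j) (h6 : j ≤ 6) (X : DualNumber ℝ) : |l9oSz j X| ≤ ‖X‖ := by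
  rw [l9o_norm]
  unfold l9oSz
  have h1 : |(1 - j / 6) * X.fst| ≤ |X.fst| := by
    rw [abs_mul]
    have : |1 - j / 6| ≤ 1 := by rw [abs_le]; constructor <;> linarith
    exact mul_le_of_le_one_left (abs_nonneg _) this
  exact (abs_add_le _ _).trans (add_le_add h1 le_rfl)

theorem l9o_dir_add (lam : ℝ) (X Y : DualNumber ℝ) : l9oDir lam (X + Y) = l9oDir lam X + l9oDir lam Y := by
  simp [l9oDir]; ring

theorem l9o_dir_le {lam : ℝ} (h0 : 0 ≤ lam) (X : DualNumber ℝ) : |l9oDir lam X| ≤ lam * ‖X‖ := by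
  unfold l9oDir
  rw [abs_mul, abs_of_nonneg h0]
  exact mul_le_mul_of_nonneg_left (l9o_snd_le X) h0

/-- the meaning of the two operators on a jet -/
theorem l9o_sz_jet {f : ℝ → ℝ} {θ : ℝ} {X : DualNumber ℝ} (h : L9oJet f θ X) (j : ℝ) :
    l9oSz j X = (1 - j / 6) * f θ + deriv f θ := by
  rw [h.2.deriv, h.1]; rfl

theorem l9o_sz_def (j : ℝ) (X : DualNumber ℝ) : l9oSz j X = l9oDef (-(1 - j / 6)) X := by
  unfold l9oSz l9oDef; ring

/-! ## 4. homogeneity and the table -/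

theorem l9o_def_mul (w w' : ℝ) (X Y : DualNumber ℝ) :
    l9oDef (w + w') (X * Y) = X.fst * l9oDef w' Y + l9oDef w X * Y.fst := by
  unfold l9oDef
  rw [l9o_snd_mul]
  simp
  ring

theorem l9o_def_inl_mul (w r : ℝ) (X : DualNumber ℝ) : l9oDef w (inl r * X) = r * l9oDef w X := by
  unfold l9oDef
  rw [l9o_snd_mul]
  simp
  ring

/-- a monomial of degree `n` and scaling weight `w` in letters of size `≤ K` whose scaling defects are `≤ K² e` -/
structure L9oM (K e : ℝ) (n : ℕ) (w : ℝ) (X : DualNumber ℝ) : Prop where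
  val : |X.fst| ≤ K ^ n
  dfc : |l9oDef w X| ≤ n * K ^ (n + 1) * e

namespace L9oM

variable {K e w w' : ℝ} {n m : ℕ} {X Y : DualNumber ℝ}

theorem mul (hX : L9oM K e n w X) (hY : L9oM K e m w' Y) : L9oM K e (n + m) (w + w') (X * Y) := by
  constructor
  · rw [TrivSqZeroExt.fst_mul, abs_mul, pow_add]
    exact mul_le_mul hX.val hY.val (abs_nonneg _) ((abs_nonneg _).trans hX.val)
  · rw [l9o_def_mul]
    have h1 : |X.fst * l9oDef w' Y| ≤ K ^ n * (m * K ^ (m + 1) * e) := by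
      rw [abs_mul]
      exact mul_le_mul hX.val hY.dfc (abs_nonneg _) ((abs_nonneg _).trans hX.val)
    have h2 : |l9oDef w X * Y.fst| ≤ (n * K ^ (n + 1) * e) * K ^ m := by
      rw [abs_mul]
      exact mul_le_mul hX.dfc hY.val (abs_nonneg _) ((abs_nonneg _).trans hX.dfc)
    refine (abs_add_le _ _).trans ((add_le_add h1 h2).trans (le_of_eq ?_))
    push_cast
    ring

theorem one : L9oM K e 0 0 (1 : DualNumber ℝ) := by
  constructor
  · simp
  · simp [l9oDef]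

theorem pow (hX : L9oM K e n w X) (p : ℕ) : L9oM K e (p * n) (p * w) (X ^ p) := by
  induction p with
  | zero => simpa using (one : L9oM K e 0 0 (1 : DualNumber ℝ))
  | succ p ih =>
    have := ih.mul hX
    rw [pow_succ]
    have e1 : (p + 1) * n = p * n + n := by ring
    have e2 : ((p + 1 : ℕ) : ℝ) * w = p * w + w := by push_cast; ring
    rw [e1, e2]
    exact this

theorem cast {n' : ℕ} {w'' : ℝ} (hX : L9oM K e n w X) (hn : n = n') (hw : w = w'') : L9oM K e n' w'' X := by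
  subst hn; subst hw; exact hX

/-- a letter -/
theorem letter (hK : 1 ≤ K) (he : 0 ≤ e) (h1 : |X.fst| ≤ K) (h2 : |l9oDef w X| ≤ e) : L9oM K e 1 w X := by
  constructor
  · simpa using h1
  · have : e ≤ K ^ 2 * e := le_mul_of_one_le_left he (one_le_pow₀ hK)
    simpa using h2.trans this

/-- the inverse of a letter -/
theorem letter_inv {U : DualNumber ℝ} (hU : U * X = 1) (h1 : |U.fst| ≤ K) (h2 : |l9oDef w X| ≤ e) : L9oM K e 1 (-w) U := by
  constructor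
  · simpa using h1
  · have h := l9o_def_mul (-w) w U X
    rw [hU] at h
    have h0 : l9oDef (-w + w) (1 : DualNumber ℝ) = 0 := by simp [l9oDef]
    rw [h0] at h
    have hf : U.fst * X.fst = 1 := by simpa using congrArg TrivSqZeroExt.fst hU
    have h3 : l9oDef (-w) U = - (U.fst ^ 2 * l9oDef w X) := by
      have : l9oDef (-w) U * (U.fst * X.fst) = - (U.fst ^ 2 * l9oDef w X) := by linear_combination (-U.fst) * h
      rwa [hf, mul_one] at this
    rw [h3, abs_neg, abs_mul, abs_pow]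
    have : |U.fst| ^ 2 * |l9oDef w X| ≤ K ^ 2 * e :=
      mul_le_mul (pow_le_pow_left₀ (abs_nonneg _) h1 2) h2 (abs_nonneg _) (by positivity)
    simpa using this

/-- the size operator of the matching degree kills the monomial -/
theorem sz (hX : L9oM K e n w X) {j : ℝ} (hj : w = -(1 - j / 6)) : |l9oSz j X| ≤ n * K ^ (n + 1) * e := by
  rw [l9o_sz_def, ← hj]; exact hX.dfc

/-- the same with a fixed mass factor -/
theorem sz_mass (hX : L9oM K e n w X) {j : ℝ} (hj : w = -(1 - j / 6)) (r : ℝ) :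
    |l9oSz j (inl r * X)| ≤ |r| * (n * K ^ (n + 1) * e) := by
  rw [l9o_sz_inl_mul, abs_mul]
  exact mul_le_mul_of_nonneg_left (hX.sz hj) (abs_nonneg _)

end L9oM

/-- the scalar jets on a size path ((E6) = S8): `χ ~ ℓ`, `g ~ ℓ³`, `k0 ~ ℓ⁻³`, `u = χ⁻¹`, up to `e` -/
structure L9oE6 (K e : ℝ) (χ u g k : DualNumber ℝ) : Prop where
  hK : 1 ≤ K
  he : 0 ≤ e
  inv : u * χ = 1
  bχ : |χ.fst| ≤ K
  bu : |u.fst| ≤ K
  bg : |g.fst| ≤ K
  bk : |k.fst| ≤ K
  dχ : |l9oDef (1 / 6) χ| ≤ e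
  dg : |l9oDef (1 / 2) g| ≤ e
  dk : |l9oDef (-(1 / 2)) k| ≤ e

namespace L9oE6

variable {K e : ℝ} {χ u g k : DualNumber ℝ}

theorem mχ (h : L9oE6 K e χ u g k) : L9oM K e 1 (1 / 6) χ := L9oM.letter h.hK h.he h.bχ h.dχ
theorem mu (h : L9oE6 K e χ u g k) : L9oM K e 1 (-(1 / 6)) u := L9oM.letter_inv h.inv h.bu h.dχ
theorem mg (h : L9oE6 K e χ u g k) : L9oM K e 1 (1 / 2) g := L9oM.letter h.hK h.he h.bg h.dg
theorem mk0 (h : L9oE6 K e χ u g k) : L9oM K e 1 (-(1 / 2)) k := L9oM.letter h.hK h.he h.bk h.dk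

/-- `j = 2`: `b∘² χ³ k0 ~ ℓ⁻⁴` -/
theorem tab_21 (h : L9oE6 K e χ u g k) : L9oM K e 8 (-(1 - 2 / 6)) ((u ^ 2) ^ 2 * χ ^ 3 * k) :=
  (((((h.mu.pow 2).pow 2).mul (h.mχ.pow 3)).mul h.mk0)).cast (by norm_num) (by norm_num)

/-- `j = 2`: `b∘² g² k0² ~ ℓ⁻⁴` -/
theorem tab_22 (h : L9oE6 K e χ u g k) : L9oM K e 8 (-(1 - 2 / 6)) ((u ^ 2) ^ 2 * g ^ 2 * k ^ 2) :=
  (((((h.mu.pow 2).pow 2).mul (h.mg.pow 2)).mul (h.mk0.pow 2))).cast (by norm_num) (by norm_num)

/-- `j = 3`: `b∘³ g² k0 ~ ℓ⁻³` -/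
theorem tab_31 (h : L9oE6 K e χ u g k) : L9oM K e 9 (-(1 - 3 / 6)) ((u ^ 2) ^ 3 * g ^ 2 * k) :=
  (((((h.mu.pow 2).pow 3).mul (h.mg.pow 2)).mul h.mk0)).cast (by norm_num) (by norm_num)

/-- `j = 3`: `b∘³ χ³ ~ ℓ⁻³` -/
theorem tab_32 (h : L9oE6 K e χ u g k) : L9oM K e 9 (-(1 - 3 / 6)) ((u ^ 2) ^ 3 * χ ^ 3) :=
  ((((h.mu.pow 2).pow 3).mul (h.mχ.pow 3))).cast (by norm_num) (by norm_num)

/-- `j = 4`: `b∘⁴ g² ~ ℓ⁻²` -/
theorem tab_4 (h : L9oE6 K e χ u g k) : L9oM K e 10 (-(1 - 4 / 6)) ((u ^ 2) ^ 4 * g ^ 2) :=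
  ((((h.mu.pow 2).pow 4).mul (h.mg.pow 2))).cast (by norm_num) (by norm_num)

end L9oE6

end Claimed.Agent.R286
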