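import Claimed.Agent.R286.L09.ModSc

/-!
# Row 286 (S0533), LL 09, PHYSICAL LAYER of INST[L14Calc], CLOCK PART, file 1: THE FILLED CLOCK OF A STEP PROFILE      (owner helper47; prefix `l9ph`, `L9ph`)

`π = [(m₁, s₁), (m₂, s₂), ..]` step profile (mass, duration), masses nondecreasing.   LABEL = MASS `u`.
* `l9phMu ms u`      the first mass `≥ u` of the list of masses `ms` (the mass of the cell of the label `u`);   `l9phLo ms lo u` the mass before it;
* `l9phK π lo u`     the filled clock: piecewise affine in `u`, equal to the cumulated durations at the masses of `π`;   `l9phKap π lo u` its slope in the cell of `u`;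
* `L9phFill c1 lo π` masses nondecreasing from `lo`, durations `≥ 0`, a repeated mass `≤ c1` has no duration (the clock has no jump below `c1`);
* `l9ph_clk`         `L9phFill c1 0 π`, `c0 ≤ c1`  ⟹  `L9mClk π c0 (l9phK π 0) (l9phKp k0 π) (l9phMu (π.map Prod.fst))`     (field `clk` of `L9mScHyp`, 288's `L09/ModSc.lean`);
* `L9phSamp K c1 lo π` the durations at the masses `≤ c1` are the increments of the function `K`;   `l9ph_kap_eq` : the slope is the divided difference of `K` on the cell.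
TEX[LL:exp:prop-low-coefficients] (09 l.396-492: the low-mass reference on the chain)
-/

set_option autoImplicit false

namespace Claimed.Agent.R286

open MeasureTheory Set Filter Topology

/-! ## A. definitions -/

/-- the first mass `≥ u` -/
noncomputable def l9phMu : List ℝ → ℝ → ℝ
  | [], _ => 0
  | m :: ms, u => if u ≤ m then m else l9phMu ms u

/-- the mass before the first mass `≥ u` -/
noncomputable def l9phLo : List ℝ → ℝ → ℝ → ℝ
  | [], lo, _ => lo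
  | m :: ms, lo, u => if u ≤ m then lo else l9phLo ms m u

/-- the filled clock -/
noncomputable def l9phK : List (ℝ × ℝ) → ℝ → ℝ → ℝ
  | [], _, _ => 0
  | p :: π, lo, u => if u ≤ p.1 then p.2 / (p.1 - lo) * (u - lo) else p.2 + l9phK π p.1 u

/-- the slope of the filled clock -/
noncomputable def l9phKap : List (ℝ × ℝ) → ℝ → ℝ → ℝ
  | [], _, _ => 0
  | p :: π, lo, u => if u ≤ p.1 then p.2 / (p.1 - lo) else l9phKap π p.1 u

/-- the speed of the reference: the slope of the filled clock, `k0` at the label `0` -/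
noncomputable def l9phKp (k0 : ℝ) (π : List (ℝ × ℝ)) (u : ℝ) : ℝ := if u ≤ 0 then k0 else l9phKap π 0 u

/-- masses nondecreasing from `lo`, durations nonnegative, no duration at a repeated mass `≤ c1` -/
def L9phFill (c1 : ℝ) : ℝ → List (ℝ × ℝ) → Prop
  | _, [] => True
  | lo, p :: π => lo ≤ p.1 ∧ 0 ≤ p.2 ∧ (p.1 = lo → p.1 ≤ c1 → p.2 = 0) ∧ L9phFill c1 p.1 π

/-- the durations at the masses `≤ c1` are the increments of `K` -/
def L9phSamp (K : ℝ → ℝ) (c1 : ℝ) : ℝ → List (ℝ × ℝ) → Prop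
  | _, [] => True
  | lo, p :: π => lo ≤ p.1 ∧ 0 ≤ p.2 ∧ (p.1 ≤ c1 → p.2 = K p.1 - K lo) ∧ L9phSamp K c1 p.1 π

theorem l9ph_phys_eqns_cite : True := by
  have := @l9phMu.eq_1
  have := @l9phMu.eq_2
  have := @l9phLo.eq_1
  have := @l9phLo.eq_2
  have := @l9phK.eq_1
  have := @l9phK.eq_2
  have := @l9phKap.eq_1
  have := @l9phKap.eq_2
  have := @l9phKp.eq_1
  have := @L9phFill.eq_1
  have := @L9phFill.eq_2
  have := @L9phSamp.eq_1
  have := @L9phSamp.eq_2
  trivial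

/-! ## B. the filled clock is a clock of the model -/

theorem L9phSamp.fill {K : ℝ → ℝ} {c1 : ℝ} : ∀ {π : List (ℝ × ℝ)} {lo : ℝ}, L9phSamp K c1 lo π → L9phFill c1 lo π
  | [], _, _ => trivial
  | p :: π, lo, h => ⟨h.1, h.2.1, fun e hc => by rw [h.2.2.1 hc, e, sub_self], L9phSamp.fill h.2.2.2⟩

theorem L9phFill.pos {c1 : ℝ} : ∀ {π : List (ℝ × ℝ)} {lo : ℝ}, L9phFill c1 lo π → ScPos π
  | [], _, _ => fun _ h => absurd h (List.not_mem_nil)
  | p :: π, lo, h => fun q hq => by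
      rcases List.mem_cons.1 hq with rfl | hq
      · exact h.2.1
      · exact L9phFill.pos h.2.2.2 q hq

theorem L9phFill.ge {c1 : ℝ} : ∀ {π : List (ℝ × ℝ)} {lo : ℝ}, L9phFill c1 lo π → ∀ q ∈ π, lo ≤ q.1
  | [], _, _ => fun _ h => absurd h (List.not_mem_nil)
  | p :: π, lo, h => fun q hq => by
      rcases List.mem_cons.1 hq with rfl | hq
      · exact h.1
      · exact h.1.trans (L9phFill.ge h.2.2.2 q hq)

theorem L9phFill.inc {c1 : ℝ} : ∀ {π : List (ℝ × ℝ)} {lo : ℝ}, L9phFill c1 lo π → ScInc π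
  | [], _, _ => List.Pairwise.nil
  | _ :: _, _, h => List.pairwise_cons.2 ⟨fun q hq => L9phFill.ge h.2.2.2 q hq, L9phFill.inc h.2.2.2⟩

theorem l9ph_grid_nonneg : ∀ {π : List (ℝ × ℝ)}, ScPos π → ∀ x ∈ scGrid π, 0 ≤ x
  | [], _ => fun x hx => by
      have : x = 0 := by simpa [scGrid] using hx
      exact this.ge
  | p :: π, h => fun x hx => by
      rcases (by simpa only [scGrid] using hx : x ∈ insert (0 : ℝ) ((fun x => p.2 + x) '' scGrid π)) with rfl | ⟨y, hy, rfl⟩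
      · exact le_rfl
      · exact add_nonneg (h p (List.mem_cons_self)) (l9ph_grid_nonneg (fun q hq => h q (List.mem_cons_of_mem _ hq)) y hy)

theorem l9ph_K_at_lo (π : List (ℝ × ℝ)) (lo c1 : ℝ) (h : L9phFill c1 lo π) : l9phK π lo lo = 0 := by
  cases π with
  | nil => rfl
  | cons p π => rw [l9phK, if_pos h.1, sub_self, mul_zero]

theorem l9ph_K_nonneg {c1 : ℝ} : ∀ (π : List (ℝ × ℝ)) (lo : ℝ), L9phFill c1 lo π → ∀ u, lo ≤ u → 0 ≤ l9phK π lo u
  | [], _, _ => fun _ _ => le_rfl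
  | p :: π, lo, h => fun u hu => by
      rw [l9phK]
      split_ifs with c
      · exact mul_nonneg (div_nonneg h.2.1 (sub_nonneg.2 h.1)) (sub_nonneg.2 hu)
      · exact add_nonneg h.2.1 (l9ph_K_nonneg π p.1 h.2.2.2 u (not_le.1 c).le)

theorem l9ph_len_nonneg {π : List (ℝ × ℝ)} (h : ScPos π) : 0 ≤ scLen π := by
  induction π with
  | nil => exact le_rfl
  | cons p π ih =>
    exact add_nonneg (h p List.mem_cons_self) (ih fun q hq => h q (List.mem_cons_of_mem _ hq))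

theorem l9ph_K_le_len {c1 : ℝ} : ∀ (π : List (ℝ × ℝ)) (lo : ℝ), L9phFill c1 lo π → ∀ u, lo ≤ u → l9phK π lo u ≤ scLen π
  | [], _, _ => fun _ _ => le_rfl
  | p :: π, lo, h => fun u hu => by
      rw [l9phK, scLen]
      split_ifs with c
      · have h1 : p.2 / (p.1 - lo) * (u - lo) ≤ p.2 := by
          rcases (sub_nonneg.2 h.1).eq_or_lt with e | e
          · rw [← e, div_zero, zero_mul]; exact h.2.1
          · rw [div_mul_eq_mul_div, div_le_iff₀ e]
            exact mul_le_mul_of_nonneg_left (by linarith) h.2.1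
        have := l9ph_len_nonneg (L9phFill.pos h.2.2.2)
        linarith
      · have := l9ph_K_le_len π p.1 h.2.2.2 u (not_le.1 c).le
        linarith

/-- above the first mass -/
theorem l9ph_K_cons_ge {c1 : ℝ} {p : ℝ × ℝ} {π : List (ℝ × ℝ)} {lo : ℝ} (h : L9phFill c1 lo (p :: π)) {u : ℝ} (hu : p.1 ≤ u)
    (hc : u ≤ c1) : l9phK (p :: π) lo u = p.2 + l9phK π p.1 u := by
  rw [l9phK]
  split_ifs with c
  · have e : u = p.1 := le_antisymm c hu
    subst e
    rw [l9ph_K_at_lo π p.1 c1 h.2.2.2, add_zero]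
    rcases (sub_nonneg.2 h.1).eq_or_lt with e | e
    · rw [← e, div_zero, zero_mul, h.2.2.1 (by linarith) hc]
    · rw [div_mul_cancel₀ _ e.ne']
  · rfl

/-- **the local picture of the filled clock** -/
theorem l9ph_fin {c1 : ℝ} : ∀ (π : List (ℝ × ℝ)) (lo : ℝ), L9phFill c1 lo π → ∀ a b, lo ≤ a → a ≤ b → b ≤ c1 →
    Disjoint (Ioo a b) {m | ∃ p ∈ π, p.1 = m} →
    ∃ κ m : ℝ, 0 ≤ κ ∧ (∀ u ∈ Icc a b, l9phK π lo u = l9phK π lo a + κ * (u - a)) ∧
      (∀ u ∈ Ioo a b, l9phKap π lo u = κ ∧ l9phMu (π.map Prod.fst) u = m) ∧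
      (0 < κ → ∀ r ∈ Ioo (l9phK π lo a) (l9phK π lo b), scAl π r = m ∧ r ∉ scGrid π)
  | [], _, _ => fun a b _ _ _ _ => ⟨0, 0, le_rfl, fun u _ => by simp [l9phK], fun u _ => ⟨rfl, rfl⟩, fun h => absurd h (lt_irrefl _)⟩
  | p :: π, lo, h => fun a b ha hab hb hd => by
      have hp : p.1 ∉ Ioo a b := fun hm => Set.disjoint_left.1 hd hm ⟨p, List.mem_cons_self, rfl⟩
      have hcase : b ≤ p.1 ∨ p.1 ≤ a := by
        by_contra hcon
        push Not at hcon
        exact hp ⟨hcon.2, hcon.1⟩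
      rcases hcase with hbp | hpa
      · -- the first cell
        have hκ : 0 ≤ p.2 / (p.1 - lo) := div_nonneg h.2.1 (sub_nonneg.2 h.1)
        have hK : ∀ u ∈ Icc a b, l9phK (p :: π) lo u = p.2 / (p.1 - lo) * (u - lo) := fun u hu => by
          rw [l9phK, if_pos (hu.2.trans hbp)]
        refine ⟨p.2 / (p.1 - lo), p.1, hκ, fun u hu => ?_, fun u hu => ?_, fun hpos r hr => ?_⟩
        · rw [hK u hu, hK a (left_mem_Icc.2 hab)]; ring
        · have : u ≤ p.1 := hu.2.le.trans hbp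
          exact ⟨by rw [l9phKap, if_pos this], by rw [List.map_cons, l9phMu, if_pos this]⟩
        · rw [hK a (left_mem_Icc.2 hab), hK b (right_mem_Icc.2 hab)] at hr
          have hne : p.1 - lo ≠ 0 := fun e => by rw [e, div_zero] at hpos; exact lt_irrefl _ hpos
          have hlt : 0 < p.1 - lo := lt_of_le_of_ne (sub_nonneg.2 h.1) hne.symm
          have h1 : r < p.2 := by
            have : p.2 / (p.1 - lo) * (b - lo) ≤ p.2 / (p.1 - lo) * (p.1 - lo) :=
              mul_le_mul_of_nonneg_left (by linarith) hκ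
            rw [div_mul_cancel₀ _ hne] at this
            linarith [hr.2]
          have h0 : 0 < r := lt_of_le_of_lt (mul_nonneg hκ (by linarith)) hr.1
          refine ⟨by rw [scAl, if_neg (not_le.2 h1)], fun hg => ?_⟩
          rcases (by simpa only [scGrid] using hg : r ∈ insert (0 : ℝ) ((fun x => p.2 + x) '' scGrid π)) with e | ⟨y, hy, e⟩
          · exact h0.ne' e
          · have := l9ph_grid_nonneg (L9phFill.pos h.2.2.2) y hy
            simp only at e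
            linarith
      · -- after the first mass
        have hd' : Disjoint (Ioo a b) {m | ∃ q ∈ π, q.1 = m} :=
          hd.mono_right (by rintro m ⟨q, hq, e⟩; exact ⟨q, List.mem_cons_of_mem _ hq, e⟩)
        obtain ⟨κ, m, hκ, h1, h2, h3⟩ := l9ph_fin π p.1 h.2.2.2 a b hpa hab hb hd'
        have hK : ∀ u ∈ Icc a b, l9phK (p :: π) lo u = p.2 + l9phK π p.1 u := fun u hu =>
          l9ph_K_cons_ge h (hpa.trans hu.1) (hu.2.trans hb)
        refine ⟨κ, m, hκ, fun u hu => ?_, fun u hu => ?_, fun hpos r hr => ?_⟩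
        · rw [hK u hu, hK a (left_mem_Icc.2 hab), h1 u hu]; ring
        · have : ¬ u ≤ p.1 := not_le.2 (lt_of_le_of_lt hpa hu.1)
          exact ⟨by rw [l9phKap, if_neg this]; exact (h2 u hu).1, by rw [List.map_cons, l9phMu, if_neg this]; exact (h2 u hu).2⟩
        · rw [hK a (left_mem_Icc.2 hab), hK b (right_mem_Icc.2 hab)] at hr
          have h0 := l9ph_K_nonneg π p.1 h.2.2.2 a hpa
          have hr' : r - p.2 ∈ Ioo (l9phK π p.1 a) (l9phK π p.1 b) := ⟨by linarith [hr.1], by linarith [hr.2]⟩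
          obtain ⟨g1, g2⟩ := h3 hpos _ hr'
          refine ⟨by rw [scAl, if_pos (by linarith [hr.1])]; exact g1, fun hg => ?_⟩
          rcases (by simpa only [scGrid] using hg : r ∈ insert (0 : ℝ) ((fun x => p.2 + x) '' scGrid π)) with e | ⟨y, hy, e⟩
          · have := h.2.1
            linarith [hr.1]
          · simp only at e
            exact g2 (by rw [← e, add_sub_cancel_left]; exact hy)

/-- **field `clk`** -/
theorem l9ph_clk {c1 c0 : ℝ} {π : List (ℝ × ℝ)} (h : L9phFill c1 0 π) (h0 : 0 ≤ c0) (hc : c0 ≤ c1) (k0 : ℝ) :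
    L9mClk π c0 (l9phK π 0) (l9phKp k0 π) (l9phMu (π.map Prod.fst)) where
  K0 := (l9ph_K_at_lo π 0 c1 h).ge
  top := l9ph_K_le_len π 0 h c0 h0
  fin := by
    refine ⟨{m | ∃ p ∈ π, p.1 = m}, ?_, fun a b ha hab hb hd => ?_⟩
    · have : {m | ∃ p ∈ π, p.1 = m} = ((π.map Prod.fst).toFinset : Set ℝ) := by
        ext m; simp
      rw [this]; exact Finset.finite_toSet _
    · obtain ⟨κ, m, hκ, h1, h2, h3⟩ := l9ph_fin π 0 h a b ha hab (hb.trans hc) hd
      refine ⟨κ, m, hκ, h1, fun u hu => ⟨?_, (h2 u hu).2⟩, h3⟩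
      rw [l9phKp, if_neg (not_le.2 (lt_of_le_of_lt ha hu.1))]
      exact (h2 u hu).1

/-! ## C. cells -/

theorem l9ph_mu_ge : ∀ (ms : List ℝ) (u : ℝ), (∃ m ∈ ms, u ≤ m) → u ≤ l9phMu ms u
  | [], _, h => by obtain ⟨m, hm, -⟩ := h; exact absurd hm List.not_mem_nil
  | m0 :: ms, u, h => by
      rw [l9phMu]
      split_ifs with c
      · exact c
      · obtain ⟨m, hm, hu⟩ := h
        rcases List.mem_cons.1 hm with rfl | hm
        · exact absurd hu c
        · exact l9ph_mu_ge ms u ⟨m, hm, hu⟩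

theorem l9ph_mu_le : ∀ (ms : List ℝ) (u : ℝ), ms.Pairwise (· ≤ ·) → ∀ m ∈ ms, u ≤ m → l9phMu ms u ≤ m
  | [], _, _ => fun m hm _ => absurd hm List.not_mem_nil
  | m0 :: ms, u, h => fun m hm hu => by
      rw [l9phMu]
      split_ifs with c
      · rcases List.mem_cons.1 hm with rfl | hm
        · exact le_rfl
        · exact (List.pairwise_cons.1 h).1 m hm
      · rcases List.mem_cons.1 hm with rfl | hm
        · exact absurd hu c
        · exact l9ph_mu_le ms u (List.pairwise_cons.1 h).2 m hm hu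

theorem l9ph_mu_mem : ∀ (ms : List ℝ) (u : ℝ), (∃ m ∈ ms, u ≤ m) → l9phMu ms u ∈ ms
  | [], _, h => by obtain ⟨m, hm, -⟩ := h; exact absurd hm List.not_mem_nil
  | m0 :: ms, u, h => by
      rw [l9phMu]
      split_ifs with c
      · exact List.mem_cons_self
      · obtain ⟨m, hm, hu⟩ := h
        rcases List.mem_cons.1 hm with rfl | hm
        · exact absurd hu c
        · exact List.mem_cons_of_mem _ (l9ph_mu_mem ms u ⟨m, hm, hu⟩)

theorem l9ph_lo_lt : ∀ (ms : List ℝ) (lo u : ℝ), lo < u → l9phLo ms lo u < u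
  | [], _, _, h => h
  | m0 :: ms, lo, u, h => by
      rw [l9phLo]
      split_ifs with c
      · exact h
      · exact l9ph_lo_lt ms m0 u (not_le.1 c)

theorem l9ph_lo_ge {c1 : ℝ} : ∀ (π : List (ℝ × ℝ)) (lo u : ℝ), L9phFill c1 lo π → lo ≤ l9phLo (π.map Prod.fst) lo u
  | [], _, _, _ => le_rfl
  | p :: π, lo, u, h => by
      rw [List.map_cons, l9phLo]
      split_ifs with c
      · exact le_rfl
      · exact h.1.trans (l9ph_lo_ge π p.1 u h.2.2.2)

/-- **the slope is the divided difference of `K` on the cell** -/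
theorem l9ph_kap_eq {K : ℝ → ℝ} {c1 : ℝ} : ∀ (π : List (ℝ × ℝ)) (lo u : ℝ), L9phSamp K c1 lo π → (∃ q ∈ π, u ≤ q.1) →
    l9phMu (π.map Prod.fst) u ≤ c1 →
    l9phKap π lo u = (K (l9phMu (π.map Prod.fst) u) - K (l9phLo (π.map Prod.fst) lo u)) /
      (l9phMu (π.map Prod.fst) u - l9phLo (π.map Prod.fst) lo u)
  | [], _, _, _, h, _ => by obtain ⟨m, hm, -⟩ := h; exact absurd hm List.not_mem_nil
  | p :: π, lo, u, h, hq, hc => by
      rw [List.map_cons, l9phMu] at hc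
      rw [List.map_cons, l9phMu, l9phLo, l9phKap]
      split_ifs with c
      · rw [if_pos c] at hc
        rw [h.2.2.1 hc]
      · rw [if_neg c] at hc
        obtain ⟨q, hq, hu⟩ := hq
        rcases List.mem_cons.1 hq with rfl | hq
        · exact absurd hu c
        · exact l9ph_kap_eq π p.1 u h.2.2.2 ⟨q, hq, hu⟩ hc

/-- the filled clock in the cell of `u` -/
theorem l9ph_K_eq {K : ℝ → ℝ} {c1 : ℝ} : ∀ (π : List (ℝ × ℝ)) (lo u : ℝ), L9phSamp K c1 lo π → (∃ q ∈ π, u ≤ q.1) →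
    l9phMu (π.map Prod.fst) u ≤ c1 →
    l9phK π lo u = K (l9phLo (π.map Prod.fst) lo u) - K lo + l9phKap π lo u * (u - l9phLo (π.map Prod.fst) lo u)
  | [], _, _, _, h, _ => by obtain ⟨m, hm, -⟩ := h; exact absurd hm List.not_mem_nil
  | p :: π, lo, u, h, hq, hc => by
      have hc0 := hc
      rw [List.map_cons, l9phMu] at hc
      rw [List.map_cons, l9phLo, l9phKap, l9phK]
      split_ifs with c
      · ring
      · rw [if_neg c] at hc
        obtain ⟨q, hq, hu⟩ := hq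
        rcases List.mem_cons.1 hq with rfl | hq
        · exact absurd hu c
        · rw [l9ph_K_eq π p.1 u h.2.2.2 ⟨q, hq, hu⟩ hc]
          have h1 : u ≤ l9phMu (π.map Prod.fst) u := l9ph_mu_ge _ u ⟨q.1, List.mem_map_of_mem hq, hu⟩
          rw [h.2.2.1 (by linarith [not_le.1 c])]
          ring

/-- at a mass of the profile the filled clock is the sampled function -/
theorem l9ph_K_node {K : ℝ → ℝ} {c1 : ℝ} (π : List (ℝ × ℝ)) (lo u : ℝ) (h : L9phSamp K c1 lo π) (hu : ∃ q ∈ π, q.1 = u)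
    (hlo : lo < u) (hc : u ≤ c1) : l9phK π lo u = K u - K lo := by
  obtain ⟨q, hq, rfl⟩ := hu
  have hm : l9phMu (π.map Prod.fst) q.1 = q.1 :=
    le_antisymm (l9ph_mu_le _ _ (by
      have := (L9phSamp.fill h).inc
      exact (List.pairwise_map).2 this) q.1 (List.mem_map_of_mem hq) le_rfl)
      (l9ph_mu_ge _ _ ⟨q.1, List.mem_map_of_mem hq, le_rfl⟩)
  have h1 := l9ph_K_eq π lo q.1 h ⟨q, hq, le_rfl⟩ (by rw [hm]; exact hc)
  have h2 := l9ph_kap_eq π lo q.1 h ⟨q, hq, le_rfl⟩ (by rw [hm]; exact hc)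
  have h3 := l9ph_lo_lt (π.map Prod.fst) lo q.1 hlo
  rw [h1, h2, hm, div_mul_cancel₀ _ (by linarith : q.1 - l9phLo (π.map Prod.fst) lo q.1 ≠ 0)]
  ring

/-! ## D. the fields of `L9mScHyp` and `L9mClose` which see the clock only -/

/-- **(K2)**: the clock is `C^{1,1}` near the mass `0`, in finite difference form -/
structure L9phK2 (K : ℝ → ℝ) (k0 c C v2 : ℝ) : Prop where
  zero : K 0 = 0
  k0_nn : 0 ≤ k0
  k0_le : k0 ≤ C
  lo : ∀ v v', 0 ≤ v → v ≤ v' → v' ≤ v2 → c * (v' - v) ≤ K v' - K v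
  hi : ∀ v v', 0 ≤ v → v ≤ v' → v' ≤ v2 → K v' - K v ≤ C * (v' - v)
  two : ∀ v v', 0 ≤ v → v ≤ v' → v' ≤ v2 → |K v' - K v - k0 * (v' - v)| ≤ C * v' * (v' - v)

/-- **(K2) for two clocks at distance `δ`** -/
structure L9phK2P (K K' : ℝ → ℝ) (k0 k0' C v2 δ : ℝ) : Prop where
  dk0 : |k0 - k0'| ≤ C * δ
  one : ∀ v v', 0 ≤ v → v ≤ v' → v' ≤ v2 → |(K v' - K v) - (K' v' - K' v)| ≤ C * δ * (v' - v)
  two : ∀ v v', 0 ≤ v → v ≤ v' → v' ≤ v2 →
    |(K v' - K v - k0 * (v' - v)) - (K' v' - K' v - k0' * (v' - v))| ≤ C * δ * v' * (v' - v)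

/-- the masses of the profile are an `eps`-net of `[0, c0]` -/
def L9phNet (ms : List ℝ) (c0 eps : ℝ) : Prop := ∀ u, 0 ≤ u → u ≤ c0 → ∃ m ∈ ms, u ≤ m ∧ m ≤ u + eps

section fields

variable {K : ℝ → ℝ} {k0 c C v2 c0 eps : ℝ} {π : List (ℝ × ℝ)}

theorem l9ph_mu_ge' (hn : L9phNet (π.map Prod.fst) c0 eps) (u : ℝ) (h0 : 0 ≤ u) (hu : u ≤ c0) : u ≤ l9phMu (π.map Prod.fst) u := by
  obtain ⟨m, hm, h1, -⟩ := hn u h0 hu
  exact l9ph_mu_ge _ u ⟨m, hm, h1⟩

theorem l9ph_mu_le' (hs : L9phSamp K v2 0 π) (hn : L9phNet (π.map Prod.fst) c0 eps) (u : ℝ) (h0 : 0 ≤ u) (hu : u ≤ c0) :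
    l9phMu (π.map Prod.fst) u ≤ u + eps := by
  obtain ⟨m, hm, h1, h2⟩ := hn u h0 hu
  exact (l9ph_mu_le _ u ((List.pairwise_map).2 (L9phSamp.fill hs).inc) m hm h1).trans h2

/-- the cell of a label `0 < u ≤ c0` -/
theorem l9ph_cell (hs : L9phSamp K v2 0 π) (hn : L9phNet (π.map Prod.fst) c0 eps) (hc : c0 + eps ≤ v2) (u : ℝ) (h0 : 0 < u)
    (hu : u ≤ c0) : ∃ lo hi : ℝ, lo = l9phLo (π.map Prod.fst) 0 u ∧ hi = l9phMu (π.map Prod.fst) u ∧ 0 ≤ lo ∧ lo < u ∧ u ≤ hi ∧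
      hi ≤ u + eps ∧ hi ≤ v2 ∧ l9phKp k0 π u = (K hi - K lo) / (hi - lo) := by
  have h1 := l9ph_mu_le' hs hn u h0.le hu
  obtain ⟨m, hm, g1, -⟩ := hn u h0.le hu
  obtain ⟨q, hq, rfl⟩ := List.mem_map.1 hm
  refine ⟨_, _, rfl, rfl, l9ph_lo_ge π 0 u (L9phSamp.fill hs), l9ph_lo_lt _ 0 u h0, l9ph_mu_ge' hn u h0.le hu, h1, by linarith, ?_⟩
  rw [l9phKp, if_neg (not_le.2 h0)]
  exact l9ph_kap_eq π 0 u hs ⟨q, hq, g1⟩ (by linarith)

theorem l9ph_kap_bd (hK : L9phK2 K k0 c C v2) (hc0 : 0 ≤ c) (hs : L9phSamp K v2 0 π) (hn : L9phNet (π.map Prod.fst) c0 eps)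
    (hc : c0 + eps ≤ v2) (u : ℝ) (h0 : 0 ≤ u) (hu : u ≤ c0) : |l9phKp k0 π u| ≤ C := by
  rcases h0.eq_or_lt with rfl | h0
  · rw [l9phKp, if_pos le_rfl, abs_of_nonneg hK.k0_nn]; exact hK.k0_le
  · obtain ⟨lo, hi, -, -, g0, g1, g2, g3, g4, e⟩ := l9ph_cell (k0 := k0) hs hn hc u h0 hu
    have hd : 0 < hi - lo := by linarith
    have a1 := hK.lo lo hi g0 (by linarith) g4
    have a2 := hK.hi lo hi g0 (by linarith) g4
    rw [e, abs_of_nonneg (div_nonneg (le_trans (mul_nonneg hc0 hd.le) a1) hd.le), div_le_iff₀ hd]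
    exact a2

theorem l9ph_kap_lo (hK : L9phK2 K k0 c C v2) (hs : L9phSamp K v2 0 π) (hn : L9phNet (π.map Prod.fst) c0 eps)
    (hc : c0 + eps ≤ v2) (u : ℝ) (h0 : 0 < u) (hu : u ≤ c0) : c ≤ l9phKp k0 π u := by
  obtain ⟨lo, hi, -, -, g0, g1, g2, g3, g4, e⟩ := l9ph_cell (k0 := k0) hs hn hc u h0 hu
  have hd : 0 < hi - lo := by linarith
  rw [e, le_div_iff₀ hd]
  exact hK.lo lo hi g0 (by linarith) g4

theorem l9ph_kap_lip (hK : L9phK2 K k0 c C v2) (hC : 0 ≤ C) (he : 0 ≤ eps) (hs : L9phSamp K v2 0 π)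
    (hn : L9phNet (π.map Prod.fst) c0 eps) (hc : c0 + eps ≤ v2) (u : ℝ) (h0 : 0 ≤ u) (hu : u ≤ c0) :
    |l9phKp k0 π u - l9phKp k0 π 0| ≤ C * (u + eps) := by
  have e0 : l9phKp k0 π 0 = k0 := by rw [l9phKp, if_pos le_rfl]
  rcases h0.eq_or_lt with rfl | h0
  · rw [sub_self, abs_zero]; exact mul_nonneg hC (by linarith)
  · obtain ⟨lo, hi, -, -, g0, g1, g2, g3, g4, e⟩ := l9ph_cell (k0 := k0) hs hn hc u h0 hu
    have hd : 0 < hi - lo := by linarith
    have a1 := hK.two lo hi g0 (by linarith) g4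
    have e1 : (K hi - K lo) / (hi - lo) - k0 = (K hi - K lo - k0 * (hi - lo)) / (hi - lo) := by
      field_simp
    rw [e0, e, e1, abs_div, abs_of_pos hd, div_le_iff₀ hd]
    refine a1.trans (mul_le_mul_of_nonneg_right (mul_le_mul_of_nonneg_left g3 hC) hd.le)

end fields

section pair

variable {K K' : ℝ → ℝ} {k0 k0' C v2 c0 eps δ : ℝ} {π π' : List (ℝ × ℝ)}

theorem l9ph_pair_kap (hP : L9phK2P K K' k0 k0' C v2 δ) (hs : L9phSamp K v2 0 π) (hs' : L9phSamp K' v2 0 π')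
    (hm : π'.map Prod.fst = π.map Prod.fst) (hn : L9phNet (π.map Prod.fst) c0 eps) (hc : c0 + eps ≤ v2) (u : ℝ) (h0 : 0 ≤ u)
    (hu : u ≤ c0) : |l9phKp k0 π u - l9phKp k0' π' u| ≤ C * δ := by
  rcases h0.eq_or_lt with rfl | h0
  · rw [l9phKp, l9phKp, if_pos le_rfl, if_pos le_rfl]; exact hP.dk0
  · obtain ⟨lo, hi, l1, l2, g0, g1, g2, g3, g4, e⟩ := l9ph_cell (k0 := k0) hs hn hc u h0 hu
    obtain ⟨lo', hi', l1', l2', -, -, -, -, -, e'⟩ := l9ph_cell (k0 := k0') hs' (hm ▸ hn) hc u h0 hu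
    rw [hm] at l1' l2'
    obtain rfl : lo' = lo := l1'.trans l1.symm
    obtain rfl : hi' = hi := l2'.trans l2.symm
    have hd : 0 < hi' - lo' := by linarith
    rw [e, e', ← sub_div, abs_div, abs_of_pos hd, div_le_iff₀ hd]
    exact hP.one lo' hi' g0 (by linarith) g4

theorem l9ph_pair_kap_lip (hP : L9phK2P K K' k0 k0' C v2 δ) (hC : 0 ≤ C * δ) (he : 0 ≤ eps) (hs : L9phSamp K v2 0 π)
    (hs' : L9phSamp K' v2 0 π') (hm : π'.map Prod.fst = π.map Prod.fst) (hn : L9phNet (π.map Prod.fst) c0 eps)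
    (hc : c0 + eps ≤ v2) (u : ℝ) (h0 : 0 ≤ u) (hu : u ≤ c0) :
    |(l9phKp k0 π u - l9phKp k0 π 0) - (l9phKp k0' π' u - l9phKp k0' π' 0)| ≤ C * δ * (u + eps) := by
  have e0 : l9phKp k0 π 0 = k0 := by rw [l9phKp, if_pos le_rfl]
  have e0' : l9phKp k0' π' 0 = k0' := by rw [l9phKp, if_pos le_rfl]
  rcases h0.eq_or_lt with rfl | h0
  · rw [sub_self, sub_self, sub_self, abs_zero]; exact mul_nonneg hC (by linarith)
  · obtain ⟨lo, hi, l1, l2, g0, g1, g2, g3, g4, e⟩ := l9ph_cell (k0 := k0) hs hn hc u h0 hu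
    obtain ⟨lo', hi', l1', l2', -, -, -, -, -, e'⟩ := l9ph_cell (k0 := k0') hs' (hm ▸ hn) hc u h0 hu
    rw [hm] at l1' l2'
    obtain rfl : lo' = lo := l1'.trans l1.symm
    obtain rfl : hi' = hi := l2'.trans l2.symm
    have hd : 0 < hi' - lo' := by linarith
    have e1 : ((K hi' - K lo') / (hi' - lo') - k0) - ((K' hi' - K' lo') / (hi' - lo') - k0') =
        ((K hi' - K lo' - k0 * (hi' - lo')) - (K' hi' - K' lo' - k0' * (hi' - lo'))) / (hi' - lo') := by
      field_simp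
    rw [e0, e0', e, e', e1, abs_div, abs_of_pos hd, div_le_iff₀ hd]
    exact (hP.two lo' hi' g0 (by linarith) g4).trans
      (mul_le_mul_of_nonneg_right (mul_le_mul_of_nonneg_left g3 hC) hd.le)

end pair

theorem l9ph_phys_eqns_cite2 : True := by
  have := @L9phNet.eq_1
  trivial

end Claimed.Agent.R286
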