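import Claimed.Agent.R286.L09.RedC
import Claimed.Agent.R286.L09.CutG

/-!
# Row 286 (S0533), unit L09, node RED, supply D0: BOUNDED COEFFICIENT DENSITIES FOR THE FIRST PROJECTION      (owner helper95, post of 82 / 60; head of the unit helper60; prefix `l9d`, `L9d`)

TEX[LL:exp:prop-low-coefficients] 09-expansion.tex l.459-463: "For this first projection, bounded coefficient densities suffice.  Their prefactor is `λ` on direct paths and `O_∘(1)`, including integrated dotted weights, on size paths."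
EXITS = the supplies `L9cD0S`, `L9cD0D` of `L09/RedC.lean` (282):   `Q.D0 A T0 V :  ∑_{τ ∈ Q.Tb (l9RgL4 V) n} |Q.Ht n R τ| ≤ A T0`,  `n = 2,3,4`.

CUT
* §1 ALLOCATION (all proved): `l9d_forks` = DENS with a weight `1 + g` at EVERY fork: `∑_τ |wt τ| ∏_{s New} (1 + g(bj s)) ≤ l9aC r (a + ∑ μ g)`   (`l9a_abs_chart`, `l9a_dens` of 276);
                 `l9d_form1/2`, `l9d_rep_sum` = the 4-slot tables with a repeated pair are parametrised by their restriction to the slots `0, 1`: `∑ |wt_2| ≤ l9aC 2 a`.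
* §2 ONE POINT (all proved): `Q.D0B B V g` = the bound of the REAL coefficients in the low region, crude form: `|co n R τ| ≤ B ∏_{s New} (1 + g(bj s))`, `|coq τ| ≤ B`, `∑ μ g ≤ 1`;
                 `l9d_point : IsMs → a ≤ 4 → Q.D0B B V g → ∑_{τ low} |Ht n R τ| ≤ l9dC * B`.
* §3 SHAPES: `L9dCoS`, `L9dCoD` = `D0B` in the shapes of 282 (`B = A (1 + dot)`, `B = A λ`);  `l9d_S : L9cAdmS → L9dCoS → L9cD0S`,  `l9d_D : L9cAdmD → L9dCoD → L9cD0D`   (proved).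
* §4 PRODUCERS of `L9dCoS`, `L9dCoD`: from the record `Q.Co` of W5 (183, `L09/W5Co.lean`: Leibniz + SC-dot) and the pointwise dots (69 / 159, `L09/Dots.lean`).
-/

set_option autoImplicit false

namespace Claimed.Agent.R286

open scoped BigOperators Nat
open Filter

noncomputable section

/-! ## 1. allocation -/

open Classical in
/-- the weight `∏_{forks} (1 + g)` of a table on `r` labels -/
def l9dFk (N r : ℕ) (g : ℕ → ℝ) (τ : ℕ → ℕ → ℕ) : ℝ :=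
  ∏ s ∈ Finset.Ico 1 r, if L9aNew N τ s then 1 + g (l9aBj τ s) else 1

theorem l9d_fk_nonneg (N r : ℕ) {g : ℕ → ℝ} (hg : ∀ k, 0 ≤ g k) (τ : ℕ → ℕ → ℕ) : 0 ≤ l9dFk N r g τ := by
  unfold l9dFk
  refine Finset.prod_nonneg fun s _ => ?_
  split_ifs
  · linarith [hg (l9aBj τ s)]
  · exact zero_le_one

/-- the weight in the coordinates -/
theorem l9d_fk_rec {N r : ℕ} (g : ℕ → ℝ) {χ : L9aChart r} {c : Fin r → Fin (N + 2)} (h : L9aOk N χ c) :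
    l9dFk N r g (l9aRec χ c) = ∏ s : Fin r, if χ.2 s = true then 1 + g (c s) else 1 := by
  classical
  set f : ℕ → ℝ := fun s => if L9aNew N (l9aRec χ c) s then 1 + g (l9aBj (l9aRec χ c) s) else 1 with hf
  have e1 : ∏ s : Fin r, (if χ.2 s = true then 1 + g (c s) else 1) = ∏ s ∈ Finset.range r, f s := by
    rw [← Fin.prod_univ_eq_prod_range]
    refine Finset.prod_congr rfl fun s _ => ?_
    rw [hf]
    simp only
    by_cases hs : χ.2 s = true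
    · rw [if_pos hs, if_pos ((h.new_iff s).mpr hs), h.bj hs]
    · rw [if_neg hs, if_neg (fun hh => hs ((h.new_iff s).mp hh))]
  rw [e1]
  unfold l9dFk
  rcases Nat.eq_zero_or_pos r with h0 | hpos
  · subst h0; simp
  · rw [Finset.range_eq_Ico, Finset.prod_eq_prod_Ico_succ_bot hpos]
    have hf0 : f 0 = 1 := by
      rw [hf]
      simp only
      rw [if_neg (fun hh : L9aNew N (l9aRec χ c) 0 => by have := hh.1; omega)]
    rw [hf0, one_mul]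

theorem l9d_C_mono (r : ℕ) {a a' : ℝ} (h : a ≤ a') : l9aC r a ≤ l9aC r a' := by
  unfold l9aC
  have h1 : max 1 ((r : ℝ) * a) ≤ max 1 ((r : ℝ) * a') :=
    max_le_max le_rfl (mul_le_mul_of_nonneg_left h (Nat.cast_nonneg r))
  have h2 : max 1 a ≤ max 1 a' := max_le_max le_rfl h
  have p1 : (0 : ℝ) ≤ max 1 ((r : ℝ) * a) := le_trans zero_le_one (le_max_left _ _)
  have p2 : (0 : ℝ) ≤ max 1 a := le_trans zero_le_one (le_max_left _ _)
  refine mul_le_mul_of_nonneg_left ?_ (Nat.cast_nonneg _)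
  exact mul_le_mul (pow_le_pow_left₀ p1 h1 r) (pow_le_pow_left₀ p2 h2 r) (pow_nonneg p2 r)
    (pow_nonneg (p1.trans h1) r)

/-- **DENS with a weight at every fork** -/
theorem l9d_forks {N r : ℕ} {ms : ℕ → ℝ} (hms : IsMs N ms) (g : ℕ → ℝ) (hg : ∀ k, 0 ≤ g k) :
    ∑ τ ∈ l9aTab N r, |l9aWt ms N 1 r τ| * l9dFk N r g τ
      ≤ l9aC r (ms N + ∑ k ∈ Finset.range (N + 1), l9aMu ms k * g k) := by
  classical
  set G : ℝ := ∑ k ∈ Finset.range (N + 1), l9aMu ms k * g k with hG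
  have hG0 : 0 ≤ G := Finset.sum_nonneg fun k hk =>
    mul_nonneg (l9a_mu_nonneg hms (by have := Finset.mem_range.1 hk; omega)) (hg k)
  have ha0 : 0 ≤ ms N := hms.nonneg N
  refine (l9a_abs_chart hms (l9dFk N r g) (l9d_fk_nonneg N r hg)).trans ?_
  -- one chart
  have hone : ∀ χ : L9aChart r, (∑ c : Fin r → Fin (N + 2),
      if L9aOk N χ c then (∏ s, if χ.2 s = true then l9aMuT ms N (c s) else 1) * l9dFk N r g (l9aRec χ c) else 0)
        ≤ (max 1 (ms N + G)) ^ r := by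
    intro χ
    have e : ∀ c : Fin r → Fin (N + 2),
        (if L9aOk N χ c then (∏ s, if χ.2 s = true then l9aMuT ms N (c s) else 1) * l9dFk N r g (l9aRec χ c) else 0)
          = if L9aOk N χ c then ∏ s, (if χ.2 s = true then (fun (_ : Fin r) (k : Fin (N + 2)) => l9aMuT ms N k * (1 + g k)) s (c s) else 1)
            else 0 := by
      intro c
      split_ifs with hok
      · rw [l9d_fk_rec g hok, ← Finset.prod_mul_distrib]
        refine Finset.prod_congr rfl fun s _ => ?_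
        split_ifs
        · rfl
        · rw [one_mul]
      · rfl
    simp only [e]
    refine (l9a_dens χ (fun (_ : Fin r) (k : Fin (N + 2)) => l9aMuT ms N k * (1 + g k))
      (fun s k => mul_nonneg (l9a_muT_nonneg hms _) (by linarith [hg k]))).trans ?_
    have hsum : ∑ k : Fin (N + 2), l9aMuT ms N k * (1 + g k) = ms N + G := by
      rw [l9a_muT_sum_fin ms N (fun k => 1 + g k)]
      simp only [mul_add, mul_one, Finset.sum_add_distrib]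
      rw [l9a_mu_sum]
    calc (∏ s : Fin r, if χ.2 s = true then ∑ k : Fin (N + 2), l9aMuT ms N k * (1 + g k) else 1)
        ≤ ∏ _s : Fin r, max 1 (ms N + G) := by
          refine Finset.prod_le_prod (fun s _ => ?_) (fun s _ => ?_)
          · split_ifs
            · rw [hsum]; linarith
            · exact zero_le_one
          · split_ifs
            · rw [hsum]; exact le_max_right _ _
            · exact le_max_left _ _
      _ = (max 1 (ms N + G)) ^ r := by simp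
  have hsumχ := Finset.sum_le_sum (s := (Finset.univ : Finset (L9aChart r))) fun χ _ => hone χ
  rw [Finset.sum_const, Finset.card_univ, nsmul_eq_mul] at hsumχ
  have hM : max 1 ((r : ℝ) * ms N) ≤ max 1 ((r : ℝ) * (ms N + G)) :=
    max_le_max le_rfl (mul_le_mul_of_nonneg_left (by linarith) (Nat.cast_nonneg r))
  have hM0 : (0 : ℝ) ≤ max 1 ((r : ℝ) * ms N) := le_trans zero_le_one (le_max_left _ _)
  have hP0 : (0 : ℝ) ≤ (Fintype.card (L9aChart r) : ℝ) * (max 1 (ms N + G)) ^ r := by positivity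
  calc _ ≤ (max 1 ((r : ℝ) * ms N)) ^ r * ((Fintype.card (L9aChart r) : ℝ) * (max 1 (ms N + G)) ^ r) :=
        mul_le_mul_of_nonneg_left hsumχ (pow_nonneg hM0 r)
    _ ≤ (max 1 ((r : ℝ) * (ms N + G))) ^ r * ((Fintype.card (L9aChart r) : ℝ) * (max 1 (ms N + G)) ^ r) :=
        mul_le_mul_of_nonneg_right (pow_le_pow_left₀ hM0 hM r) hP0
    _ = l9aC r (ms N + G) := by unfold l9aC; ring

/-- two coincident slots have the same rows -/
theorem l9d_rep {N : ℕ} {τ : ℕ → ℕ → ℕ} (hτ : IsTr N 4 τ) {x x' : ℕ} (hx : x < 4) (hx' : x' < 4) (h : τ x x' = N + 1)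
    (y : ℕ) (hy : y < 4) : τ x' y = τ x y := by
  have u1 := hτ.ultra x' x y hx' hx hy
  have u2 := hτ.ultra x x' y hx hx' hy
  have s := hτ.symm x x' hx hx'
  have l1 := hτ.le x y hx hy
  have l2 := hτ.le x' y hx' hy
  omega

/-- the tables with the repeated pair `0 ~ 2`, `1 ~ 3` -/
theorem l9d_form1 {N : ℕ} {τ : ℕ → ℕ → ℕ} (hτ : IsTr N 4 τ) (h1 : τ 0 2 = N + 1) (h2 : τ 1 3 = N + 1) (y z : ℕ) (hy : y < 4)
    (hz : z < 4) : τ y z = if y % 2 = z % 2 then N + 1 else τ 0 1 := by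
  have a0 := l9d_rep hτ (by norm_num : 0 < 4) (by norm_num : 2 < 4) h1 0 (by norm_num)
  have a1 := l9d_rep hτ (by norm_num : 0 < 4) (by norm_num : 2 < 4) h1 1 (by norm_num)
  have a2 := l9d_rep hτ (by norm_num : 0 < 4) (by norm_num : 2 < 4) h1 2 (by norm_num)
  have a3 := l9d_rep hτ (by norm_num : 0 < 4) (by norm_num : 2 < 4) h1 3 (by norm_num)
  have b0 := l9d_rep hτ (by norm_num : 1 < 4) (by norm_num : 3 < 4) h2 0 (by norm_num)
  have b1 := l9d_rep hτ (by norm_num : 1 < 4) (by norm_num : 3 < 4) h2 1 (by norm_num)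
  have b2 := l9d_rep hτ (by norm_num : 1 < 4) (by norm_num : 3 < 4) h2 2 (by norm_num)
  have b3 := l9d_rep hτ (by norm_num : 1 < 4) (by norm_num : 3 < 4) h2 3 (by norm_num)
  have d0 := hτ.diag 0 (by norm_num)
  have d1 := hτ.diag 1 (by norm_num)
  have s01 := hτ.symm 0 1 (by norm_num) (by norm_num)
  have s03 := hτ.symm 0 3 (by norm_num) (by norm_num)
  have s12 := hτ.symm 1 2 (by norm_num) (by norm_num)
  interval_cases y <;> interval_cases z <;> simp <;> omega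

/-- the tables with the repeated pair `0 ~ 3`, `1 ~ 2` -/
theorem l9d_form2 {N : ℕ} {τ : ℕ → ℕ → ℕ} (hτ : IsTr N 4 τ) (h1 : τ 0 3 = N + 1) (h2 : τ 1 2 = N + 1) (y z : ℕ) (hy : y < 4)
    (hz : z < 4) : τ y z = if (y = 0 ∨ y = 3 ↔ z = 0 ∨ z = 3) then N + 1 else τ 0 1 := by
  have a0 := l9d_rep hτ (by norm_num : 0 < 4) (by norm_num : 3 < 4) h1 0 (by norm_num)
  have a1 := l9d_rep hτ (by norm_num : 0 < 4) (by norm_num : 3 < 4) h1 1 (by norm_num)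
  have a2 := l9d_rep hτ (by norm_num : 0 < 4) (by norm_num : 3 < 4) h1 2 (by norm_num)
  have a3 := l9d_rep hτ (by norm_num : 0 < 4) (by norm_num : 3 < 4) h1 3 (by norm_num)
  have b0 := l9d_rep hτ (by norm_num : 1 < 4) (by norm_num : 2 < 4) h2 0 (by norm_num)
  have b1 := l9d_rep hτ (by norm_num : 1 < 4) (by norm_num : 2 < 4) h2 1 (by norm_num)
  have b2 := l9d_rep hτ (by norm_num : 1 < 4) (by norm_num : 2 < 4) h2 2 (by norm_num)
  have b3 := l9d_rep hτ (by norm_num : 1 < 4) (by norm_num : 2 < 4) h2 3 (by norm_num)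
  have d0 := hτ.diag 0 (by norm_num)
  have d1 := hτ.diag 1 (by norm_num)
  have s01 := hτ.symm 0 1 (by norm_num) (by norm_num)
  have s02 := hτ.symm 0 2 (by norm_num) (by norm_num)
  have s13 := hτ.symm 1 3 (by norm_num) (by norm_num)
  interval_cases y <;> interval_cases z <;> simp <;> omega

/-- **a family of 4-slot tables which are determined by the entry `(0,1)`**: the 2-slot weights have bounded total mass -/
theorem l9d_rep_sum {N : ℕ} {ms : ℕ → ℝ} (hms : IsMs N ms) (S : Finset (ℕ → ℕ → ℕ)) (hS : S ⊆ l9aTab N 4)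
    (hinj : ∀ τ ∈ S, ∀ σ ∈ S, τ 0 1 = σ 0 1 → L9aAg 4 τ σ) :
    ∑ τ ∈ S, |l9aWt ms N 1 2 τ| ≤ l9aC 2 (ms N) := by
  classical
  have htr : ∀ τ ∈ S, IsTr N 4 τ := fun τ hτ => (l9a_mem_tab.mp (hS hτ)).1
  have e1 : ∀ τ ∈ S, |l9aWt ms N 1 2 τ| = |l9aWt ms N 1 2 (l9aNm 2 τ)| := by
    intro τ hτ
    rw [l9a_wt_congr ms (tr_isTr_mono (htr τ hτ) (by norm_num : 2 ≤ 4)) le_rfl (l9a_nm_ag 2 τ).symm]
  rw [Finset.sum_congr rfl e1]
  have hi : Set.InjOn (l9aNm 2) (S : Set (ℕ → ℕ → ℕ)) := by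
    intro τ hτ σ hσ h
    have h01 : τ 0 1 = σ 0 1 := by
      have := congrFun (congrFun h 0) 1
      simpa [l9aNm] using this
    have hag := hinj τ hτ σ hσ h01
    rw [← (l9a_mem_tab.mp (hS hτ)).2, ← (l9a_mem_tab.mp (hS hσ)).2]
    exact l9a_nm_eq hag
  rw [← Finset.sum_image (f := fun τ' => |l9aWt ms N 1 2 τ'|) hi]
  refine le_trans (Finset.sum_le_sum_of_subset_of_nonneg ?_ fun _ _ _ => abs_nonneg _) (l9a_total hms)
  intro τ' hτ'
  obtain ⟨τ, hτ, rfl⟩ := Finset.mem_image.1 hτ'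
  exact l9a_nm_mem_tab (tr_isTr_mono (htr τ hτ) (by norm_num : 2 ≤ 4))

/-! ## 2. one point -/

/-- **bound of the REAL coefficients in the low region**, crude form: `B` = loss times prefactor, `g` = the normalised dotted weight at the forks -/
structure L9Q.D0B (Q : L9Q) (B V : ℝ) (g : ℕ → ℝ) : Prop where
  B_nn : 0 ≤ B
  g_nn : ∀ k, 0 ≤ g k
  g_sum : ∑ k ∈ Finset.range (Q.N + 1), l9aMu Q.ms k * g k ≤ 1
  co : ∀ n, 2 ≤ n → n ≤ 4 → ∀ R, R ⊆ Finset.range n → ∀ τ ∈ Q.Tb (l9RgL4 V) n, (Q.X false).off 0 n τ ≠ 0 →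
    |Q.co n R τ| ≤ B * l9dFk Q.N (2 * n) g τ
  coq : ∀ τ ∈ Q.Tb (l9RgL4 V) 2, (Q.X false).off 0 1 τ ≠ 0 → |Q.coq τ| ≤ B

/-- the constant of D0 -/
def l9dC : ℝ := l9aC 4 5 + l9aC 6 5 + l9aC 8 5 + 2 * l9aC 2 4

theorem l9d_C_nonneg : 0 ≤ l9dC := by
  unfold l9dC
  have := l9a_C_nonneg 4 5; have := l9a_C_nonneg 6 5; have := l9a_C_nonneg 8 5; have := l9a_C_nonneg 2 4
  linarith

theorem l9d_off_mem {S : Type} (X : JtCtx S) (q n : ℕ) (τ : JtTopo) : 0 ≤ X.off q n τ ∧ X.off q n τ ≤ 1 := by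
  unfold JtCtx.off
  constructor
  · refine Finset.prod_nonneg fun i _ => ?_
    split_ifs <;> norm_num
  · refine Finset.prod_le_one (fun i _ => ?_) (fun i _ => ?_)
    · split_ifs <;> norm_num
    · split_ifs <;> norm_num

theorem l9d_fact_le (n : ℕ) : ((2 : ℝ) ^ n * (n ! : ℝ))⁻¹ ≤ 1 := by
  have h1 : (1 : ℝ) ≤ 2 ^ n := one_le_pow₀ (by norm_num)
  have h2 : (1 : ℝ) ≤ (n ! : ℝ) := by exact_mod_cast Nat.succ_le_of_lt (Nat.factorial_pos n)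
  exact inv_le_one_of_one_le₀ (by nlinarith)

namespace L9Q

variable {Q : L9Q} {B V : ℝ} {g : ℕ → ℝ}

/-- the ordinary flat coefficient -/
theorem D0B.H_le (h : Q.D0B B V g) {n : ℕ} (h2 : 2 ≤ n) (h4 : n ≤ 4) {R : Finset ℕ} (hR : R ⊆ Finset.range n) {τ : JtTopo}
    (hτ : τ ∈ Q.Tb (l9RgL4 V) n) : |Q.H n R τ| ≤ B * (|l9aWt Q.ms Q.N 1 (2 * n) τ| * l9dFk Q.N (2 * n) g τ) := by
  have hfk := l9d_fk_nonneg Q.N (2 * n) h.g_nn τ
  have hrhs : 0 ≤ B * (|l9aWt Q.ms Q.N 1 (2 * n) τ| * l9dFk Q.N (2 * n) g τ) :=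
    mul_nonneg h.B_nn (mul_nonneg (abs_nonneg _) hfk)
  unfold L9Q.H
  by_cases ho : (Q.X false).off 0 n τ = 0
  · rw [ho]; simpa using hrhs
  · obtain ⟨o0, o1⟩ := l9d_off_mem (Q.X false) 0 n τ
    have hc := h.co n h2 h4 R hR τ hτ ho
    have hf0 : 0 ≤ ((2 : ℝ) ^ n * (n ! : ℝ))⁻¹ := by positivity
    rw [abs_mul, abs_mul, abs_mul, abs_of_nonneg hf0, abs_of_nonneg o0]
    calc ((2 : ℝ) ^ n * (n ! : ℝ))⁻¹ * |l9aWt Q.ms Q.N 1 (2 * n) τ| * (Q.X false).off 0 n τ * |Q.co n R τ|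
        ≤ 1 * |l9aWt Q.ms Q.N 1 (2 * n) τ| * 1 * (B * l9dFk Q.N (2 * n) g τ) := by
          apply mul_le_mul _ hc (abs_nonneg _) (by positivity)
          apply mul_le_mul _ o1 o0 (by positivity)
          exact mul_le_mul_of_nonneg_right (l9d_fact_le n) (abs_nonneg _)
      _ = _ := by ring

/-- sum of the ordinary flat coefficients -/
theorem D0B.H_sum (h : Q.D0B B V g) (hms : IsMs Q.N Q.ms) (ha : Q.ms Q.N ≤ 4) {n : ℕ} (h2 : 2 ≤ n) (h4 : n ≤ 4) {R : Finset ℕ}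
    (hR : R ⊆ Finset.range n) : ∑ τ ∈ Q.Tb (l9RgL4 V) n, |Q.H n R τ| ≤ B * l9aC (2 * n) 5 := by
  classical
  calc ∑ τ ∈ Q.Tb (l9RgL4 V) n, |Q.H n R τ|
      ≤ ∑ τ ∈ Q.Tb (l9RgL4 V) n, B * (|l9aWt Q.ms Q.N 1 (2 * n) τ| * l9dFk Q.N (2 * n) g τ) :=
        Finset.sum_le_sum fun τ hτ => h.H_le h2 h4 hR hτ
    _ ≤ ∑ τ ∈ l9aTab Q.N (2 * n), B * (|l9aWt Q.ms Q.N 1 (2 * n) τ| * l9dFk Q.N (2 * n) g τ) := by
        refine Finset.sum_le_sum_of_subset_of_nonneg (Finset.filter_subset _ _) fun τ _ _ => ?_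
        exact mul_nonneg h.B_nn (mul_nonneg (abs_nonneg _) (l9d_fk_nonneg Q.N (2 * n) h.g_nn τ))
    _ = B * ∑ τ ∈ l9aTab Q.N (2 * n), |l9aWt Q.ms Q.N 1 (2 * n) τ| * l9dFk Q.N (2 * n) g τ := by rw [Finset.mul_sum]
    _ ≤ B * l9aC (2 * n) 5 := by
        refine mul_le_mul_of_nonneg_left ((l9d_forks hms g h.g_nn).trans (l9d_C_mono _ ?_)) h.B_nn
        linarith [h.g_sum]

/-- sum of the square counterterms -/
theorem Hq_sum_le (hB : 0 ≤ B) (hcoq : ∀ τ ∈ Q.Tb (l9RgL4 V) 2, (Q.X false).off 0 1 τ ≠ 0 → |Q.coq τ| ≤ B) (hms : IsMs Q.N Q.ms)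
    (ha : Q.ms Q.N ≤ 4) : ∑ τ ∈ Q.Tb (l9RgL4 V) 2, |Q.Hq τ| ≤ B * (2 * l9aC 2 4) := by
  classical
  set T := Q.Tb (l9RgL4 V) 2 with hT
  have hsub : T ⊆ l9aTab Q.N 4 := Finset.filter_subset _ _
  set S1 := T.filter fun τ => τ 0 2 = Q.N + 1 ∧ τ 1 3 = Q.N + 1 with hS1
  set S2 := T.filter fun τ => τ 0 3 = Q.N + 1 ∧ τ 1 2 = Q.N + 1 with hS2
  have htr : ∀ τ ∈ T, IsTr Q.N 4 τ := fun τ hτ => (l9a_mem_tab.mp (hsub hτ)).1
  have b1 : ∑ τ ∈ S1, |l9aWt Q.ms Q.N 1 2 τ| ≤ l9aC 2 (Q.ms Q.N) := by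
    refine l9d_rep_sum hms S1 ((Finset.filter_subset _ _).trans hsub) ?_
    intro τ hτ σ hσ h01 y z hy hz
    rw [hS1, Finset.mem_filter] at hτ hσ
    rw [l9d_form1 (htr τ hτ.1) hτ.2.1 hτ.2.2 y z hy hz, l9d_form1 (htr σ hσ.1) hσ.2.1 hσ.2.2 y z hy hz, h01]
  have b2 : ∑ τ ∈ S2, |l9aWt Q.ms Q.N 1 2 τ| ≤ l9aC 2 (Q.ms Q.N) := by
    refine l9d_rep_sum hms S2 ((Finset.filter_subset _ _).trans hsub) ?_
    intro τ hτ σ hσ h01 y z hy hz
    rw [hS2, Finset.mem_filter] at hτ hσ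
    rw [l9d_form2 (htr τ hτ.1) hτ.2.1 hτ.2.2 y z hy hz, l9d_form2 (htr σ hσ.1) hσ.2.1 hσ.2.2 y z hy hz, h01]
  have hpt : ∀ τ ∈ T, |Q.Hq τ| ≤ (if τ 0 2 = Q.N + 1 ∧ τ 1 3 = Q.N + 1 then B * |l9aWt Q.ms Q.N 1 2 τ| else 0)
      + (if τ 0 3 = Q.N + 1 ∧ τ 1 2 = Q.N + 1 then B * |l9aWt Q.ms Q.N 1 2 τ| else 0) := by
    intro τ hτ
    have hw : 0 ≤ B * |l9aWt Q.ms Q.N 1 2 τ| := mul_nonneg hB (abs_nonneg _)
    have hval : |-(8 : ℝ)⁻¹ * l9aWt Q.ms Q.N 1 2 τ * (Q.X false).off 0 1 τ * Q.coq τ| ≤ B * |l9aWt Q.ms Q.N 1 2 τ| := by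
      by_cases ho : (Q.X false).off 0 1 τ = 0
      · rw [ho]; simpa using hw
      · obtain ⟨o0, o1⟩ := l9d_off_mem (Q.X false) 0 1 τ
        have hc := hcoq τ hτ ho
        rw [abs_mul, abs_mul, abs_mul, abs_of_nonneg o0, abs_neg, abs_of_nonneg (by norm_num : (0 : ℝ) ≤ 8⁻¹)]
        calc (8 : ℝ)⁻¹ * |l9aWt Q.ms Q.N 1 2 τ| * (Q.X false).off 0 1 τ * |Q.coq τ|
            ≤ 1 * |l9aWt Q.ms Q.N 1 2 τ| * 1 * B := by
              apply mul_le_mul _ hc (abs_nonneg _) (by positivity)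
              apply mul_le_mul _ o1 o0 (by positivity)
              exact mul_le_mul_of_nonneg_right (by norm_num) (abs_nonneg _)
          _ = _ := by ring
    unfold L9Q.Hq
    by_cases p1 : τ 0 2 = Q.N + 1 ∧ τ 1 3 = Q.N + 1
    · rw [if_pos (Or.inl p1), if_pos p1]
      split_ifs <;> linarith
    · by_cases p2 : τ 0 3 = Q.N + 1 ∧ τ 1 2 = Q.N + 1
      · rw [if_pos (Or.inr p2), if_neg p1, if_pos p2]
        linarith
      · rw [if_neg (by tauto), if_neg p1, if_neg p2]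
        simp
  calc ∑ τ ∈ T, |Q.Hq τ| ≤ ∑ τ ∈ T, ((if τ 0 2 = Q.N + 1 ∧ τ 1 3 = Q.N + 1 then B * |l9aWt Q.ms Q.N 1 2 τ| else 0)
      + (if τ 0 3 = Q.N + 1 ∧ τ 1 2 = Q.N + 1 then B * |l9aWt Q.ms Q.N 1 2 τ| else 0)) := Finset.sum_le_sum hpt
    _ = B * ∑ τ ∈ S1, |l9aWt Q.ms Q.N 1 2 τ| + B * ∑ τ ∈ S2, |l9aWt Q.ms Q.N 1 2 τ| := by
        rw [Finset.sum_add_distrib, ← Finset.sum_filter, ← Finset.sum_filter, Finset.mul_sum, Finset.mul_sum]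
    _ ≤ B * l9aC 2 (Q.ms Q.N) + B * l9aC 2 (Q.ms Q.N) :=
        add_le_add (mul_le_mul_of_nonneg_left b1 hB) (mul_le_mul_of_nonneg_left b2 hB)
    _ ≤ B * (2 * l9aC 2 4) := by
        have := mul_le_mul_of_nonneg_left (l9d_C_mono 2 ha) hB
        linarith

theorem D0B.Hq_sum (h : Q.D0B B V g) (hms : IsMs Q.N Q.ms) (ha : Q.ms Q.N ≤ 4) :
    ∑ τ ∈ Q.Tb (l9RgL4 V) 2, |Q.Hq τ| ≤ B * (2 * l9aC 2 4) := Hq_sum_le h.B_nn h.coq hms ha

/-- **D0 at one point** -/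
theorem D0B.point (h : Q.D0B B V g) (hms : IsMs Q.N Q.ms) (ha : Q.ms Q.N ≤ 4) {n : ℕ} (h2 : 2 ≤ n) (h4 : n ≤ 4) {R : Finset ℕ}
    (hR : R ⊆ Finset.range n) : ∑ τ ∈ Q.Tb (l9RgL4 V) n, |Q.Ht n R τ| ≤ l9dC * B := by
  have c4 := l9a_C_nonneg 4 5
  have c6 := l9a_C_nonneg 6 5
  have c8 := l9a_C_nonneg 8 5
  have c2 := l9a_C_nonneg 2 4
  have hB := h.B_nn
  have hH := h.H_sum hms ha h2 h4 hR
  have hC : l9aC (2 * n) 5 ≤ l9aC 4 5 + l9aC 6 5 + l9aC 8 5 := by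
    interval_cases n
    · show l9aC 4 5 ≤ _; linarith
    · show l9aC 6 5 ≤ _; linarith
    · show l9aC 8 5 ≤ _; linarith
  have hH' : ∑ τ ∈ Q.Tb (l9RgL4 V) n, |Q.H n R τ| ≤ B * (l9aC 4 5 + l9aC 6 5 + l9aC 8 5) :=
    hH.trans (mul_le_mul_of_nonneg_left hC hB)
  unfold L9Q.Ht l9dC
  by_cases hc : n = 2 ∧ R = {0, 1}
  · simp only [if_pos hc]
    have hq := h.Hq_sum hms ha
    obtain ⟨rfl, -⟩ := hc
    calc ∑ τ ∈ Q.Tb (l9RgL4 V) 2, |Q.H 2 R τ + Q.Hq τ|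
        ≤ ∑ τ ∈ Q.Tb (l9RgL4 V) 2, (|Q.H 2 R τ| + |Q.Hq τ|) := Finset.sum_le_sum fun τ _ => abs_add_le _ _
      _ = ∑ τ ∈ Q.Tb (l9RgL4 V) 2, |Q.H 2 R τ| + ∑ τ ∈ Q.Tb (l9RgL4 V) 2, |Q.Hq τ| := Finset.sum_add_distrib
      _ ≤ _ := by nlinarith
  · simp only [if_neg hc, add_zero]
    nlinarith

end L9Q

/-! ## 3. the shapes -/

/-- the crude bound of the real coefficients, size segment: ONE factor `1 + dot` -/
def L9dCoS (𝔹 : LlBase) (F : LlFix) (a2 : ℝ) : Prop :=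
  L9SbS 𝔹 F fun A Q => ∃ g, Q.D0B (A * (1 + Q.I.dot Q.pf Q.t)) (Q.x ^ a2) g

/-- the crude bound of the real coefficients, strength sweep -/
def L9dCoD (𝔹 : LlBase) (Mj : L9Mj) (κ : ℝ) (F : LlFix) (cD : ℝ) : Prop :=
  L9SbD 𝔹 Mj κ F fun A Q => ∃ g, Q.D0B (A * Q.lam) cD g

theorem l9d_isMs {Q : L9Q} {δm : ℝ} (hA : Q.Adm δm) : IsMs Q.N Q.ms := ll2_isMs hA.a_pos hA.adm

theorem l9d_ms_top (Q : L9Q) : Q.ms Q.N = Q.p.a := by simp [L9Q.ms, L9Q.N, llMs]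

/-- **EXIT, size segment** -/
theorem l9d_S {𝔹 : LlBase} {F : LlFix} {a2 : ℝ} (hAdm : L9cAdmS 𝔹 F) (hCo : L9dCoS 𝔹 F a2) : L9cD0S 𝔹 F a2 := by
  intro δ hδ ε hε q hq
  obtain ⟨C, N0, h⟩ := hCo δ hδ ε hε q hq
  obtain ⟨C', N0', h'⟩ := hAdm 0 δ hδ ε hε q hq
  refine ⟨l9dC * C, max N0 N0', fun N hN => ?_⟩
  filter_upwards [h N (le_of_max_le_left hN), h' N (le_of_max_le_right hN)] with Fs h1 h2
  intro m γ θ hy n hn2 hn4 R hR
  obtain ⟨g, hg⟩ := h1 m γ θ hy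
  have hA := (h2 m γ θ hy).1
  have ha : (l9QS F 𝔹 (q * skX N ^ (1 + ε)) Fs m N γ θ).ms (l9QS F 𝔹 (q * skX N ^ (1 + ε)) Fs m N γ θ).N ≤ 4 := by
    rw [l9d_ms_top]
    show (l9PtS F N γ θ).a ≤ 4
    simp [l9PtS, ll04Pt, LlPt.a]
  refine (hg.point (l9d_isMs hA) ha hn2 hn4 hR).trans (le_of_eq ?_)
  ring

/-- **EXIT, strength sweep** -/
theorem l9d_D {𝔹 : LlBase} {Mj : L9Mj} {κ : ℝ} {F : LlFix} {cD : ℝ} (hAdm : L9cAdmD 𝔹 Mj κ F) (hCo : L9dCoD 𝔹 Mj κ F cD) :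
    L9cD0D 𝔹 Mj κ F cD := by
  intro δ hδ ε hε q hq
  obtain ⟨C, N0, h⟩ := hCo δ hδ ε hε q hq
  obtain ⟨C', N0', h'⟩ := hAdm 0 δ hδ ε hε q hq
  refine ⟨l9dC * C, max N0 N0', fun N hN => ?_⟩
  filter_upwards [h N (le_of_max_le_left hN), h' N (le_of_max_le_right hN)] with Fs h1 h2
  intro m ell γ t hy n hn2 hn4 R hR
  obtain ⟨g, hg⟩ := h1 m ell γ t hy
  have hA := h2 m ell γ t hy
  have ha : (l9QD F 𝔹 (q * skX N ^ (1 + ε)) Fs m N ell γ t).ms (l9QD F 𝔹 (q * skX N ^ (1 + ε)) Fs m N ell γ t).N ≤ 4 := by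
    rw [l9d_ms_top]
    show (l9PtL N ell γ t).a ≤ 4
    have hl : ell ≤ (2 : ℝ) ^ (1 / 6 : ℝ) := hy.2.2.1.2
    have h2 : (2 : ℝ) ^ (1 / 6 : ℝ) ≤ 2 ^ (1 : ℝ) := Real.rpow_le_rpow_of_exponent_le (by norm_num) (by norm_num)
    rw [Real.rpow_one] at h2
    have : (l9PtL N ell γ t).a = ell := by simp [l9PtL, ll04Pt, LlPt.a]
    rw [this]
    linarith
  refine (hg.point (l9d_isMs hA) ha hn2 hn4 hR).trans (le_of_eq ?_)
  ring

end

theorem l9d0_eqns_cite : True := by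
  have := @l9dFk.eq_1; have := @l9dC.eq_1; have := @L9dCoS.eq_1; have := @L9dCoD.eq_1
  trivial

end Claimed.Agent.R286
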