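import Claimed.Agent.R286.L09.Alloc
import Claimed.Agent.R286.Defs.Jet

/-!
# Row 286 (S0533), LL Sec. 9, node RED: DEFINITIONS      (owner helper282; head of the unit helper60; prefix `l9r`, `L9r`)

TEX[LL:exp:prop-low-coefficients] l.410-492 of 09-expansion.tex = statement of (E4) + "Reduction to Proposition (low coefficients)".

NUMBERS ONLY, on `JtCtx` (Defs/Jet) and on the N-tables of Defs/Tr, L09/Alloc (276).   No random variable, no conditional expectation.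
* `n = 2 j` slots, pair `i` = slots `(2 i, 2 i + 1)`;   `R` = the pairs which carry a factor `Δ`;   depth = number of shared stages.
* `l9rCut n κ τ`   : the label `x` is cut at the depth `κ x` (fresh continuation after the cut): `min (τ x y) (κ x) (κ y)` off the diagonal; normalised (`0` outside the labels).
* `l9rTc n c τ`    : `τ ∧ c` (60's decision D3: PROJECTION AT THE CUT `c` = TRUNCATION OF THE TABLE; all slots become distinct leaves which separate at `c` at the latest).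
* `l9rNum X R n τ` : `ν_τ[∏_{i ∈ R} Δ_i]`.   The product of the pair tests PROJECTED at `c` has the expectation `l9rNum X R n (l9rTc n c τ)` (if all the designated splits are `≤ c`).
* `L9rPos X`       : what is used of the positive laws: finite probability weights, dependence on the labels only, MARGINALS (= `tr_nu_eq_sum`, `tr_nu_congr`, `tr_nu_comap` of 150).
* `L9rChg X r v c ζ` : LL Cor 8.7 in RESAMPLING form: a pair which splits at `v ≤ c`, minus its copy resampled after the depth `c`, has `L^r` norm `≤ ζ` (`ζ ≈ 2 C x^-ε z_c^0 c`).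
* `L9rEnv X r v E`   : (D2) envelope: `‖Δ‖_r ≤ E` for a pair which splits at `v`.
* `l9rBd R ζ E`    : `∑_{A ⊆ R, |A| ≥ 2} ∏_A ζ ∏_{R \ A} E` (at least two changes).
* `l9rB 𝒯 H n c sk`: THE GROUPED COEFFICIENT `B_c(sk) = ∑_{τ ∈ 𝒯, τ ∧ c = sk} H τ`;   `l9rSk` the skeletons;   `l9rTV = ∑_sk |B_c(sk)|`;   `l9rD = ∑_τ H τ ν_{τ ∧ c}[∏ Δ]`.
* `l9rFk n c sk`   : skeleton forks `(x, t)`: node of depth `t < c`, `x` = its least label, at least two children;   `l9rVol ms n c sk = ∏_forks μ_t / m_c`.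
* `L9rE4 ms n 𝒯 H c Λ` : **(E4)**  `|B_c(sk)| ≤ Λ ∏_{skeleton forks} dv_s / c`.      `Λ = C x^-ε λ c^(5-j)`.
The square counterterm `-¼ b Δ²` is a part of `H` carried by the 4-slot tables with `τ 0 2 = τ 1 3 = N + 1` (repeated pair): it is merged AUTOMATICALLY by the grouping.
-/

set_option autoImplicit false

namespace Claimed.Agent.R286

open scoped BigOperators

/-! ## 1. cuts of tables -/

/-- the label `x` is cut at the depth `κ x` -/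
def l9rCut (n : ℕ) (κ : ℕ → ℕ) (τ : ℕ → ℕ → ℕ) : ℕ → ℕ → ℕ := fun x y =>
  if x < n ∧ y < n then (if x = y then τ x y else min (τ x y) (min (κ x) (κ y))) else 0

/-- `τ ∧ c` -/
def l9rTc (n c : ℕ) (τ : ℕ → ℕ → ℕ) : ℕ → ℕ → ℕ := l9rCut n (fun _ => c) τ

/-- the table with `2 n` labels: `x < n` = the slots of `τ`, `n + x` = the copy of the slot `x` resampled after the depth `c` -/
def l9rBig (N n c : ℕ) (τ : ℕ → ℕ → ℕ) : ℕ → ℕ → ℕ :=
  l9rCut (2 * n) (fun x => if x < n then N + 1 else c) fun x y => τ (x % n) (y % n)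

/-- a pair `(0,1)` which splits at `v` and its copy `(2,3)` resampled after `c` -/
def l9rT4 (N v c : ℕ) : ℕ → ℕ → ℕ := fun x y => if x = y then N + 1 else if x % 2 = y % 2 then c else v

/-- a pair which splits at `v` -/
def l9rT2 (N v : ℕ) : ℕ → ℕ → ℕ := fun x y => if x = y then N + 1 else v

/-! ## 2. the numbers -/

section num
variable {S : Type}

/-- `ν_τ[∏_{i ∈ R} Δ_i]` -/
def l9rNum (X : JtCtx S) (R : Finset ℕ) (n : ℕ) (τ : ℕ → ℕ → ℕ) : ℝ :=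
  X.nu n τ fun σ => ∏ i ∈ R, X.Dl τ σ (2 * i) (2 * i + 1)

/-- the positive laws -/
structure L9rPos [Fintype S] [Inhabited S] (X : JtCtx S) : Prop where
  rep : ∀ (q : ℕ) (τ : ℕ → ℕ → ℕ), IsTr X.N q τ → ∃ w : (Fin q → S) → ℝ, (∀ σ, 0 ≤ w σ) ∧ ∑ σ, w σ = 1 ∧
    ∀ P : (ℕ → S) → ℝ, X.nu q τ P = ∑ σ, w σ * P (trExt σ)
  congr : ∀ (q : ℕ) (τ τ' : ℕ → ℕ → ℕ) (P : (ℕ → S) → ℝ), L9aAg q τ τ' → X.nu q τ P = X.nu q τ' P
  comap : ∀ (q p : ℕ) (τ : ℕ → ℕ → ℕ), IsTr X.N q τ → ∀ f : ℕ → ℕ, (∀ x, x < p → f x < q) → ∀ P : (ℕ → S) → ℝ, TrUses p P →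
    X.nu q τ (fun σ => P fun x => σ (f x)) = X.nu p (fun x y => τ (f x) (f y)) P

/-- Cor 8.7, resampling form -/
def L9rChg (X : JtCtx S) (r v c : ℕ) (ζ : ℝ) : Prop :=
  X.nu 4 (l9rT4 X.N v c) (fun σ => |X.msk v * (X.ov (σ 0) (σ 1) - X.ov (σ 2) (σ 3))| ^ r) ≤ ζ ^ r

/-- (D2), envelope of one pair -/
def L9rEnv (X : JtCtx S) (r v : ℕ) (E : ℝ) : Prop :=
  X.nu 2 (l9rT2 X.N v) (fun σ => |X.msk v * X.ov (σ 0) (σ 1) - X.qC v| ^ r) ≤ E ^ r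

end num

/-- at least two changes -/
def l9rBd (R : Finset ℕ) (ζ E : ℕ → ℝ) : ℝ :=
  ∑ A ∈ R.powerset.filter (fun A => 2 ≤ A.card), (∏ i ∈ A, ζ i) * ∏ i ∈ R \ A, E i

/-! ## 3. grouping by the skeleton -/

open Classical in
/-- the grouped coefficient `B_c(sk)` -/
noncomputable def l9rB (𝒯 : Finset (ℕ → ℕ → ℕ)) (H : (ℕ → ℕ → ℕ) → ℝ) (n c : ℕ) (sk : ℕ → ℕ → ℕ) : ℝ :=
  ∑ τ ∈ 𝒯.filter (fun τ => l9rTc n c τ = sk), H τ

open Classical in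
/-- the skeletons at the cut `c` -/
noncomputable def l9rSk (𝒯 : Finset (ℕ → ℕ → ℕ)) (n c : ℕ) : Finset (ℕ → ℕ → ℕ) := 𝒯.image (l9rTc n c)

/-- total variation of the grouped coefficients -/
noncomputable def l9rTV (𝒯 : Finset (ℕ → ℕ → ℕ)) (H : (ℕ → ℕ → ℕ) → ℝ) (n c : ℕ) : ℝ :=
  ∑ sk ∈ l9rSk 𝒯 n c, |l9rB 𝒯 H n c sk|

/-- `∑_τ H τ ν_{τ ∧ c}[∏ Δ]` -/
def l9rD {S : Type} (X : JtCtx S) (R : Finset ℕ) (n : ℕ) (𝒯 : Finset (ℕ → ℕ → ℕ)) (H : (ℕ → ℕ → ℕ) → ℝ) (c : ℕ) : ℝ :=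
  ∑ τ ∈ 𝒯, H τ * l9rNum X R n (l9rTc n c τ)

/-- `∑_τ H τ ν_τ[∏ Δ]` -/
def l9rD0 {S : Type} (X : JtCtx S) (R : Finset ℕ) (n : ℕ) (𝒯 : Finset (ℕ → ℕ → ℕ)) (H : (ℕ → ℕ → ℕ) → ℝ) : ℝ :=
  ∑ τ ∈ 𝒯, H τ * l9rNum X R n τ

/-! ## 4. skeleton forks, (E4) -/

/-- skeleton forks `(x, t)` -/
def l9rFk (n c : ℕ) (sk : ℕ → ℕ → ℕ) : Finset (ℕ × ℕ) :=
  (Finset.range n ×ˢ Finset.range c).filter fun p => trIsMin sk p.2 p.1 ∧ ∃ y ∈ Finset.range n, sk p.1 y = p.2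

/-- mass of the stage `t` -/
def l9rMu (ms : ℕ → ℝ) (t : ℕ) : ℝ := ms t - trPm ms t

/-- `∏_{skeleton forks} dv_s / c` -/
noncomputable def l9rVol (ms : ℕ → ℝ) (n c : ℕ) (sk : ℕ → ℕ → ℕ) : ℝ :=
  ∏ p ∈ l9rFk n c sk, l9rMu ms p.2 / trPm ms c

/-- **(E4)** for the coefficients `H` on the tables `𝒯`, at the cut of depth `c` (mass `trPm ms c`) -/
def L9rE4 (ms : ℕ → ℝ) (n : ℕ) (𝒯 : Finset (ℕ → ℕ → ℕ)) (H : (ℕ → ℕ → ℕ) → ℝ) (c : ℕ) (Λ : ℝ) : Prop :=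
  ∀ sk, |l9rB 𝒯 H n c sk| ≤ Λ * l9rVol ms n c sk

/-- (E4), refinement for `j = 2` and distinct designated vertices at the final cut: further factor `min_s r_s / c` -/
def L9rE4r (ms : ℕ → ℝ) (𝒯 : Finset (ℕ → ℕ → ℕ)) (H : (ℕ → ℕ → ℕ) → ℝ) (c : ℕ) (Λ : ℝ) : Prop :=
  ∀ sk, ¬ (sk 0 1 = sk 2 3 ∧ sk 0 1 ≤ sk 0 2) →
    |l9rB 𝒯 H 4 c sk| ≤ Λ * (min (ms (sk 0 1)) (ms (sk 2 3)) / trPm ms c) * l9rVol ms 4 c sk

theorem l9r_defs_eqns_cite : True := by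
  have := @l9rCut.eq_1
  have := @l9rTc.eq_1
  have := @l9rBig.eq_1
  have := @l9rT4.eq_1
  have := @l9rT2.eq_1
  have := @l9rNum.eq_1
  have := @L9rChg.eq_1
  have := @L9rEnv.eq_1
  have := @l9rBd.eq_1
  have := @l9rB.eq_1
  have := @l9rSk.eq_1
  have := @l9rTV.eq_1
  have := @l9rD.eq_1
  have := @l9rD0.eq_1
  have := @l9rFk.eq_1
  have := @l9rMu.eq_1
  have := @l9rVol.eq_1
  have := @L9rE4.eq_1
  have := @L9rE4r.eq_1
  trivial

end Claimed.Agent.R286
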