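/-
OWNER helper30.  TEX[LL:exp:lem-centered-count] (numeric part only).
Row 286, package L13 (LL 09-expansion, Lemma 9.1 "Centered allocation estimate").
NUMERIC CORE: the multiplier `F`, its table, the gains, the scale identities.
Mathlib only, no model definitions.  All statements are about real numbers.

Dictionary (LL sec. 8-9):
  x, lam, Z >= 1, s = s_*, eta;   U = x lam^(-s/2),  Y = U Z,  lam1 = lam^(1+eta),
  z0 r = x^3 / (sqrt lam1 r^3),  g0 = lam^((3s-1-eta)/2),  gB = g0 / Z^(3/2),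
  m r = Y^2 / r,  E0 = gB Y^2,
  vertex data  a s = r s / Y >= 1,  k s >= 1,  A = max a,  j = sum k,  l = number of vertices,
  P k = (m r)^(min 2 k) r^(k - min 2 k).
-/
import Mathlib

namespace Claimed.Agent.R286

open Finset

/-! ## 1. Exponents of the table -/

/-- exponent of an individual `a_s` in `F`:  `1 + k - 2 min(2,k)`. -/
def l13_e (k : ℕ) : ℤ := 1 + (k : ℤ) - 2 * (min 2 k : ℕ)

/-- the count `c(k) = min(k,3) + 1`  (`2, 3, 4, 4, ...`). -/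
def l13_c (k : ℕ) : ℕ := min k 3 + 1

theorem l13_e_one : l13_e 1 = 0 := by simp [l13_e]
theorem l13_e_two : l13_e 2 = -1 := by simp [l13_e]
theorem l13_e_ge_two {k : ℕ} (hk : 2 ≤ k) : l13_e k = (k : ℤ) - 3 := by
  unfold l13_e
  have : min 2 k = 2 := by omega
  rw [this]; push_cast; ring

/-- the multiplier of LL Lemma 9.1 (without the extra ratio of the case `j = l = 2`). -/
noncomputable def l13_F {ι : Type*} [Fintype ι] (A : ℝ) (a : ι → ℝ) (k : ι → ℕ) : ℝ :=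
  A ^ ((5 : ℤ) - (∑ s, k s : ℕ) - (Fintype.card ι : ℕ)) * ∏ s, (a s) ^ (l13_e (k s))

/-- raw vertex budget `P_k = m_r^(min 2 k) r^(k - min 2 k)`, `m_r = Y^2 / r`. -/
noncomputable def l13_P (Y r : ℝ) (k : ℕ) : ℝ := (Y ^ 2 / r) ^ (min 2 k) * r ^ (k - min 2 k)

theorem l13_P_nonneg {Y r : ℝ} (hr : 0 ≤ r) (k : ℕ) : 0 ≤ l13_P Y r k := by
  unfold l13_P; positivity

theorem l13_P_pos {Y r : ℝ} (hY : 0 < Y) (hr : 0 < r) (k : ℕ) : 0 < l13_P Y r k := by
  unfold l13_P; positivity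

theorem l13_P_one (Y r : ℝ) : l13_P Y r 1 = Y ^ 2 / r := by simp [l13_P]

theorem l13_P_ge_two (Y r : ℝ) {k : ℕ} (hk : 2 ≤ k) :
    l13_P Y r k = (Y ^ 2 / r) ^ 2 * r ^ (k - 2) := by
  unfold l13_P
  have : min 2 k = 2 := by omega
  rw [this]

/-- on the lower band (`r = Y`) the raw budget is `Y^k`. -/
theorem l13_P_lower {Y : ℝ} (hY : 0 < Y) (k : ℕ) : l13_P Y Y k = Y ^ k := by
  unfold l13_P
  have h : Y ^ 2 / Y = Y := by field_simp
  rw [h, ← pow_add]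
  congr 1
  omega

theorem l13_P_eq {Y a : ℝ} (hY : 0 < Y) (ha : 0 < a) (k : ℕ) (hk : 1 ≤ k) :
    a * l13_P Y (a * Y) k = Y ^ k * a ^ (l13_e k) := by
  unfold l13_P
  have hY0 : Y ≠ 0 := hY.ne'
  have ha0 : a ≠ 0 := ha.ne'
  rcases Nat.lt_or_ge k 3 with h | h
  · interval_cases k
    · simp [l13_e_one]; field_simp
    · rw [l13_e_two]; simp; field_simp
  · rw [l13_e_ge_two (by omega)]
    have h2 : min 2 k = 2 := by omega
    rw [h2]
    obtain ⟨n, rfl⟩ : ∃ n, k = n + 3 := ⟨k - 3, by omega⟩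
    have e1 : n + 3 - 2 = n + 1 := by omega
    rw [e1]
    have e2 : ((n + 3 : ℕ) : ℤ) - 3 = (n : ℤ) := by push_cast; ring
    rw [e2, zpow_natCast]
    field_simp
    ring

/-- one factor of the table:  `a^(e k) <= A^(k + 1 - c k)`. -/
theorem l13_factor_le {a A : ℝ} (h1 : 1 ≤ a) (hA : a ≤ A) {k : ℕ} (hk : 1 ≤ k) :
    a ^ (l13_e k) ≤ A ^ ((k : ℤ) + 1 - l13_c k) := by
  have ha0 : 0 < a := by linarith
  rcases Nat.lt_or_ge k 3 with h | h
  · interval_cases k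
    · simp [l13_e_one, l13_c]
    · rw [l13_e_two]
      have : ((2 : ℕ) : ℤ) + 1 - (l13_c 2 : ℕ) = 0 := by simp [l13_c]
      rw [this, zpow_zero, zpow_neg_one]
      exact inv_le_one_of_one_le₀ h1
  · rw [l13_e_ge_two (by omega)]
    have : (k : ℤ) + 1 - (l13_c k : ℕ) = (k : ℤ) - 3 := by
      unfold l13_c
      have : min k 3 = 3 := by omega
      rw [this]; push_cast; ring
    rw [this]
    obtain ⟨n, rfl⟩ : ∃ n, k = n + 3 := ⟨k - 3, by omega⟩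
    have e2 : ((n + 3 : ℕ) : ℤ) - 3 = (n : ℤ) := by push_cast; ring
    rw [e2, zpow_natCast, zpow_natCast]
    exact pow_le_pow_left₀ ha0.le hA n

theorem l13_prod_zpow {ι : Type*} (S : Finset ι) {A : ℝ} (hA : A ≠ 0) (f : ι → ℤ) :
    ∏ s ∈ S, A ^ (f s) = A ^ (∑ s ∈ S, f s) := by
  classical
  induction S using Finset.induction_on with
  | empty => simp
  | insert i S hi ih => rw [Finset.prod_insert hi, Finset.sum_insert hi, ih, zpow_add₀ hA]

theorem l13_F_nonneg {ι : Type*} [Fintype ι] {A : ℝ} {a : ι → ℝ} {k : ι → ℕ}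
    (h1 : ∀ s, 1 ≤ a s) (hA1 : 1 ≤ A) : 0 ≤ l13_F A a k := by
  unfold l13_F
  have hA0 : 0 < A := by linarith
  refine mul_nonneg (zpow_pos hA0 _).le (Finset.prod_nonneg ?_)
  intro s _
  exact (zpow_pos (by linarith [h1 s]) _).le

/-- **General bound**  `F <= A^(5 - sum c(k_s))`. -/
theorem l13_F_le {ι : Type*} [Fintype ι] {A : ℝ} {a : ι → ℝ} {k : ι → ℕ}
    (h1 : ∀ s, 1 ≤ a s) (hA : ∀ s, a s ≤ A) (hA1 : 1 ≤ A) (hk : ∀ s, 1 ≤ k s) :
    l13_F A a k ≤ A ^ ((5 : ℤ) - (∑ s, l13_c (k s) : ℕ)) := by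
  have hA0 : 0 < A := by linarith
  have hprod : ∏ s, (a s) ^ (l13_e (k s)) ≤ ∏ s : ι, A ^ ((k s : ℤ) + 1 - l13_c (k s)) := by
    apply Finset.prod_le_prod
    · intro s _
      exact (zpow_pos (by linarith [h1 s]) _).le
    · intro s _
      exact l13_factor_le (h1 s) (hA s) (hk s)
  have hsum : ∏ s : ι, A ^ ((k s : ℤ) + 1 - l13_c (k s))
      = A ^ (((∑ s, k s : ℕ) : ℤ) + (Fintype.card ι : ℕ) - (∑ s, l13_c (k s) : ℕ)) := by
    rw [l13_prod_zpow _ hA0.ne']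
    congr 1
    push_cast
    rw [Finset.sum_sub_distrib, Finset.sum_add_distrib]
    simp
  unfold l13_F
  calc A ^ ((5 : ℤ) - (∑ s, k s : ℕ) - (Fintype.card ι : ℕ)) * ∏ s, (a s) ^ (l13_e (k s))
      ≤ A ^ ((5 : ℤ) - (∑ s, k s : ℕ) - (Fintype.card ι : ℕ))
          * A ^ (((∑ s, k s : ℕ) : ℤ) + (Fintype.card ι : ℕ) - (∑ s, l13_c (k s) : ℕ)) := by
        rw [← hsum]
        exact mul_le_mul_of_nonneg_left hprod (zpow_pos hA0 _).le
    _ = A ^ ((5 : ℤ) - (∑ s, l13_c (k s) : ℕ)) := by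
        rw [← zpow_add₀ hA0.ne']
        congr 1
        ring

/-! ## 2. Combinatorics of the multiplicity patterns -/

theorem l13_c_ge_two (k : ℕ) (hk : 1 ≤ k) : 2 ≤ l13_c k := by unfold l13_c; omega

/-- three or more vertices: `sum c >= 6`. -/
theorem l13_sumc_of_three {ι : Type*} [Fintype ι] {k : ι → ℕ} (hk : ∀ s, 1 ≤ k s)
    (hl : 3 ≤ Fintype.card ι) : 6 ≤ ∑ s, l13_c (k s) := by
  have : ∑ _s : ι, 2 ≤ ∑ s, l13_c (k s) :=
    Finset.sum_le_sum (fun s _ => l13_c_ge_two _ (hk s))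
  simp at this
  omega

/-- two vertices, `j >= 4`: `sum c >= 6`;  `j = 3`: `sum c = 5`. -/
theorem l13_sumc_of_two {ι : Type*} [Fintype ι] {k : ι → ℕ} (hk : ∀ s, 1 ≤ k s)
    (hl : Fintype.card ι = 2) :
    (4 ≤ ∑ s, k s → 6 ≤ ∑ s, l13_c (k s)) ∧ (3 ≤ ∑ s, k s → 5 ≤ ∑ s, l13_c (k s)) := by
  classical
  obtain ⟨p, q, hpq, huniv⟩ := Finset.card_eq_two.mp (by rw [Finset.card_univ]; exact hl :
    (Finset.univ : Finset ι).card = 2)
  rw [huniv, Finset.sum_pair hpq, Finset.sum_pair hpq]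
  have h1 := hk p
  have h2 := hk q
  unfold l13_c
  constructor <;> intro h <;> omega

/-- the "generic" patterns: everything except `l = 1`, `(1,1)`, `(1,2)`. -/
def l13_generic {ι : Type*} [Fintype ι] (k : ι → ℕ) : Prop :=
  3 ≤ Fintype.card ι ∨ (Fintype.card ι = 2 ∧ 4 ≤ ∑ s, k s)

/-- **Table, last row**: `F <= 1/A` for the generic patterns. -/
theorem l13_F_le_inv {ι : Type*} [Fintype ι] {A : ℝ} {a : ι → ℝ} {k : ι → ℕ}
    (h1 : ∀ s, 1 ≤ a s) (hA : ∀ s, a s ≤ A) (hA1 : 1 ≤ A) (hk : ∀ s, 1 ≤ k s)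
    (hg : l13_generic k) : l13_F A a k ≤ A⁻¹ := by
  have h6 : 6 ≤ ∑ s, l13_c (k s) := by
    rcases hg with h | ⟨h, h'⟩
    · exact l13_sumc_of_three hk h
    · exact (l13_sumc_of_two hk h).1 h'
  refine (l13_F_le h1 hA hA1 hk).trans ?_
  rw [← zpow_neg_one]
  apply zpow_le_zpow_right₀ hA1
  have : (6 : ℤ) ≤ ((∑ s, l13_c (k s) : ℕ) : ℤ) := by exact_mod_cast h6
  linarith

/-- **Table, first row**: `l = 1` gives `F = A`. -/
theorem l13_F_single {ι : Type*} [Fintype ι] {A : ℝ} {a : ι → ℝ} {k : ι → ℕ}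
    (hl : Fintype.card ι = 1) (s0 : ι) (ha : a s0 = A) (hA0 : 0 < A) (hj : 2 ≤ ∑ s, k s) :
    l13_F A a k = A := by
  classical
  have huniv : (Finset.univ : Finset ι) = {s0} := by
    obtain ⟨p, hp⟩ := Fintype.card_eq_one_iff.mp hl
    ext t
    simp [hp t, hp s0]
  unfold l13_F
  rw [huniv] at hj ⊢
  rw [Finset.sum_singleton] at hj ⊢
  rw [Finset.prod_singleton, ha, hl, l13_e_ge_two hj, ← zpow_add₀ hA0.ne']
  have : (5 : ℤ) - (k s0 : ℕ) - ((1 : ℕ) : ℤ) + ((k s0 : ℤ) - 3) = 1 := by push_cast; ring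
  rw [this, zpow_one]

/-- **Table, row (1,1)**: `F = A` before the extra ratio. -/
theorem l13_F_oneone {ι : Type*} [Fintype ι] {A : ℝ} {a : ι → ℝ} {k : ι → ℕ}
    (hl : Fintype.card ι = 2) (hk : ∀ s, 1 ≤ k s) (hj : ∑ s, k s = 2) :
    l13_F A a k = A := by
  classical
  obtain ⟨p, q, hpq, huniv⟩ := Finset.card_eq_two.mp (by rw [Finset.card_univ]; exact hl :
    (Finset.univ : Finset ι).card = 2)
  unfold l13_F
  rw [hj, hl]
  rw [huniv, Finset.sum_pair hpq] at hj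
  have hp : k p = 1 := by have := hk p; have := hk q; omega
  have hq : k q = 1 := by have := hk p; have := hk q; omega
  rw [huniv, Finset.prod_pair hpq, hp, hq, l13_e_one]
  norm_num

/-- **Table, row (1,2)**: `F = 1 / a_duplicate`. -/
theorem l13_F_onetwo {ι : Type*} [Fintype ι] {A : ℝ} {a : ι → ℝ} {k : ι → ℕ}
    (hl : Fintype.card ι = 2) (hj : ∑ s, k s = 3) (d : ι) (hd : k d = 2) :
    l13_F A a k = (a d)⁻¹ := by
  classical
  obtain ⟨p, q, hpq, huniv⟩ := Finset.card_eq_two.mp (by rw [Finset.card_univ]; exact hl :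
    (Finset.univ : Finset ι).card = 2)
  unfold l13_F
  rw [hj, hl]
  rw [huniv, Finset.sum_pair hpq] at hj
  have hdm : d = p ∨ d = q := by
    have : d ∈ (Finset.univ : Finset ι) := Finset.mem_univ d
    rw [huniv] at this
    simpa using this
  rw [huniv, Finset.prod_pair hpq]
  rcases hdm with rfl | rfl
  · have hq : k q = 1 := by omega
    rw [hd, hq, l13_e_one, l13_e_two]
    norm_num
  · have hp : k p = 1 := by omega
    rw [hd, hp, l13_e_one, l13_e_two]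
    norm_num

/-- in the pattern (1,2) there is a duplicate and a singleton vertex. -/
theorem l13_onetwo_split {ι : Type*} [Fintype ι] {k : ι → ℕ}
    (hl : Fintype.card ι = 2) (hk : ∀ s, 1 ≤ k s) (hj : ∑ s, k s = 3) :
    ∃ d t : ι, d ≠ t ∧ k d = 2 ∧ k t = 1 ∧ ∀ u, u = d ∨ u = t := by
  classical
  obtain ⟨p, q, hpq, huniv⟩ := Finset.card_eq_two.mp (by rw [Finset.card_univ]; exact hl :
    (Finset.univ : Finset ι).card = 2)
  rw [huniv, Finset.sum_pair hpq] at hj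
  have hall : ∀ u, u = p ∨ u = q := by
    intro u
    have : u ∈ (Finset.univ : Finset ι) := Finset.mem_univ u
    rw [huniv] at this
    simpa using this
  have h1 := hk p
  have h2 := hk q
  rcases Nat.lt_or_ge (k p) 2 with h | h
  · exact ⟨q, p, hpq.symm, by omega, by omega, fun u => (hall u).symm⟩
  · exact ⟨p, q, hpq, by omega, by omega, hall⟩

/-! ## 3. The master inequality `F * kap <= min a`  -/

/-- **Master inequality.**  With the extra ratio `kap` (`<= a_s / A` for all `s` when `j = l = 2`,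
`<= 1` always) one has `F * kap <= a_s` for EVERY vertex `s`.
Consequences: (i) a centered integration at any single vertex (`gain gB / a_s`) closes;
(ii) if some `a_s = 1` every entry of the table is at most one. -/
theorem l13_master {ι : Type*} [Fintype ι] {A kap : ℝ} {a : ι → ℝ} {k : ι → ℕ}
    (h1 : ∀ s, 1 ≤ a s) (hA : ∀ s, a s ≤ A) (hmax : ∃ s, a s = A) (hk : ∀ s, 1 ≤ k s)
    (hj : 2 ≤ ∑ s, k s) (hkap0 : 0 ≤ kap) (hkap1 : kap ≤ 1)
    (hkap2 : Fintype.card ι = 2 → ∑ s, k s = 2 → ∀ s, kap ≤ a s / A) (s0 : ι) :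
    l13_F A a k * kap ≤ a s0 := by
  classical
  have hA1 : 1 ≤ A := (h1 s0).trans (hA s0)
  have hA0 : 0 < A := by linarith
  have hF0 : 0 ≤ l13_F A a k := l13_F_nonneg h1 hA1
  have hcard : 1 ≤ Fintype.card ι := Fintype.card_pos_iff.mpr ⟨s0⟩
  -- the case `F <= 1`
  have hsmall : l13_F A a k ≤ 1 → l13_F A a k * kap ≤ a s0 := by
    intro h
    calc l13_F A a k * kap ≤ 1 * 1 := mul_le_mul h hkap1 hkap0 zero_le_one
      _ ≤ a s0 := by simpa using h1 s0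
  have hle5 : 5 ≤ ∑ s, l13_c (k s) → l13_F A a k ≤ 1 := by
    intro h5
    refine (l13_F_le h1 hA hA1 hk).trans ?_
    apply zpow_le_one_of_nonpos₀ hA1
    have : (5 : ℤ) ≤ ((∑ s, l13_c (k s) : ℕ) : ℤ) := by exact_mod_cast h5
    linarith
  rcases Nat.lt_or_ge (Fintype.card ι) 3 with hl3 | hl3
  · rcases Nat.lt_or_ge (Fintype.card ι) 2 with hl2 | hl2
    · -- l = 1
      have hl : Fintype.card ι = 1 := by omega
      obtain ⟨t, ht⟩ := hmax
      have hts : t = s0 := by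
        obtain ⟨p, hp⟩ := Fintype.card_eq_one_iff.mp hl
        rw [hp t, hp s0]
      subst hts
      rw [l13_F_single hl t ht hA0 hj, ht]
      calc A * kap ≤ A * 1 := mul_le_mul_of_nonneg_left hkap1 hA0.le
        _ = A := mul_one A
    · have hl : Fintype.card ι = 2 := by omega
      rcases Nat.lt_or_ge (∑ s, k s) 3 with hj3 | hj3
      · have hj2 : ∑ s, k s = 2 := by omega
        rw [l13_F_oneone hl hk hj2]
        calc A * kap ≤ A * (a s0 / A) := mul_le_mul_of_nonneg_left (hkap2 hl hj2 s0) hA0.le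
          _ = a s0 := by field_simp
      · exact hsmall (hle5 ((l13_sumc_of_two hk hl).2 hj3))
  · exact hsmall (hle5 (by have := l13_sumc_of_three hk hl3; omega))

/-- if an assigned vertex is in the lower band (`a_s = 1`) every entry of the table is `<= 1`. -/
theorem l13_table_le_one {ι : Type*} [Fintype ι] {A kap : ℝ} {a : ι → ℝ} {k : ι → ℕ}
    (h1 : ∀ s, 1 ≤ a s) (hA : ∀ s, a s ≤ A) (hmax : ∃ s, a s = A) (hk : ∀ s, 1 ≤ k s)
    (hj : 2 ≤ ∑ s, k s) (hkap0 : 0 ≤ kap) (hkap1 : kap ≤ 1)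
    (hkap2 : Fintype.card ι = 2 → ∑ s, k s = 2 → ∀ s, kap ≤ a s / A) (s0 : ι) (hs0 : a s0 = 1) :
    l13_F A a k * kap ≤ 1 :=
  hs0 ▸ l13_master h1 hA hmax hk hj hkap0 hkap1 hkap2 s0

/-! ## 4. The raw budget identity  `lam w^(5-j) prod (r_s/w) P_{k_s} = lam Y^5 F` -/

theorem l13_raw_budget {ι : Type*} [Fintype ι] {Y A lam : ℝ} {a : ι → ℝ} {k : ι → ℕ}
    (hY : 0 < Y) (hA0 : 0 < A) (ha : ∀ s, 0 < a s) (hk : ∀ s, 1 ≤ k s) :
    lam * (A * Y) ^ ((5 : ℤ) - (∑ s, k s : ℕ))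
        * ∏ s, ((a s * Y) / (A * Y) * l13_P Y (a s * Y) (k s))
      = lam * Y ^ 5 * l13_F A a k := by
  have hfac : ∀ s, (a s * Y) / (A * Y) * l13_P Y (a s * Y) (k s)
      = A⁻¹ * (Y ^ (k s) * (a s) ^ (l13_e (k s))) := by
    intro s
    rw [← l13_P_eq hY (ha s) (k s) (hk s)]
    field_simp
  simp_rw [hfac]
  rw [Finset.prod_mul_distrib, Finset.prod_mul_distrib, Finset.prod_const,
    Finset.prod_pow_eq_pow_sum, Finset.card_univ]
  unfold l13_F
  rw [mul_zpow]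
  have e1 : A ^ ((5 : ℤ) - (∑ s, k s : ℕ) - (Fintype.card ι : ℕ))
      = A ^ ((5 : ℤ) - (∑ s, k s : ℕ)) * A⁻¹ ^ (Fintype.card ι) := by
    rw [zpow_sub₀ hA0.ne', zpow_natCast, inv_pow]
    rfl
  have e2 : Y ^ ((5 : ℤ) - (∑ s, k s : ℕ)) * Y ^ (∑ s, k s) = Y ^ 5 := by
    rw [← zpow_natCast Y (∑ s, k s), ← zpow_add₀ hY.ne']
    have : (5 : ℤ) - (∑ s, k s : ℕ) + (∑ s, k s : ℕ) = ((5 : ℕ) : ℤ) := by push_cast; ring
    rw [this, zpow_natCast]
  rw [e1, ← e2]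
  ring

/-! ## 5. Scales: identities between `x, lam, Z, U, Y, z0, g0, gB, m_r, E0` -/

/-- the scales of LL sec. 8, as a bundle of real numbers with their defining equations. -/
structure L13Scales where
  x : ℝ
  lam : ℝ
  Z : ℝ
  s : ℝ
  eta : ℝ
  hx : 0 < x
  hlam : 0 < lam
  hZ : 1 ≤ Z

namespace L13Scales

variable (S : L13Scales)

noncomputable def U : ℝ := S.x * S.lam ^ (-S.s / 2)
noncomputable def Y : ℝ := S.U * S.Z
noncomputable def lam1 : ℝ := S.lam ^ (1 + S.eta)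
noncomputable def z0 (r : ℝ) : ℝ := S.x ^ 3 / (Real.sqrt S.lam1 * r ^ 3)
noncomputable def g0 : ℝ := S.lam ^ ((3 * S.s - 1 - S.eta) / 2)
noncomputable def gB : ℝ := S.g0 / S.Z ^ ((3 : ℝ) / 2)
noncomputable def m (r : ℝ) : ℝ := S.Y ^ 2 / r
noncomputable def E0 : ℝ := S.gB * S.Y ^ 2

theorem Z_pos : 0 < S.Z := lt_of_lt_of_le zero_lt_one S.hZ
theorem U_pos : 0 < S.U := mul_pos S.hx (Real.rpow_pos_of_pos S.hlam _)
theorem Y_pos : 0 < S.Y := mul_pos S.U_pos S.Z_pos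
theorem lam1_pos : 0 < S.lam1 := Real.rpow_pos_of_pos S.hlam _
theorem g0_pos : 0 < S.g0 := Real.rpow_pos_of_pos S.hlam _
theorem gB_pos : 0 < S.gB := div_pos S.g0_pos (Real.rpow_pos_of_pos S.Z_pos _)
theorem E0_pos : 0 < S.E0 := mul_pos S.gB_pos (pow_pos S.Y_pos 2)
theorem U_le_Y : S.U ≤ S.Y := by
  unfold Y
  calc S.U = S.U * 1 := (mul_one _).symm
    _ ≤ S.U * S.Z := mul_le_mul_of_nonneg_left S.hZ S.U_pos.le
theorem z0_pos {r : ℝ} (hr : 0 < r) : 0 < S.z0 r :=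
  div_pos (pow_pos S.hx 3) (mul_pos (Real.sqrt_pos.mpr S.lam1_pos) (pow_pos hr 3))

/-- exponential coordinates: every scale is `exp` of a linear form. -/
theorem exp_coords : ∃ X L ζ : ℝ, S.x = Real.exp X ∧ S.lam = Real.exp L ∧ S.Z = Real.exp ζ :=
  ⟨Real.log S.x, Real.log S.lam, Real.log S.Z, (Real.exp_log S.hx).symm,
    (Real.exp_log S.hlam).symm, (Real.exp_log S.Z_pos).symm⟩

/-- `z_r^0 = g_0 (U/r)^3`. -/
theorem z0_eq {r : ℝ} (_hr : 0 < r) : S.z0 r = S.g0 * (S.U / r) ^ 3 := by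
  obtain ⟨X, L, ζ, hX, hL, hζ⟩ := S.exp_coords
  unfold z0 g0 U lam1
  rw [hX, hL, Real.sqrt_eq_rpow, div_pow, ← mul_div_assoc, div_mul_eq_div_div]
  congr 1
  simp only [← Real.exp_mul, ← Real.exp_nat_mul, ← Real.exp_add, ← Real.exp_sub]
  congr 1
  push_cast
  ring

/-- `lam Y^5 (x/Y) = x^5 lam^(1-2s) Z^4`. -/
theorem first_contribution :
    S.lam * S.Y ^ 5 * (S.x / S.Y) = S.x ^ 5 * S.lam ^ (1 - 2 * S.s) * S.Z ^ 4 := by
  obtain ⟨X, L, ζ, hX, hL, hζ⟩ := S.exp_coords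
  unfold Y U
  rw [hX, hL, hζ]
  simp only [← Real.exp_mul, ← Real.exp_nat_mul, ← Real.exp_add, ← Real.exp_sub]
  congr 1
  push_cast
  ring

/-- `lam Y^5 gB = x^5 lam^((1-eta)/2 - s) Z^(7/2)`. -/
theorem second_contribution :
    S.lam * S.Y ^ 5 * S.gB
      = S.x ^ 5 * S.lam ^ ((1 - S.eta) / 2 - S.s) * S.Z ^ ((7 : ℝ) / 2) := by
  obtain ⟨X, L, ζ, hX, hL, hζ⟩ := S.exp_coords
  unfold gB g0 Y U
  rw [hX, hL, hζ]
  simp only [← Real.exp_mul, ← Real.exp_nat_mul, ← Real.exp_add, ← Real.exp_sub]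
  congr 1
  push_cast
  ring

/-- `E_0 = gB Y^2 = x^3 sqrt Y / (sqrt lam1 U^(3/2))`. -/
theorem E0_eq :
    S.E0 = S.x ^ 3 * Real.sqrt S.Y / (Real.sqrt S.lam1 * S.U ^ ((3 : ℝ) / 2)) := by
  obtain ⟨X, L, ζ, hX, hL, hζ⟩ := S.exp_coords
  unfold E0 gB g0 Y U lam1
  rw [hX, hL, hζ, Real.sqrt_eq_rpow, Real.sqrt_eq_rpow]
  simp only [← Real.exp_mul, ← Real.exp_nat_mul, ← Real.exp_add, ← Real.exp_sub]
  congr 1
  push_cast
  ring

/-- direct Taylor remainder (T4): `lam z_1^0 Y^2 Z^2 = x^5 lam^((1-eta)/2 - s) Z^4`. -/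
theorem taylor_direct :
    S.lam * S.z0 1 * S.Y ^ 2 * S.Z ^ 2
      = S.x ^ 5 * S.lam ^ ((1 - S.eta) / 2 - S.s) * S.Z ^ 4 := by
  obtain ⟨X, L, ζ, hX, hL, hζ⟩ := S.exp_coords
  unfold z0 Y U lam1
  rw [hX, hL, hζ, Real.sqrt_eq_rpow]
  simp only [one_pow, mul_one, ← Real.exp_mul, ← Real.exp_nat_mul, ← Real.exp_add,
    ← Real.exp_sub]
  congr 1
  push_cast
  ring

/-- `Y^2 = x^2 lam^(-s) Z^2`. -/
theorem Y_sq : S.Y ^ 2 = S.x ^ 2 * S.lam ^ (-S.s) * S.Z ^ 2 := by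
  obtain ⟨X, L, ζ, hX, hL, hζ⟩ := S.exp_coords
  unfold Y U
  rw [hX, hL, hζ]
  simp only [← Real.exp_mul, ← Real.exp_nat_mul, ← Real.exp_add]
  congr 1
  push_cast
  ring

/-- projection cost squared: `(z_c^0 c)^2 = x^6 lam^(-1-eta) / c^4`. -/
theorem proj_sq {c : ℝ} (hc : 0 < c) :
    (S.z0 c * c) ^ 2 = S.x ^ 6 * S.lam ^ (-1 - S.eta) / c ^ 4 := by
  have h : S.z0 c * c = (S.x ^ 3 / Real.sqrt S.lam1) / c ^ 2 := by
    unfold z0
    have := Real.sqrt_pos.mpr S.lam1_pos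
    field_simp
  rw [h, div_pow]
  congr 1
  · obtain ⟨X, L, ζ, hX, hL, hζ⟩ := S.exp_coords
    unfold lam1
    rw [hX, hL, Real.sqrt_eq_rpow]
    simp only [← Real.exp_mul, ← Real.exp_nat_mul, ← Real.exp_add, ← Real.exp_sub]
    congr 1
    push_cast
    ring
  · ring

/-- first projection on a direct path: `lam (z_c^0 c)^2 = x^6 lam^(-eta) / c^4`. -/
theorem first_proj_direct {c : ℝ} (hc : 0 < c) :
    S.lam * (S.z0 c * c) ^ 2 = S.x ^ 6 * S.lam ^ (-S.eta) / c ^ 4 := by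
  rw [S.proj_sq hc, ← mul_div_assoc]
  congr 1
  have : S.lam ^ (-S.eta) = S.lam * S.lam ^ (-1 - S.eta) := by
    nth_rewrite 2 [← Real.rpow_one S.lam]
    rw [← Real.rpow_add S.hlam]
    congr 1
    ring
  rw [this]
  ring

/-- first projection on a size path, cut `c = lam`: `(z_c^0 c)^2 = x^6 lam^(-5-eta)`. -/
theorem first_proj_size : (S.z0 S.lam * S.lam) ^ 2 = S.x ^ 6 * S.lam ^ (-5 - S.eta) := by
  rw [S.proj_sq S.hlam, mul_div_assoc]
  congr 1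
  rw [← Real.rpow_natCast S.lam 4, ← Real.rpow_sub S.hlam]
  congr 1
  push_cast
  ring

/-- halving step: `lam c^5 (z_c^0)^2 = x^6 lam^(-eta) / c`. -/
theorem halving_eq {c : ℝ} (hc : 0 < c) :
    S.lam * c ^ 5 * (S.z0 c) ^ 2 = S.x ^ 6 * S.lam ^ (-S.eta) / c := by
  have h := S.first_proj_direct hc
  have : S.lam * c ^ 5 * (S.z0 c) ^ 2 = (S.lam * (S.z0 c * c) ^ 2) * c ^ 3 := by ring
  rw [this, h]
  field_simp

/-- halving step, `c >= U`: `x^6 lam^(-eta) / c <= x^5 lam^(s/2 - eta)`. -/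
theorem halving_le {c : ℝ} (hc : S.U ≤ c) :
    S.lam * c ^ 5 * (S.z0 c) ^ 2 ≤ S.x ^ 5 * S.lam ^ (S.s / 2 - S.eta) := by
  have hc0 : 0 < c := lt_of_lt_of_le S.U_pos hc
  rw [S.halving_eq hc0]
  have hnum : 0 ≤ S.x ^ 6 * S.lam ^ (-S.eta) :=
    (mul_pos (pow_pos S.hx 6) (Real.rpow_pos_of_pos S.hlam _)).le
  calc S.x ^ 6 * S.lam ^ (-S.eta) / c ≤ S.x ^ 6 * S.lam ^ (-S.eta) / S.U :=
        div_le_div_of_nonneg_left hnum S.U_pos hc
    _ = S.x ^ 5 * S.lam ^ (S.s / 2 - S.eta) := by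
        obtain ⟨X, L, ζ, hX, hL, hζ⟩ := S.exp_coords
        unfold U
        rw [hX, hL]
        simp only [← Real.exp_mul, ← Real.exp_nat_mul, ← Real.exp_add, ← Real.exp_sub]
        congr 1
        push_cast
        ring

/-! ### gains -/

theorem Z32_le_sq : S.Z ^ ((3 : ℝ) / 2) ≤ S.Z ^ 2 := by
  rw [← Real.rpow_natCast S.Z 2]
  exact Real.rpow_le_rpow_of_exponent_le S.hZ (by norm_num)

/-- `g0 / Z^2 <= gB`. -/
theorem g0_div_le : S.g0 / S.Z ^ 2 ≤ S.gB := by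
  unfold gB
  exact div_le_div_of_nonneg_left S.g0_pos.le (Real.rpow_pos_of_pos S.Z_pos _) S.Z32_le_sq

/-- (D10)/`P_k`:  `z_r^0 r Z = (g0 / (a Z^2)) m_r`  at `r = a Y`. -/
theorem center_gain_eq {a : ℝ} (ha : 0 < a) :
    S.z0 (a * S.Y) * (a * S.Y) * S.Z = S.g0 / S.Z ^ 2 / a * S.m (a * S.Y) := by
  have hr : 0 < a * S.Y := mul_pos ha S.Y_pos
  rw [S.z0_eq hr]
  unfold m Y
  have hU := S.U_pos
  have hZ := S.Z_pos
  field_simp

/-- (D10) relative to the raw budget: gain `gB / a`; `Zh` is `Z` (direct) or `1` (low region). -/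
theorem center_gain {a Zh : ℝ} (ha : 0 < a) (hZh : Zh ≤ S.Z) :
    S.z0 (a * S.Y) * (a * S.Y) * Zh ≤ S.gB / a * S.m (a * S.Y) := by
  have hr : 0 < a * S.Y := mul_pos ha S.Y_pos
  have hm : 0 < S.m (a * S.Y) := div_pos (pow_pos S.Y_pos 2) hr
  calc S.z0 (a * S.Y) * (a * S.Y) * Zh ≤ S.z0 (a * S.Y) * (a * S.Y) * S.Z :=
        mul_le_mul_of_nonneg_left hZh (mul_pos (S.z0_pos hr) hr).le
    _ = S.g0 / S.Z ^ 2 / a * S.m (a * S.Y) := S.center_gain_eq ha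
    _ ≤ S.gB / a * S.m (a * S.Y) := by
        apply mul_le_mul_of_nonneg_right _ hm.le
        exact div_le_div_of_nonneg_right S.g0_div_le ha.le

/-- (D7) third bound: `z_r^0 Zh r^2 <= gB Y^2 / a` at `r = a Y`. -/
theorem var_gain {a Zh : ℝ} (ha : 0 < a) (hZh : Zh ≤ S.Z) :
    S.z0 (a * S.Y) * Zh * (a * S.Y) ^ 2 ≤ S.gB * S.Y ^ 2 / a := by
  have h := S.center_gain ha hZh
  have hr : 0 < a * S.Y := mul_pos ha S.Y_pos
  calc S.z0 (a * S.Y) * Zh * (a * S.Y) ^ 2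
      = (S.z0 (a * S.Y) * (a * S.Y) * Zh) * (a * S.Y) := by ring
    _ ≤ (S.gB / a * S.m (a * S.Y)) * (a * S.Y) := mul_le_mul_of_nonneg_right h hr.le
    _ = S.gB * S.Y ^ 2 / a := by
        unfold m
        have := S.Y_pos
        field_simp

/-- `m_r = Y / a` at `r = a Y`. -/
theorem m_eq {a : ℝ} (ha : 0 < a) : S.m (a * S.Y) = S.Y / a := by
  unfold m
  have := S.Y_pos
  field_simp

/-- square-root gain: `(gB Y^2 / a)^(1/2) = sqrt (gB a) m_r`. -/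
theorem sqrt_gain {a : ℝ} (ha : 0 < a) :
    Real.sqrt (S.gB * S.Y ^ 2 / a) = Real.sqrt (S.gB * a) * S.m (a * S.Y) := by
  rw [S.m_eq ha]
  have hYa : 0 ≤ S.Y / a := (div_pos S.Y_pos ha).le
  have : S.gB * S.Y ^ 2 / a = (S.gB * a) * (S.Y / a) ^ 2 := by field_simp
  rw [this, Real.sqrt_mul (mul_pos S.gB_pos ha).le, Real.sqrt_sq hYa]

/-- duplicate gain: `gB Y^2 / a = (gB a) m_r^2`. -/
theorem dup_gain {a : ℝ} (ha : 0 < a) :
    S.gB * S.Y ^ 2 / a = (S.gB * a) * S.m (a * S.Y) ^ 2 := by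
  rw [S.m_eq ha]
  field_simp

end L13Scales

/-! ## 6. The leaves of the case tree of Lemma 9.1:  `F * kap * (product of gains) <= gB` -/

section leaves

variable {ι : Type*} [Fintype ι] {A kap g : ℝ} {a : ι → ℝ} {k : ι → ℕ}

/-- (L1) one centered vertex (gain `g / a_s0`), any pattern. -/
theorem l13_leaf_center
    (h1 : ∀ s, 1 ≤ a s) (hA : ∀ s, a s ≤ A) (hmax : ∃ s, a s = A) (hk : ∀ s, 1 ≤ k s)
    (hj : 2 ≤ ∑ s, k s) (hkap0 : 0 ≤ kap) (hkap1 : kap ≤ 1)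
    (hkap2 : Fintype.card ι = 2 → ∑ s, k s = 2 → ∀ s, kap ≤ a s / A) (hg : 0 ≤ g) (s0 : ι) :
    l13_F A a k * kap * (g / a s0) ≤ g := by
  have h := l13_master h1 hA hmax hk hj hkap0 hkap1 hkap2 s0
  have ha : 0 < a s0 := by linarith [h1 s0]
  calc l13_F A a k * kap * (g / a s0) ≤ a s0 * (g / a s0) :=
        mul_le_mul_of_nonneg_right h (div_nonneg hg ha.le)
    _ = g := by field_simp

/-- (L2) two selected vertices, generic pattern: gain `sqrt (g a1) sqrt (g a2)`. -/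
theorem l13_leaf_two
    (h1 : ∀ s, 1 ≤ a s) (hA : ∀ s, a s ≤ A) (hk : ∀ s, 1 ≤ k s) (hgen : l13_generic k)
    (hkap0 : 0 ≤ kap) (hkap1 : kap ≤ 1) (hg : 0 ≤ g) (s1 s2 : ι) :
    l13_F A a k * kap * (Real.sqrt (g * a s1) * Real.sqrt (g * a s2)) ≤ g := by
  have hA1 : 1 ≤ A := (h1 s1).trans (hA s1)
  have hA0 : 0 < A := by linarith
  have hF := l13_F_le_inv h1 hA hA1 hk hgen
  have hF0 : 0 ≤ l13_F A a k := l13_F_nonneg h1 hA1
  have hs : Real.sqrt (g * a s1) * Real.sqrt (g * a s2) ≤ g * A := by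
    have e1 : Real.sqrt (g * a s1) ≤ Real.sqrt (g * A) :=
      Real.sqrt_le_sqrt (mul_le_mul_of_nonneg_left (hA s1) hg)
    have e2 : Real.sqrt (g * a s2) ≤ Real.sqrt (g * A) :=
      Real.sqrt_le_sqrt (mul_le_mul_of_nonneg_left (hA s2) hg)
    calc Real.sqrt (g * a s1) * Real.sqrt (g * a s2)
        ≤ Real.sqrt (g * A) * Real.sqrt (g * A) :=
          mul_le_mul e1 e2 (Real.sqrt_nonneg _) (Real.sqrt_nonneg _)
      _ = g * A := Real.mul_self_sqrt (mul_nonneg hg hA0.le)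
  calc l13_F A a k * kap * (Real.sqrt (g * a s1) * Real.sqrt (g * a s2))
      ≤ (A⁻¹ * 1) * (g * A) := by
        apply mul_le_mul (mul_le_mul hF hkap1 hkap0 (inv_nonneg.mpr hA0.le)) hs
          (mul_nonneg (Real.sqrt_nonneg _) (Real.sqrt_nonneg _))
        simpa using (inv_nonneg.mpr hA0.le)
    _ = g := by field_simp

/-- (L3) pattern (1,2), both factors at the duplicate stochastic: gain `g a_d`. -/
theorem l13_leaf_dup
    (h1 : ∀ s, 1 ≤ a s) (hl : Fintype.card ι = 2) (hj : ∑ s, k s = 3) (d : ι) (hd : k d = 2)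
    (hkap1 : kap ≤ 1) (hg : 0 ≤ g) :
    l13_F A a k * kap * (g * a d) ≤ g := by
  rw [l13_F_onetwo hl hj d hd]
  have ha : 0 < a d := by linarith [h1 d]
  have : (a d)⁻¹ * kap * (g * a d) = kap * g := by field_simp
  rw [this]
  calc kap * g ≤ 1 * g := mul_le_mul_of_nonneg_right hkap1 hg
    _ = g := one_mul g

/-- (L4) pattern (1,2), one stochastic factor at the duplicate `d`, singleton `t` with
`a_t <= a_d`. -/
theorem l13_leaf_onetwo_cs
    (h1 : ∀ s, 1 ≤ a s) (hl : Fintype.card ι = 2) (hj : ∑ s, k s = 3) (d t : ι) (hd : k d = 2)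
    (htd : a t ≤ a d) (hkap0 : 0 ≤ kap) (hkap1 : kap ≤ 1) (hg : 0 ≤ g) :
    l13_F A a k * kap * (Real.sqrt (g * a t) * Real.sqrt (g * a d)) ≤ g := by
  have ha : 0 < a d := by linarith [h1 d]
  have hs : Real.sqrt (g * a t) * Real.sqrt (g * a d) ≤ g * a d := by
    have e1 : Real.sqrt (g * a t) ≤ Real.sqrt (g * a d) :=
      Real.sqrt_le_sqrt (mul_le_mul_of_nonneg_left htd hg)
    calc Real.sqrt (g * a t) * Real.sqrt (g * a d)
        ≤ Real.sqrt (g * a d) * Real.sqrt (g * a d) :=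
          mul_le_mul_of_nonneg_right e1 (Real.sqrt_nonneg _)
      _ = g * a d := Real.mul_self_sqrt (mul_nonneg hg ha.le)
  have hF0 : 0 ≤ l13_F A a k * kap := by
    rw [l13_F_onetwo hl hj d hd]
    exact mul_nonneg (inv_nonneg.mpr ha.le) hkap0
  exact (mul_le_mul_of_nonneg_left hs hF0).trans (l13_leaf_dup h1 hl hj d hd hkap1 hg)

/-- (L6) pattern (1,1) in the lower band (`a = 1` at both vertices): Cauchy-Schwarz. -/
theorem l13_leaf_oneone_low
    (h1 : ∀ s, a s = 1) (hA : A = 1) (hl : Fintype.card ι = 2) (hk : ∀ s, 1 ≤ k s)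
    (hj : ∑ s, k s = 2) (_hkap0 : 0 ≤ kap) (hkap1 : kap ≤ 1) (hg : 0 ≤ g) (s1 s2 : ι) :
    l13_F A a k * kap * (Real.sqrt (g * a s1) * Real.sqrt (g * a s2)) ≤ g := by
  rw [l13_F_oneone hl hk hj, h1 s1, h1 s2, hA, mul_one, Real.mul_self_sqrt hg, one_mul]
  calc kap * g ≤ 1 * g := mul_le_mul_of_nonneg_right hkap1 hg
    _ = g := one_mul g

end leaves

/-! ## 7. Products of vertex budgets -/

/-- monotonicity of the weighted product in the vertex budgets: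
if the budget at `s` is at most `gam s * P_{k_s}(r_s)`, the term is at most
`lam Y^5 F kap prod gam`. -/
theorem l13_budget_le {ι : Type*} [Fintype ι] {Y A lam kap : ℝ} {a gam B : ι → ℝ} {k : ι → ℕ}
    (hY : 0 < Y) (hA0 : 0 < A) (ha : ∀ s, 0 < a s) (hk : ∀ s, 1 ≤ k s) (hlam : 0 ≤ lam)
    (hkap : 0 ≤ kap) (hB0 : ∀ s, 0 ≤ B s)
    (hB : ∀ s, B s ≤ gam s * l13_P Y (a s * Y) (k s)) :
    lam * (A * Y) ^ ((5 : ℤ) - (∑ s, k s : ℕ)) * kap * ∏ s, ((a s * Y) / (A * Y) * B s)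
      ≤ lam * Y ^ 5 * (l13_F A a k * kap * ∏ s, gam s) := by
  have hq : ∀ s, 0 ≤ (a s * Y) / (A * Y) := fun s =>
    (div_pos (mul_pos (ha s) hY) (mul_pos hA0 hY)).le
  have h1 : ∏ s, ((a s * Y) / (A * Y) * B s)
      ≤ ∏ s, (((a s * Y) / (A * Y) * l13_P Y (a s * Y) (k s)) * gam s) := by
    apply Finset.prod_le_prod
    · intro s _
      exact mul_nonneg (hq s) (hB0 s)
    · intro s _
      calc (a s * Y) / (A * Y) * B s ≤ (a s * Y) / (A * Y) * (gam s * l13_P Y (a s * Y) (k s)) :=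
            mul_le_mul_of_nonneg_left (hB s) (hq s)
        _ = ((a s * Y) / (A * Y) * l13_P Y (a s * Y) (k s)) * gam s := by ring
  have h1' : ∏ s, (((a s * Y) / (A * Y) * l13_P Y (a s * Y) (k s)) * gam s)
      = (∏ s, ((a s * Y) / (A * Y) * l13_P Y (a s * Y) (k s))) * ∏ s, gam s :=
    Finset.prod_mul_distrib
  rw [h1'] at h1
  have hc : 0 ≤ lam * (A * Y) ^ ((5 : ℤ) - (∑ s, k s : ℕ)) * kap :=
    mul_nonneg (mul_nonneg hlam (zpow_pos (mul_pos hA0 hY) _).le) hkap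
  calc lam * (A * Y) ^ ((5 : ℤ) - (∑ s, k s : ℕ)) * kap * ∏ s, ((a s * Y) / (A * Y) * B s)
      ≤ lam * (A * Y) ^ ((5 : ℤ) - (∑ s, k s : ℕ)) * kap
          * ((∏ s, ((a s * Y) / (A * Y) * l13_P Y (a s * Y) (k s))) * ∏ s, gam s) :=
        mul_le_mul_of_nonneg_left h1 hc
    _ = (lam * (A * Y) ^ ((5 : ℤ) - (∑ s, k s : ℕ))
          * ∏ s, ((a s * Y) / (A * Y) * l13_P Y (a s * Y) (k s))) * (kap * ∏ s, gam s) := by ring
    _ = lam * Y ^ 5 * (l13_F A a k * kap * ∏ s, gam s) := by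
        rw [l13_raw_budget hY hA0 ha hk]; ring

/-- product of a gain function which is `g` at `s0` and `c` elsewhere. -/
theorem l13_prod_gain_one {ι : Type*} [Fintype ι] [DecidableEq ι] (s0 : ι) (g : ℝ) :
    ∏ s, (if s = s0 then g else 1) = g := by
  rw [Finset.prod_ite_eq' Finset.univ s0 (fun _ => g)]
  simp

theorem l13_prod_gain_two {ι : Type*} [Fintype ι] [DecidableEq ι] {s1 s2 : ι} (h : s1 ≠ s2)
    (g1 g2 : ℝ) :
    ∏ s, (if s = s1 then g1 else if s = s2 then g2 else 1) = g1 * g2 := by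
  have e : ∀ s, (if s = s1 then g1 else if s = s2 then g2 else 1)
      = (if s = s1 then g1 else 1) * (if s = s2 then g2 else 1) := by
    intro s
    by_cases h1 : s = s1
    · have h2 : s ≠ s2 := fun h' => h (h1.symm.trans h')
      simp [h1, h]
    · simp [h1]
  simp_rw [e]
  rw [Finset.prod_mul_distrib, l13_prod_gain_one, l13_prod_gain_one]

/-! ## 8. Normalised-measure counts -/

/-- `w^l <= w^(5-j)` when `j + l >= 5` and `w <= 1` (direct paths, bounded densities). -/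
theorem l13_measure_count {w : ℝ} (hw0 : 0 < w) (hw1 : w ≤ 1) {j l : ℕ} (h : 5 ≤ j + l) :
    w ^ l ≤ w ^ ((5 : ℤ) - j) := by
  rw [← zpow_natCast w l]
  apply zpow_le_zpow_right_of_le_one₀ hw0 hw1
  have : (5 : ℤ) ≤ (j : ℤ) + l := by exact_mod_cast h
  linarith

/-- `w^l <= lam w^(5-j)` when `j + l >= 6` and `w <= lam <= 1` (size paths, `j >= 5`, `l >= 1`). -/
theorem l13_measure_count_size {w lam : ℝ} (hw0 : 0 < w) (hw : w ≤ lam) (hlam : lam ≤ 1)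
    {j l : ℕ} (h : 6 ≤ j + l) : w ^ l ≤ lam * w ^ ((5 : ℤ) - j) := by
  have hw1 : w ≤ 1 := hw.trans hlam
  have h1 : w ^ l ≤ w ^ ((6 : ℤ) - j) := by
    rw [← zpow_natCast w l]
    apply zpow_le_zpow_right_of_le_one₀ hw0 hw1
    have : (6 : ℤ) ≤ (j : ℤ) + l := by exact_mod_cast h
    linarith
  have h2 : w ^ ((6 : ℤ) - j) = w * w ^ ((5 : ℤ) - j) := by
    rw [← zpow_one_add₀ hw0.ne']
    congr 1
    ring
  rw [h2] at h1
  exact h1.trans (mul_le_mul_of_nonneg_right hw (zpow_pos hw0 _).le)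

end Claimed.Agent.R286
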