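import Claimed.Agent.R286.L09.TrdCore
import Claimed.Agent.R286.L08.DList

/-!
# Row 286 (S0533), unit L09, file TrdT34P: THE POINT THEOREM OF THE SUPPLY T34 OF THE NODE TRD (LL 09-expansion.tex l.252-285)      (owner helper4; prefix `l9zt_`, `l9zt*`)

    exit_l9x_t34 (L09/Trd)  <=  shell (L8xDir -> L9SbD, numerics)  +  l9zt_point (HERE)

ONE INSTANCE `I : L8In` of LL 08, ONE ENSEMBLE `tl`.
* `l9ztSm I s = I.S (min s I.n)`     the centring (`= Q.xSm` at `I = Q.i8`);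
* `l9ztX I tl`                       the jet context of the ensemble at the monotone reference `K_S = h + b S` (`= Q.xXS tl`): there `J = b (msk Q - S)` (`l9zt_J`);
* `l9zt_point`: `l9y_t34` (TrdCore) with `Bd = 2 M0`, `sig t = 2 M0 A e_t`, `thr = 2 M0 A x^δ'`, `Dsq t = M0² ν[(Q - S_t)²]`, `E8' = M0² E8`:

      errW W k ≤ C w (2 M0 (2 M0 A x^δ')^(k-1) + (2 M0)^(k-2) M0² E8).

  INPUT: (D2) second line (`Rnd.ref_Q`), `|f| ≤ A e` (`Env.f_le`), `S ≤ A (v + Y)` (`Num.s_le`), `e = Y` below `Y` (`Env.low`), masked stages have a mass `≤ Y`, `Y < x^δ'`, and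
  (D8) / (D8t) in the common form `∫_Y^a 1(e ≥ x^δ') ν[(Q - S)²] dv ≤ E8`.
-/

set_option autoImplicit false

namespace Claimed.Agent.R286

open scoped BigOperators Nat
open MeasureTheory Finset

noncomputable section

/-- the centring: untilted mean overlap at a pair which shares `s` stages, constant after the last stage -/
def l9ztSm (I : L8In) (s : ℕ) : ℝ := I.S (min s I.n)

/-- the jet context of the ensemble `tl` at the monotone reference `K_S = h + b S` -/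
def l9ztX (I : L8In) (tl : Bool) : JtCtx (SkCfg I.m) := llJs I.m I.a (l9xPS I.LP (l9ztSm I)) (l8dTl I tl)

/-- second moment of the overlap about the untilted mean, ensemble `tl`, pair which shares `t` stages -/
def l9ztV (I : L8In) (tl : Bool) (t : ℕ) : ℝ := I.moF tl t 1 (fun ω => (I.sp tl).Q ω - I.S t)

end

theorem l9zt_eqns_cite : True := by
  have := @l9ztSm.eq_1
  have := @l9ztX.eq_1
  have := @l9ztV.eq_1
  trivial

variable {I : L8In}

theorem l9zt_pair (h : I.Std) (hC : L9xCen I.LP (l9ztSm I)) (tl : Bool) :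
    L2rcPair (I.X tl) (l9ztX I tl) (llMs I.a I.LP) (l2riKap I.a I.LP (l9xPS I.LP (l9ztSm I))) :=
  l2ri_pair I.m h.a_pos h.adm (l9x_ps_adm h.adm hC) (l9x_ref_mat _ _) (l8dTl I tl)

theorem l9zt_N (h : I.Std) (hC : L9xCen I.LP (l9ztSm I)) (tl : Bool) : (l9ztX I tl).N = I.n := (l9zt_pair h hC tl).hN

/-- at the reference `K_S`: `J = b (msk Q - S)` -/
theorem l9zt_J (h : I.Std) (hC : L9xCen I.LP (l9ztSm I)) (tl : Bool) {t : ℕ} (ht : t ≤ I.n) (σ : ℕ → SkCfg I.m) :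
    (l9ztX I tl).J (trPair (l9ztX I tl).N t) σ 0 1 = I.bC t * ((I.X tl).msk t * (I.X tl).ov (σ 0) (σ 1) - I.S t) := by
  have hp := l9zt_pair h hC tl
  have e0 : trPair (l9ztX I tl).N t 0 1 = t := by simp [trPair]
  have eK : (l9ztX I tl).KC t = I.hC t + I.bC t * I.S t := by
    show llCumK (l9xPS I.LP (l9ztSm I)) t = _
    rw [l9x_ps_KC hC]
    unfold l9xKS l9ztSm
    rw [min_eq_left ht]
    rfl
  unfold JtCtx.J JtCtx.Qs
  rw [e0, hp.hh, hp.hb, hp.hmsk, hp.hov, eK]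
  show I.hC t + I.bC t * _ - _ = _
  ring

theorem l9zt_b_nn (h : I.Std) (t : ℕ) : 0 ≤ I.bC t := ll2_law_cumB_nonneg h.adm.1 t

theorem l9zt_v_le (h : I.Std) {t : ℕ} (ht : t ≤ I.n) : I.v t ≤ I.a := by
  have h1 := l8d_v_mono h ht le_rfl
  have h2 : I.v I.n = I.a := by
    show ((llMat I.LP).map SkInc.m).getD I.n I.a = _
    refine List.getD_eq_default _ _ ?_
    have : I.n = I.LP.length := rfl
    simp only [llMat, List.length_map]
    omega
  rwa [h2] at h1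

theorem l9zt_V_nn (I : L8In) (tl : Bool) (t : ℕ) : 0 ≤ l9ztV I tl t :=
  integral_nonneg fun ω => by
    show 0 ≤ _ ^ (2 * 1)
    exact (even_two_mul 1).pow_nonneg _

/-- sup bound -/
theorem l9zt_bd (h : I.Std) (hC : L9xCen I.LP (l9ztSm I)) (tl : Bool) {M0 : ℝ} (hBd : LlBd M0 I.LP) {t : ℕ} (ht : t ≤ I.n) (σ : ℕ → SkCfg I.m) :
    |(l9ztX I tl).J (trPair (l9ztX I tl).N t) σ 0 1| ≤ 2 * M0 := by
  rw [l9zt_J h hC tl ht, abs_mul, abs_of_nonneg (l9zt_b_nn h t)]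
  have hb : I.bC t ≤ M0 := (hBd t).1
  have hS0 : 0 ≤ I.S t := by have := hC.nn t; unfold l9ztSm at this; rwa [min_eq_left ht] at this
  have hS1 : I.S t ≤ 1 := by have := hC.le t; unfold l9ztSm at this; rwa [min_eq_left ht] at this
  have hov := (l8d_law h tl).ov_abs (σ 0) (σ 1)
  have h2 : |(I.X tl).msk t * (I.X tl).ov (σ 0) (σ 1) - I.S t| ≤ 2 := by
    rw [abs_le] at hov ⊢
    rcases (l8d_law h tl).msk t with hm | hm <;> rw [hm] <;> constructor <;> linarith [hov.1, hov.2]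
  calc I.bC t * |(I.X tl).msk t * (I.X tl).ov (σ 0) (σ 1) - I.S t| ≤ M0 * 2 :=
        mul_le_mul hb h2 (abs_nonneg _) ((l9zt_b_nn h t).trans hb)
    _ = 2 * M0 := by ring

/-- **moments of order `k`, ACTIVE pair**: `ν[|J|^k] ≤ (2 M0 A e_t)^k` -/
theorem l9zt_mom_act (h : I.Std) (hC : L9xCen I.LP (l9ztSm I)) {tl : Bool} {M0 A Zh vp cE : ℝ} {e : ℕ → ℝ} {pm jm k : ℕ} (hBd : LlBd M0 I.LP)
    (hk : 1 ≤ k) (hkp : k ≤ 2 * pm) (hE : I.Env e A I.Y I.a cE) (hR : I.Rnd tl e A I.Y Zh I.a vp pm jm) {t : ℕ} (ht : I.act tl t) (hv : I.v t ≤ I.a) :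
    (l9ztX I tl).nu 2 (trPair (l9ztX I tl).N t) (fun σ => |(l9ztX I tl).J (trPair (l9ztX I tl).N t) σ 0 1| ^ k) ≤ (2 * M0 * |A * e t|) ^ k := by
  have hp := l9zt_pair h hC tl
  have hX := (l8d_law h tl).nu
  have hm := l8d_rnd_mom h hR (by omega : 1 ≤ pm) ht hv hkp
  have hf := hE.f_le t ht.1 hv
  unfold l9sMom at hm
  simp only [l8d_Dl_pair, l8d_msk_act ht, one_mul] at hm
  simp only [l9zt_J h hC tl ht.1, l8d_msk_act ht, one_mul]
  rw [hp.hnu, hp.hN]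
  obtain ⟨B, hB⟩ : ∃ B : ℝ, B = |A * e t| := ⟨_, rfl⟩
  rw [← hB] at hm ⊢
  have hB0 : 0 ≤ B := by rw [hB]; exact abs_nonneg _
  have hfB : |I.f t| ≤ B := by rw [hB]; exact hf.trans (le_abs_self _)
  have hb0 := l9zt_b_nn h t
  have hb : I.bC t ≤ M0 := (hBd t).1
  have hM0 : 0 ≤ M0 := hb0.trans hb
  have hpt : ∀ σ : ℕ → SkCfg I.m, |I.bC t * ((I.X tl).ov (σ 0) (σ 1) - I.S t)| ^ k
      ≤ M0 ^ k * 2 ^ (k - 1) * |(I.X tl).ov (σ 0) (σ 1) - (I.X tl).qC t| ^ k + M0 ^ k * 2 ^ (k - 1) * B ^ k := fun σ => by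
    have e1 : (I.X tl).ov (σ 0) (σ 1) - I.S t = ((I.X tl).ov (σ 0) (σ 1) - (I.X tl).qC t) + (-I.f t) := by
      show _ = (_ - I.q t) + (-(I.S t - I.q t))
      ring
    have h1 : |(I.X tl).ov (σ 0) (σ 1) - I.S t| ≤ |(I.X tl).ov (σ 0) (σ 1) - (I.X tl).qC t| + B := by
      rw [e1]
      refine (abs_add_le _ _).trans ?_
      rw [abs_neg]
      linarith
    rw [abs_mul, abs_of_nonneg hb0, mul_pow]
    calc I.bC t ^ k * |(I.X tl).ov (σ 0) (σ 1) - I.S t| ^ k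
        ≤ M0 ^ k * (|(I.X tl).ov (σ 0) (σ 1) - (I.X tl).qC t| + B) ^ k :=
          mul_le_mul (pow_le_pow_left₀ hb0 hb k) (pow_le_pow_left₀ (abs_nonneg _) h1 k) (by positivity) (by positivity)
      _ ≤ M0 ^ k * (2 ^ (k - 1) * (|(I.X tl).ov (σ 0) (σ 1) - (I.X tl).qC t| ^ k + B ^ k)) :=
          mul_le_mul_of_nonneg_left (add_pow_le (abs_nonneg _) hB0 k) (by positivity)
      _ = _ := by ring
  refine (hX.mono 2 _ hpt).trans ?_
  rw [hX.add, hX.const_mul, hX.const]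
  have e2 : (2 : ℝ) ^ k = 2 ^ (k - 1) * 2 := by
    rw [← pow_succ]
    congr 1
    omega
  calc M0 ^ k * 2 ^ (k - 1) * (I.X tl).nu 2 (trPair (I.X tl).N t) (fun σ => |(I.X tl).ov (σ 0) (σ 1) - (I.X tl).qC t| ^ k) + M0 ^ k * 2 ^ (k - 1) * B ^ k
      ≤ M0 ^ k * 2 ^ (k - 1) * B ^ k + M0 ^ k * 2 ^ (k - 1) * B ^ k := by
        have := mul_le_mul_of_nonneg_left hm (show 0 ≤ M0 ^ k * 2 ^ (k - 1) by positivity)
        linarith
    _ = (2 * M0 * B) ^ k := by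
        rw [mul_pow, mul_pow, e2]
        ring

/-- **moments of order `k`, MASKED pair** (tilted ensemble, `t ≤ js`): `J = - b S`, `S ≤ A (v + Y) ≤ 2 A Y = 2 A e_t` -/
theorem l9zt_mom_off (h : I.Std) (hC : L9xCen I.LP (l9ztSm I)) {M0 A Zh cE : ℝ} {e : ℕ → ℝ} {k : ℕ} (hBd : LlBd M0 I.LP) (hA : 0 ≤ A)
    (hE : I.Env e A I.Y I.a cE) (hN : I.Num A I.Y Zh I.a) {t : ℕ} (ht : t ≤ I.n) (hjs : t ≤ I.js) (hv : I.v t ≤ I.Y) :
    (l9ztX I true).nu 2 (trPair (l9ztX I true).N t) (fun σ => |(l9ztX I true).J (trPair (l9ztX I true).N t) σ 0 1| ^ k) ≤ (2 * M0 * |A * e t|) ^ k := by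
  have hp := l9zt_pair h hC true
  simp only [l9zt_J h hC true ht, l8d_msk_off hjs, zero_mul, zero_sub, mul_neg, abs_neg]
  rw [hp.hnu, (l8d_law h true).nu.const]
  refine pow_le_pow_left₀ (abs_nonneg _) ?_ k
  have hS0 : 0 ≤ I.S t := by have := hC.nn t; unfold l9ztSm at this; rwa [min_eq_left ht] at this
  have hs := hN.s_le t ht
  have he := hE.low t ht hv
  have hb0 := l9zt_b_nn h t
  have hb : I.bC t ≤ M0 := (hBd t).1
  rw [abs_mul, abs_of_nonneg hb0, abs_of_nonneg hS0]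
  have h1 : I.S t ≤ 2 * |A * e t| := by
    have h2 : A * (I.v t + I.Y) ≤ A * (2 * I.Y) := mul_le_mul_of_nonneg_left (by linarith) hA
    have h3 : A * e t ≤ |A * e t| := le_abs_self _
    rw [he] at h3 ⊢
    linarith
  calc I.bC t * I.S t ≤ M0 * (2 * |A * e t|) := mul_le_mul hb h1 hS0 (hb0.trans hb)
    _ = 2 * M0 * |A * e t| := by ring

/-- **second moment, ACTIVE pair**: `ν[J²] ≤ M0² ν[(Q - S)²]` -/
theorem l9zt_var (h : I.Std) (hC : L9xCen I.LP (l9ztSm I)) {tl : Bool} {M0 : ℝ} (hBd : LlBd M0 I.LP) {t : ℕ} (ht : I.act tl t) :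
    (l9ztX I tl).nu 2 (trPair (l9ztX I tl).N t) (fun σ => (l9ztX I tl).J (trPair (l9ztX I tl).N t) σ 0 1 ^ 2) ≤ M0 ^ 2 * l9ztV I tl t := by
  have hp := l9zt_pair h hC tl
  have hX := (l8d_law h tl).nu
  simp only [l9zt_J h hC tl ht.1, l8d_msk_act ht, one_mul]
  rw [hp.hnu, hp.hN]
  unfold l9ztV
  rw [l8d_rnd_var h tl ht.1, ← hX.const_mul]
  refine hX.mono 2 _ fun σ => ?_
  have hb0 := l9zt_b_nn h t
  have hb : I.bC t ≤ M0 := (hBd t).1
  rw [mul_pow]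
  exact mul_le_mul_of_nonneg_right (pow_le_pow_left₀ hb0 hb 2) (sq_nonneg _)

/-- **the sum over the large envelopes is the integral of (D8)** -/
theorem l9zt_sum (h : I.Std) (tl : Bool) {e : ℕ → ℝ} {A cE th M0 : ℝ} (hE : I.Env e A I.Y I.a cE) (hY : I.Y < th) (p : ℕ → Prop) [DecidablePred p]
    (hp : ∀ t ≤ I.n, p t ↔ th ≤ e t) :
    ∑ t ∈ (Finset.range (I.n + 1)).filter p, (llMs I.a I.LP t - trPm (llMs I.a I.LP) t) * (M0 ^ 2 * l9ztV I tl t)
      = M0 ^ 2 * I.int I.Y I.a (fun t => if th ≤ e t then l9ztV I tl t else 0) := by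
  unfold L8In.int
  rw [Finset.mul_sum, Finset.sum_filter, Finset.sum_filter]
  refine Finset.sum_congr rfl fun t ht => ?_
  have ht' : t ≤ I.n := by have := Finset.mem_range.1 ht; omega
  have e1 : llMs I.a I.LP t - trPm (llMs I.a I.LP) t = I.dv t := l8d_mu I t
  beta_reduce
  by_cases hpt : p t
  · have hle := (hp t ht').1 hpt
    have hv : I.Y ≤ I.v t ∧ I.v t ≤ I.a := by
      refine ⟨?_, l9zt_v_le h ht'⟩
      by_contra hcon
      have := hE.low t ht' (not_le.1 hcon).le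
      linarith
    rw [if_pos hpt, if_pos hv, if_pos hle, e1]
    ring
  · have hle : ¬ th ≤ e t := fun hc => hpt ((hp t ht').2 hc)
    rw [if_neg hpt, if_neg hle]
    split_ifs <;> simp

/-- **THE POINT THEOREM OF T34** -/
theorem l9zt_point (k : ℕ) (hk : 2 ≤ k) : ∃ C : ℝ, 0 ≤ C ∧ ∀ (I : L8In) (tl : Bool) (e : ℕ → ℝ) (A M0 Zh vp cE δ' E8 : ℝ) (pm jm : ℕ),
    I.Std → I.a ≤ 4 → 0 < I.x → L9xCen I.LP (l9ztSm I) → LlBd M0 I.LP → 0 < M0 → 0 < A → k ≤ 2 * pm →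
    I.Env e A I.Y I.a cE → I.Num A I.Y Zh I.a → I.Rnd tl e A I.Y Zh I.a vp pm jm →
    (tl = true → ∀ t ≤ I.n, I.Y < I.v t → I.js < t) → I.Y < I.x ^ δ' →
    I.int I.Y I.a (fun t => if I.x ^ δ' ≤ e t then l9ztV I tl t else 0) ≤ E8 →
    ∀ (W : ℕ → ℝ) (w : ℝ), (∀ j, 0 ≤ W j) → (∀ j ≤ I.n, W j ≤ w) →
      (l9ztX I tl).errW W k ≤ C * w * (2 * M0 * (2 * M0 * A * I.x ^ δ') ^ (k - 1) + (2 * M0) ^ (k - 2) * (M0 ^ 2 * E8)) := by
  obtain ⟨C, hC0, hC⟩ := l9y_t34 k hk 4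
  refine ⟨C, hC0, fun I tl e A M0 Zh vp cE δ' E8 pm jm h ha4 hx hCen hBd hM0 hA hkp hE hN hR hjs hY hD8 W w hW0 hWw => ?_⟩
  have hp := l9zt_pair h hCen tl
  have hNn : (l9ztX I tl).N = I.n := hp.hN
  have he0 : ∀ t ≤ I.n, 0 < e t := fun t ht => lt_of_lt_of_le (Real.rpow_pos_of_pos hx _) (hE.lo t ht)
  have hva : ∀ t ≤ I.n, I.v t ≤ I.a := fun t ht => by
    have h1 := l8d_v_mono h ht le_rfl
    have h2 : I.v I.n = I.a := by
      show ((llMat I.LP).map SkInc.m).getD I.n I.a = _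
      refine List.getD_eq_default _ _ ?_
      have : I.n = I.LP.length := rfl
      simp only [llMat, List.length_map]
      omega
    rwa [h2] at h1
  have hc0 : 0 < 2 * M0 * A := by positivity
  have hth : 0 < I.x ^ δ' := Real.rpow_pos_of_pos hx _
  have hsig : ∀ t ≤ I.n, (if t ≤ I.n then 2 * M0 * A * e t else 1) = 2 * M0 * A * e t := fun t ht => if_pos ht
  have hiff : ∀ t ≤ I.n, (2 * M0 * A * I.x ^ δ' ≤ (if t ≤ I.n then 2 * M0 * A * e t else 1)) ↔ I.x ^ δ' ≤ e t := fun t ht => by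
    rw [hsig t ht]
    exact mul_le_mul_iff_right₀ hc0
  have hact : ∀ t ≤ I.n, I.x ^ δ' ≤ e t → I.act tl t := fun t ht hle => by
    refine ⟨ht, fun htl => hjs htl t ht ?_⟩
    by_contra hcon
    have := hE.low t ht (not_lt.1 hcon)
    linarith
  have hab : ∀ t ≤ I.n, |A * e t| = A * e t := fun t ht => abs_of_pos (mul_pos hA (he0 t ht))
  have key := hC (SkCfg I.m) (l9ztX I tl) (llMs I.a I.LP) hp.law' (by rw [hNn, l8d_ms]; exact (hva _ le_rfl).trans ha4) W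
    (fun t => if t ≤ I.n then 2 * M0 * A * e t else 1) (fun t => M0 ^ 2 * l9ztV I tl t) w (2 * M0 * A * I.x ^ δ') (2 * M0) (M0 ^ 2 * E8)
    hW0 (by rw [hNn]; exact hWw) (by positivity) (by positivity)
    (fun t => by
      show 0 < if t ≤ I.n then 2 * M0 * A * e t else 1
      split_ifs with ht
      · exact mul_pos hc0 (he0 t ht)
      · exact one_pos)
    (fun t => mul_nonneg (sq_nonneg _) (l9zt_V_nn I tl t))
    (fun t ht σ => l9zt_bd h hCen tl hBd (by rwa [hNn] at ht) σ)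
    (fun t ht _ => by
      rw [hNn] at ht
      show _ ≤ (if t ≤ I.n then 2 * M0 * A * e t else 1) ^ k
      rw [hsig t ht, mul_assoc (2 * M0), ← hab t ht]
      by_cases ha : I.act tl t
      · exact l9zt_mom_act h hCen hBd (by omega) hkp hE hR ha (hva t ht)
      · have htl : tl = true := by
          by_contra hne
          exact ha ⟨ht, fun h' => absurd h' hne⟩
        subst htl
        have hjs' : t ≤ I.js := by
          by_contra hne
          exact ha ⟨ht, fun _ => by omega⟩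
        have hvY : I.v t ≤ I.Y := by
          by_contra hne
          have := hjs rfl t ht (not_le.1 hne)
          omega
        exact l9zt_mom_off h hCen hBd hA.le hE hN ht hjs' hvY)
    (fun t ht hle => by
      rw [hNn] at ht
      exact l9zt_var h hCen hBd (hact t ht ((hiff t ht).1 hle)))
    (by
      rw [hNn, l9zt_sum h tl hE hY _ hiff]
      exact mul_le_mul_of_nonneg_left hD8 (sq_nonneg _))
  exact key

end Claimed.Agent.R286
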