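import Claimed.Agent.R286.L09.W5b
import Claimed.Agent.R286.L09.W5Co
import Claimed.Agent.R286.L09.Dots
import Claimed.Agent.R286.L09.CCNum
import Claimed.Agent.R286.L09.RedD0M

/-!
# Row 286 (S0533), unit L09, node W5, file W5ExS2: PRODUCER OF `L9wSupS` (supplies of W5 on the size segment) AND THE FORM `LLGood`      (owner helper288, SECOND INDEPENDENT CUT of `exit_l9_w5S`, post of helper82 07:27Z; first cutter helper236 `L09/W5ExS.lean`; prefix `l9wt`)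

TEX[LL:exp:prop-low-coefficients] 09-expansion.tex l.340-347, l.396-411 ("the remaining size terms of those degrees").

`l9wb_S5` (266, `L09/W5b.lean`) proves the exit of W5 on the size segment from `L9wSupS` + `L9cAdmS`.      `L9wSupS 𝔹 Mj F v0 J0`: at every point, `∃ e g, Q.Sw Mj A (1 + dot) v0 K 5 J0 e g`.
* §1 ONE POINT:   `Q.Fm` (`l9wt_Fm`);   `Q.WcB` from `Q.Dots` (69) + `Q.Sup8` (153) (`l9wt_WcB`);   `Q.WcG`, `g = |K̇| / (1 + dot)`, from `Q.Dots` (`l9wt_WcG`);   `l9wc_co` (183) ⟹ `Q.Co`;   + `Q.CCw` ⟹ `Q.Sw` (`l9wt_point`).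
* §2 LOSSES (`l9wt_loss`).
* §3 SHAPE: `l9wt_supS`: LL 08 at the points (`l9rs_bothS`, 153) + `l9rc_shellS` (153) at `l13y_num_ccw` (64, 30, 70: Lemma 9.1 on full tables) + `l9t_dotS` (69) ⟹ `∃ v0 > 0, ∀ J0, L9wSupS 𝔹 (l8Mj c) F v0 J0`.
* §4 `l9wt_good`: the form `LLGood` (legal prefix `l9q_of_stB`), twin of `exit_l9_supS` of `L09/BndExit.lean`.
PATCH of `L09/BndExit.lean` (after `exit_l9_admS`):   `exit_l9_w5S := by filter_upwards [l9wt_good T F0 h0 hG (exit_dlow T hT) (l8g_fine T hT), exit_l9_admS T hT F0 h0] with par ⟨v0, hv0, hS⟩ hA; exact l9wb_S5 .. v0 hv0 hS hA ..`.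
-/

set_option autoImplicit false

namespace Claimed.Agent.R286

open scoped BigOperators Nat Topology
open Filter Set

noncomputable section

/-! ## 1. one point -/

/-- the density of the dotted weight of the added scalar pair on the size segment -/
def L9Q.wtG (Q : L9Q) : ℕ → ℝ := fun l => if l ≤ Q.N then |Q.KD l| / (1 + Q.I.dot Q.pf Q.t) else 0

theorem l9wt_eqns_cite : True := by
  have := @L9Q.wtG.eq_1
  trivial

/-- the family at a point of the size segment -/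
theorem l9wt_Fm (F : LlFix) (𝔹 : LlBase) (s : ℝ) (Fs : Finset GhPos) (m N : ℕ) (γ : Fin (N + 1) → ℝ) (θ : ℝ)
    (hev : (l9QS F 𝔹 s Fs m N γ θ).AdmEv) (hd : (⟨F, 𝔹, s, Fs, m⟩ : L9I).Dif (l9PtS F N γ) θ) : (l9QS F 𝔹 s Fs m N γ θ).Fm :=
  ⟨fun t' => by
    show (l9PtS F N γ t').a = (l9PtS F N γ θ).a
    rw [l9t_S_a, l9t_S_a], hev, hd⟩

section pt

variable {Q : L9Q} {Mj : L9Mj} {Ad As vK vt : ℝ} {e : ℕ → ℝ}

theorem l9wt_dot_nn (hD : Q.Dots Ad 1 vK) : 0 ≤ Q.I.dot Q.pf Q.t := hD.iK_nn.trans hD.iK_le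

theorem l9wt_E_nn (hS : Q.Sup8 Mj As vt e) (j : ℕ) : 0 ≤ l9rsE Q.N e j := by
  unfold l9rsE
  split_ifs with h
  · exact hS.e_nn j h
  · exact le_rfl

/-- operator, `b`, `ḃ`, `d`, `ḋ` -/
theorem l9wt_WcB (hD : Q.Dots Ad 1 vK) (hS : Q.Sup8 Mj As vt e) (hAs : 0 ≤ As) (hu : Q.u = 1) (he : Q.e = 1 / 6) (hl1 : Q.lam ≤ 1)
    (hY0 : 0 ≤ Q.Y Mj) (hY : Q.Y Mj ≤ 1) (hvt : vt ≤ 1) :
    Q.WcB (1 + 4 * Ad + As) (1 + Q.I.dot Q.pf Q.t) vt (l9rsE Q.N e) := by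
  have hA := hD.A_nn
  have hd0 := l9wt_dot_nn hD
  have hdle : ∀ j, j ≤ Q.N → Q.ms j ≤ vt → Q.dA j ≤ As * l9rsE Q.N e j := by
    intro j hj hm
    rw [l9rs_E_of_le e hj]
    refine (hS.d_le j hj hm).trans ?_
    have h1 : 0 ≤ max (Q.ms j) (Q.Y Mj) := le_max_of_le_right hY0
    have h2 : max (Q.ms j) (Q.Y Mj) ≤ 1 := max_le (hm.trans hvt) hY
    have h3 : max (Q.ms j) (Q.Y Mj) ^ 2 ≤ 1 := pow_le_one₀ h1 h2
    have h4 : Q.lam * max (Q.ms j) (Q.Y Mj) ^ 2 ≤ 1 := by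
      calc Q.lam * max (Q.ms j) (Q.Y Mj) ^ 2 ≤ 1 * 1 := mul_le_mul hl1 h3 (sq_nonneg _) zero_le_one
        _ = 1 := one_mul 1
    have h5 : 0 ≤ As * e j := mul_nonneg hAs (hS.e_nn j hj)
    calc As * Q.lam * max (Q.ms j) (Q.Y Mj) ^ 2 * e j = (Q.lam * max (Q.ms j) (Q.Y Mj) ^ 2) * (As * e j) := by ring
      _ ≤ 1 * (As * e j) := mul_le_mul_of_nonneg_right h4 h5
      _ = As * e j := one_mul _
  refine ⟨by linarith, by linarith, by rw [hu, abs_one]; linarith, by rw [he, abs_of_pos (by norm_num)]; linarith, fun j _ _ => ?_,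
    fun j _ _ => ?_, l9wt_E_nn hS, fun j hj hm => ?_, fun j hj hm => ?_⟩
  · rw [abs_of_nonneg (hD.b_nn j)]
    linarith [hD.b_le j]
  · have h1 : |Q.wbD j| ≤ Ad * 1 := hD.bd j
    have h2 : 0 ≤ (4 * Ad + As) * (1 + Q.I.dot Q.pf Q.t) + Q.I.dot Q.pf Q.t := by positivity
    nlinarith
  · refine (hdle j hj hm).trans (mul_le_mul_of_nonneg_right (by linarith) (l9wt_E_nn hS j))
  · refine (hdle j hj hm).trans (mul_le_mul_of_nonneg_right ?_ (l9wt_E_nn hS j))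
    have : 0 ≤ (1 + 4 * Ad + As) * Q.I.dot Q.pf Q.t := by positivity
    nlinarith

/-- the dotted weight of the added pair -/
theorem l9wt_WcG (hD : Q.Dots Ad 1 vK) (hAs : 0 ≤ As) (hms : IsMs Q.N Q.ms) (hvt : vt ≤ vK) (ha : Q.p.a ≤ 4) :
    Q.WcG (1 + 4 * Ad + As) (1 + Q.I.dot Q.pf Q.t) vt Q.wtG := by
  have hA := hD.A_nn
  have hd0 := l9wt_dot_nn hD
  have hT : 0 < 1 + Q.I.dot Q.pf Q.t := by linarith
  refine ⟨fun j => ?_, fun j hj => ?_, ?_, fun j hj hm => ?_⟩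
  · unfold L9Q.wtG
    split_ifs
    · positivity
    · exact le_rfl
  · unfold L9Q.wtG
    rw [if_pos hj, mul_div_cancel₀ _ hT.ne']
    exact le_rfl
  · have e1 : ∑ j ∈ Finset.range (Q.N + 1), l9aMu Q.ms j * Q.wtG j = Q.iK / (1 + Q.I.dot Q.pf Q.t) := by
      unfold L9Q.iK
      rw [Finset.sum_div]
      refine Finset.sum_congr rfl fun k hk => ?_
      have hk' : k ≤ Q.N := by have := Finset.mem_range.1 hk; omega
      unfold L9Q.wtG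
      rw [if_pos hk']
      show l9rMu Q.ms k * _ = _
      ring
    rw [e1, div_le_one hT]
    linarith [hD.iK_le]
  · unfold L9Q.wtG
    rw [if_pos hj, div_le_iff₀ hT]
    have hmc : Q.mc j ≤ vK := ((l9d0_pm_le hms hj).trans hm).trans hvt
    have k3 := hD.Kd j hmc
    have k6 := (hD.m_le j).trans ha
    rw [mul_one] at k3
    have k7 : Ad * Q.mc j ≤ Ad * 4 := mul_le_mul_of_nonneg_left k6 hA
    have k8 : 0 ≤ (1 + 4 * Ad + As) * Q.I.dot Q.pf Q.t := by positivity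
    nlinarith

end pt

theorem l9wt_cc_mono {Q : L9Q} {Mj : L9Mj} {e : ℕ → ℝ} {A A' vt vt' K : ℝ} {J0 : ℕ} (h : Q.CCw Mj e A vt K J0) (hA : A ≤ A') (hv : vt' ≤ vt)
    (hE3 : 0 ≤ Q.E3 Mj K) : Q.CCw Mj e A' vt' K J0 := by
  intro n hn hnJ R hR β om hom0 hom B L0 hL0 hB hB2
  exact (h n hn hnJ R hR β om hom0 hom B L0 hL0 (fun τ hτ i hi => ⟨(hB τ hτ i hi).1, (hB τ hτ i hi).2.1, (hB τ hτ i hi).2.2.trans hv⟩) hB2).trans
    (mul_le_mul_of_nonneg_left (mul_le_mul_of_nonneg_right hA hE3) hL0)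

theorem l9wt_co_mono {Q : L9Q} {e g : ℕ → ℝ} {A A' T0 vt : ℝ} {n0 J0 : ℕ} (h : Q.Co A T0 vt e g n0 J0) (hA : A ≤ A') (hT0 : 0 ≤ T0)
    (he : ∀ t, 0 ≤ e t) (hg : ∀ t, 0 ≤ g t) : Q.Co A' T0 vt e g n0 J0 := by
  intro n hn hnJ R hR hne τ hτ hlow
  refine (h n hn hnJ R hR hne τ hτ hlow).trans ?_
  have h1 : 0 ≤ ∏ i ∈ Finset.range n \ R, e (τ (2 * i) (2 * i + 1)) := Finset.prod_nonneg fun i _ => he _
  have h2 : 0 ≤ ∏ s ∈ Finset.Ico 1 (2 * n), l9wG Q.N g n τ s :=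
    Finset.prod_nonneg fun s _ => zero_le_one.trans (l9wc_G_one_le hg n τ s)
  exact mul_le_mul_of_nonneg_right (mul_le_mul_of_nonneg_right (mul_le_mul_of_nonneg_right hA hT0) h1) h2

/-- **ONE POINT of the size segment**: DOTS + LL 08 (`Sup8`) + Lemma 9.1 on full tables ⟹ the supplies of W5 -/
theorem l9wt_point (J0 : ℕ) : ∃ Kc : ℝ, 0 ≤ Kc ∧ ∀ (Q : L9Q) (Mj : L9Mj) (δm Ad As Ac Af vK vt vc K : ℝ) (e : ℕ → ℝ), Q.Fm → Q.Adm δm → Q.p.a ≤ 4 →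
    Q.u = 1 → Q.e = 1 / 6 → Q.Dots Ad 1 vK → Q.Sup8 Mj As vt e → 0 ≤ As → 0 ≤ Q.lam → Q.lam ≤ 1 → 0 ≤ Q.Y Mj → Q.Y Mj ≤ 1 → vt ≤ 1 → vt ≤ vK → vt ≤ vc →
    Q.CCw Mj (l9rsE Q.N e) Ac vc K J0 → 0 ≤ Q.E3 Mj K → Ac ≤ Af → Kc * (1 + 4 * Ad + As) ^ (2 * J0 + 2) ≤ Af →
      Q.Sw Mj Af (1 + Q.I.dot Q.pf Q.t) vt K 5 J0 (l9rsE Q.N e) Q.wtG := by
  obtain ⟨Kc, hKc, H⟩ := l9wc_co J0
  refine ⟨Kc, hKc, fun Q Mj δm Ad As Ac Af vK vt vc K e hF hA ha hu he hD hS hAs hl0 hl1 hY0 hY hvt hvK hvc hcc hE3 hAc hAf => ?_⟩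
  have hms := Q.isMs hA
  have hB := l9wt_WcB hD hS hAs hu he hl1 hY0 hY hvt
  have hG := l9wt_WcG (As := As) (vt := vt) hD hAs hms hvK ha
  have hco := H Q δm _ _ vt _ _ 5 (by norm_num) hF hA ha hB hG
  exact ⟨hS.z1, hB.e_nn, hG.g_nn, hG.g_sum.trans (by norm_num), l9wt_cc_mono hcc hAc hvc hE3, l9wt_co_mono hco hAf hB.T_nn hB.e_nn hG.g_nn⟩

/-! ## 2. losses -/

/-- arithmetic of the losses: `n` powers of a loss `x^(-δ/n)` -/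
theorem l9wt_loss {x δ Kc C2 C3 C4 : ℝ} {n : ℕ} (hn : 1 ≤ n) (hx : 0 < x) (hx1 : x ≤ 1) (hδ : 0 < δ) (hKc : 0 ≤ Kc) (hC4 : 0 ≤ C4)
    (h3 : 0 ≤ C3 * x ^ (-(δ / n))) :
    C2 * x ^ (-(δ / n)) ≤ max |C2| (Kc * (1 + 4 * |C3| + C4) ^ n) * x ^ (-δ) ∧
      Kc * (1 + 4 * (C3 * x ^ (-(δ / n))) + C4 * x ^ (-(δ / n))) ^ n ≤ max |C2| (Kc * (1 + 4 * |C3| + C4) ^ n) * x ^ (-δ) := by
  have hn0 : (0 : ℝ) < n := by exact_mod_cast hn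
  set y := x ^ (-(δ / n)) with hy
  have hdn : 0 < δ / n := by positivity
  have hy1 : 1 ≤ y := Real.one_le_rpow_of_pos_of_le_one_of_nonpos hx hx1 (by linarith)
  have hyn : y ^ n = x ^ (-δ) := by
    rw [hy, ← Real.rpow_natCast, ← Real.rpow_mul hx.le]
    congr 1
    field_simp
  have hyle : y ≤ y ^ n := le_self_pow₀ hy1 (by omega)
  rw [← hyn]
  have hyn0 : 0 ≤ y ^ n := by positivity
  constructor
  · calc C2 * y ≤ |C2| * y := mul_le_mul_of_nonneg_right (le_abs_self _) (by linarith)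
      _ ≤ |C2| * y ^ n := mul_le_mul_of_nonneg_left hyle (abs_nonneg _)
      _ ≤ _ := mul_le_mul_of_nonneg_right (le_max_left _ _) hyn0
  · have h1 : 1 + 4 * (C3 * y) + C4 * y ≤ (1 + 4 * |C3| + C4) * y := by
      have := mul_le_mul_of_nonneg_right (le_abs_self C3) (by linarith : (0 : ℝ) ≤ y)
      nlinarith
    have h0 : 0 ≤ 1 + 4 * (C3 * y) + C4 * y := by positivity
    calc Kc * (1 + 4 * (C3 * y) + C4 * y) ^ n ≤ Kc * ((1 + 4 * |C3| + C4) * y) ^ n :=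
          mul_le_mul_of_nonneg_left (pow_le_pow_left₀ h0 h1 n) hKc
      _ = Kc * (1 + 4 * |C3| + C4) ^ n * y ^ n := by rw [mul_pow]; ring
      _ ≤ _ := mul_le_mul_of_nonneg_right (le_max_right _ _) hyn0

/-! ## 3. the shape -/

/-- **PRODUCER of `L9wSupS`**: `exit_dlow` + `l8g_fine` + DIC (153) + Lemma 9.1 on full tables (30, 64, 70, 153) + DOTS (69) + the real coefficients (183) -/
theorem l9wt_supS {𝔹 : LlBase} {T : ℝ} (hlow : L8xLow 𝔹 T) (hfine : L8gFine 𝔹 T) {F0 : LlFix} (hF : L8Fix 𝔹 T F0) (pB : LLParB)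
    (hSt : LlcStB 𝔹 F0 pB) (c : ℝ) :
    ∃ p0 : ℝ, 0 < p0 ∧ ∀ pS : ℝ, 0 < pS → pS ≤ p0 → pS ≤ 1 → ∃ v0 : ℝ, 0 < v0 ∧ ∀ J0 : ℕ,
      L9wSupS 𝔹 (l8Mj c) (F0.wExp pB.sStar pB.eta pS) v0 J0 := by
  obtain ⟨p0, cE, hp0, hcE, hB⟩ := l9rs_bothS hlow hfine hF pB hSt
  refine ⟨p0, hp0, fun pS h0 h1 h1' => ?_⟩
  obtain ⟨v0, v1, hv0, hv1, hB⟩ := hB pS h0 h1 h1'
  have hE : LlExpOk pB.sStar pB.eta pS := llc_expOk pB h0 h1'
  obtain ⟨vK, hvK, hDot⟩ := l9t_dotS 𝔹 (F0.wExp pB.sStar pB.eta pS) hE (hF.2.2 _ _ _ hE).sec3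
  have hFnn : 0 ≤ (F0.wExp pB.sStar pB.eta pS).eta ∧ 0 ≤ (F0.wExp pB.sStar pB.eta pS).sS ∧ 0 ≤ (F0.wExp pB.sStar pB.eta pS).pS :=
    ⟨hE.e_lo.le, by have := hE.s_lo; show (0 : ℝ) ≤ pB.sStar; linarith, h0.le⟩
  have hps : (F0.wExp pB.sStar pB.eta pS).pS * (F0.wExp pB.sStar pB.eta pS).sS ≤ 2 := by
    show pS * pB.sStar ≤ 2
    have := hE.s_lo
    have := hE.s_hi
    nlinarith
  refine ⟨min (min v0 v1) (min vK 1), lt_min (lt_min hv0 hv1) (lt_min hvK one_pos), fun J0 K δ hδ ε hε q hq => ?_⟩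
  obtain ⟨Kc, hKc, HP⟩ := l9wt_point J0
  have hn1 : 1 ≤ 2 * J0 + 2 := by omega
  have hn0 : (0 : ℝ) < ((2 * J0 + 2 : ℕ) : ℝ) := by exact_mod_cast hn1
  have hδ' : 0 < δ / ((2 * J0 + 2 : ℕ) : ℝ) := by positivity
  obtain ⟨pm, δ1, hpm, hδ1, hδ1', Hc⟩ := l9rc_shellS 𝔹 (F0.wExp pB.sStar pB.eta pS) hFnn hps c (l13y_num_ccw (l8Mj c) K J0) hv0 v1 cE hδ'
  obtain ⟨C1, N1, hb⟩ := hB pm J0 1 δ1 hδ1 ε hε q hq
  obtain ⟨C2, N2, hc⟩ := Hc J0 1 le_rfl ε hε q hq C1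
  obtain ⟨C3, N3, hd⟩ := hDot _ hδ' ε hε q hq
  obtain ⟨N4, hN4⟩ := l9s_small 1 (1 / v0) one_pos (by positivity)
  refine ⟨max |C2| (Kc * (1 + 4 * |C3| + max (max (3 * |C1|) 1) 0) ^ (2 * J0 + 2)), N1 + N2 + N3 + N4 + 1, fun N hN => ?_⟩
  filter_upwards [hb N (by omega), hd N (by omega)] with Fs g1 g3 m γ θ hy hAdm
  obtain ⟨Q, hQ⟩ : ∃ Q, Q = l9QS (F0.wExp pB.sStar pB.eta pS) 𝔹 (q * skX N ^ (1 + ε)) Fs m N γ θ := ⟨_, rfl⟩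
  have g1' := g1 m γ θ hy
  have g3' := g3 m γ θ hy
  have hFm := l9wt_Fm _ 𝔹 _ Fs m N γ θ g3'.2 hy.2.2.2.1
  rw [← hQ] at g1' g3' hAdm hFm ⊢
  obtain ⟨hok, hfi, hZ1, e, hBo⟩ := g1'
  obtain ⟨hD, -⟩ := g3'
  have hCC := hc N (by omega) Fs m γ θ hy Q e hQ hok hfi hZ1 hBo
  have hsm : Q.p.sm = true := by rw [hQ]; rfl
  have hxN : Q.i8.x = skX N := by rw [hQ]; rfl
  obtain ⟨hx, hx1, hl, hl1, hxU⟩ := l9rs_scales Q.i8 hok (show 0 ≤ Q.I.F.pS by rw [hQ]; exact h0.le)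
    (show 0 ≤ Q.I.F.sS by rw [hQ]; exact hFnn.2.1)
  have hZc := l9rs_Zc_S Q c hok hsm
  have hz1 : 1 ≤ Q.Zc (l8Mj c) := by rw [hZc]; exact hZ1
  have hU : 0 < Q.U := hx.trans_le hxU
  have hY : Q.Y (l8Mj c) = Q.i8.Yc llDStar := by unfold L9Q.Y; rw [hZc]; rfl
  have hxY : Q.x ≤ Q.Y (l8Mj c) := by
    unfold L9Q.Y
    calc Q.x ≤ Q.U * 1 := by rw [mul_one]; exact hxU
      _ ≤ _ := mul_le_mul_of_nonneg_left hz1 hU.le
  have hY0 : 0 ≤ Q.Y (l8Mj c) := hx.le.trans hxY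
  have hY1 : Q.Y (l8Mj c) ≤ 1 := by
    rw [hY]
    unfold L8In.Yc L8In.Zc
    have hU' : 0 < Q.i8.U := hU
    calc Q.i8.U * min Q.i8.Z (Q.i8.x ^ (llDStar / 3) / Q.i8.U) ≤ Q.i8.U * (Q.i8.x ^ (llDStar / 3) / Q.i8.U) :=
          mul_le_mul_of_nonneg_left (min_le_right _ _) hU'.le
      _ = Q.i8.x ^ (llDStar / 3) := by field_simp
      _ ≤ 1 := Real.rpow_le_one hx.le hx1 (by unfold llDStar; norm_num)
  have hs : Q.I.s ≤ Q.x := hok.s_lt.le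
  have hxv : Q.x ≤ v0 := by
    have := hN4 N (by omega)
    rw [Real.rpow_one, div_mul_eq_mul_div, one_mul, div_lt_one hv0] at this
    show Q.i8.x ≤ v0
    rw [hxN]; exact this.le
  obtain ⟨l1, l2, -⟩ := l9rs_loss (C1 := C1) (C2 := 0) (hxN ▸ hx) (hxN ▸ hx1) hδ1 hδ1'
  have h8 := l9rs_sup8 Q (l8Mj c) (A' := max (max (3 * |C1|) 1) 0 * skX N ^ (-(δ / ((2 * J0 + 2 : ℕ) : ℝ)))) hok hfi (hY ▸ hBo) hpm l1 l2 hz1 hU
    (by rw [Real.rpow_one]; exact hxY) (hs.trans hxY) (hs.trans hxv) hl.le (fun v => by rw [hQ]; exact l9rs_dA_S _ _ _ _ _ _ _ _ v)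
  have h8' := h8.anti (min_le_left (min v0 v1) (min vK 1))
  have hE3 := l9rs_E3_nonneg Q (l8Mj c) K hx.le hl.le hY0 (by linarith)
  obtain ⟨m1, m2⟩ := l9wt_loss (x := skX N) (δ := δ) (Kc := Kc) (C2 := C2) (C3 := C3) (C4 := max (max (3 * |C1|) 1) 0) hn1 (hxN ▸ hx) (hxN ▸ hx1) hδ hKc
    (le_max_right _ _) hD.A_nn
  exact ⟨_, _, HP Q (l8Mj c) _ _ _ _ _ vK _ v0 K e hFm hAdm (by rw [hQ]; exact (l9t_S_a _ N γ θ).le) (by rw [hQ]; rfl) (by rw [hQ]; rfl) hD h8'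
    (by linarith) hl.le hl1 hY0 hY1 ((min_le_right _ _).trans (min_le_right _ _)) ((min_le_right _ _).trans (min_le_left _ _))
    ((min_le_left _ _).trans (min_le_left _ _)) hCC hE3 m1 m2⟩

/-! ## 4. the form `LLGood` -/

/-- **the supplies of W5 on the size segment, in the form `LLGood`** (twin of `exit_l9_supS`, `L09/BndExit.lean`) -/
theorem l9wt_good (T : ℝ) (F0 : LlFix) (h0 : L8Fix llBase T F0) (hG : LlcG1Exit llBase T) (hlow : L8xLow llBase T) (hfine : L8gFine llBase T) :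
    LLGood fun par => ∃ v0 : ℝ, 0 < v0 ∧ L9wSupS llBase (l9qMj par) (l9qF F0 par) v0 par.kPr := by
  refine l9q_of_stB hG h0 fun pB hSt => ?_
  refine l9q_FilB_intro fun pC eC => ?_
  obtain ⟨p0, hp0, H⟩ := l9wt_supS hlow hfine h0 pB hSt pC.cC
  filter_upwards [l9q_FilC_to pC, l9q_FilC_of (l9q_FD_pStar pC hp0)] with par e1 hp
  obtain ⟨v0, hv0, H2⟩ := H par.pStar par.pStar_pos hp (l9q_expOk par).p_hi
  subst eC
  subst e1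
  exact ⟨v0, hv0, H2 par.kPr⟩

end

end Claimed.Agent.R286
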