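-- OWNER helper299 (HEAD of W5; section head helper60).      Source: LL 09-expansion.tex l.70-140, l.292-306.
import Claimed.Agent.R286.L09.W5
import Claimed.Agent.R286.L09.TrdAbs

/-!
# Row 286 (S0533), unit L09, file W5x: THE CONTRACT `L9xBD` OF THE NODE TRD (helper101, `L09/TrdAbs.lean`) FROM `Q.CCw` (`L09/W5.lean`)      (owner helper299; prefix `l9wx_`, `L9w`, `l9w`)

`L9xBD X0 Xs Sm env n Bd`: `n` pairs per root, `A` = stochastic designated factors `δ = Q^* - S`, `B` = deterministic designated factors (envelope), `|A| + |B| ≥ 5`, the other pairs carry NO factor; ARBITRARY common weight `G`.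
ROUTE:
 1. LOC    `l9wx_loc`, `l9wx_rb_ag`: the signed sums see the weight only through a function of the block of the table (the table of the recursion is rebuilt from its block, `l9wRb`): `G` may be assumed local (`L9wLoc`);
 2. PERM   `l9wx_perm`: the pairs may be relabelled (`rd_root_perm` of 239, `JtNuLaw.comap`);
 3. TOWER  `l9wx_tower`: a LAST pair without factor is summed out: `ν` is pruned, the new weight is `l9wTw` (local: `l9wx_tw_loc`);      TV `l9wx_tw_le`: it costs `(2 a)² 2n (2n + 1)`;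
 4. IND    `l9wx_ind`, `l9wx_bd`: induction on the number of the pairs without factor: `L9xBD` from the case `L9wAD` where EVERY pair is designated;
 5. ALLDES `l9wx_ad`: flat form (276), `δ = Δ + (q - S)`, `l9w_term` (bands + weight check `w^(l + n) ≤ 4^(2 J) w^5` + `Q.CCw`);
 6. POINT  `l9wx_point`.
-/

set_option autoImplicit false

namespace Claimed.Agent.R286

open scoped BigOperators Nat

/-! ## 1. LOC -/

/-- the table of the recursion rebuilt from its block -/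
noncomputable def l9wRb (N : ℕ) : ℕ → ℕ → JtTopo → JtTopo → JtTopo
  | 0, _, τ0, _ => τ0
  | k + 1, q, τ0, τ => l9wRb N k (q + 1) (trAtt N q τ0 (l9aBx τ q) (l9aBj τ q)) τ

/-- **LOC**: the signed sums only see a function of the block -/
theorem l9wx_loc {N : ℕ} {ms : ℕ → ℝ} (k : ℕ) : ∀ {q : ℕ} {τ0 : JtTopo}, IsTr N q τ0 → ∀ (Φ : JtTopo → ℝ) (ρ : JtTopo → JtTopo),
    (∀ τ, L9aAg (q + k) (ρ τ) τ) → trSumK ms N k q τ0 Φ = trSumK ms N k q τ0 fun τ => Φ (l9wRb N k q τ0 (ρ τ)) := by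
  induction k with
  | zero => intro q τ0 _ Φ ρ _; rfl
  | succ k ih =>
    intro q τ0 hτ0 Φ ρ hρ
    rw [trSumK, trSumK]
    unfold trSum
    refine Finset.sum_congr rfl fun x hx => Finset.sum_congr rfl fun j hj => ?_
    have hx' := Finset.mem_range.mp hx
    have hj' : j ≤ N + 1 := by have := Finset.mem_range.mp hj; omega
    by_cases hm : trIsMin τ0 j x
    · congr 1
      have hρ' : ∀ τ, L9aAg (q + 1 + k) (ρ τ) τ := fun τ => by
        rw [show q + 1 + k = q + (k + 1) by omega]; exact hρ τ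
      show trSumK ms N k (q + 1) (trAtt N q τ0 x j) Φ = trSumK ms N k (q + 1) (trAtt N q τ0 x j) fun τ => Φ (l9wRb N (k + 1) q τ0 (ρ τ))
      rw [ih (tr_att_isTr hτ0 hx' hj') Φ ρ hρ']
      refine tr_sumK_congr (tr_att_isTr hτ0 hx' hj') k _ _ fun τ _ hext => ?_
      have hag : L9aAg (q + 1) (ρ τ) (trAtt N q τ0 x j) := by
        intro y z hy hz
        rw [hρ' τ y z (by omega) (by omega), hext y z hy hz]
      obtain ⟨e1, e2⟩ := l9a_birth_att hτ0 hx' hj' hm hag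
      show Φ (l9wRb N k (q + 1) (trAtt N q τ0 x j) (ρ τ)) = Φ (l9wRb N k (q + 1) (trAtt N q τ0 (l9aBx (ρ τ) q) (l9aBj (ρ τ) q)) (ρ τ))
      rw [e1, e2]
    · unfold trWt
      rw [if_neg hm, zero_mul, zero_mul]

/-- the rebuilt table has the same block -/
theorem l9wx_rb_ag {N : ℕ} (k : ℕ) : ∀ {q : ℕ} {τ0 τ : JtTopo}, 1 ≤ q → IsTr N (q + k) τ → L9aAg q τ0 τ → L9aAg (q + k) (l9wRb N k q τ0 τ) τ := by
  induction k with
  | zero => intro q τ0 τ _ _ h; exact h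
  | succ k ih =>
    intro q τ0 τ hq hτ h
    have hτ' : IsTr N (q + 1 + k) τ := by rwa [show q + 1 + k = q + (k + 1) by omega]
    obtain ⟨b1, -, -, -, b5⟩ := l9a_birth (tr_isTr_mono hτ' (by omega) : IsTr N (q + 1) τ) hq
    have h2 : L9aAg (q + 1) (trAtt N q τ0 (l9aBx τ q) (l9aBj τ q)) τ := by
      refine L9aAg.trans ?_ b5.symm
      intro y z hy hz
      unfold trAtt
      split_ifs with c1 c2 c2
      · rfl
      · rw [h (l9aBx τ q) z b1 (by omega)]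
      · rw [h y (l9aBx τ q) (by omega) b1]
      · exact h y z (by omega) (by omega)
    have := ih (by omega) hτ' h2
    rw [show q + (k + 1) = q + 1 + k by omega]
    exact this

/-! ## 2. PERM -/

/-- a function of the block on `r` labels -/
def L9wLoc (r : ℕ) (G : JtTopo → ℝ) : Prop := ∀ τ₁ τ₂ : JtTopo, L9aAg r τ₁ τ₂ → G τ₁ = G τ₂

section perm
variable {S : Type} [Fintype S] [Inhabited S]

omit [Fintype S] [Inhabited S] in
theorem l9wx_dDe_congr (X : JtCtx S) (Sm : ℕ → ℝ) {τ τ' : JtTopo} {i : ℕ} (h : τ' (jtC 0 i) (jtD 0 i) = τ (jtC 0 i) (jtD 0 i)) (σ : ℕ → S) :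
    X.dDe Sm τ' σ i = X.dDe Sm τ σ i := by
  unfold JtCtx.dDe JtCtx.Qs
  rw [h]

omit [Fintype S] [Inhabited S] in
theorem l9wx_uses (X : JtCtx S) (Sm : ℕ → ℝ) (τ : JtTopo) {n : ℕ} {A : Finset ℕ} (hA : A ⊆ Finset.range n) :
    TrUses (2 * n) fun σ => ∏ i ∈ A, X.dDe Sm τ σ i := by
  intro σ σ' H
  refine Finset.prod_congr rfl fun i hi => ?_
  have := Finset.mem_range.1 (hA hi)
  unfold JtCtx.dDe JtCtx.Qs
  rw [H (jtC 0 i) (by unfold jtC; omega), H (jtD 0 i) (by unfold jtD; omega)]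

/-- the number `ν[∏_A δ]` is a function of the block -/
theorem l9wx_nd_congr {X : JtCtx S} {ms : ℕ → ℝ} (h : X.Law ms) (Sm : ℕ → ℝ) {n : ℕ} {A : Finset ℕ} (hA : A ⊆ Finset.range n) {τ τ' : JtTopo}
    (H : L9aAg (2 * n) τ' τ) : X.nu (2 * n) τ' (fun σ => ∏ i ∈ A, X.dDe Sm τ' σ i) = X.nu (2 * n) τ fun σ => ∏ i ∈ A, X.dDe Sm τ σ i := by
  have e : (fun σ => ∏ i ∈ A, X.dDe Sm τ' σ i) = fun σ => ∏ i ∈ A, X.dDe Sm τ σ i := by
    funext σ
    refine Finset.prod_congr rfl fun i hi => l9wx_dDe_congr X Sm (H _ _ ?_ ?_) σ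
    · have := Finset.mem_range.1 (hA hi); unfold jtC; omega
    · have := Finset.mem_range.1 (hA hi); unfold jtD; omega
  rw [e, h.nu.congr _ _ _ H]

/-- relabelling of the pairs in `ν[∏_A δ]` -/
theorem l9wx_nd_perm {X : JtCtx S} {ms : ℕ → ℝ} (h : X.Law ms) (Sm : ℕ → ℝ) {n : ℕ} {A : Finset ℕ} (hA : A ⊆ Finset.range n) {τ : JtTopo}
    (hτ : IsTr X.N (2 * n) τ) (π : Equiv.Perm ℕ) (hπ : ∀ l, n ≤ l → π l = l) :
    X.nu (2 * n) (fun y z => τ (rdLift π y) (rdLift π z)) (fun σ => ∏ i ∈ A, X.dDe Sm (fun y z => τ (rdLift π y) (rdLift π z)) σ i)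
      = X.nu (2 * n) τ fun σ => ∏ i ∈ A.map π.toEmbedding, X.dDe Sm τ σ i := by
  have he2 : ∀ y, 2 * n ≤ y → rdLift π y = y := fun y hy => rd_lift_fix hπ y hy
  rw [← h.nu.comap (2 * n) (2 * n) τ hτ (rdLift π) (fun x hx => tr5_perm_lt _ he2 hx) _ (l9wx_uses X Sm _ hA)]
  congr 1
  funext σ
  rw [Finset.prod_map]
  refine Finset.prod_congr rfl fun i _ => ?_
  unfold JtCtx.dDe JtCtx.Qs
  simp only [Equiv.coe_toEmbedding, rd_lift_C, rd_lift_D]

/-- **PERM**: the pairs may be relabelled -/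
theorem l9wx_perm {X0 Xs : JtCtx S} {ms : ℕ → ℝ} (h0 : X0.Law ms) (hs : Xs.Law ms) (hN : Xs.N = X0.N) (Sm : ℕ → ℝ) {n : ℕ} (hn : 1 ≤ n)
    {G : JtTopo → ℝ} (hG : L9wLoc (2 * n) G) {A : Finset ℕ} (hA : A ⊆ Finset.range n) (π : Equiv.Perm ℕ) (hπ : ∀ l, n ≤ l → π l = l) :
    l9xT X0 Xs Sm n G A = l9xT X0 Xs Sm n (fun τ => G fun y z => τ (rdLift π y) (rdLift π z)) (A.map π.toEmbedding) := by
  have em : 2 * n - 1 + 1 = 2 * n := by omega
  have e1m : 1 + (2 * n - 1) = 2 * n := by omega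
  set Φ : JtTopo → ℝ := fun τ => X0.off 0 n τ * G τ *
    (Xs.nu (2 * n) τ (fun σ => ∏ i ∈ A, Xs.dDe Sm τ σ i) - X0.nu (2 * n) τ fun σ => ∏ i ∈ A, X0.dDe Sm τ σ i) with hΦdef
  have hΦ : ∀ τ₁ τ₂ : JtTopo, (∀ y z, y < 2 * n - 1 + 1 → z < 2 * n - 1 + 1 → τ₁ y z = τ₂ y z) → Φ τ₁ = Φ τ₂ := by
    intro τ₁ τ₂ H
    rw [em] at H
    simp only [hΦdef]
    rw [X0.rd_off_congr (q := 0) (n := n) (τ := τ₂) (τ' := τ₁) (fun y z hy hz => H y z (by omega) (by omega)), hG τ₁ τ₂ H,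
      l9wx_nd_congr hs Sm hA H, l9wx_nd_congr h0 Sm hA H]
  have he : ∀ y, 2 * n - 1 + 1 ≤ y → rdLift π y = y := fun y hy => rd_lift_fix hπ y (by omega)
  have h1 := rd_root_perm (N := X0.N) (ms := ms) (2 * n - 1) Φ hΦ (rdLift π) he
  unfold l9xT
  rw [h0.sumK, h0.sumK]
  refine h1.trans (tr_sumK_congr (JtCtx.Law.tau1_isTr X0) _ _ _ fun τ hτ _ => ?_)
  rw [e1m] at hτ
  have ho : X0.off 0 n (fun y z => τ (rdLift π y) (rdLift π z)) = X0.off 0 n τ := by
    unfold JtCtx.off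
    simp only [rd_lift_C, rd_lift_D]
    conv_rhs => rw [← rd_map_range hπ, Finset.prod_map]
    rfl
  simp only [hΦdef]
  rw [ho, l9wx_nd_perm hs Sm hA (by rw [hN]; exact hτ) π hπ, l9wx_nd_perm h0 Sm hA hτ π hπ]


/-! ## 3. TOWER, TV -/

/-- the weight after the allocation of the last pair, which carries no factor -/
noncomputable def l9wTw (ms : ℕ → ℝ) (N n : ℕ) (G : JtTopo → ℝ) (τ0 : JtTopo) : ℝ :=
  trSumK ms N 2 (2 * n) τ0 fun τ => (if τ (jtC 0 n) (jtD 0 n) ≤ N then (1 : ℝ) else 0) * G τ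

/-- **TOWER**: the last pair carries no factor -/
theorem l9wx_tower {X0 Xs : JtCtx S} {ms : ℕ → ℝ} (h0 : X0.Law ms) (hs : Xs.Law ms) (hN : Xs.N = X0.N) (Sm : ℕ → ℝ) {n : ℕ} (hn : 1 ≤ n)
    (G : JtTopo → ℝ) {A : Finset ℕ} (hA : A ⊆ Finset.range n) :
    l9xT X0 Xs Sm (n + 1) G A = l9xT X0 Xs Sm n (l9wTw ms X0.N n G) A := by
  unfold l9xT
  rw [h0.sumK, h0.sumK, show 2 * (n + 1) - 1 = (2 * n - 1) + 2 by omega, tr_sumK_add]
  refine tr_sumK_congr (JtCtx.Law.tau1_isTr X0) _ _ _ fun τ0 hτ0 _ => ?_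
  rw [show 1 + (2 * n - 1) = 2 * n by omega] at hτ0 ⊢
  unfold l9wTw
  rw [mul_right_comm, tcb_sumK_mul_left]
  refine tr_sumK_congr hτ0 2 _ _ fun τ hτ hext => ?_
  have hA' : A ⊆ Finset.range (n + 1) := hA.trans (Finset.range_subset_range.2 (by omega))
  have hpr : ∀ {X : JtCtx S}, X.Law ms → X.N = X0.N →
      X.nu (2 * (n + 1)) τ (fun σ => ∏ i ∈ A, X.dDe Sm τ σ i) = X.nu (2 * n) τ0 fun σ => ∏ i ∈ A, X.dDe Sm τ0 σ i := by
    intro X hX hXN
    rw [show 2 * (n + 1) = 2 * n + 2 by ring, hX.nu.prune (by rw [hXN]; exact hτ) (l9wx_uses X Sm τ hA)]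
    exact l9wx_nd_congr hX Sm hA hext
  rw [hpr hs hN, hpr h0 rfl]
  have ho : X0.off 0 (n + 1) τ = X0.off 0 n τ0 * (if τ (jtC 0 n) (jtD 0 n) ≤ X0.N then (1 : ℝ) else 0) := by
    unfold JtCtx.off
    rw [Finset.prod_range_succ]
    congr 1
    refine Finset.prod_congr rfl fun i hi => ?_
    have := Finset.mem_range.1 hi
    rw [hext _ _ (by unfold jtC; omega) (by unfold jtD; omega)]
  rw [ho]
  ring

theorem l9wx_tw_loc (ms : ℕ → ℝ) (N n : ℕ) {G : JtTopo → ℝ} (hG : L9wLoc (2 * (n + 1)) G) : L9wLoc (2 * n) (l9wTw ms N n G) := by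
  intro τ₁ τ₂ H
  unfold l9wTw
  refine tr_sumK_tree_congr H 2 _ fun τ τ' H' => ?_
  rw [H' (jtC 0 n) (jtD 0 n) (by unfold jtC; omega) (by unfold jtD; omega), hG τ τ' (by rw [show 2 * (n + 1) = 2 * n + 2 by ring]; exact H')]

open Classical in
/-- **TV** -/
theorem l9wx_tw_le {ms : ℕ → ℝ} {N n : ℕ} (hms : IsMs N ms) {G : JtTopo → ℝ} {τ0 : JtTopo} (hτ0 : IsTr N (2 * n) τ0) {M : ℝ} (hM : 0 ≤ M)
    (hG : ∀ τ, IsTr N (2 * n + 2) τ → L9aAg (2 * n) τ τ0 → τ (jtC 0 n) (jtD 0 n) ≤ N → |G τ| ≤ M) :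
    |l9wTw ms N n G τ0| ≤ (2 * ms N) ^ 2 * (((2 * n : ℕ) : ℝ) * (((2 * n : ℕ) : ℝ) + 1)) * M := by
  unfold l9wTw
  set Φ : JtTopo → ℝ := fun τ => if L9aAg (2 * n) τ τ0 then (if τ (jtC 0 n) (jtD 0 n) ≤ N then (1 : ℝ) else 0) * G τ else 0 with hΦ
  have e1 : trSumK ms N 2 (2 * n) τ0 (fun τ => (if τ (jtC 0 n) (jtD 0 n) ≤ N then (1 : ℝ) else 0) * G τ) = trSumK ms N 2 (2 * n) τ0 Φ := by
    refine tr_sumK_congr hτ0 2 _ _ fun τ _ hext => ?_
    simp only [hΦ]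
    rw [if_pos (show L9aAg (2 * n) τ τ0 from hext)]
  rw [e1]
  refine (tr_sumK_le 2 Φ).trans ((tr_absK_le hτ0 hms 2 Φ M fun τ hτ => ?_).trans (le_of_eq ?_))
  · simp only [hΦ]
    split_ifs with c1 c2
    · rw [one_mul]; exact hG τ hτ c1 c2
    · rw [zero_mul, abs_zero]; exact hM
    · rw [abs_zero]; exact hM
  · rw [Finset.prod_range_succ, Finset.prod_range_one]
    push_cast
    ring


/-! ## 4. IND -/

/-- Lemma 9.1 + the weight check when EVERY pair is designated, local weights -/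
def L9wAD {S : Type} (X0 Xs : JtCtx S) (Sm env : ℕ → ℝ) (J : ℕ) (Bd : ℝ) : Prop :=
  ∀ n, 5 ≤ n → n ≤ J → ∀ (A : Finset ℕ) (G : JtTopo → ℝ) (Λ : ℝ), A ⊆ Finset.range n → L9wLoc (2 * n) G → 0 ≤ Λ →
    (∀ τ, IsTr X0.N (2 * n) τ → (∀ i < n, l9xSp τ i ≤ X0.N) → |G τ| ≤ Λ * ∏ i ∈ Finset.range n \ A, env (l9xSp τ i)) →
    |l9xT X0 Xs Sm n G A| ≤ Λ * Bd

theorem l9wx_sp_lift (τ : JtTopo) (π : Equiv.Perm ℕ) (i : ℕ) : l9xSp (fun y z => τ (rdLift π y) (rdLift π z)) i = l9xSp τ (π i) := by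
  unfold l9xSp
  simp only [rd_lift_C, rd_lift_D]

theorem l9wx_sp_congr {n : ℕ} {τ τ' : JtTopo} (H : L9aAg (2 * n) τ τ') {i : ℕ} (hi : i < n) : l9xSp τ i = l9xSp τ' i := by
  unfold l9xSp
  exact H _ _ (by unfold jtC; omega) (by unfold jtD; omega)

/-- **induction on the number of the pairs without factor** -/
theorem l9wx_ind {X0 Xs : JtCtx S} {ms : ℕ → ℝ} (h0 : X0.Law ms) (hs : Xs.Law ms) (hN : Xs.N = X0.N) {Sm env : ℕ → ℝ} {J : ℕ} {Bd c : ℝ}
    (hAD : L9wAD X0 Xs Sm env J Bd) (hc0 : 0 ≤ c)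
    (hc : (2 * ms X0.N) ^ 2 * (((2 * J : ℕ) : ℝ) * (((2 * J : ℕ) : ℝ) + 1)) ≤ c) (henv : ∀ t ≤ X0.N, 0 ≤ env t) :
    ∀ n, n ≤ J → ∀ (A B : Finset ℕ) (G : JtTopo → ℝ) (Λ : ℝ), A ⊆ Finset.range n → B ⊆ Finset.range n → Disjoint A B → 5 ≤ A.card + B.card →
      L9wLoc (2 * n) G → 0 ≤ Λ →
      (∀ τ, IsTr X0.N (2 * n) τ → (∀ i < n, l9xSp τ i ≤ X0.N) → |G τ| ≤ Λ * ∏ i ∈ B, env (l9xSp τ i)) →
      |l9xT X0 Xs Sm n G A| ≤ Λ * (c ^ (n - (A.card + B.card)) * Bd) := by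
  intro n
  induction n with
  | zero =>
    intro _ A B G Λ hA hB _ h5
    exfalso
    have h1 := Finset.card_le_card hA
    have h2 := Finset.card_le_card hB
    rw [Finset.card_range] at h1 h2
    omega
  | succ n ih =>
    intro hnJ A B G Λ hA hB hAB h5 hG hΛ hbd
    have hcard : A.card + B.card ≤ n + 1 := by
      rw [← Finset.card_union_of_disjoint hAB, ← Finset.card_range (n + 1)]
      exact Finset.card_le_card (Finset.union_subset hA hB)
    by_cases hfull : A.card + B.card = n + 1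
    · have hU : A ∪ B = Finset.range (n + 1) :=
        Finset.eq_of_subset_of_card_le (Finset.union_subset hA hB) (by rw [Finset.card_range, Finset.card_union_of_disjoint hAB]; omega)
      have hB' : B = Finset.range (n + 1) \ A := by
        rw [← hU, Finset.union_sdiff_cancel_left hAB]
      rw [hfull, Nat.sub_self, pow_zero, one_mul]
      exact hAD (n + 1) (by omega) hnJ A G Λ hA hG hΛ (by rw [← hB']; exact hbd)
    · have hlt : A.card + B.card < n + 1 := lt_of_le_of_ne hcard hfull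
      obtain ⟨i0, hi0, hi0'⟩ : ∃ i0 ∈ Finset.range (n + 1), i0 ∉ A ∪ B := by
        by_contra hcon
        have hsub : Finset.range (n + 1) ⊆ A ∪ B := fun i hi => by
          by_contra h
          exact hcon ⟨i, hi, h⟩
        have := Finset.card_le_card hsub
        rw [Finset.card_range, Finset.card_union_of_disjoint hAB] at this
        omega
      have hn1 : 1 ≤ n := by omega
      rw [Finset.mem_range] at hi0
      set π : Equiv.Perm ℕ := Equiv.swap i0 n with hπdef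
      have hπ : ∀ l, n + 1 ≤ l → π l = l := fun l hl => Equiv.swap_apply_of_ne_of_ne (by omega) (by omega)
      have hπlt : ∀ i, i < n + 1 → i ≠ i0 → π i < n := by
        intro i hi hne
        have h1 : π i < n + 1 := tr5_perm_lt π hπ hi
        have h2 : π i ≠ n := by
          intro h
          apply hne
          have : π i = π i0 := by rw [h, hπdef, Equiv.swap_apply_left]
          exact π.injective this
        omega
      have hmap : ∀ C : Finset ℕ, C ⊆ Finset.range (n + 1) → i0 ∉ C → C.map π.toEmbedding ⊆ Finset.range n := by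
        intro C hC h0C x hx
        rw [Finset.mem_map] at hx
        obtain ⟨i, hi, rfl⟩ := hx
        rw [Finset.mem_range]
        exact hπlt i (Finset.mem_range.1 (hC hi)) (fun h => h0C (h ▸ hi))
      have hA' := hmap A hA (fun h => hi0' (Finset.mem_union_left _ h))
      have hB' := hmap B hB (fun h => hi0' (Finset.mem_union_right _ h))
      have he2 : ∀ y, 2 * (n + 1) ≤ y → rdLift π y = y := fun y hy => rd_lift_fix hπ y hy
      set G' : JtTopo → ℝ := fun τ => G fun y z => τ (rdLift π y) (rdLift π z) with hG'def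
      have hG' : L9wLoc (2 * (n + 1)) G' := by
        intro τ₁ τ₂ H
        simp only [hG'def]
        exact hG _ _ fun y z hy hz => H _ _ (tr5_perm_lt _ he2 hy) (tr5_perm_lt _ he2 hz)
      rw [l9wx_perm h0 hs hN Sm (by omega) hG hA π hπ, l9wx_tower h0 hs hN Sm hn1 G' hA']
      have key := ih (by omega) (A.map π.toEmbedding) (B.map π.toEmbedding) (l9wTw ms X0.N n G') (c * Λ) hA' hB'
        ((Finset.disjoint_map _).2 hAB) (by rw [Finset.card_map, Finset.card_map]; exact h5) (l9wx_tw_loc ms X0.N n hG') (mul_nonneg hc0 hΛ) ?_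
      · rw [Finset.card_map, Finset.card_map] at key
        refine key.trans (le_of_eq ?_)
        rw [show n + 1 - (A.card + B.card) = (n - (A.card + B.card)) + 1 by omega, pow_succ]
        ring
      · intro τ0 hτ0 hsp0
        have hM0 : 0 ≤ Λ * ∏ i ∈ B.map π.toEmbedding, env (l9xSp τ0 i) :=
          mul_nonneg hΛ (Finset.prod_nonneg fun i hi => henv _ (hsp0 i (Finset.mem_range.1 (hB' hi))))
        refine (l9wx_tw_le h0.isMs hτ0 hM0 ?_).trans ?_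
        · intro τ hτ hext hod
          have hτ' : IsTr X0.N (2 * (n + 1)) τ := by rwa [show 2 * (n + 1) = 2 * n + 2 by ring]
          have h1 := hbd (fun y z => τ (rdLift π y) (rdLift π z)) (tr_comap_isTr hτ' _ fun x hx => tr5_perm_lt _ he2 hx) (by
            intro i hi
            rw [l9wx_sp_lift]
            have h2 : π i < n + 1 := tr5_perm_lt π hπ hi
            rcases Nat.lt_succ_iff_lt_or_eq.1 h2 with h3 | h3
            · rw [l9wx_sp_congr hext h3]; exact hsp0 _ h3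
            · rw [h3]; exact hod)
          refine h1.trans (le_of_eq ?_)
          rw [Finset.prod_map]
          congr 1
          refine Finset.prod_congr rfl fun i hi => ?_
          rw [l9wx_sp_lift, Equiv.coe_toEmbedding]
          have h3 : π i < n := Finset.mem_range.1 (hB' (Finset.mem_map_of_mem _ hi))
          rw [l9wx_sp_congr hext h3]
        · rw [mul_assoc c]
          refine mul_le_mul_of_nonneg_right (le_trans ?_ hc) hM0
          have h2 : ((2 * n : ℕ) : ℝ) ≤ ((2 * J : ℕ) : ℝ) := by exact_mod_cast (by omega : 2 * n ≤ 2 * J)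
          have h3 : (0 : ℝ) ≤ ((2 * n : ℕ) : ℝ) := Nat.cast_nonneg _
          refine mul_le_mul_of_nonneg_left ?_ (by positivity)
          exact mul_le_mul h2 (by linarith) (by linarith) (by linarith)

/-- **BD5 from the case where every pair is designated** -/
theorem l9wx_bd {X0 Xs : JtCtx S} {ms : ℕ → ℝ} (h0 : X0.Law ms) (hs : Xs.Law ms) (hN : Xs.N = X0.N) {Sm env : ℕ → ℝ} {J : ℕ} {Bd c : ℝ}
    (hAD : L9wAD X0 Xs Sm env J Bd) (hBd : 0 ≤ Bd) (hc1 : 1 ≤ c)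
    (hc : (2 * ms X0.N) ^ 2 * (((2 * J : ℕ) : ℝ) * (((2 * J : ℕ) : ℝ) + 1)) ≤ c) (henv : ∀ t ≤ X0.N, 0 ≤ env t) {n : ℕ} (hn : n ≤ J) :
    L9xBD X0 Xs Sm env n (c ^ n * Bd) := by
  intro A B G Λ hA hB hAB h5 hΛ hG
  have hn1 : 1 ≤ n := by
    have h1 := Finset.card_le_card hA
    have h2 := Finset.card_le_card hB
    rw [Finset.card_range] at h1 h2
    omega
  have e1 : 1 + (2 * n - 1) = 2 * n := by omega
  set Rb : JtTopo → JtTopo := fun τ => l9wRb X0.N (2 * n - 1) 1 X0.tau1 (l9aNm (2 * n) τ) with hRb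
  have hag : ∀ τ, IsTr X0.N (2 * n) τ → L9aAg (2 * n) (Rb τ) τ := by
    intro τ hτ
    have h1 : IsTr X0.N (1 + (2 * n - 1)) (l9aNm (2 * n) τ) := by rw [e1]; exact (l9a_nm_ag (2 * n) τ).symm.isTr hτ
    have h2 : L9aAg 1 X0.tau1 (l9aNm (2 * n) τ) := by
      intro y z hy hz
      have hy0 : y = 0 := by omega
      have hz0 : z = 0 := by omega
      subst hy0; subst hz0
      rw [h1.diag 0 (by omega)]
      rfl
    have h3 := l9wx_rb_ag (2 * n - 1) le_rfl h1 h2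
    rw [e1] at h3
    exact h3.trans (l9a_nm_ag (2 * n) τ)
  set Gt : JtTopo → ℝ := fun τ => G (Rb τ) with hGt
  have hloc : L9wLoc (2 * n) Gt := by
    intro τ₁ τ₂ H
    simp only [hGt, hRb]
    rw [l9a_nm_eq H]
  have e : l9xT X0 Xs Sm n G A = l9xT X0 Xs Sm n Gt A := by
    unfold l9xT
    rw [h0.sumK, h0.sumK, l9wx_loc (2 * n - 1) (JtCtx.Law.tau1_isTr X0) _ (l9aNm (2 * n)) (fun τ => by rw [e1]; exact l9a_nm_ag (2 * n) τ)]
    refine tr_sumK_congr (JtCtx.Law.tau1_isTr X0) _ _ _ fun τ hτ _ => ?_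
    rw [e1] at hτ
    have H := hag τ hτ
    show X0.off 0 n (Rb τ) * G (Rb τ) * (Xs.nu (2 * n) (Rb τ) (fun σ => ∏ i ∈ A, Xs.dDe Sm (Rb τ) σ i)
      - X0.nu (2 * n) (Rb τ) fun σ => ∏ i ∈ A, X0.dDe Sm (Rb τ) σ i) = _
    rw [X0.rd_off_congr (q := 0) (n := n) (τ := τ) (τ' := Rb τ) (fun y z hy hz => H y z (by omega) (by omega)),
      l9wx_nd_congr hs Sm hA H, l9wx_nd_congr h0 Sm hA H]
  rw [e]
  refine (l9wx_ind h0 hs hN hAD (by linarith) hc henv n hn A B Gt Λ hA hB hAB h5 hloc hΛ ?_).trans ?_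
  · intro τ hτ hsp
    have H := hag τ hτ
    have h1 := hG (Rb τ) (H.symm.isTr hτ) (fun i hi => by rw [l9wx_sp_congr H hi]; exact hsp i hi)
    refine h1.trans (le_of_eq ?_)
    congr 1
    exact Finset.prod_congr rfl fun i hi => by rw [l9wx_sp_congr H (Finset.mem_range.1 (hB hi))]
  · refine mul_le_mul_of_nonneg_left (mul_le_mul_of_nonneg_right ?_ hBd) hΛ
    exact pow_le_pow_right₀ hc1 (Nat.sub_le _ _)


/-! ## 5. ALLDES -/

theorem l9wx_sp_eq (τ : JtTopo) (i : ℕ) : l9xSp τ i = τ (2 * i) (2 * i + 1) := by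
  unfold l9xSp jtC jtD
  rw [zero_add]

/-- `δ = Δ + (q - S)` -/
theorem l9wx_expand {X : JtCtx S} {ms : ℕ → ℝ} (h : X.Law ms) (Sm : ℕ → ℝ) (n : ℕ) (A : Finset ℕ) (τ : JtTopo) :
    X.nu (2 * n) τ (fun σ => ∏ i ∈ A, X.dDe Sm τ σ i)
      = ∑ R ∈ A.powerset, l9rNum X R (2 * n) τ * ∏ i ∈ A \ R, (X.qC (l9xSp τ i) - Sm (l9xSp τ i)) := by
  unfold l9rNum
  have e1 : (fun σ : ℕ → S => ∏ i ∈ A, X.dDe Sm τ σ i)
      = fun σ => ∑ R ∈ A.powerset, (∏ i ∈ R, X.Dl τ σ (2 * i) (2 * i + 1)) * ∏ i ∈ A \ R, (X.qC (l9xSp τ i) - Sm (l9xSp τ i)) := by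
    funext σ
    rw [← Finset.prod_add]
    refine Finset.prod_congr rfl fun i _ => ?_
    unfold JtCtx.dDe JtCtx.Dl l9xSp jtC jtD
    rw [zero_add]
    ring
  rw [e1, h.nu.sum]
  exact Finset.sum_congr rfl fun R _ => h.nu.mul_const _ _ _ _

end perm

/-- **ALLDES**: Lemma 9.1 (`CCw`) + the weight check `j + l ≥ 5`, masses `≤ a ≤ 4` (09 l.296-306), every pair designated -/
theorem l9wx_ad {Q : L9Q} {Mj : L9Mj} {e : ℕ → ℝ} {A vt K δm Cf : ℝ} {J : ℕ} (hA : Q.Adm δm) (hCC : Q.CCw Mj e A vt K J) (hx : 0 < Q.x)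
    (hx1 : Q.x ≤ 1) (hlam : 0 < Q.lam) (hxY : Q.x ≤ Q.Y Mj) (hY4 : Q.Y Mj ≤ 4) (ha4 : Q.p.a ≤ 4) (hat : Q.p.a ≤ vt) (he : ∀ t, 0 ≤ e t)
    (hAE : 0 ≤ A * Q.E3 Mj K) {Sm : ℕ → ℝ} (hCf : 1 ≤ Cf) (hf : ∀ t ≤ Q.N, |(Q.X false).qC t - Sm t| ≤ Cf * e t) :
    L9wAD (Q.X false) (Q.X true) Sm e J (2 ^ J * (Q.Lg ^ J * (l9wC J 4 * Cf ^ J * 4 ^ (2 * J) / Q.lam * (A * Q.E3 Mj K)))) := by
  classical
  intro n hn5 hnJ As G Λ hAs hG hΛ hbd
  have h0 := l9c_law Q hA false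
  have hs := l9c_law Q hA true
  have hms : IsMs Q.N Q.ms := h0.isMs
  have hY : 0 < Q.Y Mj := lt_of_lt_of_le hx hxY
  obtain ⟨Kb, hKb1, hKb4, hKbL⟩ := l9w_Kb hx hx1 hxY
  have hC1 := l9w_C_one_le J 4
  have e1 : 1 + (2 * n - 1) = 2 * n := by omega
  have hg0 : ∀ t : ℕ, (0 : ℝ) ≤ (fun _ : ℕ => (0 : ℝ)) t := fun _ => le_rfl
  have hom0 := l9w_om_nonneg hms hg0
  have hvm : ∀ τ i, Q.vm τ i ≤ Q.p.a := fun τ i => l9w_ms_le Q hA _
  set Φ : JtTopo → ℝ := fun τ => (Q.X false).off 0 n τ * G τ *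
    ((Q.X true).nu (2 * n) τ (fun σ => ∏ i ∈ As, (Q.X true).dDe Sm τ σ i) - (Q.X false).nu (2 * n) τ fun σ => ∏ i ∈ As, (Q.X false).dDe Sm τ σ i)
    with hΦdef
  have hΦ : ∀ τ₁ τ₂ : JtTopo, L9aAg (1 + (2 * n - 1)) τ₁ τ₂ → Φ τ₁ = Φ τ₂ := by
    intro τ₁ τ₂ H
    rw [e1] at H
    simp only [hΦdef]
    rw [(Q.X false).rd_off_congr (q := 0) (n := n) (τ := τ₂) (τ' := τ₁) (fun y z hy hz => H y z (by omega) (by omega)), hG τ₁ τ₂ H,
      l9wx_nd_congr hs Sm hAs H, l9wx_nd_congr h0 Sm hAs H]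
  set cR : Finset ℕ → JtTopo → ℝ := fun R τ => ∏ i ∈ As \ R, ((Q.X false).qC (l9xSp τ i) - Sm (l9xSp τ i)) with hcR
  set Hc : Finset ℕ → JtTopo → ℝ := fun R τ => l9aWt Q.ms Q.N 1 (2 * n) τ * ((Q.X false).off 0 n τ * G τ * cR R τ) with hHc
  have eT : l9xT (Q.X false) (Q.X true) Sm n G As = ∑ R ∈ As.powerset, ∑ τ ∈ l9aTab Q.N (2 * n), Hc R τ * Q.dNum R n τ := by
    unfold l9xT
    rw [h0.sumK]
    have := l9a_flat (N := Q.N) (ms := Q.ms) (2 * n - 1) (JtCtx.Law.tau1_isTr (Q.X false)) Φ hΦ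
    rw [e1] at this
    refine this.trans ?_
    rw [Finset.sum_comm]
    refine Finset.sum_congr rfl fun τ _ => ?_
    simp only [hΦdef]
    rw [l9wx_expand hs, l9wx_expand h0, show (Q.X true).qC = (Q.X false).qC from rfl, ← Finset.sum_sub_distrib, Finset.mul_sum, Finset.mul_sum]
    refine Finset.sum_congr rfl fun R _ => ?_
    simp only [hHc, hcR]
    unfold L9Q.dNum
    ring
  set X : ℝ := Λ * (l9wC J 4 * Cf ^ J) * 4 ^ (2 * J) / Q.lam * (A * Q.E3 Mj K) with hX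
  have hΛ' : 0 ≤ Λ * (l9wC J 4 * Cf ^ J) := by positivity
  have hX0 : 0 ≤ X := mul_nonneg (by positivity) hAE
  have hKb : (1 : ℝ) ≤ Kb := by exact_mod_cast hKb1
  have hterm : ∀ R ∈ As.powerset, |∑ τ ∈ l9aTab Q.N (2 * n), Hc R τ * Q.dNum R n τ| ≤ (Kb : ℝ) ^ n * X := by
    intro R hR
    have hRA : R ⊆ As := Finset.mem_powerset.1 hR
    refine l9w_term hCC hms hlam hY he hAE (by omega) hnJ (hRA.trans hAs) hom0
      (by rw [l9w_om_sum, l9w_ms_top]; simp; linarith) (l9aTab Q.N (2 * n)) (Finset.Subset.refl _) hKb1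
      (fun τ _ i _ => ⟨by linarith [hvm τ i], by linarith [hvm τ i]⟩) (Hc R) ?_ hΛ' (by positivity) (fun h => by omega) ?_ ?_
    · intro τ _ hne i hi
      have : (Q.X false).off 0 n τ ≠ 0 := by
        intro hz
        apply hne
        simp only [hHc]
        rw [hz]; ring
      exact l9w_off_ne this i hi
    · intro τ _ β hB l hl1 hln _
      have hw0 : 0 < l9Bw (Q.Y Mj) n β := by unfold l9Bw; positivity
      have hw4 : l9Bw (Q.Y Mj) n β ≤ 4 := l9w_bw_le (by omega) hB hY4 fun i _ => (hvm τ i).trans ha4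
      set w := l9Bw (Q.Y Mj) n β
      rw [← pow_add, show l + n = (l + n - 5) + 5 by omega, pow_add]
      refine mul_le_mul_of_nonneg_right ?_ (by positivity)
      calc w ^ (l + n - 5) ≤ 4 ^ (l + n - 5) := pow_le_pow_left₀ hw0.le hw4 _
        _ ≤ 4 ^ (2 * J) := pow_le_pow_right₀ (by norm_num) (by omega)
    · intro τ hτ
      have hτ' : IsTr Q.N (2 * n) τ := (l9a_mem_tab.1 hτ).1
      have hraw := l9w_raw_nonneg hms he hom0 n R τ
      have hrho : Q.rho n τ = 1 := by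
        unfold L9Q.rho
        rw [if_neg (fun h => by omega)]
      rw [hrho, mul_one]
      by_cases hz : (Q.X false).off 0 n τ = 0
      · simp only [hHc]
        rw [hz]
        simp only [zero_mul, mul_zero, abs_zero]
        exact mul_nonneg hΛ' hraw
      · have hsp : ∀ i < n, l9xSp τ i ≤ Q.N := fun i hi => by rw [l9wx_sp_eq]; exact l9w_off_ne hz i hi
        have b1 := hbd τ hτ' hsp
        have b2 : |cR R τ| ≤ Cf ^ J * ∏ i ∈ As \ R, e (l9xSp τ i) := by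
          simp only [hcR]
          rw [Finset.abs_prod]
          calc ∏ i ∈ As \ R, |(Q.X false).qC (l9xSp τ i) - Sm (l9xSp τ i)| ≤ ∏ i ∈ As \ R, Cf * e (l9xSp τ i) :=
                Finset.prod_le_prod (fun i _ => abs_nonneg _) fun i hi =>
                  hf _ (hsp i (Finset.mem_range.1 (hAs (Finset.mem_sdiff.1 hi).1)))
            _ = Cf ^ (As \ R).card * ∏ i ∈ As \ R, e (l9xSp τ i) := by
                rw [Finset.prod_mul_distrib, Finset.prod_const]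
            _ ≤ Cf ^ J * ∏ i ∈ As \ R, e (l9xSp τ i) := by
                refine mul_le_mul_of_nonneg_right (pow_le_pow_right₀ hCf ?_) (Finset.prod_nonneg fun i _ => he _)
                have h1 := Finset.card_le_card (Finset.sdiff_subset.trans hAs : As \ R ⊆ Finset.range n)
                rw [Finset.card_range] at h1
                omega
        have b3 := l9w_off_abs (Q.X false) 0 n τ
        have b4 := l9w_wt_le hms hg0 hτ'
        rw [l9w_G_zero, mul_one] at b4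
        have hCm : l9wC n (Q.ms Q.N) ≤ l9wC J 4 := l9w_C_mono hnJ (by rw [l9w_ms_top]; exact ha4)
        set P := ∏ s ∈ Finset.Ico 1 (2 * n), l9wSl Q.ms Q.N 1 (l9wOm Q.ms Q.N fun _ => 0) n τ s with hP
        have hP0 : 0 ≤ P := Finset.prod_nonneg fun s _ => l9w_sl_nonneg hms zero_le_one hom0 _ _ _
        have hE1 : 0 ≤ ∏ i ∈ Finset.range n \ As, e (l9xSp τ i) := Finset.prod_nonneg fun i _ => he _
        have hE2 : 0 ≤ ∏ i ∈ As \ R, e (l9xSp τ i) := Finset.prod_nonneg fun i _ => he _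
        have eE : (∏ i ∈ Finset.range n \ As, e (l9xSp τ i)) * ∏ i ∈ As \ R, e (l9xSp τ i)
            = ∏ i ∈ Finset.range n \ R, e (τ (2 * i) (2 * i + 1)) := by
          have hsub : As \ R ⊆ Finset.range n \ R := Finset.sdiff_subset_sdiff hAs le_rfl
          rw [← Finset.prod_sdiff hsub]
          have e2 : (Finset.range n \ R) \ (As \ R) = Finset.range n \ As := by
            ext i
            simp only [Finset.mem_sdiff]
            constructor
            · rintro ⟨⟨h1, h2⟩, h3⟩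
              exact ⟨h1, fun h => h3 ⟨h, h2⟩⟩
            · rintro ⟨h1, h2⟩
              exact ⟨⟨h1, fun h => h2 (hRA h)⟩, fun h => h2 h.1⟩
          rw [e2]
          simp only [l9wx_sp_eq]
        have hCJ : 0 ≤ Cf ^ J := by positivity
        simp only [hHc]
        rw [abs_mul, abs_mul, abs_mul]
        unfold L9Q.Raw
        rw [← eE, ← hP]
        calc |l9aWt Q.ms Q.N 1 (2 * n) τ| * (|(Q.X false).off 0 n τ| * |G τ| * |cR R τ|)
            ≤ (l9wC J 4 * P) * (1 * (Λ * ∏ i ∈ Finset.range n \ As, e (l9xSp τ i)) * (Cf ^ J * ∏ i ∈ As \ R, e (l9xSp τ i))) := by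
              refine mul_le_mul (b4.trans (mul_le_mul_of_nonneg_right hCm hP0)) ?_ (by positivity) (by positivity)
              refine mul_le_mul (mul_le_mul b3 b1 (abs_nonneg _) zero_le_one) b2 (abs_nonneg _) (by positivity)
          _ = _ := by ring
  rw [eT]
  refine (Finset.abs_sum_le_sum_abs _ _).trans ((Finset.sum_le_sum hterm).trans ?_)
  rw [Finset.sum_const, nsmul_eq_mul, Finset.card_powerset]
  push_cast
  have h1 : (2 : ℝ) ^ As.card ≤ 2 ^ J := by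
    refine pow_le_pow_right₀ (by norm_num) ?_
    have h1 := Finset.card_le_card hAs
    rw [Finset.card_range] at h1
    omega
  have h2 : (Kb : ℝ) ^ n ≤ Q.Lg ^ J :=
    (pow_le_pow_right₀ hKb hnJ).trans (pow_le_pow_left₀ (Nat.cast_nonneg _) hKbL _)
  calc (2 : ℝ) ^ As.card * ((Kb : ℝ) ^ n * X) ≤ 2 ^ J * (Q.Lg ^ J * X) :=
        mul_le_mul h1 (mul_le_mul_of_nonneg_right h2 hX0) (by positivity) (by positivity)
    _ = _ := by rw [hX]; ring

/-! ## 6. POINT -/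

/-- constant of a pair without factor -/
noncomputable def l9wxC (J : ℕ) : ℝ := 64 * (((2 * J : ℕ) : ℝ) * (((2 * J : ℕ) : ℝ) + 1)) + 1

/-- **BD5 at one point** (09 l.292-306) from Lemma 9.1 on full tables -/
theorem l9wx_point {Q : L9Q} {Mj : L9Mj} {e : ℕ → ℝ} {A vt K δm Cf : ℝ} {J : ℕ} (hA : Q.Adm δm) (hCC : Q.CCw Mj e A vt K J) (hx : 0 < Q.x)
    (hx1 : Q.x ≤ 1) (hlam : 0 < Q.lam) (hxY : Q.x ≤ Q.Y Mj) (hY4 : Q.Y Mj ≤ 4) (ha4 : Q.p.a ≤ 4) (hat : Q.p.a ≤ vt) (he : ∀ t, 0 ≤ e t)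
    (hAE : 0 ≤ A * Q.E3 Mj K) {Sm : ℕ → ℝ} (hCf : 1 ≤ Cf) (hf : ∀ t ≤ Q.N, |(Q.X false).qC t - Sm t| ≤ Cf * e t) {n : ℕ} (hn : n ≤ J) :
    L9xBD (Q.X false) (Q.X true) Sm e n
      (l9wxC J ^ n * (2 ^ J * (Q.Lg ^ J * (l9wC J 4 * Cf ^ J * 4 ^ (2 * J) / Q.lam * (A * Q.E3 Mj K))))) := by
  have hAD := l9wx_ad hA hCC hx hx1 hlam hxY hY4 ha4 hat he hAE hCf hf
  obtain ⟨Kb, hKb1, -, hKbL⟩ := l9w_Kb hx hx1 hxY
  have hLg : 0 ≤ Q.Lg := le_trans (Nat.cast_nonneg Kb) hKbL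
  have hC1 := l9w_C_one_le J 4
  have hJ0 : (0 : ℝ) ≤ ((2 * J : ℕ) : ℝ) := Nat.cast_nonneg _
  refine l9wx_bd (l9c_law Q hA false) (l9c_law Q hA true) rfl hAD ?_ ?_ ?_ (fun t _ => he t) hn
  · have : 0 ≤ l9wC J 4 * Cf ^ J * 4 ^ (2 * J) / Q.lam := by positivity
    exact mul_nonneg (by positivity) (mul_nonneg (pow_nonneg hLg _) (mul_nonneg this hAE))
  · unfold l9wxC
    nlinarith [mul_nonneg hJ0 (by linarith : (0 : ℝ) ≤ ((2 * J : ℕ) : ℝ) + 1)]
  · show (2 * Q.ms Q.N) ^ 2 * _ ≤ _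
    rw [l9w_ms_top]
    unfold l9wxC
    have ha0 := hA.a_pos
    have h1 : (2 * Q.p.a) ^ 2 ≤ 64 := by nlinarith
    have h2 : 0 ≤ ((2 * J : ℕ) : ℝ) * (((2 * J : ℕ) : ℝ) + 1) := mul_nonneg hJ0 (by linarith)
    nlinarith [mul_le_mul_of_nonneg_right h1 h2]

theorem l9wx_defs_eqns_cite : True := by
  have := @l9wRb.eq_1; have := @L9wLoc.eq_1; have := @l9wTw.eq_1; have := @L9wAD.eq_1; have := @l9wxC.eq_1
  trivial

end Claimed.Agent.R286
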